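import Crest.Agent.Helper32.Snaky.Gen.R1_0_p2
set_option autoImplicit false
set_option maxRecDepth 100000
set_option linter.all false
set_option Elab.async false
namespace Crest.Agent.Helper32.Snaky.R1_0
@[reducible] def W_22 (d M Bz Z : Nat) : Prop := Crest.Agent.Helper32.Snaky.Wins (nat_lit 17) d M Bz Z
theorem D_22 {d M Bz Z : Nat} (m t1 t2 o1 x1 y1 o2 x2 y2 : Nat) (h : Crest.Agent.Helper32.Snaky.chkDoubleC (nat_lit 17) d M Bz Z m t1 t2 o1 x1 y1 o2 x2 y2 = true) : W_22 d M Bz Z := Crest.Agent.Helper32.Snaky.doubleC m t1 t2 o1 x1 y1 o2 x2 y2 h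
theorem T_22 {d M Bz Z cd cM cBz cZ : Nat} (m t o x y : Nat) (child : W_22 cd cM cBz cZ) (h : Crest.Agent.Helper32.Snaky.chkThreatC (nat_lit 17) d M Bz Z cd cM cBz cZ m t o x y = true) : W_22 d M Bz Z := Crest.Agent.Helper32.Snaky.threatC m t o x y child h
theorem Q_22 {d M Bz Z : Nat} (m : Nat) {l : List Crest.Agent.Helper32.Snaky.Spec} (kids : Crest.Agent.Helper32.Snaky.AllWins (nat_lit 17) l) (h : Crest.Agent.Helper32.Snaky.chkQuiet d M Bz Z m l = true) : W_22 d M Bz Z := Crest.Agent.Helper32.Snaky.quiet m kids h
theorem C_22 {cd cM cBz cZ : Nat} {l : List Crest.Agent.Helper32.Snaky.Spec} (h : W_22 cd cM cBz cZ) (hl : Crest.Agent.Helper32.Snaky.AllWins (nat_lit 17) l) : Crest.Agent.Helper32.Snaky.AllWins (nat_lit 17) ((cd, cM, cBz, cZ) :: l) := Crest.Agent.Helper32.Snaky.AllWins.cons h hl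
theorem N_22 : Crest.Agent.Helper32.Snaky.AllWins (nat_lit 17) [] := Crest.Agent.Helper32.Snaky.AllWins.nil
theorem L4722 : W_22 (nat_lit 2) (nat_lit 0x80014000f00008001000080000000000000000000000000000000) (nat_lit 0x0) (nat_lit 0x3000000000000400000000000000000000000000000000000) := D_22 (nat_lit 193) (nat_lit 192) (nat_lit 142) (nat_lit 1) (nat_lit 9) (nat_lit 10) (nat_lit 7) (nat_lit 6) (nat_lit 8) (by decide +kernel)
theorem L4723 : W_22 (nat_lit 3) (nat_lit 0x14000f00008001000080000000000000000000000000000000) (nat_lit 0x0) (nat_lit 0x1000080003000000000000400000000000000000000000000000000000) := T_22 (nat_lit 211) (nat_lit 228) (nat_lit 4) (nat_lit 7) (nat_lit 13) L4722 (by decide +kernel)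
theorem L4724 : W_22 (nat_lit 4) (nat_lit 0x4000f00008001000080000000000000000000000000000000) (nat_lit 0x0) (nat_lit 0x1000080033000000000000400000000000000000000000000000000000) := T_22 (nat_lit 196) (nat_lit 197) (nat_lit 3) (nat_lit 6) (nat_lit 10) L4723 (by decide +kernel)
theorem L4725 : W_22 (nat_lit 5) (nat_lit 0x4000f00000001000080000000000000000000000000000000) (nat_lit 0x0) (nat_lit 0x100008003300000000c000400000000000000000000000000000000000) := T_22 (nat_lit 159) (nat_lit 158) (nat_lit 0) (nat_lit 9) (nat_lit 10) L4724 (by decide +kernel)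
theorem L4726 : W_22 (nat_lit 2) (nat_lit 0x14000f00058001000080000000000000000000000000000000) (nat_lit 0x0) (nat_lit 0x1000080000000000000000400000000000000000000000000000000000) := D_22 (nat_lit 211) (nat_lit 142) (nat_lit 228) (nat_lit 4) (nat_lit 7) (nat_lit 12) (nat_lit 4) (nat_lit 7) (nat_lit 13) (by decide +kernel)
theorem L4727 : W_22 (nat_lit 3) (nat_lit 0x14000f00048001000080000000000000000000000000000000) (nat_lit 0x0) (nat_lit 0x1000080000000000010000c00000000000000000000000000000000000) := T_22 (nat_lit 160) (nat_lit 143) (nat_lit 6) (nat_lit 7) (nat_lit 11) L4726 (by decide +kernel)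
theorem L4728 : W_22 (nat_lit 4) (nat_lit 0x14000f00040001000080000000000000000000000000000000) (nat_lit 0x0) (nat_lit 0x100008000000000001c000c00000000000000000000000000000000000) := T_22 (nat_lit 159) (nat_lit 158) (nat_lit 0) (nat_lit 9) (nat_lit 10) L4727 (by decide +kernel)
theorem L4729 : W_22 (nat_lit 5) (nat_lit 0x4000f00040001000080000000000000000000000000000000) (nat_lit 0x0) (nat_lit 0x100008003000000001c000c00000000000000000000000000000000000) := T_22 (nat_lit 196) (nat_lit 197) (nat_lit 3) (nat_lit 6) (nat_lit 10) L4728 (by decide +kernel)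
theorem L4730 : W_22 (nat_lit 6) (nat_lit 0x4000f00000001000080000000000000000000000000000000) (nat_lit 0x0) (nat_lit 0x10000800300000000dc000c00000000000000000000000000000000000) := T_22 (nat_lit 162) (nat_lit 163) (nat_lit 2) (nat_lit 6) (nat_lit 10) L4729 (by decide +kernel)
theorem L4731 : W_22 (nat_lit 2) (nat_lit 0x6000f00048001400080000000000000000000000000000000) (nat_lit 0x0) (nat_lit 0x10000800040000000000000000000000000000000) := D_22 (nat_lit 143) (nat_lit 126) (nat_lit 160) (nat_lit 6) (nat_lit 6) (nat_lit 11) (nat_lit 6) (nat_lit 7) (nat_lit 11) (by decide +kernel)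
theorem L4732 : W_22 (nat_lit 3) (nat_lit 0x6000f00048001000080000000000000000000000000000000) (nat_lit 0x0) (nat_lit 0x80000000000010000c00040000000000000000000000000000000) := T_22 (nat_lit 142) (nat_lit 211) (nat_lit 7) (nat_lit 6) (nat_lit 8) L4731 (by decide +kernel)
theorem L4733 : W_22 (nat_lit 4) (nat_lit 0x6000f00008001000080000000000000000000000000000000) (nat_lit 0x0) (nat_lit 0x800000000000d0000c00040000000000000000000000000000000) := T_22 (nat_lit 162) (nat_lit 163) (nat_lit 2) (nat_lit 6) (nat_lit 10) L4732 (by decide +kernel)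
theorem L4734 : W_22 (nat_lit 5) (nat_lit 0x4000f00008001000080000000000000000000000000000000) (nat_lit 0x0) (nat_lit 0x800030000000d0000c00040000000000000000000000000000000) := T_22 (nat_lit 193) (nat_lit 192) (nat_lit 1) (nat_lit 9) (nat_lit 10) L4733 (by decide +kernel)
theorem L4735 : W_22 (nat_lit 6) (nat_lit 0x4000f00000001000080000000000000000000000000000000) (nat_lit 0x0) (nat_lit 0x800030000000dc000c00040000000000000000000000000000000) := T_22 (nat_lit 159) (nat_lit 158) (nat_lit 0) (nat_lit 9) (nat_lit 10) L4734 (by decide +kernel)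
theorem L4738 : W_22 (nat_lit 4) (nat_lit 0x1000000016000f00048001000080000000000000000000000000000000) (nat_lit 0x0) (nat_lit 0xc00060008000000010000800000000000000000000000000000000000) := T_22 (nat_lit 160) (nat_lit 143) (nat_lit 6) (nat_lit 7) (nat_lit 11) L4737 (by decide +kernel)
theorem L4739 : W_22 (nat_lit 5) (nat_lit 0x1000000014000f00048001000080000000000000000000000000000000) (nat_lit 0x0) (nat_lit 0xc0006000b000000010000800000000000000000000000000000000000) := T_22 (nat_lit 193) (nat_lit 192) (nat_lit 1) (nat_lit 9) (nat_lit 10) L4738 (by decide +kernel)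
theorem L4740 : W_22 (nat_lit 6) (nat_lit 0x14000f00048001000080000000000000000000000000000000) (nat_lit 0x0) (nat_lit 0x1c000e000b000000010000800000000000000000000000000000000000) := T_22 (nat_lit 228) (nat_lit 211) (nat_lit 4) (nat_lit 7) (nat_lit 13) L4739 (by decide +kernel)
theorem L4741 : W_22 (nat_lit 7) (nat_lit 0x14000f00008001000080000000000000000000000000000000) (nat_lit 0x0) (nat_lit 0x1c000e000b0000000d0000800000000000000000000000000000000000) := T_22 (nat_lit 162) (nat_lit 163) (nat_lit 2) (nat_lit 6) (nat_lit 10) L4740 (by decide +kernel)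
theorem L4742 : W_22 (nat_lit 8) (nat_lit 0x14000f00000001000080000000000000000000000000000000) (nat_lit 0x0) (nat_lit 0x1c000e000b0000000dc000800000000000000000000000000000000000) := T_22 (nat_lit 159) (nat_lit 158) (nat_lit 0) (nat_lit 9) (nat_lit 10) L4741 (by decide +kernel)
theorem L4743 : W_22 (nat_lit 9) (nat_lit 0x4000f00000001000080000000000000000000000000000000) (nat_lit 0x0) (nat_lit 0x1c000e003b0000000dc000800000000000000000000000000000000000) := T_22 (nat_lit 196) (nat_lit 197) (nat_lit 3) (nat_lit 6) (nat_lit 10) L4742 (by decide +kernel)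
theorem L4744 : W_22 (nat_lit 2) (nat_lit 0x40016000f00058001000080000000000000000000000000000000) (nat_lit 0x0) (nat_lit 0x400020008000000000000000000000000000000000000000000000000) := D_22 (nat_lit 209) (nat_lit 226) (nat_lit 195) (nat_lit 5) (nat_lit 6) (nat_lit 9) (nat_lit 1) (nat_lit 9) (nat_lit 11) (by decide +kernel)
theorem L4745 : W_22 (nat_lit 3) (nat_lit 0x16000f00058001000080000000000000000000000000000000) (nat_lit 0x0) (nat_lit 0xc00060008000000000000000000000000000000000000000000000000) := T_22 (nat_lit 210) (nat_lit 227) (nat_lit 6) (nat_lit 6) (nat_lit 13) L4744 (by decide +kernel)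
theorem L4746 : W_22 (nat_lit 4) (nat_lit 0x14000f00058001000080000000000000000000000000000000) (nat_lit 0x0) (nat_lit 0xc0006000b000000000000000000000000000000000000000000000000) := T_22 (nat_lit 193) (nat_lit 192) (nat_lit 1) (nat_lit 9) (nat_lit 10) L4745 (by decide +kernel)
theorem L4747 : W_22 (nat_lit 5) (nat_lit 0x14000f00050001000080000000000000000000000000000000) (nat_lit 0x0) (nat_lit 0xc0006000b00000000c000000000000000000000000000000000000000) := T_22 (nat_lit 159) (nat_lit 158) (nat_lit 0) (nat_lit 9) (nat_lit 10) L4746 (by decide +kernel)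
theorem L4748 : W_22 (nat_lit 6) (nat_lit 0x14000f00010001000080000000000000000000000000000000) (nat_lit 0x0) (nat_lit 0xc0006000b0000000cc000000000000000000000000000000000000000) := T_22 (nat_lit 162) (nat_lit 163) (nat_lit 2) (nat_lit 6) (nat_lit 10) L4747 (by decide +kernel)
theorem L4749 : W_22 (nat_lit 7) (nat_lit 0x4000f00010001000080000000000000000000000000000000) (nat_lit 0x0) (nat_lit 0xc0006003b0000000cc000000000000000000000000000000000000000) := T_22 (nat_lit 196) (nat_lit 197) (nat_lit 3) (nat_lit 6) (nat_lit 10) L4748 (by decide +kernel)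
theorem L4750 : W_22 (nat_lit 8) (nat_lit 0x4000f00000001000080000000000000000000000000000000) (nat_lit 0x0) (nat_lit 0xc0006003b0000000dc000800000000000000000000000000000000000) := T_22 (nat_lit 160) (nat_lit 143) (nat_lit 6) (nat_lit 7) (nat_lit 11) L4749 (by decide +kernel)
theorem L4751 : W_22 (nat_lit 2) (nat_lit 0x200024001e000f00050001000080000000000000000000000000000000) (nat_lit 0x0) (nat_lit 0xc0004000000000000000000000000000000000000000000000000000000000) := D_22 (nat_lit 230) (nat_lit 246) (nat_lit 247) (nat_lit 5) (nat_lit 9) (nat_lit 10) (nat_lit 4) (nat_lit 9) (nat_lit 14) (by decide +kernel)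
theorem L4752 : W_22 (nat_lit 3) (nat_lit 0x24001e000f00050001000080000000000000000000000000000000) (nat_lit 0x0) (nat_lit 0xc0006000100000000000000000000000000000000000000000000000000000) := T_22 (nat_lit 229) (nat_lit 212) (nat_lit 6) (nat_lit 8) (nat_lit 13) L4751 (by decide +kernel)
theorem L4753 : W_22 (nat_lit 4) (nat_lit 0x4001e000f00050001000080000000000000000000000000000000) (nat_lit 0x0) (nat_lit 0xc0006000700000000000000000000000000000000000000000000000000000) := T_22 (nat_lit 213) (nat_lit 214) (nat_lit 3) (nat_lit 6) (nat_lit 11) L4752 (by decide +kernel)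
theorem L4754 : W_22 (nat_lit 5) (nat_lit 0x40016000f00050001000080000000000000000000000000000000) (nat_lit 0x0) (nat_lit 0xc0006000720008000000000000000000000000000000000000000000000000) := T_22 (nat_lit 195) (nat_lit 209) (nat_lit 1) (nat_lit 9) (nat_lit 11) L4753 (by decide +kernel)
theorem L4755 : W_22 (nat_lit 6) (nat_lit 0x16000f00050001000080000000000000000000000000000000) (nat_lit 0x0) (nat_lit 0xc0006800760008000000000000000000000000000000000000000000000000) := T_22 (nat_lit 210) (nat_lit 227) (nat_lit 6) (nat_lit 6) (nat_lit 13) L4754 (by decide +kernel)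
theorem L4756 : W_22 (nat_lit 7) (nat_lit 0x16000f00040001000080000000000000000000000000000000) (nat_lit 0x0) (nat_lit 0xc0006800760008000000010000800000000000000000000000000000000000) := T_22 (nat_lit 160) (nat_lit 143) (nat_lit 6) (nat_lit 7) (nat_lit 11) L4755 (by decide +kernel)
theorem L4757 : W_22 (nat_lit 8) (nat_lit 0x16000f00000001000080000000000000000000000000000000) (nat_lit 0x0) (nat_lit 0xc00068007600080000000d0000800000000000000000000000000000000000) := T_22 (nat_lit 162) (nat_lit 163) (nat_lit 2) (nat_lit 6) (nat_lit 10) L4756 (by decide +kernel)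
theorem L4758 : W_22 (nat_lit 9) (nat_lit 0x6000f00000001000080000000000000000000000000000000) (nat_lit 0x0) (nat_lit 0xc00068007600380000000d0000800000000000000000000000000000000000) := T_22 (nat_lit 196) (nat_lit 197) (nat_lit 3) (nat_lit 6) (nat_lit 10) L4757 (by decide +kernel)
theorem L4759 : W_22 (nat_lit 10) (nat_lit 0x4000f00000001000080000000000000000000000000000000) (nat_lit 0x0) (nat_lit 0xc000680076003b0000000d0000800000000000000000000000000000000000) := T_22 (nat_lit 193) (nat_lit 192) (nat_lit 1) (nat_lit 9) (nat_lit 10) L4758 (by decide +kernel)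
theorem L4760 : W_22 (nat_lit 11) (nat_lit 0xf00000001000080000000000000000000000000000000) (nat_lit 0x0) (nat_lit 0xc0007c007e003f0000000dc000c00040000000000000000000000000000000) := Q_22 (nat_lit 194) (C_22 L4725 (C_22 L4730 (C_22 L4735 (C_22 L4743 (C_22 L4750 (C_22 L4759 N_22)))))) (by decide +kernel)
theorem L4761 : W_22 (nat_lit 2) (nat_lit 0x11000f00008001000080000000000000000000000000000000) (nat_lit 0x0) (nat_lit 0x8800080000000000000000000000000000000000000000000) := D_22 (nat_lit 175) (nat_lit 195) (nat_lit 191) (nat_lit 3) (nat_lit 5) (nat_lit 10) (nat_lit 1) (nat_lit 8) (nat_lit 10) (by decide +kernel)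
theorem L4762 : W_22 (nat_lit 3) (nat_lit 0x1000f00008001000080000000000000000000000000000000) (nat_lit 0x0) (nat_lit 0x38800080000000000000000000000000000000000000000000) := T_22 (nat_lit 196) (nat_lit 197) (nat_lit 3) (nat_lit 6) (nat_lit 10) L4761 (by decide +kernel)
theorem L4763 : W_22 (nat_lit 4) (nat_lit 0xf00008001000080000000000000000000000000000000) (nat_lit 0x0) (nat_lit 0x3b800080000000000000000000000000000000000000000000) := T_22 (nat_lit 192) (nat_lit 193) (nat_lit 1) (nat_lit 9) (nat_lit 10) L4762 (by decide +kernel)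
theorem L4764 : W_22 (nat_lit 5) (nat_lit 0xf00000001000080000000000000000000000000000000) (nat_lit 0x0) (nat_lit 0x3b80008000c000000000000000000000000000000000000000) := T_22 (nat_lit 159) (nat_lit 158) (nat_lit 0) (nat_lit 9) (nat_lit 10) L4763 (by decide +kernel)
theorem L4775 : W_22 (nat_lit 12) (nat_lit 0xe00000001000080000000000000000000000000000000) (nat_lit 0x0) (nat_lit 0xc0007c007e003f8001800de000c00040000000000000000000000000000000) := Q_22 (nat_lit 176) (C_22 L4760 (C_22 L4764 (C_22 L4767 (C_22 L4771 (C_22 L4774 N_22))))) (by decide +kernel)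
theorem L4782 : W_22 (nat_lit 2) (nat_lit 0x40003e00090001000080000000000000000000000000000000) (nat_lit 0x0) (nat_lit 0xc000000000000800000000000000000000000000000000000) := D_22 (nat_lit 194) (nat_lit 195) (nat_lit 143) (nat_lit 1) (nat_lit 11) (nat_lit 10) (nat_lit 6) (nat_lit 7) (nat_lit 11) (by decide +kernel)
theorem L4783 : W_22 (nat_lit 3) (nat_lit 0x40001e00090001000080000000000000000000000000000000) (nat_lit 0x0) (nat_lit 0x8c002000000000800000000000000000000000000000000000) := T_22 (nat_lit 181) (nat_lit 199) (nat_lit 3) (nat_lit 8) (nat_lit 10) L4782 (by decide +kernel)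
theorem L4784 : W_22 (nat_lit 4) (nat_lit 0x40001e00080001000080000000000000000000000000000000) (nat_lit 0x0) (nat_lit 0x8c002000018000800000000000000000000000000000000000) := T_22 (nat_lit 160) (nat_lit 159) (nat_lit 0) (nat_lit 10) (nat_lit 10) L4783 (by decide +kernel)
theorem L4785 : W_22 (nat_lit 5) (nat_lit 0x1e00080001000080000000000000000000000000000000) (nat_lit 0x0) (nat_lit 0xec002000018000800000000000000000000000000000000000) := T_22 (nat_lit 198) (nat_lit 197) (nat_lit 3) (nat_lit 7) (nat_lit 10) L4784 (by decide +kernel)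
theorem L4786 : W_22 (nat_lit 6) (nat_lit 0x1e00000001000080000000000000000000000000000000) (nat_lit 0x0) (nat_lit 0xec002000198000800000000000000000000000000000000000) := T_22 (nat_lit 163) (nat_lit 164) (nat_lit 2) (nat_lit 7) (nat_lit 10) L4785 (by decide +kernel)
theorem L4790 : W_22 (nat_lit 7) (nat_lit 0xe00000001000080000000000000000000000000000000) (nat_lit 0x0) (nat_lit 0xee003000398000800000000000000000000000000000000000) := Q_22 (nat_lit 180) (C_22 L4777 (C_22 L4781 (C_22 L4786 (C_22 L4789 N_22)))) (by decide +kernel)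
theorem L4803 : W_22 (nat_lit 2) (nat_lit 0x4001f00080001000080000000000000000000000000000000) (nat_lit 0x0) (nat_lit 0x70000000000000000000000000000000000000000000000000) := D_22 (nat_lit 197) (nat_lit 198) (nat_lit 196) (nat_lit 3) (nat_lit 7) (nat_lit 10) (nat_lit 3) (nat_lit 6) (nat_lit 10) (by decide +kernel)
theorem L4804 : W_22 (nat_lit 3) (nat_lit 0x4001e00080001000080000000000000000000000000000000) (nat_lit 0x0) (nat_lit 0x70000100040000000000000000000000000000000000000000) := T_22 (nat_lit 176) (nat_lit 162) (nat_lit 2) (nat_lit 6) (nat_lit 10) L4803 (by decide +kernel)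
theorem L4805 : W_22 (nat_lit 4) (nat_lit 0x4001e00000001000080000000000000000000000000000000) (nat_lit 0x0) (nat_lit 0x700001001c0000000000000000000000000000000000000000) := T_22 (nat_lit 163) (nat_lit 164) (nat_lit 2) (nat_lit 7) (nat_lit 10) L4804 (by decide +kernel)
theorem L4806 : W_22 (nat_lit 5) (nat_lit 0x1e00000001000080000000000000000000000000000000) (nat_lit 0x0) (nat_lit 0x760001001c0000000000000000000000000000000000000000) := T_22 (nat_lit 194) (nat_lit 193) (nat_lit 1) (nat_lit 10) (nat_lit 10) L4805 (by decide +kernel)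
theorem L4807 : W_22 (nat_lit 8) (nat_lit 0xe00000001000080000000000000000000000000000000) (nat_lit 0x0) (nat_lit 0xfe0031c03ce000000000000000000000000000000000000000) := Q_22 (nat_lit 180) (C_22 L4789 (C_22 L4796 (C_22 L4802 (C_22 L4806 N_22)))) (by decide +kernel)
theorem L4822 : W_22 (nat_lit 2) (nat_lit 0x1f00090001000080000000000000000000000000000000) (nat_lit 0x0) (nat_lit 0x70000000000000000000000000000000000000000000000000) := D_22 (nat_lit 197) (nat_lit 198) (nat_lit 196) (nat_lit 3) (nat_lit 7) (nat_lit 10) (nat_lit 3) (nat_lit 6) (nat_lit 10) (by decide +kernel)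
theorem L4823 : W_22 (nat_lit 3) (nat_lit 0x1e00090001000080000000000000000000000000000000) (nat_lit 0x0) (nat_lit 0x70000100040000000000000000000000000000000000000000) := T_22 (nat_lit 176) (nat_lit 162) (nat_lit 2) (nat_lit 6) (nat_lit 10) L4822 (by decide +kernel)
theorem L4824 : W_22 (nat_lit 4) (nat_lit 0x1e00010001000080000000000000000000000000000000) (nat_lit 0x0) (nat_lit 0x700001001c0000000000000000000000000000000000000000) := T_22 (nat_lit 163) (nat_lit 164) (nat_lit 2) (nat_lit 7) (nat_lit 10) L4823 (by decide +kernel)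
theorem L4825 : W_22 (nat_lit 5) (nat_lit 0x1e00000001000080000000000000000000000000000000) (nat_lit 0x0) (nat_lit 0x700001001d8000000000000000000000000000000000000000) := T_22 (nat_lit 160) (nat_lit 159) (nat_lit 0) (nat_lit 10) (nat_lit 10) L4824 (by decide +kernel)
theorem L4826 : W_22 (nat_lit 10) (nat_lit 0xe00000001000080000000000000000000000000000000) (nat_lit 0x0) (nat_lit 0x100008000cc00fc0031c03d8000800000000000000000000000000000000000) := Q_22 (nat_lit 180) (C_22 L4789 (C_22 L4813 (C_22 L4821 (C_22 L4825 N_22)))) (by decide +kernel)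
theorem L4839 : W_22 (nat_lit 6) (nat_lit 0xe00000001000080000000000000000000000000000000) (nat_lit 0x0) (nat_lit 0x778011801de000000000000000000000000000000000000000) := Q_22 (nat_lit 176) (C_22 L4771 (C_22 L4830 (C_22 L4834 (C_22 L4838 N_22)))) (by decide +kernel)
theorem L4843 : W_22 (nat_lit 5) (nat_lit 0xf00008001000080000000000000000000000000000000) (nat_lit 0x0) (nat_lit 0x10000800040010000d0000c00000000000000000000000000000000000) := T_22 (nat_lit 162) (nat_lit 163) (nat_lit 2) (nat_lit 6) (nat_lit 10) L4842 (by decide +kernel)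
theorem L4844 : W_22 (nat_lit 6) (nat_lit 0xf00000001000080000000000000000000000000000000) (nat_lit 0x0) (nat_lit 0x10000800040010000dc000c00000000000000000000000000000000000) := T_22 (nat_lit 159) (nat_lit 158) (nat_lit 0) (nat_lit 9) (nat_lit 10) L4843 (by decide +kernel)
theorem L4848 : W_22 (nat_lit 2) (nat_lit 0x2000f00008001000080000000000000000000000000000000) (nat_lit 0x0) (nat_lit 0x4001000010000000000000000000000000000000000000000) := D_22 (nat_lit 180) (nat_lit 194) (nat_lit 160) (nat_lit 1) (nat_lit 10) (nat_lit 10) (nat_lit 0) (nat_lit 10) (nat_lit 10) (by decide +kernel)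
theorem L4849 : W_22 (nat_lit 3) (nat_lit 0x2000f00000001000080000000000000000000000000000000) (nat_lit 0x0) (nat_lit 0x400100001c000000000000000000000000000000000000000) := T_22 (nat_lit 159) (nat_lit 158) (nat_lit 0) (nat_lit 9) (nat_lit 10) L4848 (by decide +kernel)
theorem L4850 : W_22 (nat_lit 4) (nat_lit 0xf00000001000080000000000000000000000000000000) (nat_lit 0x0) (nat_lit 0x700100001c000000000000000000000000000000000000000) := T_22 (nat_lit 193) (nat_lit 192) (nat_lit 1) (nat_lit 9) (nat_lit 10) L4849 (by decide +kernel)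
theorem L4851 : W_22 (nat_lit 7) (nat_lit 0xe00000001000080000000000000000000000000000000) (nat_lit 0x0) (nat_lit 0x10000800078011801de000c00000000000000000000000000000000000) := Q_22 (nat_lit 176) (C_22 L4771 (C_22 L4844 (C_22 L4847 (C_22 L4850 N_22)))) (by decide +kernel)
theorem L4852 : W_22 (nat_lit 6) (nat_lit 0xe00000001000080000000000000000000000000000000) (nat_lit 0x0) (nat_lit 0x7b8011800de000000000000000000000000000000000000000) := Q_22 (nat_lit 176) (C_22 L4830 (C_22 L4774 (C_22 L4771 N_22))) (by decide +kernel)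
theorem L4853 : W_22 (nat_lit 5) (nat_lit 0xe00000001000080000000000000000000000000000000) (nat_lit 0x0) (nat_lit 0x3f80118001e000000000000000000000000000000000000000) := Q_22 (nat_lit 176) (C_22 L4850 (C_22 L4774 (C_22 L4767 N_22))) (by decide +kernel)
theorem L4862 : W_22 (nat_lit 10) (nat_lit 0xe00000001000080000000000000000000000000000000) (nat_lit 0x0) (nat_lit 0x100008000cc00fe0031c03d0000800000000000000000000000000000000000) := Q_22 (nat_lit 180) (C_22 L4789 (C_22 L4806 (C_22 L4857 (C_22 L4861 N_22)))) (by decide +kernel)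
theorem L4863 : W_22 (nat_lit 13) (nat_lit 0x600000001000080000000000000000000000000000000) (nat_lit 0x0) (nat_lit 0x1c000fc00fe00ff8039c03de000c00040000000000000000000000000000000) := Q_22 (nat_lit 179) (C_22 L4775 (C_22 L4790 (C_22 L4807 (C_22 L4826 (C_22 L4839 (C_22 L4851 (C_22 L4852 (C_22 L4853 (C_22 L4862 N_22))))))))) (by decide +kernel)
theorem L4878 : W_22 (nat_lit 9) (nat_lit 0x600000001000080000000000000000000000000000000) (nat_lit 0x0) (nat_lit 0x10000c00378019801fe000c00040000000000000000000000000000000) := Q_22 (nat_lit 179) (C_22 L4870 (C_22 L4851 (C_22 L4877 N_22))) (by decide +kernel)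
theorem L4893 : W_22 (nat_lit 12) (nat_lit 0x600000001000080000000000000000000000000000000) (nat_lit 0x0) (nat_lit 0x1a000f0007f8039801fe000000000000000000000000000000000000000) := Q_22 (nat_lit 179) (C_22 L4870 (C_22 L4892 (C_22 L4853 (C_22 L4852 N_22)))) (by decide +kernel)
theorem L4897 : W_22 (nat_lit 2) (nat_lit 0x600160001c000c0000000000000000000000000000000) (nat_lit 0x0) (nat_lit 0x300008000000000000000000000000000) := D_22 (nat_lit 128) (nat_lit 111) (nat_lit 129) (nat_lit 6) (nat_lit 8) (nat_lit 10) (nat_lit 1) (nat_lit 10) (nat_lit 7) (by decide +kernel)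
theorem L4898 : W_22 (nat_lit 3) (nat_lit 0x6001600018000c0000000000000000000000000000000) (nat_lit 0x0) (nat_lit 0x600300008000000000000000000000000000) := T_22 (nat_lit 142) (nat_lit 141) (nat_lit 3) (nat_lit 5) (nat_lit 8) L4897 (by decide +kernel)
theorem L4899 : W_22 (nat_lit 4) (nat_lit 0x6000600018000c0000000000000000000000000000000) (nat_lit 0x0) (nat_lit 0x180000600300008000000000000000000000000000) := T_22 (nat_lit 164) (nat_lit 163) (nat_lit 1) (nat_lit 11) (nat_lit 9) L4898 (by decide +kernel)
theorem L4900 : W_22 (nat_lit 5) (nat_lit 0x600060001800080000000000000000000000000000000) (nat_lit 0x0) (nat_lit 0x18000060034000a000000000000000000000000000) := T_22 (nat_lit 126) (nat_lit 109) (nat_lit 4) (nat_lit 8) (nat_lit 10) L4899 (by decide +kernel)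
theorem L4901 : W_22 (nat_lit 2) (nat_lit 0x6000600058003c0010000000000000000000000000000) (nat_lit 0x0) (nat_lit 0x800180000000000000000000000000000000000000000) := D_22 (nat_lit 163) (nat_lit 164) (nat_lit 179) (nat_lit 1) (nat_lit 11) (nat_lit 9) (nat_lit 5) (nat_lit 10) (nat_lit 6) (by decide +kernel)
theorem L4902 : W_22 (nat_lit 3) (nat_lit 0x6000600058003c0000000000000000000000000000000) (nat_lit 0x0) (nat_lit 0x800180000000000030000000000000000000000000000) := T_22 (nat_lit 112) (nat_lit 113) (nat_lit 2) (nat_lit 7) (nat_lit 7) L4901 (by decide +kernel)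
theorem L4903 : W_22 (nat_lit 4) (nat_lit 0x6000600018003c0000000000000000000000000000000) (nat_lit 0x0) (nat_lit 0x80018000c000000030000000000000000000000000000) := T_22 (nat_lit 146) (nat_lit 147) (nat_lit 3) (nat_lit 7) (nat_lit 7) L4902 (by decide +kernel)
theorem L4904 : W_22 (nat_lit 5) (nat_lit 0x600060001800380000000000000000000000000000000) (nat_lit 0x0) (nat_lit 0x80018000c000040032000000000000000000000000000) := T_22 (nat_lit 126) (nat_lit 109) (nat_lit 4) (nat_lit 8) (nat_lit 10) L4903 (by decide +kernel)
theorem L4905 : W_22 (nat_lit 6) (nat_lit 0x600060001800180000000000000000000000000000000) (nat_lit 0x0) (nat_lit 0x80018000c000640032000000000000000000000000000) := T_22 (nat_lit 129) (nat_lit 130) (nat_lit 1) (nat_lit 11) (nat_lit 7) L4904 (by decide +kernel)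
theorem L4906 : W_22 (nat_lit 7) (nat_lit 0x600060001800080000000000000000000000000000000) (nat_lit 0x0) (nat_lit 0x80018000c00074003a000000000000000000000000000) := T_22 (nat_lit 128) (nat_lit 111) (nat_lit 6) (nat_lit 8) (nat_lit 10) L4905 (by decide +kernel)
theorem L4909 : W_22 (nat_lit 2) (nat_lit 0xe00060001c00180000000000000000000000000000000) (nat_lit 0x0) (nat_lit 0x640000000000000000000000000000000) := D_22 (nat_lit 129) (nat_lit 130) (nat_lit 126) (nat_lit 1) (nat_lit 11) (nat_lit 7) (nat_lit 1) (nat_lit 10) (nat_lit 7) (by decide +kernel)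
theorem L4910 : W_22 (nat_lit 3) (nat_lit 0xe00060001800180000000000000000000000000000000) (nat_lit 0x0) (nat_lit 0x600640000000000000000000000000000000) := T_22 (nat_lit 142) (nat_lit 141) (nat_lit 3) (nat_lit 5) (nat_lit 8) L4909 (by decide +kernel)
theorem L4911 : W_22 (nat_lit 4) (nat_lit 0xe00060001800080000000000000000000000000000000) (nat_lit 0x0) (nat_lit 0x600740008000000000000000000000000000) := T_22 (nat_lit 128) (nat_lit 111) (nat_lit 6) (nat_lit 8) (nat_lit 10) L4910 (by decide +kernel)
theorem L4912 : W_22 (nat_lit 5) (nat_lit 0x600060001800080000000000000000000000000000000) (nat_lit 0x0) (nat_lit 0x10000800000000600740008000000000000000000000000000) := T_22 (nat_lit 179) (nat_lit 196) (nat_lit 7) (nat_lit 8) (nat_lit 7) L4911 (by decide +kernel)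
theorem L4913 : W_22 (nat_lit 8) (nat_lit 0x600060001000080000000000000000000000000000000) (nat_lit 0x0) (nat_lit 0x1000080019000ce0074003a000000000000000000000000000) := Q_22 (nat_lit 143) (C_22 L4900 (C_22 L4906 (C_22 L4908 (C_22 L4912 N_22)))) (by decide +kernel)
theorem L4914 : W_22 (nat_lit 2) (nat_lit 0x2000f001680010001c0000000000000000000000000000000) (nat_lit 0x0) (nat_lit 0x1000010000800000000000000000000000000000000000) := D_22 (nat_lit 160) (nat_lit 143) (nat_lit 180) (nat_lit 5) (nat_lit 7) (nat_lit 7) (nat_lit 3) (nat_lit 6) (nat_lit 9) (by decide +kernel)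
theorem L4915 : W_22 (nat_lit 3) (nat_lit 0x2000f001600010001c0000000000000000000000000000000) (nat_lit 0x0) (nat_lit 0x100001c000800000000000000000000000000000000000) := T_22 (nat_lit 159) (nat_lit 158) (nat_lit 0) (nat_lit 9) (nat_lit 10) L4914 (by decide +kernel)
theorem L4916 : W_22 (nat_lit 4) (nat_lit 0xf001600010001c0000000000000000000000000000000) (nat_lit 0x0) (nat_lit 0x300100001c000800000000000000000000000000000000000) := T_22 (nat_lit 193) (nat_lit 192) (nat_lit 1) (nat_lit 9) (nat_lit 10) L4915 (by decide +kernel)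
theorem L4917 : W_22 (nat_lit 5) (nat_lit 0x7001600010001c0000000000000000000000000000000) (nat_lit 0x0) (nat_lit 0x1300180001c000800000000000000000000000000000000000) := T_22 (nat_lit 179) (nat_lit 196) (nat_lit 7) (nat_lit 8) (nat_lit 7) L4916 (by decide +kernel)
theorem L4918 : W_22 (nat_lit 6) (nat_lit 0x7001600010000c0000000000000000000000000000000) (nat_lit 0x0) (nat_lit 0x1300180001c000800100008000000000000000000000000000) := T_22 (nat_lit 128) (nat_lit 111) (nat_lit 6) (nat_lit 8) (nat_lit 10) L4917 (by decide +kernel)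
theorem L4919 : W_22 (nat_lit 7) (nat_lit 0x700160001000080000000000000000000000000000000) (nat_lit 0x0) (nat_lit 0x1300180001c00080014000a000000000000000000000000000) := T_22 (nat_lit 126) (nat_lit 109) (nat_lit 4) (nat_lit 8) (nat_lit 10) L4918 (by decide +kernel)
theorem L4920 : W_22 (nat_lit 8) (nat_lit 0x600160001000080000000000000000000000000000000) (nat_lit 0x0) (nat_lit 0x1300198001c00080014000a000000000000000000000000000) := T_22 (nat_lit 176) (nat_lit 175) (nat_lit 2) (nat_lit 5) (nat_lit 10) L4919 (by decide +kernel)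
theorem L4921 : W_22 (nat_lit 9) (nat_lit 0x600060001000080000000000000000000000000000000) (nat_lit 0x0) (nat_lit 0x1300198019c00080014000a000000000000000000000000000) := T_22 (nat_lit 164) (nat_lit 163) (nat_lit 1) (nat_lit 11) (nat_lit 9) L4920 (by decide +kernel)
theorem L4923 : W_22 (nat_lit 2) (nat_lit 0x6000e0001000080000000000000000000000000000000) (nat_lit 0x0) (nat_lit 0x180010000000000000000000000000000000000000000) := D_22 (nat_lit 176) (nat_lit 175) (nat_lit 160) (nat_lit 2) (nat_lit 5) (nat_lit 10) (nat_lit 1) (nat_lit 10) (nat_lit 9) (by decide +kernel)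
theorem L4924 : W_22 (nat_lit 3) (nat_lit 0x600060001000080000000000000000000000000000000) (nat_lit 0x0) (nat_lit 0x180190000000000000000000000000000000000000000) := T_22 (nat_lit 163) (nat_lit 164) (nat_lit 1) (nat_lit 11) (nat_lit 9) L4923 (by decide +kernel)
theorem L4928 : W_22 (nat_lit 5) (nat_lit 0xe000600010001c0000000000000000000000000000000) (nat_lit 0x0) (nat_lit 0x300018001c000c00000000000000000000000000000000000) := T_22 (nat_lit 176) (nat_lit 175) (nat_lit 2) (nat_lit 5) (nat_lit 10) L4927 (by decide +kernel)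
theorem L4929 : W_22 (nat_lit 6) (nat_lit 0xe00060001000180000000000000000000000000000000) (nat_lit 0x0) (nat_lit 0x300018001c000c00040002000000000000000000000000000) := T_22 (nat_lit 126) (nat_lit 109) (nat_lit 4) (nat_lit 8) (nat_lit 10) L4928 (by decide +kernel)
theorem L4930 : W_22 (nat_lit 7) (nat_lit 0x600060001000180000000000000000000000000000000) (nat_lit 0x0) (nat_lit 0x1300098001c000c00040002000000000000000000000000000) := T_22 (nat_lit 179) (nat_lit 196) (nat_lit 7) (nat_lit 8) (nat_lit 7) L4929 (by decide +kernel)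
theorem L4931 : W_22 (nat_lit 8) (nat_lit 0x600060001000080000000000000000000000000000000) (nat_lit 0x0) (nat_lit 0x1300098001c000c0014000a000000000000000000000000000) := T_22 (nat_lit 128) (nat_lit 111) (nat_lit 6) (nat_lit 8) (nat_lit 10) L4930 (by decide +kernel)
theorem L4932 : W_22 (nat_lit 10) (nat_lit 0x600020001000080000000000000000000000000000000) (nat_lit 0x0) (nat_lit 0x130019801dc00ce0074003a000000000000000000000000000) := Q_22 (nat_lit 162) (C_22 L4913 (C_22 L4921 (C_22 L4922 (C_22 L4924 (C_22 L4931 N_22))))) (by decide +kernel)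
theorem L4942 : W_22 (nat_lit 5) (nat_lit 0x2000f00068001000180000000000000000000000000000000) (nat_lit 0x0) (nat_lit 0xe0007000010000000040002000000000000000000000000000) := T_22 (nat_lit 126) (nat_lit 109) (nat_lit 4) (nat_lit 8) (nat_lit 10) L4941 (by decide +kernel)
theorem L4943 : W_22 (nat_lit 6) (nat_lit 0x2000f00060001000180000000000000000000000000000000) (nat_lit 0x0) (nat_lit 0xe000700001c000000040002000000000000000000000000000) := T_22 (nat_lit 159) (nat_lit 158) (nat_lit 0) (nat_lit 9) (nat_lit 10) L4942 (by decide +kernel)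
theorem L4944 : W_22 (nat_lit 7) (nat_lit 0xf00060001000180000000000000000000000000000000) (nat_lit 0x0) (nat_lit 0xe300700001c000000040002000000000000000000000000000) := T_22 (nat_lit 193) (nat_lit 192) (nat_lit 1) (nat_lit 9) (nat_lit 10) L4943 (by decide +kernel)
theorem L4945 : W_22 (nat_lit 8) (nat_lit 0xf00020001000180000000000000000000000000000000) (nat_lit 0x0) (nat_lit 0xe30070000dc000000040002000000000000000000000000000) := T_22 (nat_lit 162) (nat_lit 163) (nat_lit 2) (nat_lit 6) (nat_lit 10) L4944 (by decide +kernel)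
theorem L4946 : W_22 (nat_lit 9) (nat_lit 0x700020001000180000000000000000000000000000000) (nat_lit 0x0) (nat_lit 0xf30078000dc000000040002000000000000000000000000000) := T_22 (nat_lit 179) (nat_lit 196) (nat_lit 7) (nat_lit 8) (nat_lit 7) L4945 (by decide +kernel)
theorem L4947 : W_22 (nat_lit 10) (nat_lit 0x700020001000080000000000000000000000000000000) (nat_lit 0x0) (nat_lit 0xf30078000dc00000014000a000000000000000000000000000) := T_22 (nat_lit 128) (nat_lit 111) (nat_lit 6) (nat_lit 8) (nat_lit 10) L4946 (by decide +kernel)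
theorem L4955 : W_22 (nat_lit 9) (nat_lit 0x7000200010000c0000000000000000000000000000000) (nat_lit 0x0) (nat_lit 0xf300380039c000000100008000000000000000000000000000) := T_22 (nat_lit 128) (nat_lit 111) (nat_lit 6) (nat_lit 8) (nat_lit 10) L4954 (by decide +kernel)
theorem L4956 : W_22 (nat_lit 10) (nat_lit 0x700020001000080000000000000000000000000000000) (nat_lit 0x0) (nat_lit 0xf300380039c00000014000a000000000000000000000000000) := T_22 (nat_lit 126) (nat_lit 109) (nat_lit 4) (nat_lit 8) (nat_lit 10) L4955 (by decide +kernel)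
theorem L4957 : W_22 (nat_lit 11) (nat_lit 0x600020001000080000000000000000000000000000000) (nat_lit 0x0) (nat_lit 0xfbc079c03dc00000014000a000000000000000000000000000) := Q_22 (nat_lit 176) (C_22 L4935 (C_22 L4938 (C_22 L4947 (C_22 L4956 N_22)))) (by decide +kernel)
theorem L4961 : W_22 (nat_lit 2) (nat_lit 0x2000f00078001000180000000000000000000000000000000) (nat_lit 0x0) (nat_lit 0x800040000000000000000800000000000000000000000000000000000) := D_22 (nat_lit 210) (nat_lit 227) (nat_lit 143) (nat_lit 6) (nat_lit 6) (nat_lit 13) (nat_lit 6) (nat_lit 6) (nat_lit 12) (by decide +kernel)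
theorem L4962 : W_22 (nat_lit 3) (nat_lit 0x2000f00068001000180000000000000000000000000000000) (nat_lit 0x0) (nat_lit 0x800040000001000010000800000000000000000000000000000000000) := T_22 (nat_lit 160) (nat_lit 180) (nat_lit 3) (nat_lit 6) (nat_lit 9) L4961 (by decide +kernel)
theorem L4963 : W_22 (nat_lit 4) (nat_lit 0x2000f00068001000080000000000000000000000000000000) (nat_lit 0x0) (nat_lit 0x800040000001000010000800100008000000000000000000000000000) := T_22 (nat_lit 128) (nat_lit 111) (nat_lit 6) (nat_lit 8) (nat_lit 10) L4962 (by decide +kernel)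
theorem L4964 : W_22 (nat_lit 5) (nat_lit 0x2000f00060001000080000000000000000000000000000000) (nat_lit 0x0) (nat_lit 0x80004000000100001c000800100008000000000000000000000000000) := T_22 (nat_lit 159) (nat_lit 158) (nat_lit 0) (nat_lit 9) (nat_lit 10) L4963 (by decide +kernel)
theorem L4965 : W_22 (nat_lit 6) (nat_lit 0xf00060001000080000000000000000000000000000000) (nat_lit 0x0) (nat_lit 0x80004000300100001c000800100008000000000000000000000000000) := T_22 (nat_lit 193) (nat_lit 192) (nat_lit 1) (nat_lit 9) (nat_lit 10) L4964 (by decide +kernel)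
theorem L4966 : W_22 (nat_lit 7) (nat_lit 0xf00020001000080000000000000000000000000000000) (nat_lit 0x0) (nat_lit 0x8000400030010000dc000800100008000000000000000000000000000) := T_22 (nat_lit 162) (nat_lit 163) (nat_lit 2) (nat_lit 6) (nat_lit 10) L4965 (by decide +kernel)
theorem L4967 : W_22 (nat_lit 8) (nat_lit 0x700020001000080000000000000000000000000000000) (nat_lit 0x0) (nat_lit 0x8000400130018000dc000800100008000000000000000000000000000) := T_22 (nat_lit 179) (nat_lit 196) (nat_lit 7) (nat_lit 8) (nat_lit 7) L4966 (by decide +kernel)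
theorem L4982 : W_22 (nat_lit 16) (nat_lit 0x600020001000080000000000000000000000000000000) (nat_lit 0x0) (nat_lit 0x108008400fbc039c01dc03c800f000e8000000000000000000000000000) := Q_22 (nat_lit 176) (C_22 L4938 (C_22 L4935 (C_22 L4967 (C_22 L4981 N_22)))) (by decide +kernel)
theorem L4983 : W_22 (nat_lit 17) (nat_lit 0x600000001000080000000000000000000000000000000) (nat_lit 0x0) (nat_lit 0x10800a400fbc079c03fc03ce00f400fa000000000000000000000000000) := Q_22 (nat_lit 161) (C_22 L4895 (C_22 L4932 (C_22 L4881 (C_22 L4957 (C_22 L4960 (C_22 L4982 N_22)))))) (by decide +kernel)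
theorem L4984 : W_22 (nat_lit 18) (nat_lit 0x200000001000080000000000000000000000000000000) (nat_lit 0x0) (nat_lit 0x1c001fc00fe00ffc07dc03fe03ce00f400fa000000000000000000000000000) := Q_22 (nat_lit 178) (C_22 L4863 (C_22 L4869 (C_22 L4878 (C_22 L4882 (C_22 L4893 (C_22 L4896 (C_22 L4983 N_22))))))) (by decide +kernel)
theorem L65586 : W_22 (nat_lit 2) (nat_lit 0x80007c0004001800080000000000000000000000000000000) (nat_lit 0x0) (nat_lit 0x1c00000000000000000000000000000000000000000000000) := D_22 (nat_lit 191) (nat_lit 190) (nat_lit 192) (nat_lit 1) (nat_lit 7) (nat_lit 10) (nat_lit 1) (nat_lit 8) (nat_lit 10) (by decide +kernel)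
theorem L65587 : W_22 (nat_lit 3) (nat_lit 0x8000780004001800080000000000000000000000000000000) (nat_lit 0x0) (nat_lit 0x5c00040000000000000000000000000000000000000000000) := T_22 (nat_lit 174) (nat_lit 194) (nat_lit 3) (nat_lit 4) (nat_lit 10) L65586 (by decide +kernel)
theorem L65588 : W_22 (nat_lit 4) (nat_lit 0x780004001800080000000000000000000000000000000) (nat_lit 0x0) (nat_lit 0x1dc00040000000000000000000000000000000000000000000) := T_22 (nat_lit 195) (nat_lit 196) (nat_lit 3) (nat_lit 5) (nat_lit 10) L65587 (by decide +kernel)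
theorem L65589 : W_22 (nat_lit 5) (nat_lit 0x780000001800080000000000000000000000000000000) (nat_lit 0x0) (nat_lit 0x1dc00040006000000000000000000000000000000000000000) := T_22 (nat_lit 158) (nat_lit 157) (nat_lit 0) (nat_lit 8) (nat_lit 10) L65588 (by decide +kernel)
theorem L65590 : W_22 (nat_lit 2) (nat_lit 0x1000780004001800080000000000000000000000000000000) (nat_lit 0x0) (nat_lit 0x2000800008000000000000000000000000000000000000000) := D_22 (nat_lit 179) (nat_lit 159) (nat_lit 193) (nat_lit 0) (nat_lit 9) (nat_lit 10) (nat_lit 1) (nat_lit 9) (nat_lit 10) (by decide +kernel)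
theorem L65591 : W_22 (nat_lit 3) (nat_lit 0x780004001800080000000000000000000000000000000) (nat_lit 0x0) (nat_lit 0x3800800008000000000000000000000000000000000000000) := T_22 (nat_lit 192) (nat_lit 191) (nat_lit 1) (nat_lit 8) (nat_lit 10) L65590 (by decide +kernel)
theorem L65592 : W_22 (nat_lit 4) (nat_lit 0x780000001800080000000000000000000000000000000) (nat_lit 0x0) (nat_lit 0x380080000e000000000000000000000000000000000000000) := T_22 (nat_lit 158) (nat_lit 157) (nat_lit 0) (nat_lit 8) (nat_lit 10) L65591 (by decide +kernel)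
theorem L65593 : W_22 (nat_lit 2) (nat_lit 0x84007c000c001800080000000000000000000000000000000) (nat_lit 0x0) (nat_lit 0x200030000000000000000000000000000000000000000000) := D_22 (nat_lit 173) (nat_lit 189) (nat_lit 172) (nat_lit 1) (nat_lit 6) (nat_lit 10) (nat_lit 2) (nat_lit 2) (nat_lit 10) (by decide +kernel)
theorem L65594 : W_22 (nat_lit 3) (nat_lit 0x84007c0004001800080000000000000000000000000000000) (nat_lit 0x0) (nat_lit 0x200830008000000000000000000000000000000000000000) := T_22 (nat_lit 159) (nat_lit 179) (nat_lit 0) (nat_lit 9) (nat_lit 10) L65593 (by decide +kernel)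
theorem L65595 : W_22 (nat_lit 4) (nat_lit 0x80007c0004001800080000000000000000000000000000000) (nat_lit 0x0) (nat_lit 0xe00830008000000000000000000000000000000000000000) := T_22 (nat_lit 190) (nat_lit 191) (nat_lit 1) (nat_lit 7) (nat_lit 10) L65594 (by decide +kernel)
theorem L65596 : W_22 (nat_lit 5) (nat_lit 0x8000780004001800080000000000000000000000000000000) (nat_lit 0x0) (nat_lit 0x4e00870008000000000000000000000000000000000000000) := T_22 (nat_lit 174) (nat_lit 194) (nat_lit 3) (nat_lit 4) (nat_lit 10) L65595 (by decide +kernel)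
theorem L65597 : W_22 (nat_lit 6) (nat_lit 0x780004001800080000000000000000000000000000000) (nat_lit 0x0) (nat_lit 0x1ce00870008000000000000000000000000000000000000000) := T_22 (nat_lit 195) (nat_lit 196) (nat_lit 3) (nat_lit 5) (nat_lit 10) L65596 (by decide +kernel)
theorem L65598 : W_22 (nat_lit 7) (nat_lit 0x780000001800080000000000000000000000000000000) (nat_lit 0x0) (nat_lit 0x1ce0087000e000000000000000000000000000000000000000) := T_22 (nat_lit 158) (nat_lit 157) (nat_lit 0) (nat_lit 8) (nat_lit 10) L65597 (by decide +kernel)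
theorem L65599 : W_22 (nat_lit 2) (nat_lit 0x2000f000780000001800080000000000000000000000000000000) (nat_lit 0x0) (nat_lit 0x8000400000000000000008000000000000000000000000000000000000000) := D_22 (nat_lit 226) (nat_lit 159) (nat_lit 243) (nat_lit 6) (nat_lit 5) (nat_lit 13) (nat_lit 6) (nat_lit 5) (nat_lit 14) (by decide +kernel)
theorem L65600 : W_22 (nat_lit 3) (nat_lit 0xf000780000001800080000000000000000000000000000000) (nat_lit 0x0) (nat_lit 0x8000400030000000000008000000000000000000000000000000000000000) := T_22 (nat_lit 209) (nat_lit 208) (nat_lit 1) (nat_lit 8) (nat_lit 11) L65599 (by decide +kernel)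
theorem L65601 : W_22 (nat_lit 4) (nat_lit 0xd000780000001800080000000000000000000000000000000) (nat_lit 0x0) (nat_lit 0x8000400030002000800008000000000000000000000000000000000000000) := T_22 (nat_lit 193) (nat_lit 179) (nat_lit 2) (nat_lit 5) (nat_lit 11) L65600 (by decide +kernel)
theorem L65602 : W_22 (nat_lit 5) (nat_lit 0x9000780000001800080000000000000000000000000000000) (nat_lit 0x0) (nat_lit 0x8000400030006000840008000000000000000000000000000000000000000) := T_22 (nat_lit 194) (nat_lit 174) (nat_lit 3) (nat_lit 4) (nat_lit 10) L65601 (by decide +kernel)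
theorem L65603 : W_22 (nat_lit 6) (nat_lit 0x1000780000001800080000000000000000000000000000000) (nat_lit 0x0) (nat_lit 0x800040003001e000840008000000000000000000000000000000000000000) := T_22 (nat_lit 195) (nat_lit 196) (nat_lit 3) (nat_lit 5) (nat_lit 10) L65602 (by decide +kernel)
theorem L65604 : W_22 (nat_lit 7) (nat_lit 0x780000001800080000000000000000000000000000000) (nat_lit 0x0) (nat_lit 0x800040003001f800840008000000000000000000000000000000000000000) := T_22 (nat_lit 192) (nat_lit 191) (nat_lit 1) (nat_lit 8) (nat_lit 10) L65603 (by decide +kernel)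
theorem L65605 : W_22 (nat_lit 2) (nat_lit 0x10000780004001800080000000000000000000000000000000) (nat_lit 0x0) (nat_lit 0x20000800008000000000000000000000000000000000000000) := D_22 (nat_lit 179) (nat_lit 159) (nat_lit 197) (nat_lit 0) (nat_lit 9) (nat_lit 10) (nat_lit 3) (nat_lit 6) (nat_lit 10) (by decide +kernel)
theorem L65606 : W_22 (nat_lit 3) (nat_lit 0x780004001800080000000000000000000000000000000) (nat_lit 0x0) (nat_lit 0x38000800008000000000000000000000000000000000000000) := T_22 (nat_lit 196) (nat_lit 195) (nat_lit 3) (nat_lit 5) (nat_lit 10) L65605 (by decide +kernel)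
theorem L65607 : W_22 (nat_lit 4) (nat_lit 0x780000001800080000000000000000000000000000000) (nat_lit 0x0) (nat_lit 0x3800080000e000000000000000000000000000000000000000) := T_22 (nat_lit 158) (nat_lit 157) (nat_lit 0) (nat_lit 8) (nat_lit 10) L65606 (by decide +kernel)
theorem L65608 : W_22 (nat_lit 8) (nat_lit 0x700000001800080000000000000000000000000000000) (nat_lit 0x0) (nat_lit 0x800040003003fe008f000e000000000000000000000000000000000000000) := Q_22 (nat_lit 175) (C_22 L65589 (C_22 L65592 (C_22 L65598 (C_22 L65604 (C_22 L65607 N_22))))) (by decide +kernel)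
theorem L65609 : W_22 (nat_lit 2) (nat_lit 0xf000200018000c0000000000000000000000000000000) (nat_lit 0x0) (nat_lit 0x800c0000000000000000000000000000000000000000) := D_22 (nat_lit 162) (nat_lit 163) (nat_lit 175) (nat_lit 2) (nat_lit 6) (nat_lit 10) (nat_lit 2) (nat_lit 5) (nat_lit 10) (by decide +kernel)
theorem L65610 : W_22 (nat_lit 3) (nat_lit 0x7000200018000c0000000000000000000000000000000) (nat_lit 0x0) (nat_lit 0x100008800c0000000000000000000000000000000000000000) := T_22 (nat_lit 179) (nat_lit 196) (nat_lit 7) (nat_lit 8) (nat_lit 7) L65609 (by decide +kernel)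
theorem L65611 : W_22 (nat_lit 4) (nat_lit 0x700020001800080000000000000000000000000000000) (nat_lit 0x0) (nat_lit 0x100008800c0000000040002000000000000000000000000000) := T_22 (nat_lit 126) (nat_lit 109) (nat_lit 4) (nat_lit 8) (nat_lit 10) L65610 (by decide +kernel)
theorem L65612 : W_22 (nat_lit 5) (nat_lit 0x700000001800080000000000000000000000000000000) (nat_lit 0x0) (nat_lit 0x140008800e0000000040002000000000000000000000000000) := T_22 (nat_lit 161) (nat_lit 194) (nat_lit 5) (nat_lit 8) (nat_lit 7) L65611 (by decide +kernel)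
theorem L65613 : W_22 (nat_lit 2) (nat_lit 0xf00000001800080000000000000000000000000000000) (nat_lit 0x0) (nat_lit 0x30000000020000000000000000000000000000000000000000) := D_22 (nat_lit 196) (nat_lit 161) (nat_lit 197) (nat_lit 7) (nat_lit 8) (nat_lit 7) (nat_lit 3) (nat_lit 6) (nat_lit 10) (by decide +kernel)
theorem L65614 : W_22 (nat_lit 2) (nat_lit 0x10000f80008001800080000000000000000000000000000000) (nat_lit 0x0) (nat_lit 0x3800000000000000000000000000000000000000000000000) := D_22 (nat_lit 192) (nat_lit 191) (nat_lit 193) (nat_lit 1) (nat_lit 8) (nat_lit 10) (nat_lit 1) (nat_lit 9) (nat_lit 10) (by decide +kernel)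
theorem L65615 : W_22 (nat_lit 3) (nat_lit 0x10000f00008001800080000000000000000000000000000000) (nat_lit 0x0) (nat_lit 0xb800080000000000000000000000000000000000000000000) := T_22 (nat_lit 175) (nat_lit 195) (nat_lit 3) (nat_lit 5) (nat_lit 10) L65614 (by decide +kernel)
theorem L65616 : W_22 (nat_lit 4) (nat_lit 0xf00008001800080000000000000000000000000000000) (nat_lit 0x0) (nat_lit 0x3b800080000000000000000000000000000000000000000000) := T_22 (nat_lit 196) (nat_lit 197) (nat_lit 3) (nat_lit 6) (nat_lit 10) L65615 (by decide +kernel)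
theorem L65617 : W_22 (nat_lit 5) (nat_lit 0xf00000001800080000000000000000000000000000000) (nat_lit 0x0) (nat_lit 0x3b80008000c000000000000000000000000000000000000000) := T_22 (nat_lit 159) (nat_lit 158) (nat_lit 0) (nat_lit 9) (nat_lit 10) L65616 (by decide +kernel)
theorem L65618 : W_22 (nat_lit 2) (nat_lit 0xf80040001800080000000000000000000000000000000) (nat_lit 0x0) (nat_lit 0x3800000000000000000000000000000000000000000000000) := D_22 (nat_lit 192) (nat_lit 191) (nat_lit 193) (nat_lit 1) (nat_lit 8) (nat_lit 10) (nat_lit 1) (nat_lit 9) (nat_lit 10) (by decide +kernel)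
theorem L65619 : W_22 (nat_lit 3) (nat_lit 0xf00040001800080000000000000000000000000000000) (nat_lit 0x0) (nat_lit 0x3800080020000000000000000000000000000000000000000) := T_22 (nat_lit 175) (nat_lit 161) (nat_lit 2) (nat_lit 5) (nat_lit 10) L65618 (by decide +kernel)
theorem L65620 : W_22 (nat_lit 4) (nat_lit 0xf00000001800080000000000000000000000000000000) (nat_lit 0x0) (nat_lit 0x38000800e0000000000000000000000000000000000000000) := T_22 (nat_lit 162) (nat_lit 163) (nat_lit 2) (nat_lit 6) (nat_lit 10) L65619 (by decide +kernel)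
theorem L65621 : W_22 (nat_lit 6) (nat_lit 0x700000001800080000000000000000000000000000000) (nat_lit 0x0) (nat_lit 0x3b8008800ec000000000000000000000000000000000000000) := Q_22 (nat_lit 179) (C_22 L65613 (C_22 L65617 (C_22 L65620 N_22))) (by decide +kernel)
theorem L65622 : W_22 (nat_lit 2) (nat_lit 0x700020001800080000000000000000000000000000000) (nat_lit 0x0) (nat_lit 0x8000000000000000040002000000000000000000000000000) := D_22 (nat_lit 126) (nat_lit 195) (nat_lit 109) (nat_lit 4) (nat_lit 8) (nat_lit 11) (nat_lit 4) (nat_lit 8) (nat_lit 10) (by decide +kernel)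
theorem L65623 : W_22 (nat_lit 3) (nat_lit 0x700000001800080000000000000000000000000000000) (nat_lit 0x0) (nat_lit 0xc000000020000000040002000000000000000000000000000) := T_22 (nat_lit 161) (nat_lit 194) (nat_lit 5) (nat_lit 8) (nat_lit 7) L65622 (by decide +kernel)
theorem L65624 : W_22 (nat_lit 9) (nat_lit 0x300000001800080000000000000000000000000000000) (nat_lit 0x0) (nat_lit 0x800040003003fe00cf00ee000000040002000000000000000000000000000) := Q_22 (nat_lit 178) (C_22 L65608 (C_22 L65612 (C_22 L65621 (C_22 L65623 N_22)))) (by decide +kernel)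
theorem L65625 : W_22 (nat_lit 2) (nat_lit 0x2000300020001e00090000000000000000000000000000000) (nat_lit 0x0) (nat_lit 0x80006000000000000000000000000000000000000000) := D_22 (nat_lit 158) (nat_lit 157) (nat_lit 175) (nat_lit 1) (nat_lit 8) (nat_lit 8) (nat_lit 7) (nat_lit 5) (nat_lit 7) (by decide +kernel)
theorem L65626 : W_22 (nat_lit 3) (nat_lit 0x300020001e00090000000000000000000000000000000) (nat_lit 0x0) (nat_lit 0x200008000e000000000000000000000000000000000000000) := T_22 (nat_lit 193) (nat_lit 159) (nat_lit 4) (nat_lit 6) (nat_lit 11) L65625 (by decide +kernel)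
theorem L65627 : W_22 (nat_lit 4) (nat_lit 0x300000001e00090000000000000000000000000000000) (nat_lit 0x0) (nat_lit 0x200008006e000000000000000000000000000000000000000) := T_22 (nat_lit 161) (nat_lit 162) (nat_lit 3) (nat_lit 5) (nat_lit 8) L65626 (by decide +kernel)
theorem L65628 : W_22 (nat_lit 5) (nat_lit 0x300000001e00080000000000000000000000000000000) (nat_lit 0x0) (nat_lit 0x200008006e000000018000000000000000000000000000000) := T_22 (nat_lit 124) (nat_lit 123) (nat_lit 0) (nat_lit 8) (nat_lit 8) L65627 (by decide +kernel)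
theorem L65629 : W_22 (nat_lit 2) (nat_lit 0x300008001f00090000000000000000000000000000000) (nat_lit 0x0) (nat_lit 0x4000000000000000020000800000000000000000000000000) := D_22 (nat_lit 125) (nat_lit 107) (nat_lit 194) (nat_lit 4) (nat_lit 6) (nat_lit 10) (nat_lit 7) (nat_lit 6) (nat_lit 7) (by decide +kernel)
theorem L65630 : W_22 (nat_lit 3) (nat_lit 0x300000001f00090000000000000000000000000000000) (nat_lit 0x0) (nat_lit 0x6000000008000000020000800000000000000000000000000) := T_22 (nat_lit 159) (nat_lit 193) (nat_lit 4) (nat_lit 6) (nat_lit 11) L65629 (by decide +kernel)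
theorem L65631 : W_22 (nat_lit 4) (nat_lit 0x300000001e00090000000000000000000000000000000) (nat_lit 0x0) (nat_lit 0x6000000008000100060000800000000000000000000000000) := T_22 (nat_lit 140) (nat_lit 126) (nat_lit 2) (nat_lit 4) (nat_lit 8) L65630 (by decide +kernel)
theorem L65632 : W_22 (nat_lit 5) (nat_lit 0x300000001e00080000000000000000000000000000000) (nat_lit 0x0) (nat_lit 0x6000000008000100078000800000000000000000000000000) := T_22 (nat_lit 124) (nat_lit 123) (nat_lit 0) (nat_lit 8) (nat_lit 8) L65631 (by decide +kernel)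
theorem L65633 : W_22 (nat_lit 6) (nat_lit 0x300000001c00080000000000000000000000000000000) (nat_lit 0x0) (nat_lit 0x600008006f000300078000800000000000000000000000000) := Q_22 (nat_lit 141) (C_22 L65628 (C_22 L12491 (C_22 L65632 N_22))) (by decide +kernel)
theorem L65634 : W_22 (nat_lit 6) (nat_lit 0x300000001c00080000000000000000000000000000000) (nat_lit 0x0) (nat_lit 0x6000000008000300178000800000000000000000000000000) := T_22 (nat_lit 141) (nat_lit 128) (nat_lit 2) (nat_lit 5) (nat_lit 8) L65632 (by decide +kernel)
theorem L65635 : W_22 (nat_lit 11) (nat_lit 0x300000001c00080000000000000000000000000000000) (nat_lit 0x0) (nat_lit 0x7b803fc000e000c000000070003800140000000000000000000000) := Q_22 (nat_lit 159) (C_22 L12498 (C_22 L12515 (C_22 L12521 (C_22 L12525 N_22)))) (by decide +kernel)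
theorem L65636 : W_22 (nat_lit 6) (nat_lit 0x300000001c00080000000000000000000000000000000) (nat_lit 0x0) (nat_lit 0x200008006e000200118000000000000000000000000000000) := T_22 (nat_lit 141) (nat_lit 128) (nat_lit 2) (nat_lit 5) (nat_lit 8) L65628 (by decide +kernel)
theorem L65637 : W_22 (nat_lit 12) (nat_lit 0x300000001800080000000000000000000000000000000) (nat_lit 0x0) (nat_lit 0x7b803fc000e006f000700178003800140000000000000000000000) := Q_22 (nat_lit 142) (C_22 L65633 (C_22 L65634 (C_22 L65635 (C_22 L12492 (C_22 L65636 N_22))))) (by decide +kernel)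
theorem L65638 : W_22 (nat_lit 2) (nat_lit 0x3400700008001c00080000000000000000000000000000000) (nat_lit 0x0) (nat_lit 0x80004000000020000000000000000000000000000000000000000) := D_22 (nat_lit 194) (nat_lit 211) (nat_lit 161) (nat_lit 7) (nat_lit 6) (nat_lit 8) (nat_lit 5) (nat_lit 8) (nat_lit 7) (by decide +kernel)
theorem L65639 : W_22 (nat_lit 3) (nat_lit 0x3400300008001c00080000000000000000000000000000000) (nat_lit 0x0) (nat_lit 0x80004000c00020000000000000000000000000000000000000000) := T_22 (nat_lit 178) (nat_lit 179) (nat_lit 1) (nat_lit 9) (nat_lit 10) L65638 (by decide +kernel)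
theorem L65640 : W_22 (nat_lit 4) (nat_lit 0x3000300008001c00080000000000000000000000000000000) (nat_lit 0x0) (nat_lit 0x80004c00c00020000000000000000000000000000000000000000) := T_22 (nat_lit 190) (nat_lit 191) (nat_lit 2) (nat_lit 3) (nat_lit 11) L65639 (by decide +kernel)
theorem L65641 : W_22 (nat_lit 5) (nat_lit 0x2000300008001c00080000000000000000000000000000000) (nat_lit 0x0) (nat_lit 0xa0005c00c00020000000000000000000000000000000000000000) := T_22 (nat_lit 192) (nat_lit 209) (nat_lit 5) (nat_lit 6) (nat_lit 8) L65640 (by decide +kernel)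
theorem L65642 : W_22 (nat_lit 6) (nat_lit 0x300008001c00080000000000000000000000000000000) (nat_lit 0x0) (nat_lit 0xa0007c00c00020000000040000000000000000000000000000000) := T_22 (nat_lit 193) (nat_lit 126) (nat_lit 6) (nat_lit 6) (nat_lit 11) L65641 (by decide +kernel)
theorem L65643 : W_22 (nat_lit 7) (nat_lit 0x300000001c00080000000000000000000000000000000) (nat_lit 0x0) (nat_lit 0xa0007c00c8002c000000070003800140000000000000000000000) := Q_22 (nat_lit 159) (C_22 L12521 (C_22 L12515 (C_22 L65642 N_22))) (by decide +kernel)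
theorem L65644 : W_22 (nat_lit 8) (nat_lit 0x300000001800080000000000000000000000000000000) (nat_lit 0x0) (nat_lit 0xa0007c00c8006f000700178003800140000000000000000000000) := Q_22 (nat_lit 142) (C_22 L65633 (C_22 L65636 (C_22 L12492 (C_22 L65643 (C_22 L65634 N_22))))) (by decide +kernel)
theorem L65645 : W_22 (nat_lit 12) (nat_lit 0x300000001800080000000000000000000000000000000) (nat_lit 0x0) (nat_lit 0x7b803fc000e000f000700178003800140000000000000000000000) := Q_22 (nat_lit 142) (C_22 L65635 (C_22 L12492 (C_22 L12496 (C_22 L65634 N_22)))) (by decide +kernel)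
theorem L65646 : W_22 (nat_lit 2) (nat_lit 0x3000780004001800080000000000000000000000000000000) (nat_lit 0x0) (nat_lit 0x800040000000000000000200000000000000000000000000000000000) := D_22 (nat_lit 210) (nat_lit 227) (nat_lit 141) (nat_lit 4) (nat_lit 6) (nat_lit 13) (nat_lit 7) (nat_lit 5) (nat_lit 8) (by decide +kernel)
theorem L65647 : W_22 (nat_lit 3) (nat_lit 0x1000780004001800080000000000000000000000000000000) (nat_lit 0x0) (nat_lit 0x800040002000800000000200000000000000000000000000000000000) := T_22 (nat_lit 193) (nat_lit 179) (nat_lit 1) (nat_lit 9) (nat_lit 10) L65646 (by decide +kernel)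
theorem L65648 : W_22 (nat_lit 4) (nat_lit 0x780004001800080000000000000000000000000000000) (nat_lit 0x0) (nat_lit 0x800040003800800000000200000000000000000000000000000000000) := T_22 (nat_lit 192) (nat_lit 191) (nat_lit 1) (nat_lit 8) (nat_lit 10) L65647 (by decide +kernel)
theorem L65649 : W_22 (nat_lit 5) (nat_lit 0x780000001800080000000000000000000000000000000) (nat_lit 0x0) (nat_lit 0x800040003800800006000200000000000000000000000000000000000) := T_22 (nat_lit 158) (nat_lit 157) (nat_lit 0) (nat_lit 8) (nat_lit 10) L65648 (by decide +kernel)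
theorem L65650 : W_22 (nat_lit 2) (nat_lit 0x80007c0000001800080000000000000000000000000000000) (nat_lit 0x0) (nat_lit 0x7000000000000000000000000000000000000000) := D_22 (nat_lit 157) (nat_lit 158) (nat_lit 156) (nat_lit 0) (nat_lit 8) (nat_lit 10) (nat_lit 0) (nat_lit 7) (nat_lit 10) (by decide +kernel)
theorem L65651 : W_22 (nat_lit 3) (nat_lit 0x8000780000001800080000000000000000000000000000000) (nat_lit 0x0) (nat_lit 0x4000040007000000000000000000000000000000000000000) := T_22 (nat_lit 174) (nat_lit 194) (nat_lit 3) (nat_lit 4) (nat_lit 10) L65650 (by decide +kernel)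
theorem L65652 : W_22 (nat_lit 4) (nat_lit 0x780000001800080000000000000000000000000000000) (nat_lit 0x0) (nat_lit 0x1c000040007000000000000000000000000000000000000000) := T_22 (nat_lit 195) (nat_lit 196) (nat_lit 3) (nat_lit 5) (nat_lit 10) L65651 (by decide +kernel)
theorem L65653 : W_22 (nat_lit 2) (nat_lit 0x800700012000f000780000001800080000000000000000000000000000000) (nat_lit 0x0) (nat_lit 0x8000c0000000000000000000000000000000000000000000000000000) := D_22 (nat_lit 210) (nat_lit 211) (nat_lit 227) (nat_lit 3) (nat_lit 5) (nat_lit 12) (nat_lit 0) (nat_lit 9) (nat_lit 13) (by decide +kernel)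
theorem L65654 : W_22 (nat_lit 3) (nat_lit 0x800300012000f000780000001800080000000000000000000000000000000) (nat_lit 0x0) (nat_lit 0x800048000c0000000000000000000000000000000000000000000000000000) := T_22 (nat_lit 230) (nat_lit 247) (nat_lit 7) (nat_lit 8) (nat_lit 10) L65653 (by decide +kernel)
theorem L65655 : W_22 (nat_lit 4) (nat_lit 0x800200012000f000780000001800080000000000000000000000000000000) (nat_lit 0x0) (nat_lit 0xa00058000c0000000000000000000000000000000000000000000000000000) := T_22 (nat_lit 228) (nat_lit 245) (nat_lit 5) (nat_lit 8) (nat_lit 10) L65654 (by decide +kernel)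
theorem L65656 : W_22 (nat_lit 5) (nat_lit 0x800000012000f000780000001800080000000000000000000000000000000) (nat_lit 0x0) (nat_lit 0xe00078000c0000000000000000000000000000000000000000000000000000) := T_22 (nat_lit 229) (nat_lit 246) (nat_lit 4) (nat_lit 8) (nat_lit 14) L65655 (by decide +kernel)
theorem L65657 : W_22 (nat_lit 6) (nat_lit 0x12000f000780000001800080000000000000000000000000000000) (nat_lit 0x0) (nat_lit 0xe8007c000c0000000000000000000000000000000000000000000000000000) := T_22 (nat_lit 243) (nat_lit 226) (nat_lit 6) (nat_lit 5) (nat_lit 14) L65656 (by decide +kernel)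
theorem L65658 : W_22 (nat_lit 7) (nat_lit 0x2000f000780000001800080000000000000000000000000000000) (nat_lit 0x0) (nat_lit 0xe8007c003c0000000000000000000000000000000000000000000000000000) := T_22 (nat_lit 212) (nat_lit 213) (nat_lit 3) (nat_lit 5) (nat_lit 11) L65657 (by decide +kernel)
theorem L65659 : W_22 (nat_lit 8) (nat_lit 0xf000780000001800080000000000000000000000000000000) (nat_lit 0x0) (nat_lit 0xe8007c003f0000000000000000000000000000000000000000000000000000) := T_22 (nat_lit 209) (nat_lit 208) (nat_lit 1) (nat_lit 8) (nat_lit 11) L65658 (by decide +kernel)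
theorem L65660 : W_22 (nat_lit 9) (nat_lit 0xd000780000001800080000000000000000000000000000000) (nat_lit 0x0) (nat_lit 0xe8007c003f0002000800000000000000000000000000000000000000000000) := T_22 (nat_lit 193) (nat_lit 179) (nat_lit 2) (nat_lit 5) (nat_lit 11) L65659 (by decide +kernel)
theorem L65661 : W_22 (nat_lit 10) (nat_lit 0x9000780000001800080000000000000000000000000000000) (nat_lit 0x0) (nat_lit 0xe8007c003f0006000840000000000000000000000000000000000000000000) := T_22 (nat_lit 194) (nat_lit 174) (nat_lit 3) (nat_lit 4) (nat_lit 10) L65660 (by decide +kernel)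
theorem L65662 : W_22 (nat_lit 11) (nat_lit 0x1000780000001800080000000000000000000000000000000) (nat_lit 0x0) (nat_lit 0xe8007c003f001e000840000000000000000000000000000000000000000000) := T_22 (nat_lit 195) (nat_lit 196) (nat_lit 3) (nat_lit 5) (nat_lit 10) L65661 (by decide +kernel)
theorem L65663 : W_22 (nat_lit 12) (nat_lit 0x780000001800080000000000000000000000000000000) (nat_lit 0x0) (nat_lit 0xe8007c003f001f800840000000000000000000000000000000000000000000) := T_22 (nat_lit 192) (nat_lit 191) (nat_lit 1) (nat_lit 8) (nat_lit 10) L65662 (by decide +kernel)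
theorem L65664 : W_22 (nat_lit 13) (nat_lit 0x700000001800080000000000000000000000000000000) (nat_lit 0x0) (nat_lit 0xe8007c003f001fc008c0007000200000000000000000000000000000000000) := Q_22 (nat_lit 175) (C_22 L65589 (C_22 L65649 (C_22 L65652 (C_22 L65663 N_22)))) (by decide +kernel)
theorem L65665 : W_22 (nat_lit 2) (nat_lit 0x11000f00000001800080000000000000000000000000000000) (nat_lit 0x0) (nat_lit 0x8800080000000000000000000000000000000000000000000) := D_22 (nat_lit 175) (nat_lit 195) (nat_lit 191) (nat_lit 3) (nat_lit 5) (nat_lit 10) (nat_lit 1) (nat_lit 8) (nat_lit 10) (by decide +kernel)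
theorem L65666 : W_22 (nat_lit 3) (nat_lit 0x1000f00000001800080000000000000000000000000000000) (nat_lit 0x0) (nat_lit 0x38800080000000000000000000000000000000000000000000) := T_22 (nat_lit 196) (nat_lit 197) (nat_lit 3) (nat_lit 6) (nat_lit 10) L65665 (by decide +kernel)
theorem L65667 : W_22 (nat_lit 4) (nat_lit 0xf00000001800080000000000000000000000000000000) (nat_lit 0x0) (nat_lit 0x3b800080000000000000000000000000000000000000000000) := T_22 (nat_lit 192) (nat_lit 193) (nat_lit 1) (nat_lit 9) (nat_lit 10) L65666 (by decide +kernel)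
theorem L65668 : W_22 (nat_lit 5) (nat_lit 0x700000001800080000000000000000000000000000000) (nat_lit 0x0) (nat_lit 0x3b8008800e0000000000000000000000000000000000000000) := Q_22 (nat_lit 179) (C_22 L65620 (C_22 L65613 (C_22 L65667 N_22))) (by decide +kernel)
theorem L65669 : W_22 (nat_lit 14) (nat_lit 0x300000001800080000000000000000000000000000000) (nat_lit 0x0) (nat_lit 0xe8007c003f003fc00cc00e7000200040002000000000000000000000000000) := Q_22 (nat_lit 178) (C_22 L65623 (C_22 L65612 (C_22 L65664 (C_22 L65668 N_22)))) (by decide +kernel)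
theorem L65670 : W_22 (nat_lit 2) (nat_lit 0x1000780020001800080000000000000000000000000000000) (nat_lit 0x0) (nat_lit 0x12000800000000000000000000000000000000000000000000) := D_22 (nat_lit 179) (nat_lit 196) (nat_lit 193) (nat_lit 7) (nat_lit 8) (nat_lit 7) (nat_lit 1) (nat_lit 9) (nat_lit 10) (by decide +kernel)
theorem L65671 : W_22 (nat_lit 3) (nat_lit 0x780020001800080000000000000000000000000000000) (nat_lit 0x0) (nat_lit 0x13800800000000000000000000000000000000000000000000) := T_22 (nat_lit 192) (nat_lit 191) (nat_lit 1) (nat_lit 8) (nat_lit 10) L65670 (by decide +kernel)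
theorem L65672 : W_22 (nat_lit 4) (nat_lit 0x700020001800080000000000000000000000000000000) (nat_lit 0x0) (nat_lit 0x13800880040000000000000000000000000000000000000000) := T_22 (nat_lit 175) (nat_lit 162) (nat_lit 2) (nat_lit 5) (nat_lit 10) L65671 (by decide +kernel)
theorem L65673 : W_22 (nat_lit 5) (nat_lit 0x700000001800080000000000000000000000000000000) (nat_lit 0x0) (nat_lit 0x17800880060000000000000000000000000000000000000000) := T_22 (nat_lit 161) (nat_lit 194) (nat_lit 5) (nat_lit 8) (nat_lit 7) L65672 (by decide +kernel)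
theorem L65674 : W_22 (nat_lit 2) (nat_lit 0x700020001c00080000000000000000000000000000000) (nat_lit 0x0) (nat_lit 0x40000200100000000000000000000000000000000) := D_22 (nat_lit 141) (nat_lit 162) (nat_lit 128) (nat_lit 3) (nat_lit 5) (nat_lit 8) (nat_lit 2) (nat_lit 5) (nat_lit 8) (by decide +kernel)
theorem L65675 : W_22 (nat_lit 3) (nat_lit 0x700000001c00080000000000000000000000000000000) (nat_lit 0x0) (nat_lit 0x4000000060000200100000000000000000000000000000000) := T_22 (nat_lit 161) (nat_lit 194) (nat_lit 5) (nat_lit 8) (nat_lit 7) L65674 (by decide +kernel)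
theorem L65676 : W_22 (nat_lit 2) (nat_lit 0x70000c001e00080000000000000000000000000000000) (nat_lit 0x0) (nat_lit 0x2000000000000000018000000000000000000000000000000) := D_22 (nat_lit 124) (nat_lit 123) (nat_lit 193) (nat_lit 0) (nat_lit 8) (nat_lit 8) (nat_lit 4) (nat_lit 6) (nat_lit 11) (by decide +kernel)
theorem L65677 : W_22 (nat_lit 3) (nat_lit 0x700004001e00080000000000000000000000000000000) (nat_lit 0x0) (nat_lit 0x2000800008000000018000000000000000000000000000000) := T_22 (nat_lit 159) (nat_lit 179) (nat_lit 0) (nat_lit 9) (nat_lit 10) L65676 (by decide +kernel)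
theorem L65678 : W_22 (nat_lit 4) (nat_lit 0x700000001e00080000000000000000000000000000000) (nat_lit 0x0) (nat_lit 0x200080000e000000018000000000000000000000000000000) := T_22 (nat_lit 158) (nat_lit 157) (nat_lit 1) (nat_lit 8) (nat_lit 8) L65677 (by decide +kernel)
theorem L65679 : W_22 (nat_lit 5) (nat_lit 0x700000001c00080000000000000000000000000000000) (nat_lit 0x0) (nat_lit 0x200080000e000200118000000000000000000000000000000) := T_22 (nat_lit 141) (nat_lit 128) (nat_lit 2) (nat_lit 5) (nat_lit 8) L65678 (by decide +kernel)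
theorem L65680 : W_22 (nat_lit 2) (nat_lit 0x700024001e00080000000000000000000000000000000) (nat_lit 0x0) (nat_lit 0x10000800008000000000000000000000000000000000000000) := D_22 (nat_lit 179) (nat_lit 159) (nat_lit 196) (nat_lit 0) (nat_lit 9) (nat_lit 10) (nat_lit 7) (nat_lit 8) (nat_lit 7) (by decide +kernel)
theorem L65681 : W_22 (nat_lit 3) (nat_lit 0x700020001e00080000000000000000000000000000000) (nat_lit 0x0) (nat_lit 0x1000080000e000000000000000000000000000000000000000) := T_22 (nat_lit 158) (nat_lit 157) (nat_lit 1) (nat_lit 8) (nat_lit 8) L65680 (by decide +kernel)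
theorem L65682 : W_22 (nat_lit 4) (nat_lit 0x700020001c00080000000000000000000000000000000) (nat_lit 0x0) (nat_lit 0x1000080004e000200000000000000000000000000000000000) := T_22 (nat_lit 141) (nat_lit 162) (nat_lit 3) (nat_lit 5) (nat_lit 8) L65681 (by decide +kernel)
theorem L65683 : W_22 (nat_lit 5) (nat_lit 0x700000001c00080000000000000000000000000000000) (nat_lit 0x0) (nat_lit 0x1400080006e000200000000000000000000000000000000000) := T_22 (nat_lit 161) (nat_lit 194) (nat_lit 5) (nat_lit 8) (nat_lit 7) L65682 (by decide +kernel)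
theorem L65685 : W_22 (nat_lit 3) (nat_lit 0x4000700000001c00080000000000000000000000000000000) (nat_lit 0x0) (nat_lit 0x1000080002000000008000000020000000000000000000000000000000) := T_22 (nat_lit 159) (nat_lit 125) (nat_lit 7) (nat_lit 6) (nat_lit 7) L65684 (by decide +kernel)
theorem L65686 : W_22 (nat_lit 4) (nat_lit 0x700000001c00080000000000000000000000000000000) (nat_lit 0x0) (nat_lit 0x1000080006000000028000000020000000000000000000000000000000) := T_22 (nat_lit 194) (nat_lit 161) (nat_lit 5) (nat_lit 8) (nat_lit 7) L65685 (by decide +kernel)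
theorem L65687 : W_22 (nat_lit 6) (nat_lit 0x700000001800080000000000000000000000000000000) (nat_lit 0x0) (nat_lit 0x100008001600080006e000600138000000000000000000000000000000) := Q_22 (nat_lit 142) (C_22 L65675 (C_22 L65679 (C_22 L65683 (C_22 L65686 N_22)))) (by decide +kernel)
theorem L65688 : W_22 (nat_lit 2) (nat_lit 0x780020001800080000000000000000000000000000000) (nat_lit 0x0) (nat_lit 0x18000800000000000000000000000000000000000000000000) := D_22 (nat_lit 196) (nat_lit 179) (nat_lit 195) (nat_lit 7) (nat_lit 8) (nat_lit 7) (nat_lit 3) (nat_lit 5) (nat_lit 10) (by decide +kernel)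
theorem L65689 : W_22 (nat_lit 3) (nat_lit 0x700020001800080000000000000000000000000000000) (nat_lit 0x0) (nat_lit 0x18000880040000000000000000000000000000000000000000) := T_22 (nat_lit 175) (nat_lit 162) (nat_lit 2) (nat_lit 5) (nat_lit 10) L65688 (by decide +kernel)
theorem L65690 : W_22 (nat_lit 4) (nat_lit 0x700000001800080000000000000000000000000000000) (nat_lit 0x0) (nat_lit 0x1c000880060000000000000000000000000000000000000000) := T_22 (nat_lit 161) (nat_lit 194) (nat_lit 5) (nat_lit 8) (nat_lit 7) L65689 (by decide +kernel)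
theorem L65691 : W_22 (nat_lit 2) (nat_lit 0x1000780024001800080000000000000000000000000000000) (nat_lit 0x0) (nat_lit 0x2000800008000000000000000000000000000000000000000) := D_22 (nat_lit 179) (nat_lit 193) (nat_lit 159) (nat_lit 1) (nat_lit 9) (nat_lit 10) (nat_lit 0) (nat_lit 9) (nat_lit 10) (by decide +kernel)
theorem L65692 : W_22 (nat_lit 3) (nat_lit 0x1000780020001800080000000000000000000000000000000) (nat_lit 0x0) (nat_lit 0x200080000e000000000000000000000000000000000000000) := T_22 (nat_lit 158) (nat_lit 157) (nat_lit 0) (nat_lit 8) (nat_lit 10) L65691 (by decide +kernel)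
theorem L65693 : W_22 (nat_lit 4) (nat_lit 0x780020001800080000000000000000000000000000000) (nat_lit 0x0) (nat_lit 0x380080000e000000000000000000000000000000000000000) := T_22 (nat_lit 192) (nat_lit 191) (nat_lit 1) (nat_lit 8) (nat_lit 10) L65692 (by decide +kernel)
theorem L65694 : W_22 (nat_lit 5) (nat_lit 0x700020001800080000000000000000000000000000000) (nat_lit 0x0) (nat_lit 0x380088004e000000000000000000000000000000000000000) := T_22 (nat_lit 175) (nat_lit 162) (nat_lit 2) (nat_lit 5) (nat_lit 10) L65693 (by decide +kernel)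
theorem L65695 : W_22 (nat_lit 6) (nat_lit 0x700000001800080000000000000000000000000000000) (nat_lit 0x0) (nat_lit 0x780088006e000000000000000000000000000000000000000) := T_22 (nat_lit 161) (nat_lit 194) (nat_lit 5) (nat_lit 8) (nat_lit 7) L65694 (by decide +kernel)
theorem L65696 : W_22 (nat_lit 2) (nat_lit 0x9000780024001a00180000000000000000000000000000000) (nat_lit 0x0) (nat_lit 0x40002000000000000000010000000000000000000000000000000) := D_22 (nat_lit 193) (nat_lit 210) (nat_lit 124) (nat_lit 7) (nat_lit 5) (nat_lit 8) (nat_lit 7) (nat_lit 5) (nat_lit 7) (by decide +kernel)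
theorem L65697 : W_22 (nat_lit 3) (nat_lit 0x9000780024001800180000000000000000000000000000000) (nat_lit 0x0) (nat_lit 0x40002000000000000600010000000000000000000000000000000) := T_22 (nat_lit 141) (nat_lit 142) (nat_lit 2) (nat_lit 5) (nat_lit 8) L65696 (by decide +kernel)
theorem L65698 : W_22 (nat_lit 4) (nat_lit 0x9000780024001800080000000000000000000000000000000) (nat_lit 0x0) (nat_lit 0x40002000000000000600110008000000000000000000000000000) := T_22 (nat_lit 128) (nat_lit 111) (nat_lit 6) (nat_lit 8) (nat_lit 10) L65697 (by decide +kernel)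
theorem L65699 : W_22 (nat_lit 5) (nat_lit 0x9000780020001800080000000000000000000000000000000) (nat_lit 0x0) (nat_lit 0x40002000000006000600110008000000000000000000000000000) := T_22 (nat_lit 158) (nat_lit 157) (nat_lit 0) (nat_lit 8) (nat_lit 10) L65698 (by decide +kernel)
theorem L65700 : W_22 (nat_lit 6) (nat_lit 0x1000780020001800080000000000000000000000000000000) (nat_lit 0x0) (nat_lit 0x4001a000000006000600110008000000000000000000000000000) := T_22 (nat_lit 195) (nat_lit 196) (nat_lit 3) (nat_lit 5) (nat_lit 10) L65699 (by decide +kernel)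
theorem L65701 : W_22 (nat_lit 7) (nat_lit 0x780020001800080000000000000000000000000000000) (nat_lit 0x0) (nat_lit 0x4001b800000006000600110008000000000000000000000000000) := T_22 (nat_lit 192) (nat_lit 191) (nat_lit 1) (nat_lit 8) (nat_lit 10) L65700 (by decide +kernel)
theorem L65702 : W_22 (nat_lit 8) (nat_lit 0x700020001800080000000000000000000000000000000) (nat_lit 0x0) (nat_lit 0x4001b800080046000600110008000000000000000000000000000) := T_22 (nat_lit 175) (nat_lit 162) (nat_lit 2) (nat_lit 5) (nat_lit 10) L65701 (by decide +kernel)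
theorem L65703 : W_22 (nat_lit 9) (nat_lit 0x700000001800080000000000000000000000000000000) (nat_lit 0x0) (nat_lit 0x4001f800080066000600110008000000000000000000000000000) := T_22 (nat_lit 161) (nat_lit 194) (nat_lit 5) (nat_lit 8) (nat_lit 7) L65702 (by decide +kernel)
theorem L65704 : W_22 (nat_lit 14) (nat_lit 0x300000001800080000000000000000000000000000000) (nat_lit 0x0) (nat_lit 0xe8007c003f003fc00cc00ef000600138008000000000000000000000000000) := Q_22 (nat_lit 178) (C_22 L65664 (C_22 L65668 (C_22 L65673 (C_22 L65687 (C_22 L65690 (C_22 L65695 (C_22 L65703 N_22))))))) (by decide +kernel)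
theorem L65711 : W_22 (nat_lit 8) (nat_lit 0x700000001800080000000000000000000000000000000) (nat_lit 0x0) (nat_lit 0x338008800ec000600150000000000000000000000000000000) := Q_22 (nat_lit 179) (C_22 L65710 (C_22 L65620 (C_22 L65613 N_22))) (by decide +kernel)
theorem L65719 : W_22 (nat_lit 9) (nat_lit 0x8800780004001800080000000000000000000000000000000) (nat_lit 0x0) (nat_lit 0x20001000040006000180078015e000000000000000000000000000000) := T_22 (nat_lit 174) (nat_lit 190) (nat_lit 1) (nat_lit 7) (nat_lit 10) L65718 (by decide +kernel)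
theorem L65720 : W_22 (nat_lit 10) (nat_lit 0x8000780004001800080000000000000000000000000000000) (nat_lit 0x0) (nat_lit 0x200010001c0006000180078015e000000000000000000000000000000) := T_22 (nat_lit 191) (nat_lit 192) (nat_lit 1) (nat_lit 8) (nat_lit 10) L65719 (by decide +kernel)
theorem L65721 : W_22 (nat_lit 11) (nat_lit 0x780004001800080000000000000000000000000000000) (nat_lit 0x0) (nat_lit 0x200010019c0006000180078015e000000000000000000000000000000) := T_22 (nat_lit 195) (nat_lit 196) (nat_lit 3) (nat_lit 5) (nat_lit 10) L65720 (by decide +kernel)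
theorem L65722 : W_22 (nat_lit 12) (nat_lit 0x780000001800080000000000000000000000000000000) (nat_lit 0x0) (nat_lit 0x200010019c0006000780078015e000000000000000000000000000000) := T_22 (nat_lit 158) (nat_lit 157) (nat_lit 0) (nat_lit 8) (nat_lit 10) L65721 (by decide +kernel)
theorem L65723 : W_22 (nat_lit 2) (nat_lit 0x2400000009000f80048001f00080000000000000000000000000000000) (nat_lit 0x0) (nat_lit 0x1c000000000000000000000000000000) := D_22 (nat_lit 123) (nat_lit 122) (nat_lit 124) (nat_lit 0) (nat_lit 7) (nat_lit 8) (nat_lit 0) (nat_lit 8) (nat_lit 8) (by decide +kernel)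
theorem L65724 : W_22 (nat_lit 3) (nat_lit 0x2400000009000f80048001e00080000000000000000000000000000000) (nat_lit 0x0) (nat_lit 0x10005c000000000000000000000000000000) := T_22 (nat_lit 140) (nat_lit 126) (nat_lit 2) (nat_lit 4) (nat_lit 8) L65723 (by decide +kernel)
theorem L65725 : W_22 (nat_lit 4) (nat_lit 0x2400000009000f80048001c00080000000000000000000000000000000) (nat_lit 0x0) (nat_lit 0x30015c000000000000000000000000000000) := T_22 (nat_lit 141) (nat_lit 128) (nat_lit 2) (nat_lit 5) (nat_lit 8) L65724 (by decide +kernel)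
theorem L65726 : W_22 (nat_lit 5) (nat_lit 0x2400000009000f80048001800080000000000000000000000000000000) (nat_lit 0x0) (nat_lit 0x70017c000000000000000000000000000000) := T_22 (nat_lit 142) (nat_lit 125) (nat_lit 5) (nat_lit 6) (nat_lit 7) L65725 (by decide +kernel)
theorem L65727 : W_22 (nat_lit 6) (nat_lit 0x400000009000f80048001800080000000000000000000000000000000) (nat_lit 0x0) (nat_lit 0x200010000000000000000070017c000000000000000000000000000000) := T_22 (nat_lit 229) (nat_lit 212) (nat_lit 6) (nat_lit 8) (nat_lit 13) L65726 (by decide +kernel)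
theorem L65728 : W_22 (nat_lit 7) (nat_lit 0x9000f80048001800080000000000000000000000000000000) (nat_lit 0x0) (nat_lit 0x240012000000000000000070017c000000000000000000000000000000) := T_22 (nat_lit 226) (nat_lit 209) (nat_lit 6) (nat_lit 5) (nat_lit 13) L65727 (by decide +kernel)
theorem L65729 : W_22 (nat_lit 8) (nat_lit 0x9000f80008001800080000000000000000000000000000000) (nat_lit 0x0) (nat_lit 0x24001200000000000c000070017c000000000000000000000000000000) := T_22 (nat_lit 162) (nat_lit 163) (nat_lit 2) (nat_lit 6) (nat_lit 10) L65728 (by decide +kernel)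
theorem L65730 : W_22 (nat_lit 9) (nat_lit 0x9000f80000001800080000000000000000000000000000000) (nat_lit 0x0) (nat_lit 0x24001200000000000cc00070017c000000000000000000000000000000) := T_22 (nat_lit 159) (nat_lit 158) (nat_lit 0) (nat_lit 9) (nat_lit 10) L65729 (by decide +kernel)
theorem L65731 : W_22 (nat_lit 10) (nat_lit 0x9000780000001800080000000000000000000000000000000) (nat_lit 0x0) (nat_lit 0x24001200020008000cc00070017c000000000000000000000000000000) := T_22 (nat_lit 179) (nat_lit 193) (nat_lit 1) (nat_lit 9) (nat_lit 10) L65730 (by decide +kernel)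
theorem L65732 : W_22 (nat_lit 11) (nat_lit 0x1000780000001800080000000000000000000000000000000) (nat_lit 0x0) (nat_lit 0x240012001a0008000cc00070017c000000000000000000000000000000) := T_22 (nat_lit 195) (nat_lit 196) (nat_lit 3) (nat_lit 5) (nat_lit 10) L65731 (by decide +kernel)
theorem L65733 : W_22 (nat_lit 12) (nat_lit 0x780000001800080000000000000000000000000000000) (nat_lit 0x0) (nat_lit 0x240012001b8008000cc00070017c000000000000000000000000000000) := T_22 (nat_lit 192) (nat_lit 191) (nat_lit 1) (nat_lit 8) (nat_lit 10) L65732 (by decide +kernel)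
theorem L65734 : W_22 (nat_lit 13) (nat_lit 0x700000001800080000000000000000000000000000000) (nat_lit 0x0) (nat_lit 0x2e0017003bc008e00cf80078017e000000000000000000000000000000) := Q_22 (nat_lit 175) (C_22 L65722 (C_22 L65649 (C_22 L65607 (C_22 L65733 (C_22 L13372 N_22))))) (by decide +kernel)
theorem L65737 : W_22 (nat_lit 4) (nat_lit 0xf00048001800080000000000000000000000000000000) (nat_lit 0x0) (nat_lit 0x3000000000000600150000000000000000000000000000000) := T_22 (nat_lit 193) (nat_lit 192) (nat_lit 1) (nat_lit 9) (nat_lit 10) L65736 (by decide +kernel)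
theorem L65738 : W_22 (nat_lit 5) (nat_lit 0xf00008001800080000000000000000000000000000000) (nat_lit 0x0) (nat_lit 0x30000000c0000600150000000000000000000000000000000) := T_22 (nat_lit 162) (nat_lit 163) (nat_lit 2) (nat_lit 6) (nat_lit 10) L65737 (by decide +kernel)
theorem L65739 : W_22 (nat_lit 6) (nat_lit 0xf00000001800080000000000000000000000000000000) (nat_lit 0x0) (nat_lit 0x30000000cc000600150000000000000000000000000000000) := T_22 (nat_lit 159) (nat_lit 158) (nat_lit 0) (nat_lit 9) (nat_lit 10) L65738 (by decide +kernel)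
theorem L65740 : W_22 (nat_lit 8) (nat_lit 0x700000001800080000000000000000000000000000000) (nat_lit 0x0) (nat_lit 0x330008000ec000600150000000000000000000000000000000) := Q_22 (nat_lit 179) (C_22 L65613 (C_22 L65710 (C_22 L65739 N_22))) (by decide +kernel)
theorem L65741 : W_22 (nat_lit 2) (nat_lit 0x400000011000f80048001f00080000000000000000000000000000000) (nat_lit 0x0) (nat_lit 0x1c000000000000000000000000000000) := D_22 (nat_lit 123) (nat_lit 124) (nat_lit 122) (nat_lit 0) (nat_lit 8) (nat_lit 8) (nat_lit 0) (nat_lit 7) (nat_lit 8) (by decide +kernel)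
theorem L65742 : W_22 (nat_lit 3) (nat_lit 0x400000011000f80048001e00080000000000000000000000000000000) (nat_lit 0x0) (nat_lit 0x10005c000000000000000000000000000000) := T_22 (nat_lit 140) (nat_lit 126) (nat_lit 2) (nat_lit 4) (nat_lit 8) L65741 (by decide +kernel)
theorem L65743 : W_22 (nat_lit 4) (nat_lit 0x400000011000f80048001c00080000000000000000000000000000000) (nat_lit 0x0) (nat_lit 0x30015c000000000000000000000000000000) := T_22 (nat_lit 141) (nat_lit 128) (nat_lit 2) (nat_lit 5) (nat_lit 8) L65742 (by decide +kernel)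
theorem L65744 : W_22 (nat_lit 5) (nat_lit 0x400000011000f80048001800080000000000000000000000000000000) (nat_lit 0x0) (nat_lit 0x70017c000000000000000000000000000000) := T_22 (nat_lit 142) (nat_lit 125) (nat_lit 5) (nat_lit 6) (nat_lit 7) L65743 (by decide +kernel)
theorem L65745 : W_22 (nat_lit 6) (nat_lit 0x11000f80048001800080000000000000000000000000000000) (nat_lit 0x0) (nat_lit 0x40002000000000000000070017c000000000000000000000000000000) := T_22 (nat_lit 226) (nat_lit 209) (nat_lit 6) (nat_lit 5) (nat_lit 13) L65744 (by decide +kernel)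
theorem L65746 : W_22 (nat_lit 7) (nat_lit 0x11000f80008001800080000000000000000000000000000000) (nat_lit 0x0) (nat_lit 0x4000200000000000c000070017c000000000000000000000000000000) := T_22 (nat_lit 162) (nat_lit 163) (nat_lit 2) (nat_lit 6) (nat_lit 10) L65745 (by decide +kernel)
theorem L65747 : W_22 (nat_lit 8) (nat_lit 0x10000f80008001800080000000000000000000000000000000) (nat_lit 0x0) (nat_lit 0x4000200018000000c000070017c000000000000000000000000000000) := T_22 (nat_lit 192) (nat_lit 191) (nat_lit 1) (nat_lit 8) (nat_lit 10) L65746 (by decide +kernel)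
theorem L65748 : W_22 (nat_lit 9) (nat_lit 0x10000f00008001800080000000000000000000000000000000) (nat_lit 0x0) (nat_lit 0x4000200098000800c000070017c000000000000000000000000000000) := T_22 (nat_lit 175) (nat_lit 195) (nat_lit 3) (nat_lit 5) (nat_lit 10) L65747 (by decide +kernel)
theorem L65749 : W_22 (nat_lit 10) (nat_lit 0xf00008001800080000000000000000000000000000000) (nat_lit 0x0) (nat_lit 0x4000200398000800c000070017c000000000000000000000000000000) := T_22 (nat_lit 196) (nat_lit 197) (nat_lit 3) (nat_lit 6) (nat_lit 10) L65748 (by decide +kernel)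
theorem L65750 : W_22 (nat_lit 11) (nat_lit 0xf00000001800080000000000000000000000000000000) (nat_lit 0x0) (nat_lit 0x4000200398000800cc00070017c000000000000000000000000000000) := T_22 (nat_lit 159) (nat_lit 158) (nat_lit 0) (nat_lit 9) (nat_lit 10) L65749 (by decide +kernel)
theorem L65751 : W_22 (nat_lit 2) (nat_lit 0xf80040001800080000000000000000000000000000000) (nat_lit 0x0) (nat_lit 0xe000000000000000000000000000000000000000) := D_22 (nat_lit 158) (nat_lit 159) (nat_lit 157) (nat_lit 0) (nat_lit 9) (nat_lit 10) (nat_lit 0) (nat_lit 8) (nat_lit 10) (by decide +kernel)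
theorem L65752 : W_22 (nat_lit 3) (nat_lit 0xf00040001800080000000000000000000000000000000) (nat_lit 0x0) (nat_lit 0x8002e000000000000000000000000000000000000000) := T_22 (nat_lit 175) (nat_lit 161) (nat_lit 2) (nat_lit 5) (nat_lit 10) L65751 (by decide +kernel)
theorem L65753 : W_22 (nat_lit 4) (nat_lit 0xf00000001800080000000000000000000000000000000) (nat_lit 0x0) (nat_lit 0x800ee000000000000000000000000000000000000000) := T_22 (nat_lit 162) (nat_lit 163) (nat_lit 2) (nat_lit 6) (nat_lit 10) L65752 (by decide +kernel)
theorem L65754 : W_22 (nat_lit 12) (nat_lit 0x700000001800080000000000000000000000000000000) (nat_lit 0x0) (nat_lit 0x4000200398008800ee00070017c000000000000000000000000000000) := Q_22 (nat_lit 179) (C_22 L65613 (C_22 L65750 (C_22 L65753 N_22))) (by decide +kernel)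
theorem L65755 : W_22 (nat_lit 6) (nat_lit 0x700000001800080000000000000000000000000000000) (nat_lit 0x0) (nat_lit 0xb80088006e000000040002000000000000000000000000000) := Q_22 (nat_lit 161) (C_22 L65694 (C_22 L65622 N_22)) (by decide +kernel)
theorem L65757 : W_22 (nat_lit 3) (nat_lit 0x10007800240018000c0000000000000000000000000000000) (nat_lit 0x0) (nat_lit 0x600300008000000000000000000000000000) := T_22 (nat_lit 128) (nat_lit 111) (nat_lit 6) (nat_lit 8) (nat_lit 10) L65756 (by decide +kernel)
theorem L65758 : W_22 (nat_lit 4) (nat_lit 0x1000780024001800080000000000000000000000000000000) (nat_lit 0x0) (nat_lit 0x60034000a000000000000000000000000000) := T_22 (nat_lit 126) (nat_lit 109) (nat_lit 4) (nat_lit 8) (nat_lit 10) L65757 (by decide +kernel)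
theorem L65759 : W_22 (nat_lit 5) (nat_lit 0x1000780020001800080000000000000000000000000000000) (nat_lit 0x0) (nat_lit 0x600060034000a000000000000000000000000000) := T_22 (nat_lit 158) (nat_lit 157) (nat_lit 0) (nat_lit 8) (nat_lit 10) L65758 (by decide +kernel)
theorem L65760 : W_22 (nat_lit 6) (nat_lit 0x780020001800080000000000000000000000000000000) (nat_lit 0x0) (nat_lit 0x180000000600060034000a000000000000000000000000000) := T_22 (nat_lit 192) (nat_lit 191) (nat_lit 1) (nat_lit 8) (nat_lit 10) L65759 (by decide +kernel)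
theorem L65761 : W_22 (nat_lit 7) (nat_lit 0x700020001800080000000000000000000000000000000) (nat_lit 0x0) (nat_lit 0x180008004600060034000a000000000000000000000000000) := T_22 (nat_lit 175) (nat_lit 162) (nat_lit 2) (nat_lit 5) (nat_lit 10) L65760 (by decide +kernel)
theorem L65762 : W_22 (nat_lit 9) (nat_lit 0x700000001800080000000000000000000000000000000) (nat_lit 0x0) (nat_lit 0x4001b80008006600060035000a000000000000000000000000000) := Q_22 (nat_lit 161) (C_22 L65702 (C_22 L65622 (C_22 L65761 N_22))) (by decide +kernel)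
theorem L65766 : W_22 (nat_lit 5) (nat_lit 0x700000001800080000000000000000000000000000000) (nat_lit 0x0) (nat_lit 0x380008800ee000000000000000000000000000000000000000) := Q_22 (nat_lit 179) (C_22 L65753 (C_22 L65765 (C_22 L65613 N_22))) (by decide +kernel)
theorem L65767 : W_22 (nat_lit 2) (nat_lit 0x2000f00024001a00180000000000000000000000000000000) (nat_lit 0x0) (nat_lit 0x80002000000010000000000000000000000000000000) := D_22 (nat_lit 175) (nat_lit 124) (nat_lit 157) (nat_lit 7) (nat_lit 5) (nat_lit 7) (nat_lit 0) (nat_lit 8) (nat_lit 10) (by decide +kernel)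
theorem L65768 : W_22 (nat_lit 3) (nat_lit 0x2000f00024001800180000000000000000000000000000000) (nat_lit 0x0) (nat_lit 0x80002000600010000000000000000000000000000000) := T_22 (nat_lit 141) (nat_lit 142) (nat_lit 2) (nat_lit 5) (nat_lit 8) L65767 (by decide +kernel)
theorem L65769 : W_22 (nat_lit 4) (nat_lit 0x2000f00024001800080000000000000000000000000000000) (nat_lit 0x0) (nat_lit 0x80002000600110008000000000000000000000000000) := T_22 (nat_lit 128) (nat_lit 111) (nat_lit 6) (nat_lit 8) (nat_lit 10) L65768 (by decide +kernel)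
theorem L65770 : W_22 (nat_lit 5) (nat_lit 0x2000f00020001800080000000000000000000000000000000) (nat_lit 0x0) (nat_lit 0x8000e000600110008000000000000000000000000000) := T_22 (nat_lit 158) (nat_lit 159) (nat_lit 0) (nat_lit 9) (nat_lit 10) L65769 (by decide +kernel)
theorem L65771 : W_22 (nat_lit 6) (nat_lit 0xf00020001800080000000000000000000000000000000) (nat_lit 0x0) (nat_lit 0x300008000e000600110008000000000000000000000000000) := T_22 (nat_lit 193) (nat_lit 192) (nat_lit 1) (nat_lit 9) (nat_lit 10) L65770 (by decide +kernel)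
theorem L65772 : W_22 (nat_lit 7) (nat_lit 0x700020001800080000000000000000000000000000000) (nat_lit 0x0) (nat_lit 0x1300088000e000600110008000000000000000000000000000) := T_22 (nat_lit 179) (nat_lit 196) (nat_lit 7) (nat_lit 8) (nat_lit 7) L65771 (by decide +kernel)
theorem L65773 : W_22 (nat_lit 8) (nat_lit 0x700000001800080000000000000000000000000000000) (nat_lit 0x0) (nat_lit 0x1b00088002e00060015000a000000000000000000000000000) := Q_22 (nat_lit 161) (C_22 L65772 (C_22 L65622 N_22)) (by decide +kernel)
theorem L65774 : W_22 (nat_lit 14) (nat_lit 0x300000001800080000000000000000000000000000000) (nat_lit 0x0) (nat_lit 0x2e0017003bc00ce00ef80078037e00a000000000000000000000000000) := Q_22 (nat_lit 178) (C_22 L65668 (C_22 L65711 (C_22 L65734 (C_22 L65740 (C_22 L65754 (C_22 L65755 (C_22 L65762 (C_22 L65766 (C_22 L65773 N_22))))))))) (by decide +kernel)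
theorem L65775 : W_22 (nat_lit 7) (nat_lit 0x300000001c00080000000000000000000000000000000) (nat_lit 0x0) (nat_lit 0x10000a0007c00c00028000000078002800100000000000000000000000) := Q_22 (nat_lit 159) (C_22 L14286 (C_22 L65642 (C_22 L12521 (C_22 L12505 N_22)))) (by decide +kernel)
theorem L65776 : W_22 (nat_lit 2) (nat_lit 0x300024001e00090000000000000000000000000000000) (nat_lit 0x0) (nat_lit 0x2000000008000000000000800000000000000000000000000) := D_22 (nat_lit 159) (nat_lit 193) (nat_lit 107) (nat_lit 4) (nat_lit 6) (nat_lit 11) (nat_lit 7) (nat_lit 5) (nat_lit 6) (by decide +kernel)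
theorem L65777 : W_22 (nat_lit 3) (nat_lit 0x300024001e00080000000000000000000000000000000) (nat_lit 0x0) (nat_lit 0x2000000008000000018000800000000000000000000000000) := T_22 (nat_lit 124) (nat_lit 123) (nat_lit 0) (nat_lit 8) (nat_lit 8) L65776 (by decide +kernel)
theorem L65778 : W_22 (nat_lit 4) (nat_lit 0x300004001e00080000000000000000000000000000000) (nat_lit 0x0) (nat_lit 0x2000000068000000018000800000000000000000000000000) := T_22 (nat_lit 161) (nat_lit 162) (nat_lit 3) (nat_lit 5) (nat_lit 8) L65777 (by decide +kernel)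
theorem L65779 : W_22 (nat_lit 5) (nat_lit 0x300000001e00080000000000000000000000000000000) (nat_lit 0x0) (nat_lit 0x200000006e000000018000800000000000000000000000000) := T_22 (nat_lit 158) (nat_lit 157) (nat_lit 1) (nat_lit 8) (nat_lit 8) L65778 (by decide +kernel)
theorem L65780 : W_22 (nat_lit 6) (nat_lit 0x300000001c00080000000000000000000000000000000) (nat_lit 0x0) (nat_lit 0x200000006e000200118000800000000000000000000000000) := T_22 (nat_lit 141) (nat_lit 128) (nat_lit 2) (nat_lit 5) (nat_lit 8) L65779 (by decide +kernel)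
theorem L65781 : W_22 (nat_lit 8) (nat_lit 0x300000001800080000000000000000000000000000000) (nat_lit 0x0) (nat_lit 0x10000a0007c00c0006f000700178002800100000000000000000000000) := Q_22 (nat_lit 142) (C_22 L65775 (C_22 L12492 (C_22 L65780 N_22))) (by decide +kernel)
theorem L65783 : W_22 (nat_lit 3) (nat_lit 0x1000780004001800080000000000000000000000000000000) (nat_lit 0x0) (nat_lit 0x20000000800008000400020000000000000000000000000000000) := T_22 (nat_lit 159) (nat_lit 179) (nat_lit 0) (nat_lit 9) (nat_lit 10) L65782 (by decide +kernel)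
theorem L65784 : W_22 (nat_lit 4) (nat_lit 0x780004001800080000000000000000000000000000000) (nat_lit 0x0) (nat_lit 0x20001800800008000400020000000000000000000000000000000) := T_22 (nat_lit 192) (nat_lit 191) (nat_lit 1) (nat_lit 8) (nat_lit 10) L65783 (by decide +kernel)
theorem L65785 : W_22 (nat_lit 5) (nat_lit 0x780000001800080000000000000000000000000000000) (nat_lit 0x0) (nat_lit 0x2000180080000e000400020000000000000000000000000000000) := T_22 (nat_lit 158) (nat_lit 157) (nat_lit 0) (nat_lit 8) (nat_lit 10) L65784 (by decide +kernel)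
theorem L65786 : W_22 (nat_lit 2) (nat_lit 0x80007c0000001800080000000000000000000000000000000) (nat_lit 0x0) (nat_lit 0x1c00000000000000000000000000000000000000000000000) := D_22 (nat_lit 191) (nat_lit 190) (nat_lit 192) (nat_lit 1) (nat_lit 7) (nat_lit 10) (nat_lit 1) (nat_lit 8) (nat_lit 10) (by decide +kernel)
theorem L65787 : W_22 (nat_lit 3) (nat_lit 0x8000780000001800080000000000000000000000000000000) (nat_lit 0x0) (nat_lit 0x5c00040000000000000000000000000000000000000000000) := T_22 (nat_lit 174) (nat_lit 194) (nat_lit 3) (nat_lit 4) (nat_lit 10) L65786 (by decide +kernel)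
theorem L65788 : W_22 (nat_lit 4) (nat_lit 0x780000001800080000000000000000000000000000000) (nat_lit 0x0) (nat_lit 0x1dc00040000000000000000000000000000000000000000000) := T_22 (nat_lit 195) (nat_lit 196) (nat_lit 3) (nat_lit 5) (nat_lit 10) L65787 (by decide +kernel)
theorem L65789 : W_22 (nat_lit 13) (nat_lit 0x700000001800080000000000000000000000000000000) (nat_lit 0x0) (nat_lit 0x20003001dc008e000f80078017e000000000000000000000000000000) := Q_22 (nat_lit 175) (C_22 L65652 (C_22 L65722 (C_22 L65785 (C_22 L65788 N_22)))) (by decide +kernel)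
theorem L65790 : W_22 (nat_lit 14) (nat_lit 0x300000001800080000000000000000000000000000000) (nat_lit 0x0) (nat_lit 0x20003003dc00ce00ef80078017e002000000000000000000000000000) := Q_22 (nat_lit 178) (C_22 L65766 (C_22 L65612 (C_22 L65789 (C_22 L65623 N_22)))) (by decide +kernel)
theorem L65797 : W_22 (nat_lit 8) (nat_lit 0x6000700008001c00080000000000000000000000000000000) (nat_lit 0x0) (nat_lit 0xc00060007000380008800c4000000000000000000000000000000000000000) := T_22 (nat_lit 179) (nat_lit 158) (nat_lit 0) (nat_lit 9) (nat_lit 10) L65796 (by decide +kernel)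
theorem L65798 : W_22 (nat_lit 9) (nat_lit 0x6000300008001c00080000000000000000000000000000000) (nat_lit 0x0) (nat_lit 0xc0006000700038000c800e4000000000000000000000000000000000000000) := T_22 (nat_lit 178) (nat_lit 161) (nat_lit 5) (nat_lit 8) (nat_lit 7) L65797 (by decide +kernel)
theorem L65799 : W_22 (nat_lit 10) (nat_lit 0x2000300008001c00080000000000000000000000000000000) (nat_lit 0x0) (nat_lit 0xc000600078003c000c800e4000000000000000000000000000000000000000) := T_22 (nat_lit 194) (nat_lit 211) (nat_lit 7) (nat_lit 6) (nat_lit 8) L65798 (by decide +kernel)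
theorem L65800 : W_22 (nat_lit 11) (nat_lit 0x300008001c00080000000000000000000000000000000) (nat_lit 0x0) (nat_lit 0xc000600078003e000c800e4000000040000000000000000000000000000000) := T_22 (nat_lit 193) (nat_lit 126) (nat_lit 6) (nat_lit 6) (nat_lit 11) L65799 (by decide +kernel)
theorem L65801 : W_22 (nat_lit 12) (nat_lit 0x300000001c00080000000000000000000000000000000) (nat_lit 0x0) (nat_lit 0xc000700078003e000c800ec000000078002800100000000000000000000000) := Q_22 (nat_lit 159) (C_22 L14286 (C_22 L12505 (C_22 L12521 (C_22 L65800 N_22)))) (by decide +kernel)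
theorem L65802 : W_22 (nat_lit 13) (nat_lit 0x300000001800080000000000000000000000000000000) (nat_lit 0x0) (nat_lit 0xc000700078003e000c800ef000700178002800100000000000000000000000) := Q_22 (nat_lit 142) (C_22 L65801 (C_22 L65780 (C_22 L12496 (C_22 L12492 (C_22 L65634 N_22))))) (by decide +kernel)
theorem L65803 : W_22 (nat_lit 4) (nat_lit 0x1000700000001800080000000000000000000000000000000) (nat_lit 0x0) (nat_lit 0x3a800880000000000000000000000000000000000000000000) := T_22 (nat_lit 175) (nat_lit 191) (nat_lit 1) (nat_lit 8) (nat_lit 10) L13371 (by decide +kernel)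
theorem L65804 : W_22 (nat_lit 7) (nat_lit 0x11000f00048001800080000000000000000000000000000000) (nat_lit 0x0) (nat_lit 0x40002000080008000000070017c000000000000000000000000000000) := T_22 (nat_lit 175) (nat_lit 191) (nat_lit 1) (nat_lit 8) (nat_lit 10) L65745 (by decide +kernel)
theorem L65805 : W_22 (nat_lit 8) (nat_lit 0x11000f00008001800080000000000000000000000000000000) (nat_lit 0x0) (nat_lit 0x4000200008000800c000070017c000000000000000000000000000000) := T_22 (nat_lit 162) (nat_lit 163) (nat_lit 2) (nat_lit 6) (nat_lit 10) L65804 (by decide +kernel)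
theorem L65806 : W_22 (nat_lit 9) (nat_lit 0x1000f00008001800080000000000000000000000000000000) (nat_lit 0x0) (nat_lit 0x4000200308000800c000070017c000000000000000000000000000000) := T_22 (nat_lit 196) (nat_lit 197) (nat_lit 3) (nat_lit 6) (nat_lit 10) L65805 (by decide +kernel)
theorem L65807 : W_22 (nat_lit 10) (nat_lit 0x1000f00000001800080000000000000000000000000000000) (nat_lit 0x0) (nat_lit 0x4000200308000800cc00070017c000000000000000000000000000000) := T_22 (nat_lit 159) (nat_lit 158) (nat_lit 0) (nat_lit 9) (nat_lit 10) L65806 (by decide +kernel)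
theorem L65808 : W_22 (nat_lit 11) (nat_lit 0x1000700000001800080000000000000000000000000000000) (nat_lit 0x0) (nat_lit 0x4000200328008800cc00070017c000000000000000000000000000000) := T_22 (nat_lit 179) (nat_lit 193) (nat_lit 1) (nat_lit 9) (nat_lit 10) L65807 (by decide +kernel)
theorem L65809 : W_22 (nat_lit 2) (nat_lit 0x3000700000001800080000000000000000000000000000000) (nat_lit 0x0) (nat_lit 0x4c00000000000000000000000000000000000000000000000) := D_22 (nat_lit 191) (nat_lit 190) (nat_lit 194) (nat_lit 2) (nat_lit 3) (nat_lit 11) (nat_lit 2) (nat_lit 4) (nat_lit 11) (by decide +kernel)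
theorem L65810 : W_22 (nat_lit 3) (nat_lit 0x1000700000001800080000000000000000000000000000000) (nat_lit 0x0) (nat_lit 0x6c00800000000000000000000000000000000000000000000) := T_22 (nat_lit 193) (nat_lit 179) (nat_lit 1) (nat_lit 9) (nat_lit 10) L65809 (by decide +kernel)
theorem L65811 : W_22 (nat_lit 7) (nat_lit 0x11000f80040001800080000000000000000000000000000000) (nat_lit 0x0) (nat_lit 0x40002000000000000c00070017c000000000000000000000000000000) := T_22 (nat_lit 159) (nat_lit 158) (nat_lit 0) (nat_lit 9) (nat_lit 10) L65745 (by decide +kernel)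
theorem L65812 : W_22 (nat_lit 8) (nat_lit 0x11000f80000001800080000000000000000000000000000000) (nat_lit 0x0) (nat_lit 0x4000200000000000cc00070017c000000000000000000000000000000) := T_22 (nat_lit 162) (nat_lit 163) (nat_lit 2) (nat_lit 6) (nat_lit 10) L65811 (by decide +kernel)
theorem L65813 : W_22 (nat_lit 9) (nat_lit 0x11000780000001800080000000000000000000000000000000) (nat_lit 0x0) (nat_lit 0x4000200200008000cc00070017c000000000000000000000000000000) := T_22 (nat_lit 179) (nat_lit 197) (nat_lit 3) (nat_lit 6) (nat_lit 10) L65812 (by decide +kernel)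
theorem L65814 : W_22 (nat_lit 10) (nat_lit 0x1000780000001800080000000000000000000000000000000) (nat_lit 0x0) (nat_lit 0x4000200380008000cc00070017c000000000000000000000000000000) := T_22 (nat_lit 196) (nat_lit 195) (nat_lit 3) (nat_lit 5) (nat_lit 10) L65813 (by decide +kernel)
theorem L65815 : W_22 (nat_lit 11) (nat_lit 0x1000700000001800080000000000000000000000000000000) (nat_lit 0x0) (nat_lit 0x4000200388008800cc00070017c000000000000000000000000000000) := T_22 (nat_lit 175) (nat_lit 191) (nat_lit 1) (nat_lit 8) (nat_lit 10) L65814 (by decide +kernel)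
theorem L65816 : W_22 (nat_lit 2) (nat_lit 0x1800700000001800080000000000000000000000000000000) (nat_lit 0x0) (nat_lit 0x6400000000000000000000000000000000000000000000000) := D_22 (nat_lit 193) (nat_lit 190) (nat_lit 194) (nat_lit 2) (nat_lit 3) (nat_lit 11) (nat_lit 2) (nat_lit 4) (nat_lit 11) (by decide +kernel)
theorem L65817 : W_22 (nat_lit 3) (nat_lit 0x1000700000001800080000000000000000000000000000000) (nat_lit 0x0) (nat_lit 0x6c00080000000000000000000000000000000000000000000) := T_22 (nat_lit 191) (nat_lit 175) (nat_lit 1) (nat_lit 8) (nat_lit 10) L65816 (by decide +kernel)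
theorem L65818 : W_22 (nat_lit 8) (nat_lit 0x11000f00008001800080000000000000000000000000000000) (nat_lit 0x0) (nat_lit 0x4000200080000800c000070017c000000000000000000000000000000) := T_22 (nat_lit 175) (nat_lit 195) (nat_lit 3) (nat_lit 5) (nat_lit 10) L65746 (by decide +kernel)
theorem L65819 : W_22 (nat_lit 9) (nat_lit 0x1000f00008001800080000000000000000000000000000000) (nat_lit 0x0) (nat_lit 0x4000200380000800c000070017c000000000000000000000000000000) := T_22 (nat_lit 196) (nat_lit 197) (nat_lit 3) (nat_lit 6) (nat_lit 10) L65818 (by decide +kernel)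
theorem L65820 : W_22 (nat_lit 10) (nat_lit 0x1000f00000001800080000000000000000000000000000000) (nat_lit 0x0) (nat_lit 0x4000200380000800cc00070017c000000000000000000000000000000) := T_22 (nat_lit 159) (nat_lit 158) (nat_lit 0) (nat_lit 9) (nat_lit 10) L65819 (by decide +kernel)
theorem L65821 : W_22 (nat_lit 11) (nat_lit 0x1000700000001800080000000000000000000000000000000) (nat_lit 0x0) (nat_lit 0x40002003a0008800cc00070017c000000000000000000000000000000) := T_22 (nat_lit 179) (nat_lit 193) (nat_lit 1) (nat_lit 9) (nat_lit 10) L65820 (by decide +kernel)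
theorem L65822 : W_22 (nat_lit 12) (nat_lit 0x700000001800080000000000000000000000000000000) (nat_lit 0x0) (nat_lit 0x40002003fc008800cc00070017c000000000000000000000000000000) := Q_22 (nat_lit 192) (C_22 L65803 (C_22 L65808 (C_22 L65810 (C_22 L65815 (C_22 L65817 (C_22 L65821 N_22)))))) (by decide +kernel)
theorem L65823 : W_22 (nat_lit 13) (nat_lit 0x300000001800080000000000000000000000000000000) (nat_lit 0x0) (nat_lit 0x40002003fc00c800ec00070017c002000000000000000000000000000) := Q_22 (nat_lit 178) (C_22 L65690 (C_22 L65740 (C_22 L65822 (C_22 L65623 N_22)))) (by decide +kernel)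
theorem L65824 : W_22 (nat_lit 2) (nat_lit 0x2000700020001e00090000000000000000000000000000000) (nat_lit 0x0) (nat_lit 0x11000800000000000000000000000000000000000000000000) := D_22 (nat_lit 179) (nat_lit 192) (nat_lit 196) (nat_lit 1) (nat_lit 9) (nat_lit 10) (nat_lit 7) (nat_lit 8) (nat_lit 7) (by decide +kernel)
theorem L65825 : W_22 (nat_lit 3) (nat_lit 0x2000300020001e00090000000000000000000000000000000) (nat_lit 0x0) (nat_lit 0x15000c00000000000000000000000000000000000000000000) := T_22 (nat_lit 178) (nat_lit 194) (nat_lit 5) (nat_lit 8) (nat_lit 7) L65824 (by decide +kernel)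
theorem L65826 : W_22 (nat_lit 4) (nat_lit 0x300020001e00090000000000000000000000000000000) (nat_lit 0x0) (nat_lit 0x17000c00008000000000000000000000000000000000000000) := T_22 (nat_lit 193) (nat_lit 159) (nat_lit 4) (nat_lit 6) (nat_lit 11) L65825 (by decide +kernel)
theorem L65827 : W_22 (nat_lit 5) (nat_lit 0x300000001e00090000000000000000000000000000000) (nat_lit 0x0) (nat_lit 0x17000c00068000000000000000000000000000000000000000) := T_22 (nat_lit 161) (nat_lit 162) (nat_lit 3) (nat_lit 5) (nat_lit 8) L65826 (by decide +kernel)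
theorem L65828 : W_22 (nat_lit 6) (nat_lit 0x300000001e00080000000000000000000000000000000) (nat_lit 0x0) (nat_lit 0x17000c00068000000018000000000000000000000000000000) := T_22 (nat_lit 124) (nat_lit 123) (nat_lit 0) (nat_lit 8) (nat_lit 8) L65827 (by decide +kernel)
theorem L65829 : W_22 (nat_lit 7) (nat_lit 0x300000001c00080000000000000000000000000000000) (nat_lit 0x0) (nat_lit 0x17000c00068000200118000000000000000000000000000000) := T_22 (nat_lit 141) (nat_lit 128) (nat_lit 2) (nat_lit 5) (nat_lit 8) L65828 (by decide +kernel)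
theorem L65830 : W_22 (nat_lit 2) (nat_lit 0x1000f00022001f00088000000000000000000000000000000) (nat_lit 0x0) (nat_lit 0x8000c0000000000000000000000000000000000000000000) := D_22 (nat_lit 175) (nat_lit 191) (nat_lit 174) (nat_lit 1) (nat_lit 8) (nat_lit 10) (nat_lit 7) (nat_lit 4) (nat_lit 7) (by decide +kernel)
theorem L65831 : W_22 (nat_lit 3) (nat_lit 0xf00022001f00088000000000000000000000000000000) (nat_lit 0x0) (nat_lit 0x38000c0000000000000000000000000000000000000000000) := T_22 (nat_lit 192) (nat_lit 193) (nat_lit 1) (nat_lit 9) (nat_lit 10) L65830 (by decide +kernel)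
theorem L65832 : W_22 (nat_lit 4) (nat_lit 0x700022001f00088000000000000000000000000000000) (nat_lit 0x0) (nat_lit 0x138008c0000000000000000000000000000000000000000000) := T_22 (nat_lit 179) (nat_lit 196) (nat_lit 7) (nat_lit 8) (nat_lit 7) L65831 (by decide +kernel)
theorem L65833 : W_22 (nat_lit 5) (nat_lit 0x300022001f00088000000000000000000000000000000) (nat_lit 0x0) (nat_lit 0x17800cc0000000000000000000000000000000000000000000) := T_22 (nat_lit 178) (nat_lit 194) (nat_lit 5) (nat_lit 8) (nat_lit 7) L65832 (by decide +kernel)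
theorem L65834 : W_22 (nat_lit 6) (nat_lit 0x300002001f00088000000000000000000000000000000) (nat_lit 0x0) (nat_lit 0x17800cc0060000000000000000000000000000000000000000) := T_22 (nat_lit 161) (nat_lit 162) (nat_lit 3) (nat_lit 5) (nat_lit 8) L65833 (by decide +kernel)
theorem L65835 : W_22 (nat_lit 7) (nat_lit 0x300002001f00080000000000000000000000000000000) (nat_lit 0x0) (nat_lit 0x17800cc006000000000c000000000000000000000000000000) := T_22 (nat_lit 123) (nat_lit 122) (nat_lit 0) (nat_lit 7) (nat_lit 8) L65834 (by decide +kernel)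
theorem L65836 : W_22 (nat_lit 8) (nat_lit 0x300000001f00080000000000000000000000000000000) (nat_lit 0x0) (nat_lit 0x17800cc006300000000c000000000000000000000000000000) := T_22 (nat_lit 157) (nat_lit 156) (nat_lit 1) (nat_lit 7) (nat_lit 8) L65835 (by decide +kernel)
theorem L65837 : W_22 (nat_lit 9) (nat_lit 0x300000001e00080000000000000000000000000000000) (nat_lit 0x0) (nat_lit 0x17800cc006300010004c000000000000000000000000000000) := T_22 (nat_lit 140) (nat_lit 126) (nat_lit 2) (nat_lit 4) (nat_lit 8) L65836 (by decide +kernel)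
theorem L65838 : W_22 (nat_lit 10) (nat_lit 0x300000001c00080000000000000000000000000000000) (nat_lit 0x0) (nat_lit 0x17800cc006300030014c000000000000000000000000000000) := T_22 (nat_lit 141) (nat_lit 128) (nat_lit 2) (nat_lit 5) (nat_lit 8) L65837 (by decide +kernel)
theorem L65839 : W_22 (nat_lit 2) (nat_lit 0x1800f00022001f00080000000000000000000000000000000) (nat_lit 0x0) (nat_lit 0x20000000040000000000010000000000000000000000000000000) := D_22 (nat_lit 174) (nat_lit 124) (nat_lit 209) (nat_lit 6) (nat_lit 4) (nat_lit 11) (nat_lit 7) (nat_lit 4) (nat_lit 8) (by decide +kernel)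
theorem L65840 : W_22 (nat_lit 3) (nat_lit 0x1000f00022001f00080000000000000000000000000000000) (nat_lit 0x0) (nat_lit 0x200008000c0000000000010000000000000000000000000000000) := T_22 (nat_lit 191) (nat_lit 175) (nat_lit 1) (nat_lit 8) (nat_lit 10) L65839 (by decide +kernel)
theorem L65841 : W_22 (nat_lit 4) (nat_lit 0xf00022001f00080000000000000000000000000000000) (nat_lit 0x0) (nat_lit 0x200038000c0000000000010000000000000000000000000000000) := T_22 (nat_lit 192) (nat_lit 193) (nat_lit 1) (nat_lit 9) (nat_lit 10) L65840 (by decide +kernel)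
theorem L65842 : W_22 (nat_lit 5) (nat_lit 0x700022001f00080000000000000000000000000000000) (nat_lit 0x0) (nat_lit 0x200138008c0000000000010000000000000000000000000000000) := T_22 (nat_lit 179) (nat_lit 196) (nat_lit 7) (nat_lit 8) (nat_lit 7) L65841 (by decide +kernel)
theorem L65843 : W_22 (nat_lit 6) (nat_lit 0x300022001f00080000000000000000000000000000000) (nat_lit 0x0) (nat_lit 0x20017800cc0000000000010000000000000000000000000000000) := T_22 (nat_lit 178) (nat_lit 194) (nat_lit 5) (nat_lit 8) (nat_lit 7) L65842 (by decide +kernel)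
theorem L65844 : W_22 (nat_lit 7) (nat_lit 0x300002001f00080000000000000000000000000000000) (nat_lit 0x0) (nat_lit 0x20017800cc0060000000010000000000000000000000000000000) := T_22 (nat_lit 161) (nat_lit 162) (nat_lit 3) (nat_lit 5) (nat_lit 8) L65843 (by decide +kernel)
theorem L65845 : W_22 (nat_lit 8) (nat_lit 0x300000001f00080000000000000000000000000000000) (nat_lit 0x0) (nat_lit 0x20017800cc0063000000010000000000000000000000000000000) := T_22 (nat_lit 157) (nat_lit 156) (nat_lit 1) (nat_lit 7) (nat_lit 8) L65844 (by decide +kernel)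
theorem L65846 : W_22 (nat_lit 9) (nat_lit 0x300000001e00080000000000000000000000000000000) (nat_lit 0x0) (nat_lit 0x20017800cc0063000100050000000000000000000000000000000) := T_22 (nat_lit 140) (nat_lit 126) (nat_lit 2) (nat_lit 4) (nat_lit 8) L65845 (by decide +kernel)
theorem L65847 : W_22 (nat_lit 10) (nat_lit 0x300000001c00080000000000000000000000000000000) (nat_lit 0x0) (nat_lit 0x20017800cc0063000300150000000000000000000000000000000) := T_22 (nat_lit 141) (nat_lit 128) (nat_lit 2) (nat_lit 5) (nat_lit 8) L65846 (by decide +kernel)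
theorem L65848 : W_22 (nat_lit 11) (nat_lit 0x300000001800080000000000000000000000000000000) (nat_lit 0x0) (nat_lit 0x10000a0017c00cc006b00070017c002800100000000000000000000000) := Q_22 (nat_lit 142) (C_22 L65775 (C_22 L65634 (C_22 L12519 (C_22 L65829 (C_22 L65838 (C_22 L65847 N_22)))))) (by decide +kernel)
theorem L65849 : W_22 (nat_lit 15) (nat_lit 0x200000001800080000000000000000000000000000000) (nat_lit 0x0) (nat_lit 0xe8007e007f803fe00df00ef80078037e00b800140000000000000000000000) := Q_22 (nat_lit 176) (C_22 L65624 (C_22 L65637 (C_22 L65644 (C_22 L65645 (C_22 L65669 (C_22 L65704 (C_22 L65774 (C_22 L65781 (C_22 L65790 (C_22 L65802 (C_22 L65823 (C_22 L65848 N_22)))))))))))) (by decide +kernel)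
theorem L65850 : W_22 (nat_lit 2) (nat_lit 0x300010001c000c0003000000000000000000000000000) (nat_lit 0x0) (nat_lit 0x20000000000000000100008000000000000000000) := D_22 (nat_lit 92) (nat_lit 75) (nat_lit 161) (nat_lit 7) (nat_lit 7) (nat_lit 4) (nat_lit 7) (nat_lit 7) (nat_lit 5) (by decide +kernel)
theorem L65851 : W_22 (nat_lit 3) (nat_lit 0x300010001c000c0001000000000000000000000000000) (nat_lit 0x0) (nat_lit 0x20000000000002000180008000000000000000000) := T_22 (nat_lit 109) (nat_lit 91) (nat_lit 4) (nat_lit 7) (nat_lit 9) L65850 (by decide +kernel)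
theorem L65852 : W_22 (nat_lit 4) (nat_lit 0x300010001c000c0000000000000000000000000000000) (nat_lit 0x0) (nat_lit 0x20000000020003000180008000000000000000000) := T_22 (nat_lit 108) (nat_lit 125) (nat_lit 4) (nat_lit 7) (nat_lit 10) L65851 (by decide +kernel)
theorem L65853 : W_22 (nat_lit 5) (nat_lit 0x200010001c000c0000000000000000000000000000000) (nat_lit 0x0) (nat_lit 0x2000100020000000020003000180008000000000000000000) := T_22 (nat_lit 176) (nat_lit 193) (nat_lit 5) (nat_lit 7) (nat_lit 7) L65852 (by decide +kernel)
theorem L65854 : W_22 (nat_lit 2) (nat_lit 0x200010001c002c0003000000000000000000000000000) (nat_lit 0x0) (nat_lit 0x8000000000000000100008000000000000000000) := D_22 (nat_lit 92) (nat_lit 159) (nat_lit 75) (nat_lit 5) (nat_lit 7) (nat_lit 5) (nat_lit 7) (nat_lit 7) (nat_lit 4) (by decide +kernel)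
theorem L65855 : W_22 (nat_lit 3) (nat_lit 0x200010001c002c0001000000000000000000000000000) (nat_lit 0x0) (nat_lit 0x8000000000002000180008000000000000000000) := T_22 (nat_lit 109) (nat_lit 91) (nat_lit 4) (nat_lit 7) (nat_lit 9) L65854 (by decide +kernel)
theorem L65856 : W_22 (nat_lit 4) (nat_lit 0x200010001c002c0000000000000000000000000000000) (nat_lit 0x0) (nat_lit 0x8000000020003000180008000000000000000000) := T_22 (nat_lit 108) (nat_lit 125) (nat_lit 4) (nat_lit 7) (nat_lit 10) L65855 (by decide +kernel)
theorem L65857 : W_22 (nat_lit 5) (nat_lit 0x200010001c000c0000000000000000000000000000000) (nat_lit 0x0) (nat_lit 0x8000000320003000180008000000000000000000) := T_22 (nat_lit 129) (nat_lit 128) (nat_lit 1) (nat_lit 10) (nat_lit 7) L65856 (by decide +kernel)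
theorem L65858 : W_22 (nat_lit 2) (nat_lit 0x300010001c000c0002000000000000000000000000000) (nat_lit 0x0) (nat_lit 0x20000000000000000100008000000000000000000) := D_22 (nat_lit 92) (nat_lit 161) (nat_lit 75) (nat_lit 7) (nat_lit 7) (nat_lit 5) (nat_lit 7) (nat_lit 7) (nat_lit 4) (by decide +kernel)
theorem L65859 : W_22 (nat_lit 3) (nat_lit 0x300010001c000c0000000000000000000000000000000) (nat_lit 0x0) (nat_lit 0x28000000000002000100008000000000000000000) := T_22 (nat_lit 109) (nat_lit 159) (nat_lit 5) (nat_lit 7) (nat_lit 6) L65858 (by decide +kernel)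
theorem L65860 : W_22 (nat_lit 4) (nat_lit 0x200010001c000c0000000000000000000000000000000) (nat_lit 0x0) (nat_lit 0x2000100028000000000002000100008000000000000000000) := T_22 (nat_lit 176) (nat_lit 193) (nat_lit 5) (nat_lit 7) (nat_lit 7) L65859 (by decide +kernel)
theorem L65861 : W_22 (nat_lit 2) (nat_lit 0x300010001c000f0000000000000000000000000000000) (nat_lit 0x0) (nat_lit 0x8000000000000c00000000000000000000000000) := D_22 (nat_lit 107) (nat_lit 159) (nat_lit 106) (nat_lit 4) (nat_lit 6) (nat_lit 10) (nat_lit 0) (nat_lit 8) (nat_lit 7) (by decide +kernel)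
theorem L65862 : W_22 (nat_lit 3) (nat_lit 0x300010001c000e0000000000000000000000000000000) (nat_lit 0x0) (nat_lit 0x8000000018000c00000000000000000000000000) := T_22 (nat_lit 124) (nat_lit 123) (nat_lit 3) (nat_lit 4) (nat_lit 7) L65861 (by decide +kernel)
theorem L65863 : W_22 (nat_lit 4) (nat_lit 0x300010001c000c0000000000000000000000000000000) (nat_lit 0x0) (nat_lit 0x8000000038001c00000000000000000000000000) := T_22 (nat_lit 125) (nat_lit 108) (nat_lit 4) (nat_lit 7) (nat_lit 10) L65862 (by decide +kernel)
theorem L65864 : W_22 (nat_lit 5) (nat_lit 0x200010001c000c0000000000000000000000000000000) (nat_lit 0x0) (nat_lit 0x2000100008000000038001c00000000000000000000000000) := T_22 (nat_lit 176) (nat_lit 193) (nat_lit 5) (nat_lit 7) (nat_lit 7) L65863 (by decide +kernel)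
theorem L65865 : W_22 (nat_lit 6) (nat_lit 0x200010001c00080000000000000000000000000000000) (nat_lit 0x0) (nat_lit 0x2000100028000000378003c00180008000000000000000000) := Q_22 (nat_lit 126) (C_22 L65853 (C_22 L65857 (C_22 L65860 (C_22 L65864 N_22)))) (by decide +kernel)
theorem L65866 : W_22 (nat_lit 7) (nat_lit 0x200000001c00080000000000000000000000000000000) (nat_lit 0x0) (nat_lit 0x6000100038000000378003c00180008000000000000000000) := T_22 (nat_lit 160) (nat_lit 194) (nat_lit 6) (nat_lit 7) (nat_lit 11) L65865 (by decide +kernel)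
theorem L65867 : W_22 (nat_lit 2) (nat_lit 0x200020001f00080000000000000000000000000000000) (nat_lit 0x0) (nat_lit 0x7000000000000000000000000000000000000000) := D_22 (nat_lit 157) (nat_lit 156) (nat_lit 158) (nat_lit 1) (nat_lit 7) (nat_lit 8) (nat_lit 1) (nat_lit 8) (nat_lit 8) (by decide +kernel)
theorem L65868 : W_22 (nat_lit 3) (nat_lit 0x200020001e00080000000000000000000000000000000) (nat_lit 0x0) (nat_lit 0x7000100040000000000000000000000000000000) := T_22 (nat_lit 140) (nat_lit 126) (nat_lit 2) (nat_lit 4) (nat_lit 8) L65867 (by decide +kernel)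
theorem L65869 : W_22 (nat_lit 4) (nat_lit 0x200000001e00080000000000000000000000000000000) (nat_lit 0x0) (nat_lit 0x67000100040000000000000000000000000000000) := T_22 (nat_lit 161) (nat_lit 162) (nat_lit 3) (nat_lit 5) (nat_lit 8) L65868 (by decide +kernel)
theorem L65870 : W_22 (nat_lit 2) (nat_lit 0x4000200004001f00080000000000000000000000000000000) (nat_lit 0x0) (nat_lit 0x1c000000000000000000000000000000) := D_22 (nat_lit 123) (nat_lit 122) (nat_lit 124) (nat_lit 0) (nat_lit 7) (nat_lit 8) (nat_lit 0) (nat_lit 8) (nat_lit 8) (by decide +kernel)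
theorem L65871 : W_22 (nat_lit 3) (nat_lit 0x4000200004001e00080000000000000000000000000000000) (nat_lit 0x0) (nat_lit 0x10005c000000000000000000000000000000) := T_22 (nat_lit 140) (nat_lit 126) (nat_lit 2) (nat_lit 4) (nat_lit 8) L65870 (by decide +kernel)
theorem L65872 : W_22 (nat_lit 4) (nat_lit 0x200004001e00080000000000000000000000000000000) (nat_lit 0x0) (nat_lit 0x400000001000010005c000000000000000000000000000000) := T_22 (nat_lit 194) (nat_lit 160) (nat_lit 6) (nat_lit 7) (nat_lit 11) L65871 (by decide +kernel)
theorem L65873 : W_22 (nat_lit 5) (nat_lit 0x200000001e00080000000000000000000000000000000) (nat_lit 0x0) (nat_lit 0x400000001600010005c000000000000000000000000000000) := T_22 (nat_lit 158) (nat_lit 157) (nat_lit 1) (nat_lit 8) (nat_lit 8) L65872 (by decide +kernel)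
theorem L65874 : W_22 (nat_lit 5) (nat_lit 0x200000001e00080000000000000000000000000000000) (nat_lit 0x0) (nat_lit 0x4000000076000100018000000000000000000000000000000) := T_22 (nat_lit 124) (nat_lit 123) (nat_lit 0) (nat_lit 8) (nat_lit 8) L33148 (by decide +kernel)
theorem L65875 : W_22 (nat_lit 2) (nat_lit 0x4000280004001e000a0000000000000000000000000000000) (nat_lit 0x0) (nat_lit 0x100008000000000001000000000000000000000000000) := D_22 (nat_lit 159) (nat_lit 176) (nat_lit 108) (nat_lit 7) (nat_lit 6) (nat_lit 7) (nat_lit 5) (nat_lit 6) (nat_lit 6) (by decide +kernel)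
theorem L65876 : W_22 (nat_lit 3) (nat_lit 0x4000200004001e000a0000000000000000000000000000000) (nat_lit 0x0) (nat_lit 0x1000180008000000000001000000000000000000000000000) := T_22 (nat_lit 175) (nat_lit 192) (nat_lit 6) (nat_lit 5) (nat_lit 11) L65875 (by decide +kernel)
theorem L65877 : W_22 (nat_lit 4) (nat_lit 0x200004001e000a0000000000000000000000000000000) (nat_lit 0x0) (nat_lit 0x5000180018000000000001000000000000000000000000000) := T_22 (nat_lit 194) (nat_lit 160) (nat_lit 6) (nat_lit 7) (nat_lit 11) L65876 (by decide +kernel)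
theorem L65878 : W_22 (nat_lit 5) (nat_lit 0x200000001e000a0000000000000000000000000000000) (nat_lit 0x0) (nat_lit 0x500018001e000000000001000000000000000000000000000) := T_22 (nat_lit 158) (nat_lit 157) (nat_lit 1) (nat_lit 8) (nat_lit 8) L65877 (by decide +kernel)
theorem L65879 : W_22 (nat_lit 2) (nat_lit 0x200024001e000b0000000000000000000000000000000) (nat_lit 0x0) (nat_lit 0x1000080000000000000001000000000000000000000000000) := D_22 (nat_lit 175) (nat_lit 192) (nat_lit 108) (nat_lit 6) (nat_lit 5) (nat_lit 11) (nat_lit 6) (nat_lit 5) (nat_lit 10) (by decide +kernel)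
theorem L65880 : W_22 (nat_lit 3) (nat_lit 0x200024001e000a0000000000000000000000000000000) (nat_lit 0x0) (nat_lit 0x1000080000000000018001000000000000000000000000000) := T_22 (nat_lit 124) (nat_lit 123) (nat_lit 0) (nat_lit 8) (nat_lit 8) L65879 (by decide +kernel)
theorem L65881 : W_22 (nat_lit 4) (nat_lit 0x200020001e000a0000000000000000000000000000000) (nat_lit 0x0) (nat_lit 0x1000080006000000018001000000000000000000000000000) := T_22 (nat_lit 158) (nat_lit 157) (nat_lit 1) (nat_lit 8) (nat_lit 8) L65880 (by decide +kernel)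
theorem L65882 : W_22 (nat_lit 5) (nat_lit 0x200000001e000a0000000000000000000000000000000) (nat_lit 0x0) (nat_lit 0x1000080066000000018001000000000000000000000000000) := T_22 (nat_lit 161) (nat_lit 162) (nat_lit 3) (nat_lit 5) (nat_lit 8) L65881 (by decide +kernel)
theorem L65883 : W_22 (nat_lit 2) (nat_lit 0x400020002c001e000b0000800000000000000000000000000) (nat_lit 0x0) (nat_lit 0x40000400020000000000000000000000) := D_22 (nat_lit 106) (nat_lit 126) (nat_lit 89) (nat_lit 0) (nat_lit 8) (nat_lit 7) (nat_lit 4) (nat_lit 5) (nat_lit 9) (by decide +kernel)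
theorem L65884 : W_22 (nat_lit 3) (nat_lit 0x4000200028001e000b0000800000000000000000000000000) (nat_lit 0x0) (nat_lit 0x6000000040000400020000000000000000000000) := T_22 (nat_lit 158) (nat_lit 157) (nat_lit 1) (nat_lit 8) (nat_lit 8) L65883 (by decide +kernel)
theorem L65885 : W_22 (nat_lit 4) (nat_lit 0x4000200028001e000b0000000000000000000000000000000) (nat_lit 0x0) (nat_lit 0x6000000040000c00060000000000000000000000) := T_22 (nat_lit 107) (nat_lit 90) (nat_lit 7) (nat_lit 5) (nat_lit 5) L65884 (by decide +kernel)
theorem L65886 : W_22 (nat_lit 5) (nat_lit 0x4000200020001e000b0000000000000000000000000000000) (nat_lit 0x0) (nat_lit 0x10000e000000040000c00060000000000000000000000) := T_22 (nat_lit 159) (nat_lit 176) (nat_lit 7) (nat_lit 6) (nat_lit 7) L65885 (by decide +kernel)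
theorem L65887 : W_22 (nat_lit 6) (nat_lit 0x4000200000001e000b0000000000000000000000000000000) (nat_lit 0x0) (nat_lit 0x10006e000000040000c00060000000000000000000000) := T_22 (nat_lit 161) (nat_lit 162) (nat_lit 3) (nat_lit 5) (nat_lit 8) L65886 (by decide +kernel)
theorem L65888 : W_22 (nat_lit 7) (nat_lit 0x200000001e000b0000000000000000000000000000000) (nat_lit 0x0) (nat_lit 0x400010007e000000040000c00060000000000000000000000) := T_22 (nat_lit 194) (nat_lit 160) (nat_lit 6) (nat_lit 7) (nat_lit 11) L65887 (by decide +kernel)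
theorem L65889 : W_22 (nat_lit 8) (nat_lit 0x200000001e000a0000000000000000000000000000000) (nat_lit 0x0) (nat_lit 0x400010007e000000058000c00060000000000000000000000) := T_22 (nat_lit 124) (nat_lit 123) (nat_lit 0) (nat_lit 8) (nat_lit 8) L65888 (by decide +kernel)
theorem L65890 : W_22 (nat_lit 2) (nat_lit 0x400020002c001e000b0000d00000000000000000000000000) (nat_lit 0x0) (nat_lit 0x80000000000000001000080000000000000000000000) := D_22 (nat_lit 108) (nat_lit 91) (nat_lit 175) (nat_lit 6) (nat_lit 5) (nat_lit 9) (nat_lit 6) (nat_lit 5) (nat_lit 10) (by decide +kernel)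
theorem L65891 : W_22 (nat_lit 3) (nat_lit 0x4000200028001e000b0000d00000000000000000000000000) (nat_lit 0x0) (nat_lit 0x800040000000000010000a0000000000000000000000) := T_22 (nat_lit 158) (nat_lit 89) (nat_lit 4) (nat_lit 5) (nat_lit 9) L65890 (by decide +kernel)
theorem L65892 : W_22 (nat_lit 4) (nat_lit 0x4000200028001e000b0000c00000000000000000000000000) (nat_lit 0x0) (nat_lit 0x800040000000000013000a0000000000000000000000) := T_22 (nat_lit 104) (nat_lit 105) (nat_lit 3) (nat_lit 2) (nat_lit 6) L65891 (by decide +kernel)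
theorem L65893 : W_22 (nat_lit 5) (nat_lit 0x4000200028001e000b0000800000000000000000000000000) (nat_lit 0x0) (nat_lit 0x800040000000400017000a0000000000000000000000) := T_22 (nat_lit 106) (nat_lit 126) (nat_lit 0) (nat_lit 8) (nat_lit 7) L65892 (by decide +kernel)
theorem L65894 : W_22 (nat_lit 6) (nat_lit 0x4000200028001e000b0000000000000000000000000000000) (nat_lit 0x0) (nat_lit 0x80004000000040001f000e0000000000000000000000) := T_22 (nat_lit 107) (nat_lit 90) (nat_lit 7) (nat_lit 5) (nat_lit 5) L65893 (by decide +kernel)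
theorem L65895 : W_22 (nat_lit 7) (nat_lit 0x4000200020001e000b0000000000000000000000000000000) (nat_lit 0x0) (nat_lit 0x18000c000000040001f000e0000000000000000000000) := T_22 (nat_lit 159) (nat_lit 176) (nat_lit 7) (nat_lit 6) (nat_lit 7) L65894 (by decide +kernel)
theorem L65896 : W_22 (nat_lit 8) (nat_lit 0x4000200000001e000b0000000000000000000000000000000) (nat_lit 0x0) (nat_lit 0x18006c000000040001f000e0000000000000000000000) := T_22 (nat_lit 161) (nat_lit 162) (nat_lit 3) (nat_lit 5) (nat_lit 8) L65895 (by decide +kernel)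
theorem L65897 : W_22 (nat_lit 9) (nat_lit 0x200000001e000b0000000000000000000000000000000) (nat_lit 0x0) (nat_lit 0x400018007c000000040001f000e0000000000000000000000) := T_22 (nat_lit 194) (nat_lit 160) (nat_lit 6) (nat_lit 7) (nat_lit 11) L65896 (by decide +kernel)
theorem L65898 : W_22 (nat_lit 10) (nat_lit 0x200000001e000a0000000000000000000000000000000) (nat_lit 0x0) (nat_lit 0x400018007c000000058001f000e0000000000000000000000) := T_22 (nat_lit 124) (nat_lit 123) (nat_lit 0) (nat_lit 8) (nat_lit 8) L65897 (by decide +kernel)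
theorem L65899 : W_22 (nat_lit 3) (nat_lit 0x200000001e000a0000000000000000000000000000000) (nat_lit 0x0) (nat_lit 0x4000000010000000040001000080000000000000000000000) := T_22 (nat_lit 160) (nat_lit 194) (nat_lit 6) (nat_lit 7) (nat_lit 11) L63315 (by decide +kernel)
theorem L65900 : W_22 (nat_lit 11) (nat_lit 0x200000001e00080000000000000000000000000000000) (nat_lit 0x0) (nat_lit 0x500018007e000000078001f000e0000000000000000000000) := Q_22 (nat_lit 125) (C_22 L65878 (C_22 L65882 (C_22 L65889 (C_22 L65898 (C_22 L65899 N_22))))) (by decide +kernel)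
theorem L65901 : W_22 (nat_lit 12) (nat_lit 0x200000001c00080000000000000000000000000000000) (nat_lit 0x0) (nat_lit 0x500018007f00030007c001f000e0000000000000000000000) := Q_22 (nat_lit 141) (C_22 L65869 (C_22 L65873 (C_22 L65874 (C_22 L62642 (C_22 L65900 N_22))))) (by decide +kernel)
theorem L65902 : W_22 (nat_lit 5) (nat_lit 0x200000001c00080000000000000000000000000000000) (nat_lit 0x0) (nat_lit 0x67000300140000000000000000000000000000000) := T_22 (nat_lit 141) (nat_lit 128) (nat_lit 2) (nat_lit 5) (nat_lit 8) L65869 (by decide +kernel)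
theorem L65903 : W_22 (nat_lit 6) (nat_lit 0x200000001c00080000000000000000000000000000000) (nat_lit 0x0) (nat_lit 0x400000001600030015c000000000000000000000000000000) := T_22 (nat_lit 141) (nat_lit 128) (nat_lit 2) (nat_lit 5) (nat_lit 8) L65873 (by decide +kernel)
theorem L65904 : W_22 (nat_lit 2) (nat_lit 0x4000200022001f00080000000000000000000000000000000) (nat_lit 0x0) (nat_lit 0x1c000000000000000000000000000000) := D_22 (nat_lit 123) (nat_lit 122) (nat_lit 124) (nat_lit 0) (nat_lit 7) (nat_lit 8) (nat_lit 0) (nat_lit 8) (nat_lit 8) (by decide +kernel)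
theorem L65905 : W_22 (nat_lit 3) (nat_lit 0x4000200022001e00080000000000000000000000000000000) (nat_lit 0x0) (nat_lit 0x100010001c000000000000000000000000000000) := T_22 (nat_lit 140) (nat_lit 156) (nat_lit 1) (nat_lit 7) (nat_lit 8) L65904 (by decide +kernel)
theorem L65906 : W_22 (nat_lit 4) (nat_lit 0x4000200002001e00080000000000000000000000000000000) (nat_lit 0x0) (nat_lit 0x6100010001c000000000000000000000000000000) := T_22 (nat_lit 161) (nat_lit 162) (nat_lit 3) (nat_lit 5) (nat_lit 8) L65905 (by decide +kernel)
theorem L65907 : W_22 (nat_lit 5) (nat_lit 0x4000200000001e00080000000000000000000000000000000) (nat_lit 0x0) (nat_lit 0x6700010001c000000000000000000000000000000) := T_22 (nat_lit 157) (nat_lit 158) (nat_lit 1) (nat_lit 8) (nat_lit 8) L65906 (by decide +kernel)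
theorem L65908 : W_22 (nat_lit 6) (nat_lit 0x4000200000001c00080000000000000000000000000000000) (nat_lit 0x0) (nat_lit 0x6700030011c000000000000000000000000000000) := T_22 (nat_lit 141) (nat_lit 128) (nat_lit 2) (nat_lit 5) (nat_lit 8) L65907 (by decide +kernel)
theorem L65909 : W_22 (nat_lit 7) (nat_lit 0x200000001c00080000000000000000000000000000000) (nat_lit 0x0) (nat_lit 0x400000007700030011c000000000000000000000000000000) := T_22 (nat_lit 194) (nat_lit 160) (nat_lit 6) (nat_lit 7) (nat_lit 11) L65908 (by decide +kernel)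
theorem L65910 : W_22 (nat_lit 13) (nat_lit 0x200000001800080000000000000000000000000000000) (nat_lit 0x0) (nat_lit 0x700018007f00070037c003f001e0008000000000000000000) := Q_22 (nat_lit 142) (C_22 L65866 (C_22 L65901 (C_22 L65902 (C_22 L65903 (C_22 L65909 N_22))))) (by decide +kernel)
theorem L65911 : W_22 (nat_lit 2) (nat_lit 0x200000001c000c0002000000000000000000000000000) (nat_lit 0x0) (nat_lit 0x8000000000000000100008000000000000000000) := D_22 (nat_lit 92) (nat_lit 75) (nat_lit 159) (nat_lit 7) (nat_lit 7) (nat_lit 4) (nat_lit 5) (nat_lit 7) (nat_lit 5) (by decide +kernel)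
theorem L65912 : W_22 (nat_lit 2) (nat_lit 0x2000000018001f0008000000000000000000000000000) (nat_lit 0x0) (nat_lit 0x1c00000000000000000000000000) := D_22 (nat_lit 107) (nat_lit 108) (nat_lit 106) (nat_lit 0) (nat_lit 9) (nat_lit 7) (nat_lit 0) (nat_lit 8) (nat_lit 7) (by decide +kernel)
theorem L65913 : W_22 (nat_lit 3) (nat_lit 0x2000000018001e0008000000000000000000000000000) (nat_lit 0x0) (nat_lit 0x18001c00000000000000000000000000) := T_22 (nat_lit 124) (nat_lit 123) (nat_lit 3) (nat_lit 4) (nat_lit 7) L65912 (by decide +kernel)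
theorem L65914 : W_22 (nat_lit 4) (nat_lit 0x2000000018001e0000000000000000000000000000000) (nat_lit 0x0) (nat_lit 0x18019c00000000000000000000000000) := T_22 (nat_lit 111) (nat_lit 112) (nat_lit 2) (nat_lit 6) (nat_lit 7) L65913 (by decide +kernel)
theorem L65915 : W_22 (nat_lit 2) (nat_lit 0x200000001a001e0008000000000000000000000000000) (nat_lit 0x0) (nat_lit 0x100018000000000000000000000000000000) := D_22 (nat_lit 124) (nat_lit 123) (nat_lit 140) (nat_lit 3) (nat_lit 4) (nat_lit 7) (nat_lit 1) (nat_lit 8) (nat_lit 7) (by decide +kernel)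
theorem L65916 : W_22 (nat_lit 3) (nat_lit 0x2000000018001e0008000000000000000000000000000) (nat_lit 0x0) (nat_lit 0x700018000000000000000000000000000000) := T_22 (nat_lit 141) (nat_lit 142) (nat_lit 2) (nat_lit 5) (nat_lit 8) L65915 (by decide +kernel)
theorem L65917 : W_22 (nat_lit 4) (nat_lit 0x2000000018001e0000000000000000000000000000000) (nat_lit 0x0) (nat_lit 0x700018018000000000000000000000000000) := T_22 (nat_lit 111) (nat_lit 112) (nat_lit 2) (nat_lit 6) (nat_lit 7) L65916 (by decide +kernel)
theorem L65918 : W_22 (nat_lit 2) (nat_lit 0x200000001a001e0001000000000000000000000000000) (nat_lit 0x0) (nat_lit 0x100018000000000000000000000000000000) := D_22 (nat_lit 124) (nat_lit 123) (nat_lit 140) (nat_lit 3) (nat_lit 4) (nat_lit 7) (nat_lit 1) (nat_lit 8) (nat_lit 7) (by decide +kernel)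
theorem L65919 : W_22 (nat_lit 3) (nat_lit 0x2000000018001e0001000000000000000000000000000) (nat_lit 0x0) (nat_lit 0x700018000000000000000000000000000000) := T_22 (nat_lit 141) (nat_lit 142) (nat_lit 2) (nat_lit 5) (nat_lit 8) L65918 (by decide +kernel)
theorem L65920 : W_22 (nat_lit 4) (nat_lit 0x2000000018001e0000000000000000000000000000000) (nat_lit 0x0) (nat_lit 0x700018001800000000000000000000000000) := T_22 (nat_lit 108) (nat_lit 107) (nat_lit 0) (nat_lit 9) (nat_lit 7) L65919 (by decide +kernel)
theorem L65921 : W_22 (nat_lit 2) (nat_lit 0x200008001c001e00090001c0020000000000000000000) (nat_lit 0x0) (nat_lit 0x6000100000000000000000000000000000000000000000000) := D_22 (nat_lit 176) (nat_lit 194) (nat_lit 193) (nat_lit 7) (nat_lit 6) (nat_lit 7) (nat_lit 6) (nat_lit 6) (nat_lit 11) (by decide +kernel)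
theorem L65922 : W_22 (nat_lit 3) (nat_lit 0x200000001c001e00090001c0020000000000000000000) (nat_lit 0x0) (nat_lit 0x6000100008000000000002000000000000000000000000000) := T_22 (nat_lit 159) (nat_lit 109) (nat_lit 6) (nat_lit 6) (nat_lit 9) L65921 (by decide +kernel)
theorem L65923 : W_22 (nat_lit 4) (nat_lit 0x200000001c001e00090000c0020000000000000000000) (nat_lit 0x0) (nat_lit 0x6000100008000000000002000100008000000000000000000) := T_22 (nat_lit 92) (nat_lit 75) (nat_lit 6) (nat_lit 6) (nat_lit 8) L65922 (by decide +kernel)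
theorem L65924 : W_22 (nat_lit 5) (nat_lit 0x200000001c001e00090000c0000000000000000000000) (nat_lit 0x0) (nat_lit 0x6000100008000000000002000500028000000000000000000) := T_22 (nat_lit 77) (nat_lit 94) (nat_lit 5) (nat_lit 9) (nat_lit 4) L65923 (by decide +kernel)
theorem L65925 : W_22 (nat_lit 6) (nat_lit 0x200000001c001e0009000080000000000000000000000) (nat_lit 0x0) (nat_lit 0x600010000800000000000200054002a000000000000000000) := T_22 (nat_lit 90) (nat_lit 73) (nat_lit 4) (nat_lit 6) (nat_lit 8) L65924 (by decide +kernel)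
theorem L65926 : W_22 (nat_lit 7) (nat_lit 0x200000001c001e0001000080000000000000000000000) (nat_lit 0x0) (nat_lit 0x600010000800000000001a00054002a000000000000000000) := T_22 (nat_lit 111) (nat_lit 112) (nat_lit 2) (nat_lit 6) (nat_lit 7) L65925 (by decide +kernel)
theorem L65927 : W_22 (nat_lit 8) (nat_lit 0x200000001c001e0001000000000000000000000000000) (nat_lit 0x0) (nat_lit 0x600010000800000000001a0005c002e000000000000000000) := T_22 (nat_lit 91) (nat_lit 74) (nat_lit 7) (nat_lit 6) (nat_lit 4) L65926 (by decide +kernel)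
theorem L65928 : W_22 (nat_lit 9) (nat_lit 0x2000000018001e0001000000000000000000000000000) (nat_lit 0x0) (nat_lit 0x600010000800060000001a0005c002e000000000000000000) := T_22 (nat_lit 142) (nat_lit 141) (nat_lit 2) (nat_lit 5) (nat_lit 8) L65927 (by decide +kernel)
theorem L65929 : W_22 (nat_lit 10) (nat_lit 0x2000000018001e0000000000000000000000000000000) (nat_lit 0x0) (nat_lit 0x600010000800060000001b8005c002e000000000000000000) := T_22 (nat_lit 108) (nat_lit 107) (nat_lit 0) (nat_lit 9) (nat_lit 7) L65928 (by decide +kernel)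
theorem L65930 : W_22 (nat_lit 11) (nat_lit 0x2000000018001c0000000000000000000000000000000) (nat_lit 0x0) (nat_lit 0x600010000800070003801bc005c002e000000000000000000) := Q_22 (nat_lit 125) (C_22 L65914 (C_22 L65917 (C_22 L65920 (C_22 L65929 N_22)))) (by decide +kernel)
theorem L65931 : W_22 (nat_lit 2) (nat_lit 0x2000000018001c0000000000000000000000000000000) (nat_lit 0x0) (nat_lit 0x600200000000000000000000000000000000) := D_22 (nat_lit 142) (nat_lit 141) (nat_lit 129) (nat_lit 2) (nat_lit 5) (nat_lit 8) (nat_lit 1) (nat_lit 10) (nat_lit 7) (by decide +kernel)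
theorem L65932 : W_22 (nat_lit 2) (nat_lit 0x2000000058003c001a000000008000000000000000000) (nat_lit 0x0) (nat_lit 0x80000000000000000400020000000000000000000) := D_22 (nat_lit 94) (nat_lit 163) (nat_lit 77) (nat_lit 4) (nat_lit 10) (nat_lit 9) (nat_lit 7) (nat_lit 9) (nat_lit 4) (by decide +kernel)
theorem L65933 : W_22 (nat_lit 3) (nat_lit 0x2000000058003c0012000000008000000000000000000) (nat_lit 0x0) (nat_lit 0x80000000020008000400020000000000000000000) := T_22 (nat_lit 111) (nat_lit 125) (nat_lit 2) (nat_lit 6) (nat_lit 7) L65932 (by decide +kernel)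
theorem L65934 : W_22 (nat_lit 4) (nat_lit 0x2000000058003c0002000000008000000000000000000) (nat_lit 0x0) (nat_lit 0x80000000020038000400020000000000000000000) := T_22 (nat_lit 112) (nat_lit 113) (nat_lit 2) (nat_lit 7) (nat_lit 7) L65933 (by decide +kernel)
theorem L65935 : W_22 (nat_lit 5) (nat_lit 0x2000000058003c0002000000000000000000000000000) (nat_lit 0x0) (nat_lit 0x80000000020038000500028000000000000000000) := T_22 (nat_lit 75) (nat_lit 92) (nat_lit 7) (nat_lit 7) (nat_lit 4) L65934 (by decide +kernel)
theorem L65936 : W_22 (nat_lit 6) (nat_lit 0x2000000018003c0002000000000000000000000000000) (nat_lit 0x0) (nat_lit 0x8000c000020038000500028000000000000000000) := T_22 (nat_lit 146) (nat_lit 147) (nat_lit 3) (nat_lit 7) (nat_lit 7) L65935 (by decide +kernel)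
theorem L65937 : W_22 (nat_lit 7) (nat_lit 0x2000000018003c0000000000000000000000000000000) (nat_lit 0x0) (nat_lit 0x8000c00002003b000500028000000000000000000) := T_22 (nat_lit 109) (nat_lit 108) (nat_lit 0) (nat_lit 10) (nat_lit 7) L65936 (by decide +kernel)
theorem L65938 : W_22 (nat_lit 8) (nat_lit 0x2000000018001c0000000000000000000000000000000) (nat_lit 0x0) (nat_lit 0x8000c00062003b000500028000000000000000000) := T_22 (nat_lit 129) (nat_lit 130) (nat_lit 1) (nat_lit 11) (nat_lit 7) L65937 (by decide +kernel)
theorem L65939 : W_22 (nat_lit 12) (nat_lit 0x2000000018000c0000000000000000000000000000000) (nat_lit 0x0) (nat_lit 0x600010008800c70073803bc005c002e000000000000000000) := Q_22 (nat_lit 128) (C_22 L65930 (C_22 L65931 (C_22 L65938 N_22))) (by decide +kernel)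
theorem L65941 : W_22 (nat_lit 5) (nat_lit 0x2000000018000c0000000000000000000000000000000) (nat_lit 0x0) (nat_lit 0x6000100018000000020003000080000000000000000000000) := T_22 (nat_lit 160) (nat_lit 194) (nat_lit 6) (nat_lit 7) (nat_lit 11) L65940 (by decide +kernel)
theorem L65942 : W_22 (nat_lit 2) (nat_lit 0x600010001a001f0010800000000000000000000000000) (nat_lit 0x0) (nat_lit 0x600020000000000000000000000000000) := D_22 (nat_lit 129) (nat_lit 130) (nat_lit 113) (nat_lit 1) (nat_lit 11) (nat_lit 7) (nat_lit 2) (nat_lit 7) (nat_lit 7) (by decide +kernel)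
theorem L65943 : W_22 (nat_lit 3) (nat_lit 0x600010001a001f0000800000000000000000000000000) (nat_lit 0x0) (nat_lit 0x600038000000000000000000000000000) := T_22 (nat_lit 112) (nat_lit 111) (nat_lit 2) (nat_lit 6) (nat_lit 7) L65942 (by decide +kernel)
theorem L65944 : W_22 (nat_lit 4) (nat_lit 0x600010001a000f0000800000000000000000000000000) (nat_lit 0x0) (nat_lit 0x400700038000000000000000000000000000) := T_22 (nat_lit 128) (nat_lit 142) (nat_lit 2) (nat_lit 5) (nat_lit 8) L65943 (by decide +kernel)
theorem L65945 : W_22 (nat_lit 5) (nat_lit 0x6000100018000f0000800000000000000000000000000) (nat_lit 0x0) (nat_lit 0x700700038000000000000000000000000000) := T_22 (nat_lit 141) (nat_lit 140) (nat_lit 1) (nat_lit 8) (nat_lit 7) L65944 (by decide +kernel)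
theorem L65946 : W_22 (nat_lit 6) (nat_lit 0x6000100018000f0000000000000000000000000000000) (nat_lit 0x0) (nat_lit 0x700700038c00000000000000000000000000) := T_22 (nat_lit 107) (nat_lit 106) (nat_lit 0) (nat_lit 8) (nat_lit 7) L65945 (by decide +kernel)
theorem L65947 : W_22 (nat_lit 7) (nat_lit 0x2000100018000f0000000000000000000000000000000) (nat_lit 0x0) (nat_lit 0x8000400000000700700038c00000000000000000000000000) := T_22 (nat_lit 178) (nat_lit 195) (nat_lit 7) (nat_lit 7) (nat_lit 7) L65946 (by decide +kernel)
theorem L65948 : W_22 (nat_lit 8) (nat_lit 0x2000100018000e0000000000000000000000000000000) (nat_lit 0x0) (nat_lit 0x8000400000000700718038c00000000000000000000000000) := T_22 (nat_lit 124) (nat_lit 123) (nat_lit 3) (nat_lit 4) (nat_lit 7) L65947 (by decide +kernel)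
theorem L65949 : W_22 (nat_lit 9) (nat_lit 0x2000100018000c0000000000000000000000000000000) (nat_lit 0x0) (nat_lit 0x8000400000000700738039c00000000000000000000000000) := T_22 (nat_lit 125) (nat_lit 108) (nat_lit 4) (nat_lit 7) (nat_lit 10) L65948 (by decide +kernel)
theorem L65950 : W_22 (nat_lit 10) (nat_lit 0x2000000018000c0000000000000000000000000000000) (nat_lit 0x0) (nat_lit 0xc000400010000700738039c00000000000000000000000000) := T_22 (nat_lit 160) (nat_lit 194) (nat_lit 6) (nat_lit 7) (nat_lit 11) L65949 (by decide +kernel)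
theorem L65951 : W_22 (nat_lit 2) (nat_lit 0x2000000018001e0000000000000000000000000000000) (nat_lit 0x0) (nat_lit 0x10000000000001800000000000000000000000000) := D_22 (nat_lit 108) (nat_lit 107) (nat_lit 160) (nat_lit 0) (nat_lit 9) (nat_lit 7) (nat_lit 4) (nat_lit 7) (nat_lit 10) (by decide +kernel)
theorem L65952 : W_22 (nat_lit 5) (nat_lit 0x2000000018001c0000000000000000000000000000000) (nat_lit 0x0) (nat_lit 0x10000700038019c00000000000000000000000000) := Q_22 (nat_lit 125) (C_22 L65914 (C_22 L65920 (C_22 L65917 (C_22 L65951 N_22)))) (by decide +kernel)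
theorem L65953 : W_22 (nat_lit 9) (nat_lit 0x2000000018000c0000000000000000000000000000000) (nat_lit 0x0) (nat_lit 0x9000c70073803bc00500028000000000000000000) := Q_22 (nat_lit 128) (C_22 L65938 (C_22 L65952 (C_22 L65931 N_22))) (by decide +kernel)
theorem L65954 : W_22 (nat_lit 5) (nat_lit 0x2000100018000c0000000000000000000000000000000) (nat_lit 0x0) (nat_lit 0x200010000800000000000300018000c000000000000000000) := T_22 (nat_lit 176) (nat_lit 193) (nat_lit 5) (nat_lit 7) (nat_lit 7) L12557 (by decide +kernel)
theorem L65955 : W_22 (nat_lit 6) (nat_lit 0x2000000018000c0000000000000000000000000000000) (nat_lit 0x0) (nat_lit 0x600010001800000000000300018000c000000000000000000) := T_22 (nat_lit 160) (nat_lit 194) (nat_lit 6) (nat_lit 7) (nat_lit 11) L65954 (by decide +kernel)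
theorem L65960 : W_22 (nat_lit 6) (nat_lit 0x2000000018000c0000000000000000000000000000000) (nat_lit 0x0) (nat_lit 0xe000d0001e000000000002000000000000000000000000000) := T_22 (nat_lit 160) (nat_lit 194) (nat_lit 6) (nat_lit 7) (nat_lit 11) L65959 (by decide +kernel)
theorem L65961 : W_22 (nat_lit 13) (nat_lit 0x200000001800080000000000000000000000000000000) (nat_lit 0x0) (nat_lit 0xe000d0009e00c70077803bc005c002e000000000000000000) := Q_22 (nat_lit 126) (C_22 L65939 (C_22 L65941 (C_22 L65950 (C_22 L65953 (C_22 L65955 (C_22 L65960 N_22)))))) (by decide +kernel)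
theorem L65962 : W_22 (nat_lit 2) (nat_lit 0x600000001800080000000000000000000000000000000) (nat_lit 0x0) (nat_lit 0x4000000030000000000000000000000000000000000000000) := D_22 (nat_lit 194) (nat_lit 160) (nat_lit 161) (nat_lit 6) (nat_lit 7) (nat_lit 11) (nat_lit 5) (nat_lit 8) (nat_lit 7) (by decide +kernel)
theorem L65963 : W_22 (nat_lit 2) (nat_lit 0x600020001800080000000000000000000000000000000) (nat_lit 0x0) (nat_lit 0x8000000000000000040002000000000000000000000000000) := D_22 (nat_lit 126) (nat_lit 195) (nat_lit 109) (nat_lit 4) (nat_lit 8) (nat_lit 11) (nat_lit 4) (nat_lit 8) (nat_lit 10) (by decide +kernel)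
theorem L65964 : W_22 (nat_lit 3) (nat_lit 0x600000001800080000000000000000000000000000000) (nat_lit 0x0) (nat_lit 0xc000000020000000040002000000000000000000000000000) := T_22 (nat_lit 161) (nat_lit 194) (nat_lit 5) (nat_lit 8) (nat_lit 7) L65963 (by decide +kernel)
theorem L65965 : W_22 (nat_lit 6) (nat_lit 0x600000001800080000000000000000000000000000000) (nat_lit 0x0) (nat_lit 0xe000100018000000060003000080000000000000000000000) := T_22 (nat_lit 160) (nat_lit 194) (nat_lit 6) (nat_lit 7) (nat_lit 11) L5846 (by decide +kernel)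
theorem L65966 : W_22 (nat_lit 2) (nat_lit 0x1400040002000f00068001800580000000000000000000000000000000) (nat_lit 0x0) (nat_lit 0x28000800000000000000000000000000000000000000000000000000000000) := D_22 (nat_lit 227) (nat_lit 243) (nat_lit 245) (nat_lit 5) (nat_lit 6) (nat_lit 10) (nat_lit 7) (nat_lit 6) (nat_lit 10) (by decide +kernel)
theorem L65967 : W_22 (nat_lit 3) (nat_lit 0x400040002000f00068001800580000000000000000000000000000000) (nat_lit 0x0) (nat_lit 0x28001800080000000000000000000000000000000000000000000000000000) := T_22 (nat_lit 228) (nat_lit 211) (nat_lit 7) (nat_lit 6) (nat_lit 9) L65966 (by decide +kernel)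
theorem L65968 : W_22 (nat_lit 4) (nat_lit 0x40002000f00068001800580000000000000000000000000000000) (nat_lit 0x0) (nat_lit 0x28001c000a0000000000000000000000000000000000000000000000000000) := T_22 (nat_lit 226) (nat_lit 209) (nat_lit 5) (nat_lit 6) (nat_lit 9) L65967 (by decide +kernel)
theorem L65969 : W_22 (nat_lit 5) (nat_lit 0x2000f00068001800580000000000000000000000000000000) (nat_lit 0x0) (nat_lit 0x28001c000e0000000000010000000000000000000000000000000000000000) := T_22 (nat_lit 210) (nat_lit 160) (nat_lit 6) (nat_lit 6) (nat_lit 12) L65968 (by decide +kernel)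
theorem L65970 : W_22 (nat_lit 6) (nat_lit 0x2000f00068001800180000000000000000000000000000000) (nat_lit 0x0) (nat_lit 0x28001c000e0000000000010000000600000000000000000000000000000000) := T_22 (nat_lit 130) (nat_lit 129) (nat_lit 1) (nat_lit 11) (nat_lit 7) L65969 (by decide +kernel)
theorem L65971 : W_22 (nat_lit 7) (nat_lit 0x2000f00068001800080000000000000000000000000000000) (nat_lit 0x0) (nat_lit 0x28001c000e0000000000010000000700008000000000000000000000000000) := T_22 (nat_lit 128) (nat_lit 111) (nat_lit 6) (nat_lit 8) (nat_lit 10) L65970 (by decide +kernel)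
theorem L65972 : W_22 (nat_lit 8) (nat_lit 0x2000f00060001800080000000000000000000000000000000) (nat_lit 0x0) (nat_lit 0x28001c000e000000000001c000000700008000000000000000000000000000) := T_22 (nat_lit 159) (nat_lit 158) (nat_lit 0) (nat_lit 9) (nat_lit 10) L65971 (by decide +kernel)
theorem L65973 : W_22 (nat_lit 9) (nat_lit 0xf00060001800080000000000000000000000000000000) (nat_lit 0x0) (nat_lit 0x28001c000e000300000001c000000700008000000000000000000000000000) := T_22 (nat_lit 193) (nat_lit 192) (nat_lit 1) (nat_lit 9) (nat_lit 10) L65972 (by decide +kernel)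
theorem L65974 : W_22 (nat_lit 10) (nat_lit 0xf00020001800080000000000000000000000000000000) (nat_lit 0x0) (nat_lit 0x28001c000e00030000000dc000000700008000000000000000000000000000) := T_22 (nat_lit 162) (nat_lit 163) (nat_lit 2) (nat_lit 6) (nat_lit 10) L65973 (by decide +kernel)
theorem L65975 : W_22 (nat_lit 11) (nat_lit 0x700020001800080000000000000000000000000000000) (nat_lit 0x0) (nat_lit 0x28001c000e00130008000dc000000700008000000000000000000000000000) := T_22 (nat_lit 179) (nat_lit 196) (nat_lit 7) (nat_lit 8) (nat_lit 7) L65974 (by decide +kernel)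
theorem L65976 : W_22 (nat_lit 2) (nat_lit 0x7c0020001800580000000000000000000000000000000) (nat_lit 0x0) (nat_lit 0x1c00000000000000000000000000000000000000000000000) := D_22 (nat_lit 191) (nat_lit 190) (nat_lit 192) (nat_lit 1) (nat_lit 7) (nat_lit 10) (nat_lit 1) (nat_lit 8) (nat_lit 10) (by decide +kernel)
theorem L65977 : W_22 (nat_lit 3) (nat_lit 0x780020001800580000000000000000000000000000000) (nat_lit 0x0) (nat_lit 0x1c00040010000000000000000000000000000000000000000) := T_22 (nat_lit 174) (nat_lit 160) (nat_lit 2) (nat_lit 4) (nat_lit 10) L65976 (by decide +kernel)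
theorem L65978 : W_22 (nat_lit 4) (nat_lit 0x700020001800580000000000000000000000000000000) (nat_lit 0x0) (nat_lit 0x1c000c0050000000000000000000000000000000000000000) := T_22 (nat_lit 175) (nat_lit 162) (nat_lit 2) (nat_lit 5) (nat_lit 10) L65977 (by decide +kernel)
theorem L65979 : W_22 (nat_lit 5) (nat_lit 0x700020001800180000000000000000000000000000000) (nat_lit 0x0) (nat_lit 0x1c000c0050000000600000000000000000000000000000000) := T_22 (nat_lit 130) (nat_lit 129) (nat_lit 1) (nat_lit 11) (nat_lit 7) L65978 (by decide +kernel)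
theorem L65980 : W_22 (nat_lit 6) (nat_lit 0x700020001800080000000000000000000000000000000) (nat_lit 0x0) (nat_lit 0x1c000c0050000000700008000000000000000000000000000) := T_22 (nat_lit 128) (nat_lit 111) (nat_lit 6) (nat_lit 8) (nat_lit 10) L65979 (by decide +kernel)
theorem L65981 : W_22 (nat_lit 2) (nat_lit 0x1400040002000f00028001800580000000000000000000000000000000) (nat_lit 0x0) (nat_lit 0x28000800000000000000000000000000000000000000000000000000000000) := D_22 (nat_lit 227) (nat_lit 243) (nat_lit 245) (nat_lit 5) (nat_lit 6) (nat_lit 10) (nat_lit 7) (nat_lit 6) (nat_lit 10) (by decide +kernel)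
theorem L65982 : W_22 (nat_lit 3) (nat_lit 0x400040002000f00028001800580000000000000000000000000000000) (nat_lit 0x0) (nat_lit 0x28001800080000000000000000000000000000000000000000000000000000) := T_22 (nat_lit 228) (nat_lit 211) (nat_lit 7) (nat_lit 6) (nat_lit 9) L65981 (by decide +kernel)
theorem L65983 : W_22 (nat_lit 4) (nat_lit 0x40002000f00028001800580000000000000000000000000000000) (nat_lit 0x0) (nat_lit 0x28001c000a0000000000000000000000000000000000000000000000000000) := T_22 (nat_lit 226) (nat_lit 209) (nat_lit 5) (nat_lit 6) (nat_lit 9) L65982 (by decide +kernel)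
theorem L65984 : W_22 (nat_lit 5) (nat_lit 0x2000f00028001800580000000000000000000000000000000) (nat_lit 0x0) (nat_lit 0x28001c000e0000000000010000000000000000000000000000000000000000) := T_22 (nat_lit 210) (nat_lit 160) (nat_lit 6) (nat_lit 6) (nat_lit 12) L65983 (by decide +kernel)
theorem L65985 : W_22 (nat_lit 6) (nat_lit 0x2000f00028001800180000000000000000000000000000000) (nat_lit 0x0) (nat_lit 0x28001c000e0000000000010000000600000000000000000000000000000000) := T_22 (nat_lit 130) (nat_lit 129) (nat_lit 1) (nat_lit 11) (nat_lit 7) L65984 (by decide +kernel)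
theorem L65986 : W_22 (nat_lit 7) (nat_lit 0x2000f00028001800080000000000000000000000000000000) (nat_lit 0x0) (nat_lit 0x28001c000e0000000000010000000700008000000000000000000000000000) := T_22 (nat_lit 128) (nat_lit 111) (nat_lit 6) (nat_lit 8) (nat_lit 10) L65985 (by decide +kernel)
theorem L65987 : W_22 (nat_lit 8) (nat_lit 0x2000f00020001800080000000000000000000000000000000) (nat_lit 0x0) (nat_lit 0x28001c000e000000000001c000000700008000000000000000000000000000) := T_22 (nat_lit 159) (nat_lit 158) (nat_lit 0) (nat_lit 9) (nat_lit 10) L65986 (by decide +kernel)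
theorem L65988 : W_22 (nat_lit 9) (nat_lit 0xf00020001800080000000000000000000000000000000) (nat_lit 0x0) (nat_lit 0x28001c000e000300000001c000000700008000000000000000000000000000) := T_22 (nat_lit 193) (nat_lit 192) (nat_lit 1) (nat_lit 9) (nat_lit 10) L65987 (by decide +kernel)
theorem L65989 : W_22 (nat_lit 10) (nat_lit 0x700020001800080000000000000000000000000000000) (nat_lit 0x0) (nat_lit 0x28001c000e001300080001c000000700008000000000000000000000000000) := T_22 (nat_lit 179) (nat_lit 196) (nat_lit 7) (nat_lit 8) (nat_lit 7) L65988 (by decide +kernel)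
theorem L65990 : W_22 (nat_lit 12) (nat_lit 0x600020001800080000000000000000000000000000000) (nat_lit 0x0) (nat_lit 0x28001c000e001bc009c00de000000700008000000000000000000000000000) := Q_22 (nat_lit 176) (C_22 L65694 (C_22 L65689 (C_22 L65975 (C_22 L65980 (C_22 L65989 N_22))))) (by decide +kernel)
theorem L65991 : W_22 (nat_lit 5) (nat_lit 0x6000200058003c0010000000000000000000000000000) (nat_lit 0x0) (nat_lit 0x130009800d0000000000000000000000000000000000000000) := T_22 (nat_lit 179) (nat_lit 196) (nat_lit 7) (nat_lit 8) (nat_lit 7) L5923 (by decide +kernel)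
theorem L65992 : W_22 (nat_lit 6) (nat_lit 0x6000200058003c0000000000000000000000000000000) (nat_lit 0x0) (nat_lit 0x130009800d0000000000030000000000000000000000000000) := T_22 (nat_lit 112) (nat_lit 113) (nat_lit 2) (nat_lit 7) (nat_lit 7) L65991 (by decide +kernel)
theorem L65993 : W_22 (nat_lit 7) (nat_lit 0x6000200018003c0000000000000000000000000000000) (nat_lit 0x0) (nat_lit 0x130009800d000c000000030000000000000000000000000000) := T_22 (nat_lit 146) (nat_lit 147) (nat_lit 3) (nat_lit 7) (nat_lit 7) L65992 (by decide +kernel)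
theorem L65994 : W_22 (nat_lit 8) (nat_lit 0x600020001800380000000000000000000000000000000) (nat_lit 0x0) (nat_lit 0x130009800d000c000040032000000000000000000000000000) := T_22 (nat_lit 126) (nat_lit 109) (nat_lit 4) (nat_lit 8) (nat_lit 10) L65993 (by decide +kernel)
theorem L65995 : W_22 (nat_lit 9) (nat_lit 0x600020001800180000000000000000000000000000000) (nat_lit 0x0) (nat_lit 0x130009800d000c000640032000000000000000000000000000) := T_22 (nat_lit 129) (nat_lit 130) (nat_lit 1) (nat_lit 11) (nat_lit 7) L65994 (by decide +kernel)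
theorem L65996 : W_22 (nat_lit 10) (nat_lit 0x600020001800080000000000000000000000000000000) (nat_lit 0x0) (nat_lit 0x130009800d000c00074003a000000000000000000000000000) := T_22 (nat_lit 128) (nat_lit 111) (nat_lit 6) (nat_lit 8) (nat_lit 10) L65995 (by decide +kernel)
theorem L65997 : W_22 (nat_lit 13) (nat_lit 0x600000001800080000000000000000000000000000000) (nat_lit 0x0) (nat_lit 0x28001c000e001bc009c00fe00c00074003a000000000000000000000000000) := Q_22 (nat_lit 161) (C_22 L65990 (C_22 L65963 (C_22 L65996 N_22))) (by decide +kernel)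
theorem L65998 : W_22 (nat_lit 14) (nat_lit 0x200000001800080000000000000000000000000000000) (nat_lit 0x0) (nat_lit 0x28001c000e001fc00dc00fe00c00076003b000080000000000000000000000) := Q_22 (nat_lit 178) (C_22 L65962 (C_22 L65964 (C_22 L65965 (C_22 L65997 N_22)))) (by decide +kernel)
theorem L65999 : W_22 (nat_lit 2) (nat_lit 0x200020001800080000000000000000000000000000000) (nat_lit 0x0) (nat_lit 0x4000400010000000000000000000000000000000000000000) := D_22 (nat_lit 194) (nat_lit 160) (nat_lit 178) (nat_lit 6) (nat_lit 7) (nat_lit 11) (nat_lit 5) (nat_lit 8) (nat_lit 7) (by decide +kernel)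
theorem L66000 : W_22 (nat_lit 3) (nat_lit 0x200020001800080000000000000000000000000000000) (nat_lit 0x0) (nat_lit 0xc000400000000000040002000000000000000000000000000) := T_22 (nat_lit 178) (nat_lit 194) (nat_lit 5) (nat_lit 8) (nat_lit 7) L65963 (by decide +kernel)
theorem L66001 : W_22 (nat_lit 7) (nat_lit 0x2000300018000c0000000000000000000000000000000) (nat_lit 0x0) (nat_lit 0x20001c00c8000000038003000100000000000000000000000) := T_22 (nat_lit 125) (nat_lit 108) (nat_lit 4) (nat_lit 7) (nat_lit 10) L65428 (by decide +kernel)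
theorem L66002 : W_22 (nat_lit 2) (nat_lit 0x200030001e000f0000800100000000000000000000000) (nat_lit 0x0) (nat_lit 0x8000000000000000040002000000000000000000) := D_22 (nat_lit 90) (nat_lit 159) (nat_lit 73) (nat_lit 7) (nat_lit 5) (nat_lit 5) (nat_lit 7) (nat_lit 5) (nat_lit 4) (by decide +kernel)
theorem L66003 : W_22 (nat_lit 3) (nat_lit 0x200030001a000f0000800100000000000000000000000) (nat_lit 0x0) (nat_lit 0x48000400000000000040002000000000000000000) := T_22 (nat_lit 142) (nat_lit 162) (nat_lit 3) (nat_lit 5) (nat_lit 8) L66002 (by decide +kernel)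
theorem L66004 : W_22 (nat_lit 4) (nat_lit 0x2000300018000f0000800100000000000000000000000) (nat_lit 0x0) (nat_lit 0x48000700000000000040002000000000000000000) := T_22 (nat_lit 141) (nat_lit 140) (nat_lit 1) (nat_lit 8) (nat_lit 7) L66003 (by decide +kernel)
theorem L66005 : W_22 (nat_lit 5) (nat_lit 0x2000300018000f0000000100000000000000000000000) (nat_lit 0x0) (nat_lit 0x48000700000000c00040002000000000000000000) := T_22 (nat_lit 107) (nat_lit 106) (nat_lit 0) (nat_lit 8) (nat_lit 7) L66004 (by decide +kernel)
theorem L66006 : W_22 (nat_lit 6) (nat_lit 0x2000300018000f0000000000000000000000000000000) (nat_lit 0x0) (nat_lit 0x48000700000002c00140002000000000000000000) := T_22 (nat_lit 92) (nat_lit 109) (nat_lit 7) (nat_lit 7) (nat_lit 5) L66005 (by decide +kernel)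
theorem L66007 : W_22 (nat_lit 7) (nat_lit 0x2000300018000e0000000000000000000000000000000) (nat_lit 0x0) (nat_lit 0x48000700018002c00140002000000000000000000) := T_22 (nat_lit 124) (nat_lit 123) (nat_lit 3) (nat_lit 4) (nat_lit 7) L66006 (by decide +kernel)
theorem L66008 : W_22 (nat_lit 8) (nat_lit 0x2000300018000c0000000000000000000000000000000) (nat_lit 0x0) (nat_lit 0x48000700038003c00140002000000000000000000) := T_22 (nat_lit 125) (nat_lit 108) (nat_lit 4) (nat_lit 7) (nat_lit 10) L66007 (by decide +kernel)
theorem L66009 : W_22 (nat_lit 2) (nat_lit 0x3400700018000f0000000100000000000000000000000) (nat_lit 0x0) (nat_lit 0x700000000000000000000000000000000000) := D_22 (nat_lit 141) (nat_lit 142) (nat_lit 140) (nat_lit 3) (nat_lit 5) (nat_lit 8) (nat_lit 1) (nat_lit 8) (nat_lit 7) (by decide +kernel)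
theorem L66010 : W_22 (nat_lit 3) (nat_lit 0x3400700018000e0000000100000000000000000000000) (nat_lit 0x0) (nat_lit 0x700018000000000000000000000000000000) := T_22 (nat_lit 124) (nat_lit 123) (nat_lit 3) (nat_lit 4) (nat_lit 7) L66009 (by decide +kernel)
theorem L66011 : W_22 (nat_lit 4) (nat_lit 0x3400700018000c0000000100000000000000000000000) (nat_lit 0x0) (nat_lit 0x700038001000000000000000000000000000) := T_22 (nat_lit 125) (nat_lit 108) (nat_lit 4) (nat_lit 7) (nat_lit 10) L66010 (by decide +kernel)
theorem L66012 : W_22 (nat_lit 5) (nat_lit 0x3400300018000c0000000100000000000000000000000) (nat_lit 0x0) (nat_lit 0xc0000700038001000000000000000000000000000) := T_22 (nat_lit 162) (nat_lit 163) (nat_lit 1) (nat_lit 10) (nat_lit 9) L66011 (by decide +kernel)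
theorem L66013 : W_22 (nat_lit 6) (nat_lit 0x3000300018000c0000000100000000000000000000000) (nat_lit 0x0) (nat_lit 0xc00c0000700038001000000000000000000000000000) := T_22 (nat_lit 174) (nat_lit 175) (nat_lit 2) (nat_lit 4) (nat_lit 10) L66012 (by decide +kernel)
theorem L66014 : W_22 (nat_lit 7) (nat_lit 0x2000300018000c0000000100000000000000000000000) (nat_lit 0x0) (nat_lit 0x20001c00c0000700038001000000000000000000000000000) := T_22 (nat_lit 176) (nat_lit 193) (nat_lit 5) (nat_lit 7) (nat_lit 7) L66013 (by decide +kernel)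
theorem L66015 : W_22 (nat_lit 8) (nat_lit 0x2000300018000c0000000000000000000000000000000) (nat_lit 0x0) (nat_lit 0x20001c00c0000700038003000100000000000000000000000) := T_22 (nat_lit 92) (nat_lit 109) (nat_lit 7) (nat_lit 7) (nat_lit 5) L66014 (by decide +kernel)
theorem L66016 : W_22 (nat_lit 2) (nat_lit 0x3800300018000c0000000100000000000000000000000) (nat_lit 0x0) (nat_lit 0xc8000000000000000000000000000000000000000) := D_22 (nat_lit 162) (nat_lit 163) (nat_lit 159) (nat_lit 1) (nat_lit 10) (nat_lit 9) (nat_lit 1) (nat_lit 9) (nat_lit 9) (by decide +kernel)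
theorem L66017 : W_22 (nat_lit 3) (nat_lit 0x3000300018000c0000000100000000000000000000000) (nat_lit 0x0) (nat_lit 0xc00c8000000000000000000000000000000000000000) := T_22 (nat_lit 175) (nat_lit 174) (nat_lit 2) (nat_lit 4) (nat_lit 10) L66016 (by decide +kernel)
theorem L66018 : W_22 (nat_lit 4) (nat_lit 0x2000300018000c0000000100000000000000000000000) (nat_lit 0x0) (nat_lit 0x20001c00c8000000000000000000000000000000000000000) := T_22 (nat_lit 176) (nat_lit 193) (nat_lit 5) (nat_lit 7) (nat_lit 7) L66017 (by decide +kernel)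
theorem L66019 : W_22 (nat_lit 5) (nat_lit 0x2000300018000c0000000000000000000000000000000) (nat_lit 0x0) (nat_lit 0x20001c00c8000000000002000100000000000000000000000) := T_22 (nat_lit 92) (nat_lit 109) (nat_lit 7) (nat_lit 7) (nat_lit 5) L66018 (by decide +kernel)
theorem L66020 : W_22 (nat_lit 2) (nat_lit 0x3400b0001a000f0000800000000000000000000000000) (nat_lit 0x0) (nat_lit 0xc000400000000000000000000000000000000000) := D_22 (nat_lit 159) (nat_lit 142) (nat_lit 158) (nat_lit 4) (nat_lit 6) (nat_lit 10) (nat_lit 7) (nat_lit 5) (nat_lit 6) (by decide +kernel)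
theorem L66021 : W_22 (nat_lit 3) (nat_lit 0x3400b0001a000f0000000000000000000000000000000) (nat_lit 0x0) (nat_lit 0xc000400000000c00000000000000000000000000) := T_22 (nat_lit 107) (nat_lit 106) (nat_lit 0) (nat_lit 8) (nat_lit 7) L66020 (by decide +kernel)
theorem L66022 : W_22 (nat_lit 4) (nat_lit 0x3400b00018000f0000000000000000000000000000000) (nat_lit 0x0) (nat_lit 0xc000700000000c00000000000000000000000000) := T_22 (nat_lit 141) (nat_lit 140) (nat_lit 1) (nat_lit 8) (nat_lit 7) L66021 (by decide +kernel)
theorem L66023 : W_22 (nat_lit 5) (nat_lit 0x3400b00018000e0000000000000000000000000000000) (nat_lit 0x0) (nat_lit 0xc000700018000c00000000000000000000000000) := T_22 (nat_lit 124) (nat_lit 123) (nat_lit 3) (nat_lit 4) (nat_lit 7) L66022 (by decide +kernel)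
theorem L66024 : W_22 (nat_lit 6) (nat_lit 0x3400b00018000c0000000000000000000000000000000) (nat_lit 0x0) (nat_lit 0xc000700038001c00000000000000000000000000) := T_22 (nat_lit 125) (nat_lit 108) (nat_lit 4) (nat_lit 7) (nat_lit 10) L66023 (by decide +kernel)
theorem L66025 : W_22 (nat_lit 7) (nat_lit 0x3400300018000c0000000000000000000000000000000) (nat_lit 0x0) (nat_lit 0xcc000700038001c00000000000000000000000000) := T_22 (nat_lit 163) (nat_lit 162) (nat_lit 1) (nat_lit 10) (nat_lit 9) L66024 (by decide +kernel)
theorem L66026 : W_22 (nat_lit 8) (nat_lit 0x3000300018000c0000000000000000000000000000000) (nat_lit 0x0) (nat_lit 0xc00cc000700038001c00000000000000000000000000) := T_22 (nat_lit 174) (nat_lit 175) (nat_lit 2) (nat_lit 4) (nat_lit 10) L66025 (by decide +kernel)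
theorem L66027 : W_22 (nat_lit 9) (nat_lit 0x2000300018000c0000000000000000000000000000000) (nat_lit 0x0) (nat_lit 0x20001c00cc000700038001c00000000000000000000000000) := T_22 (nat_lit 176) (nat_lit 193) (nat_lit 5) (nat_lit 7) (nat_lit 7) L66026 (by decide +kernel)
theorem L66028 : W_22 (nat_lit 2) (nat_lit 0x2000300018000e8002000000000000000000000000000) (nat_lit 0x0) (nat_lit 0x2000100008000000000000000000000000000000000000000) := D_22 (nat_lit 176) (nat_lit 193) (nat_lit 159) (nat_lit 5) (nat_lit 7) (nat_lit 7) (nat_lit 5) (nat_lit 7) (nat_lit 6) (by decide +kernel)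
theorem L66029 : W_22 (nat_lit 3) (nat_lit 0x2000300018000e8000000000000000000000000000000) (nat_lit 0x0) (nat_lit 0x2000100008000000000002000100000000000000000000000) := T_22 (nat_lit 109) (nat_lit 92) (nat_lit 7) (nat_lit 7) (nat_lit 5) L66028 (by decide +kernel)
theorem L66030 : W_22 (nat_lit 4) (nat_lit 0x2000300018000e0000000000000000000000000000000) (nat_lit 0x0) (nat_lit 0x2000100008000000018002000100000000000000000000000) := T_22 (nat_lit 123) (nat_lit 124) (nat_lit 3) (nat_lit 4) (nat_lit 7) L66029 (by decide +kernel)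
theorem L66031 : W_22 (nat_lit 5) (nat_lit 0x2000300018000c0000000000000000000000000000000) (nat_lit 0x0) (nat_lit 0x2000100008000000038003000100000000000000000000000) := T_22 (nat_lit 125) (nat_lit 108) (nat_lit 4) (nat_lit 7) (nat_lit 10) L66030 (by decide +kernel)
theorem L66032 : W_22 (nat_lit 10) (nat_lit 0x200030001800080000000000000000000000000000000) (nat_lit 0x0) (nat_lit 0x20001c00cc000700078003c00140002000000000000000000) := Q_22 (nat_lit 126) (C_22 L66001 (C_22 L66008 (C_22 L66015 (C_22 L66019 (C_22 L66027 (C_22 L66031 N_22)))))) (by decide +kernel)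
theorem L66033 : W_22 (nat_lit 11) (nat_lit 0x200020001800080000000000000000000000000000000) (nat_lit 0x0) (nat_lit 0x60001c00dc000700078003c00140002000000000000000000) := T_22 (nat_lit 160) (nat_lit 194) (nat_lit 6) (nat_lit 7) (nat_lit 11) L66032 (by decide +kernel)
theorem L66034 : W_22 (nat_lit 2) (nat_lit 0x2000200018000c0000000000000000000000000000000) (nat_lit 0x0) (nat_lit 0x8000400000000000000002000000000000000000000000000) := D_22 (nat_lit 178) (nat_lit 109) (nat_lit 195) (nat_lit 4) (nat_lit 8) (nat_lit 10) (nat_lit 4) (nat_lit 8) (nat_lit 11) (by decide +kernel)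
theorem L66035 : W_22 (nat_lit 10) (nat_lit 0x2000200018000c0000000000000000000000000000000) (nat_lit 0x0) (nat_lit 0x20001c00dc000700038003c00140002000000000000000000) := Q_22 (nat_lit 160) (C_22 L66031 (C_22 L66008 (C_22 L66015 (C_22 L66019 (C_22 L66027 N_22))))) (by decide +kernel)
theorem L66036 : W_22 (nat_lit 2) (nat_lit 0x80003400b0001a000f0000800000000000000000000000000) (nat_lit 0x0) (nat_lit 0xe000000000000000000000000000000000000000) := D_22 (nat_lit 158) (nat_lit 157) (nat_lit 159) (nat_lit 5) (nat_lit 5) (nat_lit 6) (nat_lit 7) (nat_lit 5) (nat_lit 6) (by decide +kernel)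
theorem L66037 : W_22 (nat_lit 3) (nat_lit 0x80003400b0001a000f0000000000000000000000000000000) (nat_lit 0x0) (nat_lit 0xe000000000000c00000000000000000000000000) := T_22 (nat_lit 107) (nat_lit 106) (nat_lit 0) (nat_lit 8) (nat_lit 7) L66036 (by decide +kernel)
theorem L66038 : W_22 (nat_lit 4) (nat_lit 0x80003400b00018000f0000000000000000000000000000000) (nat_lit 0x0) (nat_lit 0xe000300000000c00000000000000000000000000) := T_22 (nat_lit 141) (nat_lit 140) (nat_lit 1) (nat_lit 8) (nat_lit 7) L66037 (by decide +kernel)
theorem L66039 : W_22 (nat_lit 5) (nat_lit 0x80003400b00018000e0000000000000000000000000000000) (nat_lit 0x0) (nat_lit 0xe000300018000c00000000000000000000000000) := T_22 (nat_lit 124) (nat_lit 123) (nat_lit 3) (nat_lit 4) (nat_lit 7) L66038 (by decide +kernel)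
theorem L66040 : W_22 (nat_lit 6) (nat_lit 0x80003400b00018000c0000000000000000000000000000000) (nat_lit 0x0) (nat_lit 0xe000300038001c00000000000000000000000000) := T_22 (nat_lit 125) (nat_lit 108) (nat_lit 4) (nat_lit 7) (nat_lit 10) L66039 (by decide +kernel)
theorem L66041 : W_22 (nat_lit 7) (nat_lit 0x80003400300018000c0000000000000000000000000000000) (nat_lit 0x0) (nat_lit 0xce000300038001c00000000000000000000000000) := T_22 (nat_lit 163) (nat_lit 162) (nat_lit 1) (nat_lit 10) (nat_lit 9) L66040 (by decide +kernel)
theorem L66042 : W_22 (nat_lit 8) (nat_lit 0x80003000300018000c0000000000000000000000000000000) (nat_lit 0x0) (nat_lit 0xc00ce000300038001c00000000000000000000000000) := T_22 (nat_lit 174) (nat_lit 175) (nat_lit 2) (nat_lit 4) (nat_lit 10) L66041 (by decide +kernel)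
theorem L66043 : W_22 (nat_lit 9) (nat_lit 0x80002000300018000c0000000000000000000000000000000) (nat_lit 0x0) (nat_lit 0x20001c00ce000300038001c00000000000000000000000000) := T_22 (nat_lit 176) (nat_lit 193) (nat_lit 5) (nat_lit 7) (nat_lit 7) L66042 (by decide +kernel)
theorem L66044 : W_22 (nat_lit 10) (nat_lit 0x2000300018000c0000000000000000000000000000000) (nat_lit 0x0) (nat_lit 0xa0005c00ce000300038001c00000000000000000000000000) := T_22 (nat_lit 195) (nat_lit 178) (nat_lit 7) (nat_lit 7) (nat_lit 7) L66043 (by decide +kernel)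
theorem L66045 : W_22 (nat_lit 2) (nat_lit 0x8000200030001e000f0000800000000000000000000000000) (nat_lit 0x0) (nat_lit 0x8000000000000000040002000000000000000000) := D_22 (nat_lit 90) (nat_lit 159) (nat_lit 73) (nat_lit 7) (nat_lit 5) (nat_lit 5) (nat_lit 7) (nat_lit 5) (nat_lit 4) (by decide +kernel)
theorem L66046 : W_22 (nat_lit 3) (nat_lit 0x8000200030001a000f0000800000000000000000000000000) (nat_lit 0x0) (nat_lit 0x48000400000000000040002000000000000000000) := T_22 (nat_lit 142) (nat_lit 162) (nat_lit 3) (nat_lit 5) (nat_lit 8) L66045 (by decide +kernel)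
theorem L66047 : W_22 (nat_lit 4) (nat_lit 0x80002000300018000f0000800000000000000000000000000) (nat_lit 0x0) (nat_lit 0x48000700000000000040002000000000000000000) := T_22 (nat_lit 141) (nat_lit 140) (nat_lit 1) (nat_lit 8) (nat_lit 7) L66046 (by decide +kernel)
theorem L66048 : W_22 (nat_lit 5) (nat_lit 0x80002000300018000f0000000000000000000000000000000) (nat_lit 0x0) (nat_lit 0x48000700000000c00040002000000000000000000) := T_22 (nat_lit 107) (nat_lit 106) (nat_lit 0) (nat_lit 8) (nat_lit 7) L66047 (by decide +kernel)
theorem L66049 : W_22 (nat_lit 6) (nat_lit 0x2000300018000f0000000000000000000000000000000) (nat_lit 0x0) (nat_lit 0x8000400048000700000000c00040002000000000000000000) := T_22 (nat_lit 195) (nat_lit 178) (nat_lit 7) (nat_lit 7) (nat_lit 7) L66048 (by decide +kernel)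
theorem L66050 : W_22 (nat_lit 7) (nat_lit 0x2000300018000e0000000000000000000000000000000) (nat_lit 0x0) (nat_lit 0x8000400048000700018000c00040002000000000000000000) := T_22 (nat_lit 124) (nat_lit 123) (nat_lit 3) (nat_lit 4) (nat_lit 7) L66049 (by decide +kernel)
theorem L66051 : W_22 (nat_lit 8) (nat_lit 0x2000300018000c0000000000000000000000000000000) (nat_lit 0x0) (nat_lit 0x8000400048000700038001c00040002000000000000000000) := T_22 (nat_lit 125) (nat_lit 108) (nat_lit 4) (nat_lit 7) (nat_lit 10) L66050 (by decide +kernel)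
theorem L66052 : W_22 (nat_lit 2) (nat_lit 0x80003800300018000c0000000000000000000000000000000) (nat_lit 0x0) (nat_lit 0xc8000000000000000000000000000000000000000) := D_22 (nat_lit 162) (nat_lit 163) (nat_lit 159) (nat_lit 1) (nat_lit 10) (nat_lit 9) (nat_lit 1) (nat_lit 9) (nat_lit 9) (by decide +kernel)
theorem L66053 : W_22 (nat_lit 3) (nat_lit 0x80003000300018000c0000000000000000000000000000000) (nat_lit 0x0) (nat_lit 0xc00c8000000000000000000000000000000000000000) := T_22 (nat_lit 175) (nat_lit 174) (nat_lit 2) (nat_lit 4) (nat_lit 10) L66052 (by decide +kernel)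
theorem L66054 : W_22 (nat_lit 4) (nat_lit 0x80002000300018000c0000000000000000000000000000000) (nat_lit 0x0) (nat_lit 0x20001c00c8000000000000000000000000000000000000000) := T_22 (nat_lit 176) (nat_lit 193) (nat_lit 5) (nat_lit 7) (nat_lit 7) L66053 (by decide +kernel)
theorem L66055 : W_22 (nat_lit 5) (nat_lit 0x2000300018000c0000000000000000000000000000000) (nat_lit 0x0) (nat_lit 0xa0005c00c8000000000000000000000000000000000000000) := T_22 (nat_lit 195) (nat_lit 178) (nat_lit 7) (nat_lit 7) (nat_lit 7) L66054 (by decide +kernel)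
theorem L66056 : W_22 (nat_lit 2) (nat_lit 0xf000300018000e8000000000000000000000000000000) (nat_lit 0x0) (nat_lit 0x800c0000000000000000000000000000000000000000) := D_22 (nat_lit 162) (nat_lit 163) (nat_lit 175) (nat_lit 2) (nat_lit 6) (nat_lit 10) (nat_lit 2) (nat_lit 5) (nat_lit 10) (by decide +kernel)
theorem L66057 : W_22 (nat_lit 3) (nat_lit 0xe000300018000e8000000000000000000000000000000) (nat_lit 0x0) (nat_lit 0x20001800c0000000000000000000000000000000000000000) := T_22 (nat_lit 176) (nat_lit 193) (nat_lit 5) (nat_lit 7) (nat_lit 7) L66056 (by decide +kernel)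
theorem L66058 : W_22 (nat_lit 4) (nat_lit 0x6000300018000e8000000000000000000000000000000) (nat_lit 0x0) (nat_lit 0x120009800c0000000000000000000000000000000000000000) := T_22 (nat_lit 179) (nat_lit 196) (nat_lit 7) (nat_lit 8) (nat_lit 7) L66057 (by decide +kernel)
theorem L66059 : W_22 (nat_lit 5) (nat_lit 0x2000300018000e8000000000000000000000000000000) (nat_lit 0x0) (nat_lit 0x1a000d800c0000000000000000000000000000000000000000) := T_22 (nat_lit 178) (nat_lit 195) (nat_lit 7) (nat_lit 7) (nat_lit 7) L66058 (by decide +kernel)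
theorem L66060 : W_22 (nat_lit 6) (nat_lit 0x2000300018000e0000000000000000000000000000000) (nat_lit 0x0) (nat_lit 0x1a000d800c0000000018000000000000000000000000000000) := T_22 (nat_lit 123) (nat_lit 124) (nat_lit 3) (nat_lit 4) (nat_lit 7) L66059 (by decide +kernel)
theorem L66061 : W_22 (nat_lit 7) (nat_lit 0x2000300018000c0000000000000000000000000000000) (nat_lit 0x0) (nat_lit 0x1a000d800c0000000038001000000000000000000000000000) := T_22 (nat_lit 125) (nat_lit 108) (nat_lit 4) (nat_lit 7) (nat_lit 10) L66060 (by decide +kernel)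
theorem L66062 : W_22 (nat_lit 2) (nat_lit 0x8000340030001a000f0000800000000000000000000000000) (nat_lit 0x0) (nat_lit 0xc000400000000000000000000000000000000000) := D_22 (nat_lit 159) (nat_lit 142) (nat_lit 158) (nat_lit 4) (nat_lit 6) (nat_lit 10) (nat_lit 7) (nat_lit 5) (nat_lit 6) (by decide +kernel)
theorem L66063 : W_22 (nat_lit 3) (nat_lit 0x80003400300018000f0000800000000000000000000000000) (nat_lit 0x0) (nat_lit 0xc000700000000000000000000000000000000000) := T_22 (nat_lit 141) (nat_lit 140) (nat_lit 1) (nat_lit 8) (nat_lit 7) L66062 (by decide +kernel)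
theorem L66064 : W_22 (nat_lit 4) (nat_lit 0x80003400300018000f0000000000000000000000000000000) (nat_lit 0x0) (nat_lit 0xc000700000000c00000000000000000000000000) := T_22 (nat_lit 107) (nat_lit 106) (nat_lit 0) (nat_lit 8) (nat_lit 7) L66063 (by decide +kernel)
theorem L66065 : W_22 (nat_lit 5) (nat_lit 0x3400300018000f0000000000000000000000000000000) (nat_lit 0x0) (nat_lit 0x800040000c000700000000c00000000000000000000000000) := T_22 (nat_lit 195) (nat_lit 178) (nat_lit 7) (nat_lit 7) (nat_lit 7) L66064 (by decide +kernel)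
theorem L66066 : W_22 (nat_lit 6) (nat_lit 0x3400300018000e0000000000000000000000000000000) (nat_lit 0x0) (nat_lit 0x800040000c000700018000c00000000000000000000000000) := T_22 (nat_lit 124) (nat_lit 123) (nat_lit 3) (nat_lit 4) (nat_lit 7) L66065 (by decide +kernel)
theorem L66067 : W_22 (nat_lit 7) (nat_lit 0x3400300018000c0000000000000000000000000000000) (nat_lit 0x0) (nat_lit 0x800040000c000700038001c00000000000000000000000000) := T_22 (nat_lit 125) (nat_lit 108) (nat_lit 4) (nat_lit 7) (nat_lit 10) L66066 (by decide +kernel)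
theorem L66068 : W_22 (nat_lit 8) (nat_lit 0x3000300018000c0000000000000000000000000000000) (nat_lit 0x0) (nat_lit 0x80004c000c000700038001c00000000000000000000000000) := T_22 (nat_lit 174) (nat_lit 175) (nat_lit 2) (nat_lit 4) (nat_lit 10) L66067 (by decide +kernel)
theorem L66069 : W_22 (nat_lit 9) (nat_lit 0x2000300018000c0000000000000000000000000000000) (nat_lit 0x0) (nat_lit 0xa0005c000c000700038001c00000000000000000000000000) := T_22 (nat_lit 176) (nat_lit 193) (nat_lit 5) (nat_lit 7) (nat_lit 7) L66068 (by decide +kernel)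
theorem L66070 : W_22 (nat_lit 11) (nat_lit 0x2000200018000c0000000000000000000000000000000) (nat_lit 0x0) (nat_lit 0x1a000dc00de000700038001c00040002000000000000000000) := Q_22 (nat_lit 160) (C_22 L66027 (C_22 L66044 (C_22 L66051 (C_22 L66055 (C_22 L66061 (C_22 L66069 N_22)))))) (by decide +kernel)
theorem L66071 : W_22 (nat_lit 12) (nat_lit 0x200020001800080000000000000000000000000000000) (nat_lit 0x0) (nat_lit 0x1a000dc00de000700078003c00140002000000000000000000) := Q_22 (nat_lit 126) (C_22 L66034 (C_22 L66035 (C_22 L66070 N_22))) (by decide +kernel)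
theorem L66072 : W_22 (nat_lit 13) (nat_lit 0x200000001800080000000000000000000000000000000) (nat_lit 0x0) (nat_lit 0x1e000dc00fe000700078003c00140002000000000000000000) := Q_22 (nat_lit 161) (C_22 L65999 (C_22 L66000 (C_22 L66033 (C_22 L66071 N_22)))) (by decide +kernel)
theorem L66075 : W_22 (nat_lit 4) (nat_lit 0x4000200020001c00080000000000000000000000000000000) (nat_lit 0x0) (nat_lit 0x47000300040000000000000000000000000000000) := T_22 (nat_lit 141) (nat_lit 162) (nat_lit 3) (nat_lit 5) (nat_lit 8) L66074 (by decide +kernel)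
theorem L66076 : W_22 (nat_lit 5) (nat_lit 0x4000200000001c00080000000000000000000000000000000) (nat_lit 0x0) (nat_lit 0x400067000300040000000000000000000000000000000) := T_22 (nat_lit 161) (nat_lit 178) (nat_lit 5) (nat_lit 8) (nat_lit 7) L66075 (by decide +kernel)
theorem L66077 : W_22 (nat_lit 6) (nat_lit 0x200000001c00080000000000000000000000000000000) (nat_lit 0x0) (nat_lit 0x4000400077000300040000000000000000000000000000000) := T_22 (nat_lit 194) (nat_lit 160) (nat_lit 6) (nat_lit 7) (nat_lit 11) L66076 (by decide +kernel)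
theorem L66078 : W_22 (nat_lit 2) (nat_lit 0x600020001c00080000000000000000000000000000000) (nat_lit 0x0) (nat_lit 0x8000000000000000040002000000000000000000000000000) := D_22 (nat_lit 126) (nat_lit 195) (nat_lit 109) (nat_lit 4) (nat_lit 8) (nat_lit 11) (nat_lit 4) (nat_lit 8) (nat_lit 10) (by decide +kernel)
theorem L66079 : W_22 (nat_lit 3) (nat_lit 0x600000001c00080000000000000000000000000000000) (nat_lit 0x0) (nat_lit 0xc000000020000000040002000000000000000000000000000) := T_22 (nat_lit 161) (nat_lit 194) (nat_lit 5) (nat_lit 8) (nat_lit 7) L66078 (by decide +kernel)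
theorem L66080 : W_22 (nat_lit 2) (nat_lit 0x600000001c00080000000000000000000000000000000) (nat_lit 0x0) (nat_lit 0x4000000030000000000000000000000000000000000000000) := D_22 (nat_lit 194) (nat_lit 161) (nat_lit 160) (nat_lit 5) (nat_lit 8) (nat_lit 7) (nat_lit 6) (nat_lit 7) (nat_lit 11) (by decide +kernel)
theorem L66081 : W_22 (nat_lit 2) (nat_lit 0x600010001c000c0003000000000000000000000000000) (nat_lit 0x0) (nat_lit 0x8000000000000000100008000000000000000000) := D_22 (nat_lit 92) (nat_lit 159) (nat_lit 75) (nat_lit 5) (nat_lit 7) (nat_lit 5) (nat_lit 7) (nat_lit 7) (nat_lit 4) (by decide +kernel)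
theorem L66082 : W_22 (nat_lit 3) (nat_lit 0x600010001c000c0001000000000000000000000000000) (nat_lit 0x0) (nat_lit 0x8000000000002000180008000000000000000000) := T_22 (nat_lit 109) (nat_lit 91) (nat_lit 4) (nat_lit 7) (nat_lit 9) L66081 (by decide +kernel)
theorem L66083 : W_22 (nat_lit 4) (nat_lit 0x600010001c000c0000000000000000000000000000000) (nat_lit 0x0) (nat_lit 0x8000000020003000180008000000000000000000) := T_22 (nat_lit 108) (nat_lit 125) (nat_lit 4) (nat_lit 7) (nat_lit 10) L66082 (by decide +kernel)
theorem L66084 : W_22 (nat_lit 5) (nat_lit 0x600010001c00080000000000000000000000000000000) (nat_lit 0x0) (nat_lit 0x8000000008000000060003000180008000000000000000000) := T_22 (nat_lit 126) (nat_lit 195) (nat_lit 7) (nat_lit 7) (nat_lit 7) L66083 (by decide +kernel)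
theorem L66085 : W_22 (nat_lit 6) (nat_lit 0x600000001c00080000000000000000000000000000000) (nat_lit 0x0) (nat_lit 0xc000000018000000060003000180008000000000000000000) := T_22 (nat_lit 160) (nat_lit 194) (nat_lit 6) (nat_lit 7) (nat_lit 11) L66084 (by decide +kernel)
theorem L66086 : W_22 (nat_lit 2) (nat_lit 0x600000001c000c0000000000000000000000000000000) (nat_lit 0x0) (nat_lit 0x8000000030000000000000000000000000000000000000000) := D_22 (nat_lit 195) (nat_lit 160) (nat_lit 161) (nat_lit 7) (nat_lit 7) (nat_lit 7) (nat_lit 4) (nat_lit 8) (nat_lit 11) (by decide +kernel)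
theorem L66087 : W_22 (nat_lit 2) (nat_lit 0x600000001c000c0000000000000000000000000000000) (nat_lit 0x0) (nat_lit 0x8000000020000000000002000000000000000000000000000) := D_22 (nat_lit 161) (nat_lit 109) (nat_lit 195) (nat_lit 4) (nat_lit 8) (nat_lit 10) (nat_lit 4) (nat_lit 8) (nat_lit 11) (by decide +kernel)
theorem L66088 : W_22 (nat_lit 2) (nat_lit 0x600000001c002c0002000000000000000000000000000) (nat_lit 0x0) (nat_lit 0x8000000000000000100008000000000000000000) := D_22 (nat_lit 92) (nat_lit 159) (nat_lit 75) (nat_lit 5) (nat_lit 7) (nat_lit 5) (nat_lit 7) (nat_lit 7) (nat_lit 4) (by decide +kernel)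
theorem L66089 : W_22 (nat_lit 3) (nat_lit 0x600000001c002c0000000000000000000000000000000) (nat_lit 0x0) (nat_lit 0x28000000000002000100008000000000000000000) := T_22 (nat_lit 109) (nat_lit 161) (nat_lit 4) (nat_lit 8) (nat_lit 10) L66088 (by decide +kernel)
theorem L66090 : W_22 (nat_lit 4) (nat_lit 0x600000001c000c0000000000000000000000000000000) (nat_lit 0x0) (nat_lit 0x28000000300002000100008000000000000000000) := T_22 (nat_lit 129) (nat_lit 128) (nat_lit 1) (nat_lit 10) (nat_lit 7) L66089 (by decide +kernel)
theorem L66091 : W_22 (nat_lit 5) (nat_lit 0x600000001c000c0000000000000000000000000000000) (nat_lit 0x0) (nat_lit 0x8000000018000000020003000180008000000000000000000) := T_22 (nat_lit 160) (nat_lit 195) (nat_lit 7) (nat_lit 7) (nat_lit 7) L66083 (by decide +kernel)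
theorem L66092 : W_22 (nat_lit 6) (nat_lit 0x600000001c00080000000000000000000000000000000) (nat_lit 0x0) (nat_lit 0x8000000038000000360003000180008000000000000000000) := Q_22 (nat_lit 126) (C_22 L66086 (C_22 L66087 (C_22 L66090 (C_22 L66091 N_22)))) (by decide +kernel)
theorem L66093 : W_22 (nat_lit 7) (nat_lit 0x200000001c00080000000000000000000000000000000) (nat_lit 0x0) (nat_lit 0xc000400038000000360003000180008000000000000000000) := Q_22 (nat_lit 178) (C_22 L66079 (C_22 L66080 (C_22 L66085 (C_22 L66092 N_22)))) (by decide +kernel)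
theorem L66094 : W_22 (nat_lit 8) (nat_lit 0x200000001800080000000000000000000000000000000) (nat_lit 0x0) (nat_lit 0xc00040007f00070037c003000180008000000000000000000) := Q_22 (nat_lit 142) (C_22 L65909 (C_22 L65902 (C_22 L66077 (C_22 L65903 (C_22 L66093 N_22))))) (by decide +kernel)
theorem L66095 : W_22 (nat_lit 14) (nat_lit 0x600000001800080000000000000000000000000000000) (nat_lit 0x0) (nat_lit 0xe8007c003f003fc009c00ef000600138008000000000000000000000000000) := Q_22 (nat_lit 176) (C_22 L65664 (C_22 L65766 (C_22 L65695 (C_22 L65687 (C_22 L65703 (C_22 L65690 N_22)))))) (by decide +kernel)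
theorem L66096 : W_22 (nat_lit 2) (nat_lit 0x7000780004001800080000000000000000000000000000000) (nat_lit 0x0) (nat_lit 0x800040000000000000000200000000000000000000000000000000000) := D_22 (nat_lit 210) (nat_lit 227) (nat_lit 141) (nat_lit 4) (nat_lit 6) (nat_lit 13) (nat_lit 7) (nat_lit 5) (nat_lit 8) (by decide +kernel)
theorem L66097 : W_22 (nat_lit 3) (nat_lit 0x5000780004001800080000000000000000000000000000000) (nat_lit 0x0) (nat_lit 0x800040002000800000000200000000000000000000000000000000000) := T_22 (nat_lit 193) (nat_lit 179) (nat_lit 1) (nat_lit 9) (nat_lit 10) L66096 (by decide +kernel)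
theorem L66098 : W_22 (nat_lit 4) (nat_lit 0x4000780004001800080000000000000000000000000000000) (nat_lit 0x0) (nat_lit 0x800040003800800000000200000000000000000000000000000000000) := T_22 (nat_lit 192) (nat_lit 191) (nat_lit 1) (nat_lit 8) (nat_lit 10) L66097 (by decide +kernel)
theorem L66099 : W_22 (nat_lit 5) (nat_lit 0x4000700004001800080000000000000000000000000000000) (nat_lit 0x0) (nat_lit 0x800040003800880002000200000000000000000000000000000000000) := T_22 (nat_lit 175) (nat_lit 157) (nat_lit 0) (nat_lit 8) (nat_lit 10) L66098 (by decide +kernel)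
theorem L66100 : W_22 (nat_lit 6) (nat_lit 0x700004001800080000000000000000000000000000000) (nat_lit 0x0) (nat_lit 0x800040007800880012000200000000000000000000000000000000000) := T_22 (nat_lit 194) (nat_lit 160) (nat_lit 6) (nat_lit 7) (nat_lit 11) L66099 (by decide +kernel)
theorem L66101 : W_22 (nat_lit 5) (nat_lit 0x700004001800080000000000000000000000000000000) (nat_lit 0x0) (nat_lit 0x2000180088000a000400020000000000000000000000000000000) := T_22 (nat_lit 175) (nat_lit 157) (nat_lit 0) (nat_lit 8) (nat_lit 10) L65784 (by decide +kernel)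
theorem L66102 : W_22 (nat_lit 2) (nat_lit 0x70000c001800080000000000000000000000000000000) (nat_lit 0x0) (nat_lit 0x4000000012000000000000000000000000000000000000000) := D_22 (nat_lit 160) (nat_lit 194) (nat_lit 157) (nat_lit 6) (nat_lit 7) (nat_lit 11) (nat_lit 3) (nat_lit 4) (nat_lit 9) (by decide +kernel)
theorem L66103 : W_22 (nat_lit 3) (nat_lit 0x700004001800080000000000000000000000000000000) (nat_lit 0x0) (nat_lit 0x400080001a000000000000000000000000000000000000000) := T_22 (nat_lit 159) (nat_lit 179) (nat_lit 0) (nat_lit 9) (nat_lit 10) L66102 (by decide +kernel)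
theorem L66104 : W_22 (nat_lit 2) (nat_lit 0x48007f0004001800080000000000000000000000000000000) (nat_lit 0x0) (nat_lit 0x1c00000000000000000000000000000000000000) := D_22 (nat_lit 155) (nat_lit 156) (nat_lit 154) (nat_lit 0) (nat_lit 6) (nat_lit 10) (nat_lit 0) (nat_lit 5) (nat_lit 10) (by decide +kernel)
theorem L66105 : W_22 (nat_lit 3) (nat_lit 0x48007e0004001800080000000000000000000000000000000) (nat_lit 0x0) (nat_lit 0x10009c00000000000000000000000000000000000000) := T_22 (nat_lit 172) (nat_lit 159) (nat_lit 2) (nat_lit 2) (nat_lit 10) L66104 (by decide +kernel)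
theorem L66106 : W_22 (nat_lit 4) (nat_lit 0x48007c0004001800080000000000000000000000000000000) (nat_lit 0x0) (nat_lit 0x2000030009c00000000000000000000000000000000000000) := T_22 (nat_lit 173) (nat_lit 193) (nat_lit 3) (nat_lit 3) (nat_lit 10) L66105 (by decide +kernel)
theorem L66107 : W_22 (nat_lit 5) (nat_lit 0x4800780004001800080000000000000000000000000000000) (nat_lit 0x0) (nat_lit 0x2400070009c00000000000000000000000000000000000000) := T_22 (nat_lit 174) (nat_lit 190) (nat_lit 1) (nat_lit 7) (nat_lit 10) L66106 (by decide +kernel)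
theorem L66108 : W_22 (nat_lit 6) (nat_lit 0x4000780004001800080000000000000000000000000000000) (nat_lit 0x0) (nat_lit 0x3c00070009c00000000000000000000000000000000000000) := T_22 (nat_lit 191) (nat_lit 192) (nat_lit 1) (nat_lit 8) (nat_lit 10) L66107 (by decide +kernel)
theorem L66109 : W_22 (nat_lit 7) (nat_lit 0x4000700004001800080000000000000000000000000000000) (nat_lit 0x0) (nat_lit 0x3c000f000bc00000000000000000000000000000000000000) := T_22 (nat_lit 175) (nat_lit 157) (nat_lit 0) (nat_lit 8) (nat_lit 10) L66108 (by decide +kernel)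
theorem L66110 : W_22 (nat_lit 8) (nat_lit 0x700004001800080000000000000000000000000000000) (nat_lit 0x0) (nat_lit 0x7c000f001bc00000000000000000000000000000000000000) := T_22 (nat_lit 194) (nat_lit 160) (nat_lit 6) (nat_lit 7) (nat_lit 11) L66109 (by decide +kernel)
theorem L66111 : W_22 (nat_lit 2) (nat_lit 0x100000000400070000c001e00080000000000000000000000000000000) (nat_lit 0x0) (nat_lit 0x2000000000000000018000000000000000000000000000000) := D_22 (nat_lit 124) (nat_lit 123) (nat_lit 193) (nat_lit 0) (nat_lit 8) (nat_lit 8) (nat_lit 4) (nat_lit 6) (nat_lit 11) (by decide +kernel)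
theorem L66112 : W_22 (nat_lit 3) (nat_lit 0x100000000400070000c001c00080000000000000000000000000000000) (nat_lit 0x0) (nat_lit 0x2000000000000200118000000000000000000000000000000) := T_22 (nat_lit 141) (nat_lit 128) (nat_lit 2) (nat_lit 5) (nat_lit 8) L66111 (by decide +kernel)
theorem L66113 : W_22 (nat_lit 4) (nat_lit 0x100000000400070000c001800080000000000000000000000000000000) (nat_lit 0x0) (nat_lit 0x2000000000000600138000000000000000000000000000000) := T_22 (nat_lit 142) (nat_lit 125) (nat_lit 7) (nat_lit 6) (nat_lit 7) L66112 (by decide +kernel)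
theorem L66114 : W_22 (nat_lit 5) (nat_lit 0x400070000c001800080000000000000000000000000000000) (nat_lit 0x0) (nat_lit 0x1000080002000000000000600138000000000000000000000000000000) := T_22 (nat_lit 228) (nat_lit 211) (nat_lit 4) (nat_lit 7) (nat_lit 13) L66113 (by decide +kernel)
theorem L66115 : W_22 (nat_lit 6) (nat_lit 0x70000c001800080000000000000000000000000000000) (nat_lit 0x0) (nat_lit 0x1000080006000000010000600138000000000000000000000000000000) := T_22 (nat_lit 194) (nat_lit 160) (nat_lit 6) (nat_lit 7) (nat_lit 11) L66114 (by decide +kernel)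
theorem L66116 : W_22 (nat_lit 7) (nat_lit 0x700004001800080000000000000000000000000000000) (nat_lit 0x0) (nat_lit 0x1000080006000800018000600138000000000000000000000000000000) := T_22 (nat_lit 159) (nat_lit 179) (nat_lit 0) (nat_lit 9) (nat_lit 10) L66115 (by decide +kernel)
theorem L66117 : W_22 (nat_lit 9) (nat_lit 0x700000001800080000000000000000000000000000000) (nat_lit 0x0) (nat_lit 0x18000e0007c008f001fc00600138000000000000000000000000000000) := Q_22 (nat_lit 158) (C_22 L66100 (C_22 L66101 (C_22 L66103 (C_22 L66110 (C_22 L66116 N_22))))) (by decide +kernel)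
theorem L66118 : W_22 (nat_lit 2) (nat_lit 0x80007c0002001800080000000000000000000000000000000) (nat_lit 0x0) (nat_lit 0x1c00000000000000000000000000000000000000000000000) := D_22 (nat_lit 191) (nat_lit 192) (nat_lit 190) (nat_lit 1) (nat_lit 8) (nat_lit 10) (nat_lit 1) (nat_lit 7) (nat_lit 10) (by decide +kernel)
theorem L66119 : W_22 (nat_lit 3) (nat_lit 0x8000780002001800080000000000000000000000000000000) (nat_lit 0x0) (nat_lit 0x1c00040001000000000000000000000000000000000000000) := T_22 (nat_lit 174) (nat_lit 156) (nat_lit 0) (nat_lit 7) (nat_lit 10) L66118 (by decide +kernel)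
theorem L66120 : W_22 (nat_lit 4) (nat_lit 0x780002001800080000000000000000000000000000000) (nat_lit 0x0) (nat_lit 0x19c00040001000000000000000000000000000000000000000) := T_22 (nat_lit 195) (nat_lit 196) (nat_lit 3) (nat_lit 5) (nat_lit 10) L66119 (by decide +kernel)
theorem L66121 : W_22 (nat_lit 5) (nat_lit 0x780000001800080000000000000000000000000000000) (nat_lit 0x0) (nat_lit 0x19c00040007000000000000000000000000000000000000000) := T_22 (nat_lit 157) (nat_lit 158) (nat_lit 0) (nat_lit 8) (nat_lit 10) L66120 (by decide +kernel)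
theorem L66122 : W_22 (nat_lit 6) (nat_lit 0x700000001800080000000000000000000000000000000) (nat_lit 0x0) (nat_lit 0x2003bc008c000f000400020000000000000000000000000000000) := Q_22 (nat_lit 175) (C_22 L13372 (C_22 L65785 (C_22 L66121 (C_22 L65607 N_22)))) (by decide +kernel)
theorem L66123 : W_22 (nat_lit 2) (nat_lit 0x1000000004000f00008001e00080000000000000000000000000000000) (nat_lit 0x0) (nat_lit 0x2000000000000000018000000000000000000000000000000) := D_22 (nat_lit 124) (nat_lit 123) (nat_lit 193) (nat_lit 0) (nat_lit 8) (nat_lit 8) (nat_lit 4) (nat_lit 6) (nat_lit 11) (by decide +kernel)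
theorem L66124 : W_22 (nat_lit 3) (nat_lit 0x1000000004000f00008001c00080000000000000000000000000000000) (nat_lit 0x0) (nat_lit 0x2000000000000200118000000000000000000000000000000) := T_22 (nat_lit 141) (nat_lit 128) (nat_lit 2) (nat_lit 5) (nat_lit 8) L66123 (by decide +kernel)
theorem L66125 : W_22 (nat_lit 4) (nat_lit 0x1000000004000700008001c00080000000000000000000000000000000) (nat_lit 0x0) (nat_lit 0x2000800004000200118000000000000000000000000000000) := T_22 (nat_lit 179) (nat_lit 158) (nat_lit 0) (nat_lit 9) (nat_lit 10) L66124 (by decide +kernel)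
theorem L66126 : W_22 (nat_lit 5) (nat_lit 0x1000000004000700008001800080000000000000000000000000000000) (nat_lit 0x0) (nat_lit 0x2000800004000600138000000000000000000000000000000) := T_22 (nat_lit 142) (nat_lit 125) (nat_lit 7) (nat_lit 6) (nat_lit 7) L66125 (by decide +kernel)
theorem L66127 : W_22 (nat_lit 6) (nat_lit 0x4000700008001800080000000000000000000000000000000) (nat_lit 0x0) (nat_lit 0x1000080002000800004000600138000000000000000000000000000000) := T_22 (nat_lit 228) (nat_lit 211) (nat_lit 4) (nat_lit 7) (nat_lit 13) L66126 (by decide +kernel)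
theorem L66128 : W_22 (nat_lit 7) (nat_lit 0x700008001800080000000000000000000000000000000) (nat_lit 0x0) (nat_lit 0x1000080006000800014000600138000000000000000000000000000000) := T_22 (nat_lit 194) (nat_lit 160) (nat_lit 6) (nat_lit 7) (nat_lit 11) L66127 (by decide +kernel)
theorem L66129 : W_22 (nat_lit 2) (nat_lit 0xf00018001800080000000000000000000000000000000) (nat_lit 0x0) (nat_lit 0x40003000000000000000000000000000000000000000000000000) := D_22 (nat_lit 193) (nat_lit 192) (nat_lit 210) (nat_lit 1) (nat_lit 9) (nat_lit 10) (nat_lit 6) (nat_lit 6) (nat_lit 12) (by decide +kernel)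
theorem L66130 : W_22 (nat_lit 3) (nat_lit 0xf00008001800080000000000000000000000000000000) (nat_lit 0x0) (nat_lit 0x40007000000010000000000000000000000000000000000000000) := T_22 (nat_lit 160) (nat_lit 194) (nat_lit 6) (nat_lit 7) (nat_lit 11) L66129 (by decide +kernel)
theorem L66131 : W_22 (nat_lit 4) (nat_lit 0x700008001800080000000000000000000000000000000) (nat_lit 0x0) (nat_lit 0x40007000800014000000000000000000000000000000000000000) := T_22 (nat_lit 179) (nat_lit 158) (nat_lit 0) (nat_lit 9) (nat_lit 10) L66130 (by decide +kernel)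
theorem L66132 : W_22 (nat_lit 2) (nat_lit 0x400070000e001c00080000000000000000000000000000000) (nat_lit 0x0) (nat_lit 0x1000080002000000000000000000000000000000000000000000000000) := D_22 (nat_lit 211) (nat_lit 228) (nat_lit 193) (nat_lit 4) (nat_lit 7) (nat_lit 13) (nat_lit 7) (nat_lit 6) (nat_lit 8) (by decide +kernel)
theorem L66133 : W_22 (nat_lit 3) (nat_lit 0x70000e001c00080000000000000000000000000000000) (nat_lit 0x0) (nat_lit 0x1000080006000000000000000020000000000000000000000000000000) := T_22 (nat_lit 194) (nat_lit 125) (nat_lit 7) (nat_lit 6) (nat_lit 7) L66132 (by decide +kernel)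
theorem L66134 : W_22 (nat_lit 4) (nat_lit 0x70000e001800080000000000000000000000000000000) (nat_lit 0x0) (nat_lit 0x1000080006000000000000600020000000000000000000000000000000) := T_22 (nat_lit 142) (nat_lit 141) (nat_lit 1) (nat_lit 8) (nat_lit 8) L66133 (by decide +kernel)
theorem L66135 : W_22 (nat_lit 5) (nat_lit 0x70000c001800080000000000000000000000000000000) (nat_lit 0x0) (nat_lit 0x1000080006000000003000600020000000000000000000000000000000) := T_22 (nat_lit 157) (nat_lit 156) (nat_lit 3) (nat_lit 3) (nat_lit 9) L66134 (by decide +kernel)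
theorem L66136 : W_22 (nat_lit 6) (nat_lit 0x700008001800080000000000000000000000000000000) (nat_lit 0x0) (nat_lit 0x1000080006000800007000600020000000000000000000000000000000) := T_22 (nat_lit 158) (nat_lit 179) (nat_lit 0) (nat_lit 9) (nat_lit 10) L66135 (by decide +kernel)
theorem L66137 : W_22 (nat_lit 2) (nat_lit 0x1e0012000f00048001800080000000000000000000000000000000) (nat_lit 0x0) (nat_lit 0x6000200000000000000000000000000000000000000000000000000000) := D_22 (nat_lit 229) (nat_lit 230) (nat_lit 213) (nat_lit 3) (nat_lit 5) (nat_lit 12) (nat_lit 5) (nat_lit 9) (nat_lit 9) (by decide +kernel)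
theorem L66138 : W_22 (nat_lit 3) (nat_lit 0x1e0012000f00008001800080000000000000000000000000000000) (nat_lit 0x0) (nat_lit 0x60002000000000000c0000000000000000000000000000000000000000) := T_22 (nat_lit 162) (nat_lit 163) (nat_lit 2) (nat_lit 6) (nat_lit 10) L66137 (by decide +kernel)
theorem L66139 : W_22 (nat_lit 4) (nat_lit 0xe0012000f00008001800080000000000000000000000000000000) (nat_lit 0x0) (nat_lit 0x60003000080000000c0000000000000000000000000000000000000000) := T_22 (nat_lit 212) (nat_lit 195) (nat_lit 2) (nat_lit 5) (nat_lit 12) L66138 (by decide +kernel)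
theorem L66140 : W_22 (nat_lit 5) (nat_lit 0x60012000f00008001800080000000000000000000000000000000) (nat_lit 0x0) (nat_lit 0x70003800080000000c0000000000000000000000000000000000000000) := T_22 (nat_lit 211) (nat_lit 228) (nat_lit 7) (nat_lit 6) (nat_lit 9) L66139 (by decide +kernel)
theorem L66141 : W_22 (nat_lit 6) (nat_lit 0x40012000f00008001800080000000000000000000000000000000) (nat_lit 0x0) (nat_lit 0x74003a00080000000c0000000000000000000000000000000000000000) := T_22 (nat_lit 209) (nat_lit 226) (nat_lit 5) (nat_lit 6) (nat_lit 9) L66140 (by decide +kernel)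
theorem L66142 : W_22 (nat_lit 7) (nat_lit 0x12000f00008001800080000000000000000000000000000000) (nat_lit 0x0) (nat_lit 0x74003e00080000000d0000000000000000000000000000000000000000) := T_22 (nat_lit 210) (nat_lit 160) (nat_lit 6) (nat_lit 6) (nat_lit 12) L66141 (by decide +kernel)
theorem L66143 : W_22 (nat_lit 8) (nat_lit 0x2000f00008001800080000000000000000000000000000000) (nat_lit 0x0) (nat_lit 0x74003e00380000000d0000000000000000000000000000000000000000) := T_22 (nat_lit 196) (nat_lit 197) (nat_lit 3) (nat_lit 6) (nat_lit 10) L66142 (by decide +kernel)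
theorem L66144 : W_22 (nat_lit 9) (nat_lit 0xf00008001800080000000000000000000000000000000) (nat_lit 0x0) (nat_lit 0x74003e003b0000000d0000000000000000000000000000000000000000) := T_22 (nat_lit 193) (nat_lit 192) (nat_lit 1) (nat_lit 9) (nat_lit 10) L66143 (by decide +kernel)
theorem L66145 : W_22 (nat_lit 10) (nat_lit 0x700008001800080000000000000000000000000000000) (nat_lit 0x0) (nat_lit 0x74003e003b0008000d4000000000000000000000000000000000000000) := T_22 (nat_lit 179) (nat_lit 158) (nat_lit 0) (nat_lit 9) (nat_lit 10) L66144 (by decide +kernel)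
theorem L66146 : W_22 (nat_lit 3) (nat_lit 0x700008001800080000000000000000000000000000000) (nat_lit 0x0) (nat_lit 0x4000800016000000000000000000000000000000000000000) := T_22 (nat_lit 158) (nat_lit 179) (nat_lit 0) (nat_lit 9) (nat_lit 10) L66102 (by decide +kernel)
theorem L66147 : W_22 (nat_lit 2) (nat_lit 0x1000000004000700008001e00080000000000000000000000000000000) (nat_lit 0x0) (nat_lit 0x2000000000000000018000000000000000000000000000000) := D_22 (nat_lit 124) (nat_lit 123) (nat_lit 193) (nat_lit 0) (nat_lit 8) (nat_lit 8) (nat_lit 4) (nat_lit 6) (nat_lit 11) (by decide +kernel)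
theorem L66148 : W_22 (nat_lit 3) (nat_lit 0x1000000004000700008001c00080000000000000000000000000000000) (nat_lit 0x0) (nat_lit 0x2000000000000200118000000000000000000000000000000) := T_22 (nat_lit 141) (nat_lit 128) (nat_lit 2) (nat_lit 5) (nat_lit 8) L66147 (by decide +kernel)
theorem L66149 : W_22 (nat_lit 4) (nat_lit 0x1000000004000700008001800080000000000000000000000000000000) (nat_lit 0x0) (nat_lit 0x2000000000000600138000000000000000000000000000000) := T_22 (nat_lit 142) (nat_lit 125) (nat_lit 7) (nat_lit 6) (nat_lit 7) L66148 (by decide +kernel)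
theorem L66150 : W_22 (nat_lit 5) (nat_lit 0x4000700008001800080000000000000000000000000000000) (nat_lit 0x0) (nat_lit 0x1000080002000000000000600138000000000000000000000000000000) := T_22 (nat_lit 228) (nat_lit 211) (nat_lit 4) (nat_lit 7) (nat_lit 13) L66149 (by decide +kernel)
theorem L66151 : W_22 (nat_lit 6) (nat_lit 0x700008001800080000000000000000000000000000000) (nat_lit 0x0) (nat_lit 0x1000080006000000010000600138000000000000000000000000000000) := T_22 (nat_lit 194) (nat_lit 160) (nat_lit 6) (nat_lit 7) (nat_lit 11) L66150 (by decide +kernel)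
theorem L66152 : W_22 (nat_lit 11) (nat_lit 0x700000001800080000000000000000000000000000000) (nat_lit 0x0) (nat_lit 0x74003e003f0008000df000600138000000000000000000000000000000) := Q_22 (nat_lit 159) (C_22 L66128 (C_22 L66131 (C_22 L66136 (C_22 L66145 (C_22 L66146 (C_22 L66151 N_22)))))) (by decide +kernel)
theorem L66153 : W_22 (nat_lit 6) (nat_lit 0x700000001800080000000000000000000000000000000) (nat_lit 0x0) (nat_lit 0x2001dc008c000f000400020000000000000000000000000000000) := Q_22 (nat_lit 175) (C_22 L66121 (C_22 L65785 (C_22 L65652 (C_22 L65788 N_22)))) (by decide +kernel)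
theorem L66154 : W_22 (nat_lit 4) (nat_lit 0x700000001c00080000000000000000000000000000000) (nat_lit 0x0) (nat_lit 0x1000080006000000018000000020000000000000000000000000000000) := T_22 (nat_lit 194) (nat_lit 160) (nat_lit 6) (nat_lit 7) (nat_lit 11) L65685 (by decide +kernel)
theorem L66155 : W_22 (nat_lit 2) (nat_lit 0x700004001e00090000000000000000000000000000000) (nat_lit 0x0) (nat_lit 0x2000080008000000000000000000000000000000000000000) := D_22 (nat_lit 193) (nat_lit 159) (nat_lit 175) (nat_lit 4) (nat_lit 6) (nat_lit 11) (nat_lit 7) (nat_lit 5) (nat_lit 7) (by decide +kernel)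
theorem L66156 : W_22 (nat_lit 3) (nat_lit 0x700004001e00080000000000000000000000000000000) (nat_lit 0x0) (nat_lit 0x2000080008000000018000000000000000000000000000000) := T_22 (nat_lit 124) (nat_lit 123) (nat_lit 0) (nat_lit 8) (nat_lit 8) L66155 (by decide +kernel)
theorem L66157 : W_22 (nat_lit 4) (nat_lit 0x700000001e00080000000000000000000000000000000) (nat_lit 0x0) (nat_lit 0x200008000e000000018000000000000000000000000000000) := T_22 (nat_lit 158) (nat_lit 157) (nat_lit 1) (nat_lit 8) (nat_lit 8) L66156 (by decide +kernel)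
theorem L66158 : W_22 (nat_lit 5) (nat_lit 0x700000001c00080000000000000000000000000000000) (nat_lit 0x0) (nat_lit 0x200008000e000200118000000000000000000000000000000) := T_22 (nat_lit 141) (nat_lit 128) (nat_lit 2) (nat_lit 5) (nat_lit 8) L66157 (by decide +kernel)
theorem L66159 : W_22 (nat_lit 2) (nat_lit 0x4000780004001e00090000000000000000000000000000000) (nat_lit 0x0) (nat_lit 0x1800000000000000020000000000000000000000000000000) := D_22 (nat_lit 192) (nat_lit 125) (nat_lit 191) (nat_lit 6) (nat_lit 5) (nat_lit 11) (nat_lit 1) (nat_lit 8) (nat_lit 10) (by decide +kernel)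
theorem L66160 : W_22 (nat_lit 3) (nat_lit 0x4000700004001e00090000000000000000000000000000000) (nat_lit 0x0) (nat_lit 0x3800080000000000020000000000000000000000000000000) := T_22 (nat_lit 175) (nat_lit 193) (nat_lit 7) (nat_lit 5) (nat_lit 7) L66159 (by decide +kernel)
theorem L66161 : W_22 (nat_lit 4) (nat_lit 0x700004001e00090000000000000000000000000000000) (nat_lit 0x0) (nat_lit 0x7800080010000000020000000000000000000000000000000) := T_22 (nat_lit 194) (nat_lit 160) (nat_lit 6) (nat_lit 7) (nat_lit 11) L66160 (by decide +kernel)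
theorem L66162 : W_22 (nat_lit 5) (nat_lit 0x700004001e00080000000000000000000000000000000) (nat_lit 0x0) (nat_lit 0x7800080010000000038000000000000000000000000000000) := T_22 (nat_lit 124) (nat_lit 123) (nat_lit 0) (nat_lit 8) (nat_lit 8) L66161 (by decide +kernel)
theorem L66163 : W_22 (nat_lit 6) (nat_lit 0x700000001e00080000000000000000000000000000000) (nat_lit 0x0) (nat_lit 0x7800080016000000038000000000000000000000000000000) := T_22 (nat_lit 158) (nat_lit 157) (nat_lit 1) (nat_lit 8) (nat_lit 8) L66162 (by decide +kernel)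
theorem L66164 : W_22 (nat_lit 7) (nat_lit 0x700000001c00080000000000000000000000000000000) (nat_lit 0x0) (nat_lit 0x7800080016000200138000000000000000000000000000000) := T_22 (nat_lit 141) (nat_lit 128) (nat_lit 2) (nat_lit 5) (nat_lit 8) L66163 (by decide +kernel)
theorem L66165 : W_22 (nat_lit 2) (nat_lit 0x4000780004001e000a0000000000000000000000000000000) (nat_lit 0x0) (nat_lit 0x10001000080000000000000000000000) := D_22 (nat_lit 108) (nat_lit 91) (nat_lit 124) (nat_lit 5) (nat_lit 6) (nat_lit 5) (nat_lit 6) (nat_lit 5) (nat_lit 10) (by decide +kernel)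
theorem L66166 : W_22 (nat_lit 3) (nat_lit 0x4000700004001e000a0000000000000000000000000000000) (nat_lit 0x0) (nat_lit 0x1000080000000000010001000080000000000000000000000) := T_22 (nat_lit 175) (nat_lit 192) (nat_lit 6) (nat_lit 5) (nat_lit 11) L66165 (by decide +kernel)
theorem L66167 : W_22 (nat_lit 4) (nat_lit 0x4000700000001e000a0000000000000000000000000000000) (nat_lit 0x0) (nat_lit 0x1000080006000000010001000080000000000000000000000) := T_22 (nat_lit 158) (nat_lit 157) (nat_lit 1) (nat_lit 8) (nat_lit 8) L66166 (by decide +kernel)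
theorem L66168 : W_22 (nat_lit 5) (nat_lit 0x4000700000001c000a0000000000000000000000000000000) (nat_lit 0x0) (nat_lit 0x1000080006000200110001000080000000000000000000000) := T_22 (nat_lit 141) (nat_lit 128) (nat_lit 2) (nat_lit 5) (nat_lit 8) L66167 (by decide +kernel)
theorem L66169 : W_22 (nat_lit 6) (nat_lit 0x4000700000001c00080000000000000000000000000000000) (nat_lit 0x0) (nat_lit 0x100008000e000200130001000080000000000000000000000) := T_22 (nat_lit 125) (nat_lit 159) (nat_lit 7) (nat_lit 6) (nat_lit 7) L66168 (by decide +kernel)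
theorem L66170 : W_22 (nat_lit 7) (nat_lit 0x700000001c00080000000000000000000000000000000) (nat_lit 0x0) (nat_lit 0x500008001e000200130001000080000000000000000000000) := T_22 (nat_lit 194) (nat_lit 160) (nat_lit 6) (nat_lit 7) (nat_lit 11) L66169 (by decide +kernel)
theorem L66171 : W_22 (nat_lit 8) (nat_lit 0x700000001800080000000000000000000000000000000) (nat_lit 0x0) (nat_lit 0x100008000780008001e000600138001000080000000000000000000000) := Q_22 (nat_lit 142) (C_22 L66154 (C_22 L66158 (C_22 L66164 (C_22 L66170 N_22)))) (by decide +kernel)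
theorem L66172 : W_22 (nat_lit 4) (nat_lit 0x700004001800080000000000000000000000000000000) (nat_lit 0x0) (nat_lit 0x3800088000a000000000000000000000000000000000000000) := T_22 (nat_lit 175) (nat_lit 157) (nat_lit 0) (nat_lit 8) (nat_lit 10) L65606 (by decide +kernel)
theorem L66173 : W_22 (nat_lit 2) (nat_lit 0x4000780004001800080000000000000000000000000000000) (nat_lit 0x0) (nat_lit 0x18000040000000000000000000000000000000000000000000) := D_22 (nat_lit 195) (nat_lit 174) (nat_lit 196) (nat_lit 3) (nat_lit 4) (nat_lit 10) (nat_lit 3) (nat_lit 5) (nat_lit 10) (by decide +kernel)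
theorem L66174 : W_22 (nat_lit 3) (nat_lit 0x4000700004001800080000000000000000000000000000000) (nat_lit 0x0) (nat_lit 0x180000c0002000000000000000000000000000000000000000) := T_22 (nat_lit 175) (nat_lit 157) (nat_lit 0) (nat_lit 8) (nat_lit 10) L66173 (by decide +kernel)
theorem L66175 : W_22 (nat_lit 4) (nat_lit 0x700004001800080000000000000000000000000000000) (nat_lit 0x0) (nat_lit 0x1c0000c0012000000000000000000000000000000000000000) := T_22 (nat_lit 194) (nat_lit 160) (nat_lit 6) (nat_lit 7) (nat_lit 11) L66174 (by decide +kernel)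
theorem L66176 : W_22 (nat_lit 8) (nat_lit 0x700000001800080000000000000000000000000000000) (nat_lit 0x0) (nat_lit 0x100008003e0008c001e000600138000000000000000000000000000000) := Q_22 (nat_lit 158) (C_22 L66116 (C_22 L66103 (C_22 L66172 (C_22 L66175 N_22)))) (by decide +kernel)
theorem L66177 : W_22 (nat_lit 2) (nat_lit 0x16000f00048001800080000000000000000000000000000000) (nat_lit 0x0) (nat_lit 0x1000080000000000000000400000000000000000000000000000000000) := D_22 (nat_lit 211) (nat_lit 228) (nat_lit 142) (nat_lit 4) (nat_lit 7) (nat_lit 13) (nat_lit 7) (nat_lit 6) (nat_lit 8) (by decide +kernel)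
theorem L66178 : W_22 (nat_lit 3) (nat_lit 0x16000f00040001800080000000000000000000000000000000) (nat_lit 0x0) (nat_lit 0x100008000000000000c000400000000000000000000000000000000000) := T_22 (nat_lit 159) (nat_lit 158) (nat_lit 0) (nat_lit 9) (nat_lit 10) L66177 (by decide +kernel)
theorem L66179 : W_22 (nat_lit 4) (nat_lit 0x14000f00040001800080000000000000000000000000000000) (nat_lit 0x0) (nat_lit 0x100008000300000000c000400000000000000000000000000000000000) := T_22 (nat_lit 193) (nat_lit 192) (nat_lit 1) (nat_lit 9) (nat_lit 10) L66178 (by decide +kernel)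
theorem L66180 : W_22 (nat_lit 5) (nat_lit 0x14000f00000001800080000000000000000000000000000000) (nat_lit 0x0) (nat_lit 0x10000800030000000cc000400000000000000000000000000000000000) := T_22 (nat_lit 162) (nat_lit 163) (nat_lit 2) (nat_lit 6) (nat_lit 10) L66179 (by decide +kernel)
theorem L66181 : W_22 (nat_lit 6) (nat_lit 0x4000f00000001800080000000000000000000000000000000) (nat_lit 0x0) (nat_lit 0x10000800330000000cc000400000000000000000000000000000000000) := T_22 (nat_lit 196) (nat_lit 197) (nat_lit 3) (nat_lit 6) (nat_lit 10) L66180 (by decide +kernel)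
theorem L66182 : W_22 (nat_lit 7) (nat_lit 0xf00000001800080000000000000000000000000000000) (nat_lit 0x0) (nat_lit 0x10000800370000000dc000400000000000000000000000000000000000) := T_22 (nat_lit 194) (nat_lit 160) (nat_lit 6) (nat_lit 7) (nat_lit 11) L66181 (by decide +kernel)
theorem L66183 : W_22 (nat_lit 2) (nat_lit 0x400000011000f80058001e00088000000000000000000000000000000) (nat_lit 0x0) (nat_lit 0x180004000000000000000000000000000000) := D_22 (nat_lit 140) (nat_lit 139) (nat_lit 122) (nat_lit 3) (nat_lit 3) (nat_lit 8) (nat_lit 0) (nat_lit 7) (nat_lit 8) (by decide +kernel)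
theorem L66184 : W_22 (nat_lit 3) (nat_lit 0x400000011000f80058001e00080000000000000000000000000000000) (nat_lit 0x0) (nat_lit 0x18001c000000000000000000000000000000) := T_22 (nat_lit 123) (nat_lit 124) (nat_lit 0) (nat_lit 8) (nat_lit 8) L66183 (by decide +kernel)
theorem L66185 : W_22 (nat_lit 4) (nat_lit 0x400000011000f80058001c00080000000000000000000000000000000) (nat_lit 0x0) (nat_lit 0x38011c000000000000000000000000000000) := T_22 (nat_lit 141) (nat_lit 128) (nat_lit 2) (nat_lit 5) (nat_lit 8) L66184 (by decide +kernel)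
theorem L66186 : W_22 (nat_lit 5) (nat_lit 0x400000011000f80048001c00080000000000000000000000000000000) (nat_lit 0x0) (nat_lit 0x400000001000038011c000000000000000000000000000000) := T_22 (nat_lit 160) (nat_lit 194) (nat_lit 6) (nat_lit 7) (nat_lit 11) L66185 (by decide +kernel)
theorem L66187 : W_22 (nat_lit 6) (nat_lit 0x400000011000f80048001800080000000000000000000000000000000) (nat_lit 0x0) (nat_lit 0x400000001000078013c000000000000000000000000000000) := T_22 (nat_lit 142) (nat_lit 125) (nat_lit 5) (nat_lit 6) (nat_lit 7) L66186 (by decide +kernel)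
theorem L66188 : W_22 (nat_lit 7) (nat_lit 0x11000f80048001800080000000000000000000000000000000) (nat_lit 0x0) (nat_lit 0x40002000400000001000078013c000000000000000000000000000000) := T_22 (nat_lit 226) (nat_lit 209) (nat_lit 6) (nat_lit 5) (nat_lit 13) L66187 (by decide +kernel)
theorem L66189 : W_22 (nat_lit 8) (nat_lit 0x11000f80008001800080000000000000000000000000000000) (nat_lit 0x0) (nat_lit 0x4000200040000000d000078013c000000000000000000000000000000) := T_22 (nat_lit 162) (nat_lit 163) (nat_lit 2) (nat_lit 6) (nat_lit 10) L66188 (by decide +kernel)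
theorem L66190 : W_22 (nat_lit 9) (nat_lit 0x10000f80008001800080000000000000000000000000000000) (nat_lit 0x0) (nat_lit 0x4000200058000000d000078013c000000000000000000000000000000) := T_22 (nat_lit 192) (nat_lit 191) (nat_lit 1) (nat_lit 8) (nat_lit 10) L66189 (by decide +kernel)
theorem L66191 : W_22 (nat_lit 10) (nat_lit 0x10000f00008001800080000000000000000000000000000000) (nat_lit 0x0) (nat_lit 0x40002000d8000800d000078013c000000000000000000000000000000) := T_22 (nat_lit 175) (nat_lit 195) (nat_lit 3) (nat_lit 5) (nat_lit 10) L66190 (by decide +kernel)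
theorem L66192 : W_22 (nat_lit 11) (nat_lit 0xf00008001800080000000000000000000000000000000) (nat_lit 0x0) (nat_lit 0x40002003d8000800d000078013c000000000000000000000000000000) := T_22 (nat_lit 196) (nat_lit 197) (nat_lit 3) (nat_lit 6) (nat_lit 10) L66191 (by decide +kernel)
theorem L66193 : W_22 (nat_lit 12) (nat_lit 0xf00000001800080000000000000000000000000000000) (nat_lit 0x0) (nat_lit 0x40002003d8000800dc00078013c000000000000000000000000000000) := T_22 (nat_lit 159) (nat_lit 158) (nat_lit 0) (nat_lit 9) (nat_lit 10) L66192 (by decide +kernel)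
theorem L66194 : W_22 (nat_lit 2) (nat_lit 0x2000f00048001800080000000000000000000000000000000) (nat_lit 0x0) (nat_lit 0x40004000000010000000000000000000000000000000000000000) := D_22 (nat_lit 160) (nat_lit 194) (nat_lit 210) (nat_lit 6) (nat_lit 7) (nat_lit 11) (nat_lit 6) (nat_lit 6) (nat_lit 12) (by decide +kernel)
theorem L66195 : W_22 (nat_lit 3) (nat_lit 0xf00048001800080000000000000000000000000000000) (nat_lit 0x0) (nat_lit 0x40007000000010000000000000000000000000000000000000000) := T_22 (nat_lit 193) (nat_lit 192) (nat_lit 1) (nat_lit 9) (nat_lit 10) L66194 (by decide +kernel)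
theorem L66196 : W_22 (nat_lit 4) (nat_lit 0xf00040001800080000000000000000000000000000000) (nat_lit 0x0) (nat_lit 0x4000700000001c000000000000000000000000000000000000000) := T_22 (nat_lit 159) (nat_lit 158) (nat_lit 0) (nat_lit 9) (nat_lit 10) L66195 (by decide +kernel)
theorem L66197 : W_22 (nat_lit 5) (nat_lit 0xf00000001800080000000000000000000000000000000) (nat_lit 0x0) (nat_lit 0x400070000000dc000000000000000000000000000000000000000) := T_22 (nat_lit 162) (nat_lit 163) (nat_lit 2) (nat_lit 6) (nat_lit 10) L66196 (by decide +kernel)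
theorem L66198 : W_22 (nat_lit 2) (nat_lit 0x14000f80048001c00080000000000000000000000000000000) (nat_lit 0x0) (nat_lit 0x1000080002000000000000000000000000000000000000000000000000) := D_22 (nat_lit 211) (nat_lit 228) (nat_lit 193) (nat_lit 4) (nat_lit 7) (nat_lit 13) (nat_lit 7) (nat_lit 6) (nat_lit 8) (by decide +kernel)
theorem L66199 : W_22 (nat_lit 3) (nat_lit 0x14000f80048001800080000000000000000000000000000000) (nat_lit 0x0) (nat_lit 0x1000080002000000000000400020000000000000000000000000000000) := T_22 (nat_lit 142) (nat_lit 125) (nat_lit 7) (nat_lit 6) (nat_lit 7) L66198 (by decide +kernel)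
theorem L66200 : W_22 (nat_lit 4) (nat_lit 0x14000f00048001800080000000000000000000000000000000) (nat_lit 0x0) (nat_lit 0x100008000a000080000000400020000000000000000000000000000000) := T_22 (nat_lit 175) (nat_lit 195) (nat_lit 3) (nat_lit 5) (nat_lit 10) L66199 (by decide +kernel)
theorem L66201 : W_22 (nat_lit 5) (nat_lit 0x4000f00048001800080000000000000000000000000000000) (nat_lit 0x0) (nat_lit 0x100008003a000080000000400020000000000000000000000000000000) := T_22 (nat_lit 196) (nat_lit 197) (nat_lit 3) (nat_lit 6) (nat_lit 10) L66200 (by decide +kernel)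
theorem L66202 : W_22 (nat_lit 6) (nat_lit 0x4000f00040001800080000000000000000000000000000000) (nat_lit 0x0) (nat_lit 0x100008003a00008000c000400020000000000000000000000000000000) := T_22 (nat_lit 159) (nat_lit 158) (nat_lit 0) (nat_lit 9) (nat_lit 10) L66201 (by decide +kernel)
theorem L66203 : W_22 (nat_lit 7) (nat_lit 0x4000f00000001800080000000000000000000000000000000) (nat_lit 0x0) (nat_lit 0x100008003a0000800cc000400020000000000000000000000000000000) := T_22 (nat_lit 162) (nat_lit 163) (nat_lit 2) (nat_lit 6) (nat_lit 10) L66202 (by decide +kernel)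
theorem L66204 : W_22 (nat_lit 8) (nat_lit 0xf00000001800080000000000000000000000000000000) (nat_lit 0x0) (nat_lit 0x100008003e0000800dc000400020000000000000000000000000000000) := T_22 (nat_lit 194) (nat_lit 160) (nat_lit 6) (nat_lit 7) (nat_lit 11) L66203 (by decide +kernel)
theorem L66205 : W_22 (nat_lit 13) (nat_lit 0x700000001800080000000000000000000000000000000) (nat_lit 0x0) (nat_lit 0x14000e003f8008800dc00078013c000000000000000000000000000000) := Q_22 (nat_lit 179) (C_22 L66182 (C_22 L65667 (C_22 L66193 (C_22 L66197 (C_22 L66204 N_22))))) (by decide +kernel)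
theorem L66206 : W_22 (nat_lit 2) (nat_lit 0x200070007c0002001c00088000000000000000000000000000000) (nat_lit 0x0) (nat_lit 0x200110000000000000000000000000000000) := D_22 (nat_lit 141) (nat_lit 128) (nat_lit 124) (nat_lit 2) (nat_lit 5) (nat_lit 8) (nat_lit 0) (nat_lit 8) (nat_lit 8) (by decide +kernel)
theorem L66207 : W_22 (nat_lit 3) (nat_lit 0x200070007c0002001800088000000000000000000000000000000) (nat_lit 0x0) (nat_lit 0x8000600110000000000000000000000000000000) := T_22 (nat_lit 142) (nat_lit 159) (nat_lit 5) (nat_lit 6) (nat_lit 8) L66206 (by decide +kernel)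
theorem L66208 : W_22 (nat_lit 4) (nat_lit 0x200070007c0002001800080000000000000000000000000000000) (nat_lit 0x0) (nat_lit 0x8000700118000000000000000000000000000000) := T_22 (nat_lit 123) (nat_lit 140) (nat_lit 7) (nat_lit 4) (nat_lit 7) L66207 (by decide +kernel)
theorem L66209 : W_22 (nat_lit 5) (nat_lit 0x70007c0002001800080000000000000000000000000000000) (nat_lit 0x0) (nat_lit 0x400020000000000008000700118000000000000000000000000000000) := T_22 (nat_lit 209) (nat_lit 226) (nat_lit 4) (nat_lit 5) (nat_lit 13) L66208 (by decide +kernel)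
theorem L66210 : W_22 (nat_lit 6) (nat_lit 0x70007c0000001800080000000000000000000000000000000) (nat_lit 0x0) (nat_lit 0x40002000000000000b000700118000000000000000000000000000000) := T_22 (nat_lit 157) (nat_lit 156) (nat_lit 0) (nat_lit 7) (nat_lit 10) L66209 (by decide +kernel)
theorem L66211 : W_22 (nat_lit 7) (nat_lit 0x7000780000001800080000000000000000000000000000000) (nat_lit 0x0) (nat_lit 0x40002000000006000b000700118000000000000000000000000000000) := T_22 (nat_lit 174) (nat_lit 173) (nat_lit 3) (nat_lit 3) (nat_lit 10) L66210 (by decide +kernel)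
theorem L66212 : W_22 (nat_lit 8) (nat_lit 0x5000780000001800080000000000000000000000000000000) (nat_lit 0x0) (nat_lit 0x40002000200086000b000700118000000000000000000000000000000) := T_22 (nat_lit 193) (nat_lit 179) (nat_lit 1) (nat_lit 9) (nat_lit 10) L66211 (by decide +kernel)
theorem L66213 : W_22 (nat_lit 9) (nat_lit 0x4000780000001800080000000000000000000000000000000) (nat_lit 0x0) (nat_lit 0x40002000380086000b000700118000000000000000000000000000000) := T_22 (nat_lit 192) (nat_lit 191) (nat_lit 1) (nat_lit 8) (nat_lit 10) L66212 (by decide +kernel)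
theorem L66214 : W_22 (nat_lit 10) (nat_lit 0x780000001800080000000000000000000000000000000) (nat_lit 0x0) (nat_lit 0x40002000780086001b000700118000000000000000000000000000000) := T_22 (nat_lit 194) (nat_lit 160) (nat_lit 6) (nat_lit 7) (nat_lit 11) L66213 (by decide +kernel)
theorem L66215 : W_22 (nat_lit 2) (nat_lit 0x8000780000001800080000000000000000000000000000000) (nat_lit 0x0) (nat_lit 0x4000040010000000000000000000000000000000000000000) := D_22 (nat_lit 194) (nat_lit 174) (nat_lit 160) (nat_lit 3) (nat_lit 4) (nat_lit 10) (nat_lit 6) (nat_lit 7) (nat_lit 11) (by decide +kernel)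
theorem L66216 : W_22 (nat_lit 3) (nat_lit 0x780000001800080000000000000000000000000000000) (nat_lit 0x0) (nat_lit 0x1c000040010000000000000000000000000000000000000000) := T_22 (nat_lit 195) (nat_lit 196) (nat_lit 3) (nat_lit 5) (nat_lit 10) L66215 (by decide +kernel)
theorem L66217 : W_22 (nat_lit 11) (nat_lit 0x700000001800080000000000000000000000000000000) (nat_lit 0x0) (nat_lit 0x40002003fc008e001b000700118000000000000000000000000000000) := Q_22 (nat_lit 175) (C_22 L13372 (C_22 L65788 (C_22 L66214 (C_22 L66216 N_22)))) (by decide +kernel)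
theorem L66218 : W_22 (nat_lit 14) (nat_lit 0x600000001800080000000000000000000000000000000) (nat_lit 0x0) (nat_lit 0xe8007c003f003fe009f00dfc0078013c001000080000000000000000000000) := Q_22 (nat_lit 176) (C_22 L65664 (C_22 L66117 (C_22 L65608 (C_22 L66122 (C_22 L66152 (C_22 L66153 (C_22 L66171 (C_22 L66176 (C_22 L66205 (C_22 L66217 N_22)))))))))) (by decide +kernel)
theorem L66219 : W_22 (nat_lit 2) (nat_lit 0x7c0024001800080000000000000000000000000000000) (nat_lit 0x0) (nat_lit 0x1c00000000000000000000000000000000000000000000000) := D_22 (nat_lit 191) (nat_lit 190) (nat_lit 192) (nat_lit 1) (nat_lit 7) (nat_lit 10) (nat_lit 1) (nat_lit 8) (nat_lit 10) (by decide +kernel)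
theorem L66220 : W_22 (nat_lit 3) (nat_lit 0x780024001800080000000000000000000000000000000) (nat_lit 0x0) (nat_lit 0x1c00040010000000000000000000000000000000000000000) := T_22 (nat_lit 174) (nat_lit 160) (nat_lit 2) (nat_lit 4) (nat_lit 10) L66219 (by decide +kernel)
theorem L66221 : W_22 (nat_lit 4) (nat_lit 0x780004001800080000000000000000000000000000000) (nat_lit 0x0) (nat_lit 0x1c00040070000000000000000000000000000000000000000) := T_22 (nat_lit 161) (nat_lit 162) (nat_lit 2) (nat_lit 5) (nat_lit 10) L66220 (by decide +kernel)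
theorem L66222 : W_22 (nat_lit 5) (nat_lit 0x780000001800080000000000000000000000000000000) (nat_lit 0x0) (nat_lit 0x1c00040076000000000000000000000000000000000000000) := T_22 (nat_lit 158) (nat_lit 157) (nat_lit 0) (nat_lit 8) (nat_lit 10) L66221 (by decide +kernel)
theorem L66223 : W_22 (nat_lit 2) (nat_lit 0x7c0020001800080000000000000000000000000000000) (nat_lit 0x0) (nat_lit 0x7000000000000000000000000000000000000000) := D_22 (nat_lit 157) (nat_lit 158) (nat_lit 156) (nat_lit 0) (nat_lit 8) (nat_lit 10) (nat_lit 0) (nat_lit 7) (nat_lit 10) (by decide +kernel)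
theorem L66224 : W_22 (nat_lit 3) (nat_lit 0x780020001800080000000000000000000000000000000) (nat_lit 0x0) (nat_lit 0x40017000000000000000000000000000000000000000) := T_22 (nat_lit 174) (nat_lit 160) (nat_lit 2) (nat_lit 4) (nat_lit 10) L66223 (by decide +kernel)
theorem L66225 : W_22 (nat_lit 4) (nat_lit 0x780000001800080000000000000000000000000000000) (nat_lit 0x0) (nat_lit 0x40077000000000000000000000000000000000000000) := T_22 (nat_lit 161) (nat_lit 162) (nat_lit 2) (nat_lit 5) (nat_lit 10) L66224 (by decide +kernel)
theorem L66226 : W_22 (nat_lit 4) (nat_lit 0x780000001800080000000000000000000000000000000) (nat_lit 0x0) (nat_lit 0x13800800060000000000000000000000000000000000000000) := T_22 (nat_lit 161) (nat_lit 162) (nat_lit 2) (nat_lit 5) (nat_lit 10) L65671 (by decide +kernel)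
theorem L66227 : W_22 (nat_lit 6) (nat_lit 0x700000001800080000000000000000000000000000000) (nat_lit 0x0) (nat_lit 0x800060013c008c007f000600020000000000000000000000000000000) := Q_22 (nat_lit 175) (C_22 L65785 (C_22 L65649 (C_22 L66222 (C_22 L66225 (C_22 L66226 N_22))))) (by decide +kernel)
theorem L66228 : W_22 (nat_lit 10) (nat_lit 0xf00000001800080000000000000000000000000000000) (nat_lit 0x0) (nat_lit 0x74003e003b0000000dc000000000000000000000000000000000000000) := T_22 (nat_lit 159) (nat_lit 158) (nat_lit 0) (nat_lit 9) (nat_lit 10) L66144 (by decide +kernel)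
theorem L66233 : W_22 (nat_lit 6) (nat_lit 0xf00048001800080000000000000000000000000000000) (nat_lit 0x0) (nat_lit 0x28001c000e0003000000010000000000000000000000000000000000000000) := T_22 (nat_lit 193) (nat_lit 192) (nat_lit 1) (nat_lit 9) (nat_lit 10) L66232 (by decide +kernel)
theorem L66234 : W_22 (nat_lit 7) (nat_lit 0xf00008001800080000000000000000000000000000000) (nat_lit 0x0) (nat_lit 0x28001c000e00030000000d0000000000000000000000000000000000000000) := T_22 (nat_lit 162) (nat_lit 163) (nat_lit 2) (nat_lit 6) (nat_lit 10) L66233 (by decide +kernel)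
theorem L66235 : W_22 (nat_lit 8) (nat_lit 0xf00000001800080000000000000000000000000000000) (nat_lit 0x0) (nat_lit 0x28001c000e00030000000dc000000000000000000000000000000000000000) := T_22 (nat_lit 159) (nat_lit 158) (nat_lit 0) (nat_lit 9) (nat_lit 10) L66234 (by decide +kernel)
theorem L66236 : W_22 (nat_lit 11) (nat_lit 0x700000001800080000000000000000000000000000000) (nat_lit 0x0) (nat_lit 0x28007c003e003b0008000fc000000000000000000000000000000000000000) := Q_22 (nat_lit 179) (C_22 L65613 (C_22 L66228 (C_22 L66235 N_22))) (by decide +kernel)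
theorem L66237 : W_22 (nat_lit 2) (nat_lit 0x7c0020001800080000000000000000000000000000000) (nat_lit 0x0) (nat_lit 0x1c00000000000000000000000000000000000000000000000) := D_22 (nat_lit 191) (nat_lit 190) (nat_lit 192) (nat_lit 1) (nat_lit 7) (nat_lit 10) (nat_lit 1) (nat_lit 8) (nat_lit 10) (by decide +kernel)
theorem L66238 : W_22 (nat_lit 3) (nat_lit 0x780020001800080000000000000000000000000000000) (nat_lit 0x0) (nat_lit 0x1c00040010000000000000000000000000000000000000000) := T_22 (nat_lit 174) (nat_lit 160) (nat_lit 2) (nat_lit 4) (nat_lit 10) L66237 (by decide +kernel)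
theorem L66239 : W_22 (nat_lit 4) (nat_lit 0x780000001800080000000000000000000000000000000) (nat_lit 0x0) (nat_lit 0x1c00040070000000000000000000000000000000000000000) := T_22 (nat_lit 161) (nat_lit 162) (nat_lit 2) (nat_lit 5) (nat_lit 10) L66238 (by decide +kernel)
theorem L66240 : W_22 (nat_lit 6) (nat_lit 0x700000001800080000000000000000000000000000000) (nat_lit 0x0) (nat_lit 0x20001c008c007f000400020000000000000000000000000000000) := Q_22 (nat_lit 175) (C_22 L65785 (C_22 L66225 (C_22 L66239 N_22))) (by decide +kernel)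
theorem L66241 : W_22 (nat_lit 5) (nat_lit 0x8000780024001800080000000000000000000000000000000) (nat_lit 0x0) (nat_lit 0x40003800000000000600110008000000000000000000000000000) := T_22 (nat_lit 192) (nat_lit 191) (nat_lit 1) (nat_lit 8) (nat_lit 10) L65698 (by decide +kernel)
theorem L66242 : W_22 (nat_lit 6) (nat_lit 0x8000780004001800080000000000000000000000000000000) (nat_lit 0x0) (nat_lit 0x40003800000060000600110008000000000000000000000000000) := T_22 (nat_lit 161) (nat_lit 162) (nat_lit 2) (nat_lit 5) (nat_lit 10) L66241 (by decide +kernel)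
theorem L66243 : W_22 (nat_lit 7) (nat_lit 0x780004001800080000000000000000000000000000000) (nat_lit 0x0) (nat_lit 0x4001b800000060000600110008000000000000000000000000000) := T_22 (nat_lit 195) (nat_lit 196) (nat_lit 3) (nat_lit 5) (nat_lit 10) L66242 (by decide +kernel)
theorem L66244 : W_22 (nat_lit 8) (nat_lit 0x780000001800080000000000000000000000000000000) (nat_lit 0x0) (nat_lit 0x4001b800000066000600110008000000000000000000000000000) := T_22 (nat_lit 158) (nat_lit 157) (nat_lit 0) (nat_lit 8) (nat_lit 10) L66243 (by decide +kernel)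
theorem L66245 : W_22 (nat_lit 9) (nat_lit 0x700000001800080000000000000000000000000000000) (nat_lit 0x0) (nat_lit 0x4001bc000c0077000600110008000000000000000000000000000) := Q_22 (nat_lit 175) (C_22 L66244 (C_22 L66239 (C_22 L66121 (C_22 L66225 N_22)))) (by decide +kernel)
theorem L66246 : W_22 (nat_lit 12) (nat_lit 0x600000001800080000000000000000000000000000000) (nat_lit 0x0) (nat_lit 0x28007c003e003bc009c00ff000600130008000000000000000000000000000) := Q_22 (nat_lit 176) (C_22 L66122 (C_22 L65668 (C_22 L66227 (C_22 L66236 (C_22 L65766 (C_22 L66240 (C_22 L66245 N_22))))))) (by decide +kernel)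
theorem L66247 : W_22 (nat_lit 15) (nat_lit 0x200000001800080000000000000000000000000000000) (nat_lit 0x0) (nat_lit 0xe8007c003f003fe00df00ffc0078013c009000080000000000000000000000) := Q_22 (nat_lit 178) (C_22 L65962 (C_22 L66095 (C_22 L66218 (C_22 L66246 N_22)))) (by decide +kernel)
theorem L66248 : W_22 (nat_lit 3) (nat_lit 0x7000100018000c0000000000000000000000000000000) (nat_lit 0x0) (nat_lit 0x20000000020003000080000000000000000000000) := T_22 (nat_lit 109) (nat_lit 161) (nat_lit 7) (nat_lit 7) (nat_lit 6) L5843 (by decide +kernel)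
theorem L66249 : W_22 (nat_lit 4) (nat_lit 0x3000100018000c0000000000000000000000000000000) (nat_lit 0x0) (nat_lit 0x8000400020000000020003000080000000000000000000000) := T_22 (nat_lit 178) (nat_lit 195) (nat_lit 7) (nat_lit 7) (nat_lit 7) L66248 (by decide +kernel)
theorem L66250 : W_22 (nat_lit 5) (nat_lit 0x2000100018000c0000000000000000000000000000000) (nat_lit 0x0) (nat_lit 0xa000500020000000020003000080000000000000000000000) := T_22 (nat_lit 176) (nat_lit 193) (nat_lit 5) (nat_lit 7) (nat_lit 7) L66249 (by decide +kernel)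
theorem L66251 : W_22 (nat_lit 6) (nat_lit 0x2000000018000c0000000000000000000000000000000) (nat_lit 0x0) (nat_lit 0xe000500030000000020003000080000000000000000000000) := T_22 (nat_lit 160) (nat_lit 194) (nat_lit 6) (nat_lit 7) (nat_lit 11) L66250 (by decide +kernel)
theorem L66252 : W_22 (nat_lit 2) (nat_lit 0x200020001c001e0009000100000000000000000000000) (nat_lit 0x0) (nat_lit 0x8000c000000000000000000) := D_22 (nat_lit 91) (nat_lit 75) (nat_lit 74) (nat_lit 6) (nat_lit 6) (nat_lit 8) (nat_lit 7) (nat_lit 6) (nat_lit 4) (by decide +kernel)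
theorem L66253 : W_22 (nat_lit 3) (nat_lit 0x200020001c001e0009000000000000000000000000000) (nat_lit 0x0) (nat_lit 0x200018000c000000000000000000) := T_22 (nat_lit 92) (nat_lit 109) (nat_lit 7) (nat_lit 7) (nat_lit 5) L66252 (by decide +kernel)
theorem L66254 : W_22 (nat_lit 4) (nat_lit 0x200020001c001e0008000000000000000000000000000) (nat_lit 0x0) (nat_lit 0x380018000c000000000000000000) := T_22 (nat_lit 108) (nat_lit 107) (nat_lit 0) (nat_lit 9) (nat_lit 7) L66253 (by decide +kernel)
theorem L66255 : W_22 (nat_lit 5) (nat_lit 0x200000001c001e0008000000000000000000000000000) (nat_lit 0x0) (nat_lit 0x40002000000000000380018000c000000000000000000) := T_22 (nat_lit 161) (nat_lit 178) (nat_lit 6) (nat_lit 8) (nat_lit 10) L66254 (by decide +kernel)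
theorem L66256 : W_22 (nat_lit 6) (nat_lit 0x2000000018001e0008000000000000000000000000000) (nat_lit 0x0) (nat_lit 0x40002000060000000380018000c000000000000000000) := T_22 (nat_lit 142) (nat_lit 141) (nat_lit 2) (nat_lit 5) (nat_lit 8) L66255 (by decide +kernel)
theorem L66257 : W_22 (nat_lit 7) (nat_lit 0x2000000018001e0000000000000000000000000000000) (nat_lit 0x0) (nat_lit 0x40002000060000001b80018000c000000000000000000) := T_22 (nat_lit 111) (nat_lit 112) (nat_lit 2) (nat_lit 6) (nat_lit 7) L66256 (by decide +kernel)
theorem L66258 : W_22 (nat_lit 8) (nat_lit 0x2000000018001c0000000000000000000000000000000) (nat_lit 0x0) (nat_lit 0x40002000070003801bc0018000c000000000000000000) := Q_22 (nat_lit 125) (C_22 L65920 (C_22 L65914 (C_22 L65917 (C_22 L66257 N_22)))) (by decide +kernel)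
theorem L66259 : W_22 (nat_lit 9) (nat_lit 0x2000000018000c0000000000000000000000000000000) (nat_lit 0x0) (nat_lit 0x4000a000c70073803bc0058002c000000000000000000) := Q_22 (nat_lit 128) (C_22 L65938 (C_22 L66258 (C_22 L65931 N_22))) (by decide +kernel)
theorem L66260 : W_22 (nat_lit 2) (nat_lit 0x7000100018000c0002000100000000000000000000000) (nat_lit 0x0) (nat_lit 0x1000080004000000000000000000) := D_22 (nat_lit 91) (nat_lit 108) (nat_lit 74) (nat_lit 4) (nat_lit 7) (nat_lit 9) (nat_lit 4) (nat_lit 7) (nat_lit 8) (by decide +kernel)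
theorem L66261 : W_22 (nat_lit 3) (nat_lit 0x7000100018000c0002000000000000000000000000000) (nat_lit 0x0) (nat_lit 0x100018000c000000000000000000) := T_22 (nat_lit 92) (nat_lit 75) (nat_lit 7) (nat_lit 7) (nat_lit 4) L66260 (by decide +kernel)
theorem L66262 : W_22 (nat_lit 4) (nat_lit 0x7000100018000c0000000000000000000000000000000) (nat_lit 0x0) (nat_lit 0x2000000000000300018000c000000000000000000) := T_22 (nat_lit 109) (nat_lit 161) (nat_lit 7) (nat_lit 7) (nat_lit 6) L66261 (by decide +kernel)
theorem L66263 : W_22 (nat_lit 5) (nat_lit 0x3000100018000c0000000000000000000000000000000) (nat_lit 0x0) (nat_lit 0x800040002000000000000300018000c000000000000000000) := T_22 (nat_lit 178) (nat_lit 195) (nat_lit 7) (nat_lit 7) (nat_lit 7) L66262 (by decide +kernel)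
theorem L66264 : W_22 (nat_lit 6) (nat_lit 0x2000100018000c0000000000000000000000000000000) (nat_lit 0x0) (nat_lit 0xa00050002000000000000300018000c000000000000000000) := T_22 (nat_lit 176) (nat_lit 193) (nat_lit 5) (nat_lit 7) (nat_lit 7) L66263 (by decide +kernel)
theorem L66265 : W_22 (nat_lit 7) (nat_lit 0x2000000018000c0000000000000000000000000000000) (nat_lit 0x0) (nat_lit 0xe00050003000000000000300018000c000000000000000000) := T_22 (nat_lit 160) (nat_lit 194) (nat_lit 6) (nat_lit 7) (nat_lit 11) L66264 (by decide +kernel)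
theorem L66266 : W_22 (nat_lit 3) (nat_lit 0x7000100018000c0000000000000000000000000000000) (nat_lit 0x0) (nat_lit 0xc0060000000000002000000000000000000000000000) := T_22 (nat_lit 161) (nat_lit 109) (nat_lit 7) (nat_lit 7) (nat_lit 6) L1630 (by decide +kernel)
theorem L66267 : W_22 (nat_lit 4) (nat_lit 0x3000100018000c0000000000000000000000000000000) (nat_lit 0x0) (nat_lit 0x80004c0060000000000002000000000000000000000000000) := T_22 (nat_lit 178) (nat_lit 195) (nat_lit 7) (nat_lit 7) (nat_lit 7) L66266 (by decide +kernel)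
theorem L66268 : W_22 (nat_lit 5) (nat_lit 0x2000100018000c0000000000000000000000000000000) (nat_lit 0x0) (nat_lit 0xa0005c0060000000000002000000000000000000000000000) := T_22 (nat_lit 176) (nat_lit 193) (nat_lit 5) (nat_lit 7) (nat_lit 7) L66267 (by decide +kernel)
theorem L66269 : W_22 (nat_lit 6) (nat_lit 0x2000000018000c0000000000000000000000000000000) (nat_lit 0x0) (nat_lit 0xe0005c0070000000000002000000000000000000000000000) := T_22 (nat_lit 160) (nat_lit 194) (nat_lit 6) (nat_lit 7) (nat_lit 11) L66268 (by decide +kernel)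
theorem L66270 : W_22 (nat_lit 11) (nat_lit 0x200000001800080000000000000000000000000000000) (nat_lit 0x0) (nat_lit 0xe0005c00f000c70077803bc0058002c000000000000000000) := Q_22 (nat_lit 126) (C_22 L65953 (C_22 L66251 (C_22 L66259 (C_22 L66265 (C_22 L66269 (C_22 L65950 N_22)))))) (by decide +kernel)
theorem L66271 : W_22 (nat_lit 2) (nat_lit 0x2000000018000c0002000000000000000000000000000) (nat_lit 0x0) (nat_lit 0x20000000000000000100008000000000000000000) := D_22 (nat_lit 92) (nat_lit 161) (nat_lit 75) (nat_lit 7) (nat_lit 7) (nat_lit 5) (nat_lit 7) (nat_lit 7) (nat_lit 4) (by decide +kernel)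
theorem L66272 : W_22 (nat_lit 2) (nat_lit 0x2000100018000c0002000380000000000000000000000) (nat_lit 0x0) (nat_lit 0x2000100008000000000000000000000000000000000000000) := D_22 (nat_lit 176) (nat_lit 159) (nat_lit 193) (nat_lit 5) (nat_lit 7) (nat_lit 6) (nat_lit 5) (nat_lit 7) (nat_lit 7) (by decide +kernel)
theorem L66273 : W_22 (nat_lit 3) (nat_lit 0x2000000018000c0002000380000000000000000000000) (nat_lit 0x0) (nat_lit 0x2000100018000000000001000000000000000000000000000) := T_22 (nat_lit 160) (nat_lit 108) (nat_lit 4) (nat_lit 7) (nat_lit 9) L66272 (by decide +kernel)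
theorem L66274 : W_22 (nat_lit 4) (nat_lit 0x2000000018000c0002000300000000000000000000000) (nat_lit 0x0) (nat_lit 0x2000100018000000000001000080004000000000000000000) := T_22 (nat_lit 91) (nat_lit 74) (nat_lit 4) (nat_lit 7) (nat_lit 8) L66273 (by decide +kernel)
theorem L66275 : W_22 (nat_lit 5) (nat_lit 0x2000000018000c0002000100000000000000000000000) (nat_lit 0x0) (nat_lit 0x2000100018000000000001000280014000000000000000000) := T_22 (nat_lit 93) (nat_lit 76) (nat_lit 6) (nat_lit 7) (nat_lit 8) L66274 (by decide +kernel)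
theorem L66276 : W_22 (nat_lit 6) (nat_lit 0x2000000018000c0002000000000000000000000000000) (nat_lit 0x0) (nat_lit 0x200010001800000000000100038001c000000000000000000) := T_22 (nat_lit 92) (nat_lit 75) (nat_lit 7) (nat_lit 7) (nat_lit 4) L66275 (by decide +kernel)
theorem L66277 : W_22 (nat_lit 2) (nat_lit 0x6000100018000c0002000000000000000000000000000) (nat_lit 0x0) (nat_lit 0x2000100008000000000000000000000000000000000000000) := D_22 (nat_lit 176) (nat_lit 193) (nat_lit 159) (nat_lit 5) (nat_lit 7) (nat_lit 7) (nat_lit 5) (nat_lit 7) (nat_lit 6) (by decide +kernel)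
theorem L66278 : W_22 (nat_lit 3) (nat_lit 0x6000000018000c0002000000000000000000000000000) (nat_lit 0x0) (nat_lit 0xa000100018000000000000000000000000000000000000000) := T_22 (nat_lit 160) (nat_lit 195) (nat_lit 7) (nat_lit 7) (nat_lit 7) L66277 (by decide +kernel)
theorem L66279 : W_22 (nat_lit 4) (nat_lit 0x2000000018000c0002000000000000000000000000000) (nat_lit 0x0) (nat_lit 0xa000500038000000000000000000000000000000000000000) := T_22 (nat_lit 178) (nat_lit 161) (nat_lit 4) (nat_lit 8) (nat_lit 10) L66278 (by decide +kernel)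
theorem L66280 : W_22 (nat_lit 7) (nat_lit 0x2000000018000c0000000000000000000000000000000) (nat_lit 0x0) (nat_lit 0xa00050003800000000000300038001c000000000000000000) := Q_22 (nat_lit 109) (C_22 L66271 (C_22 L66276 (C_22 L66279 N_22))) (by decide +kernel)
theorem L66281 : W_22 (nat_lit 2) (nat_lit 0x200000001c000c0000000000000000000000000000000) (nat_lit 0x0) (nat_lit 0x200300000000000000000000000000000000) := D_22 (nat_lit 128) (nat_lit 129) (nat_lit 141) (nat_lit 1) (nat_lit 10) (nat_lit 7) (nat_lit 2) (nat_lit 5) (nat_lit 8) (by decide +kernel)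
theorem L66282 : W_22 (nat_lit 2) (nat_lit 0x200024001e000c0000000000000000000000000000000) (nat_lit 0x0) (nat_lit 0x8000400000000000000002000000000000000000000000000) := D_22 (nat_lit 178) (nat_lit 109) (nat_lit 195) (nat_lit 4) (nat_lit 8) (nat_lit 10) (nat_lit 4) (nat_lit 8) (nat_lit 11) (by decide +kernel)
theorem L66283 : W_22 (nat_lit 3) (nat_lit 0x200004001e000c0000000000000000000000000000000) (nat_lit 0x0) (nat_lit 0x8000400060000000000002000000000000000000000000000) := T_22 (nat_lit 161) (nat_lit 162) (nat_lit 3) (nat_lit 5) (nat_lit 8) L66282 (by decide +kernel)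
theorem L66284 : W_22 (nat_lit 4) (nat_lit 0x200000001e000c0000000000000000000000000000000) (nat_lit 0x0) (nat_lit 0x8000400066000000000002000000000000000000000000000) := T_22 (nat_lit 158) (nat_lit 157) (nat_lit 1) (nat_lit 8) (nat_lit 8) L66283 (by decide +kernel)
theorem L66285 : W_22 (nat_lit 5) (nat_lit 0x200000001c000c0000000000000000000000000000000) (nat_lit 0x0) (nat_lit 0x8000400066000300000002000000000000000000000000000) := T_22 (nat_lit 141) (nat_lit 140) (nat_lit 2) (nat_lit 4) (nat_lit 8) L66284 (by decide +kernel)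
theorem L66286 : W_22 (nat_lit 2) (nat_lit 0x200000001c000c0002000000000000000000000000000) (nat_lit 0x0) (nat_lit 0x400020000000000000000100000000000000000000000) := D_22 (nat_lit 161) (nat_lit 178) (nat_lit 92) (nat_lit 4) (nat_lit 8) (nat_lit 10) (nat_lit 7) (nat_lit 7) (nat_lit 5) (by decide +kernel)
theorem L66287 : W_22 (nat_lit 2) (nat_lit 0x600010001c002c0002000000000000000000000000000) (nat_lit 0x0) (nat_lit 0x2000100008000000000000000000000000000000000000000) := D_22 (nat_lit 176) (nat_lit 193) (nat_lit 159) (nat_lit 5) (nat_lit 7) (nat_lit 7) (nat_lit 5) (nat_lit 7) (nat_lit 6) (by decide +kernel)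
theorem L66288 : W_22 (nat_lit 3) (nat_lit 0x600000001c002c0002000000000000000000000000000) (nat_lit 0x0) (nat_lit 0xa000100018000000000000000000000000000000000000000) := T_22 (nat_lit 160) (nat_lit 195) (nat_lit 7) (nat_lit 7) (nat_lit 7) L66287 (by decide +kernel)
theorem L66289 : W_22 (nat_lit 4) (nat_lit 0x200000001c002c0002000000000000000000000000000) (nat_lit 0x0) (nat_lit 0xa000500038000000000000000000000000000000000000000) := T_22 (nat_lit 178) (nat_lit 161) (nat_lit 4) (nat_lit 8) (nat_lit 10) L66288 (by decide +kernel)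
theorem L66290 : W_22 (nat_lit 5) (nat_lit 0x200000001c000c0002000000000000000000000000000) (nat_lit 0x0) (nat_lit 0xa000500038000000300000000000000000000000000000000) := T_22 (nat_lit 129) (nat_lit 128) (nat_lit 1) (nat_lit 10) (nat_lit 7) L66289 (by decide +kernel)
theorem L66291 : W_22 (nat_lit 6) (nat_lit 0x200000001c000c0000000000000000000000000000000) (nat_lit 0x0) (nat_lit 0xa000500038000000300002000100008000000000000000000) := Q_22 (nat_lit 109) (C_22 L65911 (C_22 L66286 (C_22 L66290 N_22))) (by decide +kernel)
theorem L66292 : W_22 (nat_lit 7) (nat_lit 0x2000000018000c0000000000000000000000000000000) (nat_lit 0x0) (nat_lit 0xa00050007e000700300002000100008000000000000000000) := Q_22 (nat_lit 142) (C_22 L66281 (C_22 L66285 (C_22 L66291 N_22))) (by decide +kernel)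
theorem L66293 : W_22 (nat_lit 2) (nat_lit 0xe00024001e000d0000000000000000000000000000000) (nat_lit 0x0) (nat_lit 0x100018000000000000000000000000000000000000000) := D_22 (nat_lit 159) (nat_lit 160) (nat_lit 176) (nat_lit 3) (nat_lit 5) (nat_lit 9) (nat_lit 0) (nat_lit 9) (nat_lit 10) (by decide +kernel)
theorem L66294 : W_22 (nat_lit 3) (nat_lit 0x600024001e000d0000000000000000000000000000000) (nat_lit 0x0) (nat_lit 0x10000900018000000000000000000000000000000000000000) := T_22 (nat_lit 179) (nat_lit 196) (nat_lit 7) (nat_lit 8) (nat_lit 7) L66293 (by decide +kernel)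
theorem L66295 : W_22 (nat_lit 4) (nat_lit 0x200024001e000d0000000000000000000000000000000) (nat_lit 0x0) (nat_lit 0x18000d00018000000000000000000000000000000000000000) := T_22 (nat_lit 178) (nat_lit 195) (nat_lit 4) (nat_lit 8) (nat_lit 11) L66294 (by decide +kernel)
theorem L66296 : W_22 (nat_lit 5) (nat_lit 0x200024001e000c0000000000000000000000000000000) (nat_lit 0x0) (nat_lit 0x18000d00018000000018000000000000000000000000000000) := T_22 (nat_lit 124) (nat_lit 123) (nat_lit 0) (nat_lit 8) (nat_lit 8) L66295 (by decide +kernel)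
theorem L66297 : W_22 (nat_lit 6) (nat_lit 0x200004001e000c0000000000000000000000000000000) (nat_lit 0x0) (nat_lit 0x18000d00078000000018000000000000000000000000000000) := T_22 (nat_lit 161) (nat_lit 162) (nat_lit 3) (nat_lit 5) (nat_lit 8) L66296 (by decide +kernel)
theorem L66298 : W_22 (nat_lit 7) (nat_lit 0x200000001e000c0000000000000000000000000000000) (nat_lit 0x0) (nat_lit 0x18000d0007e000000018000000000000000000000000000000) := T_22 (nat_lit 158) (nat_lit 157) (nat_lit 1) (nat_lit 8) (nat_lit 8) L66297 (by decide +kernel)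
theorem L66299 : W_22 (nat_lit 8) (nat_lit 0x200000001c000c0000000000000000000000000000000) (nat_lit 0x0) (nat_lit 0x18000d0007e000300018000000000000000000000000000000) := T_22 (nat_lit 141) (nat_lit 140) (nat_lit 2) (nat_lit 4) (nat_lit 8) L66298 (by decide +kernel)
theorem L66300 : W_22 (nat_lit 2) (nat_lit 0x600010001c001c0008000000000000000000000000000) (nat_lit 0x0) (nat_lit 0x20011000000000000000000000000000) := D_22 (nat_lit 125) (nat_lit 108) (nat_lit 112) (nat_lit 4) (nat_lit 7) (nat_lit 10) (nat_lit 2) (nat_lit 6) (nat_lit 7) (by decide +kernel)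
theorem L66301 : W_22 (nat_lit 3) (nat_lit 0x600010001c001c0000000000000000000000000000000) (nat_lit 0x0) (nat_lit 0x20000000020019000000000000000000000000000) := T_22 (nat_lit 111) (nat_lit 161) (nat_lit 6) (nat_lit 8) (nat_lit 10) L66300 (by decide +kernel)
theorem L66302 : W_22 (nat_lit 4) (nat_lit 0x200010001c001c0000000000000000000000000000000) (nat_lit 0x0) (nat_lit 0x8000400020000000020019000000000000000000000000000) := T_22 (nat_lit 178) (nat_lit 195) (nat_lit 7) (nat_lit 7) (nat_lit 7) L66301 (by decide +kernel)
theorem L66303 : W_22 (nat_lit 5) (nat_lit 0x200010001c000c0000000000000000000000000000000) (nat_lit 0x0) (nat_lit 0x8000400020000000320019000000000000000000000000000) := T_22 (nat_lit 128) (nat_lit 129) (nat_lit 1) (nat_lit 10) (nat_lit 7) L66302 (by decide +kernel)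
theorem L66304 : W_22 (nat_lit 2) (nat_lit 0x700030001c001c0000000000000000000000000000000) (nat_lit 0x0) (nat_lit 0xc0040000000000000000000000000000000000000000) := D_22 (nat_lit 175) (nat_lit 162) (nat_lit 174) (nat_lit 2) (nat_lit 5) (nat_lit 10) (nat_lit 2) (nat_lit 4) (nat_lit 10) (by decide +kernel)
theorem L66305 : W_22 (nat_lit 3) (nat_lit 0x700010001c001c0000000000000000000000000000000) (nat_lit 0x0) (nat_lit 0xc0060000000000008000000000000000000000000000) := T_22 (nat_lit 161) (nat_lit 111) (nat_lit 6) (nat_lit 8) (nat_lit 10) L66304 (by decide +kernel)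
theorem L66306 : W_22 (nat_lit 4) (nat_lit 0x300010001c001c0000000000000000000000000000000) (nat_lit 0x0) (nat_lit 0x80004c0060000000000008000000000000000000000000000) := T_22 (nat_lit 178) (nat_lit 195) (nat_lit 7) (nat_lit 7) (nat_lit 7) L66305 (by decide +kernel)
theorem L66307 : W_22 (nat_lit 5) (nat_lit 0x300010001c000c0000000000000000000000000000000) (nat_lit 0x0) (nat_lit 0x80004c0060000000300008000000000000000000000000000) := T_22 (nat_lit 128) (nat_lit 129) (nat_lit 1) (nat_lit 10) (nat_lit 7) L66306 (by decide +kernel)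
theorem L66308 : W_22 (nat_lit 6) (nat_lit 0x200010001c000c0000000000000000000000000000000) (nat_lit 0x0) (nat_lit 0xa0005c0060000000300008000000000000000000000000000) := T_22 (nat_lit 176) (nat_lit 193) (nat_lit 5) (nat_lit 7) (nat_lit 7) L66307 (by decide +kernel)
theorem L66309 : W_22 (nat_lit 7) (nat_lit 0x200000001c000c0000000000000000000000000000000) (nat_lit 0x0) (nat_lit 0xa0005c0078000000338019c00000000000000000000000000) := Q_22 (nat_lit 160) (C_22 L65864 (C_22 L66303 (C_22 L66308 N_22))) (by decide +kernel)
theorem L66310 : W_22 (nat_lit 9) (nat_lit 0x2000000018000c0000000000000000000000000000000) (nat_lit 0x0) (nat_lit 0x1a000dc007e000700338019c00000000000000000000000000) := Q_22 (nat_lit 142) (C_22 L66281 (C_22 L66299 (C_22 L66309 N_22))) (by decide +kernel)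
theorem L66311 : W_22 (nat_lit 10) (nat_lit 0x200000001800080000000000000000000000000000000) (nat_lit 0x0) (nat_lit 0x1a000dc00fe00c70077803bc0078003c000000000000000000) := Q_22 (nat_lit 126) (C_22 L65953 (C_22 L66259 (C_22 L66280 (C_22 L66292 (C_22 L66310 N_22))))) (by decide +kernel)
theorem L66312 : W_22 (nat_lit 2) (nat_lit 0x3000b00018000c0000000000000000000000000000000) (nat_lit 0x0) (nat_lit 0x8000000000002000100000000000000000000000) := D_22 (nat_lit 109) (nat_lit 159) (nat_lit 92) (nat_lit 5) (nat_lit 7) (nat_lit 6) (nat_lit 7) (nat_lit 7) (nat_lit 5) (by decide +kernel)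
theorem L66313 : W_22 (nat_lit 3) (nat_lit 0x3000b0001800080000000000000000000000000000000) (nat_lit 0x0) (nat_lit 0x2000000008000000040002000100000000000000000000000) := T_22 (nat_lit 126) (nat_lit 193) (nat_lit 5) (nat_lit 7) (nat_lit 7) L66312 (by decide +kernel)
theorem L66314 : W_22 (nat_lit 4) (nat_lit 0x300030001800080000000000000000000000000000000) (nat_lit 0x0) (nat_lit 0x20000000c8000000040002000100000000000000000000000) := T_22 (nat_lit 163) (nat_lit 162) (nat_lit 1) (nat_lit 10) (nat_lit 9) L66313 (by decide +kernel)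
theorem L66315 : W_22 (nat_lit 2) (nat_lit 0x380030001800080000000000000000000000000000000) (nat_lit 0x0) (nat_lit 0xc8000000000000000000000000000000000000000) := D_22 (nat_lit 162) (nat_lit 163) (nat_lit 159) (nat_lit 1) (nat_lit 10) (nat_lit 9) (nat_lit 1) (nat_lit 9) (nat_lit 9) (by decide +kernel)
theorem L66316 : W_22 (nat_lit 3) (nat_lit 0x300030001800080000000000000000000000000000000) (nat_lit 0x0) (nat_lit 0xc00c8000000000000000000000000000000000000000) := T_22 (nat_lit 175) (nat_lit 174) (nat_lit 2) (nat_lit 4) (nat_lit 10) L66315 (by decide +kernel)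
theorem L66317 : W_22 (nat_lit 2) (nat_lit 0x40002000380070001a00080000000000000000000000000000000) (nat_lit 0x0) (nat_lit 0x1000000004000000010000000000000000000000000000000) := D_22 (nat_lit 158) (nat_lit 124) (nat_lit 192) (nat_lit 7) (nat_lit 5) (nat_lit 7) (nat_lit 7) (nat_lit 5) (nat_lit 8) (by decide +kernel)
theorem L66318 : W_22 (nat_lit 3) (nat_lit 0x40002000300070001a00080000000000000000000000000000000) (nat_lit 0x0) (nat_lit 0x10000c0004000000010000000000000000000000000000000) := T_22 (nat_lit 175) (nat_lit 174) (nat_lit 2) (nat_lit 4) (nat_lit 10) L66317 (by decide +kernel)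
theorem L66319 : W_22 (nat_lit 4) (nat_lit 0x2000300070001a00080000000000000000000000000000000) (nat_lit 0x0) (nat_lit 0x8000400010000c0004000000010000000000000000000000000000000) := T_22 (nat_lit 210) (nat_lit 227) (nat_lit 6) (nat_lit 6) (nat_lit 13) L66318 (by decide +kernel)
theorem L66320 : W_22 (nat_lit 5) (nat_lit 0x2000300070001800080000000000000000000000000000000) (nat_lit 0x0) (nat_lit 0x8000400010000c0004000600010000000000000000000000000000000) := T_22 (nat_lit 141) (nat_lit 142) (nat_lit 3) (nat_lit 5) (nat_lit 8) L66319 (by decide +kernel)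
theorem L66321 : W_22 (nat_lit 6) (nat_lit 0x300070001800080000000000000000000000000000000) (nat_lit 0x0) (nat_lit 0x8000400030000c0004000600050000000000000000000000000000000) := T_22 (nat_lit 193) (nat_lit 126) (nat_lit 5) (nat_lit 7) (nat_lit 7) L66320 (by decide +kernel)
theorem L66322 : W_22 (nat_lit 7) (nat_lit 0x300030001800080000000000000000000000000000000) (nat_lit 0x0) (nat_lit 0x8000400030000c00c4000600050000000000000000000000000000000) := T_22 (nat_lit 162) (nat_lit 163) (nat_lit 1) (nat_lit 10) (nat_lit 9) L66321 (by decide +kernel)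
theorem L66323 : W_22 (nat_lit 2) (nat_lit 0x3400300018000c0000000000000000000000000000000) (nat_lit 0x0) (nat_lit 0x8000000000002000100000000000000000000000) := D_22 (nat_lit 109) (nat_lit 159) (nat_lit 92) (nat_lit 5) (nat_lit 7) (nat_lit 6) (nat_lit 7) (nat_lit 7) (nat_lit 5) (by decide +kernel)
theorem L66324 : W_22 (nat_lit 3) (nat_lit 0x340030001800080000000000000000000000000000000) (nat_lit 0x0) (nat_lit 0x2000000008000000040002000100000000000000000000000) := T_22 (nat_lit 126) (nat_lit 193) (nat_lit 5) (nat_lit 7) (nat_lit 7) L66323 (by decide +kernel)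
theorem L66325 : W_22 (nat_lit 4) (nat_lit 0x300030001800080000000000000000000000000000000) (nat_lit 0x0) (nat_lit 0x20000c0008000000040002000100000000000000000000000) := T_22 (nat_lit 174) (nat_lit 175) (nat_lit 2) (nat_lit 4) (nat_lit 10) L66324 (by decide +kernel)
theorem L66326 : W_22 (nat_lit 8) (nat_lit 0x200030001800080000000000000000000000000000000) (nat_lit 0x0) (nat_lit 0x8000400030001c00cc000600050002000100000000000000000000000) := Q_22 (nat_lit 176) (C_22 L66314 (C_22 L66316 (C_22 L66322 (C_22 L66325 N_22)))) (by decide +kernel)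
theorem L66327 : W_22 (nat_lit 9) (nat_lit 0x200020001800080000000000000000000000000000000) (nat_lit 0x0) (nat_lit 0x8000400070001c00dc000600050002000100000000000000000000000) := T_22 (nat_lit 160) (nat_lit 194) (nat_lit 6) (nat_lit 7) (nat_lit 11) L66326 (by decide +kernel)
theorem L66328 : W_22 (nat_lit 13) (nat_lit 0x200020001800080000000000000000000000000000000) (nat_lit 0x0) (nat_lit 0x28001c000e001bc00dc00de00c00074003a000000000000000000000000000) := Q_22 (nat_lit 178) (C_22 L65963 (C_22 L65996 (C_22 L65990 N_22))) (by decide +kernel)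
theorem L66329 : W_22 (nat_lit 14) (nat_lit 0x200000001800080000000000000000000000000000000) (nat_lit 0x0) (nat_lit 0x28001c000e001fc00dc00fe00c60075003a000100000000000000000000000) := Q_22 (nat_lit 161) (C_22 L66327 (C_22 L65999 (C_22 L66000 (C_22 L66328 N_22)))) (by decide +kernel)
theorem L66330 : W_22 (nat_lit 16) (nat_lit 0x200000001000080000000000000000000000000000000) (nat_lit 0x0) (nat_lit 0xe8007e007f803fe00df00ffc0cf8077e03bf007e003e000000000000000000) := Q_22 (nat_lit 143) (C_22 L65849 (C_22 L65910 (C_22 L65961 (C_22 L65998 (C_22 L66072 (C_22 L66094 (C_22 L66247 (C_22 L66270 (C_22 L66311 (C_22 L66329 N_22)))))))))) (by decide +kernel)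
theorem L67446 : W_22 (nat_lit 2) (nat_lit 0x800e8002c001e00090001800000000000000000000000000) (nat_lit 0x0) (nat_lit 0x30001000000000000000000000000000000000000000000000000) := D_22 (nat_lit 192) (nat_lit 209) (nat_lit 208) (nat_lit 6) (nat_lit 5) (nat_lit 12) (nat_lit 5) (nat_lit 5) (nat_lit 8) (by decide +kernel)
theorem L67447 : W_22 (nat_lit 3) (nat_lit 0xe8002c001e00090001800000000000000000000000000) (nat_lit 0x0) (nat_lit 0x30001800040000000000000000000000000000000000000000000) := T_22 (nat_lit 191) (nat_lit 174) (nat_lit 5) (nat_lit 5) (nat_lit 7) L67446 (by decide +kernel)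
theorem L67448 : W_22 (nat_lit 4) (nat_lit 0xe0002c001e00090001800000000000000000000000000) (nat_lit 0x0) (nat_lit 0x300018000c0000000000020000000000000000000000000000000) := T_22 (nat_lit 175) (nat_lit 125) (nat_lit 6) (nat_lit 5) (nat_lit 10) L67447 (by decide +kernel)
theorem L67449 : W_22 (nat_lit 5) (nat_lit 0xe0002c001e00090000800000000000000000000000000) (nat_lit 0x0) (nat_lit 0x300018000c0000000000020001000080000000000000000000000) := T_22 (nat_lit 108) (nat_lit 91) (nat_lit 6) (nat_lit 5) (nat_lit 9) L67448 (by decide +kernel)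
theorem L67450 : W_22 (nat_lit 6) (nat_lit 0xe0002c001e00090000000000000000000000000000000) (nat_lit 0x0) (nat_lit 0x300018000c00000000000200018000c0000000000000000000000) := T_22 (nat_lit 107) (nat_lit 90) (nat_lit 7) (nat_lit 5) (nat_lit 5) L67449 (by decide +kernel)
theorem L67451 : W_22 (nat_lit 7) (nat_lit 0xe00024001e00090000000000000000000000000000000) (nat_lit 0x0) (nat_lit 0x300018001c00080000000200018000c0000000000000000000000) := T_22 (nat_lit 159) (nat_lit 176) (nat_lit 0) (nat_lit 9) (nat_lit 10) L67450 (by decide +kernel)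
theorem L67452 : W_22 (nat_lit 8) (nat_lit 0x600024001e00090000000000000000000000000000000) (nat_lit 0x0) (nat_lit 0x300118009c00080000000200018000c0000000000000000000000) := T_22 (nat_lit 179) (nat_lit 196) (nat_lit 7) (nat_lit 8) (nat_lit 7) L67451 (by decide +kernel)
theorem L67453 : W_22 (nat_lit 9) (nat_lit 0x200024001e00090000000000000000000000000000000) (nat_lit 0x0) (nat_lit 0x30015800dc00080000000200018000c0000000000000000000000) := T_22 (nat_lit 178) (nat_lit 194) (nat_lit 5) (nat_lit 8) (nat_lit 7) L67452 (by decide +kernel)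
theorem L67454 : W_22 (nat_lit 10) (nat_lit 0x200004001e00090000000000000000000000000000000) (nat_lit 0x0) (nat_lit 0x30015800dc00680000000200018000c0000000000000000000000) := T_22 (nat_lit 161) (nat_lit 162) (nat_lit 3) (nat_lit 5) (nat_lit 8) L67453 (by decide +kernel)
theorem L67455 : W_22 (nat_lit 11) (nat_lit 0x200000001e00090000000000000000000000000000000) (nat_lit 0x0) (nat_lit 0x30015800dc006e0000000200018000c0000000000000000000000) := T_22 (nat_lit 158) (nat_lit 157) (nat_lit 1) (nat_lit 8) (nat_lit 8) L67454 (by decide +kernel)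
theorem L67456 : W_22 (nat_lit 12) (nat_lit 0x200000001e00080000000000000000000000000000000) (nat_lit 0x0) (nat_lit 0x30015800dc006e0000000380018000c0000000000000000000000) := T_22 (nat_lit 124) (nat_lit 123) (nat_lit 0) (nat_lit 8) (nat_lit 8) L67455 (by decide +kernel)
theorem L67457 : W_22 (nat_lit 13) (nat_lit 0x200000001600080000000000000000000000000000000) (nat_lit 0x0) (nat_lit 0x30015800dc006f00090007c0018000c0000000000000000000000) := Q_22 (nat_lit 143) (C_22 L59832 (C_22 L67456 (C_22 L31824 N_22))) (by decide +kernel)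
theorem L67458 : W_22 (nat_lit 13) (nat_lit 0x200000001600080000000000000000000000000000000) (nat_lit 0x0) (nat_lit 0x30015800dc006e0008001380018000c0000000000000000000000) := T_22 (nat_lit 143) (nat_lit 128) (nat_lit 2) (nat_lit 5) (nat_lit 8) L67456 (by decide +kernel)
theorem L67459 : W_22 (nat_lit 3) (nat_lit 0x2000000016000f0000000000000000000000000000000) (nat_lit 0x0) (nat_lit 0x8000000000000c00040002000000000000000000) := T_22 (nat_lit 107) (nat_lit 106) (nat_lit 0) (nat_lit 8) (nat_lit 7) L32893 (by decide +kernel)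
theorem L67460 : W_22 (nat_lit 4) (nat_lit 0x2000000016000b0000000000000000000000000000000) (nat_lit 0x0) (nat_lit 0x8000100040000c00040002000000000000000000) := T_22 (nat_lit 126) (nat_lit 140) (nat_lit 1) (nat_lit 8) (nat_lit 7) L67459 (by decide +kernel)
theorem L67461 : W_22 (nat_lit 2) (nat_lit 0x2000000016000f00018005e0000000000000000000000) (nat_lit 0x0) (nat_lit 0x2000018000000000000000000000) := D_22 (nat_lit 88) (nat_lit 109) (nat_lit 87) (nat_lit 3) (nat_lit 3) (nat_lit 5) (nat_lit 3) (nat_lit 2) (nat_lit 5) (by decide +kernel)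
theorem L67462 : W_22 (nat_lit 3) (nat_lit 0x2000000016000f00018005c0000000000000000000000) (nat_lit 0x0) (nat_lit 0x2000038001000000000000000000) := T_22 (nat_lit 89) (nat_lit 72) (nat_lit 4) (nat_lit 5) (nat_lit 8) L67461 (by decide +kernel)
theorem L67463 : W_22 (nat_lit 4) (nat_lit 0x2000000016000f00018001c0000000000000000000000) (nat_lit 0x0) (nat_lit 0x2000638001000000000000000000) := T_22 (nat_lit 94) (nat_lit 93) (nat_lit 1) (nat_lit 9) (nat_lit 5) L67462 (by decide +kernel)
theorem L67464 : W_22 (nat_lit 5) (nat_lit 0x2000000016000f00018000c0000000000000000000000) (nat_lit 0x0) (nat_lit 0x2000738009000000000000000000) := T_22 (nat_lit 92) (nat_lit 75) (nat_lit 6) (nat_lit 6) (nat_lit 8) L67463 (by decide +kernel)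
theorem L67465 : W_22 (nat_lit 6) (nat_lit 0x2000000016000f00008000c0000000000000000000000) (nat_lit 0x0) (nat_lit 0x4000000000003000738009000000000000000000) := T_22 (nat_lit 108) (nat_lit 158) (nat_lit 6) (nat_lit 5) (nat_lit 9) L67464 (by decide +kernel)
theorem L67466 : W_22 (nat_lit 7) (nat_lit 0x2000000016000f0000800040000000000000000000000) (nat_lit 0x0) (nat_lit 0x40000000000030007b800d000000000000000000) := T_22 (nat_lit 91) (nat_lit 74) (nat_lit 6) (nat_lit 5) (nat_lit 8) L67465 (by decide +kernel)
theorem L67467 : W_22 (nat_lit 8) (nat_lit 0x2000000016000f0000800000000000000000000000000) (nat_lit 0x0) (nat_lit 0x40000000000030007f800f000000000000000000) := T_22 (nat_lit 90) (nat_lit 73) (nat_lit 7) (nat_lit 5) (nat_lit 4) L67466 (by decide +kernel)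
theorem L67468 : W_22 (nat_lit 9) (nat_lit 0x2000000016000f0000000000000000000000000000000) (nat_lit 0x0) (nat_lit 0x4000000000003c007f800f000000000000000000) := T_22 (nat_lit 107) (nat_lit 106) (nat_lit 0) (nat_lit 8) (nat_lit 7) L67467 (by decide +kernel)
theorem L67469 : W_22 (nat_lit 10) (nat_lit 0x2000000016000b0000000000000000000000000000000) (nat_lit 0x0) (nat_lit 0x4000100040003c007f800f000000000000000000) := T_22 (nat_lit 126) (nat_lit 140) (nat_lit 1) (nat_lit 8) (nat_lit 7) L67468 (by decide +kernel)
theorem L67470 : W_22 (nat_lit 2) (nat_lit 0x2000000016000b0001000000000000000000000000000) (nat_lit 0x0) (nat_lit 0x4000000000000000080004000000000000000000) := D_22 (nat_lit 91) (nat_lit 74) (nat_lit 158) (nat_lit 5) (nat_lit 6) (nat_lit 4) (nat_lit 5) (nat_lit 6) (nat_lit 5) (by decide +kernel)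
theorem L67471 : W_22 (nat_lit 2) (nat_lit 0x2000000016000b00010001c0000000000000000000000) (nat_lit 0x0) (nat_lit 0x8000000000002800000000000000000000000000) := D_22 (nat_lit 159) (nat_lit 107) (nat_lit 109) (nat_lit 7) (nat_lit 5) (nat_lit 5) (nat_lit 6) (nat_lit 6) (nat_lit 9) (by decide +kernel)
theorem L67472 : W_22 (nat_lit 3) (nat_lit 0x2000000016000b00010000c0000000000000000000000) (nat_lit 0x0) (nat_lit 0x8000000000002800100008000000000000000000) := T_22 (nat_lit 92) (nat_lit 75) (nat_lit 6) (nat_lit 6) (nat_lit 8) L67471 (by decide +kernel)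
theorem L67473 : W_22 (nat_lit 4) (nat_lit 0x2000000016000b0001000080000000000000000000000) (nat_lit 0x0) (nat_lit 0x800000000000280014000a000000000000000000) := T_22 (nat_lit 90) (nat_lit 73) (nat_lit 4) (nat_lit 6) (nat_lit 8) L67472 (by decide +kernel)
theorem L67474 : W_22 (nat_lit 5) (nat_lit 0x2000000016000b0001000000000000000000000000000) (nat_lit 0x0) (nat_lit 0x80000000000028001c000e000000000000000000) := T_22 (nat_lit 91) (nat_lit 74) (nat_lit 5) (nat_lit 6) (nat_lit 4) L67473 (by decide +kernel)
theorem L67475 : W_22 (nat_lit 2) (nat_lit 0x2000000016000b0001800000000000000000000000000) (nat_lit 0x0) (nat_lit 0x100008000000000000000040000000000000000000000) := D_22 (nat_lit 159) (nat_lit 90) (nat_lit 176) (nat_lit 7) (nat_lit 5) (nat_lit 5) (nat_lit 4) (nat_lit 6) (nat_lit 10) (by decide +kernel)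
theorem L67476 : W_22 (nat_lit 2) (nat_lit 0x2000000016000b0001800000000000000000000000000) (nat_lit 0x0) (nat_lit 0x8000000000000000040002000000000000000000) := D_22 (nat_lit 90) (nat_lit 159) (nat_lit 73) (nat_lit 7) (nat_lit 5) (nat_lit 5) (nat_lit 7) (nat_lit 5) (nat_lit 4) (by decide +kernel)
theorem L67477 : W_22 (nat_lit 2) (nat_lit 0x2800010017800b4001800068000000000000000000000) (nat_lit 0x0) (nat_lit 0x8002400000000000000000000000000) := D_22 (nat_lit 123) (nat_lit 109) (nat_lit 106) (nat_lit 2) (nat_lit 3) (nat_lit 7) (nat_lit 5) (nat_lit 4) (nat_lit 5) (by decide +kernel)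
theorem L67478 : W_22 (nat_lit 3) (nat_lit 0x2800000017800b4001800068000000000000000000000) (nat_lit 0x0) (nat_lit 0x1800000008002400000000000000000000000000) := T_22 (nat_lit 156) (nat_lit 155) (nat_lit 1) (nat_lit 6) (nat_lit 8) L67477 (by decide +kernel)
theorem L67479 : W_22 (nat_lit 4) (nat_lit 0x2800000017800b0001800068000000000000000000000) (nat_lit 0x0) (nat_lit 0x180000000e002400000000000000000000000000) := T_22 (nat_lit 122) (nat_lit 121) (nat_lit 0) (nat_lit 6) (nat_lit 8) L67478 (by decide +kernel)
theorem L67480 : W_22 (nat_lit 5) (nat_lit 0x2800000017800b0001800060000000000000000000000) (nat_lit 0x0) (nat_lit 0x180000000e002400018000000000000000000000) := T_22 (nat_lit 87) (nat_lit 88) (nat_lit 3) (nat_lit 2) (nat_lit 5) L67479 (by decide +kernel)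
theorem L67481 : W_22 (nat_lit 6) (nat_lit 0x2800000017800b0001800040000000000000000000000) (nat_lit 0x0) (nat_lit 0x180000000e002400038001000000000000000000) := T_22 (nat_lit 89) (nat_lit 72) (nat_lit 4) (nat_lit 5) (nat_lit 8) L67480 (by decide +kernel)
theorem L67482 : W_22 (nat_lit 7) (nat_lit 0x2800000017000b0001800040000000000000000000000) (nat_lit 0x0) (nat_lit 0x18000c000e002400038001000000000000000000) := T_22 (nat_lit 139) (nat_lit 138) (nat_lit 2) (nat_lit 2) (nat_lit 8) L67481 (by decide +kernel)
theorem L67483 : W_22 (nat_lit 8) (nat_lit 0x2800000016000b0001800040000000000000000000000) (nat_lit 0x0) (nat_lit 0x38001c000e002400038001000000000000000000) := T_22 (nat_lit 140) (nat_lit 157) (nat_lit 5) (nat_lit 5) (nat_lit 5) L67482 (by decide +kernel)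
theorem L67484 : W_22 (nat_lit 9) (nat_lit 0x2800000016000b0001800000000000000000000000000) (nat_lit 0x0) (nat_lit 0x38001c000e002400078003000000000000000000) := T_22 (nat_lit 90) (nat_lit 73) (nat_lit 7) (nat_lit 5) (nat_lit 4) L67483 (by decide +kernel)
theorem L67485 : W_22 (nat_lit 10) (nat_lit 0x2000000016000b0001800000000000000000000000000) (nat_lit 0x0) (nat_lit 0x800078001c000e002400078003000000000000000000) := T_22 (nat_lit 175) (nat_lit 158) (nat_lit 6) (nat_lit 5) (nat_lit 10) L67484 (by decide +kernel)
theorem L67486 : W_22 (nat_lit 2) (nat_lit 0x3000068016000b4001e00010000000000000000000000) (nat_lit 0x0) (nat_lit 0x100008002000000000000000000000000000) := D_22 (nat_lit 123) (nat_lit 109) (nat_lit 140) (nat_lit 2) (nat_lit 3) (nat_lit 7) (nat_lit 4) (nat_lit 4) (nat_lit 9) (by decide +kernel)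
theorem L67487 : W_22 (nat_lit 3) (nat_lit 0x3000068016000b4001e00000000000000000000000000) (nat_lit 0x0) (nat_lit 0x100008002000018000000000000000000000) := T_22 (nat_lit 88) (nat_lit 87) (nat_lit 0) (nat_lit 6) (nat_lit 6) L67486 (by decide +kernel)
theorem L67488 : W_22 (nat_lit 4) (nat_lit 0x3000068016000b0001e00000000000000000000000000) (nat_lit 0x0) (nat_lit 0x10000e002000018000000000000000000000) := T_22 (nat_lit 122) (nat_lit 121) (nat_lit 1) (nat_lit 6) (nat_lit 6) L67487 (by decide +kernel)
theorem L67489 : W_22 (nat_lit 5) (nat_lit 0x3000068016000b0001c00000000000000000000000000) (nat_lit 0x0) (nat_lit 0x10000e002300018000000000000000000000) := T_22 (nat_lit 105) (nat_lit 104) (nat_lit 3) (nat_lit 2) (nat_lit 6) L67488 (by decide +kernel)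
theorem L67490 : W_22 (nat_lit 6) (nat_lit 0x3000068016000b0001800000000000000000000000000) (nat_lit 0x0) (nat_lit 0x10000e002700038000000000000000000000) := T_22 (nat_lit 106) (nat_lit 89) (nat_lit 4) (nat_lit 5) (nat_lit 9) L67489 (by decide +kernel)
theorem L67491 : W_22 (nat_lit 7) (nat_lit 0x3000060016000b0001800000000000000000000000000) (nat_lit 0x0) (nat_lit 0x180010000e002700038000000000000000000000) := T_22 (nat_lit 155) (nat_lit 156) (nat_lit 2) (nat_lit 2) (nat_lit 9) L67490 (by decide +kernel)
theorem L67492 : W_22 (nat_lit 8) (nat_lit 0x3000040016000b0001800000000000000000000000000) (nat_lit 0x0) (nat_lit 0x4000380010000e002700038000000000000000000000) := T_22 (nat_lit 157) (nat_lit 174) (nat_lit 5) (nat_lit 5) (nat_lit 6) L67491 (by decide +kernel)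
theorem L67493 : W_22 (nat_lit 9) (nat_lit 0x3000000016000b0001800000000000000000000000000) (nat_lit 0x0) (nat_lit 0xc000780010000e002700038000000000000000000000) := T_22 (nat_lit 158) (nat_lit 175) (nat_lit 6) (nat_lit 5) (nat_lit 10) L67492 (by decide +kernel)
theorem L67494 : W_22 (nat_lit 10) (nat_lit 0x2000000016000b0001800000000000000000000000000) (nat_lit 0x0) (nat_lit 0x1c000f80010000e002700038000000000000000000000) := T_22 (nat_lit 176) (nat_lit 159) (nat_lit 4) (nat_lit 6) (nat_lit 10) L67493 (by decide +kernel)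
theorem L67495 : W_22 (nat_lit 11) (nat_lit 0x2000000016000b0001000000000000000000000000000) (nat_lit 0x0) (nat_lit 0x1c000f8001c000e002f00078003000000000000000000) := Q_22 (nat_lit 107) (C_22 L67475 (C_22 L67476 (C_22 L67485 (C_22 L67494 N_22)))) (by decide +kernel)
theorem L67496 : W_22 (nat_lit 12) (nat_lit 0x2000000016000b0000000000000000000000000000000) (nat_lit 0x0) (nat_lit 0x1c000f8001c000e003f001f800f000000000000000000) := Q_22 (nat_lit 108) (C_22 L67470 (C_22 L67474 (C_22 L67495 N_22))) (by decide +kernel)
theorem L67497 : W_22 (nat_lit 2) (nat_lit 0x2000040016000b0000000000000000000000000000000) (nat_lit 0x0) (nat_lit 0x80000000000000001000080000000000000000000000) := D_22 (nat_lit 108) (nat_lit 91) (nat_lit 175) (nat_lit 5) (nat_lit 6) (nat_lit 5) (nat_lit 6) (nat_lit 5) (nat_lit 10) (by decide +kernel)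
theorem L67498 : W_22 (nat_lit 2) (nat_lit 0x3c00058016800fc000200000000000000000000000000) (nat_lit 0x0) (nat_lit 0xc000000008000000000000000000000000000000000000000) := D_22 (nat_lit 194) (nat_lit 195) (nat_lit 159) (nat_lit 3) (nat_lit 4) (nat_lit 10) (nat_lit 7) (nat_lit 6) (nat_lit 7) (by decide +kernel)
theorem L67499 : W_22 (nat_lit 3) (nat_lit 0x2c00058016800fc000200000000000000000000000000) (nat_lit 0x0) (nat_lit 0xc000120008000000000000000000000000000000000000000) := T_22 (nat_lit 176) (nat_lit 173) (nat_lit 0) (nat_lit 6) (nat_lit 10) L67498 (by decide +kernel)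
theorem L67500 : W_22 (nat_lit 4) (nat_lit 0x2c00050016800fc000200000000000000000000000000) (nat_lit 0x0) (nat_lit 0xc000130008800000000000000000000000000000000000000) := T_22 (nat_lit 155) (nat_lit 172) (nat_lit 5) (nat_lit 3) (nat_lit 6) L67499 (by decide +kernel)
theorem L67501 : W_22 (nat_lit 5) (nat_lit 0x2c00040016800fc000200000000000000000000000000) (nat_lit 0x0) (nat_lit 0xc00013000b800000000000000000000000000000000000000) := T_22 (nat_lit 156) (nat_lit 157) (nat_lit 7) (nat_lit 3) (nat_lit 6) L67500 (by decide +kernel)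
theorem L67502 : W_22 (nat_lit 6) (nat_lit 0x2c00040016800fc000000000000000000000000000000) (nat_lit 0x0) (nat_lit 0xc00013000b800000000000300000000000000000000000000) := T_22 (nat_lit 105) (nat_lit 104) (nat_lit 0) (nat_lit 6) (nat_lit 7) L67501 (by decide +kernel)
theorem L67503 : W_22 (nat_lit 7) (nat_lit 0x2c00040016000fc000000000000000000000000000000) (nat_lit 0x0) (nat_lit 0xc00013000b8000c0000000300000000000000000000000000) := T_22 (nat_lit 139) (nat_lit 138) (nat_lit 1) (nat_lit 6) (nat_lit 7) L67502 (by decide +kernel)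
theorem L67504 : W_22 (nat_lit 8) (nat_lit 0x2c00040016000f8000000000000000000000000000000) (nat_lit 0x0) (nat_lit 0xc00013000b8000c0006000300000000000000000000000000) := T_22 (nat_lit 122) (nat_lit 121) (nat_lit 3) (nat_lit 2) (nat_lit 7) L67503 (by decide +kernel)
theorem L67505 : W_22 (nat_lit 9) (nat_lit 0x2c00040016000f0000000000000000000000000000000) (nat_lit 0x0) (nat_lit 0xc00013000b8000c000e000700000000000000000000000000) := T_22 (nat_lit 123) (nat_lit 106) (nat_lit 4) (nat_lit 5) (nat_lit 10) L67504 (by decide +kernel)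
theorem L67506 : W_22 (nat_lit 10) (nat_lit 0x2800040016000f0000000000000000000000000000000) (nat_lit 0x0) (nat_lit 0xc80017000b8000c000e000700000000000000000000000000) := T_22 (nat_lit 174) (nat_lit 191) (nat_lit 5) (nat_lit 5) (nat_lit 7) L67505 (by decide +kernel)
theorem L67507 : W_22 (nat_lit 11) (nat_lit 0x2000040016000f0000000000000000000000000000000) (nat_lit 0x0) (nat_lit 0xd8001f000b8000c000e000700000000000000000000000000) := T_22 (nat_lit 175) (nat_lit 192) (nat_lit 6) (nat_lit 5) (nat_lit 11) L67506 (by decide +kernel)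
theorem L67508 : W_22 (nat_lit 12) (nat_lit 0x2000040016000b0000000000000000000000000000000) (nat_lit 0x0) (nat_lit 0xd8001f000b8001c004e000700000000000000000000000000) := T_22 (nat_lit 126) (nat_lit 140) (nat_lit 1) (nat_lit 8) (nat_lit 7) L67507 (by decide +kernel)
theorem L67509 : W_22 (nat_lit 2) (nat_lit 0x2000050017800bc001000000000000000000000000000) (nat_lit 0x0) (nat_lit 0x20000000000000000400020000000000000000000000) := D_22 (nat_lit 106) (nat_lit 89) (nat_lit 173) (nat_lit 7) (nat_lit 4) (nat_lit 5) (nat_lit 6) (nat_lit 3) (nat_lit 10) (by decide +kernel)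
theorem L67510 : W_22 (nat_lit 3) (nat_lit 0x2000050017800b4001000000000000000000000000000) (nat_lit 0x0) (nat_lit 0x20000000000008002400020000000000000000000000) := T_22 (nat_lit 123) (nat_lit 109) (nat_lit 2) (nat_lit 3) (nat_lit 7) L67509 (by decide +kernel)
theorem L67511 : W_22 (nat_lit 4) (nat_lit 0x2000050017800b0001000000000000000000000000000) (nat_lit 0x0) (nat_lit 0x2000000000000e002400020000000000000000000000) := T_22 (nat_lit 122) (nat_lit 121) (nat_lit 0) (nat_lit 6) (nat_lit 8) L67510 (by decide +kernel)
theorem L67512 : W_22 (nat_lit 5) (nat_lit 0x2000040017800b0001000000000000000000000000000) (nat_lit 0x0) (nat_lit 0x2000180000000e002400020000000000000000000000) := T_22 (nat_lit 156) (nat_lit 155) (nat_lit 1) (nat_lit 6) (nat_lit 8) L67511 (by decide +kernel)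
theorem L67513 : W_22 (nat_lit 6) (nat_lit 0x2000040017000b0001000000000000000000000000000) (nat_lit 0x0) (nat_lit 0x200018000c000e002400020000000000000000000000) := T_22 (nat_lit 139) (nat_lit 138) (nat_lit 2) (nat_lit 2) (nat_lit 8) L67512 (by decide +kernel)
theorem L67514 : W_22 (nat_lit 7) (nat_lit 0x2000040016000b0001000000000000000000000000000) (nat_lit 0x0) (nat_lit 0x200018001c004e002400020000000000000000000000) := T_22 (nat_lit 140) (nat_lit 126) (nat_lit 1) (nat_lit 8) (nat_lit 7) L67513 (by decide +kernel)
theorem L67515 : W_22 (nat_lit 8) (nat_lit 0x2000040016000b0000000000000000000000000000000) (nat_lit 0x0) (nat_lit 0x200018001c004e0034000a0000000000000000000000) := T_22 (nat_lit 108) (nat_lit 91) (nat_lit 5) (nat_lit 6) (nat_lit 5) L67514 (by decide +kernel)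
theorem L67516 : W_22 (nat_lit 13) (nat_lit 0x2000000016000b0000000000000000000000000000000) (nat_lit 0x0) (nat_lit 0xd8001f000f8001c004e0037000a0000000000000000000000) := Q_22 (nat_lit 158) (C_22 L67497 (C_22 L67508 (C_22 L67515 N_22))) (by decide +kernel)
theorem L67517 : W_22 (nat_lit 2) (nat_lit 0x2000000016000b0000800000000000000000000000000) (nat_lit 0x0) (nat_lit 0x100008000000000000000040000000000000000000000) := D_22 (nat_lit 159) (nat_lit 176) (nat_lit 90) (nat_lit 4) (nat_lit 6) (nat_lit 10) (nat_lit 7) (nat_lit 5) (nat_lit 5) (by decide +kernel)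
theorem L67518 : W_22 (nat_lit 9) (nat_lit 0x2000000016000b0000800000000000000000000000000) (nat_lit 0x0) (nat_lit 0x40000000400034007f800f000000000000000000) := T_22 (nat_lit 126) (nat_lit 106) (nat_lit 0) (nat_lit 8) (nat_lit 7) L67467 (by decide +kernel)
theorem L67519 : W_22 (nat_lit 2) (nat_lit 0x3000040016000b0000d00000000000000000000000000) (nat_lit 0x0) (nat_lit 0x80000000000008001000000000000000000000000000) := D_22 (nat_lit 175) (nat_lit 123) (nat_lit 108) (nat_lit 4) (nat_lit 5) (nat_lit 10) (nat_lit 6) (nat_lit 5) (nat_lit 10) (by decide +kernel)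
theorem L67520 : W_22 (nat_lit 3) (nat_lit 0x3000000016000b0000d00000000000000000000000000) (nat_lit 0x0) (nat_lit 0x80004000000008001000020000000000000000000000) := T_22 (nat_lit 158) (nat_lit 89) (nat_lit 4) (nat_lit 5) (nat_lit 9) L67519 (by decide +kernel)
theorem L67521 : W_22 (nat_lit 4) (nat_lit 0x3000000016000b0000c00000000000000000000000000) (nat_lit 0x0) (nat_lit 0x80004000000008001300020000000000000000000000) := T_22 (nat_lit 104) (nat_lit 105) (nat_lit 3) (nat_lit 2) (nat_lit 6) L67520 (by decide +kernel)
theorem L67522 : W_22 (nat_lit 5) (nat_lit 0x3000000016000b0000800000000000000000000000000) (nat_lit 0x0) (nat_lit 0x80004000000048001700020000000000000000000000) := T_22 (nat_lit 106) (nat_lit 126) (nat_lit 0) (nat_lit 8) (nat_lit 7) L67521 (by decide +kernel)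
theorem L67523 : W_22 (nat_lit 6) (nat_lit 0x2000000016000b0000800000000000000000000000000) (nat_lit 0x0) (nat_lit 0x18000c000000048001700020000000000000000000000) := T_22 (nat_lit 176) (nat_lit 159) (nat_lit 4) (nat_lit 6) (nat_lit 10) L67522 (by decide +kernel)
theorem L67524 : W_22 (nat_lit 10) (nat_lit 0x2000000016000b0000000000000000000000000000000) (nat_lit 0x0) (nat_lit 0x18000c000000048003f007f800f000000000000000000) := Q_22 (nat_lit 107) (C_22 L67517 (C_22 L32823 (C_22 L67518 (C_22 L67523 N_22)))) (by decide +kernel)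
theorem L67525 : W_22 (nat_lit 9) (nat_lit 0x2000000016000b0000800000000000000000000000000) (nat_lit 0x0) (nat_lit 0x40001000400030007f800f000000000000000000) := T_22 (nat_lit 126) (nat_lit 140) (nat_lit 1) (nat_lit 8) (nat_lit 7) L67467 (by decide +kernel)
theorem L67526 : W_22 (nat_lit 2) (nat_lit 0x2000040016000b0000800000000000000000000000000) (nat_lit 0x0) (nat_lit 0x80000000000000001000080000000000000000000000) := D_22 (nat_lit 108) (nat_lit 91) (nat_lit 175) (nat_lit 6) (nat_lit 5) (nat_lit 9) (nat_lit 6) (nat_lit 5) (nat_lit 10) (by decide +kernel)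
theorem L67527 : W_22 (nat_lit 2) (nat_lit 0x10003000070017800b4000a00000000000000000000000000) (nat_lit 0x0) (nat_lit 0x8000100008000000000000000000000) := D_22 (nat_lit 104) (nat_lit 87) (nat_lit 123) (nat_lit 4) (nat_lit 3) (nat_lit 9) (nat_lit 0) (nat_lit 6) (nat_lit 7) (by decide +kernel)
theorem L67528 : W_22 (nat_lit 3) (nat_lit 0x10003000070017800b4000800000000000000000000000000) (nat_lit 0x0) (nat_lit 0x8000300018000000000000000000000) := T_22 (nat_lit 105) (nat_lit 88) (nat_lit 7) (nat_lit 3) (nat_lit 5) L67527 (by decide +kernel)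
theorem L67529 : W_22 (nat_lit 4) (nat_lit 0x10003000070017800b0000800000000000000000000000000) (nat_lit 0x0) (nat_lit 0xe000300018000000000000000000000) := T_22 (nat_lit 122) (nat_lit 121) (nat_lit 0) (nat_lit 6) (nat_lit 8) L67528 (by decide +kernel)
theorem L67530 : W_22 (nat_lit 5) (nat_lit 0x10003000070017000b0000800000000000000000000000000) (nat_lit 0x0) (nat_lit 0xc000e000300018000000000000000000000) := T_22 (nat_lit 139) (nat_lit 138) (nat_lit 2) (nat_lit 2) (nat_lit 8) L67529 (by decide +kernel)
theorem L67531 : W_22 (nat_lit 6) (nat_lit 0x10003000070016000b0000800000000000000000000000000) (nat_lit 0x0) (nat_lit 0x1c004e000300018000000000000000000000) := T_22 (nat_lit 140) (nat_lit 126) (nat_lit 1) (nat_lit 8) (nat_lit 7) L67530 (by decide +kernel)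
theorem L67532 : W_22 (nat_lit 7) (nat_lit 0x10003000060016000b0000800000000000000000000000000) (nat_lit 0x0) (nat_lit 0x18001c004e000300018000000000000000000000) := T_22 (nat_lit 156) (nat_lit 155) (nat_lit 2) (nat_lit 2) (nat_lit 9) L67531 (by decide +kernel)
theorem L67533 : W_22 (nat_lit 8) (nat_lit 0x10003000040016000b0000800000000000000000000000000) (nat_lit 0x0) (nat_lit 0x400038001c004e000300018000000000000000000000) := T_22 (nat_lit 157) (nat_lit 174) (nat_lit 5) (nat_lit 5) (nat_lit 6) L67532 (by decide +kernel)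
theorem L67534 : W_22 (nat_lit 9) (nat_lit 0x3000040016000b0000800000000000000000000000000) (nat_lit 0x0) (nat_lit 0x10000c00038001c004e000300018000000000000000000000) := T_22 (nat_lit 192) (nat_lit 175) (nat_lit 6) (nat_lit 5) (nat_lit 11) L67533 (by decide +kernel)
theorem L67535 : W_22 (nat_lit 10) (nat_lit 0x2000040016000b0000800000000000000000000000000) (nat_lit 0x0) (nat_lit 0x10001c000b8001c004e000300018000000000000000000000) := T_22 (nat_lit 176) (nat_lit 159) (nat_lit 7) (nat_lit 5) (nat_lit 6) L67534 (by decide +kernel)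
theorem L67536 : W_22 (nat_lit 2) (nat_lit 0x20000c0017800b0003800000000000000000000000000) (nat_lit 0x0) (nat_lit 0xe000000000000000000000000000000) := D_22 (nat_lit 122) (nat_lit 123) (nat_lit 121) (nat_lit 2) (nat_lit 3) (nat_lit 7) (nat_lit 0) (nat_lit 6) (nat_lit 8) (by decide +kernel)
theorem L67537 : W_22 (nat_lit 3) (nat_lit 0x20000c0017800b0001800000000000000000000000000) (nat_lit 0x0) (nat_lit 0xe002000100000000000000000000000) := T_22 (nat_lit 109) (nat_lit 92) (nat_lit 6) (nat_lit 6) (nat_lit 9) L67536 (by decide +kernel)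
theorem L67538 : W_22 (nat_lit 4) (nat_lit 0x2000040017800b0001800000000000000000000000000) (nat_lit 0x0) (nat_lit 0x10000800000000e002000100000000000000000000000) := T_22 (nat_lit 159) (nat_lit 176) (nat_lit 7) (nat_lit 5) (nat_lit 6) L67537 (by decide +kernel)
theorem L67539 : W_22 (nat_lit 5) (nat_lit 0x2000040017000b0001800000000000000000000000000) (nat_lit 0x0) (nat_lit 0x1000080000c000e002000100000000000000000000000) := T_22 (nat_lit 139) (nat_lit 138) (nat_lit 2) (nat_lit 2) (nat_lit 8) L67538 (by decide +kernel)
theorem L67540 : W_22 (nat_lit 6) (nat_lit 0x2000040017000b0000800000000000000000000000000) (nat_lit 0x0) (nat_lit 0x1000080000c000e003000180000000000000000000000) := T_22 (nat_lit 108) (nat_lit 91) (nat_lit 6) (nat_lit 5) (nat_lit 9) L67539 (by decide +kernel)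
theorem L67541 : W_22 (nat_lit 7) (nat_lit 0x2000040016000b0000800000000000000000000000000) (nat_lit 0x0) (nat_lit 0x1000080001c004e003000180000000000000000000000) := T_22 (nat_lit 140) (nat_lit 126) (nat_lit 1) (nat_lit 8) (nat_lit 7) L67540 (by decide +kernel)
theorem L67542 : W_22 (nat_lit 11) (nat_lit 0x2000000016000b0000800000000000000000000000000) (nat_lit 0x0) (nat_lit 0x10001c000f8001c004e003300198000000000000000000000) := Q_22 (nat_lit 158) (C_22 L67526 (C_22 L67535 (C_22 L67541 N_22))) (by decide +kernel)
theorem L67543 : W_22 (nat_lit 12) (nat_lit 0x2000000016000b0000000000000000000000000000000) (nat_lit 0x0) (nat_lit 0x10001c000f8001c004e003b007f800f000000000000000000) := Q_22 (nat_lit 107) (C_22 L32823 (C_22 L67525 (C_22 L67542 N_22))) (by decide +kernel)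
theorem L67544 : W_22 (nat_lit 14) (nat_lit 0x2000000016000a0000000000000000000000000000000) (nat_lit 0x0) (nat_lit 0xd8001f000f8001c005e003f007f800f000000000000000000) := Q_22 (nat_lit 124) (C_22 L67460 (C_22 L67469 (C_22 L67496 (C_22 L67516 (C_22 L67524 (C_22 L67543 N_22)))))) (by decide +kernel)
theorem L67545 : W_22 (nat_lit 2) (nat_lit 0x2000040016000a0001000000000000000000000000000) (nat_lit 0x0) (nat_lit 0x1000080008000000000000000000000000000000000000000) := D_22 (nat_lit 175) (nat_lit 192) (nat_lit 159) (nat_lit 6) (nat_lit 5) (nat_lit 11) (nat_lit 5) (nat_lit 6) (nat_lit 6) (by decide +kernel)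
theorem L67546 : W_22 (nat_lit 3) (nat_lit 0x2000040016000a0000000000000000000000000000000) (nat_lit 0x0) (nat_lit 0x1000080008000000000001000080000000000000000000000) := T_22 (nat_lit 108) (nat_lit 91) (nat_lit 5) (nat_lit 6) (nat_lit 5) L67545 (by decide +kernel)
theorem L67547 : W_22 (nat_lit 2) (nat_lit 0x2800040016000a0000000000000000000000000000000) (nat_lit 0x0) (nat_lit 0x10001000080000000000000000000000) := D_22 (nat_lit 108) (nat_lit 91) (nat_lit 124) (nat_lit 5) (nat_lit 6) (nat_lit 5) (nat_lit 6) (nat_lit 5) (nat_lit 10) (by decide +kernel)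
theorem L67548 : W_22 (nat_lit 2) (nat_lit 0x7800040016000a0000000000000000000000000000000) (nat_lit 0x0) (nat_lit 0x4000800008000000000000000000000000000000000000000) := D_22 (nat_lit 159) (nat_lit 194) (nat_lit 179) (nat_lit 7) (nat_lit 6) (nat_lit 7) (nat_lit 0) (nat_lit 9) (nat_lit 10) (by decide +kernel)
theorem L67549 : W_22 (nat_lit 3) (nat_lit 0x3800040016000a0000000000000000000000000000000) (nat_lit 0x0) (nat_lit 0x4000c0000a000000000000000000000000000000000000000) := T_22 (nat_lit 178) (nat_lit 157) (nat_lit 0) (nat_lit 8) (nat_lit 10) L67548 (by decide +kernel)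
theorem L67550 : W_22 (nat_lit 2) (nat_lit 0x7800040016000a0000000000000000000000000000000) (nat_lit 0x0) (nat_lit 0x4000000060000000000000000000000000000000000000000) := D_22 (nat_lit 161) (nat_lit 162) (nat_lit 194) (nat_lit 2) (nat_lit 5) (nat_lit 10) (nat_lit 5) (nat_lit 8) (nat_lit 7) (by decide +kernel)
theorem L67551 : W_22 (nat_lit 3) (nat_lit 0x3800040016000a0000000000000000000000000000000) (nat_lit 0x0) (nat_lit 0x4000400062000000000000000000000000000000000000000) := T_22 (nat_lit 178) (nat_lit 157) (nat_lit 0) (nat_lit 8) (nat_lit 10) L67550 (by decide +kernel)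
theorem L67552 : W_22 (nat_lit 5) (nat_lit 0x38000c0016000a0000000000000000000000000000000) (nat_lit 0x0) (nat_lit 0x800070003800000010000800000000000000000000000000) := T_22 (nat_lit 124) (nat_lit 107) (nat_lit 7) (nat_lit 5) (nat_lit 6) L61538 (by decide +kernel)
theorem L67553 : W_22 (nat_lit 6) (nat_lit 0x3800040016000a0000000000000000000000000000000) (nat_lit 0x0) (nat_lit 0x480007000b800000010000800000000000000000000000000) := T_22 (nat_lit 159) (nat_lit 194) (nat_lit 7) (nat_lit 6) (nat_lit 7) L67552 (by decide +kernel)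
theorem L67554 : W_22 (nat_lit 2) (nat_lit 0x400be000d0016000ba000000000000000000000000000000) (nat_lit 0x0) (nat_lit 0x1c0000000000000000000000000000000000) := D_22 (nat_lit 139) (nat_lit 138) (nat_lit 140) (nat_lit 4) (nat_lit 3) (nat_lit 11) (nat_lit 6) (nat_lit 3) (nat_lit 11) (by decide +kernel)
theorem L67555 : W_22 (nat_lit 3) (nat_lit 0xbe000d0016000ba000000000000000000000000000000) (nat_lit 0x0) (nat_lit 0x6000000000001c0000000000000000000000000000000000) := T_22 (nat_lit 190) (nat_lit 189) (nat_lit 1) (nat_lit 6) (nat_lit 10) L67554 (by decide +kernel)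
theorem L67556 : W_22 (nat_lit 4) (nat_lit 0xbe000c0016000ba000000000000000000000000000000) (nat_lit 0x0) (nat_lit 0x6000000018001c0000000000000000000000000000000000) := T_22 (nat_lit 156) (nat_lit 155) (nat_lit 0) (nat_lit 6) (nat_lit 10) L67555 (by decide +kernel)
theorem L67557 : W_22 (nat_lit 5) (nat_lit 0xbe000c0016000b8000000000000000000000000000000) (nat_lit 0x0) (nat_lit 0x6000000018001c0006000000000000000000000000000000) := T_22 (nat_lit 121) (nat_lit 122) (nat_lit 3) (nat_lit 2) (nat_lit 7) L67556 (by decide +kernel)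
theorem L67558 : W_22 (nat_lit 6) (nat_lit 0xbe000c0016000b0000000000000000000000000000000) (nat_lit 0x0) (nat_lit 0x6000000018001c000e000400000000000000000000000000) := T_22 (nat_lit 123) (nat_lit 106) (nat_lit 4) (nat_lit 5) (nat_lit 10) L67557 (by decide +kernel)
theorem L67559 : W_22 (nat_lit 7) (nat_lit 0xbc000c0016000b0000000000000000000000000000000) (nat_lit 0x0) (nat_lit 0x6000300018001c000e000400000000000000000000000000) := T_22 (nat_lit 173) (nat_lit 172) (nat_lit 2) (nat_lit 2) (nat_lit 10) L67558 (by decide +kernel)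
theorem L67560 : W_22 (nat_lit 8) (nat_lit 0xb8000c0016000b0000000000000000000000000000000) (nat_lit 0x0) (nat_lit 0xe000700018001c000e000400000000000000000000000000) := T_22 (nat_lit 174) (nat_lit 191) (nat_lit 5) (nat_lit 5) (nat_lit 7) L67559 (by decide +kernel)
theorem L67561 : W_22 (nat_lit 9) (nat_lit 0x38000c0016000b0000000000000000000000000000000) (nat_lit 0x0) (nat_lit 0xe00c700018001c000e000400000000000000000000000000) := T_22 (nat_lit 179) (nat_lit 178) (nat_lit 0) (nat_lit 9) (nat_lit 10) L67560 (by decide +kernel)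
theorem L67562 : W_22 (nat_lit 10) (nat_lit 0x38000c0016000a0000000000000000000000000000000) (nat_lit 0x0) (nat_lit 0xe00c700018001c001e000c00000000000000000000000000) := T_22 (nat_lit 124) (nat_lit 107) (nat_lit 7) (nat_lit 5) (nat_lit 6) L67561 (by decide +kernel)
theorem L67563 : W_22 (nat_lit 11) (nat_lit 0x3800040016000a0000000000000000000000000000000) (nat_lit 0x0) (nat_lit 0x4e00c700098001c001e000c00000000000000000000000000) := T_22 (nat_lit 159) (nat_lit 194) (nat_lit 7) (nat_lit 6) (nat_lit 7) L67562 (by decide +kernel)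
theorem L67564 : W_22 (nat_lit 2) (nat_lit 0xf800040016000a0000000000000000000000000000000) (nat_lit 0x0) (nat_lit 0x38000000000000000000000000000000000000000000000000) := D_22 (nat_lit 196) (nat_lit 195) (nat_lit 197) (nat_lit 3) (nat_lit 5) (nat_lit 10) (nat_lit 3) (nat_lit 6) (nat_lit 10) (by decide +kernel)
theorem L67565 : W_22 (nat_lit 3) (nat_lit 0x7800040016000a0000000000000000000000000000000) (nat_lit 0x0) (nat_lit 0x38000800008000000000000000000000000000000000000000) := T_22 (nat_lit 179) (nat_lit 159) (nat_lit 0) (nat_lit 9) (nat_lit 10) L67564 (by decide +kernel)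
theorem L67566 : W_22 (nat_lit 4) (nat_lit 0x3800040016000a0000000000000000000000000000000) (nat_lit 0x0) (nat_lit 0x38000c0000a000000000000000000000000000000000000000) := T_22 (nat_lit 178) (nat_lit 157) (nat_lit 0) (nat_lit 8) (nat_lit 10) L67565 (by decide +kernel)
theorem L67567 : W_22 (nat_lit 12) (nat_lit 0x2800040016000a0000000000000000000000000000000) (nat_lit 0x0) (nat_lit 0x3ce00d7006b8001c001e000c00000000000000000000000000) := Q_22 (nat_lit 176) (C_22 L67549 (C_22 L67551 (C_22 L67553 (C_22 L67563 (C_22 L67566 N_22))))) (by decide +kernel)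
theorem L67568 : W_22 (nat_lit 2) (nat_lit 0x7800000016000a0000000000000000000000000000000) (nat_lit 0x0) (nat_lit 0x4000000060000000000000000000000000000000000000000) := D_22 (nat_lit 161) (nat_lit 162) (nat_lit 194) (nat_lit 2) (nat_lit 5) (nat_lit 10) (nat_lit 5) (nat_lit 8) (nat_lit 7) (by decide +kernel)
theorem L67569 : W_22 (nat_lit 2) (nat_lit 0x88007800000016000a0000000000000000000000000000000) (nat_lit 0x0) (nat_lit 0x4400040000000000000000000000000000000000000000000) := D_22 (nat_lit 174) (nat_lit 194) (nat_lit 190) (nat_lit 3) (nat_lit 4) (nat_lit 10) (nat_lit 1) (nat_lit 7) (nat_lit 10) (by decide +kernel)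
theorem L67570 : W_22 (nat_lit 3) (nat_lit 0x8007800000016000a0000000000000000000000000000000) (nat_lit 0x0) (nat_lit 0x1c400040000000000000000000000000000000000000000000) := T_22 (nat_lit 195) (nat_lit 196) (nat_lit 3) (nat_lit 5) (nat_lit 10) L67569 (by decide +kernel)
theorem L67571 : W_22 (nat_lit 4) (nat_lit 0x7800000016000a0000000000000000000000000000000) (nat_lit 0x0) (nat_lit 0x1dc00040000000000000000000000000000000000000000000) := T_22 (nat_lit 191) (nat_lit 192) (nat_lit 1) (nat_lit 8) (nat_lit 10) L67570 (by decide +kernel)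
theorem L67572 : W_22 (nat_lit 2) (nat_lit 0x100007800000016000a0000000000000000000000000000000) (nat_lit 0x0) (nat_lit 0x800060000000000000000000000000000000000000000) := D_22 (nat_lit 161) (nat_lit 162) (nat_lit 179) (nat_lit 2) (nat_lit 5) (nat_lit 10) (nat_lit 7) (nat_lit 8) (nat_lit 7) (by decide +kernel)
theorem L67573 : W_22 (nat_lit 3) (nat_lit 0x7800000016000a0000000000000000000000000000000) (nat_lit 0x0) (nat_lit 0x18000800060000000000000000000000000000000000000000) := T_22 (nat_lit 196) (nat_lit 195) (nat_lit 3) (nat_lit 5) (nat_lit 10) L67572 (by decide +kernel)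
theorem L67574 : W_22 (nat_lit 5) (nat_lit 0x3800000016000a0000000000000000000000000000000) (nat_lit 0x0) (nat_lit 0x1dc00c40060000000000000000000000000000000000000000) := Q_22 (nat_lit 178) (C_22 L67568 (C_22 L67571 (C_22 L67573 N_22))) (by decide +kernel)
theorem L67575 : W_22 (nat_lit 2) (nat_lit 0x10007800200016000a0000000000000000000000000000000) (nat_lit 0x0) (nat_lit 0x18000800000000000000000000000000000000000000000000) := D_22 (nat_lit 196) (nat_lit 195) (nat_lit 179) (nat_lit 3) (nat_lit 5) (nat_lit 10) (nat_lit 7) (nat_lit 8) (nat_lit 7) (by decide +kernel)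
theorem L67576 : W_22 (nat_lit 3) (nat_lit 0x10007800000016000a0000000000000000000000000000000) (nat_lit 0x0) (nat_lit 0x18000800060000000000000000000000000000000000000000) := T_22 (nat_lit 161) (nat_lit 162) (nat_lit 2) (nat_lit 5) (nat_lit 10) L67575 (by decide +kernel)
theorem L67577 : W_22 (nat_lit 4) (nat_lit 0x10003800000016000a0000000000000000000000000000000) (nat_lit 0x0) (nat_lit 0x18800c00060000000000000000000000000000000000000000) := T_22 (nat_lit 178) (nat_lit 191) (nat_lit 1) (nat_lit 8) (nat_lit 10) L67576 (by decide +kernel)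
theorem L67578 : W_22 (nat_lit 5) (nat_lit 0x3800000016000a0000000000000000000000000000000) (nat_lit 0x0) (nat_lit 0x19800c00068000000000000000000000000000000000000000) := T_22 (nat_lit 192) (nat_lit 159) (nat_lit 5) (nat_lit 6) (nat_lit 7) L67577 (by decide +kernel)
theorem L67579 : W_22 (nat_lit 2) (nat_lit 0x44003c00210016000a0000000000000000000000000000000) (nat_lit 0x0) (nat_lit 0x200020000800000000000000000000000000000000000000) := D_22 (nat_lit 173) (nat_lit 189) (nat_lit 155) (nat_lit 1) (nat_lit 6) (nat_lit 10) (nat_lit 0) (nat_lit 6) (nat_lit 10) (by decide +kernel)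
theorem L67580 : W_22 (nat_lit 3) (nat_lit 0x44003c00200016000a0000000000000000000000000000000) (nat_lit 0x0) (nat_lit 0x200020003800000000000000000000000000000000000000) := T_22 (nat_lit 156) (nat_lit 157) (nat_lit 0) (nat_lit 7) (nat_lit 10) L67579 (by decide +kernel)
theorem L67581 : W_22 (nat_lit 4) (nat_lit 0x40003c00200016000a0000000000000000000000000000000) (nat_lit 0x0) (nat_lit 0xe00020003800000000000000000000000000000000000000) := T_22 (nat_lit 190) (nat_lit 191) (nat_lit 1) (nat_lit 7) (nat_lit 10) L67580 (by decide +kernel)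
theorem L67582 : W_22 (nat_lit 5) (nat_lit 0x40003800200016000a0000000000000000000000000000000) (nat_lit 0x0) (nat_lit 0x8e00060003800000000000000000000000000000000000000) := T_22 (nat_lit 174) (nat_lit 195) (nat_lit 3) (nat_lit 4) (nat_lit 10) L67581 (by decide +kernel)
theorem L67583 : W_22 (nat_lit 6) (nat_lit 0x40003800000016000a0000000000000000000000000000000) (nat_lit 0x0) (nat_lit 0x8e00460023800000000000000000000000000000000000000) := T_22 (nat_lit 161) (nat_lit 178) (nat_lit 5) (nat_lit 8) (nat_lit 7) L67582 (by decide +kernel)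
theorem L67584 : W_22 (nat_lit 7) (nat_lit 0x3800000016000a0000000000000000000000000000000) (nat_lit 0x0) (nat_lit 0xce0046002b800000000000000000000000000000000000000) := T_22 (nat_lit 194) (nat_lit 159) (nat_lit 7) (nat_lit 6) (nat_lit 7) L67583 (by decide +kernel)
theorem L67585 : W_22 (nat_lit 8) (nat_lit 0x2800000016000a0000000000000000000000000000000) (nat_lit 0x0) (nat_lit 0x1de00d6006b800000000000000000000000000000000000000) := Q_22 (nat_lit 176) (C_22 L39498 (C_22 L67574 (C_22 L67578 (C_22 L67584 N_22)))) (by decide +kernel)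
theorem L67586 : W_22 (nat_lit 3) (nat_lit 0x2800000016000a0000000000000000000000000000000) (nat_lit 0x0) (nat_lit 0x1000000004000000010001000080000000000000000000000) := T_22 (nat_lit 158) (nat_lit 192) (nat_lit 6) (nat_lit 5) (nat_lit 11) L67547 (by decide +kernel)
theorem L67587 : W_22 (nat_lit 2) (nat_lit 0x2800040016000a0000000000000000000000000000000) (nat_lit 0x0) (nat_lit 0x8000000000001000080000000000000000000000) := D_22 (nat_lit 108) (nat_lit 91) (nat_lit 159) (nat_lit 5) (nat_lit 6) (nat_lit 5) (nat_lit 5) (nat_lit 6) (nat_lit 6) (by decide +kernel)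
theorem L67588 : W_22 (nat_lit 13) (nat_lit 0x2800000016000a0000000000000000000000000000000) (nat_lit 0x0) (nat_lit 0x3ce00d7006f8001c001e001c00080000000000000000000000) := Q_22 (nat_lit 158) (C_22 L67547 (C_22 L67567 (C_22 L67587 N_22))) (by decide +kernel)
theorem L67589 : W_22 (nat_lit 14) (nat_lit 0x2000000016000a0000000000000000000000000000000) (nat_lit 0x0) (nat_lit 0x3de00df006f8001c001e001c00080000000000000000000000) := Q_22 (nat_lit 175) (C_22 L67585 (C_22 L67586 (C_22 L67588 N_22))) (by decide +kernel)
theorem L67590 : W_22 (nat_lit 2) (nat_lit 0x2800040017000e0000400080000000000000000000000) (nat_lit 0x0) (nat_lit 0x2000000008000000020000000000000000000000) := D_22 (nat_lit 123) (nat_lit 89) (nat_lit 157) (nat_lit 7) (nat_lit 4) (nat_lit 5) (nat_lit 7) (nat_lit 4) (nat_lit 6) (by decide +kernel)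
theorem L67591 : W_22 (nat_lit 3) (nat_lit 0x2000040017000e0000400080000000000000000000000) (nat_lit 0x0) (nat_lit 0x1000080002000000008000000020000000000000000000000) := T_22 (nat_lit 175) (nat_lit 192) (nat_lit 6) (nat_lit 5) (nat_lit 11) L67590 (by decide +kernel)
theorem L67592 : W_22 (nat_lit 4) (nat_lit 0x2000040016000e0000400080000000000000000000000) (nat_lit 0x0) (nat_lit 0x1000080002000180008000000020000000000000000000000) := T_22 (nat_lit 140) (nat_lit 139) (nat_lit 2) (nat_lit 3) (nat_lit 8) L67591 (by decide +kernel)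
theorem L67593 : W_22 (nat_lit 5) (nat_lit 0x2000040016000e0000400000000000000000000000000) (nat_lit 0x0) (nat_lit 0x10000800020001800080010000a0000000000000000000000) := T_22 (nat_lit 91) (nat_lit 108) (nat_lit 5) (nat_lit 6) (nat_lit 5) L67592 (by decide +kernel)
theorem L67594 : W_22 (nat_lit 2) (nat_lit 0x2800040017000e0000400000000000000000000000000) (nat_lit 0x0) (nat_lit 0x2000000008000000020000000000000000000000) := D_22 (nat_lit 123) (nat_lit 89) (nat_lit 157) (nat_lit 7) (nat_lit 4) (nat_lit 5) (nat_lit 7) (nat_lit 4) (nat_lit 6) (by decide +kernel)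
theorem L67595 : W_22 (nat_lit 3) (nat_lit 0x2000040017000e0000400000000000000000000000000) (nat_lit 0x0) (nat_lit 0x1000080002000000008000000020000000000000000000000) := T_22 (nat_lit 175) (nat_lit 192) (nat_lit 6) (nat_lit 5) (nat_lit 11) L67594 (by decide +kernel)
theorem L67596 : W_22 (nat_lit 4) (nat_lit 0x2000040016000e0000400000000000000000000000000) (nat_lit 0x0) (nat_lit 0x1000080002000180008000000020000000000000000000000) := T_22 (nat_lit 140) (nat_lit 139) (nat_lit 2) (nat_lit 3) (nat_lit 8) L67595 (by decide +kernel)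
theorem L67597 : W_22 (nat_lit 2) (nat_lit 0x2000040016800e0001400000000000000000000000000) (nat_lit 0x0) (nat_lit 0x2a00000000000000000000000000) := D_22 (nat_lit 107) (nat_lit 109) (nat_lit 105) (nat_lit 3) (nat_lit 4) (nat_lit 6) (nat_lit 3) (nat_lit 3) (nat_lit 6) (by decide +kernel)
theorem L67598 : W_22 (nat_lit 3) (nat_lit 0x2000040016800e0000400000000000000000000000000) (nat_lit 0x0) (nat_lit 0x3a00080000000000000000000000) := T_22 (nat_lit 108) (nat_lit 91) (nat_lit 5) (nat_lit 6) (nat_lit 5) L67597 (by decide +kernel)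
theorem L67599 : W_22 (nat_lit 4) (nat_lit 0x2000040016000e0000400000000000000000000000000) (nat_lit 0x0) (nat_lit 0x180000003a00080000000000000000000000) := T_22 (nat_lit 139) (nat_lit 140) (nat_lit 2) (nat_lit 3) (nat_lit 8) L67598 (by decide +kernel)
theorem L67600 : W_22 (nat_lit 2) (nat_lit 0x2000040016000e0001400000000000000000000000000) (nat_lit 0x0) (nat_lit 0x2a00000000000000000000000000) := D_22 (nat_lit 107) (nat_lit 109) (nat_lit 105) (nat_lit 3) (nat_lit 4) (nat_lit 6) (nat_lit 3) (nat_lit 3) (nat_lit 6) (by decide +kernel)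
theorem L67601 : W_22 (nat_lit 3) (nat_lit 0x2000040016000e0000400000000000000000000000000) (nat_lit 0x0) (nat_lit 0x3a00080000000000000000000000) := T_22 (nat_lit 108) (nat_lit 91) (nat_lit 5) (nat_lit 6) (nat_lit 5) L67600 (by decide +kernel)
theorem L67602 : W_22 (nat_lit 6) (nat_lit 0x2000040016000e0000000000000000000000000000000) (nat_lit 0x0) (nat_lit 0x1000080002000180008003e000a0000000000000000000000) := Q_22 (nat_lit 106) (C_22 L67593 (C_22 L67596 (C_22 L67599 (C_22 L67601 N_22)))) (by decide +kernel)
theorem L67603 : W_22 (nat_lit 7) (nat_lit 0x2000040016000a0000000000000000000000000000000) (nat_lit 0x0) (nat_lit 0x1000080002000180148003e000a0000000000000000000000) := T_22 (nat_lit 126) (nat_lit 128) (nat_lit 1) (nat_lit 9) (nat_lit 7) L67602 (by decide +kernel)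
theorem L67604 : W_22 (nat_lit 2) (nat_lit 0x10006000240016000a0000000000000000000000000000000) (nat_lit 0x0) (nat_lit 0x140002000000000000000000000000000) := D_22 (nat_lit 126) (nat_lit 109) (nat_lit 128) (nat_lit 4) (nat_lit 8) (nat_lit 10) (nat_lit 1) (nat_lit 9) (nat_lit 7) (by decide +kernel)
theorem L67605 : W_22 (nat_lit 3) (nat_lit 0x10006000040016000a0000000000000000000000000000000) (nat_lit 0x0) (nat_lit 0x4000000020000000140002000000000000000000000000000) := T_22 (nat_lit 161) (nat_lit 194) (nat_lit 5) (nat_lit 8) (nat_lit 7) L67604 (by decide +kernel)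
theorem L67606 : W_22 (nat_lit 4) (nat_lit 0x6000040016000a0000000000000000000000000000000) (nat_lit 0x0) (nat_lit 0x5000080020000000140002000000000000000000000000000) := T_22 (nat_lit 192) (nat_lit 175) (nat_lit 6) (nat_lit 5) (nat_lit 11) L67605 (by decide +kernel)
theorem L67607 : W_22 (nat_lit 2) (nat_lit 0xf000240016800e0000000000000000000000000000000) (nat_lit 0x0) (nat_lit 0x1000080002000000000000000000000000000000000000000) := D_22 (nat_lit 175) (nat_lit 157) (nat_lit 192) (nat_lit 0) (nat_lit 8) (nat_lit 10) (nat_lit 6) (nat_lit 5) (nat_lit 11) (by decide +kernel)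
theorem L67608 : W_22 (nat_lit 3) (nat_lit 0xe000240016800e0000000000000000000000000000000) (nat_lit 0x0) (nat_lit 0x100018000a000000000000000000000000000000000000000) := T_22 (nat_lit 176) (nat_lit 159) (nat_lit 0) (nat_lit 9) (nat_lit 10) L67607 (by decide +kernel)
theorem L67609 : W_22 (nat_lit 4) (nat_lit 0x6000240016800e0000000000000000000000000000000) (nat_lit 0x0) (nat_lit 0x1100098000a000000000000000000000000000000000000000) := T_22 (nat_lit 179) (nat_lit 196) (nat_lit 7) (nat_lit 8) (nat_lit 7) L67608 (by decide +kernel)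
theorem L67610 : W_22 (nat_lit 5) (nat_lit 0x6000240016000e0000000000000000000000000000000) (nat_lit 0x0) (nat_lit 0x1100098000a000180000000000000000000000000000000000) := T_22 (nat_lit 139) (nat_lit 140) (nat_lit 2) (nat_lit 3) (nat_lit 8) L67609 (by decide +kernel)
theorem L67611 : W_22 (nat_lit 6) (nat_lit 0x6000240016000a0000000000000000000000000000000) (nat_lit 0x0) (nat_lit 0x1100098000a000180040002000000000000000000000000000) := T_22 (nat_lit 126) (nat_lit 109) (nat_lit 4) (nat_lit 8) (nat_lit 10) L67610 (by decide +kernel)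
theorem L67612 : W_22 (nat_lit 7) (nat_lit 0x6000040016000a0000000000000000000000000000000) (nat_lit 0x0) (nat_lit 0x1500098002a000180040002000000000000000000000000000) := T_22 (nat_lit 161) (nat_lit 194) (nat_lit 5) (nat_lit 8) (nat_lit 7) L67611 (by decide +kernel)
theorem L67613 : W_22 (nat_lit 2) (nat_lit 0x6800240016000a0000000000000000000000000000000) (nat_lit 0x0) (nat_lit 0x100042000000000000000000000000000000000000000) := D_22 (nat_lit 176) (nat_lit 162) (nat_lit 157) (nat_lit 2) (nat_lit 5) (nat_lit 10) (nat_lit 0) (nat_lit 8) (nat_lit 10) (by decide +kernel)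
theorem L67614 : W_22 (nat_lit 3) (nat_lit 0x6800040016000a0000000000000000000000000000000) (nat_lit 0x0) (nat_lit 0x4000100062000000000000000000000000000000000000000) := T_22 (nat_lit 161) (nat_lit 194) (nat_lit 5) (nat_lit 8) (nat_lit 7) L67613 (by decide +kernel)
theorem L67615 : W_22 (nat_lit 4) (nat_lit 0x6000040016000a0000000000000000000000000000000) (nat_lit 0x0) (nat_lit 0x5000180062000000000000000000000000000000000000000) := T_22 (nat_lit 175) (nat_lit 192) (nat_lit 6) (nat_lit 5) (nat_lit 11) L67614 (by decide +kernel)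
theorem L67616 : W_22 (nat_lit 2) (nat_lit 0x7800040016001a0000000000000000000000000000000) (nat_lit 0x0) (nat_lit 0x4000800008000000000000000000000000000000000000000) := D_22 (nat_lit 159) (nat_lit 179) (nat_lit 194) (nat_lit 0) (nat_lit 9) (nat_lit 10) (nat_lit 7) (nat_lit 6) (nat_lit 7) (by decide +kernel)
theorem L67617 : W_22 (nat_lit 3) (nat_lit 0x6800040016001a0000000000000000000000000000000) (nat_lit 0x0) (nat_lit 0x400090000a000000000000000000000000000000000000000) := T_22 (nat_lit 176) (nat_lit 157) (nat_lit 0) (nat_lit 8) (nat_lit 10) L67616 (by decide +kernel)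
theorem L67618 : W_22 (nat_lit 4) (nat_lit 0x6000040016001a0000000000000000000000000000000) (nat_lit 0x0) (nat_lit 0x500098000a000000000000000000000000000000000000000) := T_22 (nat_lit 175) (nat_lit 192) (nat_lit 6) (nat_lit 5) (nat_lit 11) L67617 (by decide +kernel)
theorem L67619 : W_22 (nat_lit 5) (nat_lit 0x6000040016000a0000000000000000000000000000000) (nat_lit 0x0) (nat_lit 0x500098000a000000140000000000000000000000000000000) := T_22 (nat_lit 128) (nat_lit 126) (nat_lit 1) (nat_lit 9) (nat_lit 7) L67618 (by decide +kernel)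
theorem L67620 : W_22 (nat_lit 2) (nat_lit 0x6000240016000a0000000000000000000000000000000) (nat_lit 0x0) (nat_lit 0x140002000000000000000000000000000) := D_22 (nat_lit 126) (nat_lit 109) (nat_lit 128) (nat_lit 4) (nat_lit 8) (nat_lit 10) (nat_lit 1) (nat_lit 9) (nat_lit 7) (by decide +kernel)
theorem L67621 : W_22 (nat_lit 3) (nat_lit 0x6000040016000a0000000000000000000000000000000) (nat_lit 0x0) (nat_lit 0x4000000020000000140002000000000000000000000000000) := T_22 (nat_lit 161) (nat_lit 194) (nat_lit 5) (nat_lit 8) (nat_lit 7) L67620 (by decide +kernel)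
theorem L67622 : W_22 (nat_lit 2) (nat_lit 0x7800040016001a0000000000000000000000000000000) (nat_lit 0x0) (nat_lit 0x60000000000008000000000000000000000000000) := D_22 (nat_lit 161) (nat_lit 111) (nat_lit 162) (nat_lit 6) (nat_lit 8) (nat_lit 10) (nat_lit 2) (nat_lit 5) (nat_lit 10) (by decide +kernel)
theorem L67623 : W_22 (nat_lit 3) (nat_lit 0x6800040016001a0000000000000000000000000000000) (nat_lit 0x0) (nat_lit 0x100062000000000008000000000000000000000000000) := T_22 (nat_lit 176) (nat_lit 157) (nat_lit 0) (nat_lit 8) (nat_lit 10) L67622 (by decide +kernel)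
theorem L67624 : W_22 (nat_lit 4) (nat_lit 0x6800040016000a0000000000000000000000000000000) (nat_lit 0x0) (nat_lit 0x100062000000140008000000000000000000000000000) := T_22 (nat_lit 128) (nat_lit 126) (nat_lit 1) (nat_lit 9) (nat_lit 7) L67623 (by decide +kernel)
theorem L67625 : W_22 (nat_lit 5) (nat_lit 0x6000040016000a0000000000000000000000000000000) (nat_lit 0x0) (nat_lit 0x1000180062000000140008000000000000000000000000000) := T_22 (nat_lit 175) (nat_lit 192) (nat_lit 6) (nat_lit 5) (nat_lit 11) L67624 (by decide +kernel)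
theorem L67626 : W_22 (nat_lit 8) (nat_lit 0x2000040016000a0000000000000000000000000000000) (nat_lit 0x0) (nat_lit 0x15000d8006a00018014000a000000000000000000000000000) := Q_22 (nat_lit 178) (C_22 L67606 (C_22 L67612 (C_22 L67615 (C_22 L67619 (C_22 L67621 (C_22 L67625 N_22)))))) (by decide +kernel)
theorem L67627 : W_22 (nat_lit 2) (nat_lit 0xe000240016000a0003000000000000000000000000000) (nat_lit 0x0) (nat_lit 0x100008000000000000000100000000000000000000000) := D_22 (nat_lit 159) (nat_lit 176) (nat_lit 92) (nat_lit 0) (nat_lit 9) (nat_lit 10) (nat_lit 6) (nat_lit 6) (nat_lit 9) (by decide +kernel)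
theorem L67628 : W_22 (nat_lit 3) (nat_lit 0x6000240016000a0003000000000000000000000000000) (nat_lit 0x0) (nat_lit 0x10000900008000000000000000100000000000000000000000) := T_22 (nat_lit 179) (nat_lit 196) (nat_lit 7) (nat_lit 8) (nat_lit 7) L67627 (by decide +kernel)
theorem L67629 : W_22 (nat_lit 4) (nat_lit 0x6000240016000a0002000000000000000000000000000) (nat_lit 0x0) (nat_lit 0x10000900008000000000001000180000000000000000000000) := T_22 (nat_lit 108) (nat_lit 91) (nat_lit 5) (nat_lit 6) (nat_lit 5) L67628 (by decide +kernel)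
theorem L67630 : W_22 (nat_lit 5) (nat_lit 0x6000240016000a0000000000000000000000000000000) (nat_lit 0x0) (nat_lit 0x10000900008000000040003000180000000000000000000000) := T_22 (nat_lit 109) (nat_lit 126) (nat_lit 4) (nat_lit 8) (nat_lit 10) L67629 (by decide +kernel)
theorem L67631 : W_22 (nat_lit 6) (nat_lit 0x6000040016000a0000000000000000000000000000000) (nat_lit 0x0) (nat_lit 0x14000900028000000040003000180000000000000000000000) := T_22 (nat_lit 161) (nat_lit 194) (nat_lit 5) (nat_lit 8) (nat_lit 7) L67630 (by decide +kernel)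
theorem L67632 : W_22 (nat_lit 2) (nat_lit 0xe000040016000a0000000000000000000000000000000) (nat_lit 0x0) (nat_lit 0x14000000020000000000000000000000000000000000000000) := D_22 (nat_lit 161) (nat_lit 194) (nat_lit 196) (nat_lit 5) (nat_lit 8) (nat_lit 7) (nat_lit 7) (nat_lit 8) (nat_lit 7) (by decide +kernel)
theorem L67633 : W_22 (nat_lit 2) (nat_lit 0x4003f000840016000a0000000080000000000000000000000) (nat_lit 0x0) (nat_lit 0xe0000000000000000000000000000000000000000000000000) := D_22 (nat_lit 198) (nat_lit 197) (nat_lit 199) (nat_lit 3) (nat_lit 7) (nat_lit 10) (nat_lit 3) (nat_lit 8) (nat_lit 10) (by decide +kernel)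
theorem L67634 : W_22 (nat_lit 3) (nat_lit 0x4001f000840016000a0000000080000000000000000000000) (nat_lit 0x0) (nat_lit 0xe8002000000000000000000000000000000000000000000000) := T_22 (nat_lit 181) (nat_lit 195) (nat_lit 1) (nat_lit 11) (nat_lit 10) L67633 (by decide +kernel)
theorem L67635 : W_22 (nat_lit 4) (nat_lit 0x4000f000840016000a0000000080000000000000000000000) (nat_lit 0x0) (nat_lit 0xe8003000100000000000000000000000000000000000000000) := T_22 (nat_lit 180) (nat_lit 164) (nat_lit 2) (nat_lit 7) (nat_lit 10) L67634 (by decide +kernel)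
theorem L67636 : W_22 (nat_lit 5) (nat_lit 0x4000f000040016000a0000000080000000000000000000000) (nat_lit 0x0) (nat_lit 0xe80030001c0000000000000000000000000000000000000000) := T_22 (nat_lit 163) (nat_lit 162) (nat_lit 2) (nat_lit 6) (nat_lit 10) L67635 (by decide +kernel)
theorem L67637 : W_22 (nat_lit 6) (nat_lit 0xf000040016000a0000000080000000000000000000000) (nat_lit 0x0) (nat_lit 0xec0030001e0000000000000000000000000000000000000000) := T_22 (nat_lit 194) (nat_lit 161) (nat_lit 5) (nat_lit 8) (nat_lit 7) L67636 (by decide +kernel)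
theorem L67638 : W_22 (nat_lit 7) (nat_lit 0xe000040016000a0000000080000000000000000000000) (nat_lit 0x0) (nat_lit 0xec0031001e8000000000000000000000000000000000000000) := T_22 (nat_lit 176) (nat_lit 159) (nat_lit 0) (nat_lit 9) (nat_lit 10) L67637 (by decide +kernel)
theorem L67639 : W_22 (nat_lit 8) (nat_lit 0xe000040016000a0000000000000000000000000000000) (nat_lit 0x0) (nat_lit 0xec0031001e8000000000001000080000000000000000000000) := T_22 (nat_lit 91) (nat_lit 108) (nat_lit 5) (nat_lit 6) (nat_lit 5) L67638 (by decide +kernel)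
theorem L67640 : W_22 (nat_lit 2) (nat_lit 0x20000f000840016000a0000000080000000000000000000000) (nat_lit 0x0) (nat_lit 0x40001000100000000000000000000000000000000000000000) := D_22 (nat_lit 180) (nat_lit 198) (nat_lit 164) (nat_lit 3) (nat_lit 7) (nat_lit 10) (nat_lit 2) (nat_lit 7) (nat_lit 10) (by decide +kernel)
theorem L67641 : W_22 (nat_lit 3) (nat_lit 0x20000f000040016000a0000000080000000000000000000000) (nat_lit 0x0) (nat_lit 0x400010001c0000000000000000000000000000000000000000) := T_22 (nat_lit 163) (nat_lit 162) (nat_lit 2) (nat_lit 6) (nat_lit 10) L67640 (by decide +kernel)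
theorem L67642 : W_22 (nat_lit 4) (nat_lit 0xf000040016000a0000000080000000000000000000000) (nat_lit 0x0) (nat_lit 0x700010001c0000000000000000000000000000000000000000) := T_22 (nat_lit 197) (nat_lit 196) (nat_lit 3) (nat_lit 6) (nat_lit 10) L67641 (by decide +kernel)
theorem L67643 : W_22 (nat_lit 5) (nat_lit 0xf000040016000a0000000000000000000000000000000) (nat_lit 0x0) (nat_lit 0x700010001c0000000000001000080000000000000000000000) := T_22 (nat_lit 91) (nat_lit 108) (nat_lit 5) (nat_lit 6) (nat_lit 5) L67642 (by decide +kernel)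
theorem L67644 : W_22 (nat_lit 6) (nat_lit 0xe000040016000a0000000000000000000000000000000) (nat_lit 0x0) (nat_lit 0x700011001c8000000000001000080000000000000000000000) := T_22 (nat_lit 176) (nat_lit 159) (nat_lit 0) (nat_lit 9) (nat_lit 10) L67643 (by decide +kernel)
theorem L67645 : W_22 (nat_lit 9) (nat_lit 0x6000040016000a0000000000000000000000000000000) (nat_lit 0x0) (nat_lit 0xfc0039001e8000000000001000080000000000000000000000) := Q_22 (nat_lit 179) (C_22 L67632 (C_22 L67639 (C_22 L67644 N_22))) (by decide +kernel)
theorem L67646 : W_22 (nat_lit 2) (nat_lit 0x60000c0016000a0000000000000000000000000000000) (nat_lit 0x0) (nat_lit 0x4000900000000000000000000000000000000000000000000) := D_22 (nat_lit 176) (nat_lit 179) (nat_lit 194) (nat_lit 0) (nat_lit 9) (nat_lit 10) (nat_lit 7) (nat_lit 6) (nat_lit 7) (by decide +kernel)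
theorem L67647 : W_22 (nat_lit 2) (nat_lit 0x60000c0016000e0003000000000000000000000000000) (nat_lit 0x0) (nat_lit 0xc00040000000000000000000000) := D_22 (nat_lit 107) (nat_lit 106) (nat_lit 90) (nat_lit 3) (nat_lit 4) (nat_lit 6) (nat_lit 4) (nat_lit 6) (nat_lit 9) (by decide +kernel)
theorem L67648 : W_22 (nat_lit 3) (nat_lit 0x60000c0016000e0001000000000000000000000000000) (nat_lit 0x0) (nat_lit 0x2c00140000000000000000000000) := T_22 (nat_lit 109) (nat_lit 92) (nat_lit 6) (nat_lit 6) (nat_lit 9) L67647 (by decide +kernel)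
theorem L67649 : W_22 (nat_lit 4) (nat_lit 0x60000c0016000a0001000000000000000000000000000) (nat_lit 0x0) (nat_lit 0x140002c00140000000000000000000000) := T_22 (nat_lit 126) (nat_lit 128) (nat_lit 1) (nat_lit 9) (nat_lit 7) L67648 (by decide +kernel)
theorem L67650 : W_22 (nat_lit 5) (nat_lit 0x60000c0016000a0000000000000000000000000000000) (nat_lit 0x0) (nat_lit 0x140003c001c0000000000000000000000) := T_22 (nat_lit 108) (nat_lit 91) (nat_lit 5) (nat_lit 6) (nat_lit 5) L67649 (by decide +kernel)
theorem L67651 : W_22 (nat_lit 6) (nat_lit 0x6000040016000a0000000000000000000000000000000) (nat_lit 0x0) (nat_lit 0x4000900008000000140003c001c0000000000000000000000) := Q_22 (nat_lit 159) (C_22 L67646 (C_22 L67650 N_22)) (by decide +kernel)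
theorem L67652 : W_22 (nat_lit 2) (nat_lit 0x6000040016000e0003000000000000000000000000000) (nat_lit 0x0) (nat_lit 0x8000000000000000100008000000000000000000) := D_22 (nat_lit 92) (nat_lit 75) (nat_lit 159) (nat_lit 7) (nat_lit 7) (nat_lit 4) (nat_lit 6) (nat_lit 6) (nat_lit 9) (by decide +kernel)
theorem L67653 : W_22 (nat_lit 3) (nat_lit 0x6000040016000e0001000000000000000000000000000) (nat_lit 0x0) (nat_lit 0x28000000000002000100008000000000000000000) := T_22 (nat_lit 109) (nat_lit 161) (nat_lit 4) (nat_lit 8) (nat_lit 10) L67652 (by decide +kernel)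
theorem L67654 : W_22 (nat_lit 4) (nat_lit 0x6000040016000a0001000000000000000000000000000) (nat_lit 0x0) (nat_lit 0x28000000140002000100008000000000000000000) := T_22 (nat_lit 126) (nat_lit 128) (nat_lit 1) (nat_lit 9) (nat_lit 7) L67653 (by decide +kernel)
theorem L67655 : W_22 (nat_lit 5) (nat_lit 0x6000040016000a0000000000000000000000000000000) (nat_lit 0x0) (nat_lit 0x28000000140003000180008000000000000000000) := T_22 (nat_lit 108) (nat_lit 91) (nat_lit 5) (nat_lit 6) (nat_lit 5) L67654 (by decide +kernel)
theorem L67656 : W_22 (nat_lit 10) (nat_lit 0x2000040016000a0000000000000000000000000000000) (nat_lit 0x0) (nat_lit 0xfc003d001e8000000140003c001c0008000000000000000000) := Q_22 (nat_lit 178) (C_22 L67621 (C_22 L67631 (C_22 L67645 (C_22 L67651 (C_22 L67655 N_22))))) (by decide +kernel)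
theorem L67657 : W_22 (nat_lit 11) (nat_lit 0x2000000016000a0000000000000000000000000000000) (nat_lit 0x0) (nat_lit 0xfd003d801ee00018014800be001e0008000000000000000000) := Q_22 (nat_lit 158) (C_22 L67546 (C_22 L67603 (C_22 L67626 (C_22 L67656 N_22)))) (by decide +kernel)
theorem L67658 : W_22 (nat_lit 2) (nat_lit 0x2000000016001a0001000180004000000000000000000) (nat_lit 0x0) (nat_lit 0x40002000100000000000000) := D_22 (nat_lit 73) (nat_lit 56) (nat_lit 90) (nat_lit 4) (nat_lit 6) (nat_lit 7) (nat_lit 4) (nat_lit 6) (nat_lit 8) (by decide +kernel)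
theorem L67659 : W_22 (nat_lit 3) (nat_lit 0x2000000016001a0001000180000000000000000000000) (nat_lit 0x0) (nat_lit 0x10000000040006000100000000000000) := T_22 (nat_lit 74) (nat_lit 124) (nat_lit 5) (nat_lit 6) (nat_lit 4) L67658 (by decide +kernel)
theorem L67660 : W_22 (nat_lit 4) (nat_lit 0x2000000016001a0001000080000000000000000000000) (nat_lit 0x0) (nat_lit 0x1000000014000e000100000000000000) := T_22 (nat_lit 92) (nat_lit 75) (nat_lit 6) (nat_lit 6) (nat_lit 8) L67659 (by decide +kernel)
theorem L67661 : W_22 (nat_lit 5) (nat_lit 0x2000000016000a0001000080000000000000000000000) (nat_lit 0x0) (nat_lit 0x15000000014000e000100000000000000) := T_22 (nat_lit 128) (nat_lit 126) (nat_lit 1) (nat_lit 9) (nat_lit 7) L67660 (by decide +kernel)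
theorem L67662 : W_22 (nat_lit 2) (nat_lit 0x2000000016000a0001000180004000000000000000000) (nat_lit 0x0) (nat_lit 0x40002000100000000000000) := D_22 (nat_lit 73) (nat_lit 56) (nat_lit 90) (nat_lit 4) (nat_lit 6) (nat_lit 7) (nat_lit 4) (nat_lit 6) (nat_lit 8) (by decide +kernel)
theorem L67663 : W_22 (nat_lit 3) (nat_lit 0x2000000016000a0001000180000000000000000000000) (nat_lit 0x0) (nat_lit 0x10000000040006000100000000000000) := T_22 (nat_lit 74) (nat_lit 124) (nat_lit 5) (nat_lit 6) (nat_lit 4) L67662 (by decide +kernel)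
theorem L67664 : W_22 (nat_lit 4) (nat_lit 0x2000000016000a0001000080000000000000000000000) (nat_lit 0x0) (nat_lit 0x1000000014000e000100000000000000) := T_22 (nat_lit 92) (nat_lit 75) (nat_lit 6) (nat_lit 6) (nat_lit 8) L67663 (by decide +kernel)
theorem L67665 : W_22 (nat_lit 2) (nat_lit 0x2000080016001a0001000180000000000000000000000) (nat_lit 0x0) (nat_lit 0x800040002000000000000000000) := D_22 (nat_lit 90) (nat_lit 107) (nat_lit 73) (nat_lit 4) (nat_lit 6) (nat_lit 9) (nat_lit 4) (nat_lit 6) (nat_lit 8) (by decide +kernel)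
theorem L67666 : W_22 (nat_lit 3) (nat_lit 0x2000000016001a0001000180000000000000000000000) (nat_lit 0x0) (nat_lit 0x8000000000002800040002000000000000000000) := T_22 (nat_lit 159) (nat_lit 109) (nat_lit 6) (nat_lit 6) (nat_lit 9) L67665 (by decide +kernel)
theorem L67667 : W_22 (nat_lit 4) (nat_lit 0x2000000016000a0001000180000000000000000000000) (nat_lit 0x0) (nat_lit 0x8000000140002800040002000000000000000000) := T_22 (nat_lit 128) (nat_lit 126) (nat_lit 1) (nat_lit 9) (nat_lit 7) L67666 (by decide +kernel)
theorem L67668 : W_22 (nat_lit 5) (nat_lit 0x2000000016000a0001000080000000000000000000000) (nat_lit 0x0) (nat_lit 0x800000014000280014000a000000000000000000) := T_22 (nat_lit 92) (nat_lit 75) (nat_lit 6) (nat_lit 6) (nat_lit 8) L67667 (by decide +kernel)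
theorem L67669 : W_22 (nat_lit 2) (nat_lit 0x2000000016000a0001000080004000000000000000000) (nat_lit 0x0) (nat_lit 0x100008000400000000000000) := D_22 (nat_lit 75) (nat_lit 92) (nat_lit 58) (nat_lit 6) (nat_lit 6) (nat_lit 8) (nat_lit 6) (nat_lit 6) (nat_lit 7) (by decide +kernel)
theorem L67670 : W_22 (nat_lit 3) (nat_lit 0x2000000016000a0001000080000000000000000000000) (nat_lit 0x0) (nat_lit 0x1000000010000c000400000000000000) := T_22 (nat_lit 74) (nat_lit 124) (nat_lit 5) (nat_lit 6) (nat_lit 4) L67669 (by decide +kernel)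
theorem L67671 : W_22 (nat_lit 6) (nat_lit 0x2000000016000a0001000000000000000000000000000) (nat_lit 0x0) (nat_lit 0x80000001500028001c000e000500000000000000) := Q_22 (nat_lit 91) (C_22 L67661 (C_22 L67664 (C_22 L67668 (C_22 L62621 (C_22 L67670 N_22))))) (by decide +kernel)
theorem L67672 : W_22 (nat_lit 5) (nat_lit 0x2000000016001a0001000000000000000000000000000) (nat_lit 0x0) (nat_lit 0x40000000100000001c000e000100000000000000) := T_22 (nat_lit 91) (nat_lit 158) (nat_lit 5) (nat_lit 6) (nat_lit 5) L67660 (by decide +kernel)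
theorem L67673 : W_22 (nat_lit 6) (nat_lit 0x2000000016000a0001000000000000000000000000000) (nat_lit 0x0) (nat_lit 0x40000001500000001c000e000100000000000000) := T_22 (nat_lit 128) (nat_lit 126) (nat_lit 1) (nat_lit 9) (nat_lit 7) L67672 (by decide +kernel)
theorem L67674 : W_22 (nat_lit 4) (nat_lit 0x2000000016000a0001000000000000000000000000000) (nat_lit 0x0) (nat_lit 0x400000001000000018000c000400000000000000) := T_22 (nat_lit 91) (nat_lit 158) (nat_lit 5) (nat_lit 6) (nat_lit 5) L67670 (by decide +kernel)
theorem L67675 : W_22 (nat_lit 6) (nat_lit 0x2000000016000a0001000000000000000000000000000) (nat_lit 0x0) (nat_lit 0xc0000001400028001c000a000000000000000000) := T_22 (nat_lit 91) (nat_lit 158) (nat_lit 5) (nat_lit 6) (nat_lit 5) L67668 (by decide +kernel)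
theorem L67676 : W_22 (nat_lit 2) (nat_lit 0x2000080016000a0003000000000000000000000000000) (nat_lit 0x0) (nat_lit 0x4000100000000000040000000000000000000000000000000) := D_22 (nat_lit 176) (nat_lit 194) (nat_lit 126) (nat_lit 7) (nat_lit 6) (nat_lit 7) (nat_lit 6) (nat_lit 6) (nat_lit 10) (by decide +kernel)
theorem L67677 : W_22 (nat_lit 3) (nat_lit 0x2000080016000a0001000000000000000000000000000) (nat_lit 0x0) (nat_lit 0x4000100000000000040002000100000000000000000000000) := T_22 (nat_lit 109) (nat_lit 92) (nat_lit 6) (nat_lit 6) (nat_lit 9) L67676 (by decide +kernel)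
theorem L67678 : W_22 (nat_lit 2) (nat_lit 0x2000080016000e0003000000000000000000000000000) (nat_lit 0x0) (nat_lit 0xc00040000000000000000000000) := D_22 (nat_lit 107) (nat_lit 90) (nat_lit 106) (nat_lit 4) (nat_lit 6) (nat_lit 9) (nat_lit 3) (nat_lit 4) (nat_lit 6) (by decide +kernel)
theorem L67679 : W_22 (nat_lit 3) (nat_lit 0x2000080016000e0001000000000000000000000000000) (nat_lit 0x0) (nat_lit 0x2c00140000000000000000000000) := T_22 (nat_lit 109) (nat_lit 92) (nat_lit 6) (nat_lit 6) (nat_lit 9) L67678 (by decide +kernel)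
theorem L67680 : W_22 (nat_lit 4) (nat_lit 0x2000080016000a0001000000000000000000000000000) (nat_lit 0x0) (nat_lit 0x140002c00140000000000000000000000) := T_22 (nat_lit 126) (nat_lit 128) (nat_lit 1) (nat_lit 9) (nat_lit 7) L67679 (by decide +kernel)
theorem L67681 : W_22 (nat_lit 2) (nat_lit 0x3000080016000a0003000000000000000000000000000) (nat_lit 0x0) (nat_lit 0x1000080004000000000000000000000000000000000000000) := D_22 (nat_lit 175) (nat_lit 192) (nat_lit 158) (nat_lit 5) (nat_lit 6) (nat_lit 7) (nat_lit 5) (nat_lit 6) (nat_lit 6) (by decide +kernel)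
theorem L67682 : W_22 (nat_lit 3) (nat_lit 0x2000080016000a0003000000000000000000000000000) (nat_lit 0x0) (nat_lit 0x5000180004000000000000000000000000000000000000000) := T_22 (nat_lit 176) (nat_lit 194) (nat_lit 7) (nat_lit 6) (nat_lit 7) L67681 (by decide +kernel)
theorem L67683 : W_22 (nat_lit 4) (nat_lit 0x2000080016000a0001000000000000000000000000000) (nat_lit 0x0) (nat_lit 0x5000180004000000000002000100000000000000000000000) := T_22 (nat_lit 109) (nat_lit 92) (nat_lit 6) (nat_lit 6) (nat_lit 9) L67682 (by decide +kernel)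
theorem L67684 : W_22 (nat_lit 5) (nat_lit 0x2000000016000a0001000000000000000000000000000) (nat_lit 0x0) (nat_lit 0x500018000c000000140002c00140000000000000000000000) := Q_22 (nat_lit 159) (C_22 L61602 (C_22 L67677 (C_22 L67680 (C_22 L67683 N_22)))) (by decide +kernel)
theorem L67685 : W_22 (nat_lit 7) (nat_lit 0x2000000016000a0000000000000000000000000000000) (nat_lit 0x0) (nat_lit 0x500018000c000000150003c001c000e000500000000000000) := Q_22 (nat_lit 108) (C_22 L67671 (C_22 L67673 (C_22 L67674 (C_22 L67675 (C_22 L62622 (C_22 L67684 N_22)))))) (by decide +kernel)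
theorem L67686 : W_22 (nat_lit 15) (nat_lit 0x200000001600080000000000000000000000000000000) (nat_lit 0x0) (nat_lit 0xfde03df01ef8001c017e00bf007f800f000500000000000000) := Q_22 (nat_lit 125) (C_22 L61545 (C_22 L67544 (C_22 L67589 (C_22 L67657 (C_22 L67685 N_22))))) (by decide +kernel)
theorem L67687 : W_22 (nat_lit 16) (nat_lit 0x200000001200080000000000000000000000000000000) (nat_lit 0x0) (nat_lit 0x300fde03df01ef800dc017e00bf007f800f000500000000000000) := Q_22 (nat_lit 142) (C_22 L61613 (C_22 L61614 (C_22 L67457 (C_22 L67458 (C_22 L67686 N_22))))) (by decide +kernel)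
theorem L67688 : W_22 (nat_lit 2) (nat_lit 0x2000080016000e0000000000000000000000000000000) (nat_lit 0x0) (nat_lit 0x4000100000000000000002000000000000000000000000000) := D_22 (nat_lit 176) (nat_lit 109) (nat_lit 194) (nat_lit 6) (nat_lit 6) (nat_lit 10) (nat_lit 7) (nat_lit 6) (nat_lit 7) (by decide +kernel)
theorem L67689 : W_22 (nat_lit 2) (nat_lit 0x2000080016800e0001000000000000000000000000000) (nat_lit 0x0) (nat_lit 0x80004000000000000000080000000000000000000000) := D_22 (nat_lit 158) (nat_lit 91) (nat_lit 175) (nat_lit 5) (nat_lit 6) (nat_lit 5) (nat_lit 5) (nat_lit 6) (nat_lit 6) (by decide +kernel)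
theorem L67690 : W_22 (nat_lit 3) (nat_lit 0x2000080016800e0000000000000000000000000000000) (nat_lit 0x0) (nat_lit 0x80014000000000001000080000000000000000000000) := T_22 (nat_lit 108) (nat_lit 160) (nat_lit 7) (nat_lit 6) (nat_lit 6) L67689 (by decide +kernel)
theorem L67691 : W_22 (nat_lit 4) (nat_lit 0x2000080016000e0000000000000000000000000000000) (nat_lit 0x0) (nat_lit 0x80014000180000001000080000000000000000000000) := T_22 (nat_lit 139) (nat_lit 140) (nat_lit 2) (nat_lit 3) (nat_lit 8) L67690 (by decide +kernel)
theorem L67692 : W_22 (nat_lit 5) (nat_lit 0x2000000016000e0000000000000000000000000000000) (nat_lit 0x0) (nat_lit 0x400018001c000180000003000080000000000000000000000) := Q_22 (nat_lit 159) (C_22 L67688 (C_22 L67691 N_22)) (by decide +kernel)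
theorem L67693 : W_22 (nat_lit 2) (nat_lit 0x2000080016000e0001000000000000000000000000000) (nat_lit 0x0) (nat_lit 0x80004000000000000000080000000000000000000000) := D_22 (nat_lit 158) (nat_lit 175) (nat_lit 91) (nat_lit 5) (nat_lit 6) (nat_lit 6) (nat_lit 5) (nat_lit 6) (nat_lit 5) (by decide +kernel)
theorem L67694 : W_22 (nat_lit 2) (nat_lit 0x2000000012000f0001800000000000000000000000000) (nat_lit 0x0) (nat_lit 0x4000000000000000080004000000000000000000) := D_22 (nat_lit 91) (nat_lit 74) (nat_lit 158) (nat_lit 5) (nat_lit 6) (nat_lit 4) (nat_lit 6) (nat_lit 5) (nat_lit 9) (by decide +kernel)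
theorem L67695 : W_22 (nat_lit 3) (nat_lit 0x2000000012000f0000800000000000000000000000000) (nat_lit 0x0) (nat_lit 0x4000000100001000080004000000000000000000) := T_22 (nat_lit 108) (nat_lit 128) (nat_lit 0) (nat_lit 9) (nat_lit 7) L67694 (by decide +kernel)
theorem L67696 : W_22 (nat_lit 4) (nat_lit 0x2000000012000f0000000000000000000000000000000) (nat_lit 0x0) (nat_lit 0x4000000100001c00080004000000000000000000) := T_22 (nat_lit 107) (nat_lit 106) (nat_lit 0) (nat_lit 8) (nat_lit 7) L67695 (by decide +kernel)
theorem L67697 : W_22 (nat_lit 5) (nat_lit 0x2000000012000e0000000000000000000000000000000) (nat_lit 0x0) (nat_lit 0x4000100110001c00080004000000000000000000) := T_22 (nat_lit 124) (nat_lit 140) (nat_lit 1) (nat_lit 8) (nat_lit 7) L67696 (by decide +kernel)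
theorem L67698 : W_22 (nat_lit 2) (nat_lit 0x2000000012001e0011000000000000000000000000000) (nat_lit 0x0) (nat_lit 0x200022000000000000000000000000000) := D_22 (nat_lit 129) (nat_lit 109) (nat_lit 113) (nat_lit 0) (nat_lit 10) (nat_lit 7) (nat_lit 2) (nat_lit 7) (nat_lit 7) (by decide +kernel)
theorem L67699 : W_22 (nat_lit 3) (nat_lit 0x2000000012001e0001000000000000000000000000000) (nat_lit 0x0) (nat_lit 0x20003a000000000000000000000000000) := T_22 (nat_lit 112) (nat_lit 111) (nat_lit 2) (nat_lit 6) (nat_lit 7) L67698 (by decide +kernel)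
theorem L67700 : W_22 (nat_lit 4) (nat_lit 0x2000000012001e0000000000000000000000000000000) (nat_lit 0x0) (nat_lit 0x20003b800000000000000000000000000) := T_22 (nat_lit 108) (nat_lit 107) (nat_lit 0) (nat_lit 9) (nat_lit 7) L67699 (by decide +kernel)
theorem L67701 : W_22 (nat_lit 5) (nat_lit 0x2000000012000e0000000000000000000000000000000) (nat_lit 0x0) (nat_lit 0x40030003b800000000000000000000000000) := T_22 (nat_lit 128) (nat_lit 142) (nat_lit 1) (nat_lit 9) (nat_lit 7) L67700 (by decide +kernel)
theorem L67702 : W_22 (nat_lit 3) (nat_lit 0x2000000012000e0000000000000000000000000000000) (nat_lit 0x0) (nat_lit 0x580110000000000000000000000000000000) := T_22 (nat_lit 142) (nat_lit 128) (nat_lit 1) (nat_lit 9) (nat_lit 7) L61544 (by decide +kernel)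
theorem L67703 : W_22 (nat_lit 2) (nat_lit 0x2000080016800e0001000000000000000000000000000) (nat_lit 0x0) (nat_lit 0x4000100000000000000002000000000000000000000000000) := D_22 (nat_lit 176) (nat_lit 109) (nat_lit 194) (nat_lit 6) (nat_lit 6) (nat_lit 10) (nat_lit 7) (nat_lit 6) (nat_lit 7) (by decide +kernel)
theorem L67704 : W_22 (nat_lit 3) (nat_lit 0x2000000016800e0001000000000000000000000000000) (nat_lit 0x0) (nat_lit 0x4000100018000000000002000000000000000000000000000) := T_22 (nat_lit 159) (nat_lit 160) (nat_lit 7) (nat_lit 6) (nat_lit 6) L67703 (by decide +kernel)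
theorem L67705 : W_22 (nat_lit 4) (nat_lit 0x2000000016000e0001000000000000000000000000000) (nat_lit 0x0) (nat_lit 0x4000100018000180000002000000000000000000000000000) := T_22 (nat_lit 139) (nat_lit 140) (nat_lit 2) (nat_lit 3) (nat_lit 8) L67704 (by decide +kernel)
theorem L67706 : W_22 (nat_lit 4) (nat_lit 0x2000000016000e0001000000000000000000000000000) (nat_lit 0x0) (nat_lit 0x18000000000002c00140000000000000000000000) := T_22 (nat_lit 159) (nat_lit 160) (nat_lit 7) (nat_lit 6) (nat_lit 6) L67679 (by decide +kernel)
theorem L67707 : W_22 (nat_lit 2) (nat_lit 0x2000000016800e00010000d000c000200010000000000) (nat_lit 0x0) (nat_lit 0x100008000400000) := D_22 (nat_lit 39) (nat_lit 22) (nat_lit 56) (nat_lit 4) (nat_lit 6) (nat_lit 5) (nat_lit 4) (nat_lit 6) (nat_lit 6) (by decide +kernel)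
theorem L67708 : W_22 (nat_lit 3) (nat_lit 0x2000000016800e00010000d000c000200000000000000) (nat_lit 0x0) (nat_lit 0x800000000000100018000400000) := T_22 (nat_lit 40) (nat_lit 107) (nat_lit 5) (nat_lit 6) (nat_lit 2) L67707 (by decide +kernel)
theorem L67709 : W_22 (nat_lit 4) (nat_lit 0x2000000016800e00010000d000c000000000000000000) (nat_lit 0x0) (nat_lit 0x2800000000000300018000400000) := T_22 (nat_lit 57) (nat_lit 109) (nat_lit 7) (nat_lit 6) (nat_lit 3) L67708 (by decide +kernel)
theorem L67710 : W_22 (nat_lit 5) (nat_lit 0x2000000016800e00010000c000c000000000000000000) (nat_lit 0x0) (nat_lit 0x2800030000000300018000400000) := T_22 (nat_lit 88) (nat_lit 89) (nat_lit 2) (nat_lit 3) (nat_lit 5) L67709 (by decide +kernel)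
theorem L67711 : W_22 (nat_lit 6) (nat_lit 0x2000000016800e00010000c0008000000000000000000) (nat_lit 0x0) (nat_lit 0x2800030004000700018000400000) := T_22 (nat_lit 74) (nat_lit 58) (nat_lit 6) (nat_lit 6) (nat_lit 7) L67710 (by decide +kernel)
theorem L67712 : W_22 (nat_lit 7) (nat_lit 0x2000000016800e00010000c0000000000000000000000) (nat_lit 0x0) (nat_lit 0x280013000c000700018000400000) := T_22 (nat_lit 75) (nat_lit 92) (nat_lit 6) (nat_lit 6) (nat_lit 8) L67711 (by decide +kernel)
theorem L67713 : W_22 (nat_lit 8) (nat_lit 0x2000000016800e0001000080000000000000000000000) (nat_lit 0x0) (nat_lit 0x280017000e000700018000400000) := T_22 (nat_lit 90) (nat_lit 73) (nat_lit 4) (nat_lit 6) (nat_lit 8) L67712 (by decide +kernel)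
theorem L67714 : W_22 (nat_lit 9) (nat_lit 0x2000000016800e0001000000000000000000000000000) (nat_lit 0x0) (nat_lit 0x40000000000028001f000e000700018000400000) := T_22 (nat_lit 91) (nat_lit 158) (nat_lit 5) (nat_lit 6) (nat_lit 5) L67713 (by decide +kernel)
theorem L67715 : W_22 (nat_lit 10) (nat_lit 0x2000000016000e0001000000000000000000000000000) (nat_lit 0x0) (nat_lit 0x40001800000028001f000e000700018000400000) := T_22 (nat_lit 139) (nat_lit 140) (nat_lit 2) (nat_lit 3) (nat_lit 8) L67714 (by decide +kernel)
theorem L67716 : W_22 (nat_lit 2) (nat_lit 0x2000000016000e00010000c0000000000000000000000) (nat_lit 0x0) (nat_lit 0x18000000000000800000000000000000000000000) := D_22 (nat_lit 159) (nat_lit 160) (nat_lit 107) (nat_lit 7) (nat_lit 6) (nat_lit 6) (nat_lit 4) (nat_lit 6) (nat_lit 9) (by decide +kernel)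
theorem L67717 : W_22 (nat_lit 3) (nat_lit 0x2000000016000e0001000080000000000000000000000) (nat_lit 0x0) (nat_lit 0x18000000000000800040002000000000000000000) := T_22 (nat_lit 90) (nat_lit 73) (nat_lit 4) (nat_lit 6) (nat_lit 8) L67716 (by decide +kernel)
theorem L67718 : W_22 (nat_lit 4) (nat_lit 0x2000000016000e0001000000000000000000000000000) (nat_lit 0x0) (nat_lit 0x1c0000000000008000c0002000000000000000000) := T_22 (nat_lit 91) (nat_lit 158) (nat_lit 5) (nat_lit 6) (nat_lit 5) L67717 (by decide +kernel)
theorem L67719 : W_22 (nat_lit 11) (nat_lit 0x2000000016000e0000000000000000000000000000000) (nat_lit 0x0) (nat_lit 0x400010001c000180000003c001f000e000700018000400000) := Q_22 (nat_lit 108) (C_22 L67705 (C_22 L67706 (C_22 L67715 (C_22 L67718 N_22)))) (by decide +kernel)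
theorem L67720 : W_22 (nat_lit 2) (nat_lit 0x2000000016000e0001000080004000000000000000000) (nat_lit 0x0) (nat_lit 0x40002000100000000000000) := D_22 (nat_lit 73) (nat_lit 56) (nat_lit 90) (nat_lit 4) (nat_lit 6) (nat_lit 7) (nat_lit 4) (nat_lit 6) (nat_lit 8) (by decide +kernel)
theorem L67721 : W_22 (nat_lit 3) (nat_lit 0x2000000016000e0001000080000000000000000000000) (nat_lit 0x0) (nat_lit 0x10000000040006000100000000000000) := T_22 (nat_lit 74) (nat_lit 124) (nat_lit 5) (nat_lit 6) (nat_lit 4) L67720 (by decide +kernel)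
theorem L67722 : W_22 (nat_lit 4) (nat_lit 0x2000000016000e0001000000000000000000000000000) (nat_lit 0x0) (nat_lit 0x40000000100000000c0006000100000000000000) := T_22 (nat_lit 91) (nat_lit 158) (nat_lit 5) (nat_lit 6) (nat_lit 5) L67721 (by decide +kernel)
theorem L67723 : W_22 (nat_lit 2) (nat_lit 0x2000080016000e0001000000000000000000000000000) (nat_lit 0x0) (nat_lit 0x4000100000000000000002000000000000000000000000000) := D_22 (nat_lit 176) (nat_lit 109) (nat_lit 194) (nat_lit 6) (nat_lit 6) (nat_lit 10) (nat_lit 7) (nat_lit 6) (nat_lit 7) (by decide +kernel)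
theorem L67724 : W_22 (nat_lit 3) (nat_lit 0x2000000016000e0001000000000000000000000000000) (nat_lit 0x0) (nat_lit 0x4000100018000000000002000000000000000000000000000) := T_22 (nat_lit 159) (nat_lit 160) (nat_lit 7) (nat_lit 6) (nat_lit 6) L67723 (by decide +kernel)
theorem L67725 : W_22 (nat_lit 5) (nat_lit 0x2000000016000e0000000000000000000000000000000) (nat_lit 0x0) (nat_lit 0x400010001c000000010003c001c0006000100000000000000) := Q_22 (nat_lit 108) (C_22 L67722 (C_22 L67706 (C_22 L67724 N_22))) (by decide +kernel)
theorem L67726 : W_22 (nat_lit 12) (nat_lit 0x2000000012000e0000000000000000000000000000000) (nat_lit 0x0) (nat_lit 0x400010001c000580010003c001f000e000700018000400000) := Q_22 (nat_lit 142) (C_22 L61544 (C_22 L67719 (C_22 L67725 N_22))) (by decide +kernel)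
theorem L67727 : W_22 (nat_lit 13) (nat_lit 0x2000000012000a0000000000000000000000000000000) (nat_lit 0x0) (nat_lit 0x400010001c00058035003bc001f000e000700018000400000) := Q_22 (nat_lit 126) (C_22 L67702 (C_22 L67726 (C_22 L67697 (C_22 L67701 N_22)))) (by decide +kernel)
theorem L67728 : W_22 (nat_lit 2) (nat_lit 0x6000000012000e0000000000000000000000000000000) (nat_lit 0x0) (nat_lit 0x4000000020000000000002000000000000000000000000000) := D_22 (nat_lit 161) (nat_lit 109) (nat_lit 194) (nat_lit 4) (nat_lit 8) (nat_lit 10) (nat_lit 5) (nat_lit 8) (nat_lit 7) (by decide +kernel)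
theorem L67729 : W_22 (nat_lit 2) (nat_lit 0x40006000080017000e0000000000000000000000000000000) (nat_lit 0x0) (nat_lit 0x80000000000010000000000001000000000000000000000000000) := D_22 (nat_lit 160) (nat_lit 108) (nat_lit 211) (nat_lit 7) (nat_lit 6) (nat_lit 6) (nat_lit 4) (nat_lit 7) (nat_lit 12) (by decide +kernel)
theorem L67730 : W_22 (nat_lit 3) (nat_lit 0x40006000000017000e0000000000000000000000000000000) (nat_lit 0x0) (nat_lit 0x80000000100018000000000001000000000000000000000000000) := T_22 (nat_lit 159) (nat_lit 176) (nat_lit 7) (nat_lit 6) (nat_lit 7) L67729 (by decide +kernel)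
theorem L67731 : W_22 (nat_lit 4) (nat_lit 0x40006000000013000e0000000000000000000000000000000) (nat_lit 0x0) (nat_lit 0x80000000100018000480000001000000000000000000000000000) := T_22 (nat_lit 142) (nat_lit 139) (nat_lit 2) (nat_lit 3) (nat_lit 8) L67730 (by decide +kernel)
theorem L67732 : W_22 (nat_lit 5) (nat_lit 0x6000000013000e0000000000000000000000000000000) (nat_lit 0x0) (nat_lit 0x80004000100038000480000001000000000000000000000000000) := T_22 (nat_lit 194) (nat_lit 161) (nat_lit 5) (nat_lit 8) (nat_lit 7) L67731 (by decide +kernel)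
theorem L67733 : W_22 (nat_lit 6) (nat_lit 0x6000000012000e0000000000000000000000000000000) (nat_lit 0x0) (nat_lit 0x80004000100038000580010001000000000000000000000000000) := T_22 (nat_lit 140) (nat_lit 124) (nat_lit 1) (nat_lit 8) (nat_lit 7) L67732 (by decide +kernel)
theorem L67734 : W_22 (nat_lit 2) (nat_lit 0x6000080016000e0000000000000000000000000000000) (nat_lit 0x0) (nat_lit 0x4000100000000000000002000000000000000000000000000) := D_22 (nat_lit 176) (nat_lit 109) (nat_lit 194) (nat_lit 6) (nat_lit 6) (nat_lit 10) (nat_lit 7) (nat_lit 6) (nat_lit 7) (by decide +kernel)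
theorem L67735 : W_22 (nat_lit 2) (nat_lit 0x6000080016800e0003000000000000000000000000000) (nat_lit 0x0) (nat_lit 0xc00040000000000000000000000) := D_22 (nat_lit 107) (nat_lit 106) (nat_lit 90) (nat_lit 3) (nat_lit 4) (nat_lit 6) (nat_lit 4) (nat_lit 6) (nat_lit 9) (by decide +kernel)
theorem L67736 : W_22 (nat_lit 3) (nat_lit 0x6000080016800e0001000000000000000000000000000) (nat_lit 0x0) (nat_lit 0x2c00140000000000000000000000) := T_22 (nat_lit 109) (nat_lit 92) (nat_lit 6) (nat_lit 6) (nat_lit 9) L67735 (by decide +kernel)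
theorem L67737 : W_22 (nat_lit 4) (nat_lit 0x6000080016800e0000000000000000000000000000000) (nat_lit 0x0) (nat_lit 0x10000000000003c00140000000000000000000000) := T_22 (nat_lit 108) (nat_lit 160) (nat_lit 7) (nat_lit 6) (nat_lit 6) L67736 (by decide +kernel)
theorem L67738 : W_22 (nat_lit 5) (nat_lit 0x6000080016000e0000000000000000000000000000000) (nat_lit 0x0) (nat_lit 0x10000180000003c00140000000000000000000000) := T_22 (nat_lit 139) (nat_lit 140) (nat_lit 2) (nat_lit 3) (nat_lit 8) L67737 (by decide +kernel)
theorem L67739 : W_22 (nat_lit 2) (nat_lit 0x6000180016000e0000000000000000000000000000000) (nat_lit 0x0) (nat_lit 0x80004000100000000000000000000000000000000000000000000) := D_22 (nat_lit 194) (nat_lit 176) (nat_lit 211) (nat_lit 7) (nat_lit 6) (nat_lit 7) (nat_lit 4) (nat_lit 7) (nat_lit 12) (by decide +kernel)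
theorem L67740 : W_22 (nat_lit 3) (nat_lit 0x6000080016000e0000000000000000000000000000000) (nat_lit 0x0) (nat_lit 0x80004000100010000000000001000000000000000000000000000) := T_22 (nat_lit 160) (nat_lit 108) (nat_lit 7) (nat_lit 6) (nat_lit 6) L67739 (by decide +kernel)
theorem L67741 : W_22 (nat_lit 6) (nat_lit 0x6000000016000e0000000000000000000000000000000) (nat_lit 0x0) (nat_lit 0x80004000100018000180000003c00140000000000000000000000) := Q_22 (nat_lit 159) (C_22 L67734 (C_22 L67738 (C_22 L67740 N_22))) (by decide +kernel)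
theorem L67742 : W_22 (nat_lit 2) (nat_lit 0x6000000016000e0000000000000000000000000000000) (nat_lit 0x0) (nat_lit 0x180010000000000000000000000000000000) := D_22 (nat_lit 140) (nat_lit 139) (nat_lit 124) (nat_lit 2) (nat_lit 3) (nat_lit 8) (nat_lit 1) (nat_lit 8) (nat_lit 7) (by decide +kernel)
theorem L67743 : W_22 (nat_lit 2) (nat_lit 0x6000080016000e0003000000000000000000000000000) (nat_lit 0x0) (nat_lit 0xc00040000000000000000000000) := D_22 (nat_lit 107) (nat_lit 106) (nat_lit 90) (nat_lit 3) (nat_lit 4) (nat_lit 6) (nat_lit 4) (nat_lit 6) (nat_lit 9) (by decide +kernel)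
theorem L67744 : W_22 (nat_lit 3) (nat_lit 0x6000080016000e0001000000000000000000000000000) (nat_lit 0x0) (nat_lit 0x2c00140000000000000000000000) := T_22 (nat_lit 109) (nat_lit 92) (nat_lit 6) (nat_lit 6) (nat_lit 9) L67743 (by decide +kernel)
theorem L67745 : W_22 (nat_lit 4) (nat_lit 0x6000080016000e0000000000000000000000000000000) (nat_lit 0x0) (nat_lit 0x10000000000003c00140000000000000000000000) := T_22 (nat_lit 108) (nat_lit 160) (nat_lit 7) (nat_lit 6) (nat_lit 6) L67744 (by decide +kernel)
theorem L67746 : W_22 (nat_lit 5) (nat_lit 0x6000000016000e0000000000000000000000000000000) (nat_lit 0x0) (nat_lit 0x80004000100018000000000003c00140000000000000000000000) := Q_22 (nat_lit 159) (C_22 L67734 (C_22 L67740 (C_22 L67745 N_22))) (by decide +kernel)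
theorem L67747 : W_22 (nat_lit 7) (nat_lit 0x6000000012000e0000000000000000000000000000000) (nat_lit 0x0) (nat_lit 0x80004000100018000580010003c00140000000000000000000000) := Q_22 (nat_lit 142) (C_22 L67741 (C_22 L67742 (C_22 L67746 N_22))) (by decide +kernel)
theorem L67748 : W_22 (nat_lit 2) (nat_lit 0x6000000012400fc002400000009000000000000000000) (nat_lit 0x0) (nat_lit 0x420002000000000000000000000000000000) := D_22 (nat_lit 121) (nat_lit 142) (nat_lit 137) (nat_lit 3) (nat_lit 2) (nat_lit 7) (nat_lit 1) (nat_lit 5) (nat_lit 7) (by decide +kernel)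
theorem L67749 : W_22 (nat_lit 3) (nat_lit 0x6000000012000fc002400000009000000000000000000) (nat_lit 0x0) (nat_lit 0x4e0002000000000000000000000000000000) := T_22 (nat_lit 138) (nat_lit 139) (nat_lit 1) (nat_lit 6) (nat_lit 7) L67748 (by decide +kernel)
theorem L67750 : W_22 (nat_lit 4) (nat_lit 0x6000000012000f8002400000009000000000000000000) (nat_lit 0x0) (nat_lit 0x4e0006001000000000000000000000000000) := T_22 (nat_lit 122) (nat_lit 108) (nat_lit 2) (nat_lit 3) (nat_lit 7) L67749 (by decide +kernel)
theorem L67751 : W_22 (nat_lit 5) (nat_lit 0x6000000012000f8002400000008000000000000000000) (nat_lit 0x0) (nat_lit 0x4e0006001000020001000000000000000000) := T_22 (nat_lit 72) (nat_lit 89) (nat_lit 7) (nat_lit 4) (nat_lit 4) L67750 (by decide +kernel)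
theorem L67752 : W_22 (nat_lit 6) (nat_lit 0x6000000012000f8002400000000000000000000000000) (nat_lit 0x0) (nat_lit 0x4e0006001000120009000000000000000000) := T_22 (nat_lit 75) (nat_lit 92) (nat_lit 7) (nat_lit 7) (nat_lit 4) L67751 (by decide +kernel)
theorem L67753 : W_22 (nat_lit 7) (nat_lit 0x6000000012000f0002400000000000000000000000000) (nat_lit 0x0) (nat_lit 0x4e000e001200120009000000000000000000) := T_22 (nat_lit 123) (nat_lit 105) (nat_lit 0) (nat_lit 7) (nat_lit 7) L67752 (by decide +kernel)
theorem L67754 : W_22 (nat_lit 8) (nat_lit 0x6000000012000f0000400000000000000000000000000) (nat_lit 0x0) (nat_lit 0x200004e000e003200120009000000000000000000) := T_22 (nat_lit 109) (nat_lit 161) (nat_lit 4) (nat_lit 8) (nat_lit 10) L67753 (by decide +kernel)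
theorem L67755 : W_22 (nat_lit 9) (nat_lit 0x6000000012000f0000000000000000000000000000000) (nat_lit 0x0) (nat_lit 0x200004e000e003e00120009000000000000000000) := T_22 (nat_lit 106) (nat_lit 107) (nat_lit 0) (nat_lit 8) (nat_lit 7) L67754 (by decide +kernel)
theorem L67756 : W_22 (nat_lit 10) (nat_lit 0x6000000012000e0000000000000000000000000000000) (nat_lit 0x0) (nat_lit 0x200005e001e003e00120009000000000000000000) := T_22 (nat_lit 124) (nat_lit 140) (nat_lit 1) (nat_lit 8) (nat_lit 7) L67755 (by decide +kernel)
theorem L67757 : W_22 (nat_lit 11) (nat_lit 0x2000000012000e0000000000000000000000000000000) (nat_lit 0x0) (nat_lit 0x800040005000380005e001e003e00160009000000000000000000) := Q_22 (nat_lit 178) (C_22 L67728 (C_22 L67733 (C_22 L67747 (C_22 L67756 N_22)))) (by decide +kernel)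
theorem L67758 : W_22 (nat_lit 2) (nat_lit 0x2000000012000e0000800000000000000000000000000) (nat_lit 0x0) (nat_lit 0x100010000400000000000000000000000000) := D_22 (nat_lit 124) (nat_lit 140) (nat_lit 106) (nat_lit 1) (nat_lit 8) (nat_lit 7) (nat_lit 0) (nat_lit 8) (nat_lit 7) (by decide +kernel)
theorem L67759 : W_22 (nat_lit 2) (nat_lit 0x2000000012000e0001800000000000000000000000000) (nat_lit 0x0) (nat_lit 0x2600000000000000000000000000) := D_22 (nat_lit 106) (nat_lit 105) (nat_lit 109) (nat_lit 3) (nat_lit 3) (nat_lit 6) (nat_lit 3) (nat_lit 4) (nat_lit 6) (by decide +kernel)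
theorem L67760 : W_22 (nat_lit 3) (nat_lit 0x2000000012000e0000800000000000000000000000000) (nat_lit 0x0) (nat_lit 0x100003600000000000000000000000000) := T_22 (nat_lit 108) (nat_lit 128) (nat_lit 0) (nat_lit 9) (nat_lit 7) L67759 (by decide +kernel)
theorem L67761 : W_22 (nat_lit 2) (nat_lit 0x2000000012001f0000800040005000000000000000000) (nat_lit 0x0) (nat_lit 0x2000280000000000000) := D_22 (nat_lit 73) (nat_lit 57) (nat_lit 55) (nat_lit 6) (nat_lit 5) (nat_lit 7) (nat_lit 4) (nat_lit 5) (nat_lit 7) (by decide +kernel)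
theorem L67762 : W_22 (nat_lit 3) (nat_lit 0x2000000012001f0000800040004000000000000000000) (nat_lit 0x0) (nat_lit 0x20003000280000000000000) := T_22 (nat_lit 72) (nat_lit 89) (nat_lit 4) (nat_lit 5) (nat_lit 8) L67761 (by decide +kernel)
theorem L67763 : W_22 (nat_lit 4) (nat_lit 0x2000000012001f0000800040000000000000000000000) (nat_lit 0x0) (nat_lit 0xa0007000280000000000000) := T_22 (nat_lit 74) (nat_lit 91) (nat_lit 6) (nat_lit 5) (nat_lit 8) L67762 (by decide +kernel)
theorem L67764 : W_22 (nat_lit 5) (nat_lit 0x2000000012000f0000800040000000000000000000000) (nat_lit 0x0) (nat_lit 0x1000010000a0007000280000000000000) := T_22 (nat_lit 128) (nat_lit 108) (nat_lit 0) (nat_lit 9) (nat_lit 7) L67763 (by decide +kernel)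
theorem L67765 : W_22 (nat_lit 2) (nat_lit 0x2000000012000f0000800040005000000000000000000) (nat_lit 0x0) (nat_lit 0x2000280000000000000) := D_22 (nat_lit 73) (nat_lit 55) (nat_lit 57) (nat_lit 4) (nat_lit 5) (nat_lit 7) (nat_lit 6) (nat_lit 5) (nat_lit 7) (by decide +kernel)
theorem L67766 : W_22 (nat_lit 3) (nat_lit 0x2000000012000f0000800040001000000000000000000) (nat_lit 0x0) (nat_lit 0x80006000280000000000000) := T_22 (nat_lit 74) (nat_lit 91) (nat_lit 6) (nat_lit 5) (nat_lit 8) L67765 (by decide +kernel)
theorem L67767 : W_22 (nat_lit 4) (nat_lit 0x2000000012000f0000800040000000000000000000000) (nat_lit 0x0) (nat_lit 0xa0007000280000000000000) := T_22 (nat_lit 72) (nat_lit 89) (nat_lit 4) (nat_lit 5) (nat_lit 8) L67766 (by decide +kernel)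
theorem L67768 : W_22 (nat_lit 2) (nat_lit 0x2000000012000f0001800040001000000000000000000) (nat_lit 0x0) (nat_lit 0x2000180000000000000) := D_22 (nat_lit 73) (nat_lit 56) (nat_lit 55) (nat_lit 7) (nat_lit 5) (nat_lit 3) (nat_lit 4) (nat_lit 5) (nat_lit 7) (by decide +kernel)
theorem L67769 : W_22 (nat_lit 3) (nat_lit 0x2000000012000f0001800040000000000000000000000) (nat_lit 0x0) (nat_lit 0x20003000180000000000000) := T_22 (nat_lit 72) (nat_lit 89) (nat_lit 4) (nat_lit 5) (nat_lit 8) L67768 (by decide +kernel)
theorem L67770 : W_22 (nat_lit 4) (nat_lit 0x2000000012000f0000800040000000000000000000000) (nat_lit 0x0) (nat_lit 0x100001000020003000180000000000000) := T_22 (nat_lit 108) (nat_lit 128) (nat_lit 0) (nat_lit 9) (nat_lit 7) L67769 (by decide +kernel)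
theorem L67771 : W_22 (nat_lit 2) (nat_lit 0x2000000012000f00018000e0000000000000000000000) (nat_lit 0x0) (nat_lit 0x2000018000000000000000000000) := D_22 (nat_lit 88) (nat_lit 109) (nat_lit 87) (nat_lit 3) (nat_lit 3) (nat_lit 5) (nat_lit 3) (nat_lit 2) (nat_lit 5) (by decide +kernel)
theorem L67772 : W_22 (nat_lit 3) (nat_lit 0x2000000012000f00018000c0000000000000000000000) (nat_lit 0x0) (nat_lit 0x2000038001000000000000000000) := T_22 (nat_lit 89) (nat_lit 72) (nat_lit 4) (nat_lit 5) (nat_lit 8) L67771 (by decide +kernel)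
theorem L67773 : W_22 (nat_lit 4) (nat_lit 0x2000000012000f0001800040000000000000000000000) (nat_lit 0x0) (nat_lit 0x20000b8005000000000000000000) := T_22 (nat_lit 91) (nat_lit 74) (nat_lit 6) (nat_lit 5) (nat_lit 8) L67772 (by decide +kernel)
theorem L67774 : W_22 (nat_lit 5) (nat_lit 0x2000000012000f0000800040000000000000000000000) (nat_lit 0x0) (nat_lit 0x1000030000b8005000000000000000000) := T_22 (nat_lit 108) (nat_lit 128) (nat_lit 0) (nat_lit 9) (nat_lit 7) L67773 (by decide +kernel)
theorem L67775 : W_22 (nat_lit 2) (nat_lit 0x2000000012000f0001800040004000000000000000000) (nat_lit 0x0) (nat_lit 0x2000300000000000000) := D_22 (nat_lit 73) (nat_lit 57) (nat_lit 56) (nat_lit 6) (nat_lit 5) (nat_lit 7) (nat_lit 7) (nat_lit 5) (nat_lit 3) (by decide +kernel)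
theorem L67776 : W_22 (nat_lit 3) (nat_lit 0x2000000012000f0000800040004000000000000000000) (nat_lit 0x0) (nat_lit 0x100001000000002000300000000000000) := T_22 (nat_lit 108) (nat_lit 128) (nat_lit 0) (nat_lit 9) (nat_lit 7) L67775 (by decide +kernel)
theorem L67777 : W_22 (nat_lit 4) (nat_lit 0x2000000012000f0000800040000000000000000000000) (nat_lit 0x0) (nat_lit 0x100001000080006000300000000000000) := T_22 (nat_lit 74) (nat_lit 91) (nat_lit 6) (nat_lit 5) (nat_lit 8) L67776 (by decide +kernel)
theorem L67778 : W_22 (nat_lit 6) (nat_lit 0x2000000012000f0000800000000000000000000000000) (nat_lit 0x0) (nat_lit 0x1000030000f8007000380000000000000) := Q_22 (nat_lit 90) (C_22 L67764 (C_22 L67767 (C_22 L67770 (C_22 L67774 (C_22 L67777 N_22))))) (by decide +kernel)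
theorem L67779 : W_22 (nat_lit 7) (nat_lit 0x2000000012000e0000800000000000000000000000000) (nat_lit 0x0) (nat_lit 0x1001100030000f8007000380000000000000) := T_22 (nat_lit 124) (nat_lit 140) (nat_lit 1) (nat_lit 8) (nat_lit 7) L67778 (by decide +kernel)
theorem L67780 : W_22 (nat_lit 8) (nat_lit 0x2000000012000e0000000000000000000000000000000) (nat_lit 0x0) (nat_lit 0x100110003e000f8007000380000000000000) := Q_22 (nat_lit 107) (C_22 L67758 (C_22 L67760 (C_22 L67779 N_22))) (by decide +kernel)
theorem L67781 : W_22 (nat_lit 12) (nat_lit 0x2000000012000a0000000000000000000000000000000) (nat_lit 0x0) (nat_lit 0x800040005000380005e035e03be001f800f000380000000000000) := Q_22 (nat_lit 126) (C_22 L67702 (C_22 L67757 (C_22 L67780 (C_22 L67701 N_22)))) (by decide +kernel)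
theorem L67782 : W_22 (nat_lit 2) (nat_lit 0x2000200012000f0001800000000000000000000000000) (nat_lit 0x0) (nat_lit 0x80004000000000000000080000000000000000000000) := D_22 (nat_lit 158) (nat_lit 175) (nat_lit 91) (nat_lit 6) (nat_lit 5) (nat_lit 10) (nat_lit 6) (nat_lit 5) (nat_lit 9) (by decide +kernel)
theorem L67783 : W_22 (nat_lit 3) (nat_lit 0x2000200012000f0001000000000000000000000000000) (nat_lit 0x0) (nat_lit 0x80004000000000000c00080000000000000000000000) := T_22 (nat_lit 107) (nat_lit 106) (nat_lit 0) (nat_lit 8) (nat_lit 7) L67782 (by decide +kernel)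
theorem L67784 : W_22 (nat_lit 2) (nat_lit 0x2000200012400fc001400000004000000000000000000) (nat_lit 0x0) (nat_lit 0x420002000000000000000000000000000000) := D_22 (nat_lit 121) (nat_lit 142) (nat_lit 137) (nat_lit 3) (nat_lit 2) (nat_lit 7) (nat_lit 1) (nat_lit 5) (nat_lit 7) (by decide +kernel)
theorem L67785 : W_22 (nat_lit 3) (nat_lit 0x2000200012000fc001400000004000000000000000000) (nat_lit 0x0) (nat_lit 0x4e0002000000000000000000000000000000) := T_22 (nat_lit 138) (nat_lit 139) (nat_lit 1) (nat_lit 6) (nat_lit 7) L67784 (by decide +kernel)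
theorem L67786 : W_22 (nat_lit 4) (nat_lit 0x2000200012000f8001400000004000000000000000000) (nat_lit 0x0) (nat_lit 0x4e0006002000000000000000000000000000) := T_22 (nat_lit 122) (nat_lit 109) (nat_lit 2) (nat_lit 3) (nat_lit 7) L67785 (by decide +kernel)
theorem L67787 : W_22 (nat_lit 5) (nat_lit 0x2000200012000f0001400000004000000000000000000) (nat_lit 0x0) (nat_lit 0x4e000e002200000000000000000000000000) := T_22 (nat_lit 123) (nat_lit 105) (nat_lit 0) (nat_lit 7) (nat_lit 7) L67786 (by decide +kernel)
theorem L67788 : W_22 (nat_lit 6) (nat_lit 0x2000200012000f0001400000000000000000000000000) (nat_lit 0x0) (nat_lit 0x4e000e002200080004000000000000000000) := T_22 (nat_lit 74) (nat_lit 91) (nat_lit 5) (nat_lit 6) (nat_lit 4) L67787 (by decide +kernel)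
theorem L67789 : W_22 (nat_lit 7) (nat_lit 0x2000200012000f0001000000000000000000000000000) (nat_lit 0x0) (nat_lit 0x4e000e002e00080004000000000000000000) := T_22 (nat_lit 106) (nat_lit 107) (nat_lit 0) (nat_lit 8) (nat_lit 7) L67788 (by decide +kernel)
theorem L67790 : W_22 (nat_lit 2) (nat_lit 0x2000240012000f0001000000000000000000000000000) (nat_lit 0x0) (nat_lit 0x400000000000080004000000000000000000) := D_22 (nat_lit 91) (nat_lit 74) (nat_lit 142) (nat_lit 5) (nat_lit 6) (nat_lit 4) (nat_lit 5) (nat_lit 6) (nat_lit 5) (by decide +kernel)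
theorem L67791 : W_22 (nat_lit 3) (nat_lit 0x2000200012000f0001000000000000000000000000000) (nat_lit 0x0) (nat_lit 0x80004000400000000000080004000000000000000000) := T_22 (nat_lit 158) (nat_lit 175) (nat_lit 6) (nat_lit 5) (nat_lit 10) L67790 (by decide +kernel)
theorem L67792 : W_22 (nat_lit 2) (nat_lit 0x2800200012400fc001400000000000000000000000000) (nat_lit 0x0) (nat_lit 0x420002000000000000000000000000000000) := D_22 (nat_lit 121) (nat_lit 137) (nat_lit 142) (nat_lit 1) (nat_lit 5) (nat_lit 7) (nat_lit 3) (nat_lit 2) (nat_lit 7) (by decide +kernel)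
theorem L67793 : W_22 (nat_lit 3) (nat_lit 0x2800200012000fc001400000000000000000000000000) (nat_lit 0x0) (nat_lit 0x4e0002000000000000000000000000000000) := T_22 (nat_lit 138) (nat_lit 139) (nat_lit 1) (nat_lit 6) (nat_lit 7) L67792 (by decide +kernel)
theorem L67794 : W_22 (nat_lit 4) (nat_lit 0x2800200012000f8001400000000000000000000000000) (nat_lit 0x0) (nat_lit 0x4e0006002000000000000000000000000000) := T_22 (nat_lit 122) (nat_lit 109) (nat_lit 2) (nat_lit 3) (nat_lit 7) L67793 (by decide +kernel)
theorem L67795 : W_22 (nat_lit 5) (nat_lit 0x2800200012000f0001400000000000000000000000000) (nat_lit 0x0) (nat_lit 0x4e000e002200000000000000000000000000) := T_22 (nat_lit 123) (nat_lit 105) (nat_lit 0) (nat_lit 7) (nat_lit 7) L67794 (by decide +kernel)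
theorem L67796 : W_22 (nat_lit 6) (nat_lit 0x2000200012000f0001400000000000000000000000000) (nat_lit 0x0) (nat_lit 0x800040004e000e002200000000000000000000000000) := T_22 (nat_lit 175) (nat_lit 158) (nat_lit 6) (nat_lit 5) (nat_lit 10) L67795 (by decide +kernel)
theorem L67797 : W_22 (nat_lit 7) (nat_lit 0x2000200012000f0001000000000000000000000000000) (nat_lit 0x0) (nat_lit 0x800040004e000e002e00000000000000000000000000) := T_22 (nat_lit 106) (nat_lit 107) (nat_lit 0) (nat_lit 8) (nat_lit 7) L67796 (by decide +kernel)
theorem L67798 : W_22 (nat_lit 8) (nat_lit 0x2000200012000f0000000000000000000000000000000) (nat_lit 0x0) (nat_lit 0x800040004e000e003e00080004000000000000000000) := Q_22 (nat_lit 108) (C_22 L67783 (C_22 L67789 (C_22 L67791 (C_22 L67797 N_22)))) (by decide +kernel)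
theorem L67799 : W_22 (nat_lit 9) (nat_lit 0x2000200012000e0000000000000000000000000000000) (nat_lit 0x0) (nat_lit 0x800040005e001e003e00080004000000000000000000) := T_22 (nat_lit 124) (nat_lit 140) (nat_lit 1) (nat_lit 8) (nat_lit 7) L67798 (by decide +kernel)
theorem L67800 : W_22 (nat_lit 2) (nat_lit 0x2000200012000e0000000000000000000000000000000) (nat_lit 0x0) (nat_lit 0x4000400000000000000002000000000000000000000000000) := D_22 (nat_lit 178) (nat_lit 109) (nat_lit 194) (nat_lit 4) (nat_lit 8) (nat_lit 10) (nat_lit 5) (nat_lit 8) (nat_lit 7) (by decide +kernel)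
theorem L67801 : W_22 (nat_lit 2) (nat_lit 0x40002000300017000e0000000000000000000000000000000) (nat_lit 0x0) (nat_lit 0xc000000000001000000000000000000000000000) := D_22 (nat_lit 159) (nat_lit 108) (nat_lit 158) (nat_lit 7) (nat_lit 6) (nat_lit 6) (nat_lit 0) (nat_lit 8) (nat_lit 9) (by decide +kernel)
theorem L67802 : W_22 (nat_lit 3) (nat_lit 0x40002000200017000e0000000000000000000000000000000) (nat_lit 0x0) (nat_lit 0x8000000000001c000000000001000000000000000000000000000) := T_22 (nat_lit 160) (nat_lit 211) (nat_lit 6) (nat_lit 7) (nat_lit 12) L67801 (by decide +kernel)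
theorem L67803 : W_22 (nat_lit 4) (nat_lit 0x40002000200013000e0000000000000000000000000000000) (nat_lit 0x0) (nat_lit 0x8000000000001c000480000001000000000000000000000000000) := T_22 (nat_lit 142) (nat_lit 139) (nat_lit 2) (nat_lit 3) (nat_lit 8) L67802 (by decide +kernel)
theorem L67804 : W_22 (nat_lit 5) (nat_lit 0x2000200013000e0000000000000000000000000000000) (nat_lit 0x0) (nat_lit 0x8000400040001c000480000001000000000000000000000000000) := T_22 (nat_lit 194) (nat_lit 178) (nat_lit 5) (nat_lit 8) (nat_lit 7) L67803 (by decide +kernel)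
theorem L67805 : W_22 (nat_lit 6) (nat_lit 0x2000200012000e0000000000000000000000000000000) (nat_lit 0x0) (nat_lit 0x8000400040001c000580010001000000000000000000000000000) := T_22 (nat_lit 140) (nat_lit 124) (nat_lit 1) (nat_lit 8) (nat_lit 7) L67804 (by decide +kernel)
theorem L67806 : W_22 (nat_lit 10) (nat_lit 0x2000000012000e0000000000000000000000000000000) (nat_lit 0x0) (nat_lit 0x8000400048003c0005e001e003e00080004000000000000000000) := Q_22 (nat_lit 161) (C_22 L67799 (C_22 L67800 (C_22 L67805 N_22))) (by decide +kernel)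
theorem L67807 : W_22 (nat_lit 11) (nat_lit 0x2000000012000a0000000000000000000000000000000) (nat_lit 0x0) (nat_lit 0x8000400048003c0005e035e03be000f8007000380000000000000) := Q_22 (nat_lit 126) (C_22 L67780 (C_22 L67806 (C_22 L67702 (C_22 L67701 N_22)))) (by decide +kernel)
theorem L67808 : W_22 (nat_lit 2) (nat_lit 0x180006800240012000f0000800000000000000000000000000) (nat_lit 0x0) (nat_lit 0x800040002000000000000000000000000000000000000000) := D_22 (nat_lit 174) (nat_lit 157) (nat_lit 191) (nat_lit 5) (nat_lit 5) (nat_lit 6) (nat_lit 5) (nat_lit 5) (nat_lit 7) (by decide +kernel)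
theorem L67809 : W_22 (nat_lit 3) (nat_lit 0x180006800200012000f0000800000000000000000000000000) (nat_lit 0x0) (nat_lit 0x800040006000000000001000000000000000000000000000) := T_22 (nat_lit 158) (nat_lit 108) (nat_lit 6) (nat_lit 5) (nat_lit 10) L67808 (by decide +kernel)
theorem L67810 : W_22 (nat_lit 4) (nat_lit 0x180006000200012000f0000800000000000000000000000000) (nat_lit 0x0) (nat_lit 0x8001c0006000000000001000000000000000000000000000) := T_22 (nat_lit 175) (nat_lit 176) (nat_lit 3) (nat_lit 5) (nat_lit 10) L67809 (by decide +kernel)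
theorem L67811 : W_22 (nat_lit 5) (nat_lit 0x100006000200012000f0000800000000000000000000000000) (nat_lit 0x0) (nat_lit 0x2000088001c0006000000000001000000000000000000000000000) := T_22 (nat_lit 195) (nat_lit 213) (nat_lit 7) (nat_lit 8) (nat_lit 8) L67810 (by decide +kernel)
theorem L67812 : W_22 (nat_lit 6) (nat_lit 0x6000200012000f0000800000000000000000000000000) (nat_lit 0x0) (nat_lit 0x2000188009c0006000000000001000000000000000000000000000) := T_22 (nat_lit 196) (nat_lit 179) (nat_lit 7) (nat_lit 8) (nat_lit 7) L67811 (by decide +kernel)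
theorem L67813 : W_22 (nat_lit 7) (nat_lit 0x6000000012000f0000800000000000000000000000000) (nat_lit 0x0) (nat_lit 0x20001c8009c0026000000000001000000000000000000000000000) := T_22 (nat_lit 161) (nat_lit 194) (nat_lit 5) (nat_lit 8) (nat_lit 7) L67812 (by decide +kernel)
theorem L67814 : W_22 (nat_lit 8) (nat_lit 0x6000000012000f0000000000000000000000000000000) (nat_lit 0x0) (nat_lit 0x20001c8009c0026000000000001c00000000000000000000000000) := T_22 (nat_lit 107) (nat_lit 106) (nat_lit 0) (nat_lit 8) (nat_lit 7) L67813 (by decide +kernel)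
theorem L67815 : W_22 (nat_lit 9) (nat_lit 0x6000000012000e0000000000000000000000000000000) (nat_lit 0x0) (nat_lit 0x20001c8009c0026000100010001c00000000000000000000000000) := T_22 (nat_lit 124) (nat_lit 140) (nat_lit 1) (nat_lit 8) (nat_lit 7) L67814 (by decide +kernel)
theorem L67816 : W_22 (nat_lit 2) (nat_lit 0x6000000012000f0001800000000000000000000000000) (nat_lit 0x0) (nat_lit 0x80004000000000000000080000000000000000000000) := D_22 (nat_lit 158) (nat_lit 175) (nat_lit 91) (nat_lit 6) (nat_lit 5) (nat_lit 10) (nat_lit 6) (nat_lit 5) (nat_lit 9) (by decide +kernel)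
theorem L67817 : W_22 (nat_lit 3) (nat_lit 0x6000000012000f0001000000000000000000000000000) (nat_lit 0x0) (nat_lit 0x80004000000000000c00080000000000000000000000) := T_22 (nat_lit 107) (nat_lit 106) (nat_lit 0) (nat_lit 8) (nat_lit 7) L67816 (by decide +kernel)
theorem L67818 : W_22 (nat_lit 2) (nat_lit 0x6000000012400fc001400000004000000000000000000) (nat_lit 0x0) (nat_lit 0x420002000000000000000000000000000000) := D_22 (nat_lit 121) (nat_lit 137) (nat_lit 142) (nat_lit 1) (nat_lit 5) (nat_lit 7) (nat_lit 3) (nat_lit 2) (nat_lit 7) (by decide +kernel)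
theorem L67819 : W_22 (nat_lit 3) (nat_lit 0x6000000012000fc001400000004000000000000000000) (nat_lit 0x0) (nat_lit 0x4e0002000000000000000000000000000000) := T_22 (nat_lit 138) (nat_lit 139) (nat_lit 1) (nat_lit 6) (nat_lit 7) L67818 (by decide +kernel)
theorem L67820 : W_22 (nat_lit 4) (nat_lit 0x6000000012000f8001400000004000000000000000000) (nat_lit 0x0) (nat_lit 0x4e0006002000000000000000000000000000) := T_22 (nat_lit 122) (nat_lit 109) (nat_lit 2) (nat_lit 3) (nat_lit 7) L67819 (by decide +kernel)
theorem L67821 : W_22 (nat_lit 5) (nat_lit 0x6000000012000f0001400000004000000000000000000) (nat_lit 0x0) (nat_lit 0x4e000e002200000000000000000000000000) := T_22 (nat_lit 123) (nat_lit 105) (nat_lit 0) (nat_lit 7) (nat_lit 7) L67820 (by decide +kernel)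
theorem L67822 : W_22 (nat_lit 6) (nat_lit 0x6000000012000f0001400000000000000000000000000) (nat_lit 0x0) (nat_lit 0x4e000e002200080004000000000000000000) := T_22 (nat_lit 74) (nat_lit 91) (nat_lit 5) (nat_lit 6) (nat_lit 4) L67821 (by decide +kernel)
theorem L67823 : W_22 (nat_lit 7) (nat_lit 0x6000000012000f0001000000000000000000000000000) (nat_lit 0x0) (nat_lit 0x4e000e002e00080004000000000000000000) := T_22 (nat_lit 106) (nat_lit 107) (nat_lit 0) (nat_lit 8) (nat_lit 7) L67822 (by decide +kernel)
theorem L67824 : W_22 (nat_lit 2) (nat_lit 0x6000040012000f0001000000000000000000000000000) (nat_lit 0x0) (nat_lit 0x400000000000080004000000000000000000) := D_22 (nat_lit 91) (nat_lit 74) (nat_lit 142) (nat_lit 5) (nat_lit 6) (nat_lit 4) (nat_lit 5) (nat_lit 6) (nat_lit 5) (by decide +kernel)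
theorem L67825 : W_22 (nat_lit 3) (nat_lit 0x6000000012000f0001000000000000000000000000000) (nat_lit 0x0) (nat_lit 0x80004000400000000000080004000000000000000000) := T_22 (nat_lit 158) (nat_lit 175) (nat_lit 6) (nat_lit 5) (nat_lit 10) L67824 (by decide +kernel)
theorem L67826 : W_22 (nat_lit 2) (nat_lit 0x6800000012400fc001400000000000000000000000000) (nat_lit 0x0) (nat_lit 0x420002000000000000000000000000000000) := D_22 (nat_lit 121) (nat_lit 142) (nat_lit 137) (nat_lit 3) (nat_lit 2) (nat_lit 7) (nat_lit 1) (nat_lit 5) (nat_lit 7) (by decide +kernel)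
theorem L67827 : W_22 (nat_lit 3) (nat_lit 0x6800000012000fc001400000000000000000000000000) (nat_lit 0x0) (nat_lit 0x4e0002000000000000000000000000000000) := T_22 (nat_lit 138) (nat_lit 139) (nat_lit 1) (nat_lit 6) (nat_lit 7) L67826 (by decide +kernel)
theorem L67828 : W_22 (nat_lit 4) (nat_lit 0x6800000012000f8001400000000000000000000000000) (nat_lit 0x0) (nat_lit 0x4e0006002000000000000000000000000000) := T_22 (nat_lit 122) (nat_lit 109) (nat_lit 2) (nat_lit 3) (nat_lit 7) L67827 (by decide +kernel)
theorem L67829 : W_22 (nat_lit 5) (nat_lit 0x6800000012000f0001400000000000000000000000000) (nat_lit 0x0) (nat_lit 0x4e000e002200000000000000000000000000) := T_22 (nat_lit 123) (nat_lit 105) (nat_lit 0) (nat_lit 7) (nat_lit 7) L67828 (by decide +kernel)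
theorem L67830 : W_22 (nat_lit 6) (nat_lit 0x6000000012000f0001400000000000000000000000000) (nat_lit 0x0) (nat_lit 0x800040004e000e002200000000000000000000000000) := T_22 (nat_lit 175) (nat_lit 158) (nat_lit 6) (nat_lit 5) (nat_lit 10) L67829 (by decide +kernel)
theorem L67831 : W_22 (nat_lit 7) (nat_lit 0x6000000012000f0001000000000000000000000000000) (nat_lit 0x0) (nat_lit 0x800040004e000e002e00000000000000000000000000) := T_22 (nat_lit 106) (nat_lit 107) (nat_lit 0) (nat_lit 8) (nat_lit 7) L67830 (by decide +kernel)
theorem L67832 : W_22 (nat_lit 8) (nat_lit 0x6000000012000f0000000000000000000000000000000) (nat_lit 0x0) (nat_lit 0x800040004e000e003e00080004000000000000000000) := Q_22 (nat_lit 108) (C_22 L67817 (C_22 L67823 (C_22 L67825 (C_22 L67831 N_22)))) (by decide +kernel)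
theorem L67833 : W_22 (nat_lit 9) (nat_lit 0x6000000012000e0000000000000000000000000000000) (nat_lit 0x0) (nat_lit 0x800040005e001e003e00080004000000000000000000) := T_22 (nat_lit 124) (nat_lit 140) (nat_lit 1) (nat_lit 8) (nat_lit 7) L67832 (by decide +kernel)
theorem L67834 : W_22 (nat_lit 11) (nat_lit 0x2000000012000e0000000000000000000000000000000) (nat_lit 0x0) (nat_lit 0x20001c800dc00260005e001e003e001a000d000000000000000000) := Q_22 (nat_lit 178) (C_22 L67728 (C_22 L67756 (C_22 L67815 (C_22 L67833 N_22)))) (by decide +kernel)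
theorem L67835 : W_22 (nat_lit 12) (nat_lit 0x2000000012000a0000000000000000000000000000000) (nat_lit 0x0) (nat_lit 0x20001c800dc00260005e035e03be001f800f000380000000000000) := Q_22 (nat_lit 126) (C_22 L67780 (C_22 L67834 (C_22 L67702 (C_22 L67701 N_22)))) (by decide +kernel)
theorem L67836 : W_22 (nat_lit 2) (nat_lit 0x2000000012000b0000800060002000000000000000000) (nat_lit 0x0) (nat_lit 0x2000100008000000000000000000000000000000) := D_22 (nat_lit 140) (nat_lit 157) (nat_lit 123) (nat_lit 5) (nat_lit 5) (nat_lit 5) (nat_lit 5) (nat_lit 5) (nat_lit 4) (by decide +kernel)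
theorem L67837 : W_22 (nat_lit 3) (nat_lit 0x2000000012000b0000800060000000000000000000000) (nat_lit 0x0) (nat_lit 0x2000500008000000000002000000000000000000) := T_22 (nat_lit 73) (nat_lit 142) (nat_lit 7) (nat_lit 5) (nat_lit 4) L67836 (by decide +kernel)
theorem L67838 : W_22 (nat_lit 4) (nat_lit 0x2000000012000b0000800040000000000000000000000) (nat_lit 0x0) (nat_lit 0x2000500008000000020003000000000000000000) := T_22 (nat_lit 89) (nat_lit 72) (nat_lit 4) (nat_lit 5) (nat_lit 8) L67837 (by decide +kernel)
theorem L67839 : W_22 (nat_lit 2) (nat_lit 0x2000000012000b00008000e0000000000000000000000) (nat_lit 0x0) (nat_lit 0x4000000000001400000000000000000000000000) := D_22 (nat_lit 158) (nat_lit 108) (nat_lit 106) (nat_lit 6) (nat_lit 5) (nat_lit 9) (nat_lit 4) (nat_lit 5) (nat_lit 9) (by decide +kernel)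
theorem L67840 : W_22 (nat_lit 3) (nat_lit 0x2000000012000b0000800060000000000000000000000) (nat_lit 0x0) (nat_lit 0x4000000000001400080004000000000000000000) := T_22 (nat_lit 91) (nat_lit 74) (nat_lit 6) (nat_lit 5) (nat_lit 8) L67839 (by decide +kernel)
theorem L67841 : W_22 (nat_lit 4) (nat_lit 0x2000000012000b0000800040000000000000000000000) (nat_lit 0x0) (nat_lit 0x40000000000014000a0005000000000000000000) := T_22 (nat_lit 89) (nat_lit 72) (nat_lit 4) (nat_lit 5) (nat_lit 8) L67840 (by decide +kernel)
theorem L67842 : W_22 (nat_lit 5) (nat_lit 0x2000000012000b0000800000000000000000000000000) (nat_lit 0x0) (nat_lit 0xe0005000080014000e0007000000000000000000) := Q_22 (nat_lit 90) (C_22 L32825 (C_22 L67838 (C_22 L67841 N_22))) (by decide +kernel)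
theorem L67843 : W_22 (nat_lit 2) (nat_lit 0x2000040012000b0000d00000000000000000000000000) (nat_lit 0x0) (nat_lit 0x80000000000008001000000000000000000000000000) := D_22 (nat_lit 175) (nat_lit 123) (nat_lit 108) (nat_lit 4) (nat_lit 5) (nat_lit 10) (nat_lit 6) (nat_lit 5) (nat_lit 10) (by decide +kernel)
theorem L67844 : W_22 (nat_lit 3) (nat_lit 0x2000000012000b0000d00000000000000000000000000) (nat_lit 0x0) (nat_lit 0x80004000000008001000020000000000000000000000) := T_22 (nat_lit 158) (nat_lit 89) (nat_lit 4) (nat_lit 5) (nat_lit 9) L67843 (by decide +kernel)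
theorem L67845 : W_22 (nat_lit 4) (nat_lit 0x2000000012000b0000c00000000000000000000000000) (nat_lit 0x0) (nat_lit 0x80004000000008001300020000000000000000000000) := T_22 (nat_lit 104) (nat_lit 105) (nat_lit 3) (nat_lit 2) (nat_lit 6) L67844 (by decide +kernel)
theorem L67846 : W_22 (nat_lit 5) (nat_lit 0x2000000012000b0000800000000000000000000000000) (nat_lit 0x0) (nat_lit 0x80004000000048001700020000000000000000000000) := T_22 (nat_lit 106) (nat_lit 126) (nat_lit 0) (nat_lit 8) (nat_lit 7) L67845 (by decide +kernel)
theorem L67847 : W_22 (nat_lit 2) (nat_lit 0x2000000013400b0000800040000000000000000000000) (nat_lit 0x0) (nat_lit 0x400008000000000002000000000000000000) := D_22 (nat_lit 73) (nat_lit 123) (nat_lit 142) (nat_lit 5) (nat_lit 5) (nat_lit 4) (nat_lit 7) (nat_lit 5) (nat_lit 4) (by decide +kernel)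
theorem L67848 : W_22 (nat_lit 3) (nat_lit 0x2000000013400b0000800000000000000000000000000) (nat_lit 0x0) (nat_lit 0x2000400008000000040002000000000000000000) := T_22 (nat_lit 90) (nat_lit 157) (nat_lit 5) (nat_lit 5) (nat_lit 5) L67847 (by decide +kernel)
theorem L67849 : W_22 (nat_lit 4) (nat_lit 0x2000000013000b0000800000000000000000000000000) (nat_lit 0x0) (nat_lit 0x20004c0008000000040002000000000000000000) := T_22 (nat_lit 138) (nat_lit 139) (nat_lit 2) (nat_lit 2) (nat_lit 8) L67848 (by decide +kernel)
theorem L67850 : W_22 (nat_lit 5) (nat_lit 0x2000000012000b0000800000000000000000000000000) (nat_lit 0x0) (nat_lit 0x20005c0048000000040002000000000000000000) := T_22 (nat_lit 140) (nat_lit 126) (nat_lit 1) (nat_lit 8) (nat_lit 7) L67849 (by decide +kernel)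
theorem L67851 : W_22 (nat_lit 6) (nat_lit 0x2000000012000b0000000000000000000000000000000) (nat_lit 0x0) (nat_lit 0x8000e0005c0048001f000e0007000000000000000000) := Q_22 (nat_lit 107) (C_22 L67842 (C_22 L61828 (C_22 L67846 (C_22 L67850 N_22)))) (by decide +kernel)
theorem L67852 : W_22 (nat_lit 2) (nat_lit 0x2000000012000b0000800040002000000000000000000) (nat_lit 0x0) (nat_lit 0x2000100008000000000000000000000000000000) := D_22 (nat_lit 140) (nat_lit 157) (nat_lit 123) (nat_lit 5) (nat_lit 5) (nat_lit 5) (nat_lit 5) (nat_lit 5) (nat_lit 4) (by decide +kernel)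
theorem L67853 : W_22 (nat_lit 3) (nat_lit 0x2000000012000b0000800040000000000000000000000) (nat_lit 0x0) (nat_lit 0x2000500008000000000002000000000000000000) := T_22 (nat_lit 73) (nat_lit 142) (nat_lit 7) (nat_lit 5) (nat_lit 4) L67852 (by decide +kernel)
theorem L67854 : W_22 (nat_lit 5) (nat_lit 0x2000000012000b0000800000000000000000000000000) (nat_lit 0x0) (nat_lit 0x60005000080014000e0007000000000000000000) := Q_22 (nat_lit 90) (C_22 L67838 (C_22 L67841 (C_22 L67853 N_22))) (by decide +kernel)
theorem L67855 : W_22 (nat_lit 6) (nat_lit 0x2000000012000b0000000000000000000000000000000) (nat_lit 0x0) (nat_lit 0x800060005c0048001f000e0007000000000000000000) := Q_22 (nat_lit 107) (C_22 L67850 (C_22 L67854 (C_22 L67846 (C_22 L61828 N_22)))) (by decide +kernel)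
theorem L67856 : W_22 (nat_lit 2) (nat_lit 0x2c00040012000b0000800000000000000000000000000) (nat_lit 0x0) (nat_lit 0x8000400020000000000000000000000) := D_22 (nat_lit 106) (nat_lit 89) (nat_lit 123) (nat_lit 4) (nat_lit 5) (nat_lit 9) (nat_lit 4) (nat_lit 5) (nat_lit 10) (by decide +kernel)
theorem L67857 : W_22 (nat_lit 3) (nat_lit 0x2c00040012000b0000000000000000000000000000000) (nat_lit 0x0) (nat_lit 0x2000000008000c00020000000000000000000000) := T_22 (nat_lit 107) (nat_lit 157) (nat_lit 5) (nat_lit 5) (nat_lit 6) L67856 (by decide +kernel)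
theorem L67858 : W_22 (nat_lit 4) (nat_lit 0x2800040012000b0000000000000000000000000000000) (nat_lit 0x0) (nat_lit 0x800040002000000008000c00020000000000000000000000) := T_22 (nat_lit 174) (nat_lit 191) (nat_lit 5) (nat_lit 5) (nat_lit 7) L67857 (by decide +kernel)
theorem L67859 : W_22 (nat_lit 5) (nat_lit 0x2000040012000b0000000000000000000000000000000) (nat_lit 0x0) (nat_lit 0x8000c0002000000008001c00020000000000000000000000) := T_22 (nat_lit 175) (nat_lit 108) (nat_lit 6) (nat_lit 5) (nat_lit 10) L67858 (by decide +kernel)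
theorem L67860 : W_22 (nat_lit 2) (nat_lit 0x20000c0012000b0000800040000000000000000000000) (nat_lit 0x0) (nat_lit 0x40002000100000000000000000000000000000000000) := D_22 (nat_lit 157) (nat_lit 174) (nat_lit 140) (nat_lit 5) (nat_lit 5) (nat_lit 6) (nat_lit 5) (nat_lit 5) (nat_lit 5) (by decide +kernel)
theorem L67861 : W_22 (nat_lit 3) (nat_lit 0x20000c0012000b0000800000000000000000000000000) (nat_lit 0x0) (nat_lit 0x40002000500000000000040000000000000000000000) := T_22 (nat_lit 90) (nat_lit 142) (nat_lit 7) (nat_lit 5) (nat_lit 5) L67860 (by decide +kernel)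
theorem L67862 : W_22 (nat_lit 4) (nat_lit 0x2000040012000b0000800000000000000000000000000) (nat_lit 0x0) (nat_lit 0x14000a000500000000000040000000000000000000000) := T_22 (nat_lit 159) (nat_lit 176) (nat_lit 7) (nat_lit 5) (nat_lit 6) L67861 (by decide +kernel)
theorem L67863 : W_22 (nat_lit 2) (nat_lit 0x28000c0012000b0000d00000000000000000000000000) (nat_lit 0x0) (nat_lit 0x1000000000000400000000000040000000000000000000000) := D_22 (nat_lit 142) (nat_lit 90) (nat_lit 192) (nat_lit 7) (nat_lit 5) (nat_lit 5) (nat_lit 6) (nat_lit 5) (nat_lit 11) (by decide +kernel)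
theorem L67864 : W_22 (nat_lit 3) (nat_lit 0x2800040012000b0000d00000000000000000000000000) (nat_lit 0x0) (nat_lit 0x1000100008000400000000000040000000000000000000000) := T_22 (nat_lit 159) (nat_lit 176) (nat_lit 7) (nat_lit 5) (nat_lit 6) L67863 (by decide +kernel)
theorem L67865 : W_22 (nat_lit 4) (nat_lit 0x2000040012000b0000d00000000000000000000000000) (nat_lit 0x0) (nat_lit 0x1000180008000400008000000040000000000000000000000) := T_22 (nat_lit 175) (nat_lit 123) (nat_lit 4) (nat_lit 5) (nat_lit 10) L67864 (by decide +kernel)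
theorem L67866 : W_22 (nat_lit 5) (nat_lit 0x2000040012000b0000c00000000000000000000000000) (nat_lit 0x0) (nat_lit 0x1000180008000400008000300040000000000000000000000) := T_22 (nat_lit 104) (nat_lit 105) (nat_lit 3) (nat_lit 2) (nat_lit 6) L67865 (by decide +kernel)
theorem L67867 : W_22 (nat_lit 6) (nat_lit 0x2000040012000b0000800000000000000000000000000) (nat_lit 0x0) (nat_lit 0x1000180008000400008000700060000000000000000000000) := T_22 (nat_lit 106) (nat_lit 89) (nat_lit 4) (nat_lit 5) (nat_lit 9) L67866 (by decide +kernel)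
theorem L67868 : W_22 (nat_lit 7) (nat_lit 0x2000040012000b0000000000000000000000000000000) (nat_lit 0x0) (nat_lit 0x18001c000a000500008000f00060000000000000000000000) := Q_22 (nat_lit 107) (C_22 L32830 (C_22 L67862 (C_22 L67867 N_22))) (by decide +kernel)
theorem L67869 : W_22 (nat_lit 2) (nat_lit 0x2000060012000b0001d00040000000000000000000000) (nat_lit 0x0) (nat_lit 0x8000400000000000000002000000000000000000) := D_22 (nat_lit 142) (nat_lit 159) (nat_lit 73) (nat_lit 7) (nat_lit 5) (nat_lit 5) (nat_lit 7) (nat_lit 5) (nat_lit 4) (by decide +kernel)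
theorem L67870 : W_22 (nat_lit 3) (nat_lit 0x2000060012000b0001d00000000000000000000000000) (nat_lit 0x0) (nat_lit 0x8000500000000000040002000000000000000000) := T_22 (nat_lit 90) (nat_lit 140) (nat_lit 5) (nat_lit 5) (nat_lit 5) L67869 (by decide +kernel)
theorem L67871 : W_22 (nat_lit 4) (nat_lit 0x2000040012000b0001d00000000000000000000000000) (nat_lit 0x0) (nat_lit 0x4000a000500000000000040002000000000000000000) := T_22 (nat_lit 157) (nat_lit 174) (nat_lit 5) (nat_lit 5) (nat_lit 6) L67870 (by decide +kernel)
theorem L67872 : W_22 (nat_lit 5) (nat_lit 0x2000040012000b0000d00000000000000000000000000) (nat_lit 0x0) (nat_lit 0x4000a0005000000010000c0002000000000000000000) := T_22 (nat_lit 108) (nat_lit 91) (nat_lit 6) (nat_lit 5) (nat_lit 9) L67871 (by decide +kernel)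
theorem L67873 : W_22 (nat_lit 6) (nat_lit 0x2000040012000b0000c00000000000000000000000000) (nat_lit 0x0) (nat_lit 0x4000a0005000000013000c0002000000000000000000) := T_22 (nat_lit 104) (nat_lit 105) (nat_lit 3) (nat_lit 2) (nat_lit 6) L67872 (by decide +kernel)
theorem L67874 : W_22 (nat_lit 7) (nat_lit 0x2000040012000b0000800000000000000000000000000) (nat_lit 0x0) (nat_lit 0x4000a0005000000017000e0002000000000000000000) := T_22 (nat_lit 106) (nat_lit 89) (nat_lit 4) (nat_lit 5) (nat_lit 9) L67873 (by decide +kernel)
theorem L67875 : W_22 (nat_lit 2) (nat_lit 0x2000060012000b0000800040000000000000000000000) (nat_lit 0x0) (nat_lit 0x400020001000000000000000000) := D_22 (nat_lit 89) (nat_lit 72) (nat_lit 106) (nat_lit 4) (nat_lit 5) (nat_lit 8) (nat_lit 4) (nat_lit 5) (nat_lit 9) (by decide +kernel)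
theorem L67876 : W_22 (nat_lit 3) (nat_lit 0x2000060012000b0000800000000000000000000000000) (nat_lit 0x0) (nat_lit 0x100000000400060001000000000000000000) := T_22 (nat_lit 90) (nat_lit 140) (nat_lit 5) (nat_lit 5) (nat_lit 5) L67875 (by decide +kernel)
theorem L67877 : W_22 (nat_lit 4) (nat_lit 0x2000040012000b0000800000000000000000000000000) (nat_lit 0x0) (nat_lit 0x40002000100000000400060001000000000000000000) := T_22 (nat_lit 157) (nat_lit 174) (nat_lit 5) (nat_lit 5) (nat_lit 6) L67876 (by decide +kernel)
theorem L67878 : W_22 (nat_lit 2) (nat_lit 0x20000c0012000b0000d00040000000000000000000000) (nat_lit 0x0) (nat_lit 0x1000080004000000000000000000) := D_22 (nat_lit 91) (nat_lit 74) (nat_lit 108) (nat_lit 6) (nat_lit 5) (nat_lit 8) (nat_lit 6) (nat_lit 5) (nat_lit 9) (by decide +kernel)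
theorem L67879 : W_22 (nat_lit 3) (nat_lit 0x20000c0012000b0000d00000000000000000000000000) (nat_lit 0x0) (nat_lit 0x4000000010000c0004000000000000000000) := T_22 (nat_lit 90) (nat_lit 142) (nat_lit 7) (nat_lit 5) (nat_lit 5) L67878 (by decide +kernel)
theorem L67880 : W_22 (nat_lit 4) (nat_lit 0x2000040012000b0000d00000000000000000000000000) (nat_lit 0x0) (nat_lit 0x1000080004000000010000c0004000000000000000000) := T_22 (nat_lit 159) (nat_lit 176) (nat_lit 7) (nat_lit 5) (nat_lit 6) L67879 (by decide +kernel)
theorem L67881 : W_22 (nat_lit 5) (nat_lit 0x2000040012000b0000c00000000000000000000000000) (nat_lit 0x0) (nat_lit 0x1000080004000000013000c0004000000000000000000) := T_22 (nat_lit 104) (nat_lit 105) (nat_lit 3) (nat_lit 2) (nat_lit 6) L67880 (by decide +kernel)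
theorem L67882 : W_22 (nat_lit 6) (nat_lit 0x2000040012000b0000800000000000000000000000000) (nat_lit 0x0) (nat_lit 0x1000080004000000017000e0004000000000000000000) := T_22 (nat_lit 106) (nat_lit 89) (nat_lit 4) (nat_lit 5) (nat_lit 9) L67881 (by decide +kernel)
theorem L67883 : W_22 (nat_lit 2) (nat_lit 0x20000e0012000b0001d00000000000000000000000000) (nat_lit 0x0) (nat_lit 0x400010000400000000000000000000000000000000000) := D_22 (nat_lit 160) (nat_lit 178) (nat_lit 142) (nat_lit 3) (nat_lit 4) (nat_lit 9) (nat_lit 7) (nat_lit 6) (nat_lit 6) (by decide +kernel)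
theorem L67884 : W_22 (nat_lit 3) (nat_lit 0x2000060012000b0001d00000000000000000000000000) (nat_lit 0x0) (nat_lit 0x500018000400000000000000000000000000000000000) := T_22 (nat_lit 159) (nat_lit 176) (nat_lit 7) (nat_lit 5) (nat_lit 6) L67883 (by decide +kernel)
theorem L67885 : W_22 (nat_lit 4) (nat_lit 0x2000060012000b0001c00000000000000000000000000) (nat_lit 0x0) (nat_lit 0x500018000400000000300000000000000000000000000) := T_22 (nat_lit 104) (nat_lit 105) (nat_lit 3) (nat_lit 2) (nat_lit 6) L67884 (by decide +kernel)
theorem L67886 : W_22 (nat_lit 5) (nat_lit 0x2000060012000b0001800000000000000000000000000) (nat_lit 0x0) (nat_lit 0x500018000400000000700020000000000000000000000) := T_22 (nat_lit 106) (nat_lit 89) (nat_lit 4) (nat_lit 5) (nat_lit 9) L67885 (by decide +kernel)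
theorem L67887 : W_22 (nat_lit 6) (nat_lit 0x2000040012000b0001800000000000000000000000000) (nat_lit 0x0) (nat_lit 0x54001a000400000000700020000000000000000000000) := T_22 (nat_lit 157) (nat_lit 174) (nat_lit 5) (nat_lit 5) (nat_lit 6) L67886 (by decide +kernel)
theorem L67888 : W_22 (nat_lit 7) (nat_lit 0x2000040012000b0000800000000000000000000000000) (nat_lit 0x0) (nat_lit 0x54001a0004000000017000a0000000000000000000000) := T_22 (nat_lit 108) (nat_lit 91) (nat_lit 6) (nat_lit 5) (nat_lit 9) L67887 (by decide +kernel)
theorem L67889 : W_22 (nat_lit 8) (nat_lit 0x2000040012000b0000000000000000000000000000000) (nat_lit 0x0) (nat_lit 0x54001a000500000001f000e0007000000000000000000) := Q_22 (nat_lit 107) (C_22 L67862 (C_22 L67874 (C_22 L67877 (C_22 L67882 (C_22 L67888 N_22))))) (by decide +kernel)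
theorem L67890 : W_22 (nat_lit 2) (nat_lit 0x10002c00040012000b0000000000000000000000000000000) (nat_lit 0x0) (nat_lit 0x100008000400000000000000000000000000) := D_22 (nat_lit 123) (nat_lit 140) (nat_lit 106) (nat_lit 4) (nat_lit 5) (nat_lit 11) (nat_lit 4) (nat_lit 5) (nat_lit 10) (by decide +kernel)
theorem L67891 : W_22 (nat_lit 3) (nat_lit 0x2c00040012000b0000000000000000000000000000000) (nat_lit 0x0) (nat_lit 0x1000000000000500008000400000000000000000000000000) := T_22 (nat_lit 192) (nat_lit 142) (nat_lit 6) (nat_lit 5) (nat_lit 11) L67890 (by decide +kernel)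
theorem L67892 : W_22 (nat_lit 4) (nat_lit 0x2800040012000b0000000000000000000000000000000) (nat_lit 0x0) (nat_lit 0x1800040000000500008000400000000000000000000000000) := T_22 (nat_lit 174) (nat_lit 191) (nat_lit 5) (nat_lit 5) (nat_lit 7) L67891 (by decide +kernel)
theorem L67893 : W_22 (nat_lit 5) (nat_lit 0x2000040012000b0000000000000000000000000000000) (nat_lit 0x0) (nat_lit 0x18000c0000000500008001400000000000000000000000000) := T_22 (nat_lit 175) (nat_lit 108) (nat_lit 6) (nat_lit 5) (nat_lit 10) L67892 (by decide +kernel)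
theorem L67894 : W_22 (nat_lit 2) (nat_lit 0x2800040012000b8000000000000000000000000000000) (nat_lit 0x0) (nat_lit 0x1000000000000500000000000000000000000000000000000) := D_22 (nat_lit 192) (nat_lit 142) (nat_lit 140) (nat_lit 6) (nat_lit 5) (nat_lit 11) (nat_lit 4) (nat_lit 5) (nat_lit 11) (by decide +kernel)
theorem L67895 : W_22 (nat_lit 3) (nat_lit 0x2800040012000b0000000000000000000000000000000) (nat_lit 0x0) (nat_lit 0x1000000000000500008000400000000000000000000000000) := T_22 (nat_lit 123) (nat_lit 106) (nat_lit 4) (nat_lit 5) (nat_lit 10) L67894 (by decide +kernel)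
theorem L67896 : W_22 (nat_lit 4) (nat_lit 0x2000040012000b0000000000000000000000000000000) (nat_lit 0x0) (nat_lit 0x1000080000000500008001400000000000000000000000000) := T_22 (nat_lit 175) (nat_lit 108) (nat_lit 6) (nat_lit 5) (nat_lit 10) L67895 (by decide +kernel)
theorem L67897 : W_22 (nat_lit 2) (nat_lit 0x50003c00040013400b0000800000000000000000000000000) (nat_lit 0x0) (nat_lit 0x400030000000000000000000000000000000000000000) := D_22 (nat_lit 161) (nat_lit 160) (nat_lit 178) (nat_lit 2) (nat_lit 4) (nat_lit 10) (nat_lit 5) (nat_lit 8) (nat_lit 7) (by decide +kernel)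
theorem L67898 : W_22 (nat_lit 3) (nat_lit 0x10003c00040013400b0000800000000000000000000000000) (nat_lit 0x0) (nat_lit 0xc000400030000000000000000000000000000000000000000) := T_22 (nat_lit 194) (nat_lit 195) (nat_lit 3) (nat_lit 4) (nat_lit 10) L67897 (by decide +kernel)
theorem L67899 : W_22 (nat_lit 4) (nat_lit 0x10002c00040013400b0000800000000000000000000000000) (nat_lit 0x0) (nat_lit 0xc000500038000000000000000000000000000000000000000) := T_22 (nat_lit 176) (nat_lit 159) (nat_lit 7) (nat_lit 5) (nat_lit 6) L67898 (by decide +kernel)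
theorem L67900 : W_22 (nat_lit 5) (nat_lit 0x10002c00040013000b0000800000000000000000000000000) (nat_lit 0x0) (nat_lit 0xc0005000380000c0000000000000000000000000000000000) := T_22 (nat_lit 138) (nat_lit 139) (nat_lit 2) (nat_lit 2) (nat_lit 8) L67899 (by decide +kernel)
theorem L67901 : W_22 (nat_lit 6) (nat_lit 0x10002c00040012000b0000800000000000000000000000000) (nat_lit 0x0) (nat_lit 0xc0005000380001c0008000000000000000000000000000000) := T_22 (nat_lit 140) (nat_lit 123) (nat_lit 4) (nat_lit 5) (nat_lit 11) L67900 (by decide +kernel)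
theorem L67902 : W_22 (nat_lit 7) (nat_lit 0x2c00040012000b0000800000000000000000000000000) (nat_lit 0x0) (nat_lit 0xd0005000380005c0008000000000000000000000000000000) := T_22 (nat_lit 192) (nat_lit 142) (nat_lit 6) (nat_lit 5) (nat_lit 11) L67901 (by decide +kernel)
theorem L67903 : W_22 (nat_lit 8) (nat_lit 0x2c00040012000b0000000000000000000000000000000) (nat_lit 0x0) (nat_lit 0xd00050003a0005c0008000800000000000000000000000000) := T_22 (nat_lit 107) (nat_lit 157) (nat_lit 5) (nat_lit 5) (nat_lit 6) L67902 (by decide +kernel)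
theorem L67904 : W_22 (nat_lit 9) (nat_lit 0x2800040012000b0000000000000000000000000000000) (nat_lit 0x0) (nat_lit 0xd80054003a0005c0008000800000000000000000000000000) := T_22 (nat_lit 174) (nat_lit 191) (nat_lit 5) (nat_lit 5) (nat_lit 7) L67903 (by decide +kernel)
theorem L67905 : W_22 (nat_lit 10) (nat_lit 0x2000040012000b0000000000000000000000000000000) (nat_lit 0x0) (nat_lit 0xd8005c003a0005c0008001800000000000000000000000000) := T_22 (nat_lit 175) (nat_lit 108) (nat_lit 6) (nat_lit 5) (nat_lit 10) L67904 (by decide +kernel)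
theorem L67906 : W_22 (nat_lit 11) (nat_lit 0x2000000012000b0000000000000000000000000000000) (nat_lit 0x0) (nat_lit 0xd8005c003e0005c0008001f000e0007000000000000000000) := Q_22 (nat_lit 158) (C_22 L67859 (C_22 L67868 (C_22 L67889 (C_22 L67893 (C_22 L67896 (C_22 L67905 N_22)))))) (by decide +kernel)
theorem L67907 : W_22 (nat_lit 2) (nat_lit 0x2000000013400b00008000e0002000300008000000000) (nat_lit 0x0) (nat_lit 0x80004000200000) := D_22 (nat_lit 38) (nat_lit 21) (nat_lit 55) (nat_lit 4) (nat_lit 5) (nat_lit 5) (nat_lit 4) (nat_lit 5) (nat_lit 6) (by decide +kernel)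
theorem L67908 : W_22 (nat_lit 3) (nat_lit 0x2000000013400b00008000e0002000300000000000000) (nat_lit 0x0) (nat_lit 0x40000000000008000c000200000) := T_22 (nat_lit 39) (nat_lit 106) (nat_lit 5) (nat_lit 5) (nat_lit 2) L67907 (by decide +kernel)
theorem L67909 : W_22 (nat_lit 4) (nat_lit 0x2000000013400b00008000e0002000100000000000000) (nat_lit 0x0) (nat_lit 0x40000000000028001c000200000) := T_22 (nat_lit 57) (nat_lit 40) (nat_lit 6) (nat_lit 5) (nat_lit 6) L67908 (by decide +kernel)
theorem L67910 : W_22 (nat_lit 5) (nat_lit 0x2000000013400b00008000e0002000000000000000000) (nat_lit 0x0) (nat_lit 0x140000000000038001c000200000) := T_22 (nat_lit 56) (nat_lit 108) (nat_lit 7) (nat_lit 5) (nat_lit 3) L67909 (by decide +kernel)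
theorem L67911 : W_22 (nat_lit 6) (nat_lit 0x2000000013000b00008000e0002000000000000000000) (nat_lit 0x0) (nat_lit 0xc000000140000000000038001c000200000) := T_22 (nat_lit 138) (nat_lit 139) (nat_lit 2) (nat_lit 2) (nat_lit 8) L67910 (by decide +kernel)
theorem L67912 : W_22 (nat_lit 7) (nat_lit 0x2000000013000b00008000e0000000000000000000000) (nat_lit 0x0) (nat_lit 0xc000800140000000200038001c000200000) := T_22 (nat_lit 73) (nat_lit 123) (nat_lit 5) (nat_lit 5) (nat_lit 4) L67911 (by decide +kernel)
theorem L67913 : W_22 (nat_lit 8) (nat_lit 0x2000000012000b00008000e0000000000000000000000) (nat_lit 0x0) (nat_lit 0x20001c000800140000000200038001c000200000) := T_22 (nat_lit 140) (nat_lit 157) (nat_lit 5) (nat_lit 5) (nat_lit 5) L67912 (by decide +kernel)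
theorem L67914 : W_22 (nat_lit 9) (nat_lit 0x2000000012000b0000800060000000000000000000000) (nat_lit 0x0) (nat_lit 0x20001c000800140008000600038001c000200000) := T_22 (nat_lit 91) (nat_lit 74) (nat_lit 6) (nat_lit 5) (nat_lit 8) L67913 (by decide +kernel)
theorem L67915 : W_22 (nat_lit 10) (nat_lit 0x2000000012000b0000800040000000000000000000000) (nat_lit 0x0) (nat_lit 0x20001c00080014000a000700038001c000200000) := T_22 (nat_lit 89) (nat_lit 72) (nat_lit 4) (nat_lit 5) (nat_lit 8) L67914 (by decide +kernel)
theorem L67916 : W_22 (nat_lit 2) (nat_lit 0x2000000013000b0000800040002000000000000000000) (nat_lit 0x0) (nat_lit 0x20001000080000000000000) := D_22 (nat_lit 72) (nat_lit 55) (nat_lit 89) (nat_lit 4) (nat_lit 5) (nat_lit 7) (nat_lit 4) (nat_lit 5) (nat_lit 8) (by decide +kernel)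
theorem L67917 : W_22 (nat_lit 3) (nat_lit 0x2000000013000b0000800040000000000000000000000) (nat_lit 0x0) (nat_lit 0x8000000020003000080000000000000) := T_22 (nat_lit 73) (nat_lit 123) (nat_lit 5) (nat_lit 5) (nat_lit 4) L67916 (by decide +kernel)
theorem L67918 : W_22 (nat_lit 4) (nat_lit 0x2000000012000b0000800040000000000000000000000) (nat_lit 0x0) (nat_lit 0x2000100008000000020003000080000000000000) := T_22 (nat_lit 140) (nat_lit 157) (nat_lit 5) (nat_lit 5) (nat_lit 5) L67917 (by decide +kernel)
theorem L67919 : W_22 (nat_lit 11) (nat_lit 0x2000000012000b0000800000000000000000000000000) (nat_lit 0x0) (nat_lit 0x60001c00080014000e000700038001c000200000) := Q_22 (nat_lit 90) (C_22 L67915 (C_22 L67918 (C_22 L67841 (C_22 L32815 N_22)))) (by decide +kernel)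
theorem L67920 : W_22 (nat_lit 2) (nat_lit 0x2000000013400b0000800040002000000000000000000) (nat_lit 0x0) (nat_lit 0x20001000080000000000000) := D_22 (nat_lit 72) (nat_lit 55) (nat_lit 89) (nat_lit 4) (nat_lit 5) (nat_lit 7) (nat_lit 4) (nat_lit 5) (nat_lit 8) (by decide +kernel)
theorem L67921 : W_22 (nat_lit 3) (nat_lit 0x2000000013400b0000800040000000000000000000000) (nat_lit 0x0) (nat_lit 0x8000000020003000080000000000000) := T_22 (nat_lit 73) (nat_lit 123) (nat_lit 5) (nat_lit 5) (nat_lit 4) L67920 (by decide +kernel)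
theorem L67922 : W_22 (nat_lit 4) (nat_lit 0x2000000013400b0000800000000000000000000000000) (nat_lit 0x0) (nat_lit 0x2000000008000000060003000080000000000000) := T_22 (nat_lit 90) (nat_lit 157) (nat_lit 5) (nat_lit 5) (nat_lit 5) L67921 (by decide +kernel)
theorem L67923 : W_22 (nat_lit 5) (nat_lit 0x2000000013000b0000800000000000000000000000000) (nat_lit 0x0) (nat_lit 0x20000c0008000000060003000080000000000000) := T_22 (nat_lit 138) (nat_lit 139) (nat_lit 2) (nat_lit 2) (nat_lit 8) L67922 (by decide +kernel)
theorem L67924 : W_22 (nat_lit 6) (nat_lit 0x2000000012000b0000800000000000000000000000000) (nat_lit 0x0) (nat_lit 0x20001c0048000000060003000080000000000000) := T_22 (nat_lit 140) (nat_lit 126) (nat_lit 1) (nat_lit 8) (nat_lit 7) L67923 (by decide +kernel)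
theorem L67925 : W_22 (nat_lit 12) (nat_lit 0x2000000012000b0000000000000000000000000000000) (nat_lit 0x0) (nat_lit 0x800060001c0048001f000e000700038001c000200000) := Q_22 (nat_lit 107) (C_22 L67846 (C_22 L61828 (C_22 L67919 (C_22 L67924 N_22)))) (by decide +kernel)
theorem L67926 : W_22 (nat_lit 6) (nat_lit 0x2000000013800b0000800060000000000000000000000) (nat_lit 0x0) (nat_lit 0x980040000e000600080004000000000000000000) := T_22 (nat_lit 91) (nat_lit 74) (nat_lit 6) (nat_lit 5) (nat_lit 8) L31991 (by decide +kernel)
theorem L67927 : W_22 (nat_lit 7) (nat_lit 0x2000000013000b0000800060000000000000000000000) (nat_lit 0x0) (nat_lit 0x98004c000e000600080004000000000000000000) := T_22 (nat_lit 139) (nat_lit 138) (nat_lit 2) (nat_lit 2) (nat_lit 8) L67926 (by decide +kernel)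
theorem L67928 : W_22 (nat_lit 8) (nat_lit 0x2000000012000b0000800060000000000000000000000) (nat_lit 0x0) (nat_lit 0xb8005c000e000600080004000000000000000000) := T_22 (nat_lit 140) (nat_lit 157) (nat_lit 5) (nat_lit 5) (nat_lit 5) L67927 (by decide +kernel)
theorem L67929 : W_22 (nat_lit 9) (nat_lit 0x2000000012000b0000800040000000000000000000000) (nat_lit 0x0) (nat_lit 0xb8005c000e0006000a0005000000000000000000) := T_22 (nat_lit 89) (nat_lit 72) (nat_lit 4) (nat_lit 5) (nat_lit 8) L67928 (by decide +kernel)
theorem L67930 : W_22 (nat_lit 10) (nat_lit 0x2000000012000b0000800000000000000000000000000) (nat_lit 0x0) (nat_lit 0xb8005c000e0006000e0007000200000000000000) := Q_22 (nat_lit 90) (C_22 L32815 (C_22 L32825 (C_22 L67929 N_22))) (by decide +kernel)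
theorem L67931 : W_22 (nat_lit 5) (nat_lit 0x2000000012000b0000800040000000000000000000000) (nat_lit 0x0) (nat_lit 0x400004000a0007000280000000000000) := T_22 (nat_lit 126) (nat_lit 106) (nat_lit 0) (nat_lit 8) (nat_lit 7) L67767 (by decide +kernel)
theorem L67932 : W_22 (nat_lit 2) (nat_lit 0x2000000016000b0000d001e0000000000000000000000) (nat_lit 0x0) (nat_lit 0x1000000018000000000000000000) := D_22 (nat_lit 75) (nat_lit 76) (nat_lit 108) (nat_lit 2) (nat_lit 4) (nat_lit 5) (nat_lit 6) (nat_lit 6) (nat_lit 8) (by decide +kernel)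
theorem L67933 : W_22 (nat_lit 3) (nat_lit 0x2000000016000b0000d001c0000000000000000000000) (nat_lit 0x0) (nat_lit 0x1000020019000000000000000000) := T_22 (nat_lit 89) (nat_lit 72) (nat_lit 4) (nat_lit 5) (nat_lit 8) L67932 (by decide +kernel)
theorem L67934 : W_22 (nat_lit 4) (nat_lit 0x2000000016000b0000d000c0000000000000000000000) (nat_lit 0x0) (nat_lit 0x1000320019000000000000000000) := T_22 (nat_lit 92) (nat_lit 93) (nat_lit 1) (nat_lit 8) (nat_lit 5) L67933 (by decide +kernel)
theorem L67935 : W_22 (nat_lit 5) (nat_lit 0x2000000016000b0000c000c0000000000000000000000) (nat_lit 0x0) (nat_lit 0x1300320019000000000000000000) := T_22 (nat_lit 104) (nat_lit 105) (nat_lit 3) (nat_lit 2) (nat_lit 6) L67934 (by decide +kernel)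
theorem L67936 : W_22 (nat_lit 6) (nat_lit 0x2000000016000b0000c00040000000000000000000000) (nat_lit 0x0) (nat_lit 0x13003a001d000000000000000000) := T_22 (nat_lit 91) (nat_lit 74) (nat_lit 6) (nat_lit 5) (nat_lit 8) L67935 (by decide +kernel)
theorem L67937 : W_22 (nat_lit 7) (nat_lit 0x2000000016000b0000800040000000000000000000000) (nat_lit 0x0) (nat_lit 0x400017003a001d000000000000000000) := T_22 (nat_lit 106) (nat_lit 126) (nat_lit 0) (nat_lit 8) (nat_lit 7) L67936 (by decide +kernel)
theorem L67938 : W_22 (nat_lit 8) (nat_lit 0x2000000012000b0000800040000000000000000000000) (nat_lit 0x0) (nat_lit 0x80004000400017003a001d000000000000000000) := T_22 (nat_lit 142) (nat_lit 159) (nat_lit 7) (nat_lit 5) (nat_lit 5) L67937 (by decide +kernel)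
theorem L67939 : W_22 (nat_lit 9) (nat_lit 0x2000000012000b0000800000000000000000000000000) (nat_lit 0x0) (nat_lit 0x80004000400017003e001f000280000000000000) := Q_22 (nat_lit 90) (C_22 L32825 (C_22 L67931 (C_22 L67938 N_22))) (by decide +kernel)
theorem L67940 : W_22 (nat_lit 11) (nat_lit 0x2000000012000b0000000000000000000000000000000) (nat_lit 0x0) (nat_lit 0xb8005c004e001f003e001f000280000000000000) := Q_22 (nat_lit 107) (C_22 L67924 (C_22 L67930 (C_22 L61828 (C_22 L67939 N_22)))) (by decide +kernel)
theorem L67941 : W_22 (nat_lit 5) (nat_lit 0x2000000012000b0000d00000000000000000000000000) (nat_lit 0x0) (nat_lit 0x100018000c000400008000000060000000000000000000000) := T_22 (nat_lit 158) (nat_lit 89) (nat_lit 4) (nat_lit 5) (nat_lit 9) L67865 (by decide +kernel)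
theorem L67942 : W_22 (nat_lit 6) (nat_lit 0x2000000012000b0000c00000000000000000000000000) (nat_lit 0x0) (nat_lit 0x100018000c000400008000300060000000000000000000000) := T_22 (nat_lit 104) (nat_lit 105) (nat_lit 3) (nat_lit 2) (nat_lit 6) L67941 (by decide +kernel)
theorem L67943 : W_22 (nat_lit 7) (nat_lit 0x2000000012000b0000800000000000000000000000000) (nat_lit 0x0) (nat_lit 0x100018000c000400048000700060000000000000000000000) := T_22 (nat_lit 106) (nat_lit 126) (nat_lit 0) (nat_lit 8) (nat_lit 7) L67942 (by decide +kernel)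
theorem L67944 : W_22 (nat_lit 11) (nat_lit 0x2000000012000b0000000000000000000000000000000) (nat_lit 0x0) (nat_lit 0x100018000f8005c004e000f000e0007000280000000000000) := Q_22 (nat_lit 107) (C_22 L67930 (C_22 L67924 (C_22 L61828 (C_22 L67943 N_22)))) (by decide +kernel)
theorem L67945 : W_22 (nat_lit 5) (nat_lit 0x2000000012000b0000800000000000000000000000000) (nat_lit 0x0) (nat_lit 0xc0004000000014000e0007000000000000000000) := Q_22 (nat_lit 90) (C_22 L32825 (C_22 L67841 N_22)) (by decide +kernel)
theorem L67946 : W_22 (nat_lit 5) (nat_lit 0x2000000012000b0000800040000000000000000000000) (nat_lit 0x0) (nat_lit 0x1000400000000a0007000280000000000000) := T_22 (nat_lit 126) (nat_lit 140) (nat_lit 1) (nat_lit 8) (nat_lit 7) L67767 (by decide +kernel)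
theorem L67947 : W_22 (nat_lit 8) (nat_lit 0x2000000016000b0000800040000000000000000000000) (nat_lit 0x0) (nat_lit 0x40001000400030007b800d000000000000000000) := T_22 (nat_lit 126) (nat_lit 140) (nat_lit 1) (nat_lit 8) (nat_lit 7) L67466 (by decide +kernel)
theorem L67948 : W_22 (nat_lit 9) (nat_lit 0x2000000012000b0000800040000000000000000000000) (nat_lit 0x0) (nat_lit 0xc0005000400030007b800d000000000000000000) := T_22 (nat_lit 142) (nat_lit 159) (nat_lit 7) (nat_lit 5) (nat_lit 5) L67947 (by decide +kernel)
theorem L67949 : W_22 (nat_lit 10) (nat_lit 0x2000000012000b0000800000000000000000000000000) (nat_lit 0x0) (nat_lit 0xc0005000400030007f800f000280000000000000) := Q_22 (nat_lit 90) (C_22 L32825 (C_22 L67946 (C_22 L67948 N_22))) (by decide +kernel)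
theorem L67950 : W_22 (nat_lit 11) (nat_lit 0x2000000012000b0000000000000000000000000000000) (nat_lit 0x0) (nat_lit 0x100018000c000500048003f007f801f000280000000000000) := Q_22 (nat_lit 107) (C_22 L67943 (C_22 L67939 (C_22 L67846 (C_22 L67945 (C_22 L67949 (C_22 L61828 N_22)))))) (by decide +kernel)
theorem L67951 : W_22 (nat_lit 2) (nat_lit 0x2000040012000f0001000000000000000000000000000) (nat_lit 0x0) (nat_lit 0x400000000000080004000000000000000000) := D_22 (nat_lit 91) (nat_lit 74) (nat_lit 142) (nat_lit 5) (nat_lit 6) (nat_lit 4) (nat_lit 5) (nat_lit 6) (nat_lit 5) (by decide +kernel)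
theorem L67952 : W_22 (nat_lit 3) (nat_lit 0x2000000012000f0001000000000000000000000000000) (nat_lit 0x0) (nat_lit 0x80004000400000000000080004000000000000000000) := T_22 (nat_lit 158) (nat_lit 175) (nat_lit 6) (nat_lit 5) (nat_lit 10) L67951 (by decide +kernel)
theorem L67953 : W_22 (nat_lit 4) (nat_lit 0x2000000012000b0001000000000000000000000000000) (nat_lit 0x0) (nat_lit 0x80004000500040000000080004000000000000000000) := T_22 (nat_lit 126) (nat_lit 140) (nat_lit 1) (nat_lit 8) (nat_lit 7) L67952 (by decide +kernel)
theorem L67954 : W_22 (nat_lit 2) (nat_lit 0x2000000012000b0001000080000000000000000000000) (nat_lit 0x0) (nat_lit 0x80004000400000000000000000000000000000000000) := D_22 (nat_lit 158) (nat_lit 175) (nat_lit 142) (nat_lit 6) (nat_lit 5) (nat_lit 10) (nat_lit 5) (nat_lit 6) (nat_lit 5) (by decide +kernel)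
theorem L67955 : W_22 (nat_lit 3) (nat_lit 0x2000000012000b0001000000000000000000000000000) (nat_lit 0x0) (nat_lit 0x80004000400000000000080004000000000000000000) := T_22 (nat_lit 91) (nat_lit 74) (nat_lit 5) (nat_lit 6) (nat_lit 4) L67954 (by decide +kernel)
theorem L67956 : W_22 (nat_lit 2) (nat_lit 0x2000000012800bc001200000000000000000000000000) (nat_lit 0x0) (nat_lit 0x100040000400000000000000000000000000) := D_22 (nat_lit 126) (nat_lit 140) (nat_lit 106) (nat_lit 1) (nat_lit 7) (nat_lit 7) (nat_lit 0) (nat_lit 7) (nat_lit 7) (by decide +kernel)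
theorem L67957 : W_22 (nat_lit 3) (nat_lit 0x2000000012800bc001000000000000000000000000000) (nat_lit 0x0) (nat_lit 0x100040000700000000000000000000000000) := T_22 (nat_lit 105) (nat_lit 104) (nat_lit 0) (nat_lit 6) (nat_lit 7) L67956 (by decide +kernel)
theorem L67958 : W_22 (nat_lit 4) (nat_lit 0x2000000012000bc001000000000000000000000000000) (nat_lit 0x0) (nat_lit 0x1c0040000700000000000000000000000000) := T_22 (nat_lit 139) (nat_lit 138) (nat_lit 1) (nat_lit 6) (nat_lit 7) L67957 (by decide +kernel)
theorem L67959 : W_22 (nat_lit 5) (nat_lit 0x2000000012000b8001000000000000000000000000000) (nat_lit 0x0) (nat_lit 0x1c0044002700000000000000000000000000) := T_22 (nat_lit 122) (nat_lit 109) (nat_lit 2) (nat_lit 3) (nat_lit 7) L67958 (by decide +kernel)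
theorem L67960 : W_22 (nat_lit 2) (nat_lit 0x2900000013400be001200010004000000000000000000) (nat_lit 0x0) (nat_lit 0x40002000000000000400000000000000000000000000) := D_22 (nat_lit 157) (nat_lit 106) (nat_lit 174) (nat_lit 4) (nat_lit 4) (nat_lit 9) (nat_lit 4) (nat_lit 4) (nat_lit 10) (by decide +kernel)
theorem L67961 : W_22 (nat_lit 3) (nat_lit 0x2900000012400be001200010004000000000000000000) (nat_lit 0x0) (nat_lit 0x40002000100001000400000000000000000000000000) := T_22 (nat_lit 140) (nat_lit 120) (nat_lit 3) (nat_lit 1) (nat_lit 7) L67960 (by decide +kernel)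
theorem L67962 : W_22 (nat_lit 4) (nat_lit 0x2900000012400be001200000004000000000000000000) (nat_lit 0x0) (nat_lit 0x40002000100001000400010000800000000000000000) := T_22 (nat_lit 88) (nat_lit 71) (nat_lit 5) (nat_lit 3) (nat_lit 4) L67961 (by decide +kernel)
theorem L67963 : W_22 (nat_lit 5) (nat_lit 0x2800000012400be001200000004000000000000000000) (nat_lit 0x0) (nat_lit 0x50002800100001000400010000800000000000000000) := T_22 (nat_lit 172) (nat_lit 155) (nat_lit 6) (nat_lit 2) (nat_lit 10) L67962 (by decide +kernel)
theorem L67964 : W_22 (nat_lit 6) (nat_lit 0x2800000012400be001200000000000000000000000000) (nat_lit 0x0) (nat_lit 0x50002800100001000400090004800000000000000000) := T_22 (nat_lit 74) (nat_lit 91) (nat_lit 5) (nat_lit 6) (nat_lit 4) L67963 (by decide +kernel)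
theorem L67965 : W_22 (nat_lit 7) (nat_lit 0x2800000012400bc001200000000000000000000000000) (nat_lit 0x0) (nat_lit 0x50002800120003000400090004800000000000000000) := T_22 (nat_lit 121) (nat_lit 137) (nat_lit 1) (nat_lit 5) (nat_lit 7) L67964 (by decide +kernel)
theorem L67966 : W_22 (nat_lit 8) (nat_lit 0x2800000012400bc001000000000000000000000000000) (nat_lit 0x0) (nat_lit 0x50002800120003000700090004800000000000000000) := T_22 (nat_lit 105) (nat_lit 104) (nat_lit 0) (nat_lit 6) (nat_lit 7) L67965 (by decide +kernel)
theorem L67967 : W_22 (nat_lit 9) (nat_lit 0x2800000012000bc001000000000000000000000000000) (nat_lit 0x0) (nat_lit 0x500028001e0003000700090004800000000000000000) := T_22 (nat_lit 138) (nat_lit 139) (nat_lit 1) (nat_lit 6) (nat_lit 7) L67966 (by decide +kernel)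
theorem L67968 : W_22 (nat_lit 10) (nat_lit 0x2800000012000b8001000000000000000000000000000) (nat_lit 0x0) (nat_lit 0x500028001e0007002700090004800000000000000000) := T_22 (nat_lit 122) (nat_lit 109) (nat_lit 2) (nat_lit 3) (nat_lit 7) L67967 (by decide +kernel)
theorem L67969 : W_22 (nat_lit 11) (nat_lit 0x2000000012000b8001000000000000000000000000000) (nat_lit 0x0) (nat_lit 0xd00068001e0007002700090004800000000000000000) := T_22 (nat_lit 175) (nat_lit 158) (nat_lit 6) (nat_lit 5) (nat_lit 10) L67968 (by decide +kernel)
theorem L67970 : W_22 (nat_lit 6) (nat_lit 0x2800000012400bc001200000004000000000000000000) (nat_lit 0x0) (nat_lit 0x50002800120003000400010000800000000000000000) := T_22 (nat_lit 121) (nat_lit 137) (nat_lit 1) (nat_lit 5) (nat_lit 7) L67963 (by decide +kernel)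
theorem L67971 : W_22 (nat_lit 7) (nat_lit 0x2800000012000bc001200000004000000000000000000) (nat_lit 0x0) (nat_lit 0x500028001e0003000400010000800000000000000000) := T_22 (nat_lit 138) (nat_lit 139) (nat_lit 1) (nat_lit 6) (nat_lit 7) L67970 (by decide +kernel)
theorem L67972 : W_22 (nat_lit 8) (nat_lit 0x2000000012000bc001200000004000000000000000000) (nat_lit 0x0) (nat_lit 0xd00068001e0003000400010000800000000000000000) := T_22 (nat_lit 175) (nat_lit 158) (nat_lit 6) (nat_lit 5) (nat_lit 10) L67971 (by decide +kernel)
theorem L67973 : W_22 (nat_lit 9) (nat_lit 0x2000000012000bc001000000004000000000000000000) (nat_lit 0x0) (nat_lit 0xd00068001e0003000700010000800000000000000000) := T_22 (nat_lit 105) (nat_lit 104) (nat_lit 0) (nat_lit 6) (nat_lit 7) L67972 (by decide +kernel)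
theorem L67974 : W_22 (nat_lit 10) (nat_lit 0x2000000012000bc001000000000000000000000000000) (nat_lit 0x0) (nat_lit 0xd00068001e0003000700090004800000000000000000) := T_22 (nat_lit 74) (nat_lit 91) (nat_lit 5) (nat_lit 6) (nat_lit 4) L67973 (by decide +kernel)
theorem L67975 : W_22 (nat_lit 2) (nat_lit 0x2800000012800bc001600000004000000000000000000) (nat_lit 0x0) (nat_lit 0x1000000000000000020001000000000000000000) := D_22 (nat_lit 89) (nat_lit 72) (nat_lit 156) (nat_lit 7) (nat_lit 4) (nat_lit 4) (nat_lit 6) (nat_lit 3) (nat_lit 9) (by decide +kernel)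
theorem L67976 : W_22 (nat_lit 3) (nat_lit 0x2800000012800bc001200000004000000000000000000) (nat_lit 0x0) (nat_lit 0x1000000040000400020001000000000000000000) := T_22 (nat_lit 106) (nat_lit 126) (nat_lit 0) (nat_lit 7) (nat_lit 7) L67975 (by decide +kernel)
theorem L67977 : W_22 (nat_lit 4) (nat_lit 0x2000000012800bc001200000004000000000000000000) (nat_lit 0x0) (nat_lit 0x80005000000040000400020001000000000000000000) := T_22 (nat_lit 175) (nat_lit 158) (nat_lit 6) (nat_lit 5) (nat_lit 10) L67976 (by decide +kernel)
theorem L67978 : W_22 (nat_lit 5) (nat_lit 0x2000000012800bc001000000004000000000000000000) (nat_lit 0x0) (nat_lit 0x80005000000040000700020001000000000000000000) := T_22 (nat_lit 105) (nat_lit 104) (nat_lit 0) (nat_lit 6) (nat_lit 7) L67977 (by decide +kernel)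
theorem L67979 : W_22 (nat_lit 6) (nat_lit 0x2000000012800bc001000000000000000000000000000) (nat_lit 0x0) (nat_lit 0x800050000000400007000a0005000000000000000000) := T_22 (nat_lit 74) (nat_lit 91) (nat_lit 5) (nat_lit 6) (nat_lit 4) L67978 (by decide +kernel)
theorem L67980 : W_22 (nat_lit 7) (nat_lit 0x2000000012000bc001000000000000000000000000000) (nat_lit 0x0) (nat_lit 0x800050000c00400007000a0005000000000000000000) := T_22 (nat_lit 139) (nat_lit 138) (nat_lit 1) (nat_lit 6) (nat_lit 7) L67979 (by decide +kernel)
theorem L67981 : W_22 (nat_lit 2) (nat_lit 0x2000000013800bc001200000000000000000000000000) (nat_lit 0x0) (nat_lit 0x40002000000000000000010000000000000000000000) := D_22 (nat_lit 157) (nat_lit 174) (nat_lit 88) (nat_lit 4) (nat_lit 4) (nat_lit 10) (nat_lit 7) (nat_lit 3) (nat_lit 5) (by decide +kernel)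
theorem L67982 : W_22 (nat_lit 3) (nat_lit 0x2000000013000bc001200000000000000000000000000) (nat_lit 0x0) (nat_lit 0x400020000c0000000000010000000000000000000000) := T_22 (nat_lit 139) (nat_lit 138) (nat_lit 2) (nat_lit 2) (nat_lit 8) L67981 (by decide +kernel)
theorem L67983 : W_22 (nat_lit 4) (nat_lit 0x2000000012000bc001200000000000000000000000000) (nat_lit 0x0) (nat_lit 0x400020001c0040000000010000000000000000000000) := T_22 (nat_lit 140) (nat_lit 126) (nat_lit 1) (nat_lit 8) (nat_lit 7) L67982 (by decide +kernel)
theorem L67984 : W_22 (nat_lit 5) (nat_lit 0x2000000012000bc001000000000000000000000000000) (nat_lit 0x0) (nat_lit 0x400020001c0040000300010000000000000000000000) := T_22 (nat_lit 105) (nat_lit 104) (nat_lit 0) (nat_lit 6) (nat_lit 7) L67983 (by decide +kernel)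
theorem L67985 : W_22 (nat_lit 2) (nat_lit 0x2000000012000bc001200000000000000000000000000) (nat_lit 0x0) (nat_lit 0x100040000400000000000000000000000000) := D_22 (nat_lit 126) (nat_lit 140) (nat_lit 106) (nat_lit 1) (nat_lit 8) (nat_lit 7) (nat_lit 0) (nat_lit 7) (nat_lit 7) (by decide +kernel)
theorem L67986 : W_22 (nat_lit 3) (nat_lit 0x2000000012000bc001000000000000000000000000000) (nat_lit 0x0) (nat_lit 0x100040000700000000000000000000000000) := T_22 (nat_lit 105) (nat_lit 104) (nat_lit 0) (nat_lit 6) (nat_lit 7) L67985 (by decide +kernel)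
theorem L67987 : W_22 (nat_lit 2) (nat_lit 0x2800000013400bc001000000000000000000000000000) (nat_lit 0x0) (nat_lit 0x20003000000000000000000000000000000) := D_22 (nat_lit 121) (nat_lit 120) (nat_lit 137) (nat_lit 3) (nat_lit 1) (nat_lit 7) (nat_lit 1) (nat_lit 5) (nat_lit 7) (by decide +kernel)
theorem L67988 : W_22 (nat_lit 3) (nat_lit 0x2800000013000bc001000000000000000000000000000) (nat_lit 0x0) (nat_lit 0xe0003000000000000000000000000000000) := T_22 (nat_lit 138) (nat_lit 139) (nat_lit 2) (nat_lit 2) (nat_lit 8) L67987 (by decide +kernel)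
theorem L67989 : W_22 (nat_lit 4) (nat_lit 0x2000000013000bc001000000000000000000000000000) (nat_lit 0x0) (nat_lit 0x800040000e0003000000000000000000000000000000) := T_22 (nat_lit 175) (nat_lit 158) (nat_lit 6) (nat_lit 5) (nat_lit 10) L67988 (by decide +kernel)
theorem L67990 : W_22 (nat_lit 5) (nat_lit 0x2000000012000bc001000000000000000000000000000) (nat_lit 0x0) (nat_lit 0x800040001e0043000000000000000000000000000000) := T_22 (nat_lit 140) (nat_lit 126) (nat_lit 1) (nat_lit 8) (nat_lit 7) L67989 (by decide +kernel)
theorem L67991 : W_22 (nat_lit 11) (nat_lit 0x2000000012000b8001000000000000000000000000000) (nat_lit 0x0) (nat_lit 0xd00078001e00470007000b0005800000000000000000) := Q_22 (nat_lit 122) (C_22 L67958 (C_22 L67974 (C_22 L67980 (C_22 L67984 (C_22 L67986 (C_22 L67990 N_22)))))) (by decide +kernel)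
theorem L67992 : W_22 (nat_lit 4) (nat_lit 0x2800000012800bc001000000004000000000000000000) (nat_lit 0x0) (nat_lit 0x1000000040000700020001000000000000000000) := T_22 (nat_lit 105) (nat_lit 104) (nat_lit 0) (nat_lit 6) (nat_lit 7) L67976 (by decide +kernel)
theorem L67993 : W_22 (nat_lit 5) (nat_lit 0x2800000012000bc001000000004000000000000000000) (nat_lit 0x0) (nat_lit 0x10000c0040000700020001000000000000000000) := T_22 (nat_lit 139) (nat_lit 138) (nat_lit 1) (nat_lit 6) (nat_lit 7) L67992 (by decide +kernel)
theorem L67994 : W_22 (nat_lit 6) (nat_lit 0x2800000012000b8001000000004000000000000000000) (nat_lit 0x0) (nat_lit 0x10000c0044002700020001000000000000000000) := T_22 (nat_lit 122) (nat_lit 109) (nat_lit 2) (nat_lit 3) (nat_lit 7) L67993 (by decide +kernel)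
theorem L67995 : W_22 (nat_lit 7) (nat_lit 0x2800000012000b8001000000000000000000000000000) (nat_lit 0x0) (nat_lit 0x10000c00440027000a0005000000000000000000) := T_22 (nat_lit 74) (nat_lit 91) (nat_lit 5) (nat_lit 6) (nat_lit 4) L67994 (by decide +kernel)
theorem L67996 : W_22 (nat_lit 8) (nat_lit 0x2000000012000b8001000000000000000000000000000) (nat_lit 0x0) (nat_lit 0x800050000c00440027000a0005000000000000000000) := T_22 (nat_lit 175) (nat_lit 158) (nat_lit 6) (nat_lit 5) (nat_lit 10) L67995 (by decide +kernel)
theorem L67997 : W_22 (nat_lit 6) (nat_lit 0x2000000012000b8001000000000000000000000000000) (nat_lit 0x0) (nat_lit 0x800040001e0047002000000000000000000000000000) := T_22 (nat_lit 122) (nat_lit 109) (nat_lit 2) (nat_lit 3) (nat_lit 7) L67990 (by decide +kernel)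
theorem L67998 : W_22 (nat_lit 2) (nat_lit 0x2000000012000f8001200000000000000000000000000) (nat_lit 0x0) (nat_lit 0x4002100000000000000000000000000) := D_22 (nat_lit 122) (nat_lit 109) (nat_lit 104) (nat_lit 2) (nat_lit 3) (nat_lit 7) (nat_lit 0) (nat_lit 6) (nat_lit 7) (by decide +kernel)
theorem L67999 : W_22 (nat_lit 3) (nat_lit 0x2000000012000f8001000000000000000000000000000) (nat_lit 0x0) (nat_lit 0x4002700000000000000000000000000) := T_22 (nat_lit 105) (nat_lit 106) (nat_lit 0) (nat_lit 7) (nat_lit 7) L67998 (by decide +kernel)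
theorem L68000 : W_22 (nat_lit 4) (nat_lit 0x2000000012000b8001000000000000000000000000000) (nat_lit 0x0) (nat_lit 0x100044002700000000000000000000000000) := T_22 (nat_lit 126) (nat_lit 140) (nat_lit 1) (nat_lit 8) (nat_lit 7) L67999 (by decide +kernel)
theorem L68001 : W_22 (nat_lit 2) (nat_lit 0x2000000012000b8001400000000000000000000000000) (nat_lit 0x0) (nat_lit 0x100040000200000000000000000000000000) := D_22 (nat_lit 126) (nat_lit 140) (nat_lit 105) (nat_lit 1) (nat_lit 8) (nat_lit 7) (nat_lit 0) (nat_lit 7) (nat_lit 7) (by decide +kernel)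
theorem L68002 : W_22 (nat_lit 2) (nat_lit 0x2000040012000b8001400000000000000000000000000) (nat_lit 0x0) (nat_lit 0x100000000000020001000000000000000000) := D_22 (nat_lit 89) (nat_lit 72) (nat_lit 140) (nat_lit 7) (nat_lit 4) (nat_lit 4) (nat_lit 7) (nat_lit 4) (nat_lit 5) (by decide +kernel)
theorem L68003 : W_22 (nat_lit 3) (nat_lit 0x2000000012000b8001400000000000000000000000000) (nat_lit 0x0) (nat_lit 0x80004000100000000000020001000000000000000000) := T_22 (nat_lit 158) (nat_lit 175) (nat_lit 6) (nat_lit 5) (nat_lit 10) L68002 (by decide +kernel)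
theorem L68004 : W_22 (nat_lit 2) (nat_lit 0x2800000012000b80016800f0000000000000000000000) (nat_lit 0x0) (nat_lit 0xc00040000000000000) := D_22 (nat_lit 71) (nat_lit 70) (nat_lit 54) (nat_lit 0) (nat_lit 6) (nat_lit 5) (nat_lit 7) (nat_lit 3) (nat_lit 3) (by decide +kernel)
theorem L68005 : W_22 (nat_lit 3) (nat_lit 0x2800000012000b80016800e0000000000000000000000) (nat_lit 0x0) (nat_lit 0x2000010000c00040000000000000) := T_22 (nat_lit 88) (nat_lit 109) (nat_lit 3) (nat_lit 3) (nat_lit 5) L68004 (by decide +kernel)
theorem L68006 : W_22 (nat_lit 4) (nat_lit 0x2800000012000b80016800a0000000000000000000000) (nat_lit 0x0) (nat_lit 0x2000150000c00040000000000000) := T_22 (nat_lit 90) (nat_lit 92) (nat_lit 1) (nat_lit 7) (nat_lit 5) L68005 (by decide +kernel)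
theorem L68007 : W_22 (nat_lit 5) (nat_lit 0x2800000012000b8001680080000000000000000000000) (nat_lit 0x0) (nat_lit 0x2000170001c00040000000000000) := T_22 (nat_lit 89) (nat_lit 72) (nat_lit 7) (nat_lit 4) (nat_lit 4) L68006 (by decide +kernel)
theorem L68008 : W_22 (nat_lit 6) (nat_lit 0x2800000012000b8001600080000000000000000000000) (nat_lit 0x0) (nat_lit 0x2180170001c00040000000000000) := T_22 (nat_lit 103) (nat_lit 104) (nat_lit 3) (nat_lit 1) (nat_lit 6) L68007 (by decide +kernel)
theorem L68009 : W_22 (nat_lit 7) (nat_lit 0x2000000012000b8001600080000000000000000000000) (nat_lit 0x0) (nat_lit 0x80004000000000002180170001c00040000000000000) := T_22 (nat_lit 175) (nat_lit 158) (nat_lit 6) (nat_lit 5) (nat_lit 10) L68008 (by decide +kernel)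
theorem L68010 : W_22 (nat_lit 8) (nat_lit 0x2000000012000b8001400080000000000000000000000) (nat_lit 0x0) (nat_lit 0x80004000000040002380170001c00040000000000000) := T_22 (nat_lit 105) (nat_lit 126) (nat_lit 0) (nat_lit 7) (nat_lit 7) L68009 (by decide +kernel)
theorem L68011 : W_22 (nat_lit 9) (nat_lit 0x2000000012000b8001400000000000000000000000000) (nat_lit 0x0) (nat_lit 0x800040000000400023801f0005c00040000000000000) := T_22 (nat_lit 91) (nat_lit 74) (nat_lit 5) (nat_lit 6) (nat_lit 4) L68010 (by decide +kernel)
theorem L68012 : W_22 (nat_lit 10) (nat_lit 0x2000000012000b8001000000000000000000000000000) (nat_lit 0x0) (nat_lit 0x800040001000400027801f0005c00040000000000000) := Q_22 (nat_lit 106) (C_22 L68001 (C_22 L68003 (C_22 L68011 N_22))) (by decide +kernel)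
theorem L68013 : W_22 (nat_lit 12) (nat_lit 0x2000000012000b0001000000000000000000000000000) (nat_lit 0x0) (nat_lit 0xd00078001e004f0027801f0005c00040000000000000) := Q_22 (nat_lit 123) (C_22 L67959 (C_22 L67969 (C_22 L67991 (C_22 L67996 (C_22 L67997 (C_22 L68000 (C_22 L68012 N_22))))))) (by decide +kernel)
theorem L68014 : W_22 (nat_lit 2) (nat_lit 0x2000000012800be001000000004000000000000000000) (nat_lit 0x0) (nat_lit 0x380000000000000000000000000) := D_22 (nat_lit 104) (nat_lit 105) (nat_lit 103) (nat_lit 0) (nat_lit 6) (nat_lit 7) (nat_lit 0) (nat_lit 5) (nat_lit 7) (by decide +kernel)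
theorem L68015 : W_22 (nat_lit 3) (nat_lit 0x2000000012800bc001000000004000000000000000000) (nat_lit 0x0) (nat_lit 0x400002000380000000000000000000000000) := T_22 (nat_lit 121) (nat_lit 142) (nat_lit 3) (nat_lit 2) (nat_lit 7) L68014 (by decide +kernel)
theorem L68016 : W_22 (nat_lit 4) (nat_lit 0x2000000012000bc001000000004000000000000000000) (nat_lit 0x0) (nat_lit 0x4c0002000380000000000000000000000000) := T_22 (nat_lit 139) (nat_lit 138) (nat_lit 1) (nat_lit 6) (nat_lit 7) L68015 (by decide +kernel)
theorem L68017 : W_22 (nat_lit 5) (nat_lit 0x2000000012000b8001000000004000000000000000000) (nat_lit 0x0) (nat_lit 0x4c0006002380000000000000000000000000) := T_22 (nat_lit 122) (nat_lit 109) (nat_lit 2) (nat_lit 3) (nat_lit 7) L68016 (by decide +kernel)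
theorem L68018 : W_22 (nat_lit 6) (nat_lit 0x2000000012000b8001000000000000000000000000000) (nat_lit 0x0) (nat_lit 0x4c0006002380080004000000000000000000) := T_22 (nat_lit 74) (nat_lit 91) (nat_lit 5) (nat_lit 6) (nat_lit 4) L68017 (by decide +kernel)
theorem L68019 : W_22 (nat_lit 2) (nat_lit 0x2000000012400fc001200000004000000000000000000) (nat_lit 0x0) (nat_lit 0x420002000000000000000000000000000000) := D_22 (nat_lit 121) (nat_lit 142) (nat_lit 137) (nat_lit 3) (nat_lit 2) (nat_lit 7) (nat_lit 1) (nat_lit 5) (nat_lit 7) (by decide +kernel)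
theorem L68020 : W_22 (nat_lit 3) (nat_lit 0x2000000012000fc001200000004000000000000000000) (nat_lit 0x0) (nat_lit 0x4e0002000000000000000000000000000000) := T_22 (nat_lit 138) (nat_lit 139) (nat_lit 1) (nat_lit 6) (nat_lit 7) L68019 (by decide +kernel)
theorem L68021 : W_22 (nat_lit 4) (nat_lit 0x2000000012000f8001200000004000000000000000000) (nat_lit 0x0) (nat_lit 0x4e0006000100000000000000000000000000) := T_22 (nat_lit 122) (nat_lit 104) (nat_lit 0) (nat_lit 6) (nat_lit 7) L68020 (by decide +kernel)
theorem L68022 : W_22 (nat_lit 5) (nat_lit 0x2000000012000f8001200000000000000000000000000) (nat_lit 0x0) (nat_lit 0x4e0006000100080004000000000000000000) := T_22 (nat_lit 74) (nat_lit 91) (nat_lit 5) (nat_lit 6) (nat_lit 4) L68021 (by decide +kernel)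
theorem L68023 : W_22 (nat_lit 6) (nat_lit 0x2000000012000f8001000000000000000000000000000) (nat_lit 0x0) (nat_lit 0x4e0006000700080004000000000000000000) := T_22 (nat_lit 105) (nat_lit 106) (nat_lit 0) (nat_lit 7) (nat_lit 7) L68022 (by decide +kernel)
theorem L68024 : W_22 (nat_lit 7) (nat_lit 0x2000000012000b8001000000000000000000000000000) (nat_lit 0x0) (nat_lit 0x5e0046000700080004000000000000000000) := T_22 (nat_lit 126) (nat_lit 140) (nat_lit 1) (nat_lit 8) (nat_lit 7) L68023 (by decide +kernel)
theorem L68025 : W_22 (nat_lit 2) (nat_lit 0x3c00090017800b8001000000004000000000000000000) (nat_lit 0x0) (nat_lit 0xc00020000000000000000000000000000000000000000000) := D_22 (nat_lit 190) (nat_lit 173) (nat_lit 191) (nat_lit 6) (nat_lit 3) (nat_lit 11) (nat_lit 1) (nat_lit 7) (nat_lit 10) (by decide +kernel)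
theorem L68026 : W_22 (nat_lit 3) (nat_lit 0x3800090017800b8001000000004000000000000000000) (nat_lit 0x0) (nat_lit 0xc00060002000000000000000000000000000000000000000) := T_22 (nat_lit 174) (nat_lit 157) (nat_lit 0) (nat_lit 7) (nat_lit 10) L68025 (by decide +kernel)
theorem L68027 : W_22 (nat_lit 4) (nat_lit 0x3800080017800b8001000000004000000000000000000) (nat_lit 0x0) (nat_lit 0xc00060003800000000000000000000000000000000000000) := T_22 (nat_lit 156) (nat_lit 155) (nat_lit 1) (nat_lit 6) (nat_lit 8) L68026 (by decide +kernel)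
theorem L68028 : W_22 (nat_lit 5) (nat_lit 0x3000080017800b8001000000004000000000000000000) (nat_lit 0x0) (nat_lit 0x1c000e0003800000000000000000000000000000000000000) := T_22 (nat_lit 175) (nat_lit 192) (nat_lit 5) (nat_lit 6) (nat_lit 7) L68027 (by decide +kernel)
theorem L68029 : W_22 (nat_lit 6) (nat_lit 0x2000080017800b8001000000004000000000000000000) (nat_lit 0x0) (nat_lit 0x5c001e0003800000000000000000000000000000000000000) := T_22 (nat_lit 176) (nat_lit 194) (nat_lit 7) (nat_lit 6) (nat_lit 7) L68028 (by decide +kernel)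
theorem L68030 : W_22 (nat_lit 7) (nat_lit 0x2000080017000b8001000000004000000000000000000) (nat_lit 0x0) (nat_lit 0x5c001e00038000c0000000000000000000000000000000000) := T_22 (nat_lit 139) (nat_lit 138) (nat_lit 2) (nat_lit 2) (nat_lit 8) L68029 (by decide +kernel)
theorem L68031 : W_22 (nat_lit 8) (nat_lit 0x2000080016000b8001000000004000000000000000000) (nat_lit 0x0) (nat_lit 0x5c001e00038001c0040000000000000000000000000000000) := T_22 (nat_lit 140) (nat_lit 126) (nat_lit 1) (nat_lit 8) (nat_lit 7) L68030 (by decide +kernel)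
theorem L68032 : W_22 (nat_lit 9) (nat_lit 0x2000000016000b8001000000004000000000000000000) (nat_lit 0x0) (nat_lit 0x5c001e001b8001c0040000000000000000000000000000000) := T_22 (nat_lit 159) (nat_lit 160) (nat_lit 7) (nat_lit 6) (nat_lit 6) L68031 (by decide +kernel)
theorem L68033 : W_22 (nat_lit 10) (nat_lit 0x2000000016000b8001000000000000000000000000000) (nat_lit 0x0) (nat_lit 0x5c001e001b8001c0040000000080004000000000000000000) := T_22 (nat_lit 74) (nat_lit 91) (nat_lit 5) (nat_lit 6) (nat_lit 4) L68032 (by decide +kernel)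
theorem L68034 : W_22 (nat_lit 2) (nat_lit 0x2000090017800b8003400000004000000000000000000) (nat_lit 0x0) (nat_lit 0x400020002000000000000000000000000000000000000000) := D_22 (nat_lit 173) (nat_lit 190) (nat_lit 157) (nat_lit 6) (nat_lit 3) (nat_lit 11) (nat_lit 5) (nat_lit 4) (nat_lit 6) (by decide +kernel)
theorem L68035 : W_22 (nat_lit 3) (nat_lit 0x2000090017800b8003000000004000000000000000000) (nat_lit 0x0) (nat_lit 0x400020002000000000000400020000000000000000000000) := T_22 (nat_lit 106) (nat_lit 89) (nat_lit 5) (nat_lit 4) (nat_lit 5) L68034 (by decide +kernel)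
theorem L68036 : W_22 (nat_lit 4) (nat_lit 0x2000080017800b8003000000004000000000000000000) (nat_lit 0x0) (nat_lit 0x400020003800000000000400020000000000000000000000) := T_22 (nat_lit 156) (nat_lit 155) (nat_lit 1) (nat_lit 6) (nat_lit 8) L68035 (by decide +kernel)
theorem L68037 : W_22 (nat_lit 5) (nat_lit 0x2000080017000b8003000000004000000000000000000) (nat_lit 0x0) (nat_lit 0x4000200038000c0000000400020000000000000000000000) := T_22 (nat_lit 139) (nat_lit 138) (nat_lit 2) (nat_lit 2) (nat_lit 8) L68036 (by decide +kernel)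
theorem L68038 : W_22 (nat_lit 6) (nat_lit 0x2000080016000b8003000000004000000000000000000) (nat_lit 0x0) (nat_lit 0x4000200038001c0040000400020000000000000000000000) := T_22 (nat_lit 140) (nat_lit 126) (nat_lit 1) (nat_lit 8) (nat_lit 7) L68037 (by decide +kernel)
theorem L68039 : W_22 (nat_lit 7) (nat_lit 0x2000080016000b8003000000000000000000000000000) (nat_lit 0x0) (nat_lit 0x4000200038001c00400004000a0004000000000000000000) := T_22 (nat_lit 74) (nat_lit 91) (nat_lit 5) (nat_lit 6) (nat_lit 4) L68038 (by decide +kernel)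
theorem L68040 : W_22 (nat_lit 8) (nat_lit 0x2000080016000b8001000000000000000000000000000) (nat_lit 0x0) (nat_lit 0x4000200038001c00400024001a0004000000000000000000) := T_22 (nat_lit 109) (nat_lit 92) (nat_lit 6) (nat_lit 6) (nat_lit 9) L68039 (by decide +kernel)
theorem L68041 : W_22 (nat_lit 9) (nat_lit 0x2000000016000b8001000000000000000000000000000) (nat_lit 0x0) (nat_lit 0x40002001b8001c00400024001a0004000000000000000000) := T_22 (nat_lit 159) (nat_lit 160) (nat_lit 7) (nat_lit 6) (nat_lit 6) L68040 (by decide +kernel)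
theorem L68042 : W_22 (nat_lit 2) (nat_lit 0x2000010017800b8001400000004000000000000000000) (nat_lit 0x0) (nat_lit 0x400020002000000000000000000000000000000000000000) := D_22 (nat_lit 173) (nat_lit 190) (nat_lit 157) (nat_lit 6) (nat_lit 3) (nat_lit 11) (nat_lit 5) (nat_lit 4) (nat_lit 6) (by decide +kernel)
theorem L68043 : W_22 (nat_lit 3) (nat_lit 0x2000010017800b8001000000004000000000000000000) (nat_lit 0x0) (nat_lit 0x400020002000000000000400020000000000000000000000) := T_22 (nat_lit 106) (nat_lit 89) (nat_lit 5) (nat_lit 4) (nat_lit 5) L68042 (by decide +kernel)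
theorem L68044 : W_22 (nat_lit 4) (nat_lit 0x2000000017800b8001000000004000000000000000000) (nat_lit 0x0) (nat_lit 0x400020003800000000000400020000000000000000000000) := T_22 (nat_lit 156) (nat_lit 155) (nat_lit 1) (nat_lit 6) (nat_lit 8) L68043 (by decide +kernel)
theorem L68045 : W_22 (nat_lit 5) (nat_lit 0x2000000017000b8001000000004000000000000000000) (nat_lit 0x0) (nat_lit 0x4000200038000c0000000400020000000000000000000000) := T_22 (nat_lit 139) (nat_lit 138) (nat_lit 2) (nat_lit 2) (nat_lit 8) L68044 (by decide +kernel)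
theorem L68046 : W_22 (nat_lit 6) (nat_lit 0x2000000017000b8001000000000000000000000000000) (nat_lit 0x0) (nat_lit 0x4000200038000c00000004000a0004000000000000000000) := T_22 (nat_lit 74) (nat_lit 91) (nat_lit 5) (nat_lit 6) (nat_lit 4) L68045 (by decide +kernel)
theorem L68047 : W_22 (nat_lit 7) (nat_lit 0x2000000016000b8001000000000000000000000000000) (nat_lit 0x0) (nat_lit 0x4000200038001c00400004000a0004000000000000000000) := T_22 (nat_lit 140) (nat_lit 126) (nat_lit 1) (nat_lit 8) (nat_lit 7) L68046 (by decide +kernel)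
theorem L68048 : W_22 (nat_lit 2) (nat_lit 0x2000080016000b8001000100000000000000000000000) (nat_lit 0x0) (nat_lit 0x8000c000000000000000000) := D_22 (nat_lit 91) (nat_lit 74) (nat_lit 75) (nat_lit 5) (nat_lit 6) (nat_lit 4) (nat_lit 6) (nat_lit 6) (nat_lit 8) (by decide +kernel)
theorem L68049 : W_22 (nat_lit 3) (nat_lit 0x2000080016000b8001000000000000000000000000000) (nat_lit 0x0) (nat_lit 0x200018000c000000000000000000) := T_22 (nat_lit 92) (nat_lit 109) (nat_lit 6) (nat_lit 6) (nat_lit 9) L68048 (by decide +kernel)
theorem L68050 : W_22 (nat_lit 4) (nat_lit 0x2000000016000b8001000000000000000000000000000) (nat_lit 0x0) (nat_lit 0x1800000000000200018000c000000000000000000) := T_22 (nat_lit 159) (nat_lit 160) (nat_lit 7) (nat_lit 6) (nat_lit 6) L68049 (by decide +kernel)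
theorem L68051 : W_22 (nat_lit 2) (nat_lit 0x2000080016000b8003000000000000000000000000000) (nat_lit 0x0) (nat_lit 0x4000100000000000040000000000000000000000000000000) := D_22 (nat_lit 176) (nat_lit 194) (nat_lit 126) (nat_lit 7) (nat_lit 6) (nat_lit 7) (nat_lit 6) (nat_lit 6) (nat_lit 10) (by decide +kernel)
theorem L68052 : W_22 (nat_lit 3) (nat_lit 0x2000080016000b8001000000000000000000000000000) (nat_lit 0x0) (nat_lit 0x4000100000000000040002000100000000000000000000000) := T_22 (nat_lit 109) (nat_lit 92) (nat_lit 6) (nat_lit 6) (nat_lit 9) L68051 (by decide +kernel)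
theorem L68053 : W_22 (nat_lit 4) (nat_lit 0x2000000016000b8001000000000000000000000000000) (nat_lit 0x0) (nat_lit 0x4000100018000000040002000100000000000000000000000) := T_22 (nat_lit 159) (nat_lit 160) (nat_lit 7) (nat_lit 6) (nat_lit 6) L68052 (by decide +kernel)
theorem L68054 : W_22 (nat_lit 11) (nat_lit 0x2000000012000b8001000000000000000000000000000) (nat_lit 0x0) (nat_lit 0x5c001e001b8005c00400024001a000c000000000000000000) := Q_22 (nat_lit 142) (C_22 L68033 (C_22 L68041 (C_22 L68047 (C_22 L68050 (C_22 L68053 N_22))))) (by decide +kernel)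
theorem L68055 : W_22 (nat_lit 12) (nat_lit 0x2000000012000b0001000000000000000000000000000) (nat_lit 0x0) (nat_lit 0x5c001e001b8005e004e0027801a000c000000000000000000) := Q_22 (nat_lit 123) (C_22 L68000 (C_22 L68018 (C_22 L68024 (C_22 L68054 N_22)))) (by decide +kernel)
theorem L68056 : W_22 (nat_lit 2) (nat_lit 0x2000080016000f00010000c0000000000000000000000) (nat_lit 0x0) (nat_lit 0x4000100000000000000002000000000000000000000000000) := D_22 (nat_lit 176) (nat_lit 109) (nat_lit 194) (nat_lit 6) (nat_lit 6) (nat_lit 10) (nat_lit 7) (nat_lit 6) (nat_lit 7) (by decide +kernel)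
theorem L68057 : W_22 (nat_lit 3) (nat_lit 0x2000000016000f00010000c0000000000000000000000) (nat_lit 0x0) (nat_lit 0x4000100018000000000002000000000000000000000000000) := T_22 (nat_lit 159) (nat_lit 160) (nat_lit 7) (nat_lit 6) (nat_lit 6) L68056 (by decide +kernel)
theorem L68058 : W_22 (nat_lit 4) (nat_lit 0x2000000016000f0001000080000000000000000000000) (nat_lit 0x0) (nat_lit 0x4000100018000000000002000040002000000000000000000) := T_22 (nat_lit 90) (nat_lit 73) (nat_lit 4) (nat_lit 6) (nat_lit 8) L68057 (by decide +kernel)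
theorem L68059 : W_22 (nat_lit 5) (nat_lit 0x2000000012000f0001000080000000000000000000000) (nat_lit 0x0) (nat_lit 0x400010001c000400000002000040002000000000000000000) := T_22 (nat_lit 142) (nat_lit 158) (nat_lit 5) (nat_lit 6) (nat_lit 5) L68058 (by decide +kernel)
theorem L68060 : W_22 (nat_lit 6) (nat_lit 0x2000000012000b0001000080000000000000000000000) (nat_lit 0x0) (nat_lit 0x400010001c000500040002000040002000000000000000000) := T_22 (nat_lit 126) (nat_lit 140) (nat_lit 1) (nat_lit 8) (nat_lit 7) L68059 (by decide +kernel)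
theorem L68061 : W_22 (nat_lit 7) (nat_lit 0x2000000012000b0001000000000000000000000000000) (nat_lit 0x0) (nat_lit 0x400010001c0005000400020000c0006000000000000000000) := T_22 (nat_lit 91) (nat_lit 74) (nat_lit 5) (nat_lit 6) (nat_lit 4) L68060 (by decide +kernel)
theorem L68062 : W_22 (nat_lit 2) (nat_lit 0x2000000012800be001000000000000000000000000000) (nat_lit 0x0) (nat_lit 0x380000000000000000000000000) := D_22 (nat_lit 104) (nat_lit 105) (nat_lit 103) (nat_lit 0) (nat_lit 6) (nat_lit 7) (nat_lit 0) (nat_lit 5) (nat_lit 7) (by decide +kernel)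
theorem L68063 : W_22 (nat_lit 3) (nat_lit 0x2000000012800bc001000000000000000000000000000) (nat_lit 0x0) (nat_lit 0x400002000380000000000000000000000000) := T_22 (nat_lit 121) (nat_lit 142) (nat_lit 3) (nat_lit 2) (nat_lit 7) L68062 (by decide +kernel)
theorem L68064 : W_22 (nat_lit 4) (nat_lit 0x2000000012000bc001000000000000000000000000000) (nat_lit 0x0) (nat_lit 0x4c0002000380000000000000000000000000) := T_22 (nat_lit 139) (nat_lit 138) (nat_lit 1) (nat_lit 6) (nat_lit 7) L68063 (by decide +kernel)
theorem L68065 : W_22 (nat_lit 5) (nat_lit 0x2000000012000b8001000000000000000000000000000) (nat_lit 0x0) (nat_lit 0x4c0006002380000000000000000000000000) := T_22 (nat_lit 122) (nat_lit 109) (nat_lit 2) (nat_lit 3) (nat_lit 7) L68064 (by decide +kernel)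
theorem L68066 : W_22 (nat_lit 2) (nat_lit 0x2800080016800fc001200000000000000000000000000) (nat_lit 0x0) (nat_lit 0x5000100000000000000000000000000000000000000000000) := D_22 (nat_lit 176) (nat_lit 192) (nat_lit 194) (nat_lit 5) (nat_lit 6) (nat_lit 7) (nat_lit 7) (nat_lit 6) (nat_lit 7) (by decide +kernel)
theorem L68067 : W_22 (nat_lit 3) (nat_lit 0x2800000016800fc001200000000000000000000000000) (nat_lit 0x0) (nat_lit 0x5000100018000000000000000000000000000000000000000) := T_22 (nat_lit 159) (nat_lit 160) (nat_lit 7) (nat_lit 6) (nat_lit 6) L68066 (by decide +kernel)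
theorem L68068 : W_22 (nat_lit 4) (nat_lit 0x2800000012800fc001200000000000000000000000000) (nat_lit 0x0) (nat_lit 0x5000100018000400002000000000000000000000000000000) := T_22 (nat_lit 142) (nat_lit 121) (nat_lit 3) (nat_lit 2) (nat_lit 7) L68067 (by decide +kernel)
theorem L68069 : W_22 (nat_lit 5) (nat_lit 0x2800000012000fc001200000000000000000000000000) (nat_lit 0x0) (nat_lit 0x50001000180004c0002000000000000000000000000000000) := T_22 (nat_lit 139) (nat_lit 138) (nat_lit 1) (nat_lit 6) (nat_lit 7) L68068 (by decide +kernel)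
theorem L68070 : W_22 (nat_lit 6) (nat_lit 0x2800000012000f8001200000000000000000000000000) (nat_lit 0x0) (nat_lit 0x50001000180004c0006000100000000000000000000000000) := T_22 (nat_lit 122) (nat_lit 104) (nat_lit 0) (nat_lit 6) (nat_lit 7) L68069 (by decide +kernel)
theorem L68071 : W_22 (nat_lit 7) (nat_lit 0x2000000012000f8001200000000000000000000000000) (nat_lit 0x0) (nat_lit 0x500018001c0004c0006000100000000000000000000000000) := T_22 (nat_lit 175) (nat_lit 158) (nat_lit 6) (nat_lit 5) (nat_lit 10) L68070 (by decide +kernel)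
theorem L68072 : W_22 (nat_lit 8) (nat_lit 0x2000000012000f8001000000000000000000000000000) (nat_lit 0x0) (nat_lit 0x500018001c0004c0006000700000000000000000000000000) := T_22 (nat_lit 105) (nat_lit 106) (nat_lit 0) (nat_lit 7) (nat_lit 7) L68071 (by decide +kernel)
theorem L68073 : W_22 (nat_lit 9) (nat_lit 0x2000000012000b8001000000000000000000000000000) (nat_lit 0x0) (nat_lit 0x500018001c0005c0046000700000000000000000000000000) := T_22 (nat_lit 126) (nat_lit 140) (nat_lit 1) (nat_lit 8) (nat_lit 7) L68072 (by decide +kernel)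
theorem L68074 : W_22 (nat_lit 2) (nat_lit 0x2800080016000b8001000000000000000000000000000) (nat_lit 0x0) (nat_lit 0x5000100000000000000000000000000000000000000000000) := D_22 (nat_lit 176) (nat_lit 192) (nat_lit 194) (nat_lit 5) (nat_lit 6) (nat_lit 7) (nat_lit 7) (nat_lit 6) (nat_lit 7) (by decide +kernel)
theorem L68075 : W_22 (nat_lit 3) (nat_lit 0x2800000016000b8001000000000000000000000000000) (nat_lit 0x0) (nat_lit 0x5000100018000000000000000000000000000000000000000) := T_22 (nat_lit 159) (nat_lit 160) (nat_lit 7) (nat_lit 6) (nat_lit 6) L68074 (by decide +kernel)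
theorem L68076 : W_22 (nat_lit 4) (nat_lit 0x2000000016000b8001000000000000000000000000000) (nat_lit 0x0) (nat_lit 0x500018001c000000000000000000000000000000000000000) := T_22 (nat_lit 175) (nat_lit 158) (nat_lit 6) (nat_lit 5) (nat_lit 10) L68075 (by decide +kernel)
theorem L68077 : W_22 (nat_lit 2) (nat_lit 0x20000d0017800b8003400000000000000000000000000) (nat_lit 0x0) (nat_lit 0x400020002000000000000000000000000000000000000000) := D_22 (nat_lit 173) (nat_lit 190) (nat_lit 157) (nat_lit 6) (nat_lit 3) (nat_lit 11) (nat_lit 5) (nat_lit 4) (nat_lit 6) (by decide +kernel)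
theorem L68078 : W_22 (nat_lit 3) (nat_lit 0x20000c0017800b8003400000000000000000000000000) (nat_lit 0x0) (nat_lit 0x400020003800000000000000000000000000000000000000) := T_22 (nat_lit 156) (nat_lit 155) (nat_lit 1) (nat_lit 6) (nat_lit 8) L68077 (by decide +kernel)
theorem L68079 : W_22 (nat_lit 4) (nat_lit 0x20000c0017000b8003400000000000000000000000000) (nat_lit 0x0) (nat_lit 0x4000200038000c0000000000000000000000000000000000) := T_22 (nat_lit 139) (nat_lit 138) (nat_lit 3) (nat_lit 2) (nat_lit 8) L68078 (by decide +kernel)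
theorem L68080 : W_22 (nat_lit 5) (nat_lit 0x20000c0017000b8003000000000000000000000000000) (nat_lit 0x0) (nat_lit 0x4000200038000c0000000400020000000000000000000000) := T_22 (nat_lit 106) (nat_lit 89) (nat_lit 7) (nat_lit 4) (nat_lit 5) L68079 (by decide +kernel)
theorem L68081 : W_22 (nat_lit 6) (nat_lit 0x20000c0016000b8003000000000000000000000000000) (nat_lit 0x0) (nat_lit 0x4000200038001c0040000400020000000000000000000000) := T_22 (nat_lit 140) (nat_lit 126) (nat_lit 1) (nat_lit 8) (nat_lit 7) L68080 (by decide +kernel)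
theorem L68082 : W_22 (nat_lit 7) (nat_lit 0x2000080016000b8003000000000000000000000000000) (nat_lit 0x0) (nat_lit 0x4000a00078001c0040000400020000000000000000000000) := T_22 (nat_lit 158) (nat_lit 175) (nat_lit 6) (nat_lit 5) (nat_lit 10) L68081 (by decide +kernel)
theorem L68083 : W_22 (nat_lit 8) (nat_lit 0x2000080016000b8001000000000000000000000000000) (nat_lit 0x0) (nat_lit 0x4000a00078001c0040002400120000000000000000000000) := T_22 (nat_lit 109) (nat_lit 92) (nat_lit 6) (nat_lit 6) (nat_lit 9) L68082 (by decide +kernel)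
theorem L68084 : W_22 (nat_lit 9) (nat_lit 0x2000000016000b8001000000000000000000000000000) (nat_lit 0x0) (nat_lit 0x4000a001f8001c0040002400120000000000000000000000) := T_22 (nat_lit 159) (nat_lit 160) (nat_lit 7) (nat_lit 6) (nat_lit 6) L68083 (by decide +kernel)
theorem L68085 : W_22 (nat_lit 2) (nat_lit 0x2800010017800b8001400000000000000000000000000) (nat_lit 0x0) (nat_lit 0x400020002000000000000000000000000000000000000000) := D_22 (nat_lit 173) (nat_lit 190) (nat_lit 157) (nat_lit 6) (nat_lit 3) (nat_lit 11) (nat_lit 5) (nat_lit 4) (nat_lit 6) (by decide +kernel)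
theorem L68086 : W_22 (nat_lit 3) (nat_lit 0x2800010017800b8001000000000000000000000000000) (nat_lit 0x0) (nat_lit 0x400020002000000000000400020000000000000000000000) := T_22 (nat_lit 106) (nat_lit 89) (nat_lit 5) (nat_lit 4) (nat_lit 5) L68085 (by decide +kernel)
theorem L68087 : W_22 (nat_lit 4) (nat_lit 0x2800000017800b8001000000000000000000000000000) (nat_lit 0x0) (nat_lit 0x400020003800000000000400020000000000000000000000) := T_22 (nat_lit 156) (nat_lit 155) (nat_lit 1) (nat_lit 6) (nat_lit 8) L68086 (by decide +kernel)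
theorem L68088 : W_22 (nat_lit 5) (nat_lit 0x2000000017800b8001000000000000000000000000000) (nat_lit 0x0) (nat_lit 0x4000a0007800000000000400020000000000000000000000) := T_22 (nat_lit 175) (nat_lit 158) (nat_lit 6) (nat_lit 5) (nat_lit 10) L68087 (by decide +kernel)
theorem L68089 : W_22 (nat_lit 6) (nat_lit 0x2000000017000b8001000000000000000000000000000) (nat_lit 0x0) (nat_lit 0x4000a00078000c0000000400020000000000000000000000) := T_22 (nat_lit 139) (nat_lit 138) (nat_lit 2) (nat_lit 2) (nat_lit 8) L68088 (by decide +kernel)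
theorem L68090 : W_22 (nat_lit 7) (nat_lit 0x2000000016000b8001000000000000000000000000000) (nat_lit 0x0) (nat_lit 0x4000a00078001c0040000400020000000000000000000000) := T_22 (nat_lit 140) (nat_lit 126) (nat_lit 1) (nat_lit 8) (nat_lit 7) L68089 (by decide +kernel)
theorem L68091 : W_22 (nat_lit 10) (nat_lit 0x2000000012000b8001000000000000000000000000000) (nat_lit 0x0) (nat_lit 0x54001a001f8005c0040002400120000000000000000000000) := Q_22 (nat_lit 142) (C_22 L68076 (C_22 L68084 (C_22 L68090 (C_22 L68053 N_22)))) (by decide +kernel)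
theorem L68092 : W_22 (nat_lit 11) (nat_lit 0x2000000012000b0001000000000000000000000000000) (nat_lit 0x0) (nat_lit 0x54001a001f8005c004e002780120000000000000000000000) := Q_22 (nat_lit 123) (C_22 L68000 (C_22 L68065 (C_22 L68073 (C_22 L68091 N_22)))) (by decide +kernel)
theorem L68093 : W_22 (nat_lit 13) (nat_lit 0x2000000012000b0000000000000000000000000000000) (nat_lit 0x0) (nat_lit 0x5c001f001f8005e004f0037801f000fc00040000000000000) := Q_22 (nat_lit 108) (C_22 L67953 (C_22 L67955 (C_22 L68013 (C_22 L68055 (C_22 L68061 (C_22 L68092 N_22)))))) (by decide +kernel)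
theorem L68094 : W_22 (nat_lit 2) (nat_lit 0x2000000012000b0000800060002000000000000000000) (nat_lit 0x0) (nat_lit 0x80004000200000000000000) := D_22 (nat_lit 74) (nat_lit 91) (nat_lit 57) (nat_lit 6) (nat_lit 5) (nat_lit 8) (nat_lit 6) (nat_lit 5) (nat_lit 7) (by decide +kernel)
theorem L68095 : W_22 (nat_lit 3) (nat_lit 0x2000000012000b0000800060000000000000000000000) (nat_lit 0x0) (nat_lit 0x400000000000080006000200000000000000) := T_22 (nat_lit 73) (nat_lit 142) (nat_lit 7) (nat_lit 5) (nat_lit 4) L68094 (by decide +kernel)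
theorem L68096 : W_22 (nat_lit 4) (nat_lit 0x2000000012000b0000800040000000000000000000000) (nat_lit 0x0) (nat_lit 0x4000000000000a0007000200000000000000) := T_22 (nat_lit 89) (nat_lit 72) (nat_lit 4) (nat_lit 5) (nat_lit 8) L68095 (by decide +kernel)
theorem L68097 : W_22 (nat_lit 2) (nat_lit 0x3f000a60012000b00008000e0000000000000000000000) (nat_lit 0x0) (nat_lit 0xe0000000000000000000000000000000000000000000000000) := D_22 (nat_lit 198) (nat_lit 197) (nat_lit 199) (nat_lit 3) (nat_lit 7) (nat_lit 10) (nat_lit 3) (nat_lit 8) (nat_lit 10) (by decide +kernel)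
theorem L68098 : W_22 (nat_lit 3) (nat_lit 0x1f000a60012000b00008000e0000000000000000000000) (nat_lit 0x0) (nat_lit 0xe0002000010000000000000000000000000000000000000000) := T_22 (nat_lit 181) (nat_lit 160) (nat_lit 0) (nat_lit 11) (nat_lit 10) L68097 (by decide +kernel)
theorem L68099 : W_22 (nat_lit 4) (nat_lit 0xf000a60012000b00008000e0000000000000000000000) (nat_lit 0x0) (nat_lit 0xe0003000110000000000000000000000000000000000000000) := T_22 (nat_lit 180) (nat_lit 164) (nat_lit 2) (nat_lit 7) (nat_lit 10) L68098 (by decide +kernel)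
theorem L68100 : W_22 (nat_lit 5) (nat_lit 0xf000260012000b00008000e0000000000000000000000) (nat_lit 0x0) (nat_lit 0xe00030001d0000000000000000000000000000000000000000) := T_22 (nat_lit 163) (nat_lit 162) (nat_lit 2) (nat_lit 6) (nat_lit 10) L68099 (by decide +kernel)
theorem L68101 : W_22 (nat_lit 6) (nat_lit 0x7000260012000b00008000e0000000000000000000000) (nat_lit 0x0) (nat_lit 0xf00038001d0000000000000000000000000000000000000000) := T_22 (nat_lit 179) (nat_lit 196) (nat_lit 7) (nat_lit 8) (nat_lit 7) L68100 (by decide +kernel)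
theorem L68102 : W_22 (nat_lit 7) (nat_lit 0x7000060012000b00008000e0000000000000000000000) (nat_lit 0x0) (nat_lit 0xf40038001f0000000000000000000000000000000000000000) := T_22 (nat_lit 161) (nat_lit 194) (nat_lit 5) (nat_lit 8) (nat_lit 7) L68101 (by decide +kernel)
theorem L68103 : W_22 (nat_lit 8) (nat_lit 0x3000060012000b00008000e0000000000000000000000) (nat_lit 0x0) (nat_lit 0xf4003c801f0000000000000000000000000000000000000000) := T_22 (nat_lit 178) (nat_lit 175) (nat_lit 0) (nat_lit 8) (nat_lit 10) L68102 (by decide +kernel)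
theorem L68104 : W_22 (nat_lit 9) (nat_lit 0x3000060012000b00008000c0000000000000000000000) (nat_lit 0x0) (nat_lit 0xf4003c801f0000000000000000020001000000000000000000) := T_22 (nat_lit 89) (nat_lit 72) (nat_lit 4) (nat_lit 5) (nat_lit 8) L68103 (by decide +kernel)
theorem L68105 : W_22 (nat_lit 10) (nat_lit 0x2000060012000b00008000c0000000000000000000000) (nat_lit 0x0) (nat_lit 0xf4003d801f8000000000000000020001000000000000000000) := T_22 (nat_lit 176) (nat_lit 159) (nat_lit 7) (nat_lit 5) (nat_lit 6) L68104 (by decide +kernel)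
theorem L68106 : W_22 (nat_lit 11) (nat_lit 0x2000040012000b00008000c0000000000000000000000) (nat_lit 0x0) (nat_lit 0xf4003dc01fa000000000000000020001000000000000000000) := T_22 (nat_lit 157) (nat_lit 174) (nat_lit 5) (nat_lit 5) (nat_lit 6) L68105 (by decide +kernel)
theorem L68107 : W_22 (nat_lit 12) (nat_lit 0x2000000012000b00008000c0000000000000000000000) (nat_lit 0x0) (nat_lit 0xf4003dc01fe000000000001000020001000000000000000000) := T_22 (nat_lit 158) (nat_lit 108) (nat_lit 6) (nat_lit 5) (nat_lit 9) L68106 (by decide +kernel)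
theorem L68108 : W_22 (nat_lit 13) (nat_lit 0x2000000012000b0000800040000000000000000000000) (nat_lit 0x0) (nat_lit 0xf4003dc01fe0000000000010000a0005000000000000000000) := T_22 (nat_lit 91) (nat_lit 74) (nat_lit 6) (nat_lit 5) (nat_lit 8) L68107 (by decide +kernel)
theorem L68109 : W_22 (nat_lit 14) (nat_lit 0x2000000012000b0000800000000000000000000000000) (nat_lit 0x0) (nat_lit 0xf4003dc01fe0004000000010000e0007000200000000000000) := Q_22 (nat_lit 90) (C_22 L32825 (C_22 L68096 (C_22 L68108 N_22))) (by decide +kernel)
theorem L68110 : W_22 (nat_lit 2) (nat_lit 0x2000000012000b0001c00080000000000000000000000) (nat_lit 0x0) (nat_lit 0x300100000000000000000000000) := D_22 (nat_lit 105) (nat_lit 104) (nat_lit 92) (nat_lit 3) (nat_lit 2) (nat_lit 6) (nat_lit 2) (nat_lit 3) (nat_lit 6) (by decide +kernel)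
theorem L68111 : W_22 (nat_lit 3) (nat_lit 0x2000000012000b0001c00000000000000000000000000) (nat_lit 0x0) (nat_lit 0x300180004000000000000000000) := T_22 (nat_lit 91) (nat_lit 74) (nat_lit 5) (nat_lit 6) (nat_lit 4) L68110 (by decide +kernel)
theorem L68112 : W_22 (nat_lit 4) (nat_lit 0x2000000012000b0001800000000000000000000000000) (nat_lit 0x0) (nat_lit 0x40000700180004000000000000000000) := T_22 (nat_lit 106) (nat_lit 126) (nat_lit 0) (nat_lit 8) (nat_lit 7) L68111 (by decide +kernel)
theorem L68113 : W_22 (nat_lit 2) (nat_lit 0x2000000012000b0001800000000000000000000000000) (nat_lit 0x0) (nat_lit 0x80004000000000000000080000000000000000000000) := D_22 (nat_lit 158) (nat_lit 175) (nat_lit 91) (nat_lit 6) (nat_lit 5) (nat_lit 10) (nat_lit 6) (nat_lit 5) (nat_lit 9) (by decide +kernel)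
theorem L68114 : W_22 (nat_lit 2) (nat_lit 0x20000c0012000f0001800000000000000000000000000) (nat_lit 0x0) (nat_lit 0x10000400000000000040000000000000000000000) := D_22 (nat_lit 142) (nat_lit 90) (nat_lit 160) (nat_lit 7) (nat_lit 5) (nat_lit 5) (nat_lit 7) (nat_lit 6) (nat_lit 6) (by decide +kernel)
theorem L68115 : W_22 (nat_lit 3) (nat_lit 0x2000040012000f0001800000000000000000000000000) (nat_lit 0x0) (nat_lit 0x100018000400000000000040000000000000000000000) := T_22 (nat_lit 159) (nat_lit 176) (nat_lit 7) (nat_lit 5) (nat_lit 6) L68114 (by decide +kernel)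
theorem L68116 : W_22 (nat_lit 4) (nat_lit 0x2000040012000b0001800000000000000000000000000) (nat_lit 0x0) (nat_lit 0x100018000400040000400040000000000000000000000) := T_22 (nat_lit 126) (nat_lit 106) (nat_lit 0) (nat_lit 8) (nat_lit 7) L68115 (by decide +kernel)
theorem L68117 : W_22 (nat_lit 5) (nat_lit 0x2000000012000b0001800000000000000000000000000) (nat_lit 0x0) (nat_lit 0x18001c000400040000400040000000000000000000000) := T_22 (nat_lit 158) (nat_lit 175) (nat_lit 6) (nat_lit 5) (nat_lit 10) L68116 (by decide +kernel)
theorem L68118 : W_22 (nat_lit 6) (nat_lit 0x2000000012000b0000800000000000000000000000000) (nat_lit 0x0) (nat_lit 0x18001c0004000400017001c0004000000000000000000) := Q_22 (nat_lit 108) (C_22 L68112 (C_22 L68113 (C_22 L68117 N_22))) (by decide +kernel)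
theorem L68119 : W_22 (nat_lit 15) (nat_lit 0x2000000012000b0000000000000000000000000000000) (nat_lit 0x0) (nat_lit 0xf5003dc01fe000400048001f003e001f000280000000000000) := Q_22 (nat_lit 107) (C_22 L67945 (C_22 L67943 (C_22 L67846 (C_22 L67939 (C_22 L68109 (C_22 L68118 N_22)))))) (by decide +kernel)
theorem L68120 : W_22 (nat_lit 2) (nat_lit 0x2000040013400b0000800060000000000000000000000) (nat_lit 0x0) (nat_lit 0x100008000400000000000000000000000000000000000) := D_22 (nat_lit 159) (nat_lit 142) (nat_lit 176) (nat_lit 7) (nat_lit 5) (nat_lit 5) (nat_lit 7) (nat_lit 5) (nat_lit 6) (by decide +kernel)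
theorem L68121 : W_22 (nat_lit 3) (nat_lit 0x2000000013400b0000800060000000000000000000000) (nat_lit 0x0) (nat_lit 0x10000c000400000000400000000000000000000000000) := T_22 (nat_lit 158) (nat_lit 106) (nat_lit 4) (nat_lit 5) (nat_lit 9) L68120 (by decide +kernel)
theorem L68122 : W_22 (nat_lit 4) (nat_lit 0x2000000013000b0000800060000000000000000000000) (nat_lit 0x0) (nat_lit 0x10000c0004c0000000400000000000000000000000000) := T_22 (nat_lit 138) (nat_lit 139) (nat_lit 2) (nat_lit 2) (nat_lit 8) L68121 (by decide +kernel)
theorem L68123 : W_22 (nat_lit 5) (nat_lit 0x2000000012000b0000800060000000000000000000000) (nat_lit 0x0) (nat_lit 0x10000e0005c0000000400000000000000000000000000) := T_22 (nat_lit 140) (nat_lit 157) (nat_lit 5) (nat_lit 5) (nat_lit 5) L68122 (by decide +kernel)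
theorem L68124 : W_22 (nat_lit 6) (nat_lit 0x2000000012000b0000800040000000000000000000000) (nat_lit 0x0) (nat_lit 0x10000e0005c0000000400020001000000000000000000) := T_22 (nat_lit 89) (nat_lit 72) (nat_lit 4) (nat_lit 5) (nat_lit 8) L68123 (by decide +kernel)
theorem L68125 : W_22 (nat_lit 7) (nat_lit 0x2000000012000b0000800000000000000000000000000) (nat_lit 0x0) (nat_lit 0x10000e0005c0008000400060003000080000000000000) := Q_22 (nat_lit 90) (C_22 L67918 (C_22 L32825 (C_22 L68124 N_22))) (by decide +kernel)
theorem L68126 : W_22 (nat_lit 8) (nat_lit 0x2000000012000b0000000000000000000000000000000) (nat_lit 0x0) (nat_lit 0x100018000e0005c0048000f00060003000080000000000000) := Q_22 (nat_lit 107) (C_22 L67943 (C_22 L67924 (C_22 L68125 (C_22 L61828 N_22)))) (by decide +kernel)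
theorem L68127 : W_22 (nat_lit 15) (nat_lit 0x2000000012000b0000000000000000000000000000000) (nat_lit 0x0) (nat_lit 0xf4003dc01fe000500040001f001e0007000200000000000000) := Q_22 (nat_lit 107) (C_22 L68118 (C_22 L61828 (C_22 L68109 N_22))) (by decide +kernel)
theorem L68128 : W_22 (nat_lit 2) (nat_lit 0x2000040012000f0001000000000000000000000000000) (nat_lit 0x0) (nat_lit 0x800080004000000000000000000) := D_22 (nat_lit 91) (nat_lit 74) (nat_lit 107) (nat_lit 5) (nat_lit 6) (nat_lit 4) (nat_lit 6) (nat_lit 5) (nat_lit 9) (by decide +kernel)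
theorem L68129 : W_22 (nat_lit 3) (nat_lit 0x2000000012000f0001000000000000000000000000000) (nat_lit 0x0) (nat_lit 0x80004000000000000800080004000000000000000000) := T_22 (nat_lit 158) (nat_lit 175) (nat_lit 6) (nat_lit 5) (nat_lit 10) L68128 (by decide +kernel)
theorem L68130 : W_22 (nat_lit 4) (nat_lit 0x2000000012000b0001000000000000000000000000000) (nat_lit 0x0) (nat_lit 0x80004000100040000800080004000000000000000000) := T_22 (nat_lit 126) (nat_lit 140) (nat_lit 1) (nat_lit 8) (nat_lit 7) L68129 (by decide +kernel)
theorem L68131 : W_22 (nat_lit 2) (nat_lit 0x2000010017800bc001200000004000000000000000000) (nat_lit 0x0) (nat_lit 0x40002000000000000000010000000000000000000000) := D_22 (nat_lit 157) (nat_lit 174) (nat_lit 88) (nat_lit 7) (nat_lit 3) (nat_lit 6) (nat_lit 7) (nat_lit 3) (nat_lit 5) (by decide +kernel)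
theorem L68132 : W_22 (nat_lit 3) (nat_lit 0x2000010017800bc001000000004000000000000000000) (nat_lit 0x0) (nat_lit 0x40002000000000000300010000000000000000000000) := T_22 (nat_lit 105) (nat_lit 104) (nat_lit 0) (nat_lit 6) (nat_lit 7) L68131 (by decide +kernel)
theorem L68133 : W_22 (nat_lit 4) (nat_lit 0x2000010017800b4001000000004000000000000000000) (nat_lit 0x0) (nat_lit 0x40002000000008002300010000000000000000000000) := T_22 (nat_lit 123) (nat_lit 109) (nat_lit 2) (nat_lit 3) (nat_lit 7) L68132 (by decide +kernel)
theorem L68134 : W_22 (nat_lit 5) (nat_lit 0x2000010017800b0001000000004000000000000000000) (nat_lit 0x0) (nat_lit 0x4000200000000e002300010000000000000000000000) := T_22 (nat_lit 122) (nat_lit 121) (nat_lit 0) (nat_lit 6) (nat_lit 8) L68133 (by decide +kernel)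
theorem L68135 : W_22 (nat_lit 6) (nat_lit 0x2000000017800b0001000000004000000000000000000) (nat_lit 0x0) (nat_lit 0x4000380000000e002300010000000000000000000000) := T_22 (nat_lit 156) (nat_lit 155) (nat_lit 1) (nat_lit 6) (nat_lit 8) L68134 (by decide +kernel)
theorem L68136 : W_22 (nat_lit 7) (nat_lit 0x2000000017000b0001000000004000000000000000000) (nat_lit 0x0) (nat_lit 0x400038000c000e002300010000000000000000000000) := T_22 (nat_lit 139) (nat_lit 138) (nat_lit 2) (nat_lit 2) (nat_lit 8) L68135 (by decide +kernel)
theorem L68137 : W_22 (nat_lit 8) (nat_lit 0x2000000016000b0001000000004000000000000000000) (nat_lit 0x0) (nat_lit 0x400038001c004e002300010000000000000000000000) := T_22 (nat_lit 140) (nat_lit 126) (nat_lit 1) (nat_lit 8) (nat_lit 7) L68136 (by decide +kernel)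
theorem L68138 : W_22 (nat_lit 9) (nat_lit 0x2000000016000b0001000000000000000000000000000) (nat_lit 0x0) (nat_lit 0x400038001c004e002300090004000000000000000000) := T_22 (nat_lit 74) (nat_lit 91) (nat_lit 5) (nat_lit 6) (nat_lit 4) L68137 (by decide +kernel)
theorem L68139 : W_22 (nat_lit 2) (nat_lit 0x2000080016000f0001000000000000000000000000000) (nat_lit 0x0) (nat_lit 0x100000000000000000800040000000000000000000000) := D_22 (nat_lit 107) (nat_lit 90) (nat_lit 176) (nat_lit 7) (nat_lit 5) (nat_lit 5) (nat_lit 4) (nat_lit 6) (nat_lit 10) (by decide +kernel)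
theorem L68140 : W_22 (nat_lit 3) (nat_lit 0x2000000016000f0001000000000000000000000000000) (nat_lit 0x0) (nat_lit 0x100018000000000000800040000000000000000000000) := T_22 (nat_lit 159) (nat_lit 160) (nat_lit 7) (nat_lit 6) (nat_lit 6) L68139 (by decide +kernel)
theorem L68141 : W_22 (nat_lit 4) (nat_lit 0x2000000016000b0001000000000000000000000000000) (nat_lit 0x0) (nat_lit 0x100018000100040000800040000000000000000000000) := T_22 (nat_lit 126) (nat_lit 140) (nat_lit 1) (nat_lit 8) (nat_lit 7) L68140 (by decide +kernel)
theorem L68142 : W_22 (nat_lit 10) (nat_lit 0x2000000012000b0001000000000000000000000000000) (nat_lit 0x0) (nat_lit 0x14001b8005c004e002b001d000e000000000000000000) := Q_22 (nat_lit 142) (C_22 L67474 (C_22 L68138 (C_22 L68141 N_22))) (by decide +kernel)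
theorem L68143 : W_22 (nat_lit 2) (nat_lit 0x2800080017800b0003000040000000000000000000000) (nat_lit 0x0) (nat_lit 0xe000000000000000000000000000000) := D_22 (nat_lit 122) (nat_lit 123) (nat_lit 121) (nat_lit 2) (nat_lit 3) (nat_lit 7) (nat_lit 0) (nat_lit 6) (nat_lit 8) (by decide +kernel)
theorem L68144 : W_22 (nat_lit 3) (nat_lit 0x2800080017800b0001000040000000000000000000000) (nat_lit 0x0) (nat_lit 0xe002000100000000000000000000000) := T_22 (nat_lit 109) (nat_lit 92) (nat_lit 6) (nat_lit 6) (nat_lit 9) L68143 (by decide +kernel)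
theorem L68145 : W_22 (nat_lit 4) (nat_lit 0x2800080017800b0001000000000000000000000000000) (nat_lit 0x0) (nat_lit 0xe002800140000000000000000000000) := T_22 (nat_lit 90) (nat_lit 107) (nat_lit 7) (nat_lit 5) (nat_lit 5) L68144 (by decide +kernel)
theorem L68146 : W_22 (nat_lit 5) (nat_lit 0x2800000017800b0001000000000000000000000000000) (nat_lit 0x0) (nat_lit 0x1800000000e002800140000000000000000000000) := T_22 (nat_lit 159) (nat_lit 160) (nat_lit 3) (nat_lit 3) (nat_lit 8) L68145 (by decide +kernel)
theorem L68147 : W_22 (nat_lit 6) (nat_lit 0x2800000017000b0001000000000000000000000000000) (nat_lit 0x0) (nat_lit 0x180000c000e002800140000000000000000000000) := T_22 (nat_lit 139) (nat_lit 138) (nat_lit 2) (nat_lit 2) (nat_lit 8) L68146 (by decide +kernel)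
theorem L68148 : W_22 (nat_lit 7) (nat_lit 0x2000000017000b0001000000000000000000000000000) (nat_lit 0x0) (nat_lit 0x8001c0000c000e002800140000000000000000000000) := T_22 (nat_lit 175) (nat_lit 158) (nat_lit 6) (nat_lit 5) (nat_lit 10) L68147 (by decide +kernel)
theorem L68149 : W_22 (nat_lit 8) (nat_lit 0x2000000016000b0001000000000000000000000000000) (nat_lit 0x0) (nat_lit 0x8001c0001c004e002800140000000000000000000000) := T_22 (nat_lit 140) (nat_lit 126) (nat_lit 1) (nat_lit 8) (nat_lit 7) L68148 (by decide +kernel)
theorem L68150 : W_22 (nat_lit 2) (nat_lit 0x2800010017800bc001200000000000000000000000000) (nat_lit 0x0) (nat_lit 0x40002000000000000000010000000000000000000000) := D_22 (nat_lit 157) (nat_lit 174) (nat_lit 88) (nat_lit 7) (nat_lit 3) (nat_lit 6) (nat_lit 7) (nat_lit 3) (nat_lit 5) (by decide +kernel)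
theorem L68151 : W_22 (nat_lit 3) (nat_lit 0x2800010017800bc001000000000000000000000000000) (nat_lit 0x0) (nat_lit 0x40002000000000000300010000000000000000000000) := T_22 (nat_lit 105) (nat_lit 104) (nat_lit 0) (nat_lit 6) (nat_lit 7) L68150 (by decide +kernel)
theorem L68152 : W_22 (nat_lit 4) (nat_lit 0x2800010017800b4001000000000000000000000000000) (nat_lit 0x0) (nat_lit 0x40002000000008002300010000000000000000000000) := T_22 (nat_lit 123) (nat_lit 109) (nat_lit 2) (nat_lit 3) (nat_lit 7) L68151 (by decide +kernel)
theorem L68153 : W_22 (nat_lit 5) (nat_lit 0x2800010017800b0001000000000000000000000000000) (nat_lit 0x0) (nat_lit 0x4000200000000e002300010000000000000000000000) := T_22 (nat_lit 122) (nat_lit 121) (nat_lit 0) (nat_lit 6) (nat_lit 8) L68152 (by decide +kernel)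
theorem L68154 : W_22 (nat_lit 6) (nat_lit 0x2800000017800b0001000000000000000000000000000) (nat_lit 0x0) (nat_lit 0x4000380000000e002300010000000000000000000000) := T_22 (nat_lit 156) (nat_lit 155) (nat_lit 1) (nat_lit 6) (nat_lit 8) L68153 (by decide +kernel)
theorem L68155 : W_22 (nat_lit 7) (nat_lit 0x2800000017000b0001000000000000000000000000000) (nat_lit 0x0) (nat_lit 0x400038000c000e002300010000000000000000000000) := T_22 (nat_lit 139) (nat_lit 138) (nat_lit 2) (nat_lit 2) (nat_lit 8) L68154 (by decide +kernel)
theorem L68156 : W_22 (nat_lit 8) (nat_lit 0x2800000016000b0001000000000000000000000000000) (nat_lit 0x0) (nat_lit 0x400038001c004e002300010000000000000000000000) := T_22 (nat_lit 140) (nat_lit 126) (nat_lit 1) (nat_lit 8) (nat_lit 7) L68155 (by decide +kernel)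
theorem L68157 : W_22 (nat_lit 9) (nat_lit 0x2000000016000b0001000000000000000000000000000) (nat_lit 0x0) (nat_lit 0xc00078001c004e002300010000000000000000000000) := T_22 (nat_lit 175) (nat_lit 158) (nat_lit 6) (nat_lit 5) (nat_lit 10) L68156 (by decide +kernel)
theorem L68158 : W_22 (nat_lit 2) (nat_lit 0x2000080016000b0001000000000000000000000000000) (nat_lit 0x0) (nat_lit 0x100000000000000000800040000000000000000000000) := D_22 (nat_lit 107) (nat_lit 90) (nat_lit 176) (nat_lit 7) (nat_lit 5) (nat_lit 5) (nat_lit 4) (nat_lit 6) (nat_lit 10) (by decide +kernel)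
theorem L68159 : W_22 (nat_lit 3) (nat_lit 0x2000000016000b0001000000000000000000000000000) (nat_lit 0x0) (nat_lit 0x100018000000000000800040000000000000000000000) := T_22 (nat_lit 159) (nat_lit 160) (nat_lit 7) (nat_lit 6) (nat_lit 6) L68158 (by decide +kernel)
theorem L68160 : W_22 (nat_lit 10) (nat_lit 0x2000000012000b0001000000000000000000000000000) (nat_lit 0x0) (nat_lit 0x1c001f8005c004e002b00150000000000000000000000) := Q_22 (nat_lit 142) (C_22 L68141 (C_22 L68149 (C_22 L68157 (C_22 L68159 N_22)))) (by decide +kernel)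
theorem L68161 : W_22 (nat_lit 11) (nat_lit 0x2000000012000b0000000000000000000000000000000) (nat_lit 0x0) (nat_lit 0x40001c001f8005c004e003b001d000e000000000000000000) := Q_22 (nat_lit 108) (C_22 L68061 (C_22 L67955 (C_22 L68130 (C_22 L68142 (C_22 L68160 N_22))))) (by decide +kernel)
theorem L68162 : W_22 (nat_lit 2) (nat_lit 0x60000e0012000f0000800000000000000000000000000) (nat_lit 0x0) (nat_lit 0x4000000020000000000002000000000000000000000000000) := D_22 (nat_lit 161) (nat_lit 109) (nat_lit 194) (nat_lit 4) (nat_lit 8) (nat_lit 10) (nat_lit 5) (nat_lit 8) (nat_lit 7) (by decide +kernel)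
theorem L68163 : W_22 (nat_lit 3) (nat_lit 0x20000e0012000f0000800000000000000000000000000) (nat_lit 0x0) (nat_lit 0x4000400030000000000002000000000000000000000000000) := T_22 (nat_lit 178) (nat_lit 160) (nat_lit 3) (nat_lit 4) (nat_lit 9) L68162 (by decide +kernel)
theorem L68164 : W_22 (nat_lit 4) (nat_lit 0x20000c0012000f0000800000000000000000000000000) (nat_lit 0x0) (nat_lit 0x4000440032000000000002000000000000000000000000000) := T_22 (nat_lit 157) (nat_lit 174) (nat_lit 5) (nat_lit 5) (nat_lit 6) L68163 (by decide +kernel)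
theorem L68165 : W_22 (nat_lit 5) (nat_lit 0x2000040012000f0000800000000000000000000000000) (nat_lit 0x0) (nat_lit 0x400054003a000000000002000000000000000000000000000) := T_22 (nat_lit 159) (nat_lit 176) (nat_lit 7) (nat_lit 5) (nat_lit 6) L68164 (by decide +kernel)
theorem L68166 : W_22 (nat_lit 6) (nat_lit 0x2000040012000f0000000000000000000000000000000) (nat_lit 0x0) (nat_lit 0x400054003a000000000002c00000000000000000000000000) := T_22 (nat_lit 107) (nat_lit 106) (nat_lit 0) (nat_lit 8) (nat_lit 7) L68165 (by decide +kernel)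
theorem L68167 : W_22 (nat_lit 7) (nat_lit 0x2000040012000b0000000000000000000000000000000) (nat_lit 0x0) (nat_lit 0x400054003a000100040002c00000000000000000000000000) := T_22 (nat_lit 126) (nat_lit 140) (nat_lit 1) (nat_lit 8) (nat_lit 7) L68166 (by decide +kernel)
theorem L68168 : W_22 (nat_lit 11) (nat_lit 0x2000000012000b0000000000000000000000000000000) (nat_lit 0x0) (nat_lit 0xd8005c003e0005c0048003c00020000000000000000000000) := Q_22 (nat_lit 158) (C_22 L67896 (C_22 L68167 (C_22 L67859 (C_22 L67905 N_22)))) (by decide +kernel)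
theorem L68169 : W_22 (nat_lit 16) (nat_lit 0x2000000012000a0000000000000000000000000000000) (nat_lit 0x0) (nat_lit 0xfdc03df01ff8005e005f003f807f801fc003c001c000200000) := Q_22 (nat_lit 124) (C_22 L67851 (C_22 L67855 (C_22 L67906 (C_22 L67925 (C_22 L67940 (C_22 L67944 (C_22 L67950 (C_22 L68093 (C_22 L68119 (C_22 L68126 (C_22 L68127 (C_22 L68161 (C_22 L68168 N_22))))))))))))) (by decide +kernel)
theorem L68170 : W_22 (nat_lit 2) (nat_lit 0x800000002c00340012000b0000800000000000000000000000000) (nat_lit 0x0) (nat_lit 0x8000400020000000000000000000000) := D_22 (nat_lit 106) (nat_lit 89) (nat_lit 123) (nat_lit 4) (nat_lit 5) (nat_lit 9) (nat_lit 4) (nat_lit 5) (nat_lit 10) (by decide +kernel)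
theorem L68171 : W_22 (nat_lit 3) (nat_lit 0x800000002c00340012000b0000000000000000000000000000000) (nat_lit 0x0) (nat_lit 0x2000000008000c00020000000000000000000000) := T_22 (nat_lit 107) (nat_lit 157) (nat_lit 5) (nat_lit 5) (nat_lit 6) L68170 (by decide +kernel)
theorem L68172 : W_22 (nat_lit 4) (nat_lit 0x800000002800340012000b0000000000000000000000000000000) (nat_lit 0x0) (nat_lit 0x800040002000000008000c00020000000000000000000000) := T_22 (nat_lit 174) (nat_lit 191) (nat_lit 5) (nat_lit 5) (nat_lit 7) L68171 (by decide +kernel)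
theorem L68173 : W_22 (nat_lit 2) (nat_lit 0x20003c0012000a0000000000000000000000000000000) (nat_lit 0x0) (nat_lit 0xc00002000000000000000000000000000000000000000) := D_22 (nat_lit 178) (nat_lit 157) (nat_lit 179) (nat_lit 3) (nat_lit 4) (nat_lit 9) (nat_lit 3) (nat_lit 5) (nat_lit 9) (by decide +kernel)
theorem L68174 : W_22 (nat_lit 2) (nat_lit 0x40002000280016000a0000000000000000000000000000000) (nat_lit 0x0) (nat_lit 0x80000000000050000000000000000000000000000000000000000) := D_22 (nat_lit 160) (nat_lit 162) (nat_lit 211) (nat_lit 0) (nat_lit 9) (nat_lit 9) (nat_lit 6) (nat_lit 7) (nat_lit 12) (by decide +kernel)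
theorem L68175 : W_22 (nat_lit 3) (nat_lit 0x40002000080016000a0000000000000000000000000000000) (nat_lit 0x0) (nat_lit 0x80000000400070000000000000000000000000000000000000000) := T_22 (nat_lit 161) (nat_lit 178) (nat_lit 5) (nat_lit 8) (nat_lit 7) L68174 (by decide +kernel)
theorem L68176 : W_22 (nat_lit 4) (nat_lit 0x2000080016000a0000000000000000000000000000000) (nat_lit 0x0) (nat_lit 0x80004000500070000000000000000000000000000000000000000) := T_22 (nat_lit 194) (nat_lit 176) (nat_lit 7) (nat_lit 6) (nat_lit 7) L68175 (by decide +kernel)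
theorem L68177 : W_22 (nat_lit 2) (nat_lit 0x2000080016000a0001000140000000000000000000000) (nat_lit 0x0) (nat_lit 0x8000a000000000000000000) := D_22 (nat_lit 91) (nat_lit 75) (nat_lit 73) (nat_lit 6) (nat_lit 6) (nat_lit 8) (nat_lit 4) (nat_lit 6) (nat_lit 8) (by decide +kernel)
theorem L68178 : W_22 (nat_lit 3) (nat_lit 0x2000080016000a0001000100000000000000000000000) (nat_lit 0x0) (nat_lit 0x8000c000a000000000000000000) := T_22 (nat_lit 90) (nat_lit 107) (nat_lit 4) (nat_lit 6) (nat_lit 9) L68177 (by decide +kernel)
theorem L68179 : W_22 (nat_lit 4) (nat_lit 0x2000080016000a0001000000000000000000000000000) (nat_lit 0x0) (nat_lit 0x28001c000a000000000000000000) := T_22 (nat_lit 92) (nat_lit 109) (nat_lit 6) (nat_lit 6) (nat_lit 9) L68178 (by decide +kernel)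
theorem L68180 : W_22 (nat_lit 5) (nat_lit 0x2000080016000a0000000000000000000000000000000) (nat_lit 0x0) (nat_lit 0x100000000000038001c000a000000000000000000) := T_22 (nat_lit 108) (nat_lit 160) (nat_lit 7) (nat_lit 6) (nat_lit 6) L68179 (by decide +kernel)
theorem L68181 : W_22 (nat_lit 2) (nat_lit 0x3000080016000a0001000000000000000000000000000) (nat_lit 0x0) (nat_lit 0x10000800040000000000000000000000) := D_22 (nat_lit 107) (nat_lit 90) (nat_lit 124) (nat_lit 4) (nat_lit 6) (nat_lit 9) (nat_lit 4) (nat_lit 6) (nat_lit 10) (by decide +kernel)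
theorem L68182 : W_22 (nat_lit 3) (nat_lit 0x2000080016000a0001000000000000000000000000000) (nat_lit 0x0) (nat_lit 0x4000100000000000010000800040000000000000000000000) := T_22 (nat_lit 176) (nat_lit 194) (nat_lit 7) (nat_lit 6) (nat_lit 7) L68181 (by decide +kernel)
theorem L68183 : W_22 (nat_lit 2) (nat_lit 0x3800080016000a0001000180004000000000000000000) (nat_lit 0x0) (nat_lit 0x40002000100000000000000) := D_22 (nat_lit 73) (nat_lit 56) (nat_lit 90) (nat_lit 4) (nat_lit 6) (nat_lit 7) (nat_lit 4) (nat_lit 6) (nat_lit 8) (by decide +kernel)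
theorem L68184 : W_22 (nat_lit 3) (nat_lit 0x3800080016000a0001000180000000000000000000000) (nat_lit 0x0) (nat_lit 0x10000000040006000100000000000000) := T_22 (nat_lit 74) (nat_lit 124) (nat_lit 5) (nat_lit 6) (nat_lit 4) L68183 (by decide +kernel)
theorem L68185 : W_22 (nat_lit 4) (nat_lit 0x3800080016000a0001000100000000000000000000000) (nat_lit 0x0) (nat_lit 0x100000000c000e000100000000000000) := T_22 (nat_lit 91) (nat_lit 75) (nat_lit 6) (nat_lit 6) (nat_lit 8) L68184 (by decide +kernel)
theorem L68186 : W_22 (nat_lit 5) (nat_lit 0x3000080016000a0001000100000000000000000000000) (nat_lit 0x0) (nat_lit 0x10000800000000000100000000c000e000100000000000000) := T_22 (nat_lit 175) (nat_lit 192) (nat_lit 5) (nat_lit 6) (nat_lit 7) L68185 (by decide +kernel)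
theorem L68187 : W_22 (nat_lit 6) (nat_lit 0x2000080016000a0001000100000000000000000000000) (nat_lit 0x0) (nat_lit 0x50001800000000000100000000c000e000100000000000000) := T_22 (nat_lit 176) (nat_lit 194) (nat_lit 7) (nat_lit 6) (nat_lit 7) L68186 (by decide +kernel)
theorem L68188 : W_22 (nat_lit 7) (nat_lit 0x2000080016000a0001000000000000000000000000000) (nat_lit 0x0) (nat_lit 0x50001800000000000100020001c000e000100000000000000) := T_22 (nat_lit 92) (nat_lit 109) (nat_lit 6) (nat_lit 6) (nat_lit 9) L68187 (by decide +kernel)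
theorem L68189 : W_22 (nat_lit 2) (nat_lit 0x3800080016000b0001000100000000000000000000000) (nat_lit 0x0) (nat_lit 0x8000c000000000000000000) := D_22 (nat_lit 91) (nat_lit 74) (nat_lit 75) (nat_lit 5) (nat_lit 6) (nat_lit 4) (nat_lit 6) (nat_lit 6) (nat_lit 8) (by decide +kernel)
theorem L68190 : W_22 (nat_lit 3) (nat_lit 0x3800080016000b0001000000000000000000000000000) (nat_lit 0x0) (nat_lit 0x200018000c000000000000000000) := T_22 (nat_lit 92) (nat_lit 109) (nat_lit 6) (nat_lit 6) (nat_lit 9) L68189 (by decide +kernel)
theorem L68191 : W_22 (nat_lit 4) (nat_lit 0x3800080016000a0001000000000000000000000000000) (nat_lit 0x0) (nat_lit 0x1000280018000c000000000000000000) := T_22 (nat_lit 124) (nat_lit 107) (nat_lit 4) (nat_lit 6) (nat_lit 10) L68190 (by decide +kernel)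
theorem L68192 : W_22 (nat_lit 5) (nat_lit 0x3000080016000a0001000000000000000000000000000) (nat_lit 0x0) (nat_lit 0x100008000000000001000280018000c000000000000000000) := T_22 (nat_lit 175) (nat_lit 192) (nat_lit 5) (nat_lit 6) (nat_lit 7) L68191 (by decide +kernel)
theorem L68193 : W_22 (nat_lit 6) (nat_lit 0x2000080016000a0001000000000000000000000000000) (nat_lit 0x0) (nat_lit 0x500018000000000001000280018000c000000000000000000) := T_22 (nat_lit 176) (nat_lit 194) (nat_lit 7) (nat_lit 6) (nat_lit 7) L68192 (by decide +kernel)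
theorem L68194 : W_22 (nat_lit 8) (nat_lit 0x2000080016000a0000000000000000000000000000000) (nat_lit 0x0) (nat_lit 0x50001800000000000100038001c000e000100000000000000) := Q_22 (nat_lit 108) (C_22 L68179 (C_22 L68182 (C_22 L68188 (C_22 L68193 N_22)))) (by decide +kernel)
theorem L68195 : W_22 (nat_lit 9) (nat_lit 0x2000080012000a0000000000000000000000000000000) (nat_lit 0x0) (nat_lit 0x800050005800700004000100038001c000e000100000000000000) := Q_22 (nat_lit 142) (C_22 L62600 (C_22 L68176 (C_22 L68180 (C_22 L68194 N_22)))) (by decide +kernel)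
theorem L68196 : W_22 (nat_lit 2) (nat_lit 0x800000002000180017000a0000000000000000000000000000000) (nat_lit 0x0) (nat_lit 0x64000000000000000000000000000000000000000) := D_22 (nat_lit 161) (nat_lit 162) (nat_lit 158) (nat_lit 0) (nat_lit 9) (nat_lit 9) (nat_lit 0) (nat_lit 8) (nat_lit 9) (by decide +kernel)
theorem L68197 : W_22 (nat_lit 3) (nat_lit 0x800000002000180016000a0000000000000000000000000000000) (nat_lit 0x0) (nat_lit 0x64000180000000000000000000000000000000000) := T_22 (nat_lit 140) (nat_lit 139) (nat_lit 3) (nat_lit 3) (nat_lit 8) L68196 (by decide +kernel)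
theorem L68198 : W_22 (nat_lit 4) (nat_lit 0x2000180016000a0000000000000000000000000000000) (nat_lit 0x0) (nat_lit 0x80004000000064000180000000000000000000000000000000000) := T_22 (nat_lit 211) (nat_lit 194) (nat_lit 4) (nat_lit 7) (nat_lit 12) L68197 (by decide +kernel)
theorem L68199 : W_22 (nat_lit 5) (nat_lit 0x2000180012000a0000000000000000000000000000000) (nat_lit 0x0) (nat_lit 0x80004000000064000580000001000000000000000000000000000) := T_22 (nat_lit 142) (nat_lit 108) (nat_lit 7) (nat_lit 6) (nat_lit 6) L68198 (by decide +kernel)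
theorem L68200 : W_22 (nat_lit 3) (nat_lit 0x20001c0012000a0000000000000000000000000000000) (nat_lit 0x0) (nat_lit 0xc00022000100000000000000000000000000000000000) := T_22 (nat_lit 161) (nat_lit 140) (nat_lit 0) (nat_lit 8) (nat_lit 9) L68173 (by decide +kernel)
theorem L68201 : W_22 (nat_lit 2) (nat_lit 0x20001c0013000a0000000000000000000000000000000) (nat_lit 0x0) (nat_lit 0x20000c0000000000000000000000000000000000) := D_22 (nat_lit 139) (nat_lit 157) (nat_lit 138) (nat_lit 0) (nat_lit 7) (nat_lit 9) (nat_lit 3) (nat_lit 2) (nat_lit 8) (by decide +kernel)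
theorem L68202 : W_22 (nat_lit 3) (nat_lit 0x20001c0012000a0000000000000000000000000000000) (nat_lit 0x0) (nat_lit 0x220001c0000000000000000000000000000000000) := T_22 (nat_lit 140) (nat_lit 161) (nat_lit 0) (nat_lit 8) (nat_lit 9) L68201 (by decide +kernel)
theorem L68203 : W_22 (nat_lit 2) (nat_lit 0x24001e0013000a0000000000000000000000000000000) (nat_lit 0x0) (nat_lit 0x10000800000000000000010000000000000000000000000000000) := D_22 (nat_lit 191) (nat_lit 208) (nat_lit 124) (nat_lit 6) (nat_lit 4) (nat_lit 12) (nat_lit 6) (nat_lit 4) (nat_lit 11) (by decide +kernel)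
theorem L68204 : W_22 (nat_lit 3) (nat_lit 0x24001e0012000a0000000000000000000000000000000) (nat_lit 0x0) (nat_lit 0x10000800000000000180010000000000000000000000000000000) := T_22 (nat_lit 140) (nat_lit 139) (nat_lit 0) (nat_lit 7) (nat_lit 9) L68203 (by decide +kernel)
theorem L68205 : W_22 (nat_lit 4) (nat_lit 0x20001e0012000a0000000000000000000000000000000) (nat_lit 0x0) (nat_lit 0x10000800060000000180010000000000000000000000000000000) := T_22 (nat_lit 174) (nat_lit 173) (nat_lit 1) (nat_lit 7) (nat_lit 9) L68204 (by decide +kernel)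
theorem L68206 : W_22 (nat_lit 5) (nat_lit 0x20001c0012000a0000000000000000000000000000000) (nat_lit 0x0) (nat_lit 0x10000800460002000180010000000000000000000000000000000) := T_22 (nat_lit 157) (nat_lit 178) (nat_lit 3) (nat_lit 4) (nat_lit 9) L68205 (by decide +kernel)
theorem L68207 : W_22 (nat_lit 2) (nat_lit 0x20003c0012000a0000000000000000000000000000000) (nat_lit 0x0) (nat_lit 0x4000c00000000000000000000000000000000000000000000) := D_22 (nat_lit 178) (nat_lit 179) (nat_lit 194) (nat_lit 3) (nat_lit 5) (nat_lit 9) (nat_lit 5) (nat_lit 8) (nat_lit 7) (by decide +kernel)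
theorem L68208 : W_22 (nat_lit 3) (nat_lit 0x20001c0012000a0000000000000000000000000000000) (nat_lit 0x0) (nat_lit 0x4000c00020000100000000000000000000000000000000000) := T_22 (nat_lit 161) (nat_lit 140) (nat_lit 0) (nat_lit 8) (nat_lit 9) L68207 (by decide +kernel)
theorem L68209 : W_22 (nat_lit 2) (nat_lit 0x2c001e0012000a0000000000000000000000000000000) (nat_lit 0x0) (nat_lit 0x10000800000000000000010000000000000000000000000000000) := D_22 (nat_lit 191) (nat_lit 208) (nat_lit 124) (nat_lit 6) (nat_lit 4) (nat_lit 12) (nat_lit 5) (nat_lit 5) (nat_lit 7) (by decide +kernel)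
theorem L68210 : W_22 (nat_lit 3) (nat_lit 0x24001e0012000a0000000000000000000000000000000) (nat_lit 0x0) (nat_lit 0x10000800080020000000010000000000000000000000000000000) := T_22 (nat_lit 175) (nat_lit 161) (nat_lit 1) (nat_lit 8) (nat_lit 9) L68209 (by decide +kernel)
theorem L68211 : W_22 (nat_lit 4) (nat_lit 0x20001e0012000a0000000000000000000000000000000) (nat_lit 0x0) (nat_lit 0x100008000e0020000000010000000000000000000000000000000) := T_22 (nat_lit 174) (nat_lit 173) (nat_lit 1) (nat_lit 7) (nat_lit 9) L68210 (by decide +kernel)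
theorem L68212 : W_22 (nat_lit 5) (nat_lit 0x20001c0012000a0000000000000000000000000000000) (nat_lit 0x0) (nat_lit 0x100008004e0022000000010000000000000000000000000000000) := T_22 (nat_lit 157) (nat_lit 178) (nat_lit 3) (nat_lit 4) (nat_lit 9) L68211 (by decide +kernel)
theorem L68213 : W_22 (nat_lit 6) (nat_lit 0x2000180012000a0000000000000000000000000000000) (nat_lit 0x0) (nat_lit 0x10004800ce00260001c0010000000000000000000000000000000) := Q_22 (nat_lit 158) (C_22 L68200 (C_22 L68202 (C_22 L68206 (C_22 L68208 (C_22 L68212 N_22))))) (by decide +kernel)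
theorem L68214 : W_22 (nat_lit 2) (nat_lit 0x40002000180016000a0000000000000000000000000000000) (nat_lit 0x0) (nat_lit 0x400060000000000000000000000000000000000000000) := D_22 (nat_lit 161) (nat_lit 162) (nat_lit 178) (nat_lit 0) (nat_lit 9) (nat_lit 9) (nat_lit 5) (nat_lit 8) (nat_lit 7) (by decide +kernel)
theorem L68215 : W_22 (nat_lit 3) (nat_lit 0x2000180016000a0000000000000000000000000000000) (nat_lit 0x0) (nat_lit 0x80004000400060000000000000000000000000000000000000000) := T_22 (nat_lit 194) (nat_lit 211) (nat_lit 4) (nat_lit 7) (nat_lit 12) L68214 (by decide +kernel)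
theorem L68216 : W_22 (nat_lit 4) (nat_lit 0x2000180012000a0000000000000000000000000000000) (nat_lit 0x0) (nat_lit 0x80004000400060000400000001000000000000000000000000000) := T_22 (nat_lit 142) (nat_lit 108) (nat_lit 7) (nat_lit 6) (nat_lit 6) L68215 (by decide +kernel)
theorem L68217 : W_22 (nat_lit 2) (nat_lit 0x1c0024001e0013000a8001400000000000000000000000000) (nat_lit 0x0) (nat_lit 0x4000200010000000000000000000000) := D_22 (nat_lit 105) (nat_lit 122) (nat_lit 88) (nat_lit 4) (nat_lit 4) (nat_lit 10) (nat_lit 4) (nat_lit 4) (nat_lit 9) (by decide +kernel)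
theorem L68218 : W_22 (nat_lit 3) (nat_lit 0x1c0024001e0013000a8001000000000000000000000000000) (nat_lit 0x0) (nat_lit 0x4000600030000000000000000000000) := T_22 (nat_lit 106) (nat_lit 89) (nat_lit 7) (nat_lit 4) (nat_lit 5) L68217 (by decide +kernel)
theorem L68219 : W_22 (nat_lit 4) (nat_lit 0x1c0024001e0013000a0001000000000000000000000000000) (nat_lit 0x0) (nat_lit 0x8000000000000c000600030000000000000000000000) := T_22 (nat_lit 123) (nat_lit 175) (nat_lit 7) (nat_lit 4) (nat_lit 7) L68218 (by decide +kernel)
theorem L68220 : W_22 (nat_lit 5) (nat_lit 0xc0024001e0013000a0001000000000000000000000000000) (nat_lit 0x0) (nat_lit 0x2000100008000000000000c000600030000000000000000000000) := T_22 (nat_lit 192) (nat_lit 209) (nat_lit 7) (nat_lit 4) (nat_lit 8) L68219 (by decide +kernel)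
theorem L68221 : W_22 (nat_lit 6) (nat_lit 0x80024001e0013000a0001000000000000000000000000000) (nat_lit 0x0) (nat_lit 0x2800140008000000000000c000600030000000000000000000000) := T_22 (nat_lit 190) (nat_lit 207) (nat_lit 5) (nat_lit 4) (nat_lit 8) L68220 (by decide +kernel)
theorem L68222 : W_22 (nat_lit 7) (nat_lit 0x24001e0013000a0001000000000000000000000000000) (nat_lit 0x0) (nat_lit 0x38001c0008000000000000c000600030000000000000000000000) := T_22 (nat_lit 191) (nat_lit 208) (nat_lit 6) (nat_lit 4) (nat_lit 12) L68221 (by decide +kernel)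
theorem L68223 : W_22 (nat_lit 8) (nat_lit 0x24001e0012000a0001000000000000000000000000000) (nat_lit 0x0) (nat_lit 0x38001c0008000000018000c000600030000000000000000000000) := T_22 (nat_lit 140) (nat_lit 139) (nat_lit 0) (nat_lit 7) (nat_lit 9) L68222 (by decide +kernel)
theorem L68224 : W_22 (nat_lit 9) (nat_lit 0x20001e0012000a0001000000000000000000000000000) (nat_lit 0x0) (nat_lit 0x38001c000e000000018000c000600030000000000000000000000) := T_22 (nat_lit 174) (nat_lit 173) (nat_lit 1) (nat_lit 7) (nat_lit 9) L68223 (by decide +kernel)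
theorem L68225 : W_22 (nat_lit 10) (nat_lit 0x20001c0012000a0001000000000000000000000000000) (nat_lit 0x0) (nat_lit 0x38001c004e000200018000c000600030000000000000000000000) := T_22 (nat_lit 157) (nat_lit 178) (nat_lit 3) (nat_lit 4) (nat_lit 9) L68224 (by decide +kernel)
theorem L68226 : W_22 (nat_lit 11) (nat_lit 0x20001c0012000a0000000000000000000000000000000) (nat_lit 0x0) (nat_lit 0x38001c004e000200058000c001600030000000000000000000000) := T_22 (nat_lit 108) (nat_lit 142) (nat_lit 7) (nat_lit 6) (nat_lit 6) L68225 (by decide +kernel)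
theorem L68227 : W_22 (nat_lit 2) (nat_lit 0x20001c0012000b0001000000000000000000000000000) (nat_lit 0x0) (nat_lit 0x800080004000000000000000000) := D_22 (nat_lit 91) (nat_lit 107) (nat_lit 74) (nat_lit 6) (nat_lit 5) (nat_lit 9) (nat_lit 5) (nat_lit 6) (nat_lit 4) (by decide +kernel)
theorem L68228 : W_22 (nat_lit 3) (nat_lit 0x20001c0012000a0001000000000000000000000000000) (nat_lit 0x0) (nat_lit 0x80000000000010000800080004000000000000000000) := T_22 (nat_lit 124) (nat_lit 175) (nat_lit 6) (nat_lit 5) (nat_lit 10) L68227 (by decide +kernel)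
theorem L68229 : W_22 (nat_lit 4) (nat_lit 0x20001c0012000a0000000000000000000000000000000) (nat_lit 0x0) (nat_lit 0x80000000400010001800080004000000000000000000) := T_22 (nat_lit 108) (nat_lit 142) (nat_lit 7) (nat_lit 6) (nat_lit 6) L68228 (by decide +kernel)
theorem L68230 : W_22 (nat_lit 12) (nat_lit 0x2000180012000a0000000000000000000000000000000) (nat_lit 0x0) (nat_lit 0x38001c004e000600058001c001e000b0004000000000000000000) := Q_22 (nat_lit 158) (C_22 L68226 (C_22 L68206 (C_22 L68229 N_22))) (by decide +kernel)
theorem L68231 : W_22 (nat_lit 13) (nat_lit 0x2000080012000a0000000000000000000000000000000) (nat_lit 0x0) (nat_lit 0xb8005c00ce00760005c001c001e000b0004000000000000000000) := Q_22 (nat_lit 160) (C_22 L68199 (C_22 L68213 (C_22 L68216 (C_22 L68230 N_22)))) (by decide +kernel)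
theorem L68232 : W_22 (nat_lit 5) (nat_lit 0x3800080016000a0000000000000000000000000000000) (nat_lit 0x0) (nat_lit 0x400000001000380018000c000000000000000000) := T_22 (nat_lit 108) (nat_lit 158) (nat_lit 5) (nat_lit 6) (nat_lit 6) L68191 (by decide +kernel)
theorem L68233 : W_22 (nat_lit 6) (nat_lit 0x3000080016000a0000000000000000000000000000000) (nat_lit 0x0) (nat_lit 0x100008000400000001000380018000c000000000000000000) := T_22 (nat_lit 175) (nat_lit 192) (nat_lit 5) (nat_lit 6) (nat_lit 7) L68232 (by decide +kernel)
theorem L68234 : W_22 (nat_lit 7) (nat_lit 0x3000080012000a0000000000000000000000000000000) (nat_lit 0x0) (nat_lit 0x500008000400040001000380018000c000000000000000000) := T_22 (nat_lit 142) (nat_lit 194) (nat_lit 7) (nat_lit 6) (nat_lit 7) L68233 (by decide +kernel)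
theorem L68235 : W_22 (nat_lit 2) (nat_lit 0xf000080012000a0000000000000000000000000000000) (nat_lit 0x0) (nat_lit 0x14000000020000000000000000000000000000000000000000) := D_22 (nat_lit 161) (nat_lit 194) (nat_lit 196) (nat_lit 5) (nat_lit 8) (nat_lit 7) (nat_lit 7) (nat_lit 8) (nat_lit 7) (by decide +kernel)
theorem L68236 : W_22 (nat_lit 3) (nat_lit 0x7000080012000a0000000000000000000000000000000) (nat_lit 0x0) (nat_lit 0x14000800024000000000000000000000000000000000000000) := T_22 (nat_lit 179) (nat_lit 158) (nat_lit 0) (nat_lit 9) (nat_lit 10) L68235 (by decide +kernel)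
theorem L68237 : W_22 (nat_lit 2) (nat_lit 0x7800280012000a0000000000000000000000000000000) (nat_lit 0x0) (nat_lit 0x800006000000000000000000000000000000000000000) := D_22 (nat_lit 158) (nat_lit 179) (nat_lit 157) (nat_lit 0) (nat_lit 9) (nat_lit 10) (nat_lit 0) (nat_lit 8) (nat_lit 10) (by decide +kernel)
theorem L68238 : W_22 (nat_lit 3) (nat_lit 0x7000280012000a0000000000000000000000000000000) (nat_lit 0x0) (nat_lit 0x880046000000000000000000000000000000000000000) := T_22 (nat_lit 175) (nat_lit 162) (nat_lit 2) (nat_lit 5) (nat_lit 10) L68237 (by decide +kernel)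
theorem L68239 : W_22 (nat_lit 4) (nat_lit 0x7000080012000a0000000000000000000000000000000) (nat_lit 0x0) (nat_lit 0x4000880066000000000000000000000000000000000000000) := T_22 (nat_lit 161) (nat_lit 194) (nat_lit 5) (nat_lit 8) (nat_lit 7) L68238 (by decide +kernel)
theorem L68240 : W_22 (nat_lit 2) (nat_lit 0x7800280012000a0000000000000000000000000000000) (nat_lit 0x0) (nat_lit 0x18000800000000000000000000000000000000000000000000) := D_22 (nat_lit 196) (nat_lit 179) (nat_lit 195) (nat_lit 7) (nat_lit 8) (nat_lit 7) (nat_lit 3) (nat_lit 5) (nat_lit 10) (by decide +kernel)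
theorem L68241 : W_22 (nat_lit 3) (nat_lit 0x7000280012000a0000000000000000000000000000000) (nat_lit 0x0) (nat_lit 0x18000880040000000000000000000000000000000000000000) := T_22 (nat_lit 175) (nat_lit 162) (nat_lit 2) (nat_lit 5) (nat_lit 10) L68240 (by decide +kernel)
theorem L68242 : W_22 (nat_lit 4) (nat_lit 0x7000080012000a0000000000000000000000000000000) (nat_lit 0x0) (nat_lit 0x1c000880060000000000000000000000000000000000000000) := T_22 (nat_lit 161) (nat_lit 194) (nat_lit 5) (nat_lit 8) (nat_lit 7) L68241 (by decide +kernel)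
theorem L68243 : W_22 (nat_lit 2) (nat_lit 0x18001f000880012000a0000000000000000000000000000000) (nat_lit 0x0) (nat_lit 0x4006000000000000000000000000000000000000000000000) := D_22 (nat_lit 181) (nat_lit 182) (nat_lit 194) (nat_lit 1) (nat_lit 12) (nat_lit 10) (nat_lit 1) (nat_lit 11) (nat_lit 10) (by decide +kernel)
theorem L68244 : W_22 (nat_lit 3) (nat_lit 0x18000f000880012000a0000000000000000000000000000000) (nat_lit 0x0) (nat_lit 0x4007000100000000000000000000000000000000000000000) := T_22 (nat_lit 180) (nat_lit 164) (nat_lit 2) (nat_lit 7) (nat_lit 10) L68243 (by decide +kernel)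
theorem L68245 : W_22 (nat_lit 4) (nat_lit 0x10000f000880012000a0000000000000000000000000000000) (nat_lit 0x0) (nat_lit 0xc007080100000000000000000000000000000000000000000) := T_22 (nat_lit 195) (nat_lit 175) (nat_lit 3) (nat_lit 5) (nat_lit 10) L68244 (by decide +kernel)
theorem L68246 : W_22 (nat_lit 5) (nat_lit 0xf000880012000a0000000000000000000000000000000) (nat_lit 0x0) (nat_lit 0x3c007080100000000000000000000000000000000000000000) := T_22 (nat_lit 196) (nat_lit 197) (nat_lit 3) (nat_lit 6) (nat_lit 10) L68245 (by decide +kernel)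
theorem L68247 : W_22 (nat_lit 6) (nat_lit 0xf000080012000a0000000000000000000000000000000) (nat_lit 0x0) (nat_lit 0x3c0070801c0000000000000000000000000000000000000000) := T_22 (nat_lit 163) (nat_lit 162) (nat_lit 2) (nat_lit 6) (nat_lit 10) L68246 (by decide +kernel)
theorem L68248 : W_22 (nat_lit 7) (nat_lit 0x7000080012000a0000000000000000000000000000000) (nat_lit 0x0) (nat_lit 0x3c0078801c4000000000000000000000000000000000000000) := T_22 (nat_lit 179) (nat_lit 158) (nat_lit 0) (nat_lit 9) (nat_lit 10) L68247 (by decide +kernel)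
theorem L68249 : W_22 (nat_lit 2) (nat_lit 0xf000080012000a0000000000000000000000000000000) (nat_lit 0x0) (nat_lit 0x30000000020000000000000000000000000000000000000000) := D_22 (nat_lit 196) (nat_lit 197) (nat_lit 161) (nat_lit 3) (nat_lit 6) (nat_lit 10) (nat_lit 7) (nat_lit 8) (nat_lit 7) (by decide +kernel)
theorem L68250 : W_22 (nat_lit 3) (nat_lit 0x7000080012000a0000000000000000000000000000000) (nat_lit 0x0) (nat_lit 0x30000800024000000000000000000000000000000000000000) := T_22 (nat_lit 179) (nat_lit 158) (nat_lit 0) (nat_lit 9) (nat_lit 10) L68249 (by decide +kernel)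
theorem L68251 : W_22 (nat_lit 2) (nat_lit 0x40000000900078002c0012000a0000000000000000000000000000000) (nat_lit 0x0) (nat_lit 0x10001800000000000000000000000000) := D_22 (nat_lit 124) (nat_lit 107) (nat_lit 108) (nat_lit 7) (nat_lit 5) (nat_lit 6) (nat_lit 6) (nat_lit 5) (nat_lit 10) (by decide +kernel)
theorem L68252 : W_22 (nat_lit 3) (nat_lit 0x4000000090007800280012000a0000000000000000000000000000000) (nat_lit 0x0) (nat_lit 0x6000000010001800000000000000000000000000) := T_22 (nat_lit 158) (nat_lit 157) (nat_lit 0) (nat_lit 8) (nat_lit 10) L68251 (by decide +kernel)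
theorem L68253 : W_22 (nat_lit 4) (nat_lit 0x90007800280012000a0000000000000000000000000000000) (nat_lit 0x0) (nat_lit 0x400020000000000006000000010001800000000000000000000000000) := T_22 (nat_lit 226) (nat_lit 209) (nat_lit 6) (nat_lit 5) (nat_lit 13) L68252 (by decide +kernel)
theorem L68254 : W_22 (nat_lit 5) (nat_lit 0x10007800280012000a0000000000000000000000000000000) (nat_lit 0x0) (nat_lit 0x400020018000000006000000010001800000000000000000000000000) := T_22 (nat_lit 195) (nat_lit 196) (nat_lit 3) (nat_lit 5) (nat_lit 10) L68253 (by decide +kernel)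
theorem L68255 : W_22 (nat_lit 6) (nat_lit 0x7800280012000a0000000000000000000000000000000) (nat_lit 0x0) (nat_lit 0x400020019800000006000000010001800000000000000000000000000) := T_22 (nat_lit 192) (nat_lit 191) (nat_lit 1) (nat_lit 8) (nat_lit 10) L68254 (by decide +kernel)
theorem L68256 : W_22 (nat_lit 7) (nat_lit 0x7000280012000a0000000000000000000000000000000) (nat_lit 0x0) (nat_lit 0x400020019800080046000000010001800000000000000000000000000) := T_22 (nat_lit 175) (nat_lit 162) (nat_lit 2) (nat_lit 5) (nat_lit 10) L68255 (by decide +kernel)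
theorem L68257 : W_22 (nat_lit 8) (nat_lit 0x7000080012000a0000000000000000000000000000000) (nat_lit 0x0) (nat_lit 0x40002001d800080066000000010001800000000000000000000000000) := T_22 (nat_lit 161) (nat_lit 194) (nat_lit 5) (nat_lit 8) (nat_lit 7) L68256 (by decide +kernel)
theorem L68258 : W_22 (nat_lit 9) (nat_lit 0x3000080012000a0000000000000000000000000000000) (nat_lit 0x0) (nat_lit 0x40002003d807c801e6000000010001800000000000000000000000000) := Q_22 (nat_lit 178) (C_22 L68236 (C_22 L68239 (C_22 L68242 (C_22 L68248 (C_22 L68250 (C_22 L68257 N_22)))))) (by decide +kernel)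
theorem L68259 : W_22 (nat_lit 2) (nat_lit 0x7000080012000a0000000000000000000000000000000) (nat_lit 0x0) (nat_lit 0x4000000020000400000000000000000000000000000000000) := D_22 (nat_lit 194) (nat_lit 142) (nat_lit 161) (nat_lit 7) (nat_lit 6) (nat_lit 7) (nat_lit 5) (nat_lit 8) (nat_lit 7) (by decide +kernel)
theorem L68260 : W_22 (nat_lit 2) (nat_lit 0x80007c00080012000a0000000000000000000000000000000) (nat_lit 0x0) (nat_lit 0x1c00000000000000000000000000000000000000000000000) := D_22 (nat_lit 191) (nat_lit 190) (nat_lit 192) (nat_lit 1) (nat_lit 7) (nat_lit 10) (nat_lit 1) (nat_lit 8) (nat_lit 10) (by decide +kernel)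
theorem L68261 : W_22 (nat_lit 3) (nat_lit 0x80007800080012000a0000000000000000000000000000000) (nat_lit 0x0) (nat_lit 0x5c00040000000000000000000000000000000000000000000) := T_22 (nat_lit 174) (nat_lit 194) (nat_lit 3) (nat_lit 4) (nat_lit 10) L68260 (by decide +kernel)
theorem L68262 : W_22 (nat_lit 4) (nat_lit 0x7800080012000a0000000000000000000000000000000) (nat_lit 0x0) (nat_lit 0x1dc00040000000000000000000000000000000000000000000) := T_22 (nat_lit 195) (nat_lit 196) (nat_lit 3) (nat_lit 5) (nat_lit 10) L68261 (by decide +kernel)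
theorem L68263 : W_22 (nat_lit 2) (nat_lit 0x7800080012000a0000000000000000000000000000000) (nat_lit 0x0) (nat_lit 0x1800000000000400000000000000000000000000000000000) := D_22 (nat_lit 192) (nat_lit 191) (nat_lit 142) (nat_lit 1) (nat_lit 8) (nat_lit 10) (nat_lit 5) (nat_lit 6) (nat_lit 7) (by decide +kernel)
theorem L68264 : W_22 (nat_lit 2) (nat_lit 0x7800080012000a0000000000000000000000000000000) (nat_lit 0x0) (nat_lit 0x5000000000000400000000000000000000000000000000000) := D_22 (nat_lit 142) (nat_lit 194) (nat_lit 192) (nat_lit 7) (nat_lit 6) (nat_lit 7) (nat_lit 5) (nat_lit 6) (nat_lit 7) (by decide +kernel)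
theorem L68265 : W_22 (nat_lit 2) (nat_lit 0x80007800080012000a0000000000000000000000000000000) (nat_lit 0x0) (nat_lit 0x4000040000000400000000000000000000000000000000000) := D_22 (nat_lit 194) (nat_lit 174) (nat_lit 142) (nat_lit 3) (nat_lit 4) (nat_lit 10) (nat_lit 7) (nat_lit 6) (nat_lit 7) (by decide +kernel)
theorem L68266 : W_22 (nat_lit 3) (nat_lit 0x7800080012000a0000000000000000000000000000000) (nat_lit 0x0) (nat_lit 0x1c000040000000400000000000000000000000000000000000) := T_22 (nat_lit 195) (nat_lit 196) (nat_lit 3) (nat_lit 5) (nat_lit 10) L68265 (by decide +kernel)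
theorem L68267 : W_22 (nat_lit 5) (nat_lit 0x7000080012000a0000000000000000000000000000000) (nat_lit 0x0) (nat_lit 0x1dc000c0000000400000000000000000000000000000000000) := Q_22 (nat_lit 175) (C_22 L68262 (C_22 L68263 (C_22 L68264 (C_22 L68266 N_22)))) (by decide +kernel)
theorem L68268 : W_22 (nat_lit 2) (nat_lit 0x110007800080012000a0000000000000000000000000000000) (nat_lit 0x0) (nat_lit 0x800060000000000000000000000000000000000000000) := D_22 (nat_lit 161) (nat_lit 162) (nat_lit 179) (nat_lit 2) (nat_lit 5) (nat_lit 10) (nat_lit 7) (nat_lit 8) (nat_lit 7) (by decide +kernel)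
theorem L68269 : W_22 (nat_lit 3) (nat_lit 0x10007800080012000a0000000000000000000000000000000) (nat_lit 0x0) (nat_lit 0x18000800060000000000000000000000000000000000000000) := T_22 (nat_lit 196) (nat_lit 195) (nat_lit 3) (nat_lit 5) (nat_lit 10) L68268 (by decide +kernel)
theorem L68270 : W_22 (nat_lit 4) (nat_lit 0x7800080012000a0000000000000000000000000000000) (nat_lit 0x0) (nat_lit 0x19800800060000000000000000000000000000000000000000) := T_22 (nat_lit 192) (nat_lit 191) (nat_lit 1) (nat_lit 8) (nat_lit 10) L68269 (by decide +kernel)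
theorem L68271 : W_22 (nat_lit 2) (nat_lit 0x100007800080012000a0000000000000000000000000000000) (nat_lit 0x0) (nat_lit 0x800060000000000000000000000000000000000000000) := D_22 (nat_lit 161) (nat_lit 162) (nat_lit 179) (nat_lit 2) (nat_lit 5) (nat_lit 10) (nat_lit 7) (nat_lit 8) (nat_lit 7) (by decide +kernel)
theorem L68272 : W_22 (nat_lit 3) (nat_lit 0x7800080012000a0000000000000000000000000000000) (nat_lit 0x0) (nat_lit 0x18000800060000000000000000000000000000000000000000) := T_22 (nat_lit 196) (nat_lit 195) (nat_lit 3) (nat_lit 5) (nat_lit 10) L68271 (by decide +kernel)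
theorem L68273 : W_22 (nat_lit 5) (nat_lit 0x7000080012000a0000000000000000000000000000000) (nat_lit 0x0) (nat_lit 0x19800880060000400000000000000000000000000000000000) := Q_22 (nat_lit 175) (C_22 L68270 (C_22 L68263 (C_22 L68272 N_22))) (by decide +kernel)
theorem L68274 : W_22 (nat_lit 6) (nat_lit 0x3000080012000a0000000000000000000000000000000) (nat_lit 0x0) (nat_lit 0x1dc00cc0060000400000000000000000000000000000000000) := Q_22 (nat_lit 178) (C_22 L68259 (C_22 L68242 (C_22 L68267 (C_22 L68273 N_22)))) (by decide +kernel)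
theorem L68275 : W_22 (nat_lit 2) (nat_lit 0x3000080016000a0001800080000000000000000000000) (nat_lit 0x0) (nat_lit 0x2000100008000000000000000000) := D_22 (nat_lit 92) (nat_lit 109) (nat_lit 75) (nat_lit 6) (nat_lit 6) (nat_lit 9) (nat_lit 6) (nat_lit 6) (nat_lit 8) (by decide +kernel)
theorem L68276 : W_22 (nat_lit 3) (nat_lit 0x3000080016000a0001800000000000000000000000000) (nat_lit 0x0) (nat_lit 0x4000000000002000180008000000000000000000) := T_22 (nat_lit 91) (nat_lit 158) (nat_lit 5) (nat_lit 6) (nat_lit 5) L68275 (by decide +kernel)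
theorem L68277 : W_22 (nat_lit 4) (nat_lit 0x3000080016000a0000800000000000000000000000000) (nat_lit 0x0) (nat_lit 0x40000000000030001c0008000000000000000000) := T_22 (nat_lit 108) (nat_lit 90) (nat_lit 4) (nat_lit 6) (nat_lit 9) L68276 (by decide +kernel)
theorem L68278 : W_22 (nat_lit 5) (nat_lit 0x3000080016000a0000000000000000000000000000000) (nat_lit 0x0) (nat_lit 0x40000000100038001c0008000000000000000000) := T_22 (nat_lit 107) (nat_lit 124) (nat_lit 4) (nat_lit 6) (nat_lit 10) L68277 (by decide +kernel)
theorem L68279 : W_22 (nat_lit 6) (nat_lit 0x3000080012000a0000000000000000000000000000000) (nat_lit 0x0) (nat_lit 0x40000000040004000100038001c0008000000000000000000) := T_22 (nat_lit 142) (nat_lit 194) (nat_lit 7) (nat_lit 6) (nat_lit 7) L68278 (by decide +kernel)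
theorem L68280 : W_22 (nat_lit 6) (nat_lit 0x3800080012000a0000000000000000000000000000000) (nat_lit 0x0) (nat_lit 0x10000000040004000000038001c000a000000000000000000) := T_22 (nat_lit 142) (nat_lit 192) (nat_lit 5) (nat_lit 6) (nat_lit 7) L39105 (by decide +kernel)
theorem L68281 : W_22 (nat_lit 2) (nat_lit 0x38000c0012000a0000000000000000000000000000000) (nat_lit 0x0) (nat_lit 0xc00002000000000000000000000000000000000000000) := D_22 (nat_lit 178) (nat_lit 157) (nat_lit 179) (nat_lit 0) (nat_lit 8) (nat_lit 10) (nat_lit 0) (nat_lit 9) (nat_lit 10) (by decide +kernel)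
theorem L68282 : W_22 (nat_lit 2) (nat_lit 0x38000c0012000a0000000000000000000000000000000) (nat_lit 0x0) (nat_lit 0x10001800000000000000000000000000) := D_22 (nat_lit 124) (nat_lit 107) (nat_lit 108) (nat_lit 7) (nat_lit 5) (nat_lit 6) (nat_lit 6) (nat_lit 5) (nat_lit 10) (by decide +kernel)
theorem L68283 : W_22 (nat_lit 3) (nat_lit 0x3800080012000a0000000000000000000000000000000) (nat_lit 0x0) (nat_lit 0xc00006000000010001800000000000000000000000000) := Q_22 (nat_lit 158) (C_22 L68281 (C_22 L68282 N_22)) (by decide +kernel)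
theorem L68284 : W_22 (nat_lit 4) (nat_lit 0x10003800080012000a0000000000000000000000000000000) (nat_lit 0x0) (nat_lit 0x18800c00060000000000000000000000000000000000000000) := T_22 (nat_lit 178) (nat_lit 191) (nat_lit 1) (nat_lit 8) (nat_lit 10) L68269 (by decide +kernel)
theorem L68285 : W_22 (nat_lit 5) (nat_lit 0x3800080012000a0000000000000000000000000000000) (nat_lit 0x0) (nat_lit 0x19800c00060000400000000000000000000000000000000000) := T_22 (nat_lit 192) (nat_lit 142) (nat_lit 5) (nat_lit 6) (nat_lit 7) L68284 (by decide +kernel)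
theorem L68286 : W_22 (nat_lit 7) (nat_lit 0x3000080012000a0000000000000000000000000000000) (nat_lit 0x0) (nat_lit 0x19800c800660004000100038001c000a000000000000000000) := Q_22 (nat_lit 175) (C_22 L68280 (C_22 L68283 (C_22 L68285 N_22))) (by decide +kernel)
theorem L68287 : W_22 (nat_lit 10) (nat_lit 0x2000080012000a0000000000000000000000000000000) (nat_lit 0x0) (nat_lit 0x40002003dc07dc01e60004000100038001c000e000000000000000000) := Q_22 (nat_lit 176) (C_22 L68234 (C_22 L68258 (C_22 L68274 (C_22 L68279 (C_22 L68286 N_22))))) (by decide +kernel)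
theorem L68288 : W_22 (nat_lit 2) (nat_lit 0xe000280012001a0000000000000000000000000000000) (nat_lit 0x0) (nat_lit 0x1000014000000000000000000000000000000000000000) := D_22 (nat_lit 160) (nat_lit 158) (nat_lit 180) (nat_lit 3) (nat_lit 5) (nat_lit 9) (nat_lit 0) (nat_lit 10) (nat_lit 10) (by decide +kernel)
theorem L68289 : W_22 (nat_lit 3) (nat_lit 0x6000280012001a0000000000000000000000000000000) (nat_lit 0x0) (nat_lit 0x10001800014000000000000000000000000000000000000000) := T_22 (nat_lit 179) (nat_lit 196) (nat_lit 7) (nat_lit 8) (nat_lit 7) L68288 (by decide +kernel)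
theorem L68290 : W_22 (nat_lit 4) (nat_lit 0x6000280012000a0000000000000000000000000000000) (nat_lit 0x0) (nat_lit 0x10001800014000000100008000000000000000000000000000) := T_22 (nat_lit 128) (nat_lit 111) (nat_lit 6) (nat_lit 8) (nat_lit 10) L68289 (by decide +kernel)
theorem L68291 : W_22 (nat_lit 5) (nat_lit 0x6000080012000a0000000000000000000000000000000) (nat_lit 0x0) (nat_lit 0x14001800034000000100008000000000000000000000000000) := T_22 (nat_lit 161) (nat_lit 194) (nat_lit 5) (nat_lit 8) (nat_lit 7) L68290 (by decide +kernel)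
theorem L68292 : W_22 (nat_lit 2) (nat_lit 0xf000280012001a0000000000000000000000000000000) (nat_lit 0x0) (nat_lit 0x800c0000000000000000000000000000000000000000) := D_22 (nat_lit 162) (nat_lit 175) (nat_lit 163) (nat_lit 2) (nat_lit 5) (nat_lit 10) (nat_lit 2) (nat_lit 6) (nat_lit 10) (by decide +kernel)
theorem L68293 : W_22 (nat_lit 3) (nat_lit 0xe000280012001a0000000000000000000000000000000) (nat_lit 0x0) (nat_lit 0x1800c4000000000000000000000000000000000000000) := T_22 (nat_lit 176) (nat_lit 158) (nat_lit 0) (nat_lit 9) (nat_lit 10) L68292 (by decide +kernel)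
theorem L68294 : W_22 (nat_lit 4) (nat_lit 0x6000280012001a0000000000000000000000000000000) (nat_lit 0x0) (nat_lit 0x100009800c4000000000000000000000000000000000000000) := T_22 (nat_lit 179) (nat_lit 196) (nat_lit 7) (nat_lit 8) (nat_lit 7) L68293 (by decide +kernel)
theorem L68295 : W_22 (nat_lit 5) (nat_lit 0x6000280012000a0000000000000000000000000000000) (nat_lit 0x0) (nat_lit 0x100009800c4000000100008000000000000000000000000000) := T_22 (nat_lit 128) (nat_lit 111) (nat_lit 6) (nat_lit 8) (nat_lit 10) L68294 (by decide +kernel)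
theorem L68296 : W_22 (nat_lit 6) (nat_lit 0x6000080012000a0000000000000000000000000000000) (nat_lit 0x0) (nat_lit 0x140009800e4000000100008000000000000000000000000000) := T_22 (nat_lit 161) (nat_lit 194) (nat_lit 5) (nat_lit 8) (nat_lit 7) L68295 (by decide +kernel)
theorem L68297 : W_22 (nat_lit 2) (nat_lit 0xe000280012000a0000000000000000000000000000000) (nat_lit 0x0) (nat_lit 0x100014000000000000000000000000000000000000000) := D_22 (nat_lit 158) (nat_lit 160) (nat_lit 176) (nat_lit 3) (nat_lit 5) (nat_lit 9) (nat_lit 0) (nat_lit 9) (nat_lit 10) (by decide +kernel)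
theorem L68298 : W_22 (nat_lit 3) (nat_lit 0x6000280012000a0000000000000000000000000000000) (nat_lit 0x0) (nat_lit 0x10000900014000000000000000000000000000000000000000) := T_22 (nat_lit 179) (nat_lit 196) (nat_lit 7) (nat_lit 8) (nat_lit 7) L68297 (by decide +kernel)
theorem L68299 : W_22 (nat_lit 4) (nat_lit 0x6000080012000a0000000000000000000000000000000) (nat_lit 0x0) (nat_lit 0x14000900034000000000000000000000000000000000000000) := T_22 (nat_lit 161) (nat_lit 194) (nat_lit 5) (nat_lit 8) (nat_lit 7) L68298 (by decide +kernel)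
theorem L68300 : W_22 (nat_lit 2) (nat_lit 0x60002c0012000a0000000000000000000000000000000) (nat_lit 0x0) (nat_lit 0x800012000000000000000000000000000000000000000) := D_22 (nat_lit 160) (nat_lit 179) (nat_lit 157) (nat_lit 3) (nat_lit 5) (nat_lit 9) (nat_lit 3) (nat_lit 4) (nat_lit 9) (by decide +kernel)
theorem L68301 : W_22 (nat_lit 3) (nat_lit 0x60000c0012000a0000000000000000000000000000000) (nat_lit 0x0) (nat_lit 0x4000800032000000000000000000000000000000000000000) := T_22 (nat_lit 161) (nat_lit 194) (nat_lit 5) (nat_lit 8) (nat_lit 7) L68300 (by decide +kernel)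
theorem L68302 : W_22 (nat_lit 2) (nat_lit 0x70002c0012000a0000000000000000000000000000000) (nat_lit 0x0) (nat_lit 0x80042000000000000000000000000000000000000000) := D_22 (nat_lit 175) (nat_lit 157) (nat_lit 162) (nat_lit 0) (nat_lit 8) (nat_lit 10) (nat_lit 2) (nat_lit 5) (nat_lit 10) (by decide +kernel)
theorem L68303 : W_22 (nat_lit 3) (nat_lit 0x60002c0012000a0000000000000000000000000000000) (nat_lit 0x0) (nat_lit 0x980042000000000000000000000000000000000000000) := T_22 (nat_lit 176) (nat_lit 179) (nat_lit 0) (nat_lit 9) (nat_lit 10) L68302 (by decide +kernel)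
theorem L68304 : W_22 (nat_lit 4) (nat_lit 0x60000c0012000a0000000000000000000000000000000) (nat_lit 0x0) (nat_lit 0x4000980062000000000000000000000000000000000000000) := T_22 (nat_lit 161) (nat_lit 194) (nat_lit 5) (nat_lit 8) (nat_lit 7) L68303 (by decide +kernel)
theorem L68305 : W_22 (nat_lit 2) (nat_lit 0x60000e0012000a0000000000000000000000000000000) (nat_lit 0x0) (nat_lit 0x900001000000000000000000000000000000000000000) := D_22 (nat_lit 176) (nat_lit 156) (nat_lit 179) (nat_lit 3) (nat_lit 3) (nat_lit 9) (nat_lit 0) (nat_lit 9) (nat_lit 10) (by decide +kernel)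
theorem L68306 : W_22 (nat_lit 3) (nat_lit 0x60000c0012000a0000000000000000000000000000000) (nat_lit 0x0) (nat_lit 0x900013000000000000000000000000000000000000000) := T_22 (nat_lit 157) (nat_lit 160) (nat_lit 3) (nat_lit 4) (nat_lit 9) L68305 (by decide +kernel)
theorem L68307 : W_22 (nat_lit 2) (nat_lit 0xe0000c0012000a0000000000000000000000000000000) (nat_lit 0x0) (nat_lit 0x4000000030000000000000000000000000000000000000000) := D_22 (nat_lit 161) (nat_lit 194) (nat_lit 160) (nat_lit 5) (nat_lit 8) (nat_lit 7) (nat_lit 3) (nat_lit 5) (nat_lit 9) (by decide +kernel)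
theorem L68308 : W_22 (nat_lit 3) (nat_lit 0x60000c0012000a0000000000000000000000000000000) (nat_lit 0x0) (nat_lit 0x4000900030000000000000000000000000000000000000000) := T_22 (nat_lit 179) (nat_lit 176) (nat_lit 0) (nat_lit 9) (nat_lit 10) L68307 (by decide +kernel)
theorem L68309 : W_22 (nat_lit 2) (nat_lit 0x60002c0012000a0000000000000000000000000000000) (nat_lit 0x0) (nat_lit 0x12000100000000000000000000000000000000000) := D_22 (nat_lit 160) (nat_lit 140) (nat_lit 157) (nat_lit 0) (nat_lit 8) (nat_lit 9) (nat_lit 3) (nat_lit 4) (nat_lit 9) (by decide +kernel)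
theorem L68310 : W_22 (nat_lit 3) (nat_lit 0x60000c0012000a0000000000000000000000000000000) (nat_lit 0x0) (nat_lit 0x4000000032000100000000000000000000000000000000000) := T_22 (nat_lit 161) (nat_lit 194) (nat_lit 5) (nat_lit 8) (nat_lit 7) L68309 (by decide +kernel)
theorem L68311 : W_22 (nat_lit 5) (nat_lit 0x6000080012000a0000000000000000000000000000000) (nat_lit 0x0) (nat_lit 0x4000980077000100000000000000000000000000000000000) := Q_22 (nat_lit 158) (C_22 L68301 (C_22 L68304 (C_22 L68306 (C_22 L68308 (C_22 L68310 N_22))))) (by decide +kernel)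
theorem L68312 : W_22 (nat_lit 2) (nat_lit 0x40001e000e80012001a0000000000000000000000000000000) (nat_lit 0x0) (nat_lit 0x80006000000000000000000000000000000000000000000000) := D_22 (nat_lit 181) (nat_lit 199) (nat_lit 182) (nat_lit 3) (nat_lit 8) (nat_lit 10) (nat_lit 0) (nat_lit 12) (nat_lit 10) (by decide +kernel)
theorem L68313 : W_22 (nat_lit 3) (nat_lit 0x40001e000a80012001a0000000000000000000000000000000) (nat_lit 0x0) (nat_lit 0x80006100040000000000000000000000000000000000000000) := T_22 (nat_lit 162) (nat_lit 176) (nat_lit 2) (nat_lit 6) (nat_lit 10) L68312 (by decide +kernel)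
theorem L68314 : W_22 (nat_lit 4) (nat_lit 0x40001e000280012001a0000000000000000000000000000000) (nat_lit 0x0) (nat_lit 0x800061001c0000000000000000000000000000000000000000) := T_22 (nat_lit 163) (nat_lit 164) (nat_lit 2) (nat_lit 7) (nat_lit 10) L68313 (by decide +kernel)
theorem L68315 : W_22 (nat_lit 5) (nat_lit 0x1e000280012001a0000000000000000000000000000000) (nat_lit 0x0) (nat_lit 0xe00061001c0000000000000000000000000000000000000000) := T_22 (nat_lit 198) (nat_lit 197) (nat_lit 3) (nat_lit 7) (nat_lit 10) L68314 (by decide +kernel)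
theorem L68316 : W_22 (nat_lit 6) (nat_lit 0xe000280012001a0000000000000000000000000000000) (nat_lit 0x0) (nat_lit 0xe00071001d0000000000000000000000000000000000000000) := T_22 (nat_lit 180) (nat_lit 160) (nat_lit 0) (nat_lit 10) (nat_lit 10) L68315 (by decide +kernel)
theorem L68317 : W_22 (nat_lit 7) (nat_lit 0x6000280012001a0000000000000000000000000000000) (nat_lit 0x0) (nat_lit 0xf00079001d0000000000000000000000000000000000000000) := T_22 (nat_lit 179) (nat_lit 196) (nat_lit 7) (nat_lit 8) (nat_lit 7) L68316 (by decide +kernel)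
theorem L68318 : W_22 (nat_lit 8) (nat_lit 0x6000280012000a0000000000000000000000000000000) (nat_lit 0x0) (nat_lit 0xf00079001d0000000100008000000000000000000000000000) := T_22 (nat_lit 128) (nat_lit 111) (nat_lit 6) (nat_lit 8) (nat_lit 10) L68317 (by decide +kernel)
theorem L68319 : W_22 (nat_lit 9) (nat_lit 0x6000080012000a0000000000000000000000000000000) (nat_lit 0x0) (nat_lit 0xf40079001f0000000100008000000000000000000000000000) := T_22 (nat_lit 161) (nat_lit 194) (nat_lit 5) (nat_lit 8) (nat_lit 7) L68318 (by decide +kernel)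
theorem L68320 : W_22 (nat_lit 2) (nat_lit 0x68000e0012000b0000000000000000000000000000000) (nat_lit 0x0) (nat_lit 0x800040000000000000000800000000000000000000000000) := D_22 (nat_lit 174) (nat_lit 191) (nat_lit 107) (nat_lit 5) (nat_lit 5) (nat_lit 7) (nat_lit 5) (nat_lit 5) (nat_lit 6) (by decide +kernel)
theorem L68321 : W_22 (nat_lit 3) (nat_lit 0x60000e0012000b0000000000000000000000000000000) (nat_lit 0x0) (nat_lit 0x8000c0000000000000001800000000000000000000000000) := T_22 (nat_lit 175) (nat_lit 108) (nat_lit 6) (nat_lit 5) (nat_lit 10) L68320 (by decide +kernel)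
theorem L68322 : W_22 (nat_lit 4) (nat_lit 0x60000c0012000b0000000000000000000000000000000) (nat_lit 0x0) (nat_lit 0x8000c0012000000000001800000000000000000000000000) := T_22 (nat_lit 157) (nat_lit 160) (nat_lit 3) (nat_lit 4) (nat_lit 9) L68321 (by decide +kernel)
theorem L68323 : W_22 (nat_lit 2) (nat_lit 0x6c000c0012000b0000800000000000000000000000000) (nat_lit 0x0) (nat_lit 0x8000400020000000000000000000000) := D_22 (nat_lit 106) (nat_lit 89) (nat_lit 123) (nat_lit 4) (nat_lit 5) (nat_lit 9) (nat_lit 4) (nat_lit 5) (nat_lit 10) (by decide +kernel)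
theorem L68324 : W_22 (nat_lit 3) (nat_lit 0x6c000c0012000b0000000000000000000000000000000) (nat_lit 0x0) (nat_lit 0x2000000008000c00020000000000000000000000) := T_22 (nat_lit 107) (nat_lit 157) (nat_lit 5) (nat_lit 5) (nat_lit 6) L68323 (by decide +kernel)
theorem L68325 : W_22 (nat_lit 4) (nat_lit 0x68000c0012000b0000000000000000000000000000000) (nat_lit 0x0) (nat_lit 0x800040002000000008000c00020000000000000000000000) := T_22 (nat_lit 174) (nat_lit 191) (nat_lit 5) (nat_lit 5) (nat_lit 7) L68324 (by decide +kernel)
theorem L68326 : W_22 (nat_lit 5) (nat_lit 0x60000c0012000b0000000000000000000000000000000) (nat_lit 0x0) (nat_lit 0x8000c0002000000008001c00020000000000000000000000) := T_22 (nat_lit 175) (nat_lit 108) (nat_lit 6) (nat_lit 5) (nat_lit 10) L68325 (by decide +kernel)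
theorem L68327 : W_22 (nat_lit 2) (nat_lit 0x60000e0012000b0000800040000000000000000000000) (nat_lit 0x0) (nat_lit 0x400020001000000000000000000) := D_22 (nat_lit 89) (nat_lit 72) (nat_lit 106) (nat_lit 4) (nat_lit 5) (nat_lit 8) (nat_lit 4) (nat_lit 5) (nat_lit 9) (by decide +kernel)
theorem L68328 : W_22 (nat_lit 3) (nat_lit 0x60000e0012000b0000800000000000000000000000000) (nat_lit 0x0) (nat_lit 0x100000000400060001000000000000000000) := T_22 (nat_lit 90) (nat_lit 140) (nat_lit 5) (nat_lit 5) (nat_lit 5) L68327 (by decide +kernel)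
theorem L68329 : W_22 (nat_lit 4) (nat_lit 0x60000e0012000b0000000000000000000000000000000) (nat_lit 0x0) (nat_lit 0x40000000100000000c00060001000000000000000000) := T_22 (nat_lit 107) (nat_lit 174) (nat_lit 5) (nat_lit 5) (nat_lit 6) L68328 (by decide +kernel)
theorem L68330 : W_22 (nat_lit 5) (nat_lit 0x60000c0012000b0000000000000000000000000000000) (nat_lit 0x0) (nat_lit 0x40012000100000000c00060001000000000000000000) := T_22 (nat_lit 157) (nat_lit 160) (nat_lit 3) (nat_lit 4) (nat_lit 9) L68329 (by decide +kernel)
theorem L68331 : W_22 (nat_lit 2) (nat_lit 0x80068000c0012000b8000000000000000000000000000000) (nat_lit 0x0) (nat_lit 0x10001000000000000100000000000000000000000000000000000) := D_22 (nat_lit 192) (nat_lit 208) (nat_lit 140) (nat_lit 5) (nat_lit 5) (nat_lit 8) (nat_lit 4) (nat_lit 5) (nat_lit 11) (by decide +kernel)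
theorem L68332 : W_22 (nat_lit 3) (nat_lit 0x80068000c0012000b0000000000000000000000000000000) (nat_lit 0x0) (nat_lit 0x10001000000000000100008000400000000000000000000000000) := T_22 (nat_lit 123) (nat_lit 106) (nat_lit 4) (nat_lit 5) (nat_lit 10) L68331 (by decide +kernel)
theorem L68333 : W_22 (nat_lit 4) (nat_lit 0x68000c0012000b0000000000000000000000000000000) (nat_lit 0x0) (nat_lit 0x10001800040000000100008000400000000000000000000000000) := T_22 (nat_lit 191) (nat_lit 174) (nat_lit 5) (nat_lit 5) (nat_lit 7) L68332 (by decide +kernel)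
theorem L68334 : W_22 (nat_lit 5) (nat_lit 0x60000c0012000b0000000000000000000000000000000) (nat_lit 0x0) (nat_lit 0x100018000c0000000100008001400000000000000000000000000) := T_22 (nat_lit 175) (nat_lit 108) (nat_lit 6) (nat_lit 5) (nat_lit 10) L68333 (by decide +kernel)
theorem L68335 : W_22 (nat_lit 2) (nat_lit 0x60000c0012000b0001000000000000000000000000000) (nat_lit 0x0) (nat_lit 0x800080004000000000000000000) := D_22 (nat_lit 91) (nat_lit 107) (nat_lit 74) (nat_lit 6) (nat_lit 5) (nat_lit 9) (nat_lit 5) (nat_lit 6) (nat_lit 4) (by decide +kernel)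
theorem L68336 : W_22 (nat_lit 3) (nat_lit 0x60000c0012000b0000000000000000000000000000000) (nat_lit 0x0) (nat_lit 0x80000000000000001800080004000000000000000000) := T_22 (nat_lit 108) (nat_lit 175) (nat_lit 6) (nat_lit 5) (nat_lit 10) L68335 (by decide +kernel)
theorem L68337 : W_22 (nat_lit 6) (nat_lit 0x60000c0012000a0000000000000000000000000000000) (nat_lit 0x0) (nat_lit 0x100018000c0012000100018001c000e0005000000000000000000) := Q_22 (nat_lit 124) (C_22 L68322 (C_22 L68326 (C_22 L68330 (C_22 L68334 (C_22 L68336 N_22))))) (by decide +kernel)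
theorem L68338 : W_22 (nat_lit 2) (nat_lit 0x70000c0012000a0000000000000000000000000000000) (nat_lit 0x0) (nat_lit 0x80003000000000000000000000000000000000000000) := D_22 (nat_lit 157) (nat_lit 175) (nat_lit 156) (nat_lit 0) (nat_lit 8) (nat_lit 10) (nat_lit 3) (nat_lit 3) (nat_lit 9) (by decide +kernel)
theorem L68339 : W_22 (nat_lit 3) (nat_lit 0x60000c0012000a0000000000000000000000000000000) (nat_lit 0x0) (nat_lit 0x980003000000000000000000000000000000000000000) := T_22 (nat_lit 176) (nat_lit 179) (nat_lit 0) (nat_lit 9) (nat_lit 10) L68338 (by decide +kernel)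
theorem L68340 : W_22 (nat_lit 2) (nat_lit 0x4800fe0008c0012002a0000000000000000000000000000000) (nat_lit 0x0) (nat_lit 0xe00000000000000000000000000000000000000000) := D_22 (nat_lit 166) (nat_lit 165) (nat_lit 167) (nat_lit 2) (nat_lit 9) (nat_lit 10) (nat_lit 2) (nat_lit 10) (nat_lit 10) (by decide +kernel)
theorem L68341 : W_22 (nat_lit 3) (nat_lit 0x48007e0008c0012002a0000000000000000000000000000000) (nat_lit 0x0) (nat_lit 0x8000e40000000000000000000000000000000000000000) := T_22 (nat_lit 183) (nat_lit 162) (nat_lit 0) (nat_lit 13) (nat_lit 10) L68340 (by decide +kernel)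
theorem L68342 : W_22 (nat_lit 4) (nat_lit 0x48003e0008c0012002a0000000000000000000000000000000) (nat_lit 0x0) (nat_lit 0x1000c000e40000000000000000000000000000000000000000) := T_22 (nat_lit 182) (nat_lit 196) (nat_lit 1) (nat_lit 12) (nat_lit 10) L68341 (by decide +kernel)
theorem L68343 : W_22 (nat_lit 5) (nat_lit 0x48003e0008c0012000a0000000000000000000000000000000) (nat_lit 0x0) (nat_lit 0x1000c000e40004000200000000000000000000000000000000) := T_22 (nat_lit 129) (nat_lit 146) (nat_lit 7) (nat_lit 10) (nat_lit 7) L68342 (by decide +kernel)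
theorem L68344 : W_22 (nat_lit 6) (nat_lit 0x40003e0008c0012000a0000000000000000000000000000000) (nat_lit 0x0) (nat_lit 0x1c00c000e40004000200000000000000000000000000000000) := T_22 (nat_lit 195) (nat_lit 194) (nat_lit 1) (nat_lit 11) (nat_lit 10) L68343 (by decide +kernel)
theorem L68345 : W_22 (nat_lit 7) (nat_lit 0x40001e0008c0012000a0000000000000000000000000000000) (nat_lit 0x0) (nat_lit 0x9c00e000e40004000200000000000000000000000000000000) := T_22 (nat_lit 181) (nat_lit 199) (nat_lit 3) (nat_lit 8) (nat_lit 10) L68344 (by decide +kernel)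
theorem L68346 : W_22 (nat_lit 8) (nat_lit 0x1e0008c0012000a0000000000000000000000000000000) (nat_lit 0x0) (nat_lit 0xfc00e000e40004000200000000000000000000000000000000) := T_22 (nat_lit 198) (nat_lit 197) (nat_lit 3) (nat_lit 7) (nat_lit 10) L68345 (by decide +kernel)
theorem L68347 : W_22 (nat_lit 9) (nat_lit 0x1e0000c0012000a0000000000000000000000000000000) (nat_lit 0x0) (nat_lit 0xfc00e000fc0004000200000000000000000000000000000000) := T_22 (nat_lit 163) (nat_lit 164) (nat_lit 2) (nat_lit 7) (nat_lit 10) L68346 (by decide +kernel)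
theorem L68348 : W_22 (nat_lit 10) (nat_lit 0xe0000c0012000a0000000000000000000000000000000) (nat_lit 0x0) (nat_lit 0xfc00f000fd0004000200000000000000000000000000000000) := T_22 (nat_lit 180) (nat_lit 160) (nat_lit 0) (nat_lit 10) (nat_lit 10) L68347 (by decide +kernel)
theorem L68349 : W_22 (nat_lit 11) (nat_lit 0x60000c0012000a0000000000000000000000000000000) (nat_lit 0x0) (nat_lit 0xfc00f900fd0004000200000000000000000000000000000000) := T_22 (nat_lit 179) (nat_lit 176) (nat_lit 0) (nat_lit 9) (nat_lit 10) L68348 (by decide +kernel)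
theorem L68350 : W_22 (nat_lit 12) (nat_lit 0x6000080012000a0000000000000000000000000000000) (nat_lit 0x0) (nat_lit 0x100fd80f9c0fd7004100218001c000e0005000000000000000000) := Q_22 (nat_lit 158) (C_22 L68306 (C_22 L68337 (C_22 L68339 (C_22 L68349 N_22)))) (by decide +kernel)
theorem L68351 : W_22 (nat_lit 3) (nat_lit 0xe000080012000a0000000000000000000000000000000) (nat_lit 0x0) (nat_lit 0x30000100024000000000000000000000000000000000000000) := T_22 (nat_lit 176) (nat_lit 158) (nat_lit 0) (nat_lit 9) (nat_lit 10) L68249 (by decide +kernel)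
theorem L68352 : W_22 (nat_lit 2) (nat_lit 0xe000280012000a0000000000000000000000000000000) (nat_lit 0x0) (nat_lit 0x1000014000000000000000000000000000000000000000) := D_22 (nat_lit 160) (nat_lit 180) (nat_lit 158) (nat_lit 0) (nat_lit 10) (nat_lit 10) (nat_lit 3) (nat_lit 5) (nat_lit 9) (by decide +kernel)
theorem L68353 : W_22 (nat_lit 3) (nat_lit 0xe000080012000a0000000000000000000000000000000) (nat_lit 0x0) (nat_lit 0x10001000034000000000000000000000000000000000000000) := T_22 (nat_lit 161) (nat_lit 196) (nat_lit 7) (nat_lit 8) (nat_lit 7) L68352 (by decide +kernel)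
theorem L68354 : W_22 (nat_lit 2) (nat_lit 0x1f000080012000a0000000000000000000000000000000) (nat_lit 0x0) (nat_lit 0x1c0000000000000000000000000000000000000000) := D_22 (nat_lit 163) (nat_lit 164) (nat_lit 162) (nat_lit 2) (nat_lit 7) (nat_lit 10) (nat_lit 2) (nat_lit 6) (nat_lit 10) (by decide +kernel)
theorem L68355 : W_22 (nat_lit 3) (nat_lit 0x1e000080012000a0000000000000000000000000000000) (nat_lit 0x0) (nat_lit 0x1001c4000000000000000000000000000000000000000) := T_22 (nat_lit 176) (nat_lit 158) (nat_lit 0) (nat_lit 9) (nat_lit 10) L68354 (by decide +kernel)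
theorem L68356 : W_22 (nat_lit 4) (nat_lit 0xe000080012000a0000000000000000000000000000000) (nat_lit 0x0) (nat_lit 0x11001d4000000000000000000000000000000000000000) := T_22 (nat_lit 180) (nat_lit 160) (nat_lit 0) (nat_lit 10) (nat_lit 10) L68355 (by decide +kernel)
theorem L68357 : W_22 (nat_lit 7) (nat_lit 0xe000280012000a0000000000000000000000000000000) (nat_lit 0x0) (nat_lit 0xe00071001d0000000100008000000000000000000000000000) := T_22 (nat_lit 128) (nat_lit 111) (nat_lit 6) (nat_lit 8) (nat_lit 10) L68316 (by decide +kernel)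
theorem L68358 : W_22 (nat_lit 8) (nat_lit 0xe000080012000a0000000000000000000000000000000) (nat_lit 0x0) (nat_lit 0xf00071001f0000000100008000000000000000000000000000) := T_22 (nat_lit 161) (nat_lit 196) (nat_lit 7) (nat_lit 8) (nat_lit 7) L68357 (by decide +kernel)
theorem L68359 : W_22 (nat_lit 9) (nat_lit 0x6000080012000a0000000000000000000000000000000) (nat_lit 0x0) (nat_lit 0xf00079001f4000000100008000000000000000000000000000) := Q_22 (nat_lit 179) (C_22 L68351 (C_22 L68353 (C_22 L68356 (C_22 L68358 N_22)))) (by decide +kernel)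
theorem L68360 : W_22 (nat_lit 2) (nat_lit 0x68002c0012000a0000000000000000000000000000000) (nat_lit 0x0) (nat_lit 0x100042000000000000000000000000000000000000000) := D_22 (nat_lit 176) (nat_lit 162) (nat_lit 157) (nat_lit 2) (nat_lit 5) (nat_lit 10) (nat_lit 0) (nat_lit 8) (nat_lit 10) (by decide +kernel)
theorem L68361 : W_22 (nat_lit 3) (nat_lit 0x68000c0012000a0000000000000000000000000000000) (nat_lit 0x0) (nat_lit 0x4000100062000000000000000000000000000000000000000) := T_22 (nat_lit 161) (nat_lit 194) (nat_lit 5) (nat_lit 8) (nat_lit 7) L68360 (by decide +kernel)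
theorem L68362 : W_22 (nat_lit 2) (nat_lit 0x6c002c0012000b0000800000000000000000000000000) (nat_lit 0x0) (nat_lit 0x8000400020000000000000000000000) := D_22 (nat_lit 106) (nat_lit 89) (nat_lit 123) (nat_lit 4) (nat_lit 5) (nat_lit 9) (nat_lit 4) (nat_lit 5) (nat_lit 10) (by decide +kernel)
theorem L68363 : W_22 (nat_lit 3) (nat_lit 0x6c002c0012000b0000000000000000000000000000000) (nat_lit 0x0) (nat_lit 0x2000000008000c00020000000000000000000000) := T_22 (nat_lit 107) (nat_lit 157) (nat_lit 5) (nat_lit 5) (nat_lit 6) L68362 (by decide +kernel)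
theorem L68364 : W_22 (nat_lit 4) (nat_lit 0x68002c0012000b0000000000000000000000000000000) (nat_lit 0x0) (nat_lit 0x800040002000000008000c00020000000000000000000000) := T_22 (nat_lit 174) (nat_lit 191) (nat_lit 5) (nat_lit 5) (nat_lit 7) L68363 (by decide +kernel)
theorem L68365 : W_22 (nat_lit 5) (nat_lit 0x68002c0012000a0000000000000000000000000000000) (nat_lit 0x0) (nat_lit 0x800040002000000018001c00020000000000000000000000) := T_22 (nat_lit 124) (nat_lit 108) (nat_lit 6) (nat_lit 5) (nat_lit 10) L68364 (by decide +kernel)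
theorem L68366 : W_22 (nat_lit 6) (nat_lit 0x68000c0012000a0000000000000000000000000000000) (nat_lit 0x0) (nat_lit 0x4800040022000000018001c00020000000000000000000000) := T_22 (nat_lit 161) (nat_lit 194) (nat_lit 5) (nat_lit 8) (nat_lit 7) L68365 (by decide +kernel)
theorem L68367 : W_22 (nat_lit 2) (nat_lit 0x78000c0012000a0000000000000000000000000000000) (nat_lit 0x0) (nat_lit 0x10001800000000000000000000000000) := D_22 (nat_lit 124) (nat_lit 108) (nat_lit 107) (nat_lit 6) (nat_lit 5) (nat_lit 10) (nat_lit 7) (nat_lit 5) (nat_lit 6) (by decide +kernel)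
theorem L68368 : W_22 (nat_lit 3) (nat_lit 0x68000c0012000a0000000000000000000000000000000) (nat_lit 0x0) (nat_lit 0x100002000000010001800000000000000000000000000) := T_22 (nat_lit 176) (nat_lit 157) (nat_lit 0) (nat_lit 8) (nat_lit 10) L68367 (by decide +kernel)
theorem L68369 : W_22 (nat_lit 5) (nat_lit 0x68000c0012000a0000000000000000000000000000000) (nat_lit 0x0) (nat_lit 0x10001800040000000100018001400000000000000000000000000) := T_22 (nat_lit 124) (nat_lit 108) (nat_lit 6) (nat_lit 5) (nat_lit 10) L68333 (by decide +kernel)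
theorem L68370 : W_22 (nat_lit 7) (nat_lit 0x60000c0012000a0000000000000000000000000000000) (nat_lit 0x0) (nat_lit 0x100058001c0062000100018001c00020000000000000000000000) := Q_22 (nat_lit 175) (C_22 L68361 (C_22 L68366 (C_22 L68368 (C_22 L68369 N_22)))) (by decide +kernel)
theorem L68371 : W_22 (nat_lit 2) (nat_lit 0x78003c0012001a0000000000000000000000000000000) (nat_lit 0x0) (nat_lit 0x10001800000000000000000000000000) := D_22 (nat_lit 124) (nat_lit 108) (nat_lit 107) (nat_lit 6) (nat_lit 5) (nat_lit 10) (nat_lit 7) (nat_lit 5) (nat_lit 6) (by decide +kernel)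
theorem L68372 : W_22 (nat_lit 3) (nat_lit 0x68003c0012001a0000000000000000000000000000000) (nat_lit 0x0) (nat_lit 0x100040000000010001800000000000000000000000000) := T_22 (nat_lit 176) (nat_lit 162) (nat_lit 2) (nat_lit 5) (nat_lit 10) L68371 (by decide +kernel)
theorem L68373 : W_22 (nat_lit 4) (nat_lit 0x60003c0012001a0000000000000000000000000000000) (nat_lit 0x0) (nat_lit 0x1c0040000000010001800000000000000000000000000) := T_22 (nat_lit 175) (nat_lit 174) (nat_lit 1) (nat_lit 8) (nat_lit 9) L68372 (by decide +kernel)
theorem L68374 : W_22 (nat_lit 5) (nat_lit 0x60003c0012000a0000000000000000000000000000000) (nat_lit 0x0) (nat_lit 0x1c0040000000110009800000000000000000000000000) := T_22 (nat_lit 128) (nat_lit 111) (nat_lit 6) (nat_lit 8) (nat_lit 10) L68373 (by decide +kernel)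
theorem L68375 : W_22 (nat_lit 6) (nat_lit 0x60002c0012000a0000000000000000000000000000000) (nat_lit 0x0) (nat_lit 0x1c0050000100110009800000000000000000000000000) := T_22 (nat_lit 160) (nat_lit 140) (nat_lit 0) (nat_lit 8) (nat_lit 9) L68374 (by decide +kernel)
theorem L68376 : W_22 (nat_lit 7) (nat_lit 0x60000c0012000a0000000000000000000000000000000) (nat_lit 0x0) (nat_lit 0x40001c0070000100110009800000000000000000000000000) := T_22 (nat_lit 161) (nat_lit 194) (nat_lit 5) (nat_lit 8) (nat_lit 7) L68375 (by decide +kernel)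
theorem L68377 : W_22 (nat_lit 2) (nat_lit 0x60002e0012000a0000000000000000000000000000000) (nat_lit 0x0) (nat_lit 0x180001000000000000000000000000000000000000000) := D_22 (nat_lit 176) (nat_lit 156) (nat_lit 175) (nat_lit 3) (nat_lit 3) (nat_lit 9) (nat_lit 0) (nat_lit 8) (nat_lit 10) (by decide +kernel)
theorem L68378 : W_22 (nat_lit 3) (nat_lit 0x60002c0012000a0000000000000000000000000000000) (nat_lit 0x0) (nat_lit 0x180013000000000000000000000000000000000000000) := T_22 (nat_lit 157) (nat_lit 160) (nat_lit 3) (nat_lit 4) (nat_lit 9) L68377 (by decide +kernel)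
theorem L68379 : W_22 (nat_lit 4) (nat_lit 0x60000c0012000a0000000000000000000000000000000) (nat_lit 0x0) (nat_lit 0x4000180033000000000000000000000000000000000000000) := T_22 (nat_lit 161) (nat_lit 194) (nat_lit 5) (nat_lit 8) (nat_lit 7) L68378 (by decide +kernel)
theorem L68380 : W_22 (nat_lit 8) (nat_lit 0x6000080012000a0000000000000000000000000000000) (nat_lit 0x0) (nat_lit 0x100058001c0077000100118009c000e0005000000000000000000) := Q_22 (nat_lit 158) (C_22 L68310 (C_22 L68337 (C_22 L68370 (C_22 L68376 (C_22 L68379 N_22))))) (by decide +kernel)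
theorem L68381 : W_22 (nat_lit 13) (nat_lit 0x2000080012000a0000000000000000000000000000000) (nat_lit 0x0) (nat_lit 0x100fd80fdc0ff7004100318009c000e0005000000000000000000) := Q_22 (nat_lit 178) (C_22 L68291 (C_22 L68296 (C_22 L68299 (C_22 L68311 (C_22 L68319 (C_22 L68350 (C_22 L68359 (C_22 L68380 N_22)))))))) (by decide +kernel)
theorem L68382 : W_22 (nat_lit 9) (nat_lit 0x2000080012000a0000000000000000000000000000000) (nat_lit 0x0) (nat_lit 0x800050001800740005800100038001c000e000100000000000000) := Q_22 (nat_lit 142) (C_22 L68180 (C_22 L68194 (C_22 L62607 (C_22 L62613 N_22)))) (by decide +kernel)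
theorem L68383 : W_22 (nat_lit 7) (nat_lit 0x2000080016000a0000000000000000000000000000000) (nat_lit 0x0) (nat_lit 0x50001800040000000000038001c000a000000000000000000) := T_22 (nat_lit 176) (nat_lit 194) (nat_lit 7) (nat_lit 6) (nat_lit 7) L39106 (by decide +kernel)
theorem L68384 : W_22 (nat_lit 8) (nat_lit 0x2000080012000a0000000000000000000000000000000) (nat_lit 0x0) (nat_lit 0x800050001800740005800000038001c000a000000000000000000) := Q_22 (nat_lit 142) (C_22 L68180 (C_22 L68383 (C_22 L62613 N_22))) (by decide +kernel)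
theorem L68385 : W_22 (nat_lit 2) (nat_lit 0x7c00280012000a0000000000000000000000000000000) (nat_lit 0x0) (nat_lit 0x1c00000000000000000000000000000000000000000000000) := D_22 (nat_lit 191) (nat_lit 190) (nat_lit 192) (nat_lit 1) (nat_lit 7) (nat_lit 10) (nat_lit 1) (nat_lit 8) (nat_lit 10) (by decide +kernel)
theorem L68386 : W_22 (nat_lit 3) (nat_lit 0x7800280012000a0000000000000000000000000000000) (nat_lit 0x0) (nat_lit 0x1c00040010000000000000000000000000000000000000000) := T_22 (nat_lit 174) (nat_lit 160) (nat_lit 2) (nat_lit 4) (nat_lit 10) L68385 (by decide +kernel)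
theorem L68387 : W_22 (nat_lit 4) (nat_lit 0x7000280012000a0000000000000000000000000000000) (nat_lit 0x0) (nat_lit 0x1c000c0050000000000000000000000000000000000000000) := T_22 (nat_lit 175) (nat_lit 162) (nat_lit 2) (nat_lit 5) (nat_lit 10) L68386 (by decide +kernel)
theorem L68388 : W_22 (nat_lit 5) (nat_lit 0x7000080012000a0000000000000000000000000000000) (nat_lit 0x0) (nat_lit 0x5c000c0070000000000000000000000000000000000000000) := T_22 (nat_lit 161) (nat_lit 194) (nat_lit 5) (nat_lit 8) (nat_lit 7) L68387 (by decide +kernel)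
theorem L68389 : W_22 (nat_lit 8) (nat_lit 0x3000080012000a0000000000000000000000000000000) (nat_lit 0x0) (nat_lit 0x3dc07cc01f6000000000000000000000000000000000000000) := Q_22 (nat_lit 178) (C_22 L68250 (C_22 L68239 (C_22 L68242 (C_22 L68248 (C_22 L68388 N_22))))) (by decide +kernel)
theorem L68390 : W_22 (nat_lit 2) (nat_lit 0x1f000400034001e0012000a0000800000000000000000000000000) (nat_lit 0x0) (nat_lit 0x700000000000000000000000000000000000000000000000000000000) := D_22 (nat_lit 225) (nat_lit 226) (nat_lit 224) (nat_lit 1) (nat_lit 8) (nat_lit 12) (nat_lit 1) (nat_lit 7) (nat_lit 12) (by decide +kernel)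
theorem L68391 : W_22 (nat_lit 3) (nat_lit 0x1d000400034001e0012000a0000800000000000000000000000000) (nat_lit 0x0) (nat_lit 0x700020008000000000000000000000000000000000000000000000000) := T_22 (nat_lit 209) (nat_lit 195) (nat_lit 2) (nat_lit 4) (nat_lit 12) L68390 (by decide +kernel)
theorem L68392 : W_22 (nat_lit 4) (nat_lit 0x1c000400034001e0012000a0000800000000000000000000000000) (nat_lit 0x0) (nat_lit 0x700030008800000000000000000000000000000000000000000000000) := T_22 (nat_lit 208) (nat_lit 191) (nat_lit 6) (nat_lit 4) (nat_lit 12) L68391 (by decide +kernel)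
theorem L68393 : W_22 (nat_lit 5) (nat_lit 0xc000400034001e0012000a0000800000000000000000000000000) (nat_lit 0x0) (nat_lit 0x2700130008800000000000000000000000000000000000000000000000) := T_22 (nat_lit 212) (nat_lit 229) (nat_lit 7) (nat_lit 7) (nat_lit 9) L68392 (by decide +kernel)
theorem L68394 : W_22 (nat_lit 6) (nat_lit 0xc000400030001e0012000a0000800000000000000000000000000) (nat_lit 0x0) (nat_lit 0x2700130008800060000000000000000000000000000000000000000000) := T_22 (nat_lit 174) (nat_lit 173) (nat_lit 1) (nat_lit 7) (nat_lit 9) L68393 (by decide +kernel)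
theorem L68395 : W_22 (nat_lit 7) (nat_lit 0x8000400030001e0012000a0000800000000000000000000000000) (nat_lit 0x0) (nat_lit 0x2f00170008800060000000000000000000000000000000000000000000) := T_22 (nat_lit 210) (nat_lit 227) (nat_lit 5) (nat_lit 7) (nat_lit 9) L68394 (by decide +kernel)
theorem L68396 : W_22 (nat_lit 8) (nat_lit 0x8000400030000e0012000a0000800000000000000000000000000) (nat_lit 0x0) (nat_lit 0x2f00170008800060030000000000000000000000000000000000000000) := T_22 (nat_lit 160) (nat_lit 161) (nat_lit 6) (nat_lit 7) (nat_lit 12) L68395 (by decide +kernel)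
theorem L68397 : W_22 (nat_lit 9) (nat_lit 0x8000400030000c0012000a0000800000000000000000000000000) (nat_lit 0x0) (nat_lit 0x2f00170008800060033000000000000000000000000000000000000000) := T_22 (nat_lit 157) (nat_lit 156) (nat_lit 3) (nat_lit 3) (nat_lit 9) L68396 (by decide +kernel)
theorem L68398 : W_22 (nat_lit 10) (nat_lit 0x400030000c0012000a0000800000000000000000000000000) (nat_lit 0x0) (nat_lit 0x3f001f0008800060033000000000000000000000000000000000000000) := T_22 (nat_lit 211) (nat_lit 228) (nat_lit 4) (nat_lit 7) (nat_lit 13) L68397 (by decide +kernel)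
theorem L68399 : W_22 (nat_lit 11) (nat_lit 0x400030000c0012000a0000000000000000000000000000000) (nat_lit 0x0) (nat_lit 0x3f001f0008800060033000000010000800000000000000000000000000) := T_22 (nat_lit 107) (nat_lit 124) (nat_lit 7) (nat_lit 5) (nat_lit 6) L68398 (by decide +kernel)
theorem L68400 : W_22 (nat_lit 12) (nat_lit 0x30000c0012000a0000000000000000000000000000000) (nat_lit 0x0) (nat_lit 0x3f001f000c800060033000400010000800000000000000000000000000) := T_22 (nat_lit 194) (nat_lit 142) (nat_lit 7) (nat_lit 6) (nat_lit 7) L68399 (by decide +kernel)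
theorem L68401 : W_22 (nat_lit 2) (nat_lit 0x1c00040003c001e0012000a0000000000000000000000000000000) (nat_lit 0x0) (nat_lit 0x10000c00000000000000000000000000000000000000000000000) := D_22 (nat_lit 191) (nat_lit 190) (nat_lit 208) (nat_lit 1) (nat_lit 7) (nat_lit 10) (nat_lit 6) (nat_lit 4) (nat_lit 12) (by decide +kernel)
theorem L68402 : W_22 (nat_lit 3) (nat_lit 0x1c000400034001e0012000a0000000000000000000000000000000) (nat_lit 0x0) (nat_lit 0x10008c00080000000000000000000000000000000000000000000) := T_22 (nat_lit 175) (nat_lit 195) (nat_lit 3) (nat_lit 4) (nat_lit 10) L68401 (by decide +kernel)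
theorem L68403 : W_22 (nat_lit 4) (nat_lit 0xc000400034001e0012000a0000000000000000000000000000000) (nat_lit 0x0) (nat_lit 0x2000110008c00080000000000000000000000000000000000000000000) := T_22 (nat_lit 212) (nat_lit 229) (nat_lit 7) (nat_lit 7) (nat_lit 9) L68402 (by decide +kernel)
theorem L68404 : W_22 (nat_lit 5) (nat_lit 0xc000400030001e0012000a0000000000000000000000000000000) (nat_lit 0x0) (nat_lit 0x2000110008c000e0000000000000000000000000000000000000000000) := T_22 (nat_lit 174) (nat_lit 173) (nat_lit 1) (nat_lit 7) (nat_lit 9) L68403 (by decide +kernel)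
theorem L68405 : W_22 (nat_lit 6) (nat_lit 0x8000400030001e0012000a0000000000000000000000000000000) (nat_lit 0x0) (nat_lit 0x2800150008c000e0000000000000000000000000000000000000000000) := T_22 (nat_lit 210) (nat_lit 227) (nat_lit 5) (nat_lit 7) (nat_lit 9) L68404 (by decide +kernel)
theorem L68406 : W_22 (nat_lit 7) (nat_lit 0x8000400030000e0012000a0000000000000000000000000000000) (nat_lit 0x0) (nat_lit 0x2800150008c000e0030000000000000000000000000000000000000000) := T_22 (nat_lit 160) (nat_lit 161) (nat_lit 6) (nat_lit 7) (nat_lit 12) L68405 (by decide +kernel)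
theorem L68407 : W_22 (nat_lit 8) (nat_lit 0x400030000e0012000a0000000000000000000000000000000) (nat_lit 0x0) (nat_lit 0x38001d0008c000e0030000000000000000000000000000000000000000) := T_22 (nat_lit 211) (nat_lit 228) (nat_lit 4) (nat_lit 7) (nat_lit 13) L68406 (by decide +kernel)
theorem L68408 : W_22 (nat_lit 9) (nat_lit 0x400030000c0012000a0000000000000000000000000000000) (nat_lit 0x0) (nat_lit 0x38001d0008c000e0033000000000000000000000000000000000000000) := T_22 (nat_lit 157) (nat_lit 156) (nat_lit 3) (nat_lit 3) (nat_lit 9) L68407 (by decide +kernel)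
theorem L68409 : W_22 (nat_lit 10) (nat_lit 0x30000c0012000a0000000000000000000000000000000) (nat_lit 0x0) (nat_lit 0x38001d000cc000e0033000400000000000000000000000000000000000) := T_22 (nat_lit 194) (nat_lit 142) (nat_lit 7) (nat_lit 6) (nat_lit 7) L68408 (by decide +kernel)
theorem L68410 : W_22 (nat_lit 4) (nat_lit 0x30000d0016000b0000000000000000000000000000000) (nat_lit 0x0) (nat_lit 0x18000f0000800000000000000000000000000000000000000) := T_22 (nat_lit 175) (nat_lit 192) (nat_lit 6) (nat_lit 5) (nat_lit 11) L61537 (by decide +kernel)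
theorem L68411 : W_22 (nat_lit 5) (nat_lit 0x30000d0012000b0000000000000000000000000000000) (nat_lit 0x0) (nat_lit 0x58000f0000800400000000000000000000000000000000000) := T_22 (nat_lit 142) (nat_lit 194) (nat_lit 7) (nat_lit 6) (nat_lit 7) L68410 (by decide +kernel)
theorem L68412 : W_22 (nat_lit 6) (nat_lit 0x30000d0012000a0000000000000000000000000000000) (nat_lit 0x0) (nat_lit 0x58000f0000800400010000800000000000000000000000000) := T_22 (nat_lit 124) (nat_lit 107) (nat_lit 7) (nat_lit 5) (nat_lit 6) L68411 (by decide +kernel)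
theorem L68413 : W_22 (nat_lit 7) (nat_lit 0x30000c0012000a0000000000000000000000000000000) (nat_lit 0x0) (nat_lit 0x58000f0003800400010000800000000000000000000000000) := T_22 (nat_lit 156) (nat_lit 157) (nat_lit 3) (nat_lit 3) (nat_lit 9) L68412 (by decide +kernel)
theorem L68414 : W_22 (nat_lit 2) (nat_lit 0x3c000d0012000b0000000000000000000000000000000) (nat_lit 0x0) (nat_lit 0x30000800000000000000000000000000000000000000) := D_22 (nat_lit 173) (nat_lit 155) (nat_lit 172) (nat_lit 0) (nat_lit 6) (nat_lit 10) (nat_lit 2) (nat_lit 2) (nat_lit 10) (by decide +kernel)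
theorem L68415 : W_22 (nat_lit 3) (nat_lit 0x34000d0012000b0000000000000000000000000000000) (nat_lit 0x0) (nat_lit 0x8000b0000800000000000000000000000000000000000000) := T_22 (nat_lit 175) (nat_lit 191) (nat_lit 5) (nat_lit 5) (nat_lit 7) L68414 (by decide +kernel)
theorem L68416 : W_22 (nat_lit 4) (nat_lit 0x34000d0012000a0000000000000000000000000000000) (nat_lit 0x0) (nat_lit 0x8000b0000800000010000800000000000000000000000000) := T_22 (nat_lit 124) (nat_lit 107) (nat_lit 7) (nat_lit 5) (nat_lit 6) L68415 (by decide +kernel)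
theorem L68417 : W_22 (nat_lit 5) (nat_lit 0x34000c0012000a0000000000000000000000000000000) (nat_lit 0x0) (nat_lit 0x8000b0003800000010000800000000000000000000000000) := T_22 (nat_lit 156) (nat_lit 157) (nat_lit 3) (nat_lit 3) (nat_lit 9) L68416 (by decide +kernel)
theorem L68418 : W_22 (nat_lit 2) (nat_lit 0x34001e0012000a0000000000000000000000000000000) (nat_lit 0x0) (nat_lit 0x80020000100000000000000000000000000000000000) := D_22 (nat_lit 161) (nat_lit 140) (nat_lit 175) (nat_lit 0) (nat_lit 8) (nat_lit 9) (nat_lit 2) (nat_lit 4) (nat_lit 10) (by decide +kernel)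
theorem L68419 : W_22 (nat_lit 3) (nat_lit 0x34000e0012000a0000000000000000000000000000000) (nat_lit 0x0) (nat_lit 0xa0030000100000000000000000000000000000000000) := T_22 (nat_lit 160) (nat_lit 173) (nat_lit 1) (nat_lit 7) (nat_lit 9) L68418 (by decide +kernel)
theorem L68420 : W_22 (nat_lit 4) (nat_lit 0x34000c0012000a0000000000000000000000000000000) (nat_lit 0x0) (nat_lit 0xa0033000100000000000000000000000000000000000) := T_22 (nat_lit 157) (nat_lit 156) (nat_lit 3) (nat_lit 3) (nat_lit 9) L68419 (by decide +kernel)
theorem L68421 : W_22 (nat_lit 2) (nat_lit 0x1000000034001e0012000a0000800000000000000000000000000) (nat_lit 0x0) (nat_lit 0x20000180000000000000000000000000000000000) := D_22 (nat_lit 140) (nat_lit 161) (nat_lit 139) (nat_lit 0) (nat_lit 8) (nat_lit 9) (nat_lit 0) (nat_lit 7) (nat_lit 9) (by decide +kernel)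
theorem L68422 : W_22 (nat_lit 3) (nat_lit 0x1000000034000e0012000a0000800000000000000000000000000) (nat_lit 0x0) (nat_lit 0x20030000180000000000000000000000000000000000) := T_22 (nat_lit 160) (nat_lit 173) (nat_lit 1) (nat_lit 7) (nat_lit 9) L68421 (by decide +kernel)
theorem L68423 : W_22 (nat_lit 4) (nat_lit 0x34000e0012000a0000800000000000000000000000000) (nat_lit 0x0) (nat_lit 0x10000800020030000180000000000000000000000000000000000) := T_22 (nat_lit 208) (nat_lit 191) (nat_lit 6) (nat_lit 4) (nat_lit 12) L68422 (by decide +kernel)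
theorem L68424 : W_22 (nat_lit 5) (nat_lit 0x34000e0012000a0000000000000000000000000000000) (nat_lit 0x0) (nat_lit 0x10000800020030000180010000800000000000000000000000000) := T_22 (nat_lit 107) (nat_lit 124) (nat_lit 7) (nat_lit 5) (nat_lit 6) L68423 (by decide +kernel)
theorem L68425 : W_22 (nat_lit 6) (nat_lit 0x34000c0012000a0000000000000000000000000000000) (nat_lit 0x0) (nat_lit 0x10000800020033000180010000800000000000000000000000000) := T_22 (nat_lit 157) (nat_lit 156) (nat_lit 3) (nat_lit 3) (nat_lit 9) L68424 (by decide +kernel)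
theorem L68426 : W_22 (nat_lit 2) (nat_lit 0x3c000c0012000b0000000000000000000000000000000) (nat_lit 0x0) (nat_lit 0x20030000000000000000000000000000000000000000) := D_22 (nat_lit 160) (nat_lit 161) (nat_lit 173) (nat_lit 2) (nat_lit 4) (nat_lit 10) (nat_lit 2) (nat_lit 3) (nat_lit 10) (by decide +kernel)
theorem L68427 : W_22 (nat_lit 3) (nat_lit 0x34000c0012000b0000000000000000000000000000000) (nat_lit 0x0) (nat_lit 0x8000a0030000000000000000000000000000000000000000) := T_22 (nat_lit 175) (nat_lit 191) (nat_lit 5) (nat_lit 5) (nat_lit 7) L68426 (by decide +kernel)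
theorem L68428 : W_22 (nat_lit 4) (nat_lit 0x34000c0012000a0000000000000000000000000000000) (nat_lit 0x0) (nat_lit 0x8000a0030000000010000800000000000000000000000000) := T_22 (nat_lit 124) (nat_lit 107) (nat_lit 7) (nat_lit 5) (nat_lit 6) L68427 (by decide +kernel)
theorem L68429 : W_22 (nat_lit 2) (nat_lit 0x48003c001e0013000a0000800000000000000000000000000) (nat_lit 0x0) (nat_lit 0x20001000000000000000008000000000000000000000000000000) := D_22 (nat_lit 192) (nat_lit 209) (nat_lit 123) (nat_lit 7) (nat_lit 4) (nat_lit 8) (nat_lit 7) (nat_lit 4) (nat_lit 7) (by decide +kernel)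
theorem L68430 : W_22 (nat_lit 3) (nat_lit 0x48003c001e0012000a0000800000000000000000000000000) (nat_lit 0x0) (nat_lit 0x20001000000000000180008000000000000000000000000000000) := T_22 (nat_lit 140) (nat_lit 139) (nat_lit 0) (nat_lit 7) (nat_lit 9) L68429 (by decide +kernel)
theorem L68431 : W_22 (nat_lit 4) (nat_lit 0x8003c001e0012000a0000800000000000000000000000000) (nat_lit 0x0) (nat_lit 0x2000d000000000000180008000000000000000000000000000000) := T_22 (nat_lit 194) (nat_lit 195) (nat_lit 3) (nat_lit 4) (nat_lit 10) L68430 (by decide +kernel)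
theorem L68432 : W_22 (nat_lit 5) (nat_lit 0x8003c000e0012000a0000800000000000000000000000000) (nat_lit 0x0) (nat_lit 0x2000d000000030000180008000000000000000000000000000000) := T_22 (nat_lit 160) (nat_lit 161) (nat_lit 2) (nat_lit 4) (nat_lit 10) L68431 (by decide +kernel)
theorem L68433 : W_22 (nat_lit 6) (nat_lit 0x80034000e0012000a0000800000000000000000000000000) (nat_lit 0x0) (nat_lit 0x2000d400080030000180008000000000000000000000000000000) := T_22 (nat_lit 175) (nat_lit 190) (nat_lit 1) (nat_lit 7) (nat_lit 10) L68432 (by decide +kernel)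
theorem L68434 : W_22 (nat_lit 7) (nat_lit 0x34000e0012000a0000800000000000000000000000000) (nat_lit 0x0) (nat_lit 0x3000dc00080030000180008000000000000000000000000000000) := T_22 (nat_lit 191) (nat_lit 208) (nat_lit 6) (nat_lit 4) (nat_lit 12) L68433 (by decide +kernel)
theorem L68435 : W_22 (nat_lit 8) (nat_lit 0x34000c0012000a0000800000000000000000000000000) (nat_lit 0x0) (nat_lit 0x3000dc00080033000180008000000000000000000000000000000) := T_22 (nat_lit 157) (nat_lit 156) (nat_lit 3) (nat_lit 3) (nat_lit 9) L68434 (by decide +kernel)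
theorem L68436 : W_22 (nat_lit 9) (nat_lit 0x34000c0012000a0000000000000000000000000000000) (nat_lit 0x0) (nat_lit 0x3000dc00080033000180018000800000000000000000000000000) := T_22 (nat_lit 107) (nat_lit 124) (nat_lit 7) (nat_lit 5) (nat_lit 6) L68435 (by decide +kernel)
theorem L68437 : W_22 (nat_lit 10) (nat_lit 0x30000c0012000a0000000000000000000000000000000) (nat_lit 0x0) (nat_lit 0x3000dc000f0033800180018000800000000000000000000000000) := Q_22 (nat_lit 174) (C_22 L68417 (C_22 L68420 (C_22 L68425 (C_22 L68428 (C_22 L68436 N_22))))) (by decide +kernel)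
theorem L68438 : W_22 (nat_lit 2) (nat_lit 0x3c000c0016000ba000000000000000000000000000000) (nat_lit 0x0) (nat_lit 0x20030000000000000000000000000000000000000000) := D_22 (nat_lit 160) (nat_lit 161) (nat_lit 173) (nat_lit 2) (nat_lit 4) (nat_lit 10) (nat_lit 2) (nat_lit 3) (nat_lit 10) (by decide +kernel)
theorem L68439 : W_22 (nat_lit 3) (nat_lit 0x38000c0016000ba000000000000000000000000000000) (nat_lit 0x0) (nat_lit 0x800060030000000000000000000000000000000000000000) := T_22 (nat_lit 174) (nat_lit 191) (nat_lit 5) (nat_lit 5) (nat_lit 7) L68438 (by decide +kernel)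
theorem L68440 : W_22 (nat_lit 4) (nat_lit 0x38000c0016000b8000000000000000000000000000000) (nat_lit 0x0) (nat_lit 0x800060030000000006000000000000000000000000000000) := T_22 (nat_lit 121) (nat_lit 122) (nat_lit 3) (nat_lit 2) (nat_lit 7) L68439 (by decide +kernel)
theorem L68441 : W_22 (nat_lit 5) (nat_lit 0x38000c0016000b0000000000000000000000000000000) (nat_lit 0x0) (nat_lit 0x80006003000000000e000400000000000000000000000000) := T_22 (nat_lit 123) (nat_lit 106) (nat_lit 4) (nat_lit 5) (nat_lit 10) L68440 (by decide +kernel)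
theorem L68442 : W_22 (nat_lit 6) (nat_lit 0x38000c0016000a0000000000000000000000000000000) (nat_lit 0x0) (nat_lit 0x80006003000000001e000c00000000000000000000000000) := T_22 (nat_lit 124) (nat_lit 107) (nat_lit 7) (nat_lit 5) (nat_lit 6) L68441 (by decide +kernel)
theorem L68443 : W_22 (nat_lit 7) (nat_lit 0x30000c0016000a0000000000000000000000000000000) (nat_lit 0x0) (nat_lit 0x18000e003000000001e000c00000000000000000000000000) := T_22 (nat_lit 175) (nat_lit 192) (nat_lit 6) (nat_lit 5) (nat_lit 11) L68442 (by decide +kernel)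
theorem L68444 : W_22 (nat_lit 8) (nat_lit 0x30000c0012000a0000000000000000000000000000000) (nat_lit 0x0) (nat_lit 0x58000e003000040001e000c00000000000000000000000000) := T_22 (nat_lit 142) (nat_lit 194) (nat_lit 7) (nat_lit 6) (nat_lit 7) L68443 (by decide +kernel)
theorem L68445 : W_22 (nat_lit 2) (nat_lit 0x3c000d0012000b8000000000000000000000000000000) (nat_lit 0x0) (nat_lit 0x20030000000000000000000000000000000000000000) := D_22 (nat_lit 160) (nat_lit 161) (nat_lit 173) (nat_lit 2) (nat_lit 4) (nat_lit 10) (nat_lit 2) (nat_lit 3) (nat_lit 10) (by decide +kernel)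
theorem L68446 : W_22 (nat_lit 3) (nat_lit 0x38000d0012000b8000000000000000000000000000000) (nat_lit 0x0) (nat_lit 0x800060030000000000000000000000000000000000000000) := T_22 (nat_lit 174) (nat_lit 191) (nat_lit 5) (nat_lit 5) (nat_lit 7) L68445 (by decide +kernel)
theorem L68447 : W_22 (nat_lit 4) (nat_lit 0x38000d0012000b0000000000000000000000000000000) (nat_lit 0x0) (nat_lit 0x800060030000000008000400000000000000000000000000) := T_22 (nat_lit 123) (nat_lit 106) (nat_lit 4) (nat_lit 5) (nat_lit 10) L68446 (by decide +kernel)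
theorem L68448 : W_22 (nat_lit 5) (nat_lit 0x38000c0012000b0000000000000000000000000000000) (nat_lit 0x0) (nat_lit 0x800060033000000008000400000000000000000000000000) := T_22 (nat_lit 156) (nat_lit 157) (nat_lit 3) (nat_lit 3) (nat_lit 9) L68447 (by decide +kernel)
theorem L68449 : W_22 (nat_lit 6) (nat_lit 0x38000c0012000a0000000000000000000000000000000) (nat_lit 0x0) (nat_lit 0x800060033000000018000c00000000000000000000000000) := T_22 (nat_lit 124) (nat_lit 107) (nat_lit 7) (nat_lit 5) (nat_lit 6) L68448 (by decide +kernel)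
theorem L68450 : W_22 (nat_lit 2) (nat_lit 0x180038000d0012000a0000000000000000000000000000000) (nat_lit 0x0) (nat_lit 0x40000000000010000800000000000000000000000000) := D_22 (nat_lit 124) (nat_lit 174) (nat_lit 107) (nat_lit 5) (nat_lit 5) (nat_lit 7) (nat_lit 7) (nat_lit 5) (nat_lit 6) (by decide +kernel)
theorem L68451 : W_22 (nat_lit 3) (nat_lit 0x100038000d0012000a0000000000000000000000000000000) (nat_lit 0x0) (nat_lit 0x10000800040000000000010000800000000000000000000000000) := T_22 (nat_lit 191) (nat_lit 208) (nat_lit 5) (nat_lit 5) (nat_lit 8) L68450 (by decide +kernel)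
theorem L68452 : W_22 (nat_lit 4) (nat_lit 0x38000d0012000a0000000000000000000000000000000) (nat_lit 0x0) (nat_lit 0x10001800040000000400010000800000000000000000000000000) := T_22 (nat_lit 192) (nat_lit 142) (nat_lit 6) (nat_lit 5) (nat_lit 11) L68451 (by decide +kernel)
theorem L68453 : W_22 (nat_lit 5) (nat_lit 0x38000c0012000a0000000000000000000000000000000) (nat_lit 0x0) (nat_lit 0x10001800040003000400010000800000000000000000000000000) := T_22 (nat_lit 156) (nat_lit 157) (nat_lit 3) (nat_lit 3) (nat_lit 9) L68452 (by decide +kernel)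
theorem L68454 : W_22 (nat_lit 2) (nat_lit 0x40000000180038002d0013400a0000000000000000000000000000000) (nat_lit 0x0) (nat_lit 0x600040000000000000000000000000000000000000000000) := D_22 (nat_lit 190) (nat_lit 189) (nat_lit 174) (nat_lit 2) (nat_lit 2) (nat_lit 11) (nat_lit 1) (nat_lit 7) (nat_lit 10) (by decide +kernel)
theorem L68455 : W_22 (nat_lit 3) (nat_lit 0x40000000100038002d0013400a0000000000000000000000000000000) (nat_lit 0x0) (nat_lit 0x10000e00040000000000000000000000000000000000000000000) := T_22 (nat_lit 191) (nat_lit 208) (nat_lit 5) (nat_lit 5) (nat_lit 8) L68454 (by decide +kernel)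
theorem L68456 : W_22 (nat_lit 4) (nat_lit 0x40000000100038000d0013400a0000000000000000000000000000000) (nat_lit 0x0) (nat_lit 0x10000e00040030000000000000000000000000000000000000000) := T_22 (nat_lit 161) (nat_lit 160) (nat_lit 0) (nat_lit 8) (nat_lit 9) L68455 (by decide +kernel)
theorem L68457 : W_22 (nat_lit 5) (nat_lit 0x40000000100038000d0013000a0000000000000000000000000000000) (nat_lit 0x0) (nat_lit 0x10000e000400300000c0000000000000000000000000000000000) := T_22 (nat_lit 138) (nat_lit 139) (nat_lit 3) (nat_lit 2) (nat_lit 8) L68456 (by decide +kernel)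
theorem L68458 : W_22 (nat_lit 6) (nat_lit 0x40000000100038000d0012000a0000000000000000000000000000000) (nat_lit 0x0) (nat_lit 0x10000e000400300001c0008000000000000000000000000000000) := T_22 (nat_lit 140) (nat_lit 123) (nat_lit 4) (nat_lit 5) (nat_lit 11) L68457 (by decide +kernel)
theorem L68459 : W_22 (nat_lit 7) (nat_lit 0x100038000d0012000a0000000000000000000000000000000) (nat_lit 0x0) (nat_lit 0x400030000e000400300001c0008000000000000000000000000000000) := T_22 (nat_lit 226) (nat_lit 209) (nat_lit 6) (nat_lit 5) (nat_lit 13) L68458 (by decide +kernel)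
theorem L68460 : W_22 (nat_lit 8) (nat_lit 0x100038000c0012000a0000000000000000000000000000000) (nat_lit 0x0) (nat_lit 0x400030000e000400330001c0008000000000000000000000000000000) := T_22 (nat_lit 156) (nat_lit 157) (nat_lit 3) (nat_lit 3) (nat_lit 9) L68459 (by decide +kernel)
theorem L68461 : W_22 (nat_lit 9) (nat_lit 0x38000c0012000a0000000000000000000000000000000) (nat_lit 0x0) (nat_lit 0x400030001e000400330005c0008000000000000000000000000000000) := T_22 (nat_lit 192) (nat_lit 142) (nat_lit 6) (nat_lit 5) (nat_lit 11) L68460 (by decide +kernel)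
theorem L68462 : W_22 (nat_lit 7) (nat_lit 0x38000c0012000a0000000000000000000000000000000) (nat_lit 0x0) (nat_lit 0x180006003000040001e000c00000000000000000000000000) := T_22 (nat_lit 142) (nat_lit 192) (nat_lit 6) (nat_lit 5) (nat_lit 11) L68442 (by decide +kernel)
theorem L68463 : W_22 (nat_lit 2) (nat_lit 0x400000001a0038000d0012000a8000000000000000000000000000000) (nat_lit 0x0) (nat_lit 0x10000c00000000000000000000000000) := D_22 (nat_lit 124) (nat_lit 107) (nat_lit 106) (nat_lit 7) (nat_lit 5) (nat_lit 6) (nat_lit 4) (nat_lit 5) (nat_lit 10) (by decide +kernel)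
theorem L68464 : W_22 (nat_lit 3) (nat_lit 0x400000001a0038000d0012000a0000000000000000000000000000000) (nat_lit 0x0) (nat_lit 0x100018000c00000000000000000000000000) := T_22 (nat_lit 123) (nat_lit 140) (nat_lit 4) (nat_lit 5) (nat_lit 11) L68463 (by decide +kernel)
theorem L68465 : W_22 (nat_lit 4) (nat_lit 0x400000001a0038000c0012000a0000000000000000000000000000000) (nat_lit 0x0) (nat_lit 0x3000100018000c00000000000000000000000000) := T_22 (nat_lit 156) (nat_lit 157) (nat_lit 3) (nat_lit 3) (nat_lit 9) L68464 (by decide +kernel)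
theorem L68466 : W_22 (nat_lit 5) (nat_lit 0x1a0038000c0012000a0000000000000000000000000000000) (nat_lit 0x0) (nat_lit 0x400020000000000003000100018000c00000000000000000000000000) := T_22 (nat_lit 226) (nat_lit 209) (nat_lit 6) (nat_lit 5) (nat_lit 13) L68465 (by decide +kernel)
theorem L68467 : W_22 (nat_lit 6) (nat_lit 0x180038000c0012000a0000000000000000000000000000000) (nat_lit 0x0) (nat_lit 0x400020000600000003000100018000c00000000000000000000000000) := T_22 (nat_lit 189) (nat_lit 190) (nat_lit 2) (nat_lit 2) (nat_lit 11) L68466 (by decide +kernel)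
theorem L68468 : W_22 (nat_lit 7) (nat_lit 0x100038000c0012000a0000000000000000000000000000000) (nat_lit 0x0) (nat_lit 0x400030000e00000003000100018000c00000000000000000000000000) := T_22 (nat_lit 191) (nat_lit 208) (nat_lit 5) (nat_lit 5) (nat_lit 8) L68467 (by decide +kernel)
theorem L68469 : W_22 (nat_lit 8) (nat_lit 0x38000c0012000a0000000000000000000000000000000) (nat_lit 0x0) (nat_lit 0x400030001e00000003000500018000c00000000000000000000000000) := T_22 (nat_lit 192) (nat_lit 142) (nat_lit 6) (nat_lit 5) (nat_lit 11) L68468 (by decide +kernel)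
theorem L68470 : W_22 (nat_lit 2) (nat_lit 0x100038000e0012000a0000800000000000000000000000000) (nat_lit 0x0) (nat_lit 0x400020000000000000000100000000000000000000000000000000000) := D_22 (nat_lit 209) (nat_lit 226) (nat_lit 140) (nat_lit 6) (nat_lit 5) (nat_lit 13) (nat_lit 4) (nat_lit 5) (nat_lit 12) (by decide +kernel)
theorem L68471 : W_22 (nat_lit 3) (nat_lit 0x100038000c0012000a0000800000000000000000000000000) (nat_lit 0x0) (nat_lit 0x400020000000000003000100000000000000000000000000000000000) := T_22 (nat_lit 157) (nat_lit 156) (nat_lit 3) (nat_lit 3) (nat_lit 9) L68470 (by decide +kernel)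
theorem L68472 : W_22 (nat_lit 4) (nat_lit 0x38000c0012000a0000800000000000000000000000000) (nat_lit 0x0) (nat_lit 0x400020001000000003000500000000000000000000000000000000000) := T_22 (nat_lit 192) (nat_lit 142) (nat_lit 6) (nat_lit 5) (nat_lit 11) L68471 (by decide +kernel)
theorem L68473 : W_22 (nat_lit 5) (nat_lit 0x38000c0012000a0000000000000000000000000000000) (nat_lit 0x0) (nat_lit 0x400020001000000003000500010000800000000000000000000000000) := T_22 (nat_lit 107) (nat_lit 124) (nat_lit 7) (nat_lit 5) (nat_lit 6) L68472 (by decide +kernel)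
theorem L68474 : W_22 (nat_lit 10) (nat_lit 0x30000c0012000a0000000000000000000000000000000) (nat_lit 0x0) (nat_lit 0x400030001e000e00330005c001e000c00000000000000000000000000) := Q_22 (nat_lit 175) (C_22 L68449 (C_22 L68453 (C_22 L68461 (C_22 L68462 (C_22 L68469 (C_22 L68473 N_22)))))) (by decide +kernel)
theorem L68475 : W_22 (nat_lit 2) (nat_lit 0x38000d0016800bc000000000000000000000000000000) (nat_lit 0x0) (nat_lit 0x10800100000000000000000000000000000000000) := D_22 (nat_lit 140) (nat_lit 155) (nat_lit 160) (nat_lit 1) (nat_lit 6) (nat_lit 8) (nat_lit 3) (nat_lit 3) (nat_lit 8) (by decide +kernel)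
theorem L68476 : W_22 (nat_lit 3) (nat_lit 0x38000d0016000bc000000000000000000000000000000) (nat_lit 0x0) (nat_lit 0x108001c0000000000000000000000000000000000) := T_22 (nat_lit 139) (nat_lit 138) (nat_lit 1) (nat_lit 6) (nat_lit 7) L68475 (by decide +kernel)
theorem L68477 : W_22 (nat_lit 4) (nat_lit 0x38000d0016000b8000000000000000000000000000000) (nat_lit 0x0) (nat_lit 0x108001c0006000000000000000000000000000000) := T_22 (nat_lit 122) (nat_lit 121) (nat_lit 3) (nat_lit 2) (nat_lit 7) L68476 (by decide +kernel)
theorem L68478 : W_22 (nat_lit 5) (nat_lit 0x38000d0016000b0000000000000000000000000000000) (nat_lit 0x0) (nat_lit 0x108001c000e000400000000000000000000000000) := T_22 (nat_lit 123) (nat_lit 106) (nat_lit 4) (nat_lit 5) (nat_lit 10) L68477 (by decide +kernel)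
theorem L68479 : W_22 (nat_lit 6) (nat_lit 0x38000c0016000b0000000000000000000000000000000) (nat_lit 0x0) (nat_lit 0x138001c000e000400000000000000000000000000) := T_22 (nat_lit 156) (nat_lit 157) (nat_lit 3) (nat_lit 3) (nat_lit 9) L68478 (by decide +kernel)
theorem L68480 : W_22 (nat_lit 7) (nat_lit 0x30000c0016000b0000000000000000000000000000000) (nat_lit 0x0) (nat_lit 0x10000800138001c000e000400000000000000000000000000) := T_22 (nat_lit 175) (nat_lit 192) (nat_lit 6) (nat_lit 5) (nat_lit 11) L68479 (by decide +kernel)
theorem L68481 : W_22 (nat_lit 8) (nat_lit 0x30000c0012000b0000000000000000000000000000000) (nat_lit 0x0) (nat_lit 0x50000800138005c000e000400000000000000000000000000) := T_22 (nat_lit 142) (nat_lit 194) (nat_lit 7) (nat_lit 6) (nat_lit 7) L68480 (by decide +kernel)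
theorem L68482 : W_22 (nat_lit 9) (nat_lit 0x30000c0012000a0000000000000000000000000000000) (nat_lit 0x0) (nat_lit 0x50000800138005c001e000c00000000000000000000000000) := T_22 (nat_lit 124) (nat_lit 107) (nat_lit 7) (nat_lit 5) (nat_lit 6) L68481 (by decide +kernel)
theorem L68483 : W_22 (nat_lit 13) (nat_lit 0x3000080012000a0000000000000000000000000000000) (nat_lit 0x0) (nat_lit 0x3f001f000de000f00378005c001e000c00000000000000000000000000) := Q_22 (nat_lit 158) (C_22 L68400 (C_22 L68409 (C_22 L68413 (C_22 L68437 (C_22 L68444 (C_22 L68474 (C_22 L68482 N_22))))))) (by decide +kernel)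
theorem L68484 : W_22 (nat_lit 2) (nat_lit 0x40003000280012000a0000000000000000000000000000000) (nat_lit 0x0) (nat_lit 0x1000080000000000010000000000000000000000000000000000000000) := D_22 (nat_lit 211) (nat_lit 228) (nat_lit 160) (nat_lit 4) (nat_lit 7) (nat_lit 13) (nat_lit 6) (nat_lit 7) (nat_lit 12) (by decide +kernel)
theorem L68485 : W_22 (nat_lit 3) (nat_lit 0x40003000080012000a0000000000000000000000000000000) (nat_lit 0x0) (nat_lit 0x1000080000000400030000000000000000000000000000000000000000) := T_22 (nat_lit 161) (nat_lit 178) (nat_lit 5) (nat_lit 8) (nat_lit 7) L68484 (by decide +kernel)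
theorem L68486 : W_22 (nat_lit 4) (nat_lit 0x3000080012000a0000000000000000000000000000000) (nat_lit 0x0) (nat_lit 0x1000080004000400030000400000000000000000000000000000000000) := T_22 (nat_lit 194) (nat_lit 142) (nat_lit 7) (nat_lit 6) (nat_lit 7) L68485 (by decide +kernel)
theorem L68487 : W_22 (nat_lit 2) (nat_lit 0x30000e0016000b0000000000000000000000000000000) (nat_lit 0x0) (nat_lit 0xc00010000000000000000000000000000000000000000) := D_22 (nat_lit 178) (nat_lit 179) (nat_lit 160) (nat_lit 0) (nat_lit 9) (nat_lit 10) (nat_lit 3) (nat_lit 4) (nat_lit 9) (by decide +kernel)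
theorem L68488 : W_22 (nat_lit 3) (nat_lit 0x30000c0016000b0000000000000000000000000000000) (nat_lit 0x0) (nat_lit 0xc00013000000000000000000000000000000000000000) := T_22 (nat_lit 157) (nat_lit 156) (nat_lit 3) (nat_lit 3) (nat_lit 9) L68487 (by decide +kernel)
theorem L68489 : W_22 (nat_lit 4) (nat_lit 0x30000c0016000a0000000000000000000000000000000) (nat_lit 0x0) (nat_lit 0xc00013000000010000800000000000000000000000000) := T_22 (nat_lit 124) (nat_lit 107) (nat_lit 7) (nat_lit 5) (nat_lit 6) L68488 (by decide +kernel)
theorem L68490 : W_22 (nat_lit 5) (nat_lit 0x30000c0012000a0000000000000000000000000000000) (nat_lit 0x0) (nat_lit 0x4000c00013000400010000800000000000000000000000000) := T_22 (nat_lit 142) (nat_lit 194) (nat_lit 7) (nat_lit 6) (nat_lit 7) L68489 (by decide +kernel)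
theorem L68491 : W_22 (nat_lit 3) (nat_lit 0x30000c0012000a0000000000000000000000000000000) (nat_lit 0x0) (nat_lit 0xc80003000000000000000000000000000000000000000) := T_22 (nat_lit 178) (nat_lit 179) (nat_lit 0) (nat_lit 9) (nat_lit 10) L68338 (by decide +kernel)
theorem L68492 : W_22 (nat_lit 11) (nat_lit 0x30000c0016000a0000000000000000000000000000000) (nat_lit 0x0) (nat_lit 0x1e00cf00018001c001e000c00000000000000000000000000) := T_22 (nat_lit 175) (nat_lit 192) (nat_lit 6) (nat_lit 5) (nat_lit 11) L67562 (by decide +kernel)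
theorem L68493 : W_22 (nat_lit 12) (nat_lit 0x30000c0012000a0000000000000000000000000000000) (nat_lit 0x0) (nat_lit 0x5e00cf00018005c001e000c00000000000000000000000000) := T_22 (nat_lit 142) (nat_lit 194) (nat_lit 7) (nat_lit 6) (nat_lit 7) L68492 (by decide +kernel)
theorem L68494 : W_22 (nat_lit 2) (nat_lit 0xbc000c0016000ba000000000000000000000000000000) (nat_lit 0x0) (nat_lit 0x30010000000000000000000000000000000000000000) := D_22 (nat_lit 173) (nat_lit 160) (nat_lit 172) (nat_lit 2) (nat_lit 3) (nat_lit 10) (nat_lit 2) (nat_lit 2) (nat_lit 10) (by decide +kernel)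
theorem L68495 : W_22 (nat_lit 3) (nat_lit 0xb8000c0016000ba000000000000000000000000000000) (nat_lit 0x0) (nat_lit 0x800070010000000000000000000000000000000000000000) := T_22 (nat_lit 174) (nat_lit 191) (nat_lit 5) (nat_lit 5) (nat_lit 7) L68494 (by decide +kernel)
theorem L68496 : W_22 (nat_lit 4) (nat_lit 0xb8000c0016000b8000000000000000000000000000000) (nat_lit 0x0) (nat_lit 0x800070010000000006000000000000000000000000000000) := T_22 (nat_lit 121) (nat_lit 122) (nat_lit 3) (nat_lit 2) (nat_lit 7) L68495 (by decide +kernel)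
theorem L68497 : W_22 (nat_lit 5) (nat_lit 0xb8000c0016000b0000000000000000000000000000000) (nat_lit 0x0) (nat_lit 0x80007001000000000e000400000000000000000000000000) := T_22 (nat_lit 123) (nat_lit 106) (nat_lit 4) (nat_lit 5) (nat_lit 10) L68496 (by decide +kernel)
theorem L68498 : W_22 (nat_lit 6) (nat_lit 0xb8000c0016000a0000000000000000000000000000000) (nat_lit 0x0) (nat_lit 0x80007001000000001e000c00000000000000000000000000) := T_22 (nat_lit 124) (nat_lit 107) (nat_lit 7) (nat_lit 5) (nat_lit 6) L68497 (by decide +kernel)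
theorem L68499 : W_22 (nat_lit 7) (nat_lit 0xb0000c0016000a0000000000000000000000000000000) (nat_lit 0x0) (nat_lit 0x18000f001000000001e000c00000000000000000000000000) := T_22 (nat_lit 175) (nat_lit 192) (nat_lit 6) (nat_lit 5) (nat_lit 11) L68498 (by decide +kernel)
theorem L68500 : W_22 (nat_lit 8) (nat_lit 0xb0000c0012000a0000000000000000000000000000000) (nat_lit 0x0) (nat_lit 0x58000f001000040001e000c00000000000000000000000000) := T_22 (nat_lit 142) (nat_lit 194) (nat_lit 7) (nat_lit 6) (nat_lit 7) L68499 (by decide +kernel)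
theorem L68501 : W_22 (nat_lit 9) (nat_lit 0x30000c0012000a0000000000000000000000000000000) (nat_lit 0x0) (nat_lit 0x5800cf001000040001e000c00000000000000000000000000) := T_22 (nat_lit 179) (nat_lit 178) (nat_lit 0) (nat_lit 9) (nat_lit 10) L68500 (by decide +kernel)
theorem L68502 : W_22 (nat_lit 13) (nat_lit 0x3000080012000a0000000000000000000000000000000) (nat_lit 0x0) (nat_lit 0x5e00cf00178005c001e000c00000000000000000000000000) := Q_22 (nat_lit 158) (C_22 L68490 (C_22 L68491 (C_22 L68482 (C_22 L68493 (C_22 L68501 N_22))))) (by decide +kernel)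
theorem L68503 : W_22 (nat_lit 2) (nat_lit 0x70000c0012000a0000000000000000000000000000000) (nat_lit 0x0) (nat_lit 0x13000000000000000000000000000000000000000) := D_22 (nat_lit 157) (nat_lit 156) (nat_lit 160) (nat_lit 3) (nat_lit 3) (nat_lit 9) (nat_lit 3) (nat_lit 4) (nat_lit 9) (by decide +kernel)
theorem L68504 : W_22 (nat_lit 3) (nat_lit 0x30000c0012000a0000000000000000000000000000000) (nat_lit 0x0) (nat_lit 0xc00013000000000000000000000000000000000000000) := T_22 (nat_lit 178) (nat_lit 179) (nat_lit 0) (nat_lit 9) (nat_lit 10) L68503 (by decide +kernel)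
theorem L68505 : W_22 (nat_lit 2) (nat_lit 0x40000000900078000c0013000a0000800000000000000000000000000) (nat_lit 0x0) (nat_lit 0x70000000000000000000000000000000000000000) := D_22 (nat_lit 161) (nat_lit 162) (nat_lit 160) (nat_lit 2) (nat_lit 5) (nat_lit 10) (nat_lit 0) (nat_lit 8) (nat_lit 9) (by decide +kernel)
theorem L68506 : W_22 (nat_lit 3) (nat_lit 0x40000000900078000c0012000a0000800000000000000000000000000) (nat_lit 0x0) (nat_lit 0x70000100008000000000000000000000000000000) := T_22 (nat_lit 140) (nat_lit 123) (nat_lit 4) (nat_lit 5) (nat_lit 11) L68505 (by decide +kernel)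
theorem L68507 : W_22 (nat_lit 4) (nat_lit 0x900078000c0012000a0000800000000000000000000000000) (nat_lit 0x0) (nat_lit 0x400020000000000070000100008000000000000000000000000000000) := T_22 (nat_lit 226) (nat_lit 209) (nat_lit 6) (nat_lit 5) (nat_lit 13) L68506 (by decide +kernel)
theorem L68508 : W_22 (nat_lit 5) (nat_lit 0x100078000c0012000a0000800000000000000000000000000) (nat_lit 0x0) (nat_lit 0x400020018000000070000100008000000000000000000000000000000) := T_22 (nat_lit 195) (nat_lit 196) (nat_lit 3) (nat_lit 5) (nat_lit 10) L68507 (by decide +kernel)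
theorem L68509 : W_22 (nat_lit 6) (nat_lit 0x78000c0012000a0000800000000000000000000000000) (nat_lit 0x0) (nat_lit 0x400020019800000070000100008000000000000000000000000000000) := T_22 (nat_lit 192) (nat_lit 191) (nat_lit 1) (nat_lit 8) (nat_lit 10) L68508 (by decide +kernel)
theorem L68510 : W_22 (nat_lit 7) (nat_lit 0x38000c0012000a0000800000000000000000000000000) (nat_lit 0x0) (nat_lit 0x400020019800c00070000100008000000000000000000000000000000) := T_22 (nat_lit 178) (nat_lit 179) (nat_lit 0) (nat_lit 9) (nat_lit 10) L68509 (by decide +kernel)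
theorem L68511 : W_22 (nat_lit 8) (nat_lit 0x38000c0012000a0000000000000000000000000000000) (nat_lit 0x0) (nat_lit 0x400020019800c00070000100018000800000000000000000000000000) := T_22 (nat_lit 107) (nat_lit 124) (nat_lit 7) (nat_lit 5) (nat_lit 6) L68510 (by decide +kernel)
theorem L68512 : W_22 (nat_lit 2) (nat_lit 0x1800b8000c0012000a0000000000000000000000000000000) (nat_lit 0x0) (nat_lit 0x40000000000010000800000000000000000000000000) := D_22 (nat_lit 124) (nat_lit 174) (nat_lit 107) (nat_lit 5) (nat_lit 5) (nat_lit 7) (nat_lit 7) (nat_lit 5) (nat_lit 6) (by decide +kernel)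
theorem L68513 : W_22 (nat_lit 3) (nat_lit 0x1000b8000c0012000a0000000000000000000000000000000) (nat_lit 0x0) (nat_lit 0x10000800040000000000010000800000000000000000000000000) := T_22 (nat_lit 191) (nat_lit 208) (nat_lit 5) (nat_lit 5) (nat_lit 8) L68512 (by decide +kernel)
theorem L68514 : W_22 (nat_lit 4) (nat_lit 0xb8000c0012000a0000000000000000000000000000000) (nat_lit 0x0) (nat_lit 0x10001800040000000400010000800000000000000000000000000) := T_22 (nat_lit 192) (nat_lit 142) (nat_lit 6) (nat_lit 5) (nat_lit 11) L68513 (by decide +kernel)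
theorem L68515 : W_22 (nat_lit 5) (nat_lit 0x38000c0012000a0000000000000000000000000000000) (nat_lit 0x0) (nat_lit 0x10001800c40000000400010000800000000000000000000000000) := T_22 (nat_lit 179) (nat_lit 178) (nat_lit 0) (nat_lit 9) (nat_lit 10) L68514 (by decide +kernel)
theorem L68516 : W_22 (nat_lit 2) (nat_lit 0x78002c0016000a0000000000000000000000000000000) (nat_lit 0x0) (nat_lit 0x40010000100000000000000000000000000000000000) := D_22 (nat_lit 160) (nat_lit 174) (nat_lit 140) (nat_lit 2) (nat_lit 4) (nat_lit 10) (nat_lit 0) (nat_lit 8) (nat_lit 9) (by decide +kernel)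
theorem L68517 : W_22 (nat_lit 3) (nat_lit 0x78000c0016000a0000000000000000000000000000000) (nat_lit 0x0) (nat_lit 0x40070000100000000000000000000000000000000000) := T_22 (nat_lit 161) (nat_lit 162) (nat_lit 2) (nat_lit 5) (nat_lit 10) L68516 (by decide +kernel)
theorem L68518 : W_22 (nat_lit 4) (nat_lit 0x38000c0016000a0000000000000000000000000000000) (nat_lit 0x0) (nat_lit 0xc40070000100000000000000000000000000000000000) := T_22 (nat_lit 178) (nat_lit 179) (nat_lit 0) (nat_lit 9) (nat_lit 10) L68517 (by decide +kernel)
theorem L68519 : W_22 (nat_lit 5) (nat_lit 0x38000c0012000a0000000000000000000000000000000) (nat_lit 0x0) (nat_lit 0x1000c40070000500000000000000000000000000000000000) := T_22 (nat_lit 142) (nat_lit 192) (nat_lit 6) (nat_lit 5) (nat_lit 11) L68518 (by decide +kernel)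
theorem L68520 : W_22 (nat_lit 2) (nat_lit 0xbc000c0012000b0000000000000000000000000000000) (nat_lit 0x0) (nat_lit 0x20030000000000000000000000000000000000000000) := D_22 (nat_lit 160) (nat_lit 161) (nat_lit 173) (nat_lit 2) (nat_lit 4) (nat_lit 10) (nat_lit 2) (nat_lit 3) (nat_lit 10) (by decide +kernel)
theorem L68521 : W_22 (nat_lit 3) (nat_lit 0xb8000c0012000b0000000000000000000000000000000) (nat_lit 0x0) (nat_lit 0x800060030000000000000000000000000000000000000000) := T_22 (nat_lit 174) (nat_lit 191) (nat_lit 5) (nat_lit 5) (nat_lit 7) L68520 (by decide +kernel)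
theorem L68522 : W_22 (nat_lit 4) (nat_lit 0xb8000c0012000a0000000000000000000000000000000) (nat_lit 0x0) (nat_lit 0x800060030000000010000800000000000000000000000000) := T_22 (nat_lit 124) (nat_lit 107) (nat_lit 7) (nat_lit 5) (nat_lit 6) L68521 (by decide +kernel)
theorem L68523 : W_22 (nat_lit 5) (nat_lit 0x38000c0012000a0000000000000000000000000000000) (nat_lit 0x0) (nat_lit 0x800c60030000000010000800000000000000000000000000) := T_22 (nat_lit 179) (nat_lit 178) (nat_lit 0) (nat_lit 9) (nat_lit 10) L68522 (by decide +kernel)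
theorem L68524 : W_22 (nat_lit 9) (nat_lit 0x30000c0012000a0000000000000000000000000000000) (nat_lit 0x0) (nat_lit 0x400030019800ce007000050001e000c00000000000000000000000000) := Q_22 (nat_lit 175) (C_22 L68511 (C_22 L68515 (C_22 L68462 (C_22 L68519 (C_22 L68523 N_22))))) (by decide +kernel)
theorem L68525 : W_22 (nat_lit 11) (nat_lit 0x3000080012000a0000000000000000000000000000000) (nat_lit 0x0) (nat_lit 0x400030019e00ce00770005c001e000c00000000000000000000000000) := Q_22 (nat_lit 158) (C_22 L68504 (C_22 L68491 (C_22 L68474 (C_22 L68524 N_22)))) (by decide +kernel)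
theorem L68526 : W_22 (nat_lit 14) (nat_lit 0x2000080012000a0000000000000000000000000000000) (nat_lit 0x0) (nat_lit 0x3f001f003de07df01f78005c001e000c00000000000000000000000000) := Q_22 (nat_lit 176) (C_22 L68274 (C_22 L68389 (C_22 L68483 (C_22 L68486 (C_22 L68502 (C_22 L68525 N_22)))))) (by decide +kernel)
theorem L68527 : W_22 (nat_lit 2) (nat_lit 0x2000080016000b0000000000000000000000000000000) (nat_lit 0x0) (nat_lit 0x4000100000000000000000800000000000000000000000000) := D_22 (nat_lit 176) (nat_lit 194) (nat_lit 107) (nat_lit 7) (nat_lit 6) (nat_lit 7) (nat_lit 4) (nat_lit 6) (nat_lit 10) (by decide +kernel)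
theorem L68528 : W_22 (nat_lit 2) (nat_lit 0x2d000c0016800bc000200040000000000000000000000) (nat_lit 0x0) (nat_lit 0x12000100000000000000000000000000000000000) := D_22 (nat_lit 140) (nat_lit 160) (nat_lit 157) (nat_lit 3) (nat_lit 3) (nat_lit 8) (nat_lit 4) (nat_lit 4) (nat_lit 10) (by decide +kernel)
theorem L68529 : W_22 (nat_lit 3) (nat_lit 0x2d000c0016800bc000000040000000000000000000000) (nat_lit 0x0) (nat_lit 0x12000100000000300000000000000000000000000) := T_22 (nat_lit 105) (nat_lit 104) (nat_lit 0) (nat_lit 6) (nat_lit 7) L68528 (by decide +kernel)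
theorem L68530 : W_22 (nat_lit 4) (nat_lit 0x2d000c0016000bc000000040000000000000000000000) (nat_lit 0x0) (nat_lit 0x120001c0000000300000000000000000000000000) := T_22 (nat_lit 139) (nat_lit 138) (nat_lit 1) (nat_lit 6) (nat_lit 7) L68529 (by decide +kernel)
theorem L68531 : W_22 (nat_lit 5) (nat_lit 0x2d000c0016000b8000000040000000000000000000000) (nat_lit 0x0) (nat_lit 0x120001c0006000300000000000000000000000000) := T_22 (nat_lit 122) (nat_lit 121) (nat_lit 3) (nat_lit 2) (nat_lit 7) L68530 (by decide +kernel)
theorem L68532 : W_22 (nat_lit 6) (nat_lit 0x2d000c0016000b0000000040000000000000000000000) (nat_lit 0x0) (nat_lit 0x120001c000e000700000000000000000000000000) := T_22 (nat_lit 123) (nat_lit 106) (nat_lit 4) (nat_lit 5) (nat_lit 10) L68531 (by decide +kernel)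
theorem L68533 : W_22 (nat_lit 7) (nat_lit 0x2c000c0016000b0000000040000000000000000000000) (nat_lit 0x0) (nat_lit 0x300120001c000e000700000000000000000000000000) := T_22 (nat_lit 172) (nat_lit 173) (nat_lit 2) (nat_lit 2) (nat_lit 10) L68532 (by decide +kernel)
theorem L68534 : W_22 (nat_lit 8) (nat_lit 0x28000c0016000b0000000040000000000000000000000) (nat_lit 0x0) (nat_lit 0x8000700120001c000e000700000000000000000000000000) := T_22 (nat_lit 174) (nat_lit 191) (nat_lit 5) (nat_lit 5) (nat_lit 7) L68533 (by decide +kernel)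
theorem L68535 : W_22 (nat_lit 9) (nat_lit 0x20000c0016000b0000000040000000000000000000000) (nat_lit 0x0) (nat_lit 0x18000f00120001c000e000700000000000000000000000000) := T_22 (nat_lit 175) (nat_lit 192) (nat_lit 6) (nat_lit 5) (nat_lit 11) L68534 (by decide +kernel)
theorem L68536 : W_22 (nat_lit 10) (nat_lit 0x20000c0016000b0000000000000000000000000000000) (nat_lit 0x0) (nat_lit 0x18000f00120001c000e000f00040000000000000000000000) := T_22 (nat_lit 90) (nat_lit 107) (nat_lit 7) (nat_lit 5) (nat_lit 5) L68535 (by decide +kernel)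
theorem L68537 : W_22 (nat_lit 2) (nat_lit 0x100022000f0016800b0000d00000000000000000000000000) (nat_lit 0x0) (nat_lit 0xe000000000000000000000000000000) := D_22 (nat_lit 122) (nat_lit 121) (nat_lit 123) (nat_lit 4) (nat_lit 3) (nat_lit 10) (nat_lit 6) (nat_lit 3) (nat_lit 10) (by decide +kernel)
theorem L68538 : W_22 (nat_lit 3) (nat_lit 0x100020000f0016800b0000d00000000000000000000000000) (nat_lit 0x0) (nat_lit 0x3000000000000e000000000000000000000000000000) := T_22 (nat_lit 173) (nat_lit 172) (nat_lit 1) (nat_lit 6) (nat_lit 9) L68537 (by decide +kernel)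
theorem L68539 : W_22 (nat_lit 4) (nat_lit 0x100020000f0016000b0000d00000000000000000000000000) (nat_lit 0x0) (nat_lit 0x300000000c000e000000000000000000000000000000) := T_22 (nat_lit 139) (nat_lit 138) (nat_lit 0) (nat_lit 6) (nat_lit 9) L68538 (by decide +kernel)
theorem L68540 : W_22 (nat_lit 5) (nat_lit 0x100020000f0016000b0000c00000000000000000000000000) (nat_lit 0x0) (nat_lit 0x300000000c000e000300000000000000000000000000) := T_22 (nat_lit 104) (nat_lit 105) (nat_lit 3) (nat_lit 2) (nat_lit 6) L68539 (by decide +kernel)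
theorem L68541 : W_22 (nat_lit 6) (nat_lit 0x100020000f0016000b0000800000000000000000000000000) (nat_lit 0x0) (nat_lit 0x300000000c000e000700020000000000000000000000) := T_22 (nat_lit 106) (nat_lit 89) (nat_lit 4) (nat_lit 5) (nat_lit 9) L68540 (by decide +kernel)
theorem L68542 : W_22 (nat_lit 7) (nat_lit 0x100020000e0016000b0000800000000000000000000000000) (nat_lit 0x0) (nat_lit 0x300018000c000e000700020000000000000000000000) := T_22 (nat_lit 156) (nat_lit 155) (nat_lit 2) (nat_lit 2) (nat_lit 9) L68541 (by decide +kernel)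
theorem L68543 : W_22 (nat_lit 8) (nat_lit 0x100020000c0016000b0000800000000000000000000000000) (nat_lit 0x0) (nat_lit 0x700038000c000e000700020000000000000000000000) := T_22 (nat_lit 157) (nat_lit 174) (nat_lit 5) (nat_lit 5) (nat_lit 6) L68542 (by decide +kernel)
theorem L68544 : W_22 (nat_lit 9) (nat_lit 0x100020000c0016000b0000000000000000000000000000000) (nat_lit 0x0) (nat_lit 0x700038000c000e000f00060000000000000000000000) := T_22 (nat_lit 107) (nat_lit 90) (nat_lit 7) (nat_lit 5) (nat_lit 5) L68543 (by decide +kernel)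
theorem L68545 : W_22 (nat_lit 10) (nat_lit 0x20000c0016000b0000000000000000000000000000000) (nat_lit 0x0) (nat_lit 0x10000f00038000c000e000f00060000000000000000000000) := T_22 (nat_lit 192) (nat_lit 175) (nat_lit 6) (nat_lit 5) (nat_lit 11) L68544 (by decide +kernel)
theorem L68546 : W_22 (nat_lit 2) (nat_lit 0x20001e0016800b0000800000000000000000000000000) (nat_lit 0x0) (nat_lit 0x1800040000000000000000000000000000000000) := D_22 (nat_lit 156) (nat_lit 155) (nat_lit 138) (nat_lit 2) (nat_lit 2) (nat_lit 9) (nat_lit 0) (nat_lit 6) (nat_lit 9) (by decide +kernel)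
theorem L68547 : W_22 (nat_lit 3) (nat_lit 0x20001e0016000b0000800000000000000000000000000) (nat_lit 0x0) (nat_lit 0x18001c0000000000000000000000000000000000) := T_22 (nat_lit 139) (nat_lit 140) (nat_lit 3) (nat_lit 3) (nat_lit 8) L68546 (by decide +kernel)
theorem L68548 : W_22 (nat_lit 4) (nat_lit 0x20000e0016000b0000800000000000000000000000000) (nat_lit 0x0) (nat_lit 0x4000118001c0000000000000000000000000000000000) := T_22 (nat_lit 160) (nat_lit 178) (nat_lit 3) (nat_lit 4) (nat_lit 9) L68547 (by decide +kernel)
theorem L68549 : W_22 (nat_lit 5) (nat_lit 0x20000c0016000b0000800000000000000000000000000) (nat_lit 0x0) (nat_lit 0x4400138001c0000000000000000000000000000000000) := T_22 (nat_lit 157) (nat_lit 174) (nat_lit 5) (nat_lit 5) (nat_lit 6) L68548 (by decide +kernel)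
theorem L68550 : W_22 (nat_lit 6) (nat_lit 0x20000c0016000b0000000000000000000000000000000) (nat_lit 0x0) (nat_lit 0x4400138001c0000000800040000000000000000000000) := T_22 (nat_lit 107) (nat_lit 90) (nat_lit 7) (nat_lit 5) (nat_lit 5) L68549 (by decide +kernel)
theorem L68551 : W_22 (nat_lit 2) (nat_lit 0x2e000c0017800bc000200040000000000000000000000) (nat_lit 0x0) (nat_lit 0x400000001800000000000000000000000000000000000000) := D_22 (nat_lit 156) (nat_lit 155) (nat_lit 190) (nat_lit 1) (nat_lit 6) (nat_lit 8) (nat_lit 6) (nat_lit 3) (nat_lit 11) (by decide +kernel)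
theorem L68552 : W_22 (nat_lit 3) (nat_lit 0x2e000c0016800bc000200040000000000000000000000) (nat_lit 0x0) (nat_lit 0x400000011800100000000000000000000000000000000000) := T_22 (nat_lit 140) (nat_lit 160) (nat_lit 3) (nat_lit 3) (nat_lit 8) L68551 (by decide +kernel)
theorem L68553 : W_22 (nat_lit 4) (nat_lit 0x2e000c0016800bc000000040000000000000000000000) (nat_lit 0x0) (nat_lit 0x400000011800100000000300000000000000000000000000) := T_22 (nat_lit 105) (nat_lit 104) (nat_lit 0) (nat_lit 6) (nat_lit 7) L68552 (by decide +kernel)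
theorem L68554 : W_22 (nat_lit 5) (nat_lit 0x2e000c0016000bc000000040000000000000000000000) (nat_lit 0x0) (nat_lit 0x4000000118001c0000000300000000000000000000000000) := T_22 (nat_lit 139) (nat_lit 138) (nat_lit 1) (nat_lit 6) (nat_lit 7) L68553 (by decide +kernel)
theorem L68555 : W_22 (nat_lit 6) (nat_lit 0x2e000c0016000b8000000040000000000000000000000) (nat_lit 0x0) (nat_lit 0x4000000118001c0006000300000000000000000000000000) := T_22 (nat_lit 122) (nat_lit 121) (nat_lit 3) (nat_lit 2) (nat_lit 7) L68554 (by decide +kernel)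
theorem L68556 : W_22 (nat_lit 7) (nat_lit 0x2e000c0016000b0000000040000000000000000000000) (nat_lit 0x0) (nat_lit 0x4000000118001c000e000700000000000000000000000000) := T_22 (nat_lit 123) (nat_lit 106) (nat_lit 4) (nat_lit 5) (nat_lit 10) L68555 (by decide +kernel)
theorem L68557 : W_22 (nat_lit 8) (nat_lit 0x2c000c0016000b0000000040000000000000000000000) (nat_lit 0x0) (nat_lit 0x4000300118001c000e000700000000000000000000000000) := T_22 (nat_lit 173) (nat_lit 172) (nat_lit 2) (nat_lit 2) (nat_lit 10) L68556 (by decide +kernel)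
theorem L68558 : W_22 (nat_lit 9) (nat_lit 0x28000c0016000b0000000040000000000000000000000) (nat_lit 0x0) (nat_lit 0xc000700118001c000e000700000000000000000000000000) := T_22 (nat_lit 174) (nat_lit 191) (nat_lit 5) (nat_lit 5) (nat_lit 7) L68557 (by decide +kernel)
theorem L68559 : W_22 (nat_lit 10) (nat_lit 0x20000c0016000b0000000040000000000000000000000) (nat_lit 0x0) (nat_lit 0x1c000f00118001c000e000700000000000000000000000000) := T_22 (nat_lit 175) (nat_lit 192) (nat_lit 6) (nat_lit 5) (nat_lit 11) L68558 (by decide +kernel)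
theorem L68560 : W_22 (nat_lit 11) (nat_lit 0x20000c0016000b0000000000000000000000000000000) (nat_lit 0x0) (nat_lit 0x1c000f00118001c000e000f00040000000000000000000000) := T_22 (nat_lit 90) (nat_lit 107) (nat_lit 7) (nat_lit 5) (nat_lit 5) L68559 (by decide +kernel)
theorem L68561 : W_22 (nat_lit 2) (nat_lit 0x2d000c0016800bc000200000000000000000000000000) (nat_lit 0x0) (nat_lit 0x12000100000000000000000000000000000000000) := D_22 (nat_lit 140) (nat_lit 160) (nat_lit 157) (nat_lit 3) (nat_lit 3) (nat_lit 8) (nat_lit 4) (nat_lit 4) (nat_lit 10) (by decide +kernel)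
theorem L68562 : W_22 (nat_lit 3) (nat_lit 0x2d000c0016800bc000000000000000000000000000000) (nat_lit 0x0) (nat_lit 0x12000100000000300000000000000000000000000) := T_22 (nat_lit 105) (nat_lit 104) (nat_lit 0) (nat_lit 6) (nat_lit 7) L68561 (by decide +kernel)
theorem L68563 : W_22 (nat_lit 4) (nat_lit 0x2d000c0016000bc000000000000000000000000000000) (nat_lit 0x0) (nat_lit 0x120001c0000000300000000000000000000000000) := T_22 (nat_lit 139) (nat_lit 138) (nat_lit 1) (nat_lit 6) (nat_lit 7) L68562 (by decide +kernel)
theorem L68564 : W_22 (nat_lit 5) (nat_lit 0x2d000c0016000b8000000000000000000000000000000) (nat_lit 0x0) (nat_lit 0x120001c0006000300000000000000000000000000) := T_22 (nat_lit 122) (nat_lit 121) (nat_lit 3) (nat_lit 2) (nat_lit 7) L68563 (by decide +kernel)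
theorem L68565 : W_22 (nat_lit 6) (nat_lit 0x2d000c0016000b0000000000000000000000000000000) (nat_lit 0x0) (nat_lit 0x120001c000e000700000000000000000000000000) := T_22 (nat_lit 123) (nat_lit 106) (nat_lit 4) (nat_lit 5) (nat_lit 10) L68564 (by decide +kernel)
theorem L68566 : W_22 (nat_lit 7) (nat_lit 0x2c000c0016000b0000000000000000000000000000000) (nat_lit 0x0) (nat_lit 0x300120001c000e000700000000000000000000000000) := T_22 (nat_lit 172) (nat_lit 173) (nat_lit 2) (nat_lit 2) (nat_lit 10) L68565 (by decide +kernel)
theorem L68567 : W_22 (nat_lit 8) (nat_lit 0x28000c0016000b0000000000000000000000000000000) (nat_lit 0x0) (nat_lit 0x8000700120001c000e000700000000000000000000000000) := T_22 (nat_lit 174) (nat_lit 191) (nat_lit 5) (nat_lit 5) (nat_lit 7) L68566 (by decide +kernel)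
theorem L68568 : W_22 (nat_lit 9) (nat_lit 0x20000c0016000b0000000000000000000000000000000) (nat_lit 0x0) (nat_lit 0x18000f00120001c000e000700000000000000000000000000) := T_22 (nat_lit 175) (nat_lit 192) (nat_lit 6) (nat_lit 5) (nat_lit 11) L68567 (by decide +kernel)
theorem L68569 : W_22 (nat_lit 2) (nat_lit 0x28000c0017800bc000200040000000000000000000000) (nat_lit 0x0) (nat_lit 0x2000000000000000010000800000000000000000) := D_22 (nat_lit 88) (nat_lit 157) (nat_lit 71) (nat_lit 7) (nat_lit 3) (nat_lit 5) (nat_lit 7) (nat_lit 3) (nat_lit 4) (by decide +kernel)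
theorem L68570 : W_22 (nat_lit 3) (nat_lit 0x28000c0016800bc000200040000000000000000000000) (nat_lit 0x0) (nat_lit 0x12000100000000000010000800000000000000000) := T_22 (nat_lit 140) (nat_lit 160) (nat_lit 3) (nat_lit 3) (nat_lit 8) L68569 (by decide +kernel)
theorem L68571 : W_22 (nat_lit 4) (nat_lit 0x28000c0016800bc000000040000000000000000000000) (nat_lit 0x0) (nat_lit 0x12000100000000300010000800000000000000000) := T_22 (nat_lit 105) (nat_lit 104) (nat_lit 0) (nat_lit 6) (nat_lit 7) L68570 (by decide +kernel)
theorem L68572 : W_22 (nat_lit 5) (nat_lit 0x28000c0016000bc000000040000000000000000000000) (nat_lit 0x0) (nat_lit 0x120001c0000000300010000800000000000000000) := T_22 (nat_lit 139) (nat_lit 138) (nat_lit 1) (nat_lit 6) (nat_lit 7) L68571 (by decide +kernel)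
theorem L68573 : W_22 (nat_lit 6) (nat_lit 0x28000c0016000b8000000040000000000000000000000) (nat_lit 0x0) (nat_lit 0x120001c0006000300010000800000000000000000) := T_22 (nat_lit 122) (nat_lit 121) (nat_lit 3) (nat_lit 2) (nat_lit 7) L68572 (by decide +kernel)
theorem L68574 : W_22 (nat_lit 7) (nat_lit 0x28000c0016000b0000000040000000000000000000000) (nat_lit 0x0) (nat_lit 0x120001c000e000700010000800000000000000000) := T_22 (nat_lit 123) (nat_lit 106) (nat_lit 4) (nat_lit 5) (nat_lit 10) L68573 (by decide +kernel)
theorem L68575 : W_22 (nat_lit 8) (nat_lit 0x28000c0016000b0000000000000000000000000000000) (nat_lit 0x0) (nat_lit 0x120001c000e000f00050000800000000000000000) := T_22 (nat_lit 90) (nat_lit 107) (nat_lit 7) (nat_lit 5) (nat_lit 5) L68574 (by decide +kernel)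
theorem L68576 : W_22 (nat_lit 9) (nat_lit 0x20000c0016000b0000000000000000000000000000000) (nat_lit 0x0) (nat_lit 0x10000800120001c000e000f00050000800000000000000000) := T_22 (nat_lit 175) (nat_lit 192) (nat_lit 6) (nat_lit 5) (nat_lit 11) L68575 (by decide +kernel)
theorem L68577 : W_22 (nat_lit 2) (nat_lit 0x2e000c0016000bc000200040000000000000000000000) (nat_lit 0x0) (nat_lit 0x12000100000000000000000000000000000000000) := D_22 (nat_lit 157) (nat_lit 160) (nat_lit 140) (nat_lit 1) (nat_lit 7) (nat_lit 9) (nat_lit 4) (nat_lit 4) (nat_lit 10) (by decide +kernel)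
theorem L68578 : W_22 (nat_lit 3) (nat_lit 0x2e000c0016000bc000000040000000000000000000000) (nat_lit 0x0) (nat_lit 0x12000100000000300000000000000000000000000) := T_22 (nat_lit 105) (nat_lit 104) (nat_lit 0) (nat_lit 6) (nat_lit 7) L68577 (by decide +kernel)
theorem L68579 : W_22 (nat_lit 4) (nat_lit 0x2c000c0016000bc000000040000000000000000000000) (nat_lit 0x0) (nat_lit 0x30012000100000000300000000000000000000000000) := T_22 (nat_lit 173) (nat_lit 172) (nat_lit 2) (nat_lit 2) (nat_lit 10) L68578 (by decide +kernel)
theorem L68580 : W_22 (nat_lit 5) (nat_lit 0x28000c0016000bc000000040000000000000000000000) (nat_lit 0x0) (nat_lit 0x800070012000100000000300000000000000000000000000) := T_22 (nat_lit 174) (nat_lit 191) (nat_lit 5) (nat_lit 5) (nat_lit 7) L68579 (by decide +kernel)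
theorem L68581 : W_22 (nat_lit 6) (nat_lit 0x28000c0016000b8000000040000000000000000000000) (nat_lit 0x0) (nat_lit 0x800070012000100006000300000000000000000000000000) := T_22 (nat_lit 122) (nat_lit 121) (nat_lit 3) (nat_lit 2) (nat_lit 7) L68580 (by decide +kernel)
theorem L68582 : W_22 (nat_lit 7) (nat_lit 0x28000c0016000b0000000040000000000000000000000) (nat_lit 0x0) (nat_lit 0x80007001200010000e000700000000000000000000000000) := T_22 (nat_lit 123) (nat_lit 106) (nat_lit 4) (nat_lit 5) (nat_lit 10) L68581 (by decide +kernel)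
theorem L68583 : W_22 (nat_lit 8) (nat_lit 0x28000c0016000b0000000000000000000000000000000) (nat_lit 0x0) (nat_lit 0x80007001200010000e000f00040000000000000000000000) := T_22 (nat_lit 90) (nat_lit 107) (nat_lit 7) (nat_lit 5) (nat_lit 5) L68582 (by decide +kernel)
theorem L68584 : W_22 (nat_lit 9) (nat_lit 0x20000c0016000b0000000000000000000000000000000) (nat_lit 0x0) (nat_lit 0x18000f001200010000e000f00040000000000000000000000) := T_22 (nat_lit 175) (nat_lit 192) (nat_lit 6) (nat_lit 5) (nat_lit 11) L68583 (by decide +kernel)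
theorem L68585 : W_22 (nat_lit 12) (nat_lit 0x2000080016000b0000000000000000000000000000000) (nat_lit 0x0) (nat_lit 0x1c004f00178001c000e000f00070000800000000000000000) := Q_22 (nat_lit 158) (C_22 L68536 (C_22 L68545 (C_22 L68550 (C_22 L68560 (C_22 L68568 (C_22 L68576 (C_22 L68584 N_22))))))) (by decide +kernel)
theorem L68586 : W_22 (nat_lit 10) (nat_lit 0x30000c0016000b0000000000000000000000000000000) (nat_lit 0x0) (nat_lit 0x1e00cf00018001c000e000400000000000000000000000000) := T_22 (nat_lit 175) (nat_lit 192) (nat_lit 6) (nat_lit 5) (nat_lit 11) L67561 (by decide +kernel)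
theorem L68587 : W_22 (nat_lit 11) (nat_lit 0x20000c0016000b0000000000000000000000000000000) (nat_lit 0x0) (nat_lit 0x5e00df00018001c000e000400000000000000000000000000) := T_22 (nat_lit 176) (nat_lit 194) (nat_lit 7) (nat_lit 6) (nat_lit 7) L68586 (by decide +kernel)
theorem L68588 : W_22 (nat_lit 4) (nat_lit 0x20000c0016000b0000000000000000000000000000000) (nat_lit 0x0) (nat_lit 0x4000d00013000000000000000000000000000000000000000) := T_22 (nat_lit 176) (nat_lit 194) (nat_lit 7) (nat_lit 6) (nat_lit 7) L68488 (by decide +kernel)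
theorem L68589 : W_22 (nat_lit 12) (nat_lit 0x2000080016000b0000000000000000000000000000000) (nat_lit 0x0) (nat_lit 0x5e00df00178001c000e000700000000000000000000000000) := Q_22 (nat_lit 158) (C_22 L68568 (C_22 L68587 (C_22 L68588 N_22))) (by decide +kernel)
theorem L68590 : W_22 (nat_lit 13) (nat_lit 0x2000080016000a0000000000000000000000000000000) (nat_lit 0x0) (nat_lit 0x5e00df00178001c001e000f00070000800000000000000000) := Q_22 (nat_lit 124) (C_22 L68527 (C_22 L68585 (C_22 L68589 N_22))) (by decide +kernel)
theorem L68591 : W_22 (nat_lit 14) (nat_lit 0x2000080012000a0000000000000000000000000000000) (nat_lit 0x0) (nat_lit 0x5e00df00178005c001e003f001f000a800000000000000000) := Q_22 (nat_lit 142) (C_22 L68590 (C_22 L68180 (C_22 L68383 (C_22 L62607 N_22)))) (by decide +kernel)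
theorem L68592 : W_22 (nat_lit 6) (nat_lit 0x2000080016000a0000000000000000000000000000000) (nat_lit 0x0) (nat_lit 0x40001000040000000100038001c0008000000000000000000) := T_22 (nat_lit 176) (nat_lit 194) (nat_lit 7) (nat_lit 6) (nat_lit 7) L68278 (by decide +kernel)
theorem L68593 : W_22 (nat_lit 7) (nat_lit 0x2000080012000a0000000000000000000000000000000) (nat_lit 0x0) (nat_lit 0x800040001000740005800100038001c000a000000000000000000) := Q_22 (nat_lit 142) (C_22 L68180 (C_22 L68592 (C_22 L62613 N_22))) (by decide +kernel)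
theorem L68594 : W_22 (nat_lit 2) (nat_lit 0x20000e8016000b4003c00000000000000000000000000) (nat_lit 0x0) (nat_lit 0x2000300000000000000000000000000) := D_22 (nat_lit 105) (nat_lit 104) (nat_lit 121) (nat_lit 3) (nat_lit 2) (nat_lit 6) (nat_lit 1) (nat_lit 6) (nat_lit 6) (by decide +kernel)
theorem L68595 : W_22 (nat_lit 3) (nat_lit 0x20000e8016000b4003800000000000000000000000000) (nat_lit 0x0) (nat_lit 0x2000700020000000000000000000000) := T_22 (nat_lit 106) (nat_lit 89) (nat_lit 4) (nat_lit 5) (nat_lit 9) L68594 (by decide +kernel)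
theorem L68596 : W_22 (nat_lit 4) (nat_lit 0x20000e8016000b0003800000000000000000000000000) (nat_lit 0x0) (nat_lit 0xe000700020000000000000000000000) := T_22 (nat_lit 122) (nat_lit 123) (nat_lit 2) (nat_lit 3) (nat_lit 7) L68595 (by decide +kernel)
theorem L68597 : W_22 (nat_lit 5) (nat_lit 0x20000e0016000b0003800000000000000000000000000) (nat_lit 0x0) (nat_lit 0x180000000e000700020000000000000000000000) := T_22 (nat_lit 155) (nat_lit 156) (nat_lit 2) (nat_lit 2) (nat_lit 9) L68596 (by decide +kernel)
theorem L68598 : W_22 (nat_lit 6) (nat_lit 0x20000c0016000b0003800000000000000000000000000) (nat_lit 0x0) (nat_lit 0x4000380000000e000700020000000000000000000000) := T_22 (nat_lit 157) (nat_lit 174) (nat_lit 5) (nat_lit 5) (nat_lit 6) L68597 (by decide +kernel)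
theorem L68599 : W_22 (nat_lit 7) (nat_lit 0x20000c0016000a0003800000000000000000000000000) (nat_lit 0x0) (nat_lit 0x14000380000001e000700020000000000000000000000) := T_22 (nat_lit 124) (nat_lit 176) (nat_lit 7) (nat_lit 5) (nat_lit 6) L68598 (by decide +kernel)
theorem L68600 : W_22 (nat_lit 8) (nat_lit 0x20000c0016000a0001800000000000000000000000000) (nat_lit 0x0) (nat_lit 0x14000380000001e002700120000000000000000000000) := T_22 (nat_lit 109) (nat_lit 92) (nat_lit 6) (nat_lit 6) (nat_lit 9) L68599 (by decide +kernel)
theorem L68601 : W_22 (nat_lit 9) (nat_lit 0x20000c0016000a0001000000000000000000000000000) (nat_lit 0x0) (nat_lit 0x14000380000001e002f00160000000000000000000000) := T_22 (nat_lit 107) (nat_lit 90) (nat_lit 4) (nat_lit 6) (nat_lit 9) L68600 (by decide +kernel)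
theorem L68602 : W_22 (nat_lit 10) (nat_lit 0x20000c0016000a0000000000000000000000000000000) (nat_lit 0x0) (nat_lit 0x14000380000001e003f001e0000000000000000000000) := T_22 (nat_lit 108) (nat_lit 91) (nat_lit 5) (nat_lit 6) (nat_lit 5) L68601 (by decide +kernel)
theorem L68603 : W_22 (nat_lit 2) (nat_lit 0x20000c0016000a0000000000000000000000000000000) (nat_lit 0x0) (nat_lit 0x80000000000000001000080000000000000000000000) := D_22 (nat_lit 108) (nat_lit 91) (nat_lit 175) (nat_lit 5) (nat_lit 6) (nat_lit 5) (nat_lit 5) (nat_lit 6) (nat_lit 6) (by decide +kernel)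
theorem L68604 : W_22 (nat_lit 6) (nat_lit 0x30000c0016000a0000000000000000000000000000000) (nat_lit 0x0) (nat_lit 0x18000f0003800000010000800000000000000000000000000) := T_22 (nat_lit 175) (nat_lit 192) (nat_lit 6) (nat_lit 5) (nat_lit 11) L67552 (by decide +kernel)
theorem L68605 : W_22 (nat_lit 2) (nat_lit 0x70000c0016000a0000000000000000000000000000000) (nat_lit 0x0) (nat_lit 0x1000080002000000000000000000000000000000000000000) := D_22 (nat_lit 175) (nat_lit 192) (nat_lit 157) (nat_lit 6) (nat_lit 5) (nat_lit 11) (nat_lit 0) (nat_lit 8) (nat_lit 10) (by decide +kernel)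
theorem L68606 : W_22 (nat_lit 3) (nat_lit 0x30000c0016000a0000000000000000000000000000000) (nat_lit 0x0) (nat_lit 0x1000c80002000000000000000000000000000000000000000) := T_22 (nat_lit 178) (nat_lit 179) (nat_lit 0) (nat_lit 9) (nat_lit 10) L68605 (by decide +kernel)
theorem L68607 : W_22 (nat_lit 2) (nat_lit 0x20000c0016000b0000000000000000000000000000000) (nat_lit 0x0) (nat_lit 0x100000000000000000800040000000000000000000000) := D_22 (nat_lit 107) (nat_lit 176) (nat_lit 90) (nat_lit 7) (nat_lit 5) (nat_lit 6) (nat_lit 7) (nat_lit 5) (nat_lit 5) (by decide +kernel)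
theorem L68608 : W_22 (nat_lit 2) (nat_lit 0x2d000c0016800bc000200000000000000000000000000) (nat_lit 0x0) (nat_lit 0x3000100000000000000000000000000000000000) := D_22 (nat_lit 157) (nat_lit 140) (nat_lit 156) (nat_lit 4) (nat_lit 4) (nat_lit 10) (nat_lit 7) (nat_lit 3) (nat_lit 6) (by decide +kernel)
theorem L68609 : W_22 (nat_lit 3) (nat_lit 0x2d000c0016800bc000000000000000000000000000000) (nat_lit 0x0) (nat_lit 0x3000100000000300000000000000000000000000) := T_22 (nat_lit 105) (nat_lit 104) (nat_lit 0) (nat_lit 6) (nat_lit 7) L68608 (by decide +kernel)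
theorem L68610 : W_22 (nat_lit 4) (nat_lit 0x2d000c0016000bc000000000000000000000000000000) (nat_lit 0x0) (nat_lit 0x30001c0000000300000000000000000000000000) := T_22 (nat_lit 139) (nat_lit 138) (nat_lit 1) (nat_lit 6) (nat_lit 7) L68609 (by decide +kernel)
theorem L68611 : W_22 (nat_lit 5) (nat_lit 0x2d000c0016000b8000000000000000000000000000000) (nat_lit 0x0) (nat_lit 0x30001c0006000300000000000000000000000000) := T_22 (nat_lit 122) (nat_lit 121) (nat_lit 3) (nat_lit 2) (nat_lit 7) L68610 (by decide +kernel)
theorem L68612 : W_22 (nat_lit 6) (nat_lit 0x2d000c0016000b0000000000000000000000000000000) (nat_lit 0x0) (nat_lit 0x30001c000e000700000000000000000000000000) := T_22 (nat_lit 123) (nat_lit 106) (nat_lit 4) (nat_lit 5) (nat_lit 10) L68611 (by decide +kernel)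
theorem L68613 : W_22 (nat_lit 7) (nat_lit 0x2c000c0016000b0000000000000000000000000000000) (nat_lit 0x0) (nat_lit 0x300030001c000e000700000000000000000000000000) := T_22 (nat_lit 172) (nat_lit 173) (nat_lit 2) (nat_lit 2) (nat_lit 10) L68612 (by decide +kernel)
theorem L68614 : W_22 (nat_lit 8) (nat_lit 0x28000c0016000b0000000000000000000000000000000) (nat_lit 0x0) (nat_lit 0x8000700030001c000e000700000000000000000000000000) := T_22 (nat_lit 174) (nat_lit 191) (nat_lit 5) (nat_lit 5) (nat_lit 7) L68613 (by decide +kernel)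
theorem L68615 : W_22 (nat_lit 9) (nat_lit 0x20000c0016000b0000000000000000000000000000000) (nat_lit 0x0) (nat_lit 0x18000f00030001c000e000700000000000000000000000000) := T_22 (nat_lit 175) (nat_lit 192) (nat_lit 6) (nat_lit 5) (nat_lit 11) L68614 (by decide +kernel)
theorem L68616 : W_22 (nat_lit 11) (nat_lit 0x20000c0016000a0000000000000000000000000000000) (nat_lit 0x0) (nat_lit 0x18001f00038001c001e000f00060000000000000000000000) := Q_22 (nat_lit 124) (C_22 L68607 (C_22 L68545 (C_22 L68615 N_22))) (by decide +kernel)
theorem L68617 : W_22 (nat_lit 12) (nat_lit 0x2000080016000a0000000000000000000000000000000) (nat_lit 0x0) (nat_lit 0x18001f00078001c001e003f001e0000000000000000000000) := Q_22 (nat_lit 158) (C_22 L68602 (C_22 L68603 (C_22 L68616 N_22))) (by decide +kernel)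
theorem L68618 : W_22 (nat_lit 2) (nat_lit 0x2000080016000a0001000000000000000000000000000) (nat_lit 0x0) (nat_lit 0x80004000000000000000080000000000000000000000) := D_22 (nat_lit 158) (nat_lit 175) (nat_lit 91) (nat_lit 5) (nat_lit 6) (nat_lit 6) (nat_lit 5) (nat_lit 6) (nat_lit 5) (by decide +kernel)
theorem L68619 : W_22 (nat_lit 3) (nat_lit 0x2000080016000a0000000000000000000000000000000) (nat_lit 0x0) (nat_lit 0x80014000000000001000080000000000000000000000) := T_22 (nat_lit 108) (nat_lit 160) (nat_lit 7) (nat_lit 6) (nat_lit 6) L68618 (by decide +kernel)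
theorem L68620 : W_22 (nat_lit 2) (nat_lit 0x20000e0016000a0000000000000000000000000000000) (nat_lit 0x0) (nat_lit 0x100001800000000000000000000000000000000000000) := D_22 (nat_lit 156) (nat_lit 155) (nat_lit 176) (nat_lit 2) (nat_lit 2) (nat_lit 9) (nat_lit 3) (nat_lit 3) (nat_lit 9) (by decide +kernel)
theorem L68621 : W_22 (nat_lit 2) (nat_lit 0x20001e8016000a0000000000000000000000000000000) (nat_lit 0x0) (nat_lit 0x20000180000000000000000000000000000000000) := D_22 (nat_lit 140) (nat_lit 139) (nat_lit 161) (nat_lit 3) (nat_lit 3) (nat_lit 8) (nat_lit 0) (nat_lit 8) (nat_lit 9) (by decide +kernel)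
theorem L68622 : W_22 (nat_lit 3) (nat_lit 0x20000e8016000a0000000000000000000000000000000) (nat_lit 0x0) (nat_lit 0x400030000180000000000000000000000000000000000) := T_22 (nat_lit 160) (nat_lit 178) (nat_lit 3) (nat_lit 4) (nat_lit 9) L68621 (by decide +kernel)
theorem L68623 : W_22 (nat_lit 4) (nat_lit 0x20000e0016000a0000000000000000000000000000000) (nat_lit 0x0) (nat_lit 0x400031800180000000000000000000000000000000000) := T_22 (nat_lit 155) (nat_lit 156) (nat_lit 2) (nat_lit 2) (nat_lit 9) L68622 (by decide +kernel)
theorem L68624 : W_22 (nat_lit 2) (nat_lit 0x20001e0016000a0000000000000000000000000000000) (nat_lit 0x0) (nat_lit 0x20000180000000000000000000000000000000000) := D_22 (nat_lit 140) (nat_lit 139) (nat_lit 161) (nat_lit 3) (nat_lit 3) (nat_lit 8) (nat_lit 0) (nat_lit 8) (nat_lit 9) (by decide +kernel)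
theorem L68625 : W_22 (nat_lit 3) (nat_lit 0x20000e0016000a0000000000000000000000000000000) (nat_lit 0x0) (nat_lit 0x400030000180000000000000000000000000000000000) := T_22 (nat_lit 160) (nat_lit 178) (nat_lit 3) (nat_lit 4) (nat_lit 9) L68624 (by decide +kernel)
theorem L68626 : W_22 (nat_lit 5) (nat_lit 0x20000c0016000a0000000000000000000000000000000) (nat_lit 0x0) (nat_lit 0x500033800180000000000000000000000000000000000) := Q_22 (nat_lit 157) (C_22 L68620 (C_22 L68623 (C_22 L68625 N_22))) (by decide +kernel)
theorem L68627 : W_22 (nat_lit 2) (nat_lit 0x20001c0016000a0000000000000000000000000000000) (nat_lit 0x0) (nat_lit 0x60000100000000000000000000000000000000000) := D_22 (nat_lit 161) (nat_lit 140) (nat_lit 162) (nat_lit 0) (nat_lit 8) (nat_lit 9) (nat_lit 0) (nat_lit 9) (nat_lit 9) (by decide +kernel)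
theorem L68628 : W_22 (nat_lit 2) (nat_lit 0x24001e8017000a0000000000000000000000000000000) (nat_lit 0x0) (nat_lit 0x10000800000000000000010000000000000000000000000000000) := D_22 (nat_lit 191) (nat_lit 208) (nat_lit 124) (nat_lit 6) (nat_lit 4) (nat_lit 12) (nat_lit 6) (nat_lit 4) (nat_lit 11) (by decide +kernel)
theorem L68629 : W_22 (nat_lit 3) (nat_lit 0x24001e8016000a0000000000000000000000000000000) (nat_lit 0x0) (nat_lit 0x10000800000000000180010000000000000000000000000000000) := T_22 (nat_lit 140) (nat_lit 139) (nat_lit 3) (nat_lit 3) (nat_lit 8) L68628 (by decide +kernel)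
theorem L68630 : W_22 (nat_lit 4) (nat_lit 0x20001e8016000a0000000000000000000000000000000) (nat_lit 0x0) (nat_lit 0x10000800060000000180010000000000000000000000000000000) := T_22 (nat_lit 174) (nat_lit 173) (nat_lit 1) (nat_lit 7) (nat_lit 9) L68629 (by decide +kernel)
theorem L68631 : W_22 (nat_lit 5) (nat_lit 0x20001e0016000a0000000000000000000000000000000) (nat_lit 0x0) (nat_lit 0x10000800060001800180010000000000000000000000000000000) := T_22 (nat_lit 155) (nat_lit 156) (nat_lit 2) (nat_lit 2) (nat_lit 9) L68630 (by decide +kernel)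
theorem L68632 : W_22 (nat_lit 6) (nat_lit 0x20001c0016000a0000000000000000000000000000000) (nat_lit 0x0) (nat_lit 0x10000800460003800180010000000000000000000000000000000) := T_22 (nat_lit 157) (nat_lit 178) (nat_lit 3) (nat_lit 4) (nat_lit 9) L68631 (by decide +kernel)
theorem L68633 : W_22 (nat_lit 2) (nat_lit 0x2c005e8016000a0000000000000000000000000000000) (nat_lit 0x0) (nat_lit 0x10000800000000000000010000000000000000000000000000000) := D_22 (nat_lit 191) (nat_lit 208) (nat_lit 124) (nat_lit 6) (nat_lit 4) (nat_lit 12) (nat_lit 5) (nat_lit 5) (nat_lit 7) (by decide +kernel)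
theorem L68634 : W_22 (nat_lit 3) (nat_lit 0x24005e8016000a0000000000000000000000000000000) (nat_lit 0x0) (nat_lit 0x10001800080000000000010000000000000000000000000000000) := T_22 (nat_lit 175) (nat_lit 192) (nat_lit 6) (nat_lit 5) (nat_lit 11) L68633 (by decide +kernel)
theorem L68635 : W_22 (nat_lit 4) (nat_lit 0x20005e8016000a0000000000000000000000000000000) (nat_lit 0x0) (nat_lit 0x100018000e0000000000010000000000000000000000000000000) := T_22 (nat_lit 174) (nat_lit 173) (nat_lit 1) (nat_lit 7) (nat_lit 9) L68634 (by decide +kernel)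
theorem L68636 : W_22 (nat_lit 5) (nat_lit 0x20005e0016000a0000000000000000000000000000000) (nat_lit 0x0) (nat_lit 0x100018000e0001800000010000000000000000000000000000000) := T_22 (nat_lit 155) (nat_lit 156) (nat_lit 2) (nat_lit 2) (nat_lit 9) L68635 (by decide +kernel)
theorem L68637 : W_22 (nat_lit 6) (nat_lit 0x20005c0016000a0000000000000000000000000000000) (nat_lit 0x0) (nat_lit 0x100018004e0003800000010000000000000000000000000000000) := T_22 (nat_lit 157) (nat_lit 178) (nat_lit 3) (nat_lit 4) (nat_lit 9) L68636 (by decide +kernel)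
theorem L68638 : W_22 (nat_lit 7) (nat_lit 0x20001c0016000a0000000000000000000000000000000) (nat_lit 0x0) (nat_lit 0x100018004e0063800000010000000000000000000000000000000) := T_22 (nat_lit 162) (nat_lit 161) (nat_lit 0) (nat_lit 9) (nat_lit 9) L68637 (by decide +kernel)
theorem L68639 : W_22 (nat_lit 8) (nat_lit 0x20000c0016000a0000000000000000000000000000000) (nat_lit 0x0) (nat_lit 0x100018004e0073800180010000000000000000000000000000000) := Q_22 (nat_lit 160) (C_22 L68627 (C_22 L68632 (C_22 L68638 N_22))) (by decide +kernel)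
theorem L68640 : W_22 (nat_lit 2) (nat_lit 0x2d001c0016000bc000000000000000000000000000000) (nat_lit 0x0) (nat_lit 0x1c0000000000000000000000000000000000) := D_22 (nat_lit 139) (nat_lit 140) (nat_lit 138) (nat_lit 3) (nat_lit 3) (nat_lit 8) (nat_lit 1) (nat_lit 6) (nat_lit 7) (by decide +kernel)
theorem L68641 : W_22 (nat_lit 3) (nat_lit 0x2d001c0016000b8000000000000000000000000000000) (nat_lit 0x0) (nat_lit 0x1c0006000000000000000000000000000000) := T_22 (nat_lit 122) (nat_lit 121) (nat_lit 3) (nat_lit 2) (nat_lit 7) L68640 (by decide +kernel)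
theorem L68642 : W_22 (nat_lit 4) (nat_lit 0x2d001c0016000b0000000000000000000000000000000) (nat_lit 0x0) (nat_lit 0x1c000e000400000000000000000000000000) := T_22 (nat_lit 123) (nat_lit 106) (nat_lit 4) (nat_lit 5) (nat_lit 10) L68641 (by decide +kernel)
theorem L68643 : W_22 (nat_lit 5) (nat_lit 0x2d000c0016000b0000000000000000000000000000000) (nat_lit 0x0) (nat_lit 0x300001c000e000400000000000000000000000000) := T_22 (nat_lit 160) (nat_lit 161) (nat_lit 1) (nat_lit 8) (nat_lit 9) L68642 (by decide +kernel)
theorem L68644 : W_22 (nat_lit 6) (nat_lit 0x2c000c0016000b0000000000000000000000000000000) (nat_lit 0x0) (nat_lit 0x300300001c000e000400000000000000000000000000) := T_22 (nat_lit 172) (nat_lit 173) (nat_lit 2) (nat_lit 2) (nat_lit 10) L68643 (by decide +kernel)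
theorem L68645 : W_22 (nat_lit 7) (nat_lit 0x28000c0016000b0000000000000000000000000000000) (nat_lit 0x0) (nat_lit 0x8000700300001c000e000400000000000000000000000000) := T_22 (nat_lit 174) (nat_lit 191) (nat_lit 5) (nat_lit 5) (nat_lit 7) L68644 (by decide +kernel)
theorem L68646 : W_22 (nat_lit 8) (nat_lit 0x20000c0016000b0000000000000000000000000000000) (nat_lit 0x0) (nat_lit 0x18000f00300001c000e000400000000000000000000000000) := T_22 (nat_lit 175) (nat_lit 192) (nat_lit 6) (nat_lit 5) (nat_lit 11) L68645 (by decide +kernel)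
theorem L68647 : W_22 (nat_lit 12) (nat_lit 0x20000c0016000a0000000000000000000000000000000) (nat_lit 0x0) (nat_lit 0x1c001f00318001c001e000f00040000000000000000000000) := Q_22 (nat_lit 124) (C_22 L68607 (C_22 L68560 (C_22 L68646 N_22))) (by decide +kernel)
theorem L68648 : W_22 (nat_lit 8) (nat_lit 0x20000c0016000a0000000000000000000000000000000) (nat_lit 0x0) (nat_lit 0x1800df003380000001e000c00000000000000000000000000) := Q_22 (nat_lit 176) (C_22 L68606 (C_22 L68489 (C_22 L68604 (C_22 L68443 N_22)))) (by decide +kernel)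
theorem L68649 : W_22 (nat_lit 9) (nat_lit 0x20000c0016000a0000000000000000000000000000000) (nat_lit 0x0) (nat_lit 0x18001f00300001c001e000c00040000000000000000000000) := Q_22 (nat_lit 124) (C_22 L68607 (C_22 L68646 N_22)) (by decide +kernel)
theorem L68650 : W_22 (nat_lit 13) (nat_lit 0x2000080016000a0000000000000000000000000000000) (nat_lit 0x0) (nat_lit 0x10001c00df00778001c001e000f00060000000000000000000000) := Q_22 (nat_lit 158) (C_22 L68626 (C_22 L68639 (C_22 L68616 (C_22 L68647 (C_22 L68648 (C_22 L68649 N_22)))))) (by decide +kernel)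
theorem L68651 : W_22 (nat_lit 14) (nat_lit 0x2000080012000a0000000000000000000000000000000) (nat_lit 0x0) (nat_lit 0x10001c00df00778005c001e003f001e000a000000000000000000) := Q_22 (nat_lit 142) (C_22 L68180 (C_22 L68617 (C_22 L68619 (C_22 L68650 N_22)))) (by decide +kernel)
theorem L68652 : W_22 (nat_lit 5) (nat_lit 0x3800080016000a0001000000000000000000000000000) (nat_lit 0x0) (nat_lit 0x100020001c000e000100000000000000) := T_22 (nat_lit 92) (nat_lit 109) (nat_lit 6) (nat_lit 6) (nat_lit 9) L68185 (by decide +kernel)
theorem L68653 : W_22 (nat_lit 6) (nat_lit 0x3800080016000a0000000000000000000000000000000) (nat_lit 0x0) (nat_lit 0x40000000100030001c000e000100000000000000) := T_22 (nat_lit 108) (nat_lit 158) (nat_lit 5) (nat_lit 6) (nat_lit 6) L68652 (by decide +kernel)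
theorem L68654 : W_22 (nat_lit 7) (nat_lit 0x3000080016000a0000000000000000000000000000000) (nat_lit 0x0) (nat_lit 0x10000800040000000100030001c000e000100000000000000) := T_22 (nat_lit 175) (nat_lit 192) (nat_lit 5) (nat_lit 6) (nat_lit 7) L68653 (by decide +kernel)
theorem L68655 : W_22 (nat_lit 8) (nat_lit 0x2000080016000a0000000000000000000000000000000) (nat_lit 0x0) (nat_lit 0x50001800040000000100030001c000e000100000000000000) := T_22 (nat_lit 176) (nat_lit 194) (nat_lit 7) (nat_lit 6) (nat_lit 7) L68654 (by decide +kernel)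
theorem L68656 : W_22 (nat_lit 9) (nat_lit 0x2000080012000a0000000000000000000000000000000) (nat_lit 0x0) (nat_lit 0x800050005800740004000100030001c000e000100000000000000) := Q_22 (nat_lit 142) (C_22 L68619 (C_22 L68655 (C_22 L68176 N_22))) (by decide +kernel)
theorem L68657 : W_22 (nat_lit 15) (nat_lit 0x2000000012000a0000000000000000000000000000000) (nat_lit 0x0) (nat_lit 0x3f001f80fde0fdf0fff8045c031e00bf001f000f800100000000000000) := Q_22 (nat_lit 159) (C_22 L68195 (C_22 L68231 (C_22 L68287 (C_22 L68381 (C_22 L68382 (C_22 L68384 (C_22 L68526 (C_22 L68591 (C_22 L68593 (C_22 L68651 (C_22 L68656 N_22))))))))))) (by decide +kernel)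
theorem L68658 : W_22 (nat_lit 2) (nat_lit 0x2000000012000b8000800060006000000000000000000) (nat_lit 0x0) (nat_lit 0x1400000000000100000000000000) := D_22 (nat_lit 56) (nat_lit 106) (nat_lit 108) (nat_lit 5) (nat_lit 5) (nat_lit 3) (nat_lit 7) (nat_lit 5) (nat_lit 3) (by decide +kernel)
theorem L68659 : W_22 (nat_lit 3) (nat_lit 0x2000000012000b0000800060006000000000000000000) (nat_lit 0x0) (nat_lit 0x100008001400000000000100000000000000) := T_22 (nat_lit 123) (nat_lit 140) (nat_lit 5) (nat_lit 5) (nat_lit 4) L68658 (by decide +kernel)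
theorem L68660 : W_22 (nat_lit 4) (nat_lit 0x2000000012000b0000800060004000000000000000000) (nat_lit 0x0) (nat_lit 0x100008001400000002000300000000000000) := T_22 (nat_lit 73) (nat_lit 57) (nat_lit 6) (nat_lit 5) (nat_lit 7) L68659 (by decide +kernel)
theorem L68661 : W_22 (nat_lit 5) (nat_lit 0x2000000012000b0000800060000000000000000000000) (nat_lit 0x0) (nat_lit 0x100008001400080006000300000000000000) := T_22 (nat_lit 74) (nat_lit 91) (nat_lit 6) (nat_lit 5) (nat_lit 8) L68660 (by decide +kernel)
theorem L68662 : W_22 (nat_lit 6) (nat_lit 0x2000000012000b0000800040000000000000000000000) (nat_lit 0x0) (nat_lit 0x1000080014000a0007000300000000000000) := T_22 (nat_lit 89) (nat_lit 72) (nat_lit 4) (nat_lit 5) (nat_lit 8) L68661 (by decide +kernel)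
theorem L68663 : W_22 (nat_lit 2) (nat_lit 0x2000000012000b0000800068006000100000000000000) (nat_lit 0x0) (nat_lit 0x8000400000000000000008000000000) := D_22 (nat_lit 106) (nat_lit 123) (nat_lit 39) (nat_lit 5) (nat_lit 5) (nat_lit 3) (nat_lit 5) (nat_lit 5) (nat_lit 2) (by decide +kernel)
theorem L68664 : W_22 (nat_lit 3) (nat_lit 0x2000000012000b0000800068006000000000000000000) (nat_lit 0x0) (nat_lit 0x8001400000000000100008000000000) := T_22 (nat_lit 56) (nat_lit 108) (nat_lit 7) (nat_lit 5) (nat_lit 3) L68663 (by decide +kernel)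
theorem L68665 : W_22 (nat_lit 4) (nat_lit 0x2000000012000b0000800060006000000000000000000) (nat_lit 0x0) (nat_lit 0x8001400018000000100008000000000) := T_22 (nat_lit 87) (nat_lit 88) (nat_lit 2) (nat_lit 2) (nat_lit 5) L68664 (by decide +kernel)
theorem L68666 : W_22 (nat_lit 5) (nat_lit 0x2000000012000b0000800060004000000000000000000) (nat_lit 0x0) (nat_lit 0x8001400018002000300008000000000) := T_22 (nat_lit 73) (nat_lit 57) (nat_lit 6) (nat_lit 5) (nat_lit 7) L68665 (by decide +kernel)
theorem L68667 : W_22 (nat_lit 6) (nat_lit 0x2000000012000b0000800040004000000000000000000) (nat_lit 0x0) (nat_lit 0x8001400038003000300008000000000) := T_22 (nat_lit 89) (nat_lit 72) (nat_lit 4) (nat_lit 5) (nat_lit 8) L68666 (by decide +kernel)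
theorem L68668 : W_22 (nat_lit 7) (nat_lit 0x2000000012000b0000800040000000000000000000000) (nat_lit 0x0) (nat_lit 0x80014000b8007000300008000000000) := T_22 (nat_lit 74) (nat_lit 91) (nat_lit 6) (nat_lit 5) (nat_lit 8) L68667 (by decide +kernel)
theorem L68669 : W_22 (nat_lit 2) (nat_lit 0x2000000013400b0000800068006000100008000000000) (nat_lit 0x0) (nat_lit 0x80004000200000) := D_22 (nat_lit 38) (nat_lit 21) (nat_lit 55) (nat_lit 4) (nat_lit 5) (nat_lit 5) (nat_lit 4) (nat_lit 5) (nat_lit 6) (by decide +kernel)
theorem L68670 : W_22 (nat_lit 3) (nat_lit 0x2000000013400b0000800068006000100000000000000) (nat_lit 0x0) (nat_lit 0x40000000000008000c000200000) := T_22 (nat_lit 39) (nat_lit 106) (nat_lit 5) (nat_lit 5) (nat_lit 2) L68669 (by decide +kernel)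
theorem L68671 : W_22 (nat_lit 4) (nat_lit 0x2000000013400b0000800068006000000000000000000) (nat_lit 0x0) (nat_lit 0x140000000000018000c000200000) := T_22 (nat_lit 56) (nat_lit 108) (nat_lit 7) (nat_lit 5) (nat_lit 3) L68670 (by decide +kernel)
theorem L68672 : W_22 (nat_lit 5) (nat_lit 0x2000000013400b0000800060006000000000000000000) (nat_lit 0x0) (nat_lit 0x140001800000018000c000200000) := T_22 (nat_lit 87) (nat_lit 88) (nat_lit 2) (nat_lit 2) (nat_lit 5) L68671 (by decide +kernel)
theorem L68673 : W_22 (nat_lit 6) (nat_lit 0x2000000013400b0000800060004000000000000000000) (nat_lit 0x0) (nat_lit 0x140001800200038000c000200000) := T_22 (nat_lit 73) (nat_lit 57) (nat_lit 6) (nat_lit 5) (nat_lit 7) L68672 (by decide +kernel)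
theorem L68674 : W_22 (nat_lit 7) (nat_lit 0x2000000013000b0000800060004000000000000000000) (nat_lit 0x0) (nat_lit 0xc000000140001800200038000c000200000) := T_22 (nat_lit 138) (nat_lit 139) (nat_lit 2) (nat_lit 2) (nat_lit 8) L68673 (by decide +kernel)
theorem L68675 : W_22 (nat_lit 8) (nat_lit 0x2000000012000b0000800060004000000000000000000) (nat_lit 0x0) (nat_lit 0x20001c000000140001800200038000c000200000) := T_22 (nat_lit 140) (nat_lit 157) (nat_lit 5) (nat_lit 5) (nat_lit 5) L68674 (by decide +kernel)
theorem L68676 : W_22 (nat_lit 9) (nat_lit 0x2000000012000b0000800060000000000000000000000) (nat_lit 0x0) (nat_lit 0x20001c000000140009800600038000c000200000) := T_22 (nat_lit 74) (nat_lit 91) (nat_lit 6) (nat_lit 5) (nat_lit 8) L68675 (by decide +kernel)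
theorem L68677 : W_22 (nat_lit 10) (nat_lit 0x2000000012000b0000800040000000000000000000000) (nat_lit 0x0) (nat_lit 0x20001c00000014000b800700038000c000200000) := T_22 (nat_lit 89) (nat_lit 72) (nat_lit 4) (nat_lit 5) (nat_lit 8) L68676 (by decide +kernel)
theorem L68678 : W_22 (nat_lit 2) (nat_lit 0x2000000013400b0000e00060000000000000000000000) (nat_lit 0x0) (nat_lit 0x180004000000000000000000) := D_22 (nat_lit 91) (nat_lit 92) (nat_lit 74) (nat_lit 1) (nat_lit 7) (nat_lit 5) (nat_lit 6) (nat_lit 5) (nat_lit 8) (by decide +kernel)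
theorem L68679 : W_22 (nat_lit 3) (nat_lit 0x2000000013400b0000e00040000000000000000000000) (nat_lit 0x0) (nat_lit 0x1a0005000000000000000000) := T_22 (nat_lit 89) (nat_lit 72) (nat_lit 4) (nat_lit 5) (nat_lit 8) L68678 (by decide +kernel)
theorem L68680 : W_22 (nat_lit 4) (nat_lit 0x2000000013400b0000c00040000000000000000000000) (nat_lit 0x0) (nat_lit 0x3001a0005000000000000000000) := T_22 (nat_lit 105) (nat_lit 104) (nat_lit 3) (nat_lit 2) (nat_lit 6) L68679 (by decide +kernel)
theorem L68681 : W_22 (nat_lit 5) (nat_lit 0x2000000013000b0000c00040000000000000000000000) (nat_lit 0x0) (nat_lit 0xc00000003001a0005000000000000000000) := T_22 (nat_lit 138) (nat_lit 139) (nat_lit 2) (nat_lit 2) (nat_lit 8) L68680 (by decide +kernel)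
theorem L68682 : W_22 (nat_lit 6) (nat_lit 0x2000000012000b0000c00040000000000000000000000) (nat_lit 0x0) (nat_lit 0x20001c00000003001a0005000000000000000000) := T_22 (nat_lit 140) (nat_lit 157) (nat_lit 5) (nat_lit 5) (nat_lit 5) L68681 (by decide +kernel)
theorem L68683 : W_22 (nat_lit 2) (nat_lit 0x2000000012000b0000e00060000000000000000000000) (nat_lit 0x0) (nat_lit 0x180004000000000000000000) := D_22 (nat_lit 91) (nat_lit 74) (nat_lit 92) (nat_lit 6) (nat_lit 5) (nat_lit 8) (nat_lit 1) (nat_lit 7) (nat_lit 5) (by decide +kernel)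
theorem L68684 : W_22 (nat_lit 3) (nat_lit 0x2000000012000b0000c00060000000000000000000000) (nat_lit 0x0) (nat_lit 0x300180004000000000000000000) := T_22 (nat_lit 105) (nat_lit 104) (nat_lit 3) (nat_lit 2) (nat_lit 6) L68683 (by decide +kernel)
theorem L68685 : W_22 (nat_lit 4) (nat_lit 0x2000000012000b0000c00040000000000000000000000) (nat_lit 0x0) (nat_lit 0x3001a0005000000000000000000) := T_22 (nat_lit 89) (nat_lit 72) (nat_lit 4) (nat_lit 5) (nat_lit 8) L68684 (by decide +kernel)
theorem L68686 : W_22 (nat_lit 2) (nat_lit 0x2000000013800b8000d000f0000000000000000000000) (nat_lit 0x0) (nat_lit 0x3000008000000000000000000000) := D_22 (nat_lit 108) (nat_lit 109) (nat_lit 87) (nat_lit 3) (nat_lit 3) (nat_lit 5) (nat_lit 3) (nat_lit 2) (nat_lit 5) (by decide +kernel)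
theorem L68687 : W_22 (nat_lit 3) (nat_lit 0x2000000013800b8000d000e0000000000000000000000) (nat_lit 0x0) (nat_lit 0x3000018000800000000000000000) := T_22 (nat_lit 88) (nat_lit 71) (nat_lit 4) (nat_lit 4) (nat_lit 8) L68686 (by decide +kernel)
theorem L68688 : W_22 (nat_lit 4) (nat_lit 0x2000000013800b0000d000e0000000000000000000000) (nat_lit 0x0) (nat_lit 0x1000000008003000018000800000000000000000) := T_22 (nat_lit 123) (nat_lit 156) (nat_lit 5) (nat_lit 4) (nat_lit 5) L68687 (by decide +kernel)
theorem L68689 : W_22 (nat_lit 5) (nat_lit 0x2000000013800b0000d000c0000000000000000000000) (nat_lit 0x0) (nat_lit 0x1000000008003000038001800000000000000000) := T_22 (nat_lit 89) (nat_lit 72) (nat_lit 4) (nat_lit 5) (nat_lit 8) L68688 (by decide +kernel)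
theorem L68690 : W_22 (nat_lit 6) (nat_lit 0x2000000013000b0000d000c0000000000000000000000) (nat_lit 0x0) (nat_lit 0x10000c0008003000038001800000000000000000) := T_22 (nat_lit 139) (nat_lit 138) (nat_lit 2) (nat_lit 2) (nat_lit 8) L68689 (by decide +kernel)
theorem L68691 : W_22 (nat_lit 7) (nat_lit 0x2000000012000b0000d000c0000000000000000000000) (nat_lit 0x0) (nat_lit 0x30001c0008003000038001800000000000000000) := T_22 (nat_lit 140) (nat_lit 157) (nat_lit 5) (nat_lit 5) (nat_lit 5) L68690 (by decide +kernel)
theorem L68692 : W_22 (nat_lit 8) (nat_lit 0x2000000012000b0000c000c0000000000000000000000) (nat_lit 0x0) (nat_lit 0x30001c0008003300038001800000000000000000) := T_22 (nat_lit 104) (nat_lit 105) (nat_lit 3) (nat_lit 2) (nat_lit 6) L68691 (by decide +kernel)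
theorem L68693 : W_22 (nat_lit 9) (nat_lit 0x2000000012000b0000c00040000000000000000000000) (nat_lit 0x0) (nat_lit 0x30001c00080033000b8005800000000000000000) := T_22 (nat_lit 91) (nat_lit 74) (nat_lit 6) (nat_lit 5) (nat_lit 8) L68692 (by decide +kernel)
theorem L68694 : W_22 (nat_lit 2) (nat_lit 0x2000000013800b8000d00070000000000000000000000) (nat_lit 0x0) (nat_lit 0x1080008000000000000000000000) := D_22 (nat_lit 87) (nat_lit 108) (nat_lit 103) (nat_lit 3) (nat_lit 2) (nat_lit 5) (nat_lit 1) (nat_lit 5) (nat_lit 5) (by decide +kernel)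
theorem L68695 : W_22 (nat_lit 3) (nat_lit 0x2000000013800b8000d00060000000000000000000000) (nat_lit 0x0) (nat_lit 0x1080018000800000000000000000) := T_22 (nat_lit 88) (nat_lit 71) (nat_lit 4) (nat_lit 4) (nat_lit 8) L68694 (by decide +kernel)
theorem L68696 : W_22 (nat_lit 4) (nat_lit 0x2000000013800b0000d00060000000000000000000000) (nat_lit 0x0) (nat_lit 0x1000000008001080018000800000000000000000) := T_22 (nat_lit 123) (nat_lit 156) (nat_lit 5) (nat_lit 4) (nat_lit 5) L68695 (by decide +kernel)
theorem L68697 : W_22 (nat_lit 5) (nat_lit 0x2000000013000b0000d00060000000000000000000000) (nat_lit 0x0) (nat_lit 0x10000c0008001080018000800000000000000000) := T_22 (nat_lit 139) (nat_lit 138) (nat_lit 2) (nat_lit 2) (nat_lit 8) L68696 (by decide +kernel)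
theorem L68698 : W_22 (nat_lit 6) (nat_lit 0x2000000012000b0000d00060000000000000000000000) (nat_lit 0x0) (nat_lit 0x30001c0008001080018000800000000000000000) := T_22 (nat_lit 140) (nat_lit 157) (nat_lit 5) (nat_lit 5) (nat_lit 5) L68697 (by decide +kernel)
theorem L68699 : W_22 (nat_lit 7) (nat_lit 0x2000000012000b0000c00060000000000000000000000) (nat_lit 0x0) (nat_lit 0x30001c0008001380018000800000000000000000) := T_22 (nat_lit 104) (nat_lit 105) (nat_lit 3) (nat_lit 2) (nat_lit 6) L68698 (by decide +kernel)
theorem L68700 : W_22 (nat_lit 8) (nat_lit 0x2000000012000b0000c00040000000000000000000000) (nat_lit 0x0) (nat_lit 0x30001c0008001380038001800000000000000000) := T_22 (nat_lit 89) (nat_lit 72) (nat_lit 4) (nat_lit 5) (nat_lit 8) L68699 (by decide +kernel)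
theorem L68701 : W_22 (nat_lit 2) (nat_lit 0x2000000013400b0000e000c0000000000000000000000) (nat_lit 0x0) (nat_lit 0x320000000000000000000000) := D_22 (nat_lit 92) (nat_lit 93) (nat_lit 89) (nat_lit 1) (nat_lit 8) (nat_lit 5) (nat_lit 1) (nat_lit 7) (nat_lit 5) (by decide +kernel)
theorem L68702 : W_22 (nat_lit 3) (nat_lit 0x2000000013400b0000c000c0000000000000000000000) (nat_lit 0x0) (nat_lit 0x300320000000000000000000000) := T_22 (nat_lit 105) (nat_lit 104) (nat_lit 3) (nat_lit 2) (nat_lit 6) L68701 (by decide +kernel)
theorem L68703 : W_22 (nat_lit 4) (nat_lit 0x2000000013400b0000c00040000000000000000000000) (nat_lit 0x0) (nat_lit 0x3003a0004000000000000000000) := T_22 (nat_lit 91) (nat_lit 74) (nat_lit 6) (nat_lit 5) (nat_lit 8) L68702 (by decide +kernel)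
theorem L68704 : W_22 (nat_lit 5) (nat_lit 0x2000000013000b0000c00040000000000000000000000) (nat_lit 0x0) (nat_lit 0xc00000003003a0004000000000000000000) := T_22 (nat_lit 138) (nat_lit 139) (nat_lit 2) (nat_lit 2) (nat_lit 8) L68703 (by decide +kernel)
theorem L68705 : W_22 (nat_lit 6) (nat_lit 0x2000000012000b0000c00040000000000000000000000) (nat_lit 0x0) (nat_lit 0x20001c00000003003a0004000000000000000000) := T_22 (nat_lit 140) (nat_lit 157) (nat_lit 5) (nat_lit 5) (nat_lit 5) L68704 (by decide +kernel)
theorem L68706 : W_22 (nat_lit 2) (nat_lit 0x2000000013400b0000e000c0000000000000000000000) (nat_lit 0x0) (nat_lit 0x1000300000000000000000000000) := D_22 (nat_lit 92) (nat_lit 108) (nat_lit 93) (nat_lit 2) (nat_lit 3) (nat_lit 6) (nat_lit 1) (nat_lit 8) (nat_lit 5) (by decide +kernel)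
theorem L68707 : W_22 (nat_lit 3) (nat_lit 0x2000000013400b0000e00040000000000000000000000) (nat_lit 0x0) (nat_lit 0x1000380004000000000000000000) := T_22 (nat_lit 91) (nat_lit 74) (nat_lit 6) (nat_lit 5) (nat_lit 8) L68706 (by decide +kernel)
theorem L68708 : W_22 (nat_lit 4) (nat_lit 0x2000000013000b0000e00040000000000000000000000) (nat_lit 0x0) (nat_lit 0xc0000001000380004000000000000000000) := T_22 (nat_lit 138) (nat_lit 139) (nat_lit 2) (nat_lit 2) (nat_lit 8) L68707 (by decide +kernel)
theorem L68709 : W_22 (nat_lit 5) (nat_lit 0x2000000012000b0000e00040000000000000000000000) (nat_lit 0x0) (nat_lit 0x20001c0000001000380004000000000000000000) := T_22 (nat_lit 140) (nat_lit 157) (nat_lit 5) (nat_lit 5) (nat_lit 5) L68708 (by decide +kernel)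
theorem L68710 : W_22 (nat_lit 6) (nat_lit 0x2000000012000b0000c00040000000000000000000000) (nat_lit 0x0) (nat_lit 0x20001c0000001300380004000000000000000000) := T_22 (nat_lit 105) (nat_lit 104) (nat_lit 3) (nat_lit 2) (nat_lit 6) L68709 (by decide +kernel)
theorem L68711 : W_22 (nat_lit 2) (nat_lit 0x2000000013800b8000c002f0000000000000000000000) (nat_lit 0x0) (nat_lit 0x3000008000000000000000000000) := D_22 (nat_lit 108) (nat_lit 109) (nat_lit 87) (nat_lit 3) (nat_lit 3) (nat_lit 5) (nat_lit 3) (nat_lit 2) (nat_lit 5) (by decide +kernel)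
theorem L68712 : W_22 (nat_lit 3) (nat_lit 0x2000000013800b8000c002e0000000000000000000000) (nat_lit 0x0) (nat_lit 0x3000018000800000000000000000) := T_22 (nat_lit 88) (nat_lit 71) (nat_lit 4) (nat_lit 4) (nat_lit 8) L68711 (by decide +kernel)
theorem L68713 : W_22 (nat_lit 4) (nat_lit 0x2000000013800b0000c002e0000000000000000000000) (nat_lit 0x0) (nat_lit 0x1000000008003000018000800000000000000000) := T_22 (nat_lit 123) (nat_lit 156) (nat_lit 5) (nat_lit 4) (nat_lit 5) L68712 (by decide +kernel)
theorem L68714 : W_22 (nat_lit 5) (nat_lit 0x2000000013000b0000c002e0000000000000000000000) (nat_lit 0x0) (nat_lit 0x10000c0008003000018000800000000000000000) := T_22 (nat_lit 139) (nat_lit 138) (nat_lit 2) (nat_lit 2) (nat_lit 8) L68713 (by decide +kernel)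
theorem L68715 : W_22 (nat_lit 6) (nat_lit 0x2000000012000b0000c002e0000000000000000000000) (nat_lit 0x0) (nat_lit 0x30001c0008003000018000800000000000000000) := T_22 (nat_lit 140) (nat_lit 157) (nat_lit 5) (nat_lit 5) (nat_lit 5) L68714 (by decide +kernel)
theorem L68716 : W_22 (nat_lit 7) (nat_lit 0x2000000012000b0000c002c0000000000000000000000) (nat_lit 0x0) (nat_lit 0x30001c0008003000038001800000000000000000) := T_22 (nat_lit 89) (nat_lit 72) (nat_lit 4) (nat_lit 5) (nat_lit 8) L68715 (by decide +kernel)
theorem L68717 : W_22 (nat_lit 8) (nat_lit 0x2000000012000b0000c000c0000000000000000000000) (nat_lit 0x0) (nat_lit 0x30001c0008003000338001800000000000000000) := T_22 (nat_lit 93) (nat_lit 92) (nat_lit 1) (nat_lit 8) (nat_lit 5) L68716 (by decide +kernel)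
theorem L68718 : W_22 (nat_lit 9) (nat_lit 0x2000000012000b0000c00040000000000000000000000) (nat_lit 0x0) (nat_lit 0x30001c00080030003b8005800000000000000000) := T_22 (nat_lit 91) (nat_lit 74) (nat_lit 6) (nat_lit 5) (nat_lit 8) L68717 (by decide +kernel)
theorem L68719 : W_22 (nat_lit 10) (nat_lit 0x2000000012000b0000800040000000000000000000000) (nat_lit 0x0) (nat_lit 0x30001c00080037803b8005800000000000000000) := Q_22 (nat_lit 106) (C_22 L68682 (C_22 L68685 (C_22 L68693 (C_22 L68700 (C_22 L68705 (C_22 L68710 (C_22 L68718 N_22))))))) (by decide +kernel)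
theorem L68720 : W_22 (nat_lit 11) (nat_lit 0x2000000012000b0000800000000000000000000000000) (nat_lit 0x0) (nat_lit 0x30001c00080037803f800780038000c000200000) := Q_22 (nat_lit 90) (C_22 L32815 (C_22 L68662 (C_22 L68668 (C_22 L67918 (C_22 L68677 (C_22 L68719 N_22)))))) (by decide +kernel)
theorem L68721 : W_22 (nat_lit 7) (nat_lit 0x2000000012000b0000800000000000000000000000000) (nat_lit 0x0) (nat_lit 0x1400034000f8007000380000000000000) := T_22 (nat_lit 126) (nat_lit 106) (nat_lit 0) (nat_lit 8) (nat_lit 7) L67778 (by decide +kernel)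
theorem L68722 : W_22 (nat_lit 12) (nat_lit 0x2000000012000b0000000000000000000000000000000) (nat_lit 0x0) (nat_lit 0x30001c0148003f803f800780038000c000200000) := Q_22 (nat_lit 107) (C_22 L68720 (C_22 L67924 (C_22 L61828 (C_22 L68721 N_22)))) (by decide +kernel)
theorem L68723 : W_22 (nat_lit 2) (nat_lit 0x40003c00040012000b0000d00000000000000000000000000) (nat_lit 0x0) (nat_lit 0x400030000000000000000000000000000000000000000) := D_22 (nat_lit 161) (nat_lit 160) (nat_lit 178) (nat_lit 2) (nat_lit 4) (nat_lit 10) (nat_lit 5) (nat_lit 8) (nat_lit 7) (by decide +kernel)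
theorem L68724 : W_22 (nat_lit 3) (nat_lit 0x3c00040012000b0000d00000000000000000000000000) (nat_lit 0x0) (nat_lit 0xc000400030000000000000000000000000000000000000000) := T_22 (nat_lit 194) (nat_lit 195) (nat_lit 3) (nat_lit 4) (nat_lit 10) L68723 (by decide +kernel)
theorem L68725 : W_22 (nat_lit 4) (nat_lit 0x3800040012000b0000d00000000000000000000000000) (nat_lit 0x0) (nat_lit 0xc800440030000000000000000000000000000000000000000) := T_22 (nat_lit 174) (nat_lit 191) (nat_lit 5) (nat_lit 5) (nat_lit 7) L68724 (by decide +kernel)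
theorem L68726 : W_22 (nat_lit 5) (nat_lit 0x2800040012000b0000d00000000000000000000000000) (nat_lit 0x0) (nat_lit 0xc800540038000000000000000000000000000000000000000) := T_22 (nat_lit 176) (nat_lit 159) (nat_lit 7) (nat_lit 5) (nat_lit 6) L68725 (by decide +kernel)
theorem L68727 : W_22 (nat_lit 6) (nat_lit 0x2000040012000b0000d00000000000000000000000000) (nat_lit 0x0) (nat_lit 0xc8005c0038000000008000000000000000000000000000000) := T_22 (nat_lit 175) (nat_lit 123) (nat_lit 4) (nat_lit 5) (nat_lit 10) L68726 (by decide +kernel)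
theorem L68728 : W_22 (nat_lit 7) (nat_lit 0x2000040012000b0000c00000000000000000000000000) (nat_lit 0x0) (nat_lit 0xc8005c0038000000008000300000000000000000000000000) := T_22 (nat_lit 104) (nat_lit 105) (nat_lit 3) (nat_lit 2) (nat_lit 6) L68727 (by decide +kernel)
theorem L68729 : W_22 (nat_lit 8) (nat_lit 0x2000040012000b0000800000000000000000000000000) (nat_lit 0x0) (nat_lit 0xc8005c0038000000008000700020000000000000000000000) := T_22 (nat_lit 106) (nat_lit 89) (nat_lit 4) (nat_lit 5) (nat_lit 9) L68728 (by decide +kernel)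
theorem L68730 : W_22 (nat_lit 2) (nat_lit 0x7800040012000b0000d00000000000000000000000000) (nat_lit 0x0) (nat_lit 0x4000000060000000000000000000000000000000000000000) := D_22 (nat_lit 161) (nat_lit 162) (nat_lit 194) (nat_lit 2) (nat_lit 5) (nat_lit 10) (nat_lit 5) (nat_lit 8) (nat_lit 7) (by decide +kernel)
theorem L68731 : W_22 (nat_lit 3) (nat_lit 0x3800040012000b0000d00000000000000000000000000) (nat_lit 0x0) (nat_lit 0x4000400062000000000000000000000000000000000000000) := T_22 (nat_lit 178) (nat_lit 157) (nat_lit 0) (nat_lit 8) (nat_lit 10) L68730 (by decide +kernel)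
theorem L68732 : W_22 (nat_lit 4) (nat_lit 0x2800040012000b0000d00000000000000000000000000) (nat_lit 0x0) (nat_lit 0x400050006a000000000000000000000000000000000000000) := T_22 (nat_lit 176) (nat_lit 159) (nat_lit 7) (nat_lit 5) (nat_lit 6) L68731 (by decide +kernel)
theorem L68733 : W_22 (nat_lit 5) (nat_lit 0x2000040012000b0000d00000000000000000000000000) (nat_lit 0x0) (nat_lit 0x400058006a000000008000000000000000000000000000000) := T_22 (nat_lit 175) (nat_lit 123) (nat_lit 4) (nat_lit 5) (nat_lit 10) L68732 (by decide +kernel)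
theorem L68734 : W_22 (nat_lit 6) (nat_lit 0x2000040012000b0000c00000000000000000000000000) (nat_lit 0x0) (nat_lit 0x400058006a000000008000300000000000000000000000000) := T_22 (nat_lit 104) (nat_lit 105) (nat_lit 3) (nat_lit 2) (nat_lit 6) L68733 (by decide +kernel)
theorem L68735 : W_22 (nat_lit 7) (nat_lit 0x2000040012000b0000800000000000000000000000000) (nat_lit 0x0) (nat_lit 0x400058006a000000008000700020000000000000000000000) := T_22 (nat_lit 106) (nat_lit 89) (nat_lit 4) (nat_lit 5) (nat_lit 9) L68734 (by decide +kernel)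
theorem L68736 : W_22 (nat_lit 2) (nat_lit 0x20000e0012000b0000800040005000000000000000000) (nat_lit 0x0) (nat_lit 0x2000280000000000000) := D_22 (nat_lit 73) (nat_lit 55) (nat_lit 57) (nat_lit 4) (nat_lit 5) (nat_lit 7) (nat_lit 6) (nat_lit 5) (nat_lit 7) (by decide +kernel)
theorem L68737 : W_22 (nat_lit 3) (nat_lit 0x20000e0012000b0000800040001000000000000000000) (nat_lit 0x0) (nat_lit 0x80006000280000000000000) := T_22 (nat_lit 74) (nat_lit 91) (nat_lit 6) (nat_lit 5) (nat_lit 8) L68736 (by decide +kernel)
theorem L68738 : W_22 (nat_lit 4) (nat_lit 0x20000e0012000b0000800040000000000000000000000) (nat_lit 0x0) (nat_lit 0xa0007000280000000000000) := T_22 (nat_lit 72) (nat_lit 89) (nat_lit 4) (nat_lit 5) (nat_lit 8) L68737 (by decide +kernel)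
theorem L68739 : W_22 (nat_lit 5) (nat_lit 0x20000e0012000b0000800000000000000000000000000) (nat_lit 0x0) (nat_lit 0x1000000000000e0007000280000000000000) := T_22 (nat_lit 90) (nat_lit 140) (nat_lit 5) (nat_lit 5) (nat_lit 5) L68738 (by decide +kernel)
theorem L68740 : W_22 (nat_lit 6) (nat_lit 0x20000c0012000b0000800000000000000000000000000) (nat_lit 0x0) (nat_lit 0x400020001000000000000e0007000280000000000000) := T_22 (nat_lit 157) (nat_lit 174) (nat_lit 5) (nat_lit 5) (nat_lit 6) L68739 (by decide +kernel)
theorem L68741 : W_22 (nat_lit 7) (nat_lit 0x2000040012000b0000800000000000000000000000000) (nat_lit 0x0) (nat_lit 0x14000a0001000000000000e0007000280000000000000) := T_22 (nat_lit 159) (nat_lit 176) (nat_lit 7) (nat_lit 5) (nat_lit 6) L68740 (by decide +kernel)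
theorem L68742 : W_22 (nat_lit 2) (nat_lit 0x3f000a60012001b00008000c0000000000000000000000) (nat_lit 0x0) (nat_lit 0xe0000000000000000000000000000000000000000000000000) := D_22 (nat_lit 198) (nat_lit 197) (nat_lit 199) (nat_lit 3) (nat_lit 7) (nat_lit 10) (nat_lit 3) (nat_lit 8) (nat_lit 10) (by decide +kernel)
theorem L68743 : W_22 (nat_lit 3) (nat_lit 0x1f000a60012001b00008000c0000000000000000000000) (nat_lit 0x0) (nat_lit 0xe0002000010000000000000000000000000000000000000000) := T_22 (nat_lit 181) (nat_lit 160) (nat_lit 0) (nat_lit 11) (nat_lit 10) L68742 (by decide +kernel)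
theorem L68744 : W_22 (nat_lit 4) (nat_lit 0xf000a60012001b00008000c0000000000000000000000) (nat_lit 0x0) (nat_lit 0xe0003000110000000000000000000000000000000000000000) := T_22 (nat_lit 180) (nat_lit 164) (nat_lit 2) (nat_lit 7) (nat_lit 10) L68743 (by decide +kernel)
theorem L68745 : W_22 (nat_lit 5) (nat_lit 0xf000260012001b00008000c0000000000000000000000) (nat_lit 0x0) (nat_lit 0xe00030001d0000000000000000000000000000000000000000) := T_22 (nat_lit 163) (nat_lit 162) (nat_lit 2) (nat_lit 6) (nat_lit 10) L68744 (by decide +kernel)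
theorem L68746 : W_22 (nat_lit 6) (nat_lit 0x7000260012001b00008000c0000000000000000000000) (nat_lit 0x0) (nat_lit 0xf00038001d0000000000000000000000000000000000000000) := T_22 (nat_lit 179) (nat_lit 196) (nat_lit 7) (nat_lit 8) (nat_lit 7) L68745 (by decide +kernel)
theorem L68747 : W_22 (nat_lit 7) (nat_lit 0x7000260012000b00008000c0000000000000000000000) (nat_lit 0x0) (nat_lit 0xf00038001d0000000100008000000000000000000000000000) := T_22 (nat_lit 128) (nat_lit 111) (nat_lit 6) (nat_lit 8) (nat_lit 10) L68746 (by decide +kernel)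
theorem L68748 : W_22 (nat_lit 8) (nat_lit 0x7000060012000b00008000c0000000000000000000000) (nat_lit 0x0) (nat_lit 0xf40038001f0000000100008000000000000000000000000000) := T_22 (nat_lit 161) (nat_lit 194) (nat_lit 5) (nat_lit 8) (nat_lit 7) L68747 (by decide +kernel)
theorem L68749 : W_22 (nat_lit 9) (nat_lit 0x3000060012000b00008000c0000000000000000000000) (nat_lit 0x0) (nat_lit 0xf4003c801f0000000100008000000000000000000000000000) := T_22 (nat_lit 178) (nat_lit 175) (nat_lit 0) (nat_lit 8) (nat_lit 10) L68748 (by decide +kernel)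
theorem L68750 : W_22 (nat_lit 10) (nat_lit 0x3000060012000b0000800040000000000000000000000) (nat_lit 0x0) (nat_lit 0xf4003c801f0000000100008000080004000000000000000000) := T_22 (nat_lit 91) (nat_lit 74) (nat_lit 6) (nat_lit 5) (nat_lit 8) L68749 (by decide +kernel)
theorem L68751 : W_22 (nat_lit 11) (nat_lit 0x2000060012000b0000800040000000000000000000000) (nat_lit 0x0) (nat_lit 0xf4003d801f8000000100008000080004000000000000000000) := T_22 (nat_lit 176) (nat_lit 159) (nat_lit 7) (nat_lit 5) (nat_lit 6) L68750 (by decide +kernel)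
theorem L68752 : W_22 (nat_lit 12) (nat_lit 0x2000060012000b0000800000000000000000000000000) (nat_lit 0x0) (nat_lit 0xf4003d801f80001001000080000c0004000000000000000000) := T_22 (nat_lit 90) (nat_lit 140) (nat_lit 5) (nat_lit 5) (nat_lit 5) L68751 (by decide +kernel)
theorem L68753 : W_22 (nat_lit 13) (nat_lit 0x2000040012000b0000800000000000000000000000000) (nat_lit 0x0) (nat_lit 0xf4003dc01fa0001001000080000c0004000000000000000000) := T_22 (nat_lit 157) (nat_lit 174) (nat_lit 5) (nat_lit 5) (nat_lit 6) L68752 (by decide +kernel)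
theorem L68754 : W_22 (nat_lit 14) (nat_lit 0x2000040012000b0000000000000000000000000000000) (nat_lit 0x0) (nat_lit 0xfc803dc01fa000100108008f000e0007000280000000000000) := Q_22 (nat_lit 107) (C_22 L67877 (C_22 L68729 (C_22 L68735 (C_22 L68741 (C_22 L68753 N_22))))) (by decide +kernel)
theorem L68755 : W_22 (nat_lit 6) (nat_lit 0x2000040012000b0000e00000000000000000000000000) (nat_lit 0x0) (nat_lit 0x10000e003000098000800040000000000000) := T_22 (nat_lit 108) (nat_lit 91) (nat_lit 6) (nat_lit 5) (nat_lit 9) L60900 (by decide +kernel)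
theorem L68756 : W_22 (nat_lit 7) (nat_lit 0x2000040012000b0000c00000000000000000000000000) (nat_lit 0x0) (nat_lit 0x10000e003300098000800040000000000000) := T_22 (nat_lit 105) (nat_lit 104) (nat_lit 3) (nat_lit 2) (nat_lit 6) L68755 (by decide +kernel)
theorem L68757 : W_22 (nat_lit 8) (nat_lit 0x2000040012000b0000800000000000000000000000000) (nat_lit 0x0) (nat_lit 0x10000e0037000b8000800040000000000000) := T_22 (nat_lit 106) (nat_lit 89) (nat_lit 4) (nat_lit 5) (nat_lit 9) L68756 (by decide +kernel)
theorem L68758 : W_22 (nat_lit 2) (nat_lit 0x20001e0012000b00008000a0000000000000000000000) (nat_lit 0x0) (nat_lit 0x40005000000000000000000) := D_22 (nat_lit 90) (nat_lit 72) (nat_lit 74) (nat_lit 4) (nat_lit 5) (nat_lit 8) (nat_lit 6) (nat_lit 5) (nat_lit 8) (by decide +kernel)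
theorem L68759 : W_22 (nat_lit 3) (nat_lit 0x20001e0012000b0000800020000000000000000000000) (nat_lit 0x0) (nat_lit 0x10000c0005000000000000000000) := T_22 (nat_lit 91) (nat_lit 108) (nat_lit 6) (nat_lit 5) (nat_lit 9) L68758 (by decide +kernel)
theorem L68760 : W_22 (nat_lit 4) (nat_lit 0x20001e0012000b0000800000000000000000000000000) (nat_lit 0x0) (nat_lit 0x14000e0005000000000000000000) := T_22 (nat_lit 89) (nat_lit 106) (nat_lit 4) (nat_lit 5) (nat_lit 9) L68759 (by decide +kernel)
theorem L68761 : W_22 (nat_lit 5) (nat_lit 0x20000e0012000b0000800000000000000000000000000) (nat_lit 0x0) (nat_lit 0x4000100000000000014000e0005000000000000000000) := T_22 (nat_lit 160) (nat_lit 178) (nat_lit 3) (nat_lit 4) (nat_lit 9) L68760 (by decide +kernel)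
theorem L68762 : W_22 (nat_lit 6) (nat_lit 0x20000c0012000b0000800000000000000000000000000) (nat_lit 0x0) (nat_lit 0x4400120000000000014000e0005000000000000000000) := T_22 (nat_lit 157) (nat_lit 174) (nat_lit 5) (nat_lit 5) (nat_lit 6) L68761 (by decide +kernel)
theorem L68763 : W_22 (nat_lit 7) (nat_lit 0x2000040012000b0000800000000000000000000000000) (nat_lit 0x0) (nat_lit 0x54001a0000000000014000e0005000000000000000000) := T_22 (nat_lit 159) (nat_lit 176) (nat_lit 7) (nat_lit 5) (nat_lit 6) L68762 (by decide +kernel)
theorem L68764 : W_22 (nat_lit 2) (nat_lit 0x20000e0013000b0001800000000000000000000000000) (nat_lit 0x0) (nat_lit 0x400010000080000000000000000000000000000000000) := D_22 (nat_lit 160) (nat_lit 178) (nat_lit 139) (nat_lit 3) (nat_lit 4) (nat_lit 9) (nat_lit 0) (nat_lit 7) (nat_lit 9) (by decide +kernel)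
theorem L68765 : W_22 (nat_lit 3) (nat_lit 0x2000060013000b0001800000000000000000000000000) (nat_lit 0x0) (nat_lit 0x500018000080000000000000000000000000000000000) := T_22 (nat_lit 159) (nat_lit 176) (nat_lit 7) (nat_lit 5) (nat_lit 6) L68764 (by decide +kernel)
theorem L68766 : W_22 (nat_lit 4) (nat_lit 0x2000060012000b0001800000000000000000000000000) (nat_lit 0x0) (nat_lit 0x500018000180000000000040000000000000000000000) := T_22 (nat_lit 140) (nat_lit 90) (nat_lit 5) (nat_lit 5) (nat_lit 5) L68765 (by decide +kernel)
theorem L68767 : W_22 (nat_lit 5) (nat_lit 0x2000040012000b0001800000000000000000000000000) (nat_lit 0x0) (nat_lit 0x54001a000180000000000040000000000000000000000) := T_22 (nat_lit 157) (nat_lit 174) (nat_lit 5) (nat_lit 5) (nat_lit 6) L68766 (by decide +kernel)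
theorem L68768 : W_22 (nat_lit 6) (nat_lit 0x2000040012000b0000800000000000000000000000000) (nat_lit 0x0) (nat_lit 0x54001a0001800000010000c0000000000000000000000) := T_22 (nat_lit 108) (nat_lit 91) (nat_lit 6) (nat_lit 5) (nat_lit 9) L68767 (by decide +kernel)
theorem L68769 : W_22 (nat_lit 9) (nat_lit 0x2000040012000b0000000000000000000000000000000) (nat_lit 0x0) (nat_lit 0x54001a00018000e003f000f80078002c0000000000000) := Q_22 (nat_lit 107) (C_22 L68741 (C_22 L67877 (C_22 L68757 (C_22 L68763 (C_22 L68768 N_22))))) (by decide +kernel)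
theorem L68770 : W_22 (nat_lit 4) (nat_lit 0x2c00040012000b0000d00000000000000000000000000) (nat_lit 0x0) (nat_lit 0xc000500038000000000000000000000000000000000000000) := T_22 (nat_lit 176) (nat_lit 159) (nat_lit 7) (nat_lit 5) (nat_lit 6) L68724 (by decide +kernel)
theorem L68771 : W_22 (nat_lit 5) (nat_lit 0x2c00040012000b0000c00000000000000000000000000) (nat_lit 0x0) (nat_lit 0xc000500038000000000000300000000000000000000000000) := T_22 (nat_lit 104) (nat_lit 105) (nat_lit 3) (nat_lit 2) (nat_lit 6) L68770 (by decide +kernel)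
theorem L68772 : W_22 (nat_lit 6) (nat_lit 0x2c00040012000b0000400000000000000000000000000) (nat_lit 0x0) (nat_lit 0xc000500038000000000000b00020000000000000000000000) := T_22 (nat_lit 107) (nat_lit 89) (nat_lit 4) (nat_lit 5) (nat_lit 9) L68771 (by decide +kernel)
theorem L68773 : W_22 (nat_lit 7) (nat_lit 0x2c00040012000b0000000000000000000000000000000) (nat_lit 0x0) (nat_lit 0xc000500038000000008000f00020000000000000000000000) := T_22 (nat_lit 106) (nat_lit 123) (nat_lit 4) (nat_lit 5) (nat_lit 10) L68772 (by decide +kernel)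
theorem L68774 : W_22 (nat_lit 8) (nat_lit 0x2800040012000b0000000000000000000000000000000) (nat_lit 0x0) (nat_lit 0xc800540038000000008000f00020000000000000000000000) := T_22 (nat_lit 174) (nat_lit 191) (nat_lit 5) (nat_lit 5) (nat_lit 7) L68773 (by decide +kernel)
theorem L68775 : W_22 (nat_lit 9) (nat_lit 0x2000040012000b0000000000000000000000000000000) (nat_lit 0x0) (nat_lit 0xc8005c0038000000008001f00020000000000000000000000) := T_22 (nat_lit 175) (nat_lit 108) (nat_lit 6) (nat_lit 5) (nat_lit 10) L68774 (by decide +kernel)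
theorem L68776 : W_22 (nat_lit 2) (nat_lit 0x8002800040012000b8000000000000000000000000000000) (nat_lit 0x0) (nat_lit 0x10001000000000000100000000000000000000000000000000000) := D_22 (nat_lit 192) (nat_lit 208) (nat_lit 140) (nat_lit 5) (nat_lit 5) (nat_lit 8) (nat_lit 4) (nat_lit 5) (nat_lit 11) (by decide +kernel)
theorem L68777 : W_22 (nat_lit 3) (nat_lit 0x8002800040012000b0000000000000000000000000000000) (nat_lit 0x0) (nat_lit 0x10001000000000000100008000400000000000000000000000000) := T_22 (nat_lit 123) (nat_lit 106) (nat_lit 4) (nat_lit 5) (nat_lit 10) L68776 (by decide +kernel)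
theorem L68778 : W_22 (nat_lit 4) (nat_lit 0x2800040012000b0000000000000000000000000000000) (nat_lit 0x0) (nat_lit 0x10001800040000000100008000400000000000000000000000000) := T_22 (nat_lit 191) (nat_lit 174) (nat_lit 5) (nat_lit 5) (nat_lit 7) L68777 (by decide +kernel)
theorem L68779 : W_22 (nat_lit 5) (nat_lit 0x2000040012000b0000000000000000000000000000000) (nat_lit 0x0) (nat_lit 0x100018000c0000000100008001400000000000000000000000000) := T_22 (nat_lit 175) (nat_lit 108) (nat_lit 6) (nat_lit 5) (nat_lit 10) L68778 (by decide +kernel)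
theorem L68780 : W_22 (nat_lit 2) (nat_lit 0xc000300010007800040012000b8000000000000000000000000000000) (nat_lit 0x0) (nat_lit 0x4000000060000000000000000000000000000000000000000) := D_22 (nat_lit 161) (nat_lit 162) (nat_lit 194) (nat_lit 2) (nat_lit 5) (nat_lit 10) (nat_lit 5) (nat_lit 8) (nat_lit 7) (by decide +kernel)
theorem L68781 : W_22 (nat_lit 3) (nat_lit 0xc000300010003800040012000b8000000000000000000000000000000) (nat_lit 0x0) (nat_lit 0x4000400062000000000000000000000000000000000000000) := T_22 (nat_lit 178) (nat_lit 157) (nat_lit 0) (nat_lit 8) (nat_lit 10) L68780 (by decide +kernel)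
theorem L68782 : W_22 (nat_lit 4) (nat_lit 0xc000300010002800040012000b8000000000000000000000000000000) (nat_lit 0x0) (nat_lit 0x400050006a000000000000000000000000000000000000000) := T_22 (nat_lit 176) (nat_lit 159) (nat_lit 6) (nat_lit 5) (nat_lit 13) L68781 (by decide +kernel)
theorem L68783 : W_22 (nat_lit 5) (nat_lit 0x8000300010002800040012000b8000000000000000000000000000000) (nat_lit 0x0) (nat_lit 0x1000040000000400050006a000000000000000000000000000000000000000) := T_22 (nat_lit 226) (nat_lit 244) (nat_lit 7) (nat_lit 5) (nat_lit 10) L68782 (by decide +kernel)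
theorem L68784 : W_22 (nat_lit 6) (nat_lit 0x300010002800040012000b8000000000000000000000000000000) (nat_lit 0x0) (nat_lit 0x10000c0004000400050006a000000000000000000000000000000000000000) := T_22 (nat_lit 227) (nat_lit 210) (nat_lit 7) (nat_lit 5) (nat_lit 9) L68783 (by decide +kernel)
theorem L68785 : W_22 (nat_lit 7) (nat_lit 0x100010002800040012000b8000000000000000000000000000000) (nat_lit 0x0) (nat_lit 0x10000e0006000400050006a000000000000000000000000000000000000000) := T_22 (nat_lit 209) (nat_lit 225) (nat_lit 5) (nat_lit 5) (nat_lit 9) L68784 (by decide +kernel)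
theorem L68786 : W_22 (nat_lit 8) (nat_lit 0x10002800040012000b8000000000000000000000000000000) (nat_lit 0x0) (nat_lit 0x10000e0007000480050006a000000000000000000000000000000000000000) := T_22 (nat_lit 208) (nat_lit 191) (nat_lit 5) (nat_lit 5) (nat_lit 8) L68785 (by decide +kernel)
theorem L68787 : W_22 (nat_lit 9) (nat_lit 0x2800040012000b8000000000000000000000000000000) (nat_lit 0x0) (nat_lit 0x10000e0007000580050006a000100000000000000000000000000000000000) := T_22 (nat_lit 192) (nat_lit 140) (nat_lit 4) (nat_lit 5) (nat_lit 11) L68786 (by decide +kernel)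
theorem L68788 : W_22 (nat_lit 10) (nat_lit 0x2800040012000b0000000000000000000000000000000) (nat_lit 0x0) (nat_lit 0x10000e0007000580050006a000100008000400000000000000000000000000) := T_22 (nat_lit 123) (nat_lit 106) (nat_lit 4) (nat_lit 5) (nat_lit 10) L68787 (by decide +kernel)
theorem L68789 : W_22 (nat_lit 11) (nat_lit 0x2000040012000b0000000000000000000000000000000) (nat_lit 0x0) (nat_lit 0x10000e0007000580058006a000100008001400000000000000000000000000) := T_22 (nat_lit 175) (nat_lit 108) (nat_lit 6) (nat_lit 5) (nat_lit 10) L68788 (by decide +kernel)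
theorem L68790 : W_22 (nat_lit 6) (nat_lit 0x2c00040012000b0000800000000000000000000000000) (nat_lit 0x0) (nat_lit 0xc000500038000000000000700020000000000000000000000) := T_22 (nat_lit 106) (nat_lit 89) (nat_lit 4) (nat_lit 5) (nat_lit 9) L68771 (by decide +kernel)
theorem L68791 : W_22 (nat_lit 7) (nat_lit 0x2c00040012000b0000000000000000000000000000000) (nat_lit 0x0) (nat_lit 0xc00050003a000000000000f00020000000000000000000000) := T_22 (nat_lit 107) (nat_lit 157) (nat_lit 5) (nat_lit 5) (nat_lit 6) L68790 (by decide +kernel)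
theorem L68792 : W_22 (nat_lit 8) (nat_lit 0x2800040012000b0000000000000000000000000000000) (nat_lit 0x0) (nat_lit 0xc80054003a000000000000f00020000000000000000000000) := T_22 (nat_lit 174) (nat_lit 191) (nat_lit 5) (nat_lit 5) (nat_lit 7) L68791 (by decide +kernel)
theorem L68793 : W_22 (nat_lit 9) (nat_lit 0x2000040012000b0000000000000000000000000000000) (nat_lit 0x0) (nat_lit 0xc8005c003a000000000001f00020000000000000000000000) := T_22 (nat_lit 175) (nat_lit 108) (nat_lit 6) (nat_lit 5) (nat_lit 10) L68792 (by decide +kernel)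
theorem L68794 : W_22 (nat_lit 2) (nat_lit 0x40003c00040012000b0000800000000000000000000000000) (nat_lit 0x0) (nat_lit 0x400030000000000000000000000000000000000000000) := D_22 (nat_lit 161) (nat_lit 160) (nat_lit 178) (nat_lit 2) (nat_lit 4) (nat_lit 10) (nat_lit 5) (nat_lit 8) (nat_lit 7) (by decide +kernel)
theorem L68795 : W_22 (nat_lit 3) (nat_lit 0x3c00040012000b0000800000000000000000000000000) (nat_lit 0x0) (nat_lit 0xc000400030000000000000000000000000000000000000000) := T_22 (nat_lit 194) (nat_lit 195) (nat_lit 3) (nat_lit 4) (nat_lit 10) L68794 (by decide +kernel)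
theorem L68796 : W_22 (nat_lit 4) (nat_lit 0x2c00040012000b0000800000000000000000000000000) (nat_lit 0x0) (nat_lit 0xc000500038000000000000000000000000000000000000000) := T_22 (nat_lit 176) (nat_lit 159) (nat_lit 7) (nat_lit 5) (nat_lit 6) L68795 (by decide +kernel)
theorem L68797 : W_22 (nat_lit 5) (nat_lit 0x2c00040012000b0000000000000000000000000000000) (nat_lit 0x0) (nat_lit 0xc00050003a000000000000800000000000000000000000000) := T_22 (nat_lit 107) (nat_lit 157) (nat_lit 5) (nat_lit 5) (nat_lit 6) L68796 (by decide +kernel)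
theorem L68798 : W_22 (nat_lit 6) (nat_lit 0x2800040012000b0000000000000000000000000000000) (nat_lit 0x0) (nat_lit 0xc80054003a000000000000800000000000000000000000000) := T_22 (nat_lit 174) (nat_lit 191) (nat_lit 5) (nat_lit 5) (nat_lit 7) L68797 (by decide +kernel)
theorem L68799 : W_22 (nat_lit 7) (nat_lit 0x2000040012000b0000000000000000000000000000000) (nat_lit 0x0) (nat_lit 0xc8005c003a000000000001800000000000000000000000000) := T_22 (nat_lit 175) (nat_lit 108) (nat_lit 6) (nat_lit 5) (nat_lit 10) L68798 (by decide +kernel)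
theorem L68800 : W_22 (nat_lit 15) (nat_lit 0x2000000012000b0000000000000000000000000000000) (nat_lit 0x0) (nat_lit 0x10000e000700fd803dc01fe00018010e00bf000f80078002c0000000000000) := Q_22 (nat_lit 158) (C_22 L67859 (C_22 L68754 (C_22 L68769 (C_22 L68775 (C_22 L68779 (C_22 L68789 (C_22 L68793 (C_22 L68799 N_22)))))))) (by decide +kernel)
theorem L68801 : W_22 (nat_lit 6) (nat_lit 0x2000000012000b0000800000000000000000000000000) (nat_lit 0x0) (nat_lit 0x60001000080007001e0007000280000000000000) := Q_22 (nat_lit 90) (C_22 L32815 (C_22 L32808 (C_22 L67918 N_22))) (by decide +kernel)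
theorem L68802 : W_22 (nat_lit 6) (nat_lit 0x2000000012000b0000d00000000000000000000000000) (nat_lit 0x0) (nat_lit 0x400058006e000000008000000020000000000000000000000) := T_22 (nat_lit 158) (nat_lit 89) (nat_lit 4) (nat_lit 5) (nat_lit 9) L68733 (by decide +kernel)
theorem L68803 : W_22 (nat_lit 7) (nat_lit 0x2000000012000b0000c00000000000000000000000000) (nat_lit 0x0) (nat_lit 0x400058006e000000008000300020000000000000000000000) := T_22 (nat_lit 104) (nat_lit 105) (nat_lit 3) (nat_lit 2) (nat_lit 6) L68802 (by decide +kernel)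
theorem L68804 : W_22 (nat_lit 8) (nat_lit 0x2000000012000b0000800000000000000000000000000) (nat_lit 0x0) (nat_lit 0x400058006e000000048000700020000000000000000000000) := T_22 (nat_lit 106) (nat_lit 126) (nat_lit 0) (nat_lit 8) (nat_lit 7) L68803 (by decide +kernel)
theorem L68805 : W_22 (nat_lit 9) (nat_lit 0x2000000012000b0000000000000000000000000000000) (nat_lit 0x0) (nat_lit 0x400058006e0001c0048000f001e0007000280000000000000) := Q_22 (nat_lit 107) (C_22 L67924 (C_22 L68801 (C_22 L61828 (C_22 L68804 N_22)))) (by decide +kernel)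
theorem L68806 : W_22 (nat_lit 5) (nat_lit 0x2000000012000b0000000000000000000000000000000) (nat_lit 0x0) (nat_lit 0x4000100140001c00080004000000000000000000) := T_22 (nat_lit 126) (nat_lit 140) (nat_lit 1) (nat_lit 8) (nat_lit 7) L67696 (by decide +kernel)
theorem L68807 : W_22 (nat_lit 2) (nat_lit 0x44003e00200012000f0000000000000000000000000000000) (nat_lit 0x0) (nat_lit 0x3800000000000000000000000000000000000000) := D_22 (nat_lit 156) (nat_lit 155) (nat_lit 157) (nat_lit 0) (nat_lit 6) (nat_lit 10) (nat_lit 0) (nat_lit 7) (nat_lit 10) (by decide +kernel)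
theorem L68808 : W_22 (nat_lit 3) (nat_lit 0x44003c00200012000f0000000000000000000000000000000) (nat_lit 0x0) (nat_lit 0x200020003800000000000000000000000000000000000000) := T_22 (nat_lit 173) (nat_lit 189) (nat_lit 1) (nat_lit 6) (nat_lit 10) L68807 (by decide +kernel)
theorem L68809 : W_22 (nat_lit 4) (nat_lit 0x4003c00200012000f0000000000000000000000000000000) (nat_lit 0x0) (nat_lit 0xc200020003800000000000000000000000000000000000000) := T_22 (nat_lit 194) (nat_lit 195) (nat_lit 3) (nat_lit 4) (nat_lit 10) L68808 (by decide +kernel)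
theorem L68810 : W_22 (nat_lit 5) (nat_lit 0x3c00200012000f0000000000000000000000000000000) (nat_lit 0x0) (nat_lit 0xce00020003800000000000000000000000000000000000000) := T_22 (nat_lit 190) (nat_lit 191) (nat_lit 1) (nat_lit 7) (nat_lit 10) L68809 (by decide +kernel)
theorem L68811 : W_22 (nat_lit 6) (nat_lit 0x2c00200012000f0000000000000000000000000000000) (nat_lit 0x0) (nat_lit 0xce00120013800000000000000000000000000000000000000) := T_22 (nat_lit 176) (nat_lit 160) (nat_lit 2) (nat_lit 4) (nat_lit 10) L68810 (by decide +kernel)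
theorem L68812 : W_22 (nat_lit 7) (nat_lit 0x2c00200012000b0000000000000000000000000000000) (nat_lit 0x0) (nat_lit 0xce00120013800100040000000000000000000000000000000) := T_22 (nat_lit 126) (nat_lit 140) (nat_lit 1) (nat_lit 8) (nat_lit 7) L68811 (by decide +kernel)
theorem L68813 : W_22 (nat_lit 2) (nat_lit 0x8003c00200012000b0000000000000000000000000000000) (nat_lit 0x0) (nat_lit 0x3000100000000000000000000000000000000000) := D_22 (nat_lit 157) (nat_lit 156) (nat_lit 140) (nat_lit 0) (nat_lit 7) (nat_lit 10) (nat_lit 6) (nat_lit 4) (nat_lit 11) (by decide +kernel)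
theorem L68814 : W_22 (nat_lit 3) (nat_lit 0x3c00200012000b0000000000000000000000000000000) (nat_lit 0x0) (nat_lit 0xc00000003000100000000000000000000000000000000000) := T_22 (nat_lit 191) (nat_lit 190) (nat_lit 1) (nat_lit 7) (nat_lit 10) L68813 (by decide +kernel)
theorem L68815 : W_22 (nat_lit 4) (nat_lit 0x2c00200012000b0000000000000000000000000000000) (nat_lit 0x0) (nat_lit 0xc00100013000100000000000000000000000000000000000) := T_22 (nat_lit 176) (nat_lit 160) (nat_lit 2) (nat_lit 4) (nat_lit 10) L68814 (by decide +kernel)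
theorem L68816 : W_22 (nat_lit 2) (nat_lit 0x2e00220013400b8000400000000000000000000000000) (nat_lit 0x0) (nat_lit 0x4000200010000000000000000000000) := D_22 (nat_lit 105) (nat_lit 88) (nat_lit 122) (nat_lit 4) (nat_lit 4) (nat_lit 9) (nat_lit 4) (nat_lit 4) (nat_lit 10) (by decide +kernel)
theorem L68817 : W_22 (nat_lit 3) (nat_lit 0x2e00220013400b8000000000000000000000000000000) (nat_lit 0x0) (nat_lit 0x1000000004000600010000000000000000000000) := T_22 (nat_lit 106) (nat_lit 156) (nat_lit 5) (nat_lit 4) (nat_lit 6) L68816 (by decide +kernel)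
theorem L68818 : W_22 (nat_lit 4) (nat_lit 0x2c00220013400b8000000000000000000000000000000) (nat_lit 0x0) (nat_lit 0x400020001000000004000600010000000000000000000000) := T_22 (nat_lit 173) (nat_lit 190) (nat_lit 5) (nat_lit 4) (nat_lit 7) L68817 (by decide +kernel)
theorem L68819 : W_22 (nat_lit 5) (nat_lit 0x2c00220013400b0000000000000000000000000000000) (nat_lit 0x0) (nat_lit 0x140002000100000000c000600010000000000000000000000) := T_22 (nat_lit 123) (nat_lit 192) (nat_lit 7) (nat_lit 4) (nat_lit 7) L68818 (by decide +kernel)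
theorem L68820 : W_22 (nat_lit 6) (nat_lit 0x2c00200013400b0000000000000000000000000000000) (nat_lit 0x0) (nat_lit 0x1c0002000300000000c000600010000000000000000000000) := T_22 (nat_lit 157) (nat_lit 191) (nat_lit 6) (nat_lit 4) (nat_lit 11) L68819 (by decide +kernel)
theorem L68821 : W_22 (nat_lit 7) (nat_lit 0x2c00200013000b0000000000000000000000000000000) (nat_lit 0x0) (nat_lit 0x1c000200030000c000c000600010000000000000000000000) := T_22 (nat_lit 138) (nat_lit 139) (nat_lit 2) (nat_lit 2) (nat_lit 8) L68820 (by decide +kernel)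
theorem L68822 : W_22 (nat_lit 8) (nat_lit 0x2c00200012000b0000000000000000000000000000000) (nat_lit 0x0) (nat_lit 0x1c000200030001c004c000600010000000000000000000000) := T_22 (nat_lit 140) (nat_lit 126) (nat_lit 1) (nat_lit 8) (nat_lit 7) L68821 (by decide +kernel)
theorem L68823 : W_22 (nat_lit 2) (nat_lit 0x44003e00210013000b0000000000000000000000000000000) (nat_lit 0x0) (nat_lit 0xc0008000000000000000000000000000000) := D_22 (nat_lit 139) (nat_lit 138) (nat_lit 123) (nat_lit 2) (nat_lit 2) (nat_lit 8) (nat_lit 6) (nat_lit 3) (nat_lit 11) (by decide +kernel)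
theorem L68824 : W_22 (nat_lit 3) (nat_lit 0x44003e00200013000b0000000000000000000000000000000) (nat_lit 0x0) (nat_lit 0x18000c0008000000000000000000000000000000) := T_22 (nat_lit 156) (nat_lit 155) (nat_lit 0) (nat_lit 6) (nat_lit 10) L68823 (by decide +kernel)
theorem L68825 : W_22 (nat_lit 4) (nat_lit 0x44003c00200013000b0000000000000000000000000000000) (nat_lit 0x0) (nat_lit 0x2000200018000c0008000000000000000000000000000000) := T_22 (nat_lit 173) (nat_lit 189) (nat_lit 1) (nat_lit 6) (nat_lit 10) L68824 (by decide +kernel)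
theorem L68826 : W_22 (nat_lit 5) (nat_lit 0x4003c00200013000b0000000000000000000000000000000) (nat_lit 0x0) (nat_lit 0xc2000200018000c0008000000000000000000000000000000) := T_22 (nat_lit 194) (nat_lit 195) (nat_lit 3) (nat_lit 4) (nat_lit 10) L68825 (by decide +kernel)
theorem L68827 : W_22 (nat_lit 6) (nat_lit 0x3c00200013000b0000000000000000000000000000000) (nat_lit 0x0) (nat_lit 0xce000200018000c0008000000000000000000000000000000) := T_22 (nat_lit 190) (nat_lit 191) (nat_lit 1) (nat_lit 7) (nat_lit 10) L68826 (by decide +kernel)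
theorem L68828 : W_22 (nat_lit 7) (nat_lit 0x2c00200013000b0000000000000000000000000000000) (nat_lit 0x0) (nat_lit 0xce001200118000c0008000000000000000000000000000000) := T_22 (nat_lit 176) (nat_lit 160) (nat_lit 2) (nat_lit 4) (nat_lit 10) L68827 (by decide +kernel)
theorem L68829 : W_22 (nat_lit 8) (nat_lit 0x2c00200012000b0000000000000000000000000000000) (nat_lit 0x0) (nat_lit 0xce001200118001c0048000000000000000000000000000000) := T_22 (nat_lit 140) (nat_lit 126) (nat_lit 1) (nat_lit 8) (nat_lit 7) L68828 (by decide +kernel)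
theorem L68830 : W_22 (nat_lit 2) (nat_lit 0x44003e00200012000b0000000000000000000000000000000) (nat_lit 0x0) (nat_lit 0x3800000000000000000000000000000000000000) := D_22 (nat_lit 156) (nat_lit 155) (nat_lit 157) (nat_lit 0) (nat_lit 6) (nat_lit 10) (nat_lit 0) (nat_lit 7) (nat_lit 10) (by decide +kernel)
theorem L68831 : W_22 (nat_lit 3) (nat_lit 0x44003c00200012000b0000000000000000000000000000000) (nat_lit 0x0) (nat_lit 0x200020003800000000000000000000000000000000000000) := T_22 (nat_lit 173) (nat_lit 189) (nat_lit 1) (nat_lit 6) (nat_lit 10) L68830 (by decide +kernel)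
theorem L68832 : W_22 (nat_lit 4) (nat_lit 0x4003c00200012000b0000000000000000000000000000000) (nat_lit 0x0) (nat_lit 0xc200020003800000000000000000000000000000000000000) := T_22 (nat_lit 194) (nat_lit 195) (nat_lit 3) (nat_lit 4) (nat_lit 10) L68831 (by decide +kernel)
theorem L68833 : W_22 (nat_lit 5) (nat_lit 0x3c00200012000b0000000000000000000000000000000) (nat_lit 0x0) (nat_lit 0xce00020003800000000000000000000000000000000000000) := T_22 (nat_lit 190) (nat_lit 191) (nat_lit 1) (nat_lit 7) (nat_lit 10) L68832 (by decide +kernel)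
theorem L68834 : W_22 (nat_lit 6) (nat_lit 0x2c00200012000b0000000000000000000000000000000) (nat_lit 0x0) (nat_lit 0xce00120013800000000000000000000000000000000000000) := T_22 (nat_lit 176) (nat_lit 160) (nat_lit 2) (nat_lit 4) (nat_lit 10) L68833 (by decide +kernel)
theorem L68835 : W_22 (nat_lit 2) (nat_lit 0x40003e00220013400bc000000000000000000000000000000) (nat_lit 0x0) (nat_lit 0x20003000000000000000000000000000000) := D_22 (nat_lit 121) (nat_lit 120) (nat_lit 137) (nat_lit 3) (nat_lit 1) (nat_lit 7) (nat_lit 1) (nat_lit 5) (nat_lit 7) (by decide +kernel)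
theorem L68836 : W_22 (nat_lit 3) (nat_lit 0x40003e00220013400b8000000000000000000000000000000) (nat_lit 0x0) (nat_lit 0x20007000200000000000000000000000000) := T_22 (nat_lit 122) (nat_lit 105) (nat_lit 4) (nat_lit 4) (nat_lit 10) L68835 (by decide +kernel)
theorem L68837 : W_22 (nat_lit 4) (nat_lit 0x40003c00220013400b8000000000000000000000000000000) (nat_lit 0x0) (nat_lit 0x400020000000020007000200000000000000000000000000) := T_22 (nat_lit 173) (nat_lit 190) (nat_lit 5) (nat_lit 4) (nat_lit 7) L68836 (by decide +kernel)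
theorem L68838 : W_22 (nat_lit 5) (nat_lit 0x40003c00220013400b0000000000000000000000000000000) (nat_lit 0x0) (nat_lit 0x140002000000002000f000200000000000000000000000000) := T_22 (nat_lit 123) (nat_lit 192) (nat_lit 7) (nat_lit 4) (nat_lit 7) L68837 (by decide +kernel)
theorem L68839 : W_22 (nat_lit 6) (nat_lit 0x40003c00220013000b0000000000000000000000000000000) (nat_lit 0x0) (nat_lit 0x14000200000000e000f000200000000000000000000000000) := T_22 (nat_lit 138) (nat_lit 139) (nat_lit 2) (nat_lit 2) (nat_lit 8) L68838 (by decide +kernel)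
theorem L68840 : W_22 (nat_lit 7) (nat_lit 0x40003c00220012000b0000000000000000000000000000000) (nat_lit 0x0) (nat_lit 0x14000200000001e004f000200000000000000000000000000) := T_22 (nat_lit 140) (nat_lit 126) (nat_lit 1) (nat_lit 8) (nat_lit 7) L68839 (by decide +kernel)
theorem L68841 : W_22 (nat_lit 8) (nat_lit 0x3c00220012000b0000000000000000000000000000000) (nat_lit 0x0) (nat_lit 0xd4000200000001e004f000200000000000000000000000000) := T_22 (nat_lit 194) (nat_lit 195) (nat_lit 3) (nat_lit 4) (nat_lit 10) L68840 (by decide +kernel)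
theorem L68842 : W_22 (nat_lit 9) (nat_lit 0x3c00200012000b0000000000000000000000000000000) (nat_lit 0x0) (nat_lit 0xd4000200030001e004f000200000000000000000000000000) := T_22 (nat_lit 157) (nat_lit 156) (nat_lit 0) (nat_lit 7) (nat_lit 10) L68841 (by decide +kernel)
theorem L68843 : W_22 (nat_lit 10) (nat_lit 0x2c00200012000b0000000000000000000000000000000) (nat_lit 0x0) (nat_lit 0xd4001200130001e004f000200000000000000000000000000) := T_22 (nat_lit 176) (nat_lit 160) (nat_lit 2) (nat_lit 4) (nat_lit 10) L68842 (by decide +kernel)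
theorem L68844 : W_22 (nat_lit 2) (nat_lit 0x3c00200013000b0000000000000000000000000000000) (nat_lit 0x0) (nat_lit 0xc00000002000000000000000000000000000000000000000) := D_22 (nat_lit 191) (nat_lit 190) (nat_lit 157) (nat_lit 1) (nat_lit 7) (nat_lit 10) (nat_lit 6) (nat_lit 4) (nat_lit 11) (by decide +kernel)
theorem L68845 : W_22 (nat_lit 3) (nat_lit 0x2c00200013000b0000000000000000000000000000000) (nat_lit 0x0) (nat_lit 0xc00100012000000000000000000000000000000000000000) := T_22 (nat_lit 176) (nat_lit 160) (nat_lit 2) (nat_lit 4) (nat_lit 10) L68844 (by decide +kernel)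
theorem L68846 : W_22 (nat_lit 4) (nat_lit 0x2c00200012000b0000000000000000000000000000000) (nat_lit 0x0) (nat_lit 0xc00100012000100040000000000000000000000000000000) := T_22 (nat_lit 140) (nat_lit 126) (nat_lit 1) (nat_lit 8) (nat_lit 7) L68845 (by decide +kernel)
theorem L68847 : W_22 (nat_lit 2) (nat_lit 0x3c00220012000b0000000000000000000000000000000) (nat_lit 0x0) (nat_lit 0x800000000000100040000000000000000000000000000000) := D_22 (nat_lit 140) (nat_lit 126) (nat_lit 191) (nat_lit 1) (nat_lit 8) (nat_lit 7) (nat_lit 6) (nat_lit 4) (nat_lit 11) (by decide +kernel)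
theorem L68848 : W_22 (nat_lit 3) (nat_lit 0x3c00200012000b0000000000000000000000000000000) (nat_lit 0x0) (nat_lit 0x800000003000100040000000000000000000000000000000) := T_22 (nat_lit 157) (nat_lit 156) (nat_lit 0) (nat_lit 7) (nat_lit 10) L68847 (by decide +kernel)
theorem L68849 : W_22 (nat_lit 4) (nat_lit 0x2c00200012000b0000000000000000000000000000000) (nat_lit 0x0) (nat_lit 0x800100013000100040000000000000000000000000000000) := T_22 (nat_lit 176) (nat_lit 160) (nat_lit 2) (nat_lit 4) (nat_lit 10) L68848 (by decide +kernel)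
theorem L68850 : W_22 (nat_lit 11) (nat_lit 0x2800200012000b0000000000000000000000000000000) (nat_lit 0x0) (nat_lit 0xde001600138001e004f000600010000000000000000000000) := Q_22 (nat_lit 174) (C_22 L68812 (C_22 L68815 (C_22 L68822 (C_22 L68829 (C_22 L68834 (C_22 L68843 (C_22 L68846 (C_22 L68849 N_22)))))))) (by decide +kernel)
theorem L68851 : W_22 (nat_lit 2) (nat_lit 0x2c00240012000b0000000000000000000000000000000) (nat_lit 0x0) (nat_lit 0x100018000000000000000000000000000000000000000) := D_22 (nat_lit 160) (nat_lit 176) (nat_lit 159) (nat_lit 2) (nat_lit 4) (nat_lit 10) (nat_lit 1) (nat_lit 8) (nat_lit 9) (by decide +kernel)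
theorem L68852 : W_22 (nat_lit 3) (nat_lit 0x2800240012000b0000000000000000000000000000000) (nat_lit 0x0) (nat_lit 0x800140018000000000000000000000000000000000000000) := T_22 (nat_lit 174) (nat_lit 191) (nat_lit 5) (nat_lit 5) (nat_lit 7) L68851 (by decide +kernel)
theorem L68853 : W_22 (nat_lit 4) (nat_lit 0x2800200012000b0000000000000000000000000000000) (nat_lit 0x0) (nat_lit 0x80014001c000000000001000000000000000000000000000) := T_22 (nat_lit 158) (nat_lit 108) (nat_lit 6) (nat_lit 5) (nat_lit 10) L68852 (by decide +kernel)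
theorem L68854 : W_22 (nat_lit 2) (nat_lit 0x800000002c00340012000b8000000000000000000000000000000) (nat_lit 0x0) (nat_lit 0x1000000000000100040000000000000000000000000000000) := D_22 (nat_lit 140) (nat_lit 126) (nat_lit 192) (nat_lit 1) (nat_lit 8) (nat_lit 7) (nat_lit 4) (nat_lit 5) (nat_lit 11) (by decide +kernel)
theorem L68855 : W_22 (nat_lit 3) (nat_lit 0x800000002c00340012000b0000000000000000000000000000000) (nat_lit 0x0) (nat_lit 0x1000000000000100048000400000000000000000000000000) := T_22 (nat_lit 123) (nat_lit 106) (nat_lit 4) (nat_lit 5) (nat_lit 10) L68854 (by decide +kernel)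
theorem L68856 : W_22 (nat_lit 4) (nat_lit 0x2c00340012000b0000000000000000000000000000000) (nat_lit 0x0) (nat_lit 0x80005000000000000100048000400000000000000000000000000) := T_22 (nat_lit 211) (nat_lit 194) (nat_lit 6) (nat_lit 7) (nat_lit 12) L68855 (by decide +kernel)
theorem L68857 : W_22 (nat_lit 5) (nat_lit 0x2c00240012000b0000000000000000000000000000000) (nat_lit 0x0) (nat_lit 0x80005000000018000100048000400000000000000000000000000) := T_22 (nat_lit 160) (nat_lit 159) (nat_lit 1) (nat_lit 8) (nat_lit 9) L68856 (by decide +kernel)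
theorem L68858 : W_22 (nat_lit 6) (nat_lit 0x2800240012000b0000000000000000000000000000000) (nat_lit 0x0) (nat_lit 0x80005800040018000100048000400000000000000000000000000) := T_22 (nat_lit 174) (nat_lit 191) (nat_lit 5) (nat_lit 5) (nat_lit 7) L68857 (by decide +kernel)
theorem L68859 : W_22 (nat_lit 7) (nat_lit 0x2800200012000b0000000000000000000000000000000) (nat_lit 0x0) (nat_lit 0x8000580004001c000100048001400000000000000000000000000) := T_22 (nat_lit 158) (nat_lit 108) (nat_lit 6) (nat_lit 5) (nat_lit 10) L68858 (by decide +kernel)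
theorem L68860 : W_22 (nat_lit 2) (nat_lit 0x2800240013000b0000000000000000000000000000000) (nat_lit 0x0) (nat_lit 0x1000000000000000008000400000000000000000000000000) := D_22 (nat_lit 123) (nat_lit 106) (nat_lit 192) (nat_lit 4) (nat_lit 5) (nat_lit 10) (nat_lit 4) (nat_lit 5) (nat_lit 11) (by decide +kernel)
theorem L68861 : W_22 (nat_lit 3) (nat_lit 0x2800200013000b0000000000000000000000000000000) (nat_lit 0x0) (nat_lit 0x1000000004000000008001400000000000000000000000000) := T_22 (nat_lit 158) (nat_lit 108) (nat_lit 6) (nat_lit 5) (nat_lit 10) L68860 (by decide +kernel)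
theorem L68862 : W_22 (nat_lit 4) (nat_lit 0x2800200012000b0000000000000000000000000000000) (nat_lit 0x0) (nat_lit 0x1000000004000100048001400000000000000000000000000) := T_22 (nat_lit 140) (nat_lit 126) (nat_lit 1) (nat_lit 8) (nat_lit 7) L68861 (by decide +kernel)
theorem L68863 : W_22 (nat_lit 12) (nat_lit 0x2000200012000b0000000000000000000000000000000) (nat_lit 0x0) (nat_lit 0x8000de001e001f8001e004f001600010000000000000000000000) := Q_22 (nat_lit 175) (C_22 L68850 (C_22 L68853 (C_22 L68859 (C_22 L68862 N_22)))) (by decide +kernel)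
theorem L68864 : W_22 (nat_lit 2) (nat_lit 0x2000200012000f0000000000000000000000000000000) (nat_lit 0x0) (nat_lit 0x4000400000000000000002000000000000000000000000000) := D_22 (nat_lit 178) (nat_lit 194) (nat_lit 109) (nat_lit 5) (nat_lit 8) (nat_lit 7) (nat_lit 4) (nat_lit 8) (nat_lit 10) (by decide +kernel)
theorem L68865 : W_22 (nat_lit 3) (nat_lit 0x2000200012000b0000000000000000000000000000000) (nat_lit 0x0) (nat_lit 0x4000400000000100040002000000000000000000000000000) := T_22 (nat_lit 126) (nat_lit 140) (nat_lit 1) (nat_lit 8) (nat_lit 7) L68864 (by decide +kernel)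
theorem L68866 : W_22 (nat_lit 2) (nat_lit 0x180006e002c0013801b8000000000000000000000000000000) (nat_lit 0x0) (nat_lit 0x400000003000000000000000000000000000000000000000) := D_22 (nat_lit 190) (nat_lit 157) (nat_lit 156) (nat_lit 5) (nat_lit 4) (nat_lit 7) (nat_lit 6) (nat_lit 3) (nat_lit 11) (by decide +kernel)
theorem L68867 : W_22 (nat_lit 3) (nat_lit 0x180006e002c0013001b8000000000000000000000000000000) (nat_lit 0x0) (nat_lit 0x4000000030000c0000000000000000000000000000000000) := T_22 (nat_lit 139) (nat_lit 138) (nat_lit 3) (nat_lit 2) (nat_lit 8) L68866 (by decide +kernel)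
theorem L68868 : W_22 (nat_lit 4) (nat_lit 0x180006e002c0012001b8000000000000000000000000000000) (nat_lit 0x0) (nat_lit 0x14000000030001c0000000000000000000000000000000000) := T_22 (nat_lit 140) (nat_lit 192) (nat_lit 4) (nat_lit 5) (nat_lit 11) L68867 (by decide +kernel)
theorem L68869 : W_22 (nat_lit 5) (nat_lit 0x180006e002c0012001b0000000000000000000000000000000) (nat_lit 0x0) (nat_lit 0x14000000030001c0008000400000000000000000000000000) := T_22 (nat_lit 123) (nat_lit 106) (nat_lit 4) (nat_lit 5) (nat_lit 10) L68868 (by decide +kernel)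
theorem L68870 : W_22 (nat_lit 6) (nat_lit 0x180006c002c0012001b0000000000000000000000000000000) (nat_lit 0x0) (nat_lit 0x14000300030001c0008000400000000000000000000000000) := T_22 (nat_lit 173) (nat_lit 172) (nat_lit 2) (nat_lit 2) (nat_lit 10) L68869 (by decide +kernel)
theorem L68871 : W_22 (nat_lit 7) (nat_lit 0x180006c00240012001b0000000000000000000000000000000) (nat_lit 0x0) (nat_lit 0x140003001b0001c0008000400000000000000000000000000) := T_22 (nat_lit 159) (nat_lit 160) (nat_lit 1) (nat_lit 8) (nat_lit 9) L68870 (by decide +kernel)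
theorem L68872 : W_22 (nat_lit 8) (nat_lit 0x180006800240012001b0000000000000000000000000000000) (nat_lit 0x0) (nat_lit 0x1c0007001b0001c0008000400000000000000000000000000) := T_22 (nat_lit 174) (nat_lit 191) (nat_lit 5) (nat_lit 5) (nat_lit 7) L68871 (by decide +kernel)
theorem L68873 : W_22 (nat_lit 9) (nat_lit 0x180006800200012001b0000000000000000000000000000000) (nat_lit 0x0) (nat_lit 0x1c0007001f0001c0008001400000000000000000000000000) := T_22 (nat_lit 158) (nat_lit 108) (nat_lit 6) (nat_lit 5) (nat_lit 10) L68872 (by decide +kernel)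
theorem L68874 : W_22 (nat_lit 10) (nat_lit 0x180006000200012001b0000000000000000000000000000000) (nat_lit 0x0) (nat_lit 0x1c001f001f0001c0008001400000000000000000000000000) := T_22 (nat_lit 175) (nat_lit 176) (nat_lit 3) (nat_lit 5) (nat_lit 10) L68873 (by decide +kernel)
theorem L68875 : W_22 (nat_lit 11) (nat_lit 0x100006000200012001b0000000000000000000000000000000) (nat_lit 0x0) (nat_lit 0x200009c001f001f0001c0008001400000000000000000000000000) := T_22 (nat_lit 195) (nat_lit 213) (nat_lit 7) (nat_lit 8) (nat_lit 8) L68874 (by decide +kernel)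
theorem L68876 : W_22 (nat_lit 12) (nat_lit 0x6000200012001b0000000000000000000000000000000) (nat_lit 0x0) (nat_lit 0x200019c009f001f0001c0008001400000000000000000000000000) := T_22 (nat_lit 196) (nat_lit 179) (nat_lit 7) (nat_lit 8) (nat_lit 7) L68875 (by decide +kernel)
theorem L68877 : W_22 (nat_lit 13) (nat_lit 0x6000200012000b0000000000000000000000000000000) (nat_lit 0x0) (nat_lit 0x200019c009f001f0001c0108009400000000000000000000000000) := T_22 (nat_lit 128) (nat_lit 111) (nat_lit 6) (nat_lit 8) (nat_lit 10) L68876 (by decide +kernel)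
theorem L68878 : W_22 (nat_lit 14) (nat_lit 0x2000200012000b0000000000000000000000000000000) (nat_lit 0x0) (nat_lit 0x20001dc00df001f0001c0108009400000000000000000000000000) := T_22 (nat_lit 178) (nat_lit 194) (nat_lit 5) (nat_lit 8) (nat_lit 7) L68877 (by decide +kernel)
theorem L68879 : W_22 (nat_lit 2) (nat_lit 0x7800200012000f0000000000000000000000000000000) (nat_lit 0x0) (nat_lit 0x18000800000000000000000000000000000000000000000000) := D_22 (nat_lit 196) (nat_lit 179) (nat_lit 195) (nat_lit 7) (nat_lit 8) (nat_lit 7) (nat_lit 3) (nat_lit 5) (nat_lit 10) (by decide +kernel)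
theorem L68880 : W_22 (nat_lit 3) (nat_lit 0x7000200012000f0000000000000000000000000000000) (nat_lit 0x0) (nat_lit 0x18000880040000000000000000000000000000000000000000) := T_22 (nat_lit 175) (nat_lit 162) (nat_lit 2) (nat_lit 5) (nat_lit 10) L68879 (by decide +kernel)
theorem L68881 : W_22 (nat_lit 4) (nat_lit 0x7000200012000b0000000000000000000000000000000) (nat_lit 0x0) (nat_lit 0x18000880040000000040002000000000000000000000000000) := T_22 (nat_lit 126) (nat_lit 109) (nat_lit 4) (nat_lit 8) (nat_lit 10) L68880 (by decide +kernel)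
theorem L68882 : W_22 (nat_lit 2) (nat_lit 0x7800200012000b0000000000000000000000000000000) (nat_lit 0x0) (nat_lit 0x18000800000000000000000000000000000000000000000000) := D_22 (nat_lit 196) (nat_lit 179) (nat_lit 195) (nat_lit 7) (nat_lit 8) (nat_lit 7) (nat_lit 3) (nat_lit 5) (nat_lit 10) (by decide +kernel)
theorem L68883 : W_22 (nat_lit 3) (nat_lit 0x7000200012000b0000000000000000000000000000000) (nat_lit 0x0) (nat_lit 0x18000880040000000000000000000000000000000000000000) := T_22 (nat_lit 175) (nat_lit 162) (nat_lit 2) (nat_lit 5) (nat_lit 10) L68882 (by decide +kernel)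
theorem L68884 : W_22 (nat_lit 2) (nat_lit 0x7800200012000b0000000000000000000000000000000) (nat_lit 0x0) (nat_lit 0x6000000000001000000000000000000000000000) := D_22 (nat_lit 158) (nat_lit 157) (nat_lit 108) (nat_lit 0) (nat_lit 8) (nat_lit 10) (nat_lit 6) (nat_lit 5) (nat_lit 10) (by decide +kernel)
theorem L68885 : W_22 (nat_lit 3) (nat_lit 0x7000200012000b0000000000000000000000000000000) (nat_lit 0x0) (nat_lit 0x80046000000000001000000000000000000000000000) := T_22 (nat_lit 175) (nat_lit 162) (nat_lit 2) (nat_lit 5) (nat_lit 10) L68884 (by decide +kernel)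
theorem L68886 : W_22 (nat_lit 2) (nat_lit 0x40001f000680012001f0000000000000000000000000000000) (nat_lit 0x0) (nat_lit 0x80006000000000000000000000000000000000000000000000) := D_22 (nat_lit 181) (nat_lit 182) (nat_lit 199) (nat_lit 0) (nat_lit 12) (nat_lit 10) (nat_lit 3) (nat_lit 8) (nat_lit 10) (by decide +kernel)
theorem L68887 : W_22 (nat_lit 3) (nat_lit 0x1f000680012001f0000000000000000000000000000000) (nat_lit 0x0) (nat_lit 0xe0006000000000000000000000000000000000000000000000) := T_22 (nat_lit 198) (nat_lit 197) (nat_lit 3) (nat_lit 7) (nat_lit 10) L68886 (by decide +kernel)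
theorem L68888 : W_22 (nat_lit 4) (nat_lit 0x1f000680012001b0000000000000000000000000000000) (nat_lit 0x0) (nat_lit 0xe0006000000000000040002000000000000000000000000000) := T_22 (nat_lit 126) (nat_lit 109) (nat_lit 4) (nat_lit 8) (nat_lit 10) L68887 (by decide +kernel)
theorem L68889 : W_22 (nat_lit 5) (nat_lit 0xf000680012001b0000000000000000000000000000000) (nat_lit 0x0) (nat_lit 0xe0007000010000000040002000000000000000000000000000) := T_22 (nat_lit 180) (nat_lit 160) (nat_lit 3) (nat_lit 6) (nat_lit 9) L68888 (by decide +kernel)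
theorem L68890 : W_22 (nat_lit 6) (nat_lit 0xf000680012000b0000000000000000000000000000000) (nat_lit 0x0) (nat_lit 0xe000700001000000014000a000000000000000000000000000) := T_22 (nat_lit 128) (nat_lit 111) (nat_lit 6) (nat_lit 8) (nat_lit 10) L68889 (by decide +kernel)
theorem L68891 : W_22 (nat_lit 7) (nat_lit 0xf000600012000b0000000000000000000000000000000) (nat_lit 0x0) (nat_lit 0xe000700001c00000014000a000000000000000000000000000) := T_22 (nat_lit 159) (nat_lit 158) (nat_lit 0) (nat_lit 9) (nat_lit 10) L68890 (by decide +kernel)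
theorem L68892 : W_22 (nat_lit 8) (nat_lit 0xf000200012000b0000000000000000000000000000000) (nat_lit 0x0) (nat_lit 0xe00070000dc00000014000a000000000000000000000000000) := T_22 (nat_lit 162) (nat_lit 163) (nat_lit 2) (nat_lit 6) (nat_lit 10) L68891 (by decide +kernel)
theorem L68893 : W_22 (nat_lit 9) (nat_lit 0x7000200012000b0000000000000000000000000000000) (nat_lit 0x0) (nat_lit 0xf00078000dc00000014000a000000000000000000000000000) := T_22 (nat_lit 179) (nat_lit 196) (nat_lit 7) (nat_lit 8) (nat_lit 7) L68892 (by decide +kernel)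
theorem L68894 : W_22 (nat_lit 2) (nat_lit 0x40001f001280012001f0000000000000000000000000000000) (nat_lit 0x0) (nat_lit 0x80002000200000000000000000000000000000000000000000) := D_22 (nat_lit 181) (nat_lit 199) (nat_lit 165) (nat_lit 3) (nat_lit 8) (nat_lit 10) (nat_lit 2) (nat_lit 8) (nat_lit 10) (by decide +kernel)
theorem L68895 : W_22 (nat_lit 3) (nat_lit 0x40001f000280012001f0000000000000000000000000000000) (nat_lit 0x0) (nat_lit 0x80002000380000000000000000000000000000000000000000) := T_22 (nat_lit 164) (nat_lit 163) (nat_lit 2) (nat_lit 7) (nat_lit 10) L68894 (by decide +kernel)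
theorem L68896 : W_22 (nat_lit 4) (nat_lit 0x1f000280012001f0000000000000000000000000000000) (nat_lit 0x0) (nat_lit 0xe0002000380000000000000000000000000000000000000000) := T_22 (nat_lit 198) (nat_lit 197) (nat_lit 3) (nat_lit 7) (nat_lit 10) L68895 (by decide +kernel)
theorem L68897 : W_22 (nat_lit 5) (nat_lit 0xf000280012001f0000000000000000000000000000000) (nat_lit 0x0) (nat_lit 0xe0003000390000000000000000000000000000000000000000) := T_22 (nat_lit 180) (nat_lit 160) (nat_lit 0) (nat_lit 10) (nat_lit 10) L68896 (by decide +kernel)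
theorem L68898 : W_22 (nat_lit 6) (nat_lit 0xf000280012000f0000000000000000000000000000000) (nat_lit 0x0) (nat_lit 0xe0003000390000000100008000000000000000000000000000) := T_22 (nat_lit 128) (nat_lit 111) (nat_lit 6) (nat_lit 8) (nat_lit 10) L68897 (by decide +kernel)
theorem L68899 : W_22 (nat_lit 7) (nat_lit 0xf000200012000f0000000000000000000000000000000) (nat_lit 0x0) (nat_lit 0xe000300039c000000100008000000000000000000000000000) := T_22 (nat_lit 159) (nat_lit 158) (nat_lit 0) (nat_lit 9) (nat_lit 10) L68898 (by decide +kernel)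
theorem L68900 : W_22 (nat_lit 8) (nat_lit 0x7000200012000f0000000000000000000000000000000) (nat_lit 0x0) (nat_lit 0xf000380039c000000100008000000000000000000000000000) := T_22 (nat_lit 179) (nat_lit 196) (nat_lit 7) (nat_lit 8) (nat_lit 7) L68899 (by decide +kernel)
theorem L68901 : W_22 (nat_lit 9) (nat_lit 0x7000200012000b0000000000000000000000000000000) (nat_lit 0x0) (nat_lit 0xf000380039c00000014000a000000000000000000000000000) := T_22 (nat_lit 126) (nat_lit 109) (nat_lit 4) (nat_lit 8) (nat_lit 10) L68900 (by decide +kernel)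
theorem L68902 : W_22 (nat_lit 10) (nat_lit 0x6000200012000b0000000000000000000000000000000) (nat_lit 0x0) (nat_lit 0xf80079803de00000014000b000000000000000000000000000) := Q_22 (nat_lit 176) (C_22 L68881 (C_22 L68883 (C_22 L68885 (C_22 L68893 (C_22 L68901 N_22))))) (by decide +kernel)
theorem L68903 : W_22 (nat_lit 2) (nat_lit 0x6000200012000b0000000000000000000000000000000) (nat_lit 0x0) (nat_lit 0x100040002000000000000000000000000000) := D_22 (nat_lit 126) (nat_lit 109) (nat_lit 140) (nat_lit 4) (nat_lit 8) (nat_lit 10) (nat_lit 1) (nat_lit 8) (nat_lit 7) (by decide +kernel)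
theorem L68904 : W_22 (nat_lit 14) (nat_lit 0x2000200012000b0000000000000000000000000000000) (nat_lit 0x0) (nat_lit 0x2000f9c07df03df0001c014800b400000000000000000000000000) := Q_22 (nat_lit 178) (C_22 L68902 (C_22 L68903 (C_22 L68877 N_22))) (by decide +kernel)
theorem L68905 : W_22 (nat_lit 11) (nat_lit 0x2000200012000b0000000000000000000000000000000) (nat_lit 0x0) (nat_lit 0xfc007d803de00000014000b000000000000000000000000000) := T_22 (nat_lit 178) (nat_lit 194) (nat_lit 5) (nat_lit 8) (nat_lit 7) L68902 (by decide +kernel)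
theorem L68906 : W_22 (nat_lit 15) (nat_lit 0x2000000012000b0000000000000000000000000000000) (nat_lit 0x0) (nat_lit 0x2800fde07df03ff8001e014f00b600010000000000000000000000) := Q_22 (nat_lit 161) (C_22 L68863 (C_22 L68865 (C_22 L68878 (C_22 L68904 (C_22 L68905 N_22))))) (by decide +kernel)
theorem L68907 : W_22 (nat_lit 9) (nat_lit 0x2000000012000b0000800000000000000000000000000) (nat_lit 0x0) (nat_lit 0xc8005c007e0000000080017000e0005000000000000000000) := Q_22 (nat_lit 158) (C_22 L68763 (C_22 L32830 (C_22 L68729 (C_22 L68735 (C_22 L61819 N_22))))) (by decide +kernel)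
theorem L68908 : W_22 (nat_lit 2) (nat_lit 0x2000000012001b00018000e0000000100000000000000) (nat_lit 0x0) (nat_lit 0x2000018000000000000000000000) := D_22 (nat_lit 88) (nat_lit 109) (nat_lit 87) (nat_lit 3) (nat_lit 3) (nat_lit 5) (nat_lit 3) (nat_lit 2) (nat_lit 5) (by decide +kernel)
theorem L68909 : W_22 (nat_lit 3) (nat_lit 0x2000000012001b00018000c0000000100000000000000) (nat_lit 0x0) (nat_lit 0x2000038001000000000000000000) := T_22 (nat_lit 89) (nat_lit 72) (nat_lit 4) (nat_lit 5) (nat_lit 8) L68908 (by decide +kernel)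
theorem L68910 : W_22 (nat_lit 4) (nat_lit 0x2000000012001b0001800040000000100000000000000) (nat_lit 0x0) (nat_lit 0x20000b8005000000000000000000) := T_22 (nat_lit 91) (nat_lit 74) (nat_lit 6) (nat_lit 5) (nat_lit 8) L68909 (by decide +kernel)
theorem L68911 : W_22 (nat_lit 5) (nat_lit 0x2000000012001b0001800040000000000000000000000) (nat_lit 0x0) (nat_lit 0x20000b8007000100000000000000) := T_22 (nat_lit 56) (nat_lit 73) (nat_lit 7) (nat_lit 5) (nat_lit 3) L68910 (by decide +kernel)
theorem L68912 : W_22 (nat_lit 6) (nat_lit 0x2000000012000b0001800040000000000000000000000) (nat_lit 0x0) (nat_lit 0x1400020000b8007000100000000000000) := T_22 (nat_lit 128) (nat_lit 126) (nat_lit 0) (nat_lit 9) (nat_lit 7) L68911 (by decide +kernel)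
theorem L68913 : W_22 (nat_lit 2) (nat_lit 0x2000000012000b0001800068002000000000000000000) (nat_lit 0x0) (nat_lit 0x80004000200000000000000) := D_22 (nat_lit 74) (nat_lit 91) (nat_lit 57) (nat_lit 6) (nat_lit 5) (nat_lit 8) (nat_lit 6) (nat_lit 5) (nat_lit 7) (by decide +kernel)
theorem L68914 : W_22 (nat_lit 3) (nat_lit 0x2000000012000b0001800068000000000000000000000) (nat_lit 0x0) (nat_lit 0x80006000300000000000000) := T_22 (nat_lit 73) (nat_lit 56) (nat_lit 7) (nat_lit 5) (nat_lit 3) L68913 (by decide +kernel)
theorem L68915 : W_22 (nat_lit 4) (nat_lit 0x2000000012000b0001800060000000000000000000000) (nat_lit 0x0) (nat_lit 0x98006000300000000000000) := T_22 (nat_lit 87) (nat_lit 88) (nat_lit 3) (nat_lit 2) (nat_lit 5) L68914 (by decide +kernel)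
theorem L68916 : W_22 (nat_lit 5) (nat_lit 0x2000000012000b0001800040000000000000000000000) (nat_lit 0x0) (nat_lit 0xb8007000300000000000000) := T_22 (nat_lit 89) (nat_lit 72) (nat_lit 4) (nat_lit 5) (nat_lit 8) L68915 (by decide +kernel)
theorem L68917 : W_22 (nat_lit 2) (nat_lit 0x2000000012001b0001800040002000000000000000000) (nat_lit 0x0) (nat_lit 0x20001000080000000000000) := D_22 (nat_lit 72) (nat_lit 89) (nat_lit 55) (nat_lit 4) (nat_lit 5) (nat_lit 8) (nat_lit 4) (nat_lit 5) (nat_lit 7) (by decide +kernel)
theorem L68918 : W_22 (nat_lit 3) (nat_lit 0x2000000012001b0001800040000000000000000000000) (nat_lit 0x0) (nat_lit 0x20003000180000000000000) := T_22 (nat_lit 73) (nat_lit 56) (nat_lit 7) (nat_lit 5) (nat_lit 3) L68917 (by decide +kernel)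
theorem L68919 : W_22 (nat_lit 4) (nat_lit 0x2000000012000b0001800040000000000000000000000) (nat_lit 0x0) (nat_lit 0x140000000020003000180000000000000) := T_22 (nat_lit 128) (nat_lit 126) (nat_lit 0) (nat_lit 9) (nat_lit 7) L68918 (by decide +kernel)
theorem L68920 : W_22 (nat_lit 2) (nat_lit 0x2000000012000b0001800070000000000000000000000) (nat_lit 0x0) (nat_lit 0x2000080004000000000000000000) := D_22 (nat_lit 91) (nat_lit 74) (nat_lit 109) (nat_lit 6) (nat_lit 5) (nat_lit 8) (nat_lit 3) (nat_lit 3) (nat_lit 5) (by decide +kernel)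
theorem L68921 : W_22 (nat_lit 3) (nat_lit 0x2000000012000b0001800060000000000000000000000) (nat_lit 0x0) (nat_lit 0x2000098004000000000000000000) := T_22 (nat_lit 88) (nat_lit 87) (nat_lit 3) (nat_lit 2) (nat_lit 5) L68920 (by decide +kernel)
theorem L68922 : W_22 (nat_lit 4) (nat_lit 0x2000000012000b0001800040000000000000000000000) (nat_lit 0x0) (nat_lit 0x20000b8005000000000000000000) := T_22 (nat_lit 89) (nat_lit 72) (nat_lit 4) (nat_lit 5) (nat_lit 8) L68921 (by decide +kernel)
theorem L68923 : W_22 (nat_lit 2) (nat_lit 0x2000000012000b0001800040004000000000000000000) (nat_lit 0x0) (nat_lit 0x2000300000000000000) := D_22 (nat_lit 73) (nat_lit 56) (nat_lit 57) (nat_lit 7) (nat_lit 5) (nat_lit 3) (nat_lit 6) (nat_lit 5) (nat_lit 7) (by decide +kernel)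
theorem L68924 : W_22 (nat_lit 3) (nat_lit 0x2000000012000b0001800040000000000000000000000) (nat_lit 0x0) (nat_lit 0x80006000300000000000000) := T_22 (nat_lit 74) (nat_lit 91) (nat_lit 6) (nat_lit 5) (nat_lit 8) L68923 (by decide +kernel)
theorem L68925 : W_22 (nat_lit 7) (nat_lit 0x2000000012000b0001800000000000000000000000000) (nat_lit 0x0) (nat_lit 0x1400020000f8007000380000000000000) := Q_22 (nat_lit 90) (C_22 L68912 (C_22 L68916 (C_22 L68919 (C_22 L68922 (C_22 L68924 N_22))))) (by decide +kernel)
theorem L68926 : W_22 (nat_lit 2) (nat_lit 0x60000e0012001b0001800000000000000000000000000) (nat_lit 0x0) (nat_lit 0x4000000020000000000008000000000000000000000000000) := D_22 (nat_lit 161) (nat_lit 194) (nat_lit 111) (nat_lit 5) (nat_lit 8) (nat_lit 7) (nat_lit 6) (nat_lit 8) (nat_lit 10) (by decide +kernel)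
theorem L68927 : W_22 (nat_lit 3) (nat_lit 0x20000e0012001b0001800000000000000000000000000) (nat_lit 0x0) (nat_lit 0x4000400030000000000008000000000000000000000000000) := T_22 (nat_lit 178) (nat_lit 160) (nat_lit 3) (nat_lit 4) (nat_lit 9) L68926 (by decide +kernel)
theorem L68928 : W_22 (nat_lit 4) (nat_lit 0x20000c0012001b0001800000000000000000000000000) (nat_lit 0x0) (nat_lit 0x4000440032000000000008000000000000000000000000000) := T_22 (nat_lit 157) (nat_lit 174) (nat_lit 5) (nat_lit 5) (nat_lit 6) L68927 (by decide +kernel)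
theorem L68929 : W_22 (nat_lit 5) (nat_lit 0x2000040012001b0001800000000000000000000000000) (nat_lit 0x0) (nat_lit 0x400054003a000000000008000000000000000000000000000) := T_22 (nat_lit 159) (nat_lit 176) (nat_lit 7) (nat_lit 5) (nat_lit 6) L68928 (by decide +kernel)
theorem L68930 : W_22 (nat_lit 6) (nat_lit 0x2000040012000b0001800000000000000000000000000) (nat_lit 0x0) (nat_lit 0x400054003a000000140008000000000000000000000000000) := T_22 (nat_lit 128) (nat_lit 126) (nat_lit 0) (nat_lit 9) (nat_lit 7) L68929 (by decide +kernel)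
theorem L68931 : W_22 (nat_lit 7) (nat_lit 0x2000000012000b0001800000000000000000000000000) (nat_lit 0x0) (nat_lit 0x40005c003e000000140008000000000000000000000000000) := T_22 (nat_lit 158) (nat_lit 175) (nat_lit 6) (nat_lit 5) (nat_lit 10) L68930 (by decide +kernel)
theorem L68932 : W_22 (nat_lit 8) (nat_lit 0x2000000012000b0000800000000000000000000000000) (nat_lit 0x0) (nat_lit 0x40005c003e00000014000b0000f8007000380000000000000) := Q_22 (nat_lit 108) (C_22 L68925 (C_22 L68113 (C_22 L68931 N_22))) (by decide +kernel)
theorem L68933 : W_22 (nat_lit 4) (nat_lit 0x2000000012000b0000800000000000000000000000000) (nat_lit 0x0) (nat_lit 0x4000000140001400080004000000000000000000) := T_22 (nat_lit 126) (nat_lit 106) (nat_lit 0) (nat_lit 8) (nat_lit 7) L67695 (by decide +kernel)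
theorem L68934 : W_22 (nat_lit 10) (nat_lit 0x2000000012000b0000000000000000000000000000000) (nat_lit 0x0) (nat_lit 0xc8005c007e00000014800bf000f8007000380000000000000) := Q_22 (nat_lit 107) (C_22 L68721 (C_22 L68804 (C_22 L68907 (C_22 L68932 (C_22 L68933 N_22))))) (by decide +kernel)
theorem L68935 : W_22 (nat_lit 2) (nat_lit 0x6000000012000f0000000000000000000000000000000) (nat_lit 0x0) (nat_lit 0x4000000020000000000002000000000000000000000000000) := D_22 (nat_lit 161) (nat_lit 194) (nat_lit 109) (nat_lit 5) (nat_lit 8) (nat_lit 7) (nat_lit 4) (nat_lit 8) (nat_lit 10) (by decide +kernel)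
theorem L68936 : W_22 (nat_lit 3) (nat_lit 0x6000000012000b0000000000000000000000000000000) (nat_lit 0x0) (nat_lit 0x4000000020000100040002000000000000000000000000000) := T_22 (nat_lit 126) (nat_lit 140) (nat_lit 1) (nat_lit 8) (nat_lit 7) L68935 (by decide +kernel)
theorem L68937 : W_22 (nat_lit 2) (nat_lit 0x6c00040012000b0000000000000000000000000000000) (nat_lit 0x0) (nat_lit 0x100002000000000000800000000000000000000000000) := D_22 (nat_lit 157) (nat_lit 107) (nat_lit 176) (nat_lit 5) (nat_lit 5) (nat_lit 6) (nat_lit 0) (nat_lit 8) (nat_lit 10) (by decide +kernel)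
theorem L68938 : W_22 (nat_lit 3) (nat_lit 0x6800040012000b0000000000000000000000000000000) (nat_lit 0x0) (nat_lit 0x800140002000000000000800000000000000000000000000) := T_22 (nat_lit 174) (nat_lit 191) (nat_lit 5) (nat_lit 5) (nat_lit 7) L68937 (by decide +kernel)
theorem L68939 : W_22 (nat_lit 4) (nat_lit 0x6000040012000b0000000000000000000000000000000) (nat_lit 0x0) (nat_lit 0x8001c0002000000000001800000000000000000000000000) := T_22 (nat_lit 175) (nat_lit 108) (nat_lit 6) (nat_lit 5) (nat_lit 10) L68938 (by decide +kernel)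
theorem L68940 : W_22 (nat_lit 2) (nat_lit 0x6c00060013000b0000000000000000000000000000000) (nat_lit 0x0) (nat_lit 0x20001000000000000000008000000000000000000000000000000) := D_22 (nat_lit 192) (nat_lit 123) (nat_lit 209) (nat_lit 7) (nat_lit 4) (nat_lit 7) (nat_lit 4) (nat_lit 5) (nat_lit 12) (by decide +kernel)
theorem L68941 : W_22 (nat_lit 3) (nat_lit 0x6c00060012000b0000000000000000000000000000000) (nat_lit 0x0) (nat_lit 0x20001000000000000100048000000000000000000000000000000) := T_22 (nat_lit 140) (nat_lit 126) (nat_lit 1) (nat_lit 8) (nat_lit 7) L68940 (by decide +kernel)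
theorem L68942 : W_22 (nat_lit 4) (nat_lit 0x6c00040012000b0000000000000000000000000000000) (nat_lit 0x0) (nat_lit 0x20001000000002000100048000800000000000000000000000000) := T_22 (nat_lit 157) (nat_lit 107) (nat_lit 5) (nat_lit 5) (nat_lit 6) L68941 (by decide +kernel)
theorem L68943 : W_22 (nat_lit 5) (nat_lit 0x6800040012000b0000000000000000000000000000000) (nat_lit 0x0) (nat_lit 0x20001800040002000100048000800000000000000000000000000) := T_22 (nat_lit 174) (nat_lit 191) (nat_lit 5) (nat_lit 5) (nat_lit 7) L68942 (by decide +kernel)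
theorem L68944 : W_22 (nat_lit 6) (nat_lit 0x6000040012000b0000000000000000000000000000000) (nat_lit 0x0) (nat_lit 0x200018000c0002000100048001800000000000000000000000000) := T_22 (nat_lit 175) (nat_lit 108) (nat_lit 6) (nat_lit 5) (nat_lit 10) L68943 (by decide +kernel)
theorem L68945 : W_22 (nat_lit 2) (nat_lit 0x6000060012000f0000800000000000000000000000000) (nat_lit 0x0) (nat_lit 0x100018000000000000000000000000000000000000000) := D_22 (nat_lit 159) (nat_lit 160) (nat_lit 176) (nat_lit 3) (nat_lit 4) (nat_lit 9) (nat_lit 7) (nat_lit 5) (nat_lit 6) (by decide +kernel)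
theorem L68946 : W_22 (nat_lit 3) (nat_lit 0x6000060012000f0000000000000000000000000000000) (nat_lit 0x0) (nat_lit 0x140018000000000000800000000000000000000000000) := T_22 (nat_lit 107) (nat_lit 174) (nat_lit 5) (nat_lit 5) (nat_lit 6) L68945 (by decide +kernel)
theorem L68947 : W_22 (nat_lit 4) (nat_lit 0x6000060012000b0000000000000000000000000000000) (nat_lit 0x0) (nat_lit 0x140018000100040000800000000000000000000000000) := T_22 (nat_lit 126) (nat_lit 140) (nat_lit 1) (nat_lit 8) (nat_lit 7) L68946 (by decide +kernel)
theorem L68948 : W_22 (nat_lit 2) (nat_lit 0x60000e0012000b0000000000000000000000000000000) (nat_lit 0x0) (nat_lit 0x180001000000000000000000000000000000000000000) := D_22 (nat_lit 176) (nat_lit 156) (nat_lit 175) (nat_lit 3) (nat_lit 3) (nat_lit 9) (nat_lit 0) (nat_lit 8) (nat_lit 10) (by decide +kernel)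
theorem L68949 : W_22 (nat_lit 3) (nat_lit 0x6000060012000b0000000000000000000000000000000) (nat_lit 0x0) (nat_lit 0x180019000000000000000000000000000000000000000) := T_22 (nat_lit 159) (nat_lit 160) (nat_lit 3) (nat_lit 4) (nat_lit 9) L68948 (by decide +kernel)
theorem L68950 : W_22 (nat_lit 2) (nat_lit 0x60000e0012000b0000800000000000000000000000000) (nat_lit 0x0) (nat_lit 0x100040000000040000000000000000000000) := D_22 (nat_lit 140) (nat_lit 90) (nat_lit 126) (nat_lit 5) (nat_lit 5) (nat_lit 5) (nat_lit 1) (nat_lit 8) (nat_lit 7) (by decide +kernel)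
theorem L68951 : W_22 (nat_lit 3) (nat_lit 0x60000e0012000b0000000000000000000000000000000) (nat_lit 0x0) (nat_lit 0x40000000100040000800040000000000000000000000) := T_22 (nat_lit 107) (nat_lit 174) (nat_lit 5) (nat_lit 5) (nat_lit 6) L68950 (by decide +kernel)
theorem L68952 : W_22 (nat_lit 4) (nat_lit 0x6000060012000b0000000000000000000000000000000) (nat_lit 0x0) (nat_lit 0x40018000100040000800040000000000000000000000) := T_22 (nat_lit 159) (nat_lit 160) (nat_lit 3) (nat_lit 4) (nat_lit 9) L68951 (by decide +kernel)
theorem L68953 : W_22 (nat_lit 2) (nat_lit 0x6800060012000f0000000000000000000000000000000) (nat_lit 0x0) (nat_lit 0x800040000000000000000800000000000000000000000000) := D_22 (nat_lit 174) (nat_lit 107) (nat_lit 191) (nat_lit 5) (nat_lit 5) (nat_lit 6) (nat_lit 5) (nat_lit 5) (nat_lit 7) (by decide +kernel)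
theorem L68954 : W_22 (nat_lit 3) (nat_lit 0x6000060012000f0000000000000000000000000000000) (nat_lit 0x0) (nat_lit 0x8001c0000000000000000800000000000000000000000000) := T_22 (nat_lit 175) (nat_lit 176) (nat_lit 0) (nat_lit 8) (nat_lit 10) L68953 (by decide +kernel)
theorem L68955 : W_22 (nat_lit 4) (nat_lit 0x6000060012000b0000000000000000000000000000000) (nat_lit 0x0) (nat_lit 0x8001c0000000100040000800000000000000000000000000) := T_22 (nat_lit 126) (nat_lit 140) (nat_lit 1) (nat_lit 8) (nat_lit 7) L68954 (by decide +kernel)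
theorem L68956 : W_22 (nat_lit 5) (nat_lit 0x6000040012000b0000000000000000000000000000000) (nat_lit 0x0) (nat_lit 0x8001c001b000100040000800040000000000000000000000) := Q_22 (nat_lit 157) (C_22 L68947 (C_22 L68949 (C_22 L68952 (C_22 L68955 N_22)))) (by decide +kernel)
theorem L68957 : W_22 (nat_lit 2) (nat_lit 0x6000060012000b0000800000000000000000000000000) (nat_lit 0x0) (nat_lit 0x100018000000000000000000000000000000000000000) := D_22 (nat_lit 159) (nat_lit 160) (nat_lit 176) (nat_lit 3) (nat_lit 4) (nat_lit 9) (nat_lit 7) (nat_lit 5) (nat_lit 6) (by decide +kernel)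
theorem L68958 : W_22 (nat_lit 3) (nat_lit 0x6000060012000b0000000000000000000000000000000) (nat_lit 0x0) (nat_lit 0x140018000000000000800000000000000000000000000) := T_22 (nat_lit 107) (nat_lit 174) (nat_lit 5) (nat_lit 5) (nat_lit 6) L68957 (by decide +kernel)
theorem L68959 : W_22 (nat_lit 2) (nat_lit 0x6000060012000b0000800000000000000000000000000) (nat_lit 0x0) (nat_lit 0x100040000000040000000000000000000000) := D_22 (nat_lit 140) (nat_lit 90) (nat_lit 126) (nat_lit 5) (nat_lit 5) (nat_lit 5) (nat_lit 1) (nat_lit 8) (nat_lit 7) (by decide +kernel)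
theorem L68960 : W_22 (nat_lit 3) (nat_lit 0x6000060012000b0000000000000000000000000000000) (nat_lit 0x0) (nat_lit 0x40000000100040000800040000000000000000000000) := T_22 (nat_lit 107) (nat_lit 174) (nat_lit 5) (nat_lit 5) (nat_lit 6) L68959 (by decide +kernel)
theorem L68961 : W_22 (nat_lit 2) (nat_lit 0x60000e0012000b0000000000000000000000000000000) (nat_lit 0x0) (nat_lit 0x900001000000000000000000000000000000000000000) := D_22 (nat_lit 176) (nat_lit 156) (nat_lit 179) (nat_lit 3) (nat_lit 3) (nat_lit 9) (nat_lit 0) (nat_lit 9) (nat_lit 10) (by decide +kernel)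
theorem L68962 : W_22 (nat_lit 3) (nat_lit 0x6000060012000b0000000000000000000000000000000) (nat_lit 0x0) (nat_lit 0x900019000000000000000000000000000000000000000) := T_22 (nat_lit 159) (nat_lit 160) (nat_lit 3) (nat_lit 4) (nat_lit 9) L68961 (by decide +kernel)
theorem L68963 : W_22 (nat_lit 5) (nat_lit 0x6000040012000b0000000000000000000000000000000) (nat_lit 0x0) (nat_lit 0x94001b000100040000800040000000000000000000000) := Q_22 (nat_lit 157) (C_22 L68952 (C_22 L68958 (C_22 L68960 (C_22 L68962 N_22)))) (by decide +kernel)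
theorem L68964 : W_22 (nat_lit 2) (nat_lit 0x8006800040012000f0000000000000000000000000000000) (nat_lit 0x0) (nat_lit 0x10001000100000000000000000000000000000000000000000000) := D_22 (nat_lit 192) (nat_lit 176) (nat_lit 208) (nat_lit 1) (nat_lit 8) (nat_lit 10) (nat_lit 5) (nat_lit 5) (nat_lit 8) (by decide +kernel)
theorem L68965 : W_22 (nat_lit 3) (nat_lit 0x6800040012000f0000000000000000000000000000000) (nat_lit 0x0) (nat_lit 0x10001800140000000000000000000000000000000000000000000) := T_22 (nat_lit 191) (nat_lit 174) (nat_lit 5) (nat_lit 5) (nat_lit 7) L68964 (by decide +kernel)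
theorem L68966 : W_22 (nat_lit 4) (nat_lit 0x6000040012000f0000000000000000000000000000000) (nat_lit 0x0) (nat_lit 0x100018001c0000000000000001000000000000000000000000000) := T_22 (nat_lit 175) (nat_lit 108) (nat_lit 6) (nat_lit 5) (nat_lit 10) L68965 (by decide +kernel)
theorem L68967 : W_22 (nat_lit 5) (nat_lit 0x6000040012000b0000000000000000000000000000000) (nat_lit 0x0) (nat_lit 0x100018001c0000000100040001000000000000000000000000000) := T_22 (nat_lit 126) (nat_lit 140) (nat_lit 1) (nat_lit 8) (nat_lit 7) L68966 (by decide +kernel)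
theorem L68968 : W_22 (nat_lit 2) (nat_lit 0x7800040012000b0000000000000000000000000000000) (nat_lit 0x0) (nat_lit 0x800008000000000000800000000000000000000000000) := D_22 (nat_lit 159) (nat_lit 179) (nat_lit 107) (nat_lit 0) (nat_lit 9) (nat_lit 10) (nat_lit 7) (nat_lit 5) (nat_lit 6) (by decide +kernel)
theorem L68969 : W_22 (nat_lit 3) (nat_lit 0x6800040012000b0000000000000000000000000000000) (nat_lit 0x0) (nat_lit 0x90000a000000000000800000000000000000000000000) := T_22 (nat_lit 176) (nat_lit 157) (nat_lit 0) (nat_lit 8) (nat_lit 10) L68968 (by decide +kernel)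
theorem L68970 : W_22 (nat_lit 4) (nat_lit 0x6000040012000b0000000000000000000000000000000) (nat_lit 0x0) (nat_lit 0x98000a000000000001800000000000000000000000000) := T_22 (nat_lit 175) (nat_lit 108) (nat_lit 6) (nat_lit 5) (nat_lit 10) L68969 (by decide +kernel)
theorem L68971 : W_22 (nat_lit 7) (nat_lit 0x6000000012000b0000000000000000000000000000000) (nat_lit 0x0) (nat_lit 0x300018009c001f000100048001800040000000000000000000000) := Q_22 (nat_lit 158) (C_22 L68939 (C_22 L68944 (C_22 L68956 (C_22 L68963 (C_22 L68967 (C_22 L68970 N_22)))))) (by decide +kernel)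
theorem L68972 : W_22 (nat_lit 2) (nat_lit 0x1a00180006c00360012001b0000000000000000000000000000000) (nat_lit 0x0) (nat_lit 0x400000001000000000000100000000000000000000000000000000000) := D_22 (nat_lit 192) (nat_lit 140) (nat_lit 226) (nat_lit 4) (nat_lit 5) (nat_lit 12) (nat_lit 4) (nat_lit 5) (nat_lit 13) (by decide +kernel)
theorem L68973 : W_22 (nat_lit 3) (nat_lit 0x1800180006c00360012001b0000000000000000000000000000000) (nat_lit 0x0) (nat_lit 0x400060001000000000000100000000000000000000000000000000000) := T_22 (nat_lit 209) (nat_lit 210) (nat_lit 2) (nat_lit 5) (nat_lit 12) L68972 (by decide +kernel)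
theorem L68974 : W_22 (nat_lit 4) (nat_lit 0x1000180006c00360012001b0000000000000000000000000000000) (nat_lit 0x0) (nat_lit 0x14000e0001000000000000100000000000000000000000000000000000) := T_22 (nat_lit 211) (nat_lit 228) (nat_lit 5) (nat_lit 8) (nat_lit 9) L68973 (by decide +kernel)
theorem L68975 : W_22 (nat_lit 5) (nat_lit 0x180006c00360012001b0000000000000000000000000000000) (nat_lit 0x0) (nat_lit 0x34001e0001000000000000100000000000000000000000000000000000) := T_22 (nat_lit 212) (nat_lit 229) (nat_lit 4) (nat_lit 8) (nat_lit 13) L68974 (by decide +kernel)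
theorem L68976 : W_22 (nat_lit 6) (nat_lit 0x180006c00260012001b0000000000000000000000000000000) (nat_lit 0x0) (nat_lit 0x34001e0001000000018000100000000000000000000000000000000000) := T_22 (nat_lit 160) (nat_lit 159) (nat_lit 3) (nat_lit 4) (nat_lit 9) L68975 (by decide +kernel)
theorem L68977 : W_22 (nat_lit 7) (nat_lit 0x180006c00240012001b0000000000000000000000000000000) (nat_lit 0x0) (nat_lit 0x34001e000100000001a000100000000800000000000000000000000000) := T_22 (nat_lit 157) (nat_lit 107) (nat_lit 5) (nat_lit 5) (nat_lit 6) L68976 (by decide +kernel)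
theorem L68978 : W_22 (nat_lit 8) (nat_lit 0x180006800240012001b0000000000000000000000000000000) (nat_lit 0x0) (nat_lit 0x34001e000180004001a000100000000800000000000000000000000000) := T_22 (nat_lit 174) (nat_lit 191) (nat_lit 5) (nat_lit 5) (nat_lit 7) L68977 (by decide +kernel)
theorem L68979 : W_22 (nat_lit 9) (nat_lit 0x180006800200012001b0000000000000000000000000000000) (nat_lit 0x0) (nat_lit 0x34001e000180004001e000100000001800000000000000000000000000) := T_22 (nat_lit 158) (nat_lit 108) (nat_lit 6) (nat_lit 5) (nat_lit 10) L68978 (by decide +kernel)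
theorem L68980 : W_22 (nat_lit 10) (nat_lit 0x180006000200012001b0000000000000000000000000000000) (nat_lit 0x0) (nat_lit 0x34001e00018001c001e000100000001800000000000000000000000000) := T_22 (nat_lit 175) (nat_lit 176) (nat_lit 3) (nat_lit 5) (nat_lit 10) L68979 (by decide +kernel)
theorem L68981 : W_22 (nat_lit 11) (nat_lit 0x100006000200012001b0000000000000000000000000000000) (nat_lit 0x0) (nat_lit 0x34003e00098001c001e000100000001800000000000000000000000000) := T_22 (nat_lit 195) (nat_lit 213) (nat_lit 7) (nat_lit 8) (nat_lit 8) L68980 (by decide +kernel)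
theorem L68982 : W_22 (nat_lit 12) (nat_lit 0x6000200012001b0000000000000000000000000000000) (nat_lit 0x0) (nat_lit 0x34003e00198009c001e000100000001800000000000000000000000000) := T_22 (nat_lit 196) (nat_lit 179) (nat_lit 7) (nat_lit 8) (nat_lit 7) L68981 (by decide +kernel)
theorem L68983 : W_22 (nat_lit 13) (nat_lit 0x6000200012000b0000000000000000000000000000000) (nat_lit 0x0) (nat_lit 0x34003e00198009c001e000100100009800000000000000000000000000) := T_22 (nat_lit 128) (nat_lit 111) (nat_lit 6) (nat_lit 8) (nat_lit 10) L68982 (by decide +kernel)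
theorem L68984 : W_22 (nat_lit 14) (nat_lit 0x6000000012000b0000000000000000000000000000000) (nat_lit 0x0) (nat_lit 0x34003e001d8009c003e000100100009800000000000000000000000000) := T_22 (nat_lit 161) (nat_lit 194) (nat_lit 5) (nat_lit 8) (nat_lit 7) L68983 (by decide +kernel)
theorem L68985 : W_22 (nat_lit 11) (nat_lit 0x6000000012000b0000000000000000000000000000000) (nat_lit 0x0) (nat_lit 0xfc0079803fe00000014000b000000000000000000000000000) := T_22 (nat_lit 161) (nat_lit 194) (nat_lit 5) (nat_lit 8) (nat_lit 7) L68902 (by decide +kernel)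
theorem L68986 : W_22 (nat_lit 15) (nat_lit 0x2000000012000b0000000000000000000000000000000) (nat_lit 0x0) (nat_lit 0x34003f00fd807dc03ff00010014800b800040000000000000000000000) := Q_22 (nat_lit 178) (C_22 L68936 (C_22 L68971 (C_22 L68984 (C_22 L68985 N_22)))) (by decide +kernel)
theorem L68987 : W_22 (nat_lit 16) (nat_lit 0x2000000012000a0000000000000000000000000000000) (nat_lit 0x0) (nat_lit 0x10003e003f00fde07df03ff8001e015f00bf803f80078003c001c000200000) := Q_22 (nat_lit 124) (C_22 L68722 (C_22 L67925 (C_22 L68800 (C_22 L68805 (C_22 L68806 (C_22 L68906 (C_22 L68934 (C_22 L68986 N_22)))))))) (by decide +kernel)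
theorem L68988 : W_22 (nat_lit 2) (nat_lit 0x2000000016000b0000000000000000000000000000000) (nat_lit 0x0) (nat_lit 0x100140000000000000000000000000000000) := D_22 (nat_lit 126) (nat_lit 140) (nat_lit 128) (nat_lit 1) (nat_lit 8) (nat_lit 7) (nat_lit 1) (nat_lit 9) (nat_lit 7) (by decide +kernel)
theorem L68989 : W_22 (nat_lit 2) (nat_lit 0x3800090017800b4000000000000000000000000000000) (nat_lit 0x0) (nat_lit 0x6000000000001000000000000000000000000000) := D_22 (nat_lit 158) (nat_lit 108) (nat_lit 157) (nat_lit 6) (nat_lit 5) (nat_lit 10) (nat_lit 3) (nat_lit 3) (nat_lit 9) (by decide +kernel)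
theorem L68990 : W_22 (nat_lit 3) (nat_lit 0x3000090017800b4000000000000000000000000000000) (nat_lit 0x0) (nat_lit 0x1000080006000000000001000000000000000000000000000) := T_22 (nat_lit 175) (nat_lit 192) (nat_lit 5) (nat_lit 6) (nat_lit 7) L68989 (by decide +kernel)
theorem L68991 : W_22 (nat_lit 4) (nat_lit 0x2000090017800b4000000000000000000000000000000) (nat_lit 0x0) (nat_lit 0x5000180006000000000001000000000000000000000000000) := T_22 (nat_lit 176) (nat_lit 194) (nat_lit 7) (nat_lit 6) (nat_lit 7) L68990 (by decide +kernel)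
theorem L68992 : W_22 (nat_lit 5) (nat_lit 0x2000090017800b0000000000000000000000000000000) (nat_lit 0x0) (nat_lit 0x5000180006000000006001000000000000000000000000000) := T_22 (nat_lit 122) (nat_lit 121) (nat_lit 0) (nat_lit 6) (nat_lit 8) L68991 (by decide +kernel)
theorem L68993 : W_22 (nat_lit 6) (nat_lit 0x2000010017800b0000000000000000000000000000000) (nat_lit 0x0) (nat_lit 0x500018001e000000006001000000000000000000000000000) := T_22 (nat_lit 159) (nat_lit 160) (nat_lit 3) (nat_lit 3) (nat_lit 8) L68992 (by decide +kernel)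
theorem L68994 : W_22 (nat_lit 7) (nat_lit 0x2000000017800b0000000000000000000000000000000) (nat_lit 0x0) (nat_lit 0x500018001f800000006001000000000000000000000000000) := T_22 (nat_lit 156) (nat_lit 155) (nat_lit 1) (nat_lit 6) (nat_lit 8) L68993 (by decide +kernel)
theorem L68995 : W_22 (nat_lit 8) (nat_lit 0x2000000017000b0000000000000000000000000000000) (nat_lit 0x0) (nat_lit 0x500018001f8000c0006001000000000000000000000000000) := T_22 (nat_lit 139) (nat_lit 138) (nat_lit 2) (nat_lit 2) (nat_lit 8) L68994 (by decide +kernel)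
theorem L68996 : W_22 (nat_lit 9) (nat_lit 0x2000000016000b0000000000000000000000000000000) (nat_lit 0x0) (nat_lit 0x500018001f8001c0046001000000000000000000000000000) := T_22 (nat_lit 140) (nat_lit 126) (nat_lit 1) (nat_lit 8) (nat_lit 7) L68995 (by decide +kernel)
theorem L68997 : W_22 (nat_lit 2) (nat_lit 0x2800080016000b0000000000000000000000000000000) (nat_lit 0x0) (nat_lit 0x5000100000000000000000000000000000000000000000000) := D_22 (nat_lit 176) (nat_lit 192) (nat_lit 194) (nat_lit 5) (nat_lit 6) (nat_lit 7) (nat_lit 7) (nat_lit 6) (nat_lit 7) (by decide +kernel)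
theorem L68998 : W_22 (nat_lit 2) (nat_lit 0x40002800180016000b0000000000000000000000000000000) (nat_lit 0x0) (nat_lit 0x400060000000000000000000000000000000000000000) := D_22 (nat_lit 161) (nat_lit 162) (nat_lit 178) (nat_lit 0) (nat_lit 9) (nat_lit 9) (nat_lit 5) (nat_lit 8) (nat_lit 7) (by decide +kernel)
theorem L68999 : W_22 (nat_lit 3) (nat_lit 0x2800180016000b0000000000000000000000000000000) (nat_lit 0x0) (nat_lit 0x80004000400060000000000000000000000000000000000000000) := T_22 (nat_lit 194) (nat_lit 211) (nat_lit 4) (nat_lit 7) (nat_lit 12) L68998 (by decide +kernel)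
theorem L69000 : W_22 (nat_lit 4) (nat_lit 0x2800080016000b0000000000000000000000000000000) (nat_lit 0x0) (nat_lit 0x80004000400070000000000001000000000000000000000000000) := T_22 (nat_lit 160) (nat_lit 108) (nat_lit 7) (nat_lit 6) (nat_lit 6) L68999 (by decide +kernel)
theorem L69001 : W_22 (nat_lit 2) (nat_lit 0x3800180016000b0000000000000000000000000000000) (nat_lit 0x0) (nat_lit 0x60020000000000000000000000000000000000000000) := D_22 (nat_lit 174) (nat_lit 161) (nat_lit 173) (nat_lit 2) (nat_lit 4) (nat_lit 10) (nat_lit 2) (nat_lit 3) (nat_lit 10) (by decide +kernel)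
theorem L69002 : W_22 (nat_lit 3) (nat_lit 0x2800180016000b0000000000000000000000000000000) (nat_lit 0x0) (nat_lit 0x1000160020000000000000000000000000000000000000000) := T_22 (nat_lit 176) (nat_lit 192) (nat_lit 5) (nat_lit 6) (nat_lit 7) L69001 (by decide +kernel)
theorem L69003 : W_22 (nat_lit 4) (nat_lit 0x2800080016000b0000000000000000000000000000000) (nat_lit 0x0) (nat_lit 0x1000160030000000000001000000000000000000000000000) := T_22 (nat_lit 160) (nat_lit 108) (nat_lit 7) (nat_lit 6) (nat_lit 6) L69002 (by decide +kernel)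
theorem L69004 : W_22 (nat_lit 5) (nat_lit 0x2800000016000b0000000000000000000000000000000) (nat_lit 0x0) (nat_lit 0x80005000560078000000000001000000000000000000000000000) := Q_22 (nat_lit 159) (C_22 L68997 (C_22 L69000 (C_22 L69003 N_22))) (by decide +kernel)
theorem L69005 : W_22 (nat_lit 2) (nat_lit 0x2800000016000b0000000000000000000000000000000) (nat_lit 0x0) (nat_lit 0x1000000004000000000001000000000000000000000000000) := D_22 (nat_lit 158) (nat_lit 108) (nat_lit 192) (nat_lit 6) (nat_lit 5) (nat_lit 10) (nat_lit 6) (nat_lit 5) (nat_lit 11) (by decide +kernel)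
theorem L69006 : W_22 (nat_lit 2) (nat_lit 0x10007800000016000b0000000000000000000000000000000) (nat_lit 0x0) (nat_lit 0x4000000060000000000000000000000000000000000000000) := D_22 (nat_lit 161) (nat_lit 162) (nat_lit 194) (nat_lit 2) (nat_lit 5) (nat_lit 10) (nat_lit 5) (nat_lit 8) (nat_lit 7) (by decide +kernel)
theorem L69007 : W_22 (nat_lit 3) (nat_lit 0x10003800000016000b0000000000000000000000000000000) (nat_lit 0x0) (nat_lit 0x4800400060000000000000000000000000000000000000000) := T_22 (nat_lit 178) (nat_lit 191) (nat_lit 1) (nat_lit 8) (nat_lit 10) L69006 (by decide +kernel)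
theorem L69008 : W_22 (nat_lit 4) (nat_lit 0x10002800000016000b0000000000000000000000000000000) (nat_lit 0x0) (nat_lit 0x4800500068000000000000000000000000000000000000000) := T_22 (nat_lit 176) (nat_lit 159) (nat_lit 5) (nat_lit 6) (nat_lit 7) L69007 (by decide +kernel)
theorem L69009 : W_22 (nat_lit 5) (nat_lit 0x2800000016000b0000000000000000000000000000000) (nat_lit 0x0) (nat_lit 0x580050006c000000000000000000000000000000000000000) := T_22 (nat_lit 192) (nat_lit 158) (nat_lit 6) (nat_lit 5) (nat_lit 11) L69008 (by decide +kernel)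
theorem L69010 : W_22 (nat_lit 2) (nat_lit 0x2c00040016800bc000200000000000000000000000000) (nat_lit 0x0) (nat_lit 0x3000100000000000000000000000000000000000) := D_22 (nat_lit 157) (nat_lit 140) (nat_lit 156) (nat_lit 4) (nat_lit 4) (nat_lit 10) (nat_lit 7) (nat_lit 3) (nat_lit 6) (by decide +kernel)
theorem L69011 : W_22 (nat_lit 3) (nat_lit 0x2c00040016800bc000000000000000000000000000000) (nat_lit 0x0) (nat_lit 0x3000100000000300000000000000000000000000) := T_22 (nat_lit 105) (nat_lit 104) (nat_lit 0) (nat_lit 6) (nat_lit 7) L69010 (by decide +kernel)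
theorem L69012 : W_22 (nat_lit 4) (nat_lit 0x2c00040016000bc000000000000000000000000000000) (nat_lit 0x0) (nat_lit 0x30001c0000000300000000000000000000000000) := T_22 (nat_lit 139) (nat_lit 138) (nat_lit 1) (nat_lit 6) (nat_lit 7) L69011 (by decide +kernel)
theorem L69013 : W_22 (nat_lit 5) (nat_lit 0x2c00040016000b8000000000000000000000000000000) (nat_lit 0x0) (nat_lit 0x30001c0006000300000000000000000000000000) := T_22 (nat_lit 122) (nat_lit 121) (nat_lit 3) (nat_lit 2) (nat_lit 7) L69012 (by decide +kernel)
theorem L69014 : W_22 (nat_lit 6) (nat_lit 0x2c00040016000b0000000000000000000000000000000) (nat_lit 0x0) (nat_lit 0x30001c000e000700000000000000000000000000) := T_22 (nat_lit 123) (nat_lit 106) (nat_lit 4) (nat_lit 5) (nat_lit 10) L69013 (by decide +kernel)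
theorem L69015 : W_22 (nat_lit 7) (nat_lit 0x2800040016000b0000000000000000000000000000000) (nat_lit 0x0) (nat_lit 0x8000400030001c000e000700000000000000000000000000) := T_22 (nat_lit 174) (nat_lit 191) (nat_lit 5) (nat_lit 5) (nat_lit 7) L69014 (by decide +kernel)
theorem L69016 : W_22 (nat_lit 8) (nat_lit 0x2800000016000b0000000000000000000000000000000) (nat_lit 0x0) (nat_lit 0x8000400070001c000e001700000000000000000000000000) := T_22 (nat_lit 158) (nat_lit 108) (nat_lit 6) (nat_lit 5) (nat_lit 10) L69015 (by decide +kernel)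
theorem L69017 : W_22 (nat_lit 9) (nat_lit 0x2000000016000b0000000000000000000000000000000) (nat_lit 0x0) (nat_lit 0x800058005e007f0001c000e001700000000000000000000000000) := Q_22 (nat_lit 175) (C_22 L69004 (C_22 L69005 (C_22 L69009 (C_22 L69016 N_22)))) (by decide +kernel)
theorem L69018 : W_22 (nat_lit 2) (nat_lit 0x3c00058016801bc000200000000000000000000000000) (nat_lit 0x0) (nat_lit 0xc000000008000000000000000000000000000000000000000) := D_22 (nat_lit 194) (nat_lit 195) (nat_lit 159) (nat_lit 3) (nat_lit 4) (nat_lit 10) (nat_lit 7) (nat_lit 6) (nat_lit 7) (by decide +kernel)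
theorem L69019 : W_22 (nat_lit 3) (nat_lit 0x2c00058016801bc000200000000000000000000000000) (nat_lit 0x0) (nat_lit 0xc000120008000000000000000000000000000000000000000) := T_22 (nat_lit 176) (nat_lit 173) (nat_lit 0) (nat_lit 6) (nat_lit 10) L69018 (by decide +kernel)
theorem L69020 : W_22 (nat_lit 4) (nat_lit 0x2c00050016801bc000200000000000000000000000000) (nat_lit 0x0) (nat_lit 0xc000130008800000000000000000000000000000000000000) := T_22 (nat_lit 155) (nat_lit 172) (nat_lit 5) (nat_lit 3) (nat_lit 6) L69019 (by decide +kernel)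
theorem L69021 : W_22 (nat_lit 5) (nat_lit 0x2c00040016801bc000200000000000000000000000000) (nat_lit 0x0) (nat_lit 0xc00013000b800000000000000000000000000000000000000) := T_22 (nat_lit 156) (nat_lit 157) (nat_lit 7) (nat_lit 3) (nat_lit 6) L69020 (by decide +kernel)
theorem L69022 : W_22 (nat_lit 6) (nat_lit 0x2c00040016001bc000200000000000000000000000000) (nat_lit 0x0) (nat_lit 0xc00013000b8000c0000000000000000000000000000000000) := T_22 (nat_lit 139) (nat_lit 138) (nat_lit 1) (nat_lit 6) (nat_lit 7) L69021 (by decide +kernel)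
theorem L69023 : W_22 (nat_lit 7) (nat_lit 0x2c00040016001bc000000000000000000000000000000) (nat_lit 0x0) (nat_lit 0xc00013000b8000c0000000300000000000000000000000000) := T_22 (nat_lit 105) (nat_lit 104) (nat_lit 0) (nat_lit 6) (nat_lit 7) L69022 (by decide +kernel)
theorem L69024 : W_22 (nat_lit 8) (nat_lit 0x2800040016001bc000000000000000000000000000000) (nat_lit 0x0) (nat_lit 0xc80017000b8000c0000000300000000000000000000000000) := T_22 (nat_lit 174) (nat_lit 191) (nat_lit 5) (nat_lit 5) (nat_lit 7) L69023 (by decide +kernel)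
theorem L69025 : W_22 (nat_lit 9) (nat_lit 0x2800040016001b8000000000000000000000000000000) (nat_lit 0x0) (nat_lit 0xc80017000b8000c0006000300000000000000000000000000) := T_22 (nat_lit 122) (nat_lit 121) (nat_lit 3) (nat_lit 2) (nat_lit 7) L69024 (by decide +kernel)
theorem L69026 : W_22 (nat_lit 10) (nat_lit 0x2800040016001b0000000000000000000000000000000) (nat_lit 0x0) (nat_lit 0xc80017000b8000c000e000700000000000000000000000000) := T_22 (nat_lit 123) (nat_lit 106) (nat_lit 4) (nat_lit 5) (nat_lit 10) L69025 (by decide +kernel)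
theorem L69027 : W_22 (nat_lit 11) (nat_lit 0x2800040016000b0000000000000000000000000000000) (nat_lit 0x0) (nat_lit 0xc80017000b8000c014e000700000000000000000000000000) := T_22 (nat_lit 128) (nat_lit 126) (nat_lit 1) (nat_lit 9) (nat_lit 7) L69026 (by decide +kernel)
theorem L69028 : W_22 (nat_lit 12) (nat_lit 0x2000040016000b0000000000000000000000000000000) (nat_lit 0x0) (nat_lit 0xd8001f000b8000c014e000700000000000000000000000000) := T_22 (nat_lit 175) (nat_lit 192) (nat_lit 6) (nat_lit 5) (nat_lit 11) L69027 (by decide +kernel)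
theorem L69029 : W_22 (nat_lit 2) (nat_lit 0x6000040016001b0000000000000000000000000000000) (nat_lit 0x0) (nat_lit 0x4000000020000000000008000000000000000000000000000) := D_22 (nat_lit 161) (nat_lit 194) (nat_lit 111) (nat_lit 5) (nat_lit 8) (nat_lit 7) (nat_lit 6) (nat_lit 8) (nat_lit 10) (by decide +kernel)
theorem L69030 : W_22 (nat_lit 3) (nat_lit 0x6000040016000b0000000000000000000000000000000) (nat_lit 0x0) (nat_lit 0x4000000020000000140008000000000000000000000000000) := T_22 (nat_lit 128) (nat_lit 126) (nat_lit 1) (nat_lit 9) (nat_lit 7) L69029 (by decide +kernel)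
theorem L69031 : W_22 (nat_lit 2) (nat_lit 0xe000240016000b0000000080000000000000000000000) (nat_lit 0x0) (nat_lit 0x100018000000000000000000000000000000000000000) := D_22 (nat_lit 159) (nat_lit 160) (nat_lit 176) (nat_lit 3) (nat_lit 5) (nat_lit 9) (nat_lit 0) (nat_lit 9) (nat_lit 10) (by decide +kernel)
theorem L69032 : W_22 (nat_lit 3) (nat_lit 0x6000240016000b0000000080000000000000000000000) (nat_lit 0x0) (nat_lit 0x10000900018000000000000000000000000000000000000000) := T_22 (nat_lit 179) (nat_lit 196) (nat_lit 7) (nat_lit 8) (nat_lit 7) L69031 (by decide +kernel)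
theorem L69033 : W_22 (nat_lit 4) (nat_lit 0x6000240016000b0000000000000000000000000000000) (nat_lit 0x0) (nat_lit 0x10000900018000000000001000080000000000000000000000) := T_22 (nat_lit 91) (nat_lit 108) (nat_lit 5) (nat_lit 6) (nat_lit 5) L69032 (by decide +kernel)
theorem L69034 : W_22 (nat_lit 5) (nat_lit 0x6000040016000b0000000000000000000000000000000) (nat_lit 0x0) (nat_lit 0x14000900038000000000001000080000000000000000000000) := T_22 (nat_lit 161) (nat_lit 194) (nat_lit 5) (nat_lit 8) (nat_lit 7) L69033 (by decide +kernel)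
theorem L69035 : W_22 (nat_lit 2) (nat_lit 0x60000c0016001b0001000000000000000000000000000) (nat_lit 0x0) (nat_lit 0x4000900000000000000000000000000000000000000000000) := D_22 (nat_lit 176) (nat_lit 194) (nat_lit 179) (nat_lit 7) (nat_lit 6) (nat_lit 7) (nat_lit 0) (nat_lit 9) (nat_lit 10) (by decide +kernel)
theorem L69036 : W_22 (nat_lit 3) (nat_lit 0x6000040016001b0001000000000000000000000000000) (nat_lit 0x0) (nat_lit 0x4000900018000000000000000000000000000000000000000) := T_22 (nat_lit 159) (nat_lit 160) (nat_lit 7) (nat_lit 6) (nat_lit 6) L69035 (by decide +kernel)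
theorem L69037 : W_22 (nat_lit 4) (nat_lit 0x6000040016001b0000000000000000000000000000000) (nat_lit 0x0) (nat_lit 0x4000900018000000000001000080000000000000000000000) := T_22 (nat_lit 108) (nat_lit 91) (nat_lit 5) (nat_lit 6) (nat_lit 5) L69036 (by decide +kernel)
theorem L69038 : W_22 (nat_lit 5) (nat_lit 0x6000040016000b0000000000000000000000000000000) (nat_lit 0x0) (nat_lit 0x4000900018000000140001000080000000000000000000000) := T_22 (nat_lit 128) (nat_lit 126) (nat_lit 1) (nat_lit 9) (nat_lit 7) L69037 (by decide +kernel)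
theorem L69039 : W_22 (nat_lit 2) (nat_lit 0xe000240016001b0000000080000000000000000000000) (nat_lit 0x0) (nat_lit 0x100018000000000000000000000000000000000000000) := D_22 (nat_lit 159) (nat_lit 160) (nat_lit 176) (nat_lit 3) (nat_lit 5) (nat_lit 9) (nat_lit 0) (nat_lit 9) (nat_lit 10) (by decide +kernel)
theorem L69040 : W_22 (nat_lit 3) (nat_lit 0x6000240016001b0000000080000000000000000000000) (nat_lit 0x0) (nat_lit 0x10000900018000000000000000000000000000000000000000) := T_22 (nat_lit 179) (nat_lit 196) (nat_lit 7) (nat_lit 8) (nat_lit 7) L69039 (by decide +kernel)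
theorem L69041 : W_22 (nat_lit 4) (nat_lit 0x6000040016001b0000000080000000000000000000000) (nat_lit 0x0) (nat_lit 0x10000900038000000000008000000000000000000000000000) := T_22 (nat_lit 161) (nat_lit 111) (nat_lit 6) (nat_lit 8) (nat_lit 10) L69040 (by decide +kernel)
theorem L69042 : W_22 (nat_lit 5) (nat_lit 0x6000040016000b0000000080000000000000000000000) (nat_lit 0x0) (nat_lit 0x10000900038000000140008000000000000000000000000000) := T_22 (nat_lit 128) (nat_lit 126) (nat_lit 1) (nat_lit 9) (nat_lit 7) L69041 (by decide +kernel)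
theorem L69043 : W_22 (nat_lit 6) (nat_lit 0x6000040016000b0000000000000000000000000000000) (nat_lit 0x0) (nat_lit 0x10000900038000000140009000080000000000000000000000) := T_22 (nat_lit 91) (nat_lit 108) (nat_lit 5) (nat_lit 6) (nat_lit 5) L69042 (by decide +kernel)
theorem L69044 : W_22 (nat_lit 7) (nat_lit 0x2000040016000b0000000000000000000000000000000) (nat_lit 0x0) (nat_lit 0x14000d00038000000140009000080000000000000000000000) := Q_22 (nat_lit 178) (C_22 L69030 (C_22 L69034 (C_22 L69038 (C_22 L69043 N_22)))) (by decide +kernel)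
theorem L69045 : W_22 (nat_lit 13) (nat_lit 0x2000000016000b0000000000000000000000000000000) (nat_lit 0x0) (nat_lit 0x1d800df003f8000c014e009700080000000000000000000000) := Q_22 (nat_lit 158) (C_22 L67497 (C_22 L69028 (C_22 L69044 N_22))) (by decide +kernel)
theorem L69046 : W_22 (nat_lit 14) (nat_lit 0x2000000012000b0000000000000000000000000000000) (nat_lit 0x0) (nat_lit 0x8001d800df007f8005c014e009700080000000000000000000000) := Q_22 (nat_lit 142) (C_22 L68988 (C_22 L68996 (C_22 L69017 (C_22 L69045 N_22)))) (by decide +kernel)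
theorem L69047 : W_22 (nat_lit 2) (nat_lit 0x2000080016000b0001000000000000000000000000000) (nat_lit 0x0) (nat_lit 0x80004000000000000000080000000000000000000000) := D_22 (nat_lit 158) (nat_lit 175) (nat_lit 91) (nat_lit 6) (nat_lit 5) (nat_lit 10) (nat_lit 5) (nat_lit 6) (nat_lit 5) (by decide +kernel)
theorem L69048 : W_22 (nat_lit 3) (nat_lit 0x2000080016000b0000000000000000000000000000000) (nat_lit 0x0) (nat_lit 0x80014000000000001000080000000000000000000000) := T_22 (nat_lit 108) (nat_lit 160) (nat_lit 7) (nat_lit 6) (nat_lit 6) L69047 (by decide +kernel)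
theorem L69049 : W_22 (nat_lit 4) (nat_lit 0x2000000016000b0000000000000000000000000000000) (nat_lit 0x0) (nat_lit 0x400018001c000000000001800080000000000000000000000) := Q_22 (nat_lit 159) (C_22 L68527 (C_22 L69048 N_22)) (by decide +kernel)
theorem L69050 : W_22 (nat_lit 10) (nat_lit 0x2000000012000b0000000000000000000000000000000) (nat_lit 0x0) (nat_lit 0x500018001f8005c0146001800080000000000000000000000) := Q_22 (nat_lit 142) (C_22 L68996 (C_22 L68988 (C_22 L69049 N_22))) (by decide +kernel)
theorem L69051 : W_22 (nat_lit 16) (nat_lit 0x2000000012000a0000000000000000000000000000000) (nat_lit 0x0) (nat_lit 0x800fd803df01ff8005c015e009f003e001f000280000000000000) := Q_22 (nat_lit 124) (C_22 L67940 (C_22 L68806 (C_22 L67906 (C_22 L68805 (C_22 L69046 (C_22 L68119 (C_22 L68126 (C_22 L69050 N_22)))))))) (by decide +kernel)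
theorem L69052 : W_22 (nat_lit 2) (nat_lit 0x6000200012000e0000000000000000000000000000000) (nat_lit 0x0) (nat_lit 0x400100008000000000000000000000000000) := D_22 (nat_lit 128) (nat_lit 142) (nat_lit 111) (nat_lit 1) (nat_lit 9) (nat_lit 7) (nat_lit 6) (nat_lit 8) (nat_lit 10) (by decide +kernel)
theorem L69053 : W_22 (nat_lit 3) (nat_lit 0x6000200012000a0000000000000000000000000000000) (nat_lit 0x0) (nat_lit 0x40014000a000000000000000000000000000) := T_22 (nat_lit 126) (nat_lit 109) (nat_lit 4) (nat_lit 8) (nat_lit 10) L69052 (by decide +kernel)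
theorem L69054 : W_22 (nat_lit 4) (nat_lit 0x6000000012000a0000000000000000000000000000000) (nat_lit 0x0) (nat_lit 0x400000002000040014000a000000000000000000000000000) := T_22 (nat_lit 161) (nat_lit 194) (nat_lit 5) (nat_lit 8) (nat_lit 7) L69053 (by decide +kernel)
theorem L69055 : W_22 (nat_lit 2) (nat_lit 0xe000000012000a0000000000000000000000000000000) (nat_lit 0x0) (nat_lit 0x14000000020000000000000000000000000000000000000000) := D_22 (nat_lit 161) (nat_lit 194) (nat_lit 196) (nat_lit 5) (nat_lit 8) (nat_lit 7) (nat_lit 7) (nat_lit 8) (nat_lit 7) (by decide +kernel)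
theorem L69056 : W_22 (nat_lit 2) (nat_lit 0x20001f000100012000a0000000000000000000000000000000) (nat_lit 0x0) (nat_lit 0x1c0000000000000000000000000000000000000000) := D_22 (nat_lit 163) (nat_lit 162) (nat_lit 164) (nat_lit 2) (nat_lit 6) (nat_lit 10) (nat_lit 2) (nat_lit 7) (nat_lit 10) (by decide +kernel)
theorem L69057 : W_22 (nat_lit 3) (nat_lit 0x20001e000100012000a0000000000000000000000000000000) (nat_lit 0x0) (nat_lit 0x100001001c0000000000000000000000000000000000000000) := T_22 (nat_lit 176) (nat_lit 196) (nat_lit 3) (nat_lit 6) (nat_lit 10) L69056 (by decide +kernel)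
theorem L69058 : W_22 (nat_lit 4) (nat_lit 0x1e000100012000a0000000000000000000000000000000) (nat_lit 0x0) (nat_lit 0x700001001c0000000000000000000000000000000000000000) := T_22 (nat_lit 197) (nat_lit 198) (nat_lit 3) (nat_lit 7) (nat_lit 10) L69057 (by decide +kernel)
theorem L69059 : W_22 (nat_lit 5) (nat_lit 0x1e000000012000a0000000000000000000000000000000) (nat_lit 0x0) (nat_lit 0x700001001d8000000000000000000000000000000000000000) := T_22 (nat_lit 160) (nat_lit 159) (nat_lit 0) (nat_lit 10) (nat_lit 10) L69058 (by decide +kernel)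
theorem L69060 : W_22 (nat_lit 2) (nat_lit 0x200000004800fe000900012002a0000000000000000000000000000000) (nat_lit 0x0) (nat_lit 0xe00000000000000000000000000000000000000000) := D_22 (nat_lit 166) (nat_lit 165) (nat_lit 167) (nat_lit 2) (nat_lit 9) (nat_lit 10) (nat_lit 2) (nat_lit 10) (nat_lit 10) (by decide +kernel)
theorem L69061 : W_22 (nat_lit 3) (nat_lit 0x2000000048007e000900012002a0000000000000000000000000000000) (nat_lit 0x0) (nat_lit 0x8000e40000000000000000000000000000000000000000) := T_22 (nat_lit 183) (nat_lit 162) (nat_lit 0) (nat_lit 13) (nat_lit 10) L69060 (by decide +kernel)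
theorem L69062 : W_22 (nat_lit 4) (nat_lit 0x2000000048003e000900012002a0000000000000000000000000000000) (nat_lit 0x0) (nat_lit 0x1000c000e40000000000000000000000000000000000000000) := T_22 (nat_lit 182) (nat_lit 196) (nat_lit 1) (nat_lit 12) (nat_lit 10) L69061 (by decide +kernel)
theorem L69063 : W_22 (nat_lit 5) (nat_lit 0x48003e000900012002a0000000000000000000000000000000) (nat_lit 0x0) (nat_lit 0x200010001000c000e40000000000000000000000000000000000000000) := T_22 (nat_lit 229) (nat_lit 212) (nat_lit 4) (nat_lit 8) (nat_lit 13) L69062 (by decide +kernel)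
theorem L69064 : W_22 (nat_lit 6) (nat_lit 0x48003e000900012000a0000000000000000000000000000000) (nat_lit 0x0) (nat_lit 0x200010001000c000e40004000200000000000000000000000000000000) := T_22 (nat_lit 129) (nat_lit 146) (nat_lit 7) (nat_lit 10) (nat_lit 7) L69063 (by decide +kernel)
theorem L69065 : W_22 (nat_lit 7) (nat_lit 0x40003e000900012000a0000000000000000000000000000000) (nat_lit 0x0) (nat_lit 0x200010001c00c000e40004000200000000000000000000000000000000) := T_22 (nat_lit 195) (nat_lit 194) (nat_lit 1) (nat_lit 11) (nat_lit 10) L69064 (by decide +kernel)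
theorem L69066 : W_22 (nat_lit 8) (nat_lit 0x40001e000900012000a0000000000000000000000000000000) (nat_lit 0x0) (nat_lit 0x200010009c00e000e40004000200000000000000000000000000000000) := T_22 (nat_lit 181) (nat_lit 199) (nat_lit 3) (nat_lit 8) (nat_lit 10) L69065 (by decide +kernel)
theorem L69067 : W_22 (nat_lit 9) (nat_lit 0x1e000900012000a0000000000000000000000000000000) (nat_lit 0x0) (nat_lit 0x20001000fc00e000e40004000200000000000000000000000000000000) := T_22 (nat_lit 198) (nat_lit 197) (nat_lit 3) (nat_lit 7) (nat_lit 10) L69066 (by decide +kernel)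
theorem L69068 : W_22 (nat_lit 10) (nat_lit 0x1e000800012000a0000000000000000000000000000000) (nat_lit 0x0) (nat_lit 0x20001000fc00e000e58004000200000000000000000000000000000000) := T_22 (nat_lit 160) (nat_lit 159) (nat_lit 0) (nat_lit 10) (nat_lit 10) L69067 (by decide +kernel)
theorem L69069 : W_22 (nat_lit 11) (nat_lit 0x1e000000012000a0000000000000000000000000000000) (nat_lit 0x0) (nat_lit 0x20001000fc00e000fd8004000200000000000000000000000000000000) := T_22 (nat_lit 163) (nat_lit 164) (nat_lit 2) (nat_lit 7) (nat_lit 10) L69068 (by decide +kernel)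
theorem L69070 : W_22 (nat_lit 2) (nat_lit 0x20001f000000012000a0000000000000000000000000000000) (nat_lit 0x0) (nat_lit 0x1c0000000000000000000000000000000000000000) := D_22 (nat_lit 163) (nat_lit 162) (nat_lit 164) (nat_lit 2) (nat_lit 6) (nat_lit 10) (nat_lit 2) (nat_lit 7) (nat_lit 10) (by decide +kernel)
theorem L69071 : W_22 (nat_lit 3) (nat_lit 0x20001e000000012000a0000000000000000000000000000000) (nat_lit 0x0) (nat_lit 0x100001001c0000000000000000000000000000000000000000) := T_22 (nat_lit 176) (nat_lit 196) (nat_lit 3) (nat_lit 6) (nat_lit 10) L69070 (by decide +kernel)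
theorem L69072 : W_22 (nat_lit 4) (nat_lit 0x1e000000012000a0000000000000000000000000000000) (nat_lit 0x0) (nat_lit 0x700001001c0000000000000000000000000000000000000000) := T_22 (nat_lit 197) (nat_lit 198) (nat_lit 3) (nat_lit 7) (nat_lit 10) L69071 (by decide +kernel)
theorem L69073 : W_22 (nat_lit 2) (nat_lit 0x1f000800012000a0000000000000000000000000000000) (nat_lit 0x0) (nat_lit 0x1c000000000000000000000000000000000000000) := D_22 (nat_lit 159) (nat_lit 158) (nat_lit 160) (nat_lit 0) (nat_lit 9) (nat_lit 10) (nat_lit 0) (nat_lit 10) (nat_lit 10) (by decide +kernel)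
theorem L69074 : W_22 (nat_lit 3) (nat_lit 0x1e000800012000a0000000000000000000000000000000) (nat_lit 0x0) (nat_lit 0x10005c000000000000000000000000000000000000000) := T_22 (nat_lit 176) (nat_lit 162) (nat_lit 2) (nat_lit 6) (nat_lit 10) L69073 (by decide +kernel)
theorem L69075 : W_22 (nat_lit 4) (nat_lit 0x1e000000012000a0000000000000000000000000000000) (nat_lit 0x0) (nat_lit 0x1001dc000000000000000000000000000000000000000) := T_22 (nat_lit 163) (nat_lit 164) (nat_lit 2) (nat_lit 7) (nat_lit 10) L69074 (by decide +kernel)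
theorem L69076 : W_22 (nat_lit 2) (nat_lit 0x20001e000080012000a0000000000000000000000000000000) (nat_lit 0x0) (nat_lit 0x10000100004000000000000000000000000000000000000000) := D_22 (nat_lit 176) (nat_lit 196) (nat_lit 158) (nat_lit 3) (nat_lit 6) (nat_lit 10) (nat_lit 0) (nat_lit 9) (nat_lit 10) (by decide +kernel)
theorem L69077 : W_22 (nat_lit 3) (nat_lit 0x1e000080012000a0000000000000000000000000000000) (nat_lit 0x0) (nat_lit 0x70000100004000000000000000000000000000000000000000) := T_22 (nat_lit 197) (nat_lit 198) (nat_lit 3) (nat_lit 7) (nat_lit 10) L69076 (by decide +kernel)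
theorem L69078 : W_22 (nat_lit 4) (nat_lit 0x1e000000012000a0000000000000000000000000000000) (nat_lit 0x0) (nat_lit 0x7000010001c000000000000000000000000000000000000000) := T_22 (nat_lit 159) (nat_lit 160) (nat_lit 0) (nat_lit 10) (nat_lit 10) L69077 (by decide +kernel)
theorem L69079 : W_22 (nat_lit 12) (nat_lit 0xe000000012000a0000000000000000000000000000000) (nat_lit 0x0) (nat_lit 0x20001000fc00f100fdc004000200000000000000000000000000000000) := Q_22 (nat_lit 180) (C_22 L69059 (C_22 L69069 (C_22 L69072 (C_22 L69075 (C_22 L69078 N_22))))) (by decide +kernel)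
theorem L69080 : W_22 (nat_lit 2) (nat_lit 0x1e000200012000a0000000000000000000000000000000) (nat_lit 0x0) (nat_lit 0x2000018000000000000000000000000000000000000000) := D_22 (nat_lit 160) (nat_lit 159) (nat_lit 181) (nat_lit 0) (nat_lit 10) (nat_lit 10) (nat_lit 0) (nat_lit 11) (nat_lit 10) (by decide +kernel)
theorem L69081 : W_22 (nat_lit 3) (nat_lit 0x1e000000012000a0000000000000000000000000000000) (nat_lit 0x0) (nat_lit 0x4002000038000000000000000000000000000000000000000) := T_22 (nat_lit 161) (nat_lit 194) (nat_lit 5) (nat_lit 8) (nat_lit 7) L69080 (by decide +kernel)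
theorem L69082 : W_22 (nat_lit 2) (nat_lit 0x21001f800b00012000e0000000000000000000000000000000) (nat_lit 0x0) (nat_lit 0x6000400000000000000000000000000000000000) := D_22 (nat_lit 158) (nat_lit 157) (nat_lit 142) (nat_lit 0) (nat_lit 8) (nat_lit 10) (nat_lit 6) (nat_lit 5) (nat_lit 11) (by decide +kernel)
theorem L69083 : W_22 (nat_lit 3) (nat_lit 0x20001f800b00012000e0000000000000000000000000000000) (nat_lit 0x0) (nat_lit 0x1800000006000400000000000000000000000000000000000) := T_22 (nat_lit 192) (nat_lit 191) (nat_lit 1) (nat_lit 8) (nat_lit 10) L69082 (by decide +kernel)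
theorem L69084 : W_22 (nat_lit 4) (nat_lit 0x20001f000b00012000e0000000000000000000000000000000) (nat_lit 0x0) (nat_lit 0x18000c0006000400000000000000000000000000000000000) := T_22 (nat_lit 175) (nat_lit 174) (nat_lit 2) (nat_lit 4) (nat_lit 10) L69083 (by decide +kernel)
theorem L69085 : W_22 (nat_lit 5) (nat_lit 0x20001f000a00012000e0000000000000000000000000000000) (nat_lit 0x0) (nat_lit 0x18020c0016000400000000000000000000000000000000000) := T_22 (nat_lit 160) (nat_lit 181) (nat_lit 0) (nat_lit 11) (nat_lit 10) L69084 (by decide +kernel)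
theorem L69086 : W_22 (nat_lit 6) (nat_lit 0x20001f000a00012000a0000000000000000000000000000000) (nat_lit 0x0) (nat_lit 0x18020c0016000400040002000000000000000000000000000) := T_22 (nat_lit 126) (nat_lit 109) (nat_lit 4) (nat_lit 8) (nat_lit 10) L69085 (by decide +kernel)
theorem L69087 : W_22 (nat_lit 7) (nat_lit 0x20001f000800012000a0000000000000000000000000000000) (nat_lit 0x0) (nat_lit 0x58020c0036000400040002000000000000000000000000000) := T_22 (nat_lit 161) (nat_lit 194) (nat_lit 5) (nat_lit 8) (nat_lit 7) L69086 (by decide +kernel)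
theorem L69088 : W_22 (nat_lit 8) (nat_lit 0x20001e000800012000a0000000000000000000000000000000) (nat_lit 0x0) (nat_lit 0x58021c0076000400040002000000000000000000000000000) := T_22 (nat_lit 176) (nat_lit 162) (nat_lit 2) (nat_lit 6) (nat_lit 10) L69087 (by decide +kernel)
theorem L69089 : W_22 (nat_lit 9) (nat_lit 0x20001e000000012000a0000000000000000000000000000000) (nat_lit 0x0) (nat_lit 0x58021c01f6000400040002000000000000000000000000000) := T_22 (nat_lit 163) (nat_lit 164) (nat_lit 2) (nat_lit 7) (nat_lit 10) L69088 (by decide +kernel)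
theorem L69090 : W_22 (nat_lit 10) (nat_lit 0x1e000000012000a0000000000000000000000000000000) (nat_lit 0x0) (nat_lit 0x658021c01f6000400040002000000000000000000000000000) := T_22 (nat_lit 197) (nat_lit 198) (nat_lit 3) (nat_lit 7) (nat_lit 10) L69089 (by decide +kernel)
theorem L69091 : W_22 (nat_lit 2) (nat_lit 0x20001f800a40012000e0000000000000000000000000000000) (nat_lit 0x0) (nat_lit 0x1800000000000400000000000000000000000000000000000) := D_22 (nat_lit 192) (nat_lit 191) (nat_lit 142) (nat_lit 1) (nat_lit 8) (nat_lit 10) (nat_lit 6) (nat_lit 5) (nat_lit 11) (by decide +kernel)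
theorem L69092 : W_22 (nat_lit 3) (nat_lit 0x20001f000a40012000e0000000000000000000000000000000) (nat_lit 0x0) (nat_lit 0x1800080002000400000000000000000000000000000000000) := T_22 (nat_lit 175) (nat_lit 157) (nat_lit 0) (nat_lit 8) (nat_lit 10) L69091 (by decide +kernel)
theorem L69093 : W_22 (nat_lit 4) (nat_lit 0x20001f000a00012000e0000000000000000000000000000000) (nat_lit 0x0) (nat_lit 0x180008000e000400000000000000000000000000000000000) := T_22 (nat_lit 158) (nat_lit 159) (nat_lit 0) (nat_lit 9) (nat_lit 10) L69092 (by decide +kernel)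
theorem L69094 : W_22 (nat_lit 5) (nat_lit 0x20001e000a00012000e0000000000000000000000000000000) (nat_lit 0x0) (nat_lit 0x180018004e000400000000000000000000000000000000000) := T_22 (nat_lit 176) (nat_lit 162) (nat_lit 2) (nat_lit 6) (nat_lit 10) L69093 (by decide +kernel)
theorem L69095 : W_22 (nat_lit 6) (nat_lit 0x20001e000200012000e0000000000000000000000000000000) (nat_lit 0x0) (nat_lit 0x18001801ce000400000000000000000000000000000000000) := T_22 (nat_lit 163) (nat_lit 164) (nat_lit 2) (nat_lit 7) (nat_lit 10) L69094 (by decide +kernel)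
theorem L69096 : W_22 (nat_lit 7) (nat_lit 0x1e000200012000e0000000000000000000000000000000) (nat_lit 0x0) (nat_lit 0x618001801ce000400000000000000000000000000000000000) := T_22 (nat_lit 197) (nat_lit 198) (nat_lit 3) (nat_lit 7) (nat_lit 10) L69095 (by decide +kernel)
theorem L69097 : W_22 (nat_lit 8) (nat_lit 0x1e000200012000a0000000000000000000000000000000) (nat_lit 0x0) (nat_lit 0x618001801ce000400040002000000000000000000000000000) := T_22 (nat_lit 126) (nat_lit 109) (nat_lit 4) (nat_lit 8) (nat_lit 10) L69096 (by decide +kernel)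
theorem L69098 : W_22 (nat_lit 9) (nat_lit 0x1e000000012000a0000000000000000000000000000000) (nat_lit 0x0) (nat_lit 0x658001801ee000400040002000000000000000000000000000) := T_22 (nat_lit 161) (nat_lit 194) (nat_lit 5) (nat_lit 8) (nat_lit 7) L69097 (by decide +kernel)
theorem L69099 : W_22 (nat_lit 11) (nat_lit 0xe000000012000a0000000000000000000000000000000) (nat_lit 0x0) (nat_lit 0x658031c01fe000400040002000000000000000000000000000) := Q_22 (nat_lit 180) (C_22 L69081 (C_22 L69090 (C_22 L69098 (C_22 L69075 N_22)))) (by decide +kernel)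
theorem L69100 : W_22 (nat_lit 2) (nat_lit 0x10000f800000012000a0000000000000000000000000000000) (nat_lit 0x0) (nat_lit 0xe000000000000000000000000000000000000000) := D_22 (nat_lit 158) (nat_lit 159) (nat_lit 157) (nat_lit 0) (nat_lit 9) (nat_lit 10) (nat_lit 0) (nat_lit 8) (nat_lit 10) (by decide +kernel)
theorem L69101 : W_22 (nat_lit 3) (nat_lit 0x10000f000000012000a0000000000000000000000000000000) (nat_lit 0x0) (nat_lit 0x800008000e000000000000000000000000000000000000000) := T_22 (nat_lit 175) (nat_lit 195) (nat_lit 3) (nat_lit 5) (nat_lit 10) L69100 (by decide +kernel)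
theorem L69102 : W_22 (nat_lit 4) (nat_lit 0x10000e000000012000a0000000000000000000000000000000) (nat_lit 0x0) (nat_lit 0x2800018000e000000000000000000000000000000000000000) := T_22 (nat_lit 176) (nat_lit 197) (nat_lit 3) (nat_lit 6) (nat_lit 10) L69101 (by decide +kernel)
theorem L69103 : W_22 (nat_lit 5) (nat_lit 0xe000000012000a0000000000000000000000000000000) (nat_lit 0x0) (nat_lit 0x3800018002e000000000000000000000000000000000000000) := T_22 (nat_lit 196) (nat_lit 161) (nat_lit 7) (nat_lit 8) (nat_lit 7) L69102 (by decide +kernel)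
theorem L69104 : W_22 (nat_lit 13) (nat_lit 0x6000000012000a0000000000000000000000000000000) (nat_lit 0x0) (nat_lit 0x20001000fd80f9c0ffe004400240002000000000000000000000000000) := Q_22 (nat_lit 179) (C_22 L69055 (C_22 L69079 (C_22 L69099 (C_22 L69103 N_22)))) (by decide +kernel)
theorem L69105 : W_22 (nat_lit 2) (nat_lit 0x3e000200012000a0000000000000000000000000000000) (nat_lit 0x0) (nat_lit 0xe0000000000000000000000000000000000000000000000000) := D_22 (nat_lit 198) (nat_lit 197) (nat_lit 199) (nat_lit 3) (nat_lit 7) (nat_lit 10) (nat_lit 3) (nat_lit 8) (nat_lit 10) (by decide +kernel)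
theorem L69106 : W_22 (nat_lit 3) (nat_lit 0x1e000200012000a0000000000000000000000000000000) (nat_lit 0x0) (nat_lit 0xe0002000010000000000000000000000000000000000000000) := T_22 (nat_lit 181) (nat_lit 160) (nat_lit 0) (nat_lit 11) (nat_lit 10) L69105 (by decide +kernel)
theorem L69107 : W_22 (nat_lit 4) (nat_lit 0x1e000000012000a0000000000000000000000000000000) (nat_lit 0x0) (nat_lit 0xe4002000030000000000000000000000000000000000000000) := T_22 (nat_lit 161) (nat_lit 194) (nat_lit 5) (nat_lit 8) (nat_lit 7) L69106 (by decide +kernel)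
theorem L69108 : W_22 (nat_lit 2) (nat_lit 0x1f800a40012001a0000000000000000000000000000000) (nat_lit 0x0) (nat_lit 0x1800000000000400000000000000000000000000000000000) := D_22 (nat_lit 192) (nat_lit 191) (nat_lit 142) (nat_lit 1) (nat_lit 8) (nat_lit 10) (nat_lit 6) (nat_lit 5) (nat_lit 11) (by decide +kernel)
theorem L69109 : W_22 (nat_lit 3) (nat_lit 0x1f000a40012001a0000000000000000000000000000000) (nat_lit 0x0) (nat_lit 0x1800080002000400000000000000000000000000000000000) := T_22 (nat_lit 175) (nat_lit 157) (nat_lit 0) (nat_lit 8) (nat_lit 10) L69108 (by decide +kernel)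
theorem L69110 : W_22 (nat_lit 4) (nat_lit 0x1f000a40012000a0000000000000000000000000000000) (nat_lit 0x0) (nat_lit 0x1800080002000400100008000000000000000000000000000) := T_22 (nat_lit 128) (nat_lit 111) (nat_lit 6) (nat_lit 8) (nat_lit 10) L69109 (by decide +kernel)
theorem L69111 : W_22 (nat_lit 5) (nat_lit 0x1f000a00012000a0000000000000000000000000000000) (nat_lit 0x0) (nat_lit 0x180008000e000400100008000000000000000000000000000) := T_22 (nat_lit 158) (nat_lit 159) (nat_lit 0) (nat_lit 9) (nat_lit 10) L69110 (by decide +kernel)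
theorem L69112 : W_22 (nat_lit 6) (nat_lit 0x1e000a00012000a0000000000000000000000000000000) (nat_lit 0x0) (nat_lit 0x180018004e000400100008000000000000000000000000000) := T_22 (nat_lit 176) (nat_lit 162) (nat_lit 2) (nat_lit 6) (nat_lit 10) L69111 (by decide +kernel)
theorem L69113 : W_22 (nat_lit 7) (nat_lit 0x1e000200012000a0000000000000000000000000000000) (nat_lit 0x0) (nat_lit 0x18001801ce000400100008000000000000000000000000000) := T_22 (nat_lit 163) (nat_lit 164) (nat_lit 2) (nat_lit 7) (nat_lit 10) L69112 (by decide +kernel)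
theorem L69114 : W_22 (nat_lit 8) (nat_lit 0x1e000000012000a0000000000000000000000000000000) (nat_lit 0x0) (nat_lit 0x58001801ee000400100008000000000000000000000000000) := T_22 (nat_lit 161) (nat_lit 194) (nat_lit 5) (nat_lit 8) (nat_lit 7) L69113 (by decide +kernel)
theorem L69115 : W_22 (nat_lit 9) (nat_lit 0xe000000012000a0000000000000000000000000000000) (nat_lit 0x0) (nat_lit 0xe58031801fe000400100008000000000000000000000000000) := Q_22 (nat_lit 180) (C_22 L69081 (C_22 L69107 (C_22 L69114 (C_22 L69075 N_22)))) (by decide +kernel)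
theorem L69116 : W_22 (nat_lit 13) (nat_lit 0x6000000012000a0000000000000000000000000000000) (nat_lit 0x0) (nat_lit 0x20001000fd80f980ffe004400300008000000000000000000000000000) := Q_22 (nat_lit 179) (C_22 L69103 (C_22 L69079 (C_22 L69055 (C_22 L69115 N_22)))) (by decide +kernel)
theorem L69117 : W_22 (nat_lit 2) (nat_lit 0x40001e000e00012001e0001000000000000000000000000000) (nat_lit 0x0) (nat_lit 0x80006000000000000000000000000000000000000000000000) := D_22 (nat_lit 181) (nat_lit 182) (nat_lit 199) (nat_lit 0) (nat_lit 12) (nat_lit 10) (nat_lit 3) (nat_lit 8) (nat_lit 10) (by decide +kernel)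
theorem L69118 : W_22 (nat_lit 3) (nat_lit 0x1e000e00012001e0001000000000000000000000000000) (nat_lit 0x0) (nat_lit 0xe0006000000000000000000000000000000000000000000000) := T_22 (nat_lit 198) (nat_lit 197) (nat_lit 3) (nat_lit 7) (nat_lit 10) L69117 (by decide +kernel)
theorem L69119 : W_22 (nat_lit 4) (nat_lit 0x1e000a00012001e0001000000000000000000000000000) (nat_lit 0x0) (nat_lit 0xe0006100040000000000000000000000000000000000000000) := T_22 (nat_lit 162) (nat_lit 176) (nat_lit 2) (nat_lit 6) (nat_lit 10) L69118 (by decide +kernel)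
theorem L69120 : W_22 (nat_lit 5) (nat_lit 0x1e000200012001e0001000000000000000000000000000) (nat_lit 0x0) (nat_lit 0xe00061001c0000000000000000000000000000000000000000) := T_22 (nat_lit 163) (nat_lit 164) (nat_lit 2) (nat_lit 7) (nat_lit 10) L69119 (by decide +kernel)
theorem L69121 : W_22 (nat_lit 6) (nat_lit 0x1e000200012001e0000000000000000000000000000000) (nat_lit 0x0) (nat_lit 0xe00061001c0000000000001800000000000000000000000000) := T_22 (nat_lit 108) (nat_lit 107) (nat_lit 0) (nat_lit 9) (nat_lit 7) L69120 (by decide +kernel)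
theorem L69122 : W_22 (nat_lit 7) (nat_lit 0x1e000200012000e0000000000000000000000000000000) (nat_lit 0x0) (nat_lit 0xe00061001c0000000100009800000000000000000000000000) := T_22 (nat_lit 128) (nat_lit 111) (nat_lit 6) (nat_lit 8) (nat_lit 10) L69121 (by decide +kernel)
theorem L69123 : W_22 (nat_lit 8) (nat_lit 0x1e000200012000a0000000000000000000000000000000) (nat_lit 0x0) (nat_lit 0xe00061001c000000014000b800000000000000000000000000) := T_22 (nat_lit 126) (nat_lit 109) (nat_lit 4) (nat_lit 8) (nat_lit 10) L69122 (by decide +kernel)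
theorem L69124 : W_22 (nat_lit 9) (nat_lit 0x1e000000012000a0000000000000000000000000000000) (nat_lit 0x0) (nat_lit 0xe40061001e000000014000b800000000000000000000000000) := T_22 (nat_lit 161) (nat_lit 194) (nat_lit 5) (nat_lit 8) (nat_lit 7) L69123 (by decide +kernel)
theorem L69125 : W_22 (nat_lit 10) (nat_lit 0xe000000012000a0000000000000000000000000000000) (nat_lit 0x0) (nat_lit 0xe40071001fc00000014000b800000000000000000000000000) := Q_22 (nat_lit 180) (C_22 L69107 (C_22 L69124 (C_22 L69075 N_22))) (by decide +kernel)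
theorem L69126 : W_22 (nat_lit 13) (nat_lit 0x6000000012000a0000000000000000000000000000000) (nat_lit 0x0) (nat_lit 0x20001000fc00f980ffe00400034000b800000000000000000000000000) := Q_22 (nat_lit 179) (C_22 L69103 (C_22 L69079 (C_22 L69055 (C_22 L69125 N_22)))) (by decide +kernel)
theorem L69127 : W_22 (nat_lit 2) (nat_lit 0x80007c00000012000a0000000000000000000000000000000) (nat_lit 0x0) (nat_lit 0x1c00000000000000000000000000000000000000000000000) := D_22 (nat_lit 191) (nat_lit 190) (nat_lit 192) (nat_lit 1) (nat_lit 7) (nat_lit 10) (nat_lit 1) (nat_lit 8) (nat_lit 10) (by decide +kernel)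
theorem L69128 : W_22 (nat_lit 3) (nat_lit 0x80007800000012000a0000000000000000000000000000000) (nat_lit 0x0) (nat_lit 0x5c00040000000000000000000000000000000000000000000) := T_22 (nat_lit 174) (nat_lit 194) (nat_lit 3) (nat_lit 4) (nat_lit 10) L69127 (by decide +kernel)
theorem L69129 : W_22 (nat_lit 4) (nat_lit 0x7800000012000a0000000000000000000000000000000) (nat_lit 0x0) (nat_lit 0x1dc00040000000000000000000000000000000000000000000) := T_22 (nat_lit 195) (nat_lit 196) (nat_lit 3) (nat_lit 5) (nat_lit 10) L69128 (by decide +kernel)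
theorem L69130 : W_22 (nat_lit 2) (nat_lit 0x10007800000012000a0000000000000000000000000000000) (nat_lit 0x0) (nat_lit 0x6000400000000000000000000000000000000000) := D_22 (nat_lit 158) (nat_lit 157) (nat_lit 142) (nat_lit 0) (nat_lit 8) (nat_lit 10) (nat_lit 6) (nat_lit 5) (nat_lit 11) (by decide +kernel)
theorem L69131 : W_22 (nat_lit 3) (nat_lit 0x7800000012000a0000000000000000000000000000000) (nat_lit 0x0) (nat_lit 0x1800000006000400000000000000000000000000000000000) := T_22 (nat_lit 192) (nat_lit 191) (nat_lit 1) (nat_lit 8) (nat_lit 10) L69130 (by decide +kernel)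
theorem L69132 : W_22 (nat_lit 2) (nat_lit 0x90007c000c0013000a0000000000000000000000000000000) (nat_lit 0x0) (nat_lit 0x30010000000000000000000000000000000000000000) := D_22 (nat_lit 173) (nat_lit 172) (nat_lit 160) (nat_lit 2) (nat_lit 2) (nat_lit 10) (nat_lit 2) (nat_lit 3) (nat_lit 10) (by decide +kernel)
theorem L69133 : W_22 (nat_lit 3) (nat_lit 0x90007c00040013000a0000000000000000000000000000000) (nat_lit 0x0) (nat_lit 0x830018000000000000000000000000000000000000000) := T_22 (nat_lit 159) (nat_lit 179) (nat_lit 0) (nat_lit 9) (nat_lit 10) L69132 (by decide +kernel)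
theorem L69134 : W_22 (nat_lit 4) (nat_lit 0x90007c00040012000a0000000000000000000000000000000) (nat_lit 0x0) (nat_lit 0x830018000100008000000000000000000000000000000) := T_22 (nat_lit 140) (nat_lit 123) (nat_lit 4) (nat_lit 5) (nat_lit 11) L69133 (by decide +kernel)
theorem L69135 : W_22 (nat_lit 5) (nat_lit 0x80007c00040012000a0000000000000000000000000000000) (nat_lit 0x0) (nat_lit 0x1000830018000500008000000000000000000000000000000) := T_22 (nat_lit 192) (nat_lit 142) (nat_lit 6) (nat_lit 5) (nat_lit 11) L69134 (by decide +kernel)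
theorem L69136 : W_22 (nat_lit 6) (nat_lit 0x80007800040012000a0000000000000000000000000000000) (nat_lit 0x0) (nat_lit 0x5000870018000500008000000000000000000000000000000) := T_22 (nat_lit 174) (nat_lit 194) (nat_lit 3) (nat_lit 4) (nat_lit 10) L69135 (by decide +kernel)
theorem L69137 : W_22 (nat_lit 7) (nat_lit 0x7800040012000a0000000000000000000000000000000) (nat_lit 0x0) (nat_lit 0x1d000870018000500008000000000000000000000000000000) := T_22 (nat_lit 195) (nat_lit 196) (nat_lit 3) (nat_lit 5) (nat_lit 10) L69136 (by decide +kernel)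
theorem L69138 : W_22 (nat_lit 8) (nat_lit 0x7800000012000a0000000000000000000000000000000) (nat_lit 0x0) (nat_lit 0x1d00087001e000500008000000000000000000000000000000) := T_22 (nat_lit 158) (nat_lit 157) (nat_lit 0) (nat_lit 8) (nat_lit 10) L69137 (by decide +kernel)
theorem L69139 : W_22 (nat_lit 2) (nat_lit 0x88007c000c0012000a0000000000000000000000000000000) (nat_lit 0x0) (nat_lit 0x30010000000000000000000000000000000000000000) := D_22 (nat_lit 173) (nat_lit 172) (nat_lit 160) (nat_lit 2) (nat_lit 2) (nat_lit 10) (nat_lit 2) (nat_lit 3) (nat_lit 10) (by decide +kernel)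
theorem L69140 : W_22 (nat_lit 3) (nat_lit 0x88007c00040012000a0000000000000000000000000000000) (nat_lit 0x0) (nat_lit 0x830018000000000000000000000000000000000000000) := T_22 (nat_lit 159) (nat_lit 179) (nat_lit 0) (nat_lit 9) (nat_lit 10) L69139 (by decide +kernel)
theorem L69141 : W_22 (nat_lit 4) (nat_lit 0x80007c00040012000a0000000000000000000000000000000) (nat_lit 0x0) (nat_lit 0xc00830018000000000000000000000000000000000000000) := T_22 (nat_lit 191) (nat_lit 190) (nat_lit 1) (nat_lit 7) (nat_lit 10) L69140 (by decide +kernel)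
theorem L69142 : W_22 (nat_lit 5) (nat_lit 0x80007800040012000a0000000000000000000000000000000) (nat_lit 0x0) (nat_lit 0x4c00870018000000000000000000000000000000000000000) := T_22 (nat_lit 174) (nat_lit 194) (nat_lit 3) (nat_lit 4) (nat_lit 10) L69141 (by decide +kernel)
theorem L69143 : W_22 (nat_lit 6) (nat_lit 0x7800040012000a0000000000000000000000000000000) (nat_lit 0x0) (nat_lit 0x1cc00870018000000000000000000000000000000000000000) := T_22 (nat_lit 195) (nat_lit 196) (nat_lit 3) (nat_lit 5) (nat_lit 10) L69142 (by decide +kernel)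
theorem L69144 : W_22 (nat_lit 7) (nat_lit 0x7800000012000a0000000000000000000000000000000) (nat_lit 0x0) (nat_lit 0x1cc0087001e000000000000000000000000000000000000000) := T_22 (nat_lit 158) (nat_lit 157) (nat_lit 0) (nat_lit 8) (nat_lit 10) L69143 (by decide +kernel)
theorem L69145 : W_22 (nat_lit 9) (nat_lit 0x7000000012000a0000000000000000000000000000000) (nat_lit 0x0) (nat_lit 0x1dc008f001e000500008000000000000000000000000000000) := Q_22 (nat_lit 175) (C_22 L69129 (C_22 L69131 (C_22 L69138 (C_22 L69144 N_22)))) (by decide +kernel)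
theorem L69146 : W_22 (nat_lit 2) (nat_lit 0x80007c00000012000a0000000000000000000000000000000) (nat_lit 0x0) (nat_lit 0x7000000000000000000000000000000000000000) := D_22 (nat_lit 157) (nat_lit 156) (nat_lit 158) (nat_lit 0) (nat_lit 7) (nat_lit 10) (nat_lit 0) (nat_lit 8) (nat_lit 10) (by decide +kernel)
theorem L69147 : W_22 (nat_lit 3) (nat_lit 0x80007800000012000a0000000000000000000000000000000) (nat_lit 0x0) (nat_lit 0x4000040007000000000000000000000000000000000000000) := T_22 (nat_lit 174) (nat_lit 194) (nat_lit 3) (nat_lit 4) (nat_lit 10) L69146 (by decide +kernel)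
theorem L69148 : W_22 (nat_lit 4) (nat_lit 0x7800000012000a0000000000000000000000000000000) (nat_lit 0x0) (nat_lit 0x1c000040007000000000000000000000000000000000000000) := T_22 (nat_lit 195) (nat_lit 196) (nat_lit 3) (nat_lit 5) (nat_lit 10) L69147 (by decide +kernel)
theorem L69149 : W_22 (nat_lit 5) (nat_lit 0x7000000012000a0000000000000000000000000000000) (nat_lit 0x0) (nat_lit 0x1dc000c0007000400000000000000000000000000000000000) := Q_22 (nat_lit 175) (C_22 L69129 (C_22 L69131 (C_22 L69148 N_22))) (by decide +kernel)
theorem L69150 : W_22 (nat_lit 2) (nat_lit 0x8007c000c0012000a0000000000000000000000000000000) (nat_lit 0x0) (nat_lit 0x30010000000000000000000000000000000000000000) := D_22 (nat_lit 173) (nat_lit 172) (nat_lit 160) (nat_lit 2) (nat_lit 2) (nat_lit 10) (nat_lit 2) (nat_lit 3) (nat_lit 10) (by decide +kernel)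
theorem L69151 : W_22 (nat_lit 3) (nat_lit 0x80078000c0012000a0000000000000000000000000000000) (nat_lit 0x0) (nat_lit 0x400070010000000000000000000000000000000000000000) := T_22 (nat_lit 174) (nat_lit 190) (nat_lit 1) (nat_lit 7) (nat_lit 10) L69150 (by decide +kernel)
theorem L69152 : W_22 (nat_lit 4) (nat_lit 0x8007800040012000a0000000000000000000000000000000) (nat_lit 0x0) (nat_lit 0x400870018000000000000000000000000000000000000000) := T_22 (nat_lit 159) (nat_lit 179) (nat_lit 0) (nat_lit 9) (nat_lit 10) L69151 (by decide +kernel)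
theorem L69153 : W_22 (nat_lit 5) (nat_lit 0x7800040012000a0000000000000000000000000000000) (nat_lit 0x0) (nat_lit 0x1c00870018000000000000000000000000000000000000000) := T_22 (nat_lit 191) (nat_lit 192) (nat_lit 1) (nat_lit 8) (nat_lit 10) L69152 (by decide +kernel)
theorem L69154 : W_22 (nat_lit 6) (nat_lit 0x7800000012000a0000000000000000000000000000000) (nat_lit 0x0) (nat_lit 0x1c0087001e000000000000000000000000000000000000000) := T_22 (nat_lit 158) (nat_lit 157) (nat_lit 0) (nat_lit 8) (nat_lit 10) L69153 (by decide +kernel)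
theorem L69155 : W_22 (nat_lit 2) (nat_lit 0x9003f800840013000a0000000000000000000000000000000) (nat_lit 0x0) (nat_lit 0xe0000000000000000000000000000000000000000000000000) := D_22 (nat_lit 198) (nat_lit 197) (nat_lit 199) (nat_lit 3) (nat_lit 7) (nat_lit 10) (nat_lit 3) (nat_lit 8) (nat_lit 10) (by decide +kernel)
theorem L69156 : W_22 (nat_lit 3) (nat_lit 0x9001f800840013000a0000000000000000000000000000000) (nat_lit 0x0) (nat_lit 0xe4002000000000000000000000000000000000000000000000) := T_22 (nat_lit 181) (nat_lit 194) (nat_lit 1) (nat_lit 11) (nat_lit 10) L69155 (by decide +kernel)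
theorem L69157 : W_22 (nat_lit 4) (nat_lit 0x9000f800840013000a0000000000000000000000000000000) (nat_lit 0x0) (nat_lit 0xe4003000100000000000000000000000000000000000000000) := T_22 (nat_lit 180) (nat_lit 164) (nat_lit 2) (nat_lit 7) (nat_lit 10) L69156 (by decide +kernel)
theorem L69158 : W_22 (nat_lit 5) (nat_lit 0x9000f800040013000a0000000000000000000000000000000) (nat_lit 0x0) (nat_lit 0xe40030001c0000000000000000000000000000000000000000) := T_22 (nat_lit 163) (nat_lit 162) (nat_lit 2) (nat_lit 6) (nat_lit 10) L69157 (by decide +kernel)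
theorem L69159 : W_22 (nat_lit 6) (nat_lit 0x9000f800040012000a0000000000000000000000000000000) (nat_lit 0x0) (nat_lit 0xe40030001c0000100008000000000000000000000000000000) := T_22 (nat_lit 140) (nat_lit 123) (nat_lit 4) (nat_lit 5) (nat_lit 11) L69158 (by decide +kernel)
theorem L69160 : W_22 (nat_lit 7) (nat_lit 0x90007800040012000a0000000000000000000000000000000) (nat_lit 0x0) (nat_lit 0xe40038001c8000100008000000000000000000000000000000) := T_22 (nat_lit 179) (nat_lit 159) (nat_lit 0) (nat_lit 9) (nat_lit 10) L69159 (by decide +kernel)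
theorem L69161 : W_22 (nat_lit 8) (nat_lit 0x90007800000012000a0000000000000000000000000000000) (nat_lit 0x0) (nat_lit 0xe40038001ce000100008000000000000000000000000000000) := T_22 (nat_lit 158) (nat_lit 157) (nat_lit 0) (nat_lit 8) (nat_lit 10) L69160 (by decide +kernel)
theorem L69162 : W_22 (nat_lit 9) (nat_lit 0x10007800000012000a0000000000000000000000000000000) (nat_lit 0x0) (nat_lit 0xfc0038001ce000100008000000000000000000000000000000) := T_22 (nat_lit 195) (nat_lit 196) (nat_lit 3) (nat_lit 5) (nat_lit 10) L69161 (by decide +kernel)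
theorem L69163 : W_22 (nat_lit 10) (nat_lit 0x7800000012000a0000000000000000000000000000000) (nat_lit 0x0) (nat_lit 0xfd8038001ce000100008000000000000000000000000000000) := T_22 (nat_lit 192) (nat_lit 191) (nat_lit 1) (nat_lit 8) (nat_lit 10) L69162 (by decide +kernel)
theorem L69164 : W_22 (nat_lit 11) (nat_lit 0x7000000012000a0000000000000000000000000000000) (nat_lit 0x0) (nat_lit 0xfdc038f01df000100008000000000000000000000000000000) := Q_22 (nat_lit 175) (C_22 L69129 (C_22 L69148 (C_22 L69154 (C_22 L69163 N_22)))) (by decide +kernel)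
theorem L69165 : W_22 (nat_lit 2) (nat_lit 0x7000080016000a0000000000000000000000000000000) (nat_lit 0x0) (nat_lit 0x140002000000000000000000000000000) := D_22 (nat_lit 126) (nat_lit 128) (nat_lit 109) (nat_lit 1) (nat_lit 9) (nat_lit 7) (nat_lit 6) (nat_lit 6) (nat_lit 10) (by decide +kernel)
theorem L69166 : W_22 (nat_lit 3) (nat_lit 0x7000080012000a0000000000000000000000000000000) (nat_lit 0x0) (nat_lit 0x4000000000000400140002000000000000000000000000000) := T_22 (nat_lit 142) (nat_lit 194) (nat_lit 7) (nat_lit 6) (nat_lit 7) L69165 (by decide +kernel)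
theorem L69167 : W_22 (nat_lit 2) (nat_lit 0x7000080016000a0001000000000000000000000000000) (nat_lit 0x0) (nat_lit 0x800004000000000000000080000000000000000000000) := D_22 (nat_lit 158) (nat_lit 179) (nat_lit 91) (nat_lit 0) (nat_lit 9) (nat_lit 10) (nat_lit 5) (nat_lit 6) (nat_lit 5) (by decide +kernel)
theorem L69168 : W_22 (nat_lit 3) (nat_lit 0x7000080016000a0000000000000000000000000000000) (nat_lit 0x0) (nat_lit 0x800014000000000001000080000000000000000000000) := T_22 (nat_lit 108) (nat_lit 160) (nat_lit 7) (nat_lit 6) (nat_lit 6) L69167 (by decide +kernel)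
theorem L69169 : W_22 (nat_lit 4) (nat_lit 0x7000080012000a0000000000000000000000000000000) (nat_lit 0x0) (nat_lit 0x4000800014000400000001000080000000000000000000000) := T_22 (nat_lit 142) (nat_lit 194) (nat_lit 7) (nat_lit 6) (nat_lit 7) L69168 (by decide +kernel)
theorem L69170 : W_22 (nat_lit 3) (nat_lit 0xf000080012000a0000000000000000000000000000000) (nat_lit 0x0) (nat_lit 0x10001d0000000000000000000000000000000000000000) := T_22 (nat_lit 180) (nat_lit 160) (nat_lit 0) (nat_lit 10) (nat_lit 10) L68354 (by decide +kernel)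
theorem L69171 : W_22 (nat_lit 4) (nat_lit 0x7000080012000a0000000000000000000000000000000) (nat_lit 0x0) (nat_lit 0x18001d4000000000000000000000000000000000000000) := T_22 (nat_lit 179) (nat_lit 158) (nat_lit 0) (nat_lit 9) (nat_lit 10) L69170 (by decide +kernel)
theorem L69172 : W_22 (nat_lit 5) (nat_lit 0x7000000012000a0000000000000000000000000000000) (nat_lit 0x0) (nat_lit 0x40018001dc000400140003000080000000000000000000000) := Q_22 (nat_lit 159) (C_22 L69166 (C_22 L69169 (C_22 L69171 N_22))) (by decide +kernel)
theorem L69173 : W_22 (nat_lit 2) (nat_lit 0x48007e00010012000a0000000000000000000000000000000) (nat_lit 0x0) (nat_lit 0x18000400000000000000000000000000000000000) := D_22 (nat_lit 159) (nat_lit 142) (nat_lit 160) (nat_lit 7) (nat_lit 6) (nat_lit 7) (nat_lit 2) (nat_lit 3) (nat_lit 10) (by decide +kernel)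
theorem L69174 : W_22 (nat_lit 3) (nat_lit 0x48007c00010012000a0000000000000000000000000000000) (nat_lit 0x0) (nat_lit 0x20018800400000000000000000000000000000000000) := T_22 (nat_lit 173) (nat_lit 155) (nat_lit 0) (nat_lit 6) (nat_lit 10) L69173 (by decide +kernel)
theorem L69175 : W_22 (nat_lit 4) (nat_lit 0x8007c00010012000a0000000000000000000000000000000) (nat_lit 0x0) (nat_lit 0xc000020018800400000000000000000000000000000000000) := T_22 (nat_lit 194) (nat_lit 195) (nat_lit 3) (nat_lit 4) (nat_lit 10) L69174 (by decide +kernel)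
theorem L69176 : W_22 (nat_lit 5) (nat_lit 0x8007c00000012000a0000000000000000000000000000000) (nat_lit 0x0) (nat_lit 0xc00002001b800400000000000000000000000000000000000) := T_22 (nat_lit 156) (nat_lit 157) (nat_lit 0) (nat_lit 7) (nat_lit 10) L69175 (by decide +kernel)
theorem L69177 : W_22 (nat_lit 6) (nat_lit 0x8007800000012000a0000000000000000000000000000000) (nat_lit 0x0) (nat_lit 0xc40006001b800400000000000000000000000000000000000) := T_22 (nat_lit 174) (nat_lit 190) (nat_lit 1) (nat_lit 7) (nat_lit 10) L69176 (by decide +kernel)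
theorem L69178 : W_22 (nat_lit 7) (nat_lit 0x7800000012000a0000000000000000000000000000000) (nat_lit 0x0) (nat_lit 0xdc0006001b800400000000000000000000000000000000000) := T_22 (nat_lit 191) (nat_lit 192) (nat_lit 1) (nat_lit 8) (nat_lit 10) L69177 (by decide +kernel)
theorem L69179 : W_22 (nat_lit 2) (nat_lit 0x8007e00090016000a4000000000000000000000000000000) (nat_lit 0x0) (nat_lit 0x140002000000000000000000000000000) := D_22 (nat_lit 126) (nat_lit 109) (nat_lit 128) (nat_lit 6) (nat_lit 6) (nat_lit 10) (nat_lit 1) (nat_lit 9) (nat_lit 7) (by decide +kernel)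
theorem L69180 : W_22 (nat_lit 3) (nat_lit 0x8007e00090012000a4000000000000000000000000000000) (nat_lit 0x0) (nat_lit 0x4000000000000400140002000000000000000000000000000) := T_22 (nat_lit 142) (nat_lit 194) (nat_lit 7) (nat_lit 6) (nat_lit 7) L69179 (by decide +kernel)
theorem L69181 : W_22 (nat_lit 4) (nat_lit 0x8007e00090012000a0000000000000000000000000000000) (nat_lit 0x0) (nat_lit 0x4000000000000480144002000000000000000000000000000) := T_22 (nat_lit 122) (nat_lit 139) (nat_lit 7) (nat_lit 3) (nat_lit 7) L69180 (by decide +kernel)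
theorem L69182 : W_22 (nat_lit 5) (nat_lit 0x8007e00010012000a0000000000000000000000000000000) (nat_lit 0x0) (nat_lit 0x4000000018000480144002000000000000000000000000000) := T_22 (nat_lit 159) (nat_lit 160) (nat_lit 2) (nat_lit 3) (nat_lit 10) L69181 (by decide +kernel)
theorem L69183 : W_22 (nat_lit 6) (nat_lit 0x8007c00010012000a0000000000000000000000000000000) (nat_lit 0x0) (nat_lit 0x4000020018800480144002000000000000000000000000000) := T_22 (nat_lit 173) (nat_lit 155) (nat_lit 0) (nat_lit 6) (nat_lit 10) L69182 (by decide +kernel)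
theorem L69184 : W_22 (nat_lit 7) (nat_lit 0x8007c00000012000a0000000000000000000000000000000) (nat_lit 0x0) (nat_lit 0x400002001b800480144002000000000000000000000000000) := T_22 (nat_lit 156) (nat_lit 157) (nat_lit 0) (nat_lit 7) (nat_lit 10) L69183 (by decide +kernel)
theorem L69185 : W_22 (nat_lit 8) (nat_lit 0x8007800000012000a0000000000000000000000000000000) (nat_lit 0x0) (nat_lit 0x440006001b800480144002000000000000000000000000000) := T_22 (nat_lit 174) (nat_lit 190) (nat_lit 1) (nat_lit 7) (nat_lit 10) L69184 (by decide +kernel)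
theorem L69186 : W_22 (nat_lit 9) (nat_lit 0x7800000012000a0000000000000000000000000000000) (nat_lit 0x0) (nat_lit 0x5c0006001b800480144002000000000000000000000000000) := T_22 (nat_lit 191) (nat_lit 192) (nat_lit 1) (nat_lit 8) (nat_lit 10) L69185 (by decide +kernel)
theorem L69187 : W_22 (nat_lit 2) (nat_lit 0x11000f800880012000a0000000000000000000000000000000) (nat_lit 0x0) (nat_lit 0x1000110000000000000000000000000000000000000000) := D_22 (nat_lit 180) (nat_lit 160) (nat_lit 164) (nat_lit 0) (nat_lit 10) (nat_lit 10) (nat_lit 2) (nat_lit 7) (nat_lit 10) (by decide +kernel)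
theorem L69188 : W_22 (nat_lit 3) (nat_lit 0x11000f800080012000a0000000000000000000000000000000) (nat_lit 0x0) (nat_lit 0x10001d0000000000000000000000000000000000000000) := T_22 (nat_lit 163) (nat_lit 162) (nat_lit 2) (nat_lit 6) (nat_lit 10) L69187 (by decide +kernel)
theorem L69189 : W_22 (nat_lit 4) (nat_lit 0x110007800080012000a0000000000000000000000000000000) (nat_lit 0x0) (nat_lit 0x200018001d0000000000000000000000000000000000000000) := T_22 (nat_lit 179) (nat_lit 197) (nat_lit 3) (nat_lit 6) (nat_lit 10) L69188 (by decide +kernel)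
theorem L69190 : W_22 (nat_lit 5) (nat_lit 0x110007800000012000a0000000000000000000000000000000) (nat_lit 0x0) (nat_lit 0x200018001d8000400000000000000000000000000000000000) := T_22 (nat_lit 159) (nat_lit 142) (nat_lit 5) (nat_lit 6) (nat_lit 7) L69189 (by decide +kernel)
theorem L69191 : W_22 (nat_lit 6) (nat_lit 0x10007800000012000a0000000000000000000000000000000) (nat_lit 0x0) (nat_lit 0x380018001d8000400000000000000000000000000000000000) := T_22 (nat_lit 196) (nat_lit 195) (nat_lit 3) (nat_lit 5) (nat_lit 10) L69190 (by decide +kernel)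
theorem L69192 : W_22 (nat_lit 7) (nat_lit 0x7800000012000a0000000000000000000000000000000) (nat_lit 0x0) (nat_lit 0x398018001d8000400000000000000000000000000000000000) := T_22 (nat_lit 192) (nat_lit 191) (nat_lit 1) (nat_lit 8) (nat_lit 10) L69191 (by decide +kernel)
theorem L69193 : W_22 (nat_lit 2) (nat_lit 0x84007e00090016000a0000000000000000000000000000000) (nat_lit 0x0) (nat_lit 0x140002000000000000000000000000000) := D_22 (nat_lit 126) (nat_lit 128) (nat_lit 109) (nat_lit 1) (nat_lit 9) (nat_lit 7) (nat_lit 6) (nat_lit 6) (nat_lit 10) (by decide +kernel)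
theorem L69194 : W_22 (nat_lit 3) (nat_lit 0x84007e00090012000a0000000000000000000000000000000) (nat_lit 0x0) (nat_lit 0x1000000000000400140002000000000000000000000000000) := T_22 (nat_lit 142) (nat_lit 192) (nat_lit 5) (nat_lit 6) (nat_lit 7) L69193 (by decide +kernel)
theorem L69195 : W_22 (nat_lit 4) (nat_lit 0x84007e00010012000a0000000000000000000000000000000) (nat_lit 0x0) (nat_lit 0x1000000018000400140002000000000000000000000000000) := T_22 (nat_lit 159) (nat_lit 160) (nat_lit 2) (nat_lit 3) (nat_lit 10) L69194 (by decide +kernel)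
theorem L69196 : W_22 (nat_lit 5) (nat_lit 0x80007e00010012000a0000000000000000000000000000000) (nat_lit 0x0) (nat_lit 0x1600000018000400140002000000000000000000000000000) := T_22 (nat_lit 190) (nat_lit 189) (nat_lit 1) (nat_lit 6) (nat_lit 10) L69195 (by decide +kernel)
theorem L69197 : W_22 (nat_lit 6) (nat_lit 0x80007c00010012000a0000000000000000000000000000000) (nat_lit 0x0) (nat_lit 0x1600020018800400140002000000000000000000000000000) := T_22 (nat_lit 173) (nat_lit 155) (nat_lit 0) (nat_lit 6) (nat_lit 10) L69196 (by decide +kernel)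
theorem L69198 : W_22 (nat_lit 7) (nat_lit 0x80007c00000012000a0000000000000000000000000000000) (nat_lit 0x0) (nat_lit 0x160002001b800400140002000000000000000000000000000) := T_22 (nat_lit 156) (nat_lit 157) (nat_lit 0) (nat_lit 7) (nat_lit 10) L69197 (by decide +kernel)
theorem L69199 : W_22 (nat_lit 8) (nat_lit 0x80007800000012000a0000000000000000000000000000000) (nat_lit 0x0) (nat_lit 0x560006001b800400140002000000000000000000000000000) := T_22 (nat_lit 174) (nat_lit 194) (nat_lit 3) (nat_lit 4) (nat_lit 10) L69198 (by decide +kernel)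
theorem L69200 : W_22 (nat_lit 9) (nat_lit 0x7800000012000a0000000000000000000000000000000) (nat_lit 0x0) (nat_lit 0x1d60006001b800400140002000000000000000000000000000) := T_22 (nat_lit 195) (nat_lit 196) (nat_lit 3) (nat_lit 5) (nat_lit 10) L69199 (by decide +kernel)
theorem L69201 : W_22 (nat_lit 2) (nat_lit 0x84007c00010012000a0000000000000000000000000000000) (nat_lit 0x0) (nat_lit 0x200020000800000000000000000000000000000000000000) := D_22 (nat_lit 173) (nat_lit 189) (nat_lit 155) (nat_lit 1) (nat_lit 6) (nat_lit 10) (nat_lit 0) (nat_lit 6) (nat_lit 10) (by decide +kernel)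
theorem L69202 : W_22 (nat_lit 3) (nat_lit 0x84007c00000012000a0000000000000000000000000000000) (nat_lit 0x0) (nat_lit 0x200020003800000000000000000000000000000000000000) := T_22 (nat_lit 156) (nat_lit 157) (nat_lit 0) (nat_lit 7) (nat_lit 10) L69201 (by decide +kernel)
theorem L69203 : W_22 (nat_lit 4) (nat_lit 0x80007c00000012000a0000000000000000000000000000000) (nat_lit 0x0) (nat_lit 0xe00020003800000000000000000000000000000000000000) := T_22 (nat_lit 190) (nat_lit 191) (nat_lit 1) (nat_lit 7) (nat_lit 10) L69202 (by decide +kernel)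
theorem L69204 : W_22 (nat_lit 5) (nat_lit 0x80007800000012000a0000000000000000000000000000000) (nat_lit 0x0) (nat_lit 0x4e00060003800000000000000000000000000000000000000) := T_22 (nat_lit 174) (nat_lit 194) (nat_lit 3) (nat_lit 4) (nat_lit 10) L69203 (by decide +kernel)
theorem L69205 : W_22 (nat_lit 6) (nat_lit 0x7800000012000a0000000000000000000000000000000) (nat_lit 0x0) (nat_lit 0x1ce00060003800000000000000000000000000000000000000) := T_22 (nat_lit 195) (nat_lit 196) (nat_lit 3) (nat_lit 5) (nat_lit 10) L69204 (by decide +kernel)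
theorem L69206 : W_22 (nat_lit 10) (nat_lit 0x7000000012000a0000000000000000000000000000000) (nat_lit 0x0) (nat_lit 0x3de018e01db800480144002000000000000000000000000000) := Q_22 (nat_lit 175) (C_22 L69129 (C_22 L69178 (C_22 L69186 (C_22 L69192 (C_22 L69200 (C_22 L69205 N_22)))))) (by decide +kernel)
theorem L69207 : W_22 (nat_lit 2) (nat_lit 0x800078000c0012000a0000000000000000000000000000000) (nat_lit 0x0) (nat_lit 0x1000000000000400000001000000000000000000000000000) := D_22 (nat_lit 142) (nat_lit 192) (nat_lit 108) (nat_lit 6) (nat_lit 5) (nat_lit 11) (nat_lit 5) (nat_lit 6) (nat_lit 6) (by decide +kernel)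
theorem L69208 : W_22 (nat_lit 3) (nat_lit 0x80007800040012000a0000000000000000000000000000000) (nat_lit 0x0) (nat_lit 0x1000800008000400000001000000000000000000000000000) := T_22 (nat_lit 159) (nat_lit 179) (nat_lit 0) (nat_lit 9) (nat_lit 10) L69207 (by decide +kernel)
theorem L69209 : W_22 (nat_lit 4) (nat_lit 0x80007800000012000a0000000000000000000000000000000) (nat_lit 0x0) (nat_lit 0x100080000e000400000001000000000000000000000000000) := T_22 (nat_lit 158) (nat_lit 157) (nat_lit 0) (nat_lit 8) (nat_lit 10) L69208 (by decide +kernel)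
theorem L69210 : W_22 (nat_lit 5) (nat_lit 0x7800000012000a0000000000000000000000000000000) (nat_lit 0x0) (nat_lit 0x1900080000e000400000001000000000000000000000000000) := T_22 (nat_lit 195) (nat_lit 196) (nat_lit 3) (nat_lit 5) (nat_lit 10) L69209 (by decide +kernel)
theorem L69211 : W_22 (nat_lit 2) (nat_lit 0x800078000c0016000a0000000000000000000000000000000) (nat_lit 0x0) (nat_lit 0x140002000000000000000000000000000) := D_22 (nat_lit 126) (nat_lit 109) (nat_lit 128) (nat_lit 6) (nat_lit 6) (nat_lit 10) (nat_lit 1) (nat_lit 9) (nat_lit 7) (by decide +kernel)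
theorem L69212 : W_22 (nat_lit 3) (nat_lit 0x800078000c0012000a0000000000000000000000000000000) (nat_lit 0x0) (nat_lit 0x400140003000000000000000000000000000) := T_22 (nat_lit 142) (nat_lit 108) (nat_lit 5) (nat_lit 6) (nat_lit 6) L69211 (by decide +kernel)
theorem L69213 : W_22 (nat_lit 4) (nat_lit 0x80007800040012000a0000000000000000000000000000000) (nat_lit 0x0) (nat_lit 0x800008000400140003000000000000000000000000000) := T_22 (nat_lit 159) (nat_lit 179) (nat_lit 0) (nat_lit 9) (nat_lit 10) L69212 (by decide +kernel)
theorem L69214 : W_22 (nat_lit 5) (nat_lit 0x7800040012000a0000000000000000000000000000000) (nat_lit 0x0) (nat_lit 0x18000800008000400140003000000000000000000000000000) := T_22 (nat_lit 195) (nat_lit 196) (nat_lit 3) (nat_lit 5) (nat_lit 10) L69213 (by decide +kernel)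
theorem L69215 : W_22 (nat_lit 6) (nat_lit 0x7800000012000a0000000000000000000000000000000) (nat_lit 0x0) (nat_lit 0x1800080000e000400140003000000000000000000000000000) := T_22 (nat_lit 158) (nat_lit 157) (nat_lit 0) (nat_lit 8) (nat_lit 10) L69214 (by decide +kernel)
theorem L69216 : W_22 (nat_lit 8) (nat_lit 0x7000000012000a0000000000000000000000000000000) (nat_lit 0x0) (nat_lit 0x39c018f01de000400140003000000000000000000000000000) := Q_22 (nat_lit 175) (C_22 L69192 (C_22 L69131 (C_22 L69154 (C_22 L69210 (C_22 L69215 N_22))))) (by decide +kernel)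
theorem L69217 : W_22 (nat_lit 12) (nat_lit 0x6000000012000a0000000000000000000000000000000) (nat_lit 0x0) (nat_lit 0xfde039f01df80058014c003000080000000000000000000000) := Q_22 (nat_lit 176) (C_22 L69145 (C_22 L69149 (C_22 L69164 (C_22 L69172 (C_22 L69206 (C_22 L69216 N_22)))))) (by decide +kernel)
theorem L69218 : W_22 (nat_lit 2) (nat_lit 0x7000600012000e0000000000000000000000000000000) (nat_lit 0x0) (nat_lit 0x190000000000000000000000000000000000000000) := D_22 (nat_lit 163) (nat_lit 164) (nat_lit 160) (nat_lit 1) (nat_lit 11) (nat_lit 9) (nat_lit 1) (nat_lit 10) (nat_lit 9) (by decide +kernel)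
theorem L69219 : W_22 (nat_lit 3) (nat_lit 0x6000600012000e0000000000000000000000000000000) (nat_lit 0x0) (nat_lit 0x180190000000000000000000000000000000000000000) := T_22 (nat_lit 176) (nat_lit 175) (nat_lit 2) (nat_lit 5) (nat_lit 10) L69218 (by decide +kernel)
theorem L69220 : W_22 (nat_lit 4) (nat_lit 0x6000600012000a0000000000000000000000000000000) (nat_lit 0x0) (nat_lit 0x180190000000040002000000000000000000000000000) := T_22 (nat_lit 126) (nat_lit 109) (nat_lit 4) (nat_lit 8) (nat_lit 10) L69219 (by decide +kernel)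
theorem L69221 : W_22 (nat_lit 2) (nat_lit 0xf001680012000a0000000000000000000000000000000) (nat_lit 0x0) (nat_lit 0x1000010000400000000000000000000000000000000000) := D_22 (nat_lit 160) (nat_lit 142) (nat_lit 180) (nat_lit 0) (nat_lit 9) (nat_lit 9) (nat_lit 3) (nat_lit 6) (nat_lit 9) (by decide +kernel)
theorem L69222 : W_22 (nat_lit 3) (nat_lit 0xf001600012000a0000000000000000000000000000000) (nat_lit 0x0) (nat_lit 0x100001c000400000000000000000000000000000000000) := T_22 (nat_lit 159) (nat_lit 158) (nat_lit 0) (nat_lit 9) (nat_lit 10) L69221 (by decide +kernel)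
theorem L69223 : W_22 (nat_lit 4) (nat_lit 0x7001600012000a0000000000000000000000000000000) (nat_lit 0x0) (nat_lit 0x1000180001c000400000000000000000000000000000000000) := T_22 (nat_lit 179) (nat_lit 196) (nat_lit 7) (nat_lit 8) (nat_lit 7) L69222 (by decide +kernel)
theorem L69224 : W_22 (nat_lit 5) (nat_lit 0x6001600012000a0000000000000000000000000000000) (nat_lit 0x0) (nat_lit 0x1000198001c000400000000000000000000000000000000000) := T_22 (nat_lit 176) (nat_lit 175) (nat_lit 2) (nat_lit 5) (nat_lit 10) L69223 (by decide +kernel)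
theorem L69225 : W_22 (nat_lit 6) (nat_lit 0x6000600012000a0000000000000000000000000000000) (nat_lit 0x0) (nat_lit 0x1000198019c000400000000000000000000000000000000000) := T_22 (nat_lit 164) (nat_lit 163) (nat_lit 1) (nat_lit 11) (nat_lit 9) L69224 (by decide +kernel)
theorem L69226 : W_22 (nat_lit 2) (nat_lit 0xe000700012000a0000000000000000000000000000000) (nat_lit 0x0) (nat_lit 0xc000400000000000000000000000000000000000) := D_22 (nat_lit 159) (nat_lit 158) (nat_lit 142) (nat_lit 3) (nat_lit 5) (nat_lit 9) (nat_lit 0) (nat_lit 9) (nat_lit 9) (by decide +kernel)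
theorem L69227 : W_22 (nat_lit 3) (nat_lit 0x6000700012000a0000000000000000000000000000000) (nat_lit 0x0) (nat_lit 0x1000080000c000400000000000000000000000000000000000) := T_22 (nat_lit 179) (nat_lit 196) (nat_lit 7) (nat_lit 8) (nat_lit 7) L69226 (by decide +kernel)
theorem L69228 : W_22 (nat_lit 2) (nat_lit 0x2000100006000f00052000e0000000000000000000000000000000) (nat_lit 0x0) (nat_lit 0x20003000000000000000000000000000000000000000000000) := D_22 (nat_lit 180) (nat_lit 181) (nat_lit 197) (nat_lit 3) (nat_lit 7) (nat_lit 9) (nat_lit 5) (nat_lit 10) (nat_lit 8) (by decide +kernel)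
theorem L69229 : W_22 (nat_lit 3) (nat_lit 0x2000100006000f00012000e0000000000000000000000000000000) (nat_lit 0x0) (nat_lit 0x2000300000000c000000000000000000000000000000000000) := T_22 (nat_lit 146) (nat_lit 147) (nat_lit 2) (nat_lit 7) (nat_lit 9) L69228 (by decide +kernel)
theorem L69230 : W_22 (nat_lit 4) (nat_lit 0x2000100006000700012000e0000000000000000000000000000000) (nat_lit 0x0) (nat_lit 0x2000300018000c000000000000000000000000000000000000) := T_22 (nat_lit 163) (nat_lit 164) (nat_lit 1) (nat_lit 11) (nat_lit 9) L69229 (by decide +kernel)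
theorem L69231 : W_22 (nat_lit 5) (nat_lit 0x100006000700012000e0000000000000000000000000000000) (nat_lit 0x0) (nat_lit 0x20002800300018000c000000000000000000000000000000000000) := T_22 (nat_lit 213) (nat_lit 195) (nat_lit 7) (nat_lit 8) (nat_lit 8) L69230 (by decide +kernel)
theorem L69232 : W_22 (nat_lit 6) (nat_lit 0x100006000700012000a0000000000000000000000000000000) (nat_lit 0x0) (nat_lit 0x20002800300018000c000040002000000000000000000000000000) := T_22 (nat_lit 126) (nat_lit 109) (nat_lit 4) (nat_lit 8) (nat_lit 10) L69231 (by decide +kernel)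
theorem L69233 : W_22 (nat_lit 7) (nat_lit 0x6000700012000a0000000000000000000000000000000) (nat_lit 0x0) (nat_lit 0x20003800380018000c000040002000000000000000000000000000) := T_22 (nat_lit 196) (nat_lit 179) (nat_lit 7) (nat_lit 8) (nat_lit 7) L69232 (by decide +kernel)
theorem L69234 : W_22 (nat_lit 2) (nat_lit 0x6001780012000e0000000000000000000000000000000) (nat_lit 0x0) (nat_lit 0x6000100000000000000000000000000000000000) := D_22 (nat_lit 158) (nat_lit 140) (nat_lit 157) (nat_lit 0) (nat_lit 8) (nat_lit 9) (nat_lit 3) (nat_lit 4) (nat_lit 9) (by decide +kernel)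
theorem L69235 : W_22 (nat_lit 3) (nat_lit 0x6001700012000e0000000000000000000000000000000) (nat_lit 0x0) (nat_lit 0xe000500000000000000000000000000000000000) := T_22 (nat_lit 159) (nat_lit 142) (nat_lit 0) (nat_lit 9) (nat_lit 9) L69234 (by decide +kernel)
theorem L69236 : W_22 (nat_lit 4) (nat_lit 0x6001700012000a0000000000000000000000000000000) (nat_lit 0x0) (nat_lit 0xe000500040002000000000000000000000000000) := T_22 (nat_lit 126) (nat_lit 109) (nat_lit 4) (nat_lit 8) (nat_lit 10) L69235 (by decide +kernel)
theorem L69237 : W_22 (nat_lit 5) (nat_lit 0x6000700012000a0000000000000000000000000000000) (nat_lit 0x0) (nat_lit 0x18e000500040002000000000000000000000000000) := T_22 (nat_lit 164) (nat_lit 163) (nat_lit 1) (nat_lit 11) (nat_lit 9) L69236 (by decide +kernel)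
theorem L69238 : W_22 (nat_lit 8) (nat_lit 0x6000600012000a0000000000000000000000000000000) (nat_lit 0x0) (nat_lit 0x20003800380019e00c500040002000000000000000000000000000) := Q_22 (nat_lit 160) (C_22 L69227 (C_22 L69233 (C_22 L69237 N_22))) (by decide +kernel)
theorem L69239 : W_22 (nat_lit 2) (nat_lit 0xe000600012000a0000000000000000000000000000000) (nat_lit 0x0) (nat_lit 0x180080000000000000000000000000000000000000000) := D_22 (nat_lit 176) (nat_lit 163) (nat_lit 175) (nat_lit 2) (nat_lit 6) (nat_lit 10) (nat_lit 2) (nat_lit 5) (nat_lit 10) (by decide +kernel)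
theorem L69240 : W_22 (nat_lit 3) (nat_lit 0x6000600012000a0000000000000000000000000000000) (nat_lit 0x0) (nat_lit 0x10000980080000000000000000000000000000000000000000) := T_22 (nat_lit 179) (nat_lit 196) (nat_lit 7) (nat_lit 8) (nat_lit 7) L69239 (by decide +kernel)
theorem L69241 : W_22 (nat_lit 2) (nat_lit 0xf000680012000a0000000000000000000000000000000) (nat_lit 0x0) (nat_lit 0x1000010000400000000000000000000000000000000000) := D_22 (nat_lit 160) (nat_lit 142) (nat_lit 180) (nat_lit 0) (nat_lit 9) (nat_lit 9) (nat_lit 3) (nat_lit 6) (nat_lit 9) (by decide +kernel)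
theorem L69242 : W_22 (nat_lit 3) (nat_lit 0xf000600012000a0000000000000000000000000000000) (nat_lit 0x0) (nat_lit 0x100001c000400000000000000000000000000000000000) := T_22 (nat_lit 159) (nat_lit 158) (nat_lit 0) (nat_lit 9) (nat_lit 10) L69241 (by decide +kernel)
theorem L69243 : W_22 (nat_lit 4) (nat_lit 0x7000600012000a0000000000000000000000000000000) (nat_lit 0x0) (nat_lit 0x1000180001c000400000000000000000000000000000000000) := T_22 (nat_lit 179) (nat_lit 196) (nat_lit 7) (nat_lit 8) (nat_lit 7) L69242 (by decide +kernel)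
theorem L69244 : W_22 (nat_lit 5) (nat_lit 0x6000600012000a0000000000000000000000000000000) (nat_lit 0x0) (nat_lit 0x1000198001c000400000000000000000000000000000000000) := T_22 (nat_lit 176) (nat_lit 175) (nat_lit 2) (nat_lit 5) (nat_lit 10) L69243 (by decide +kernel)
theorem L69245 : W_22 (nat_lit 9) (nat_lit 0x6000200012000a0000000000000000000000000000000) (nat_lit 0x0) (nat_lit 0x2000380039801de00c500040002000000000000000000000000000) := Q_22 (nat_lit 162) (C_22 L69220 (C_22 L69225 (C_22 L69238 (C_22 L69240 (C_22 L69244 N_22))))) (by decide +kernel)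
theorem L69246 : W_22 (nat_lit 2) (nat_lit 0x7800200012001a0000000000000000000000000000000) (nat_lit 0x0) (nat_lit 0x18000800000000000000000000000000000000000000000000) := D_22 (nat_lit 196) (nat_lit 179) (nat_lit 195) (nat_lit 7) (nat_lit 8) (nat_lit 7) (nat_lit 3) (nat_lit 5) (nat_lit 10) (by decide +kernel)
theorem L69247 : W_22 (nat_lit 3) (nat_lit 0x7000200012001a0000000000000000000000000000000) (nat_lit 0x0) (nat_lit 0x18000880040000000000000000000000000000000000000000) := T_22 (nat_lit 175) (nat_lit 162) (nat_lit 2) (nat_lit 5) (nat_lit 10) L69246 (by decide +kernel)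
theorem L69248 : W_22 (nat_lit 4) (nat_lit 0x7000200012000a0000000000000000000000000000000) (nat_lit 0x0) (nat_lit 0x18000880040000000100008000000000000000000000000000) := T_22 (nat_lit 128) (nat_lit 111) (nat_lit 6) (nat_lit 8) (nat_lit 10) L69247 (by decide +kernel)
theorem L69249 : W_22 (nat_lit 2) (nat_lit 0x7800200012000a0000000000000000000000000000000) (nat_lit 0x0) (nat_lit 0x18000800000000000000000000000000000000000000000000) := D_22 (nat_lit 196) (nat_lit 179) (nat_lit 195) (nat_lit 7) (nat_lit 8) (nat_lit 7) (nat_lit 3) (nat_lit 5) (nat_lit 10) (by decide +kernel)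
theorem L69250 : W_22 (nat_lit 3) (nat_lit 0x7000200012000a0000000000000000000000000000000) (nat_lit 0x0) (nat_lit 0x18000880040000000000000000000000000000000000000000) := T_22 (nat_lit 175) (nat_lit 162) (nat_lit 2) (nat_lit 5) (nat_lit 10) L69249 (by decide +kernel)
theorem L69251 : W_22 (nat_lit 2) (nat_lit 0x7c00200012000a0000000000000000000000000000000) (nat_lit 0x0) (nat_lit 0x1c00000000000000000000000000000000000000000000000) := D_22 (nat_lit 191) (nat_lit 190) (nat_lit 192) (nat_lit 1) (nat_lit 7) (nat_lit 10) (nat_lit 1) (nat_lit 8) (nat_lit 10) (by decide +kernel)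
theorem L69252 : W_22 (nat_lit 3) (nat_lit 0x7800200012000a0000000000000000000000000000000) (nat_lit 0x0) (nat_lit 0x1c00040010000000000000000000000000000000000000000) := T_22 (nat_lit 174) (nat_lit 160) (nat_lit 2) (nat_lit 4) (nat_lit 10) L69251 (by decide +kernel)
theorem L69253 : W_22 (nat_lit 4) (nat_lit 0x7000200012000a0000000000000000000000000000000) (nat_lit 0x0) (nat_lit 0x1c000c0050000000000000000000000000000000000000000) := T_22 (nat_lit 175) (nat_lit 162) (nat_lit 2) (nat_lit 5) (nat_lit 10) L69252 (by decide +kernel)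
theorem L69254 : W_22 (nat_lit 2) (nat_lit 0xf000680012001a0000000000000000000000000000000) (nat_lit 0x0) (nat_lit 0x1000010000400000000000000000000000000000000000) := D_22 (nat_lit 160) (nat_lit 142) (nat_lit 180) (nat_lit 0) (nat_lit 9) (nat_lit 9) (nat_lit 3) (nat_lit 6) (nat_lit 9) (by decide +kernel)
theorem L69255 : W_22 (nat_lit 3) (nat_lit 0xf000600012001a0000000000000000000000000000000) (nat_lit 0x0) (nat_lit 0x100001c000400000000000000000000000000000000000) := T_22 (nat_lit 159) (nat_lit 158) (nat_lit 0) (nat_lit 9) (nat_lit 10) L69254 (by decide +kernel)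
theorem L69256 : W_22 (nat_lit 4) (nat_lit 0xf000200012001a0000000000000000000000000000000) (nat_lit 0x0) (nat_lit 0x10000dc000400000000000000000000000000000000000) := T_22 (nat_lit 162) (nat_lit 163) (nat_lit 2) (nat_lit 6) (nat_lit 10) L69255 (by decide +kernel)
theorem L69257 : W_22 (nat_lit 5) (nat_lit 0x7000200012001a0000000000000000000000000000000) (nat_lit 0x0) (nat_lit 0x100018000dc000400000000000000000000000000000000000) := T_22 (nat_lit 179) (nat_lit 196) (nat_lit 7) (nat_lit 8) (nat_lit 7) L69256 (by decide +kernel)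
theorem L69258 : W_22 (nat_lit 6) (nat_lit 0x7000200012000a0000000000000000000000000000000) (nat_lit 0x0) (nat_lit 0x100018000dc000400100008000000000000000000000000000) := T_22 (nat_lit 128) (nat_lit 111) (nat_lit 6) (nat_lit 8) (nat_lit 10) L69257 (by decide +kernel)
theorem L69259 : W_22 (nat_lit 2) (nat_lit 0x40001f001280012001a0000000000000000000000000000000) (nat_lit 0x0) (nat_lit 0x80002000200000000000000000000000000000000000000000) := D_22 (nat_lit 181) (nat_lit 199) (nat_lit 165) (nat_lit 3) (nat_lit 8) (nat_lit 10) (nat_lit 2) (nat_lit 8) (nat_lit 10) (by decide +kernel)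
theorem L69260 : W_22 (nat_lit 3) (nat_lit 0x40001f000280012001a0000000000000000000000000000000) (nat_lit 0x0) (nat_lit 0x80002000380000000000000000000000000000000000000000) := T_22 (nat_lit 164) (nat_lit 163) (nat_lit 2) (nat_lit 7) (nat_lit 10) L69259 (by decide +kernel)
theorem L69261 : W_22 (nat_lit 4) (nat_lit 0x1f000280012001a0000000000000000000000000000000) (nat_lit 0x0) (nat_lit 0xe0002000380000000000000000000000000000000000000000) := T_22 (nat_lit 198) (nat_lit 197) (nat_lit 3) (nat_lit 7) (nat_lit 10) L69260 (by decide +kernel)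
theorem L69262 : W_22 (nat_lit 5) (nat_lit 0xf000280012001a0000000000000000000000000000000) (nat_lit 0x0) (nat_lit 0xe0003000390000000000000000000000000000000000000000) := T_22 (nat_lit 180) (nat_lit 160) (nat_lit 0) (nat_lit 10) (nat_lit 10) L69261 (by decide +kernel)
theorem L69263 : W_22 (nat_lit 6) (nat_lit 0xf000280012000a0000000000000000000000000000000) (nat_lit 0x0) (nat_lit 0xe0003000390000000100008000000000000000000000000000) := T_22 (nat_lit 128) (nat_lit 111) (nat_lit 6) (nat_lit 8) (nat_lit 10) L69262 (by decide +kernel)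
theorem L69264 : W_22 (nat_lit 7) (nat_lit 0xf000200012000a0000000000000000000000000000000) (nat_lit 0x0) (nat_lit 0xe000300039c000000100008000000000000000000000000000) := T_22 (nat_lit 159) (nat_lit 158) (nat_lit 0) (nat_lit 9) (nat_lit 10) L69263 (by decide +kernel)
theorem L69265 : W_22 (nat_lit 8) (nat_lit 0x7000200012000a0000000000000000000000000000000) (nat_lit 0x0) (nat_lit 0xf000380039c000000100008000000000000000000000000000) := T_22 (nat_lit 179) (nat_lit 196) (nat_lit 7) (nat_lit 8) (nat_lit 7) L69264 (by decide +kernel)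
theorem L69266 : W_22 (nat_lit 9) (nat_lit 0x6000200012000a0000000000000000000000000000000) (nat_lit 0x0) (nat_lit 0xf9c039c03dc000400100008000000000000000000000000000) := Q_22 (nat_lit 176) (C_22 L69248 (C_22 L69250 (C_22 L69253 (C_22 L69258 (C_22 L69265 N_22))))) (by decide +kernel)
theorem L69267 : W_22 (nat_lit 9) (nat_lit 0x6000200012000a0000000000000000000000000000000) (nat_lit 0x0) (nat_lit 0xf9c039c03dc000000100008000000000000000000000000000) := Q_22 (nat_lit 176) (C_22 L69253 (C_22 L69265 (C_22 L69250 N_22))) (by decide +kernel)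
theorem L69268 : W_22 (nat_lit 10) (nat_lit 0x6000000012000a0000000000000000000000000000000) (nat_lit 0x0) (nat_lit 0x2000f9c039c03fe00c50014000a000000000000000000000000000) := Q_22 (nat_lit 161) (C_22 L69053 (C_22 L69245 (C_22 L69266 (C_22 L69267 N_22)))) (by decide +kernel)
theorem L69269 : W_22 (nat_lit 14) (nat_lit 0x2000000012000a0000000000000000000000000000000) (nat_lit 0x0) (nat_lit 0x20003000fde0fdf0fff80c58034c00b800080000000000000000000000) := Q_22 (nat_lit 178) (C_22 L69054 (C_22 L69104 (C_22 L69116 (C_22 L69126 (C_22 L69217 (C_22 L69268 N_22)))))) (by decide +kernel)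
theorem L69270 : W_22 (nat_lit 2) (nat_lit 0x7000000017000e0000000000000000000000000000000) (nat_lit 0x0) (nat_lit 0x4000000008000000000002000000000000000000000000000) := D_22 (nat_lit 159) (nat_lit 109) (nat_lit 194) (nat_lit 6) (nat_lit 6) (nat_lit 10) (nat_lit 7) (nat_lit 6) (nat_lit 7) (by decide +kernel)
theorem L69271 : W_22 (nat_lit 3) (nat_lit 0x7000000013000e0000000000000000000000000000000) (nat_lit 0x0) (nat_lit 0x4000000008000480000002000000000000000000000000000) := T_22 (nat_lit 142) (nat_lit 139) (nat_lit 2) (nat_lit 3) (nat_lit 8) L69270 (by decide +kernel)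
theorem L69272 : W_22 (nat_lit 4) (nat_lit 0x7000000012000e0000000000000000000000000000000) (nat_lit 0x0) (nat_lit 0x4000000008000580010002000000000000000000000000000) := T_22 (nat_lit 140) (nat_lit 124) (nat_lit 1) (nat_lit 8) (nat_lit 7) L69271 (by decide +kernel)
theorem L69273 : W_22 (nat_lit 2) (nat_lit 0x80007c00000012000f8000400000000000000000000000000) (nat_lit 0x0) (nat_lit 0x1c00000000000000000000000000000000000000000000000) := D_22 (nat_lit 191) (nat_lit 190) (nat_lit 192) (nat_lit 1) (nat_lit 7) (nat_lit 10) (nat_lit 1) (nat_lit 8) (nat_lit 10) (by decide +kernel)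
theorem L69274 : W_22 (nat_lit 3) (nat_lit 0x80007800000012000f8000400000000000000000000000000) (nat_lit 0x0) (nat_lit 0x5c00040000000000000000000000000000000000000000000) := T_22 (nat_lit 174) (nat_lit 194) (nat_lit 3) (nat_lit 4) (nat_lit 10) L69273 (by decide +kernel)
theorem L69275 : W_22 (nat_lit 4) (nat_lit 0x7800000012000f8000400000000000000000000000000) (nat_lit 0x0) (nat_lit 0x1dc00040000000000000000000000000000000000000000000) := T_22 (nat_lit 195) (nat_lit 196) (nat_lit 3) (nat_lit 5) (nat_lit 10) L69274 (by decide +kernel)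
theorem L69276 : W_22 (nat_lit 5) (nat_lit 0x7000000012000f8000400000000000000000000000000) (nat_lit 0x0) (nat_lit 0x1dc000c0004000000000000000000000000000000000000000) := T_22 (nat_lit 175) (nat_lit 158) (nat_lit 4) (nat_lit 5) (nat_lit 10) L69275 (by decide +kernel)
theorem L69277 : W_22 (nat_lit 6) (nat_lit 0x7000000012000f0000400000000000000000000000000) (nat_lit 0x0) (nat_lit 0x1dc000c0004000000008000200000000000000000000000000) := T_22 (nat_lit 123) (nat_lit 105) (nat_lit 0) (nat_lit 7) (nat_lit 7) L69276 (by decide +kernel)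
theorem L69278 : W_22 (nat_lit 7) (nat_lit 0x7000000012000f0000000000000000000000000000000) (nat_lit 0x0) (nat_lit 0x1dc000c0004000000008000e00000000000000000000000000) := T_22 (nat_lit 106) (nat_lit 107) (nat_lit 0) (nat_lit 8) (nat_lit 7) L69277 (by decide +kernel)
theorem L69279 : W_22 (nat_lit 8) (nat_lit 0x7000000012000e0000000000000000000000000000000) (nat_lit 0x0) (nat_lit 0x1dc000c0004000100018000e00000000000000000000000000) := T_22 (nat_lit 124) (nat_lit 140) (nat_lit 1) (nat_lit 8) (nat_lit 7) L69278 (by decide +kernel)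
theorem L69280 : W_22 (nat_lit 2) (nat_lit 0x7000080012000e0000000000000000000000000000000) (nat_lit 0x0) (nat_lit 0x4000000000000400000002000000000000000000000000000) := D_22 (nat_lit 142) (nat_lit 109) (nat_lit 194) (nat_lit 6) (nat_lit 6) (nat_lit 10) (nat_lit 7) (nat_lit 6) (nat_lit 7) (by decide +kernel)
theorem L69281 : W_22 (nat_lit 2) (nat_lit 0x1f000080012000e0000000000000000000000000000000) (nat_lit 0x0) (nat_lit 0x70000000000000000000000000000000000000000000000000) := D_22 (nat_lit 197) (nat_lit 196) (nat_lit 198) (nat_lit 3) (nat_lit 6) (nat_lit 10) (nat_lit 3) (nat_lit 7) (nat_lit 10) (by decide +kernel)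
theorem L69282 : W_22 (nat_lit 3) (nat_lit 0xf000080012000e0000000000000000000000000000000) (nat_lit 0x0) (nat_lit 0x70001000010000000000000000000000000000000000000000) := T_22 (nat_lit 180) (nat_lit 160) (nat_lit 0) (nat_lit 10) (nat_lit 10) L69281 (by decide +kernel)
theorem L69283 : W_22 (nat_lit 4) (nat_lit 0x7000080012000e0000000000000000000000000000000) (nat_lit 0x0) (nat_lit 0x70001800014000000000000000000000000000000000000000) := T_22 (nat_lit 179) (nat_lit 158) (nat_lit 0) (nat_lit 9) (nat_lit 10) L69282 (by decide +kernel)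
theorem L69284 : W_22 (nat_lit 5) (nat_lit 0x7000000012000e0000000000000000000000000000000) (nat_lit 0x0) (nat_lit 0x7400180001c000400000002000000000000000000000000000) := Q_22 (nat_lit 159) (C_22 L69280 (C_22 L69283 N_22)) (by decide +kernel)
theorem L69286 : W_22 (nat_lit 3) (nat_lit 0x7000000012000f0000000000000000000000000000000) (nat_lit 0x0) (nat_lit 0xc000400000000c00000000000000000000000000) := T_22 (nat_lit 107) (nat_lit 106) (nat_lit 0) (nat_lit 8) (nat_lit 7) L69285 (by decide +kernel)
theorem L69287 : W_22 (nat_lit 4) (nat_lit 0x7000000012000e0000000000000000000000000000000) (nat_lit 0x0) (nat_lit 0xc000500010000c00000000000000000000000000) := T_22 (nat_lit 124) (nat_lit 140) (nat_lit 1) (nat_lit 8) (nat_lit 7) L69286 (by decide +kernel)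
theorem L69288 : W_22 (nat_lit 9) (nat_lit 0x6000000012000e0000000000000000000000000000000) (nat_lit 0x0) (nat_lit 0x7dc019c001c000580018002e00000000000000000000000000) := Q_22 (nat_lit 176) (C_22 L69272 (C_22 L69279 (C_22 L69284 (C_22 L69287 N_22)))) (by decide +kernel)
theorem L69289 : W_22 (nat_lit 2) (nat_lit 0x180007000200012000f0000800000000000000000000000000) (nat_lit 0x0) (nat_lit 0xc000400000000000000000000000000000000000) := D_22 (nat_lit 159) (nat_lit 158) (nat_lit 142) (nat_lit 7) (nat_lit 5) (nat_lit 6) (nat_lit 4) (nat_lit 6) (nat_lit 10) (by decide +kernel)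
theorem L69290 : W_22 (nat_lit 3) (nat_lit 0x180006000200012000f0000800000000000000000000000000) (nat_lit 0x0) (nat_lit 0x18000c000400000000000000000000000000000000000) := T_22 (nat_lit 176) (nat_lit 175) (nat_lit 3) (nat_lit 5) (nat_lit 10) L69289 (by decide +kernel)
theorem L69291 : W_22 (nat_lit 4) (nat_lit 0x100006000200012000f0000800000000000000000000000000) (nat_lit 0x0) (nat_lit 0x20000800018000c000400000000000000000000000000000000000) := T_22 (nat_lit 195) (nat_lit 213) (nat_lit 7) (nat_lit 8) (nat_lit 8) L69290 (by decide +kernel)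
theorem L69292 : W_22 (nat_lit 5) (nat_lit 0x6000200012000f0000800000000000000000000000000) (nat_lit 0x0) (nat_lit 0x20001800098000c000400000000000000000000000000000000000) := T_22 (nat_lit 196) (nat_lit 179) (nat_lit 7) (nat_lit 8) (nat_lit 7) L69291 (by decide +kernel)
theorem L69293 : W_22 (nat_lit 6) (nat_lit 0x6000000012000f0000800000000000000000000000000) (nat_lit 0x0) (nat_lit 0x20001c00098002c000400000000000000000000000000000000000) := T_22 (nat_lit 161) (nat_lit 194) (nat_lit 5) (nat_lit 8) (nat_lit 7) L69292 (by decide +kernel)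
theorem L69294 : W_22 (nat_lit 7) (nat_lit 0x6000000012000f0000000000000000000000000000000) (nat_lit 0x0) (nat_lit 0x20001c00098002c000400000000c00000000000000000000000000) := T_22 (nat_lit 107) (nat_lit 106) (nat_lit 0) (nat_lit 8) (nat_lit 7) L69293 (by decide +kernel)
theorem L69295 : W_22 (nat_lit 8) (nat_lit 0x6000000012000e0000000000000000000000000000000) (nat_lit 0x0) (nat_lit 0x20001c00098002c000500010000c00000000000000000000000000) := T_22 (nat_lit 124) (nat_lit 140) (nat_lit 1) (nat_lit 8) (nat_lit 7) L69294 (by decide +kernel)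
theorem L69296 : W_22 (nat_lit 6) (nat_lit 0x6000200012000f0000000000000000000000000000000) (nat_lit 0x0) (nat_lit 0x20001800098000c000400000000c00000000000000000000000000) := T_22 (nat_lit 107) (nat_lit 106) (nat_lit 0) (nat_lit 8) (nat_lit 7) L69292 (by decide +kernel)
theorem L69297 : W_22 (nat_lit 7) (nat_lit 0x6000200012000e0000000000000000000000000000000) (nat_lit 0x0) (nat_lit 0x20001800098000c000500010000c00000000000000000000000000) := T_22 (nat_lit 124) (nat_lit 140) (nat_lit 1) (nat_lit 8) (nat_lit 7) L69296 (by decide +kernel)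
theorem L69298 : W_22 (nat_lit 8) (nat_lit 0x6000000012000e0000000000000000000000000000000) (nat_lit 0x0) (nat_lit 0x20001800098002c000500010002c00000000000000000000000000) := T_22 (nat_lit 161) (nat_lit 109) (nat_lit 4) (nat_lit 8) (nat_lit 10) L69297 (by decide +kernel)
theorem L69299 : W_22 (nat_lit 10) (nat_lit 0x2000000012000e0000000000000000000000000000000) (nat_lit 0x0) (nat_lit 0x20007dc01dc003c000580018002e00000000000000000000000000) := Q_22 (nat_lit 178) (C_22 L67728 (C_22 L69288 (C_22 L69295 (C_22 L69298 N_22)))) (by decide +kernel)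
theorem L69300 : W_22 (nat_lit 2) (nat_lit 0xf800040012000e0000000000000000000000000000000) (nat_lit 0x0) (nat_lit 0x38000000000000000000000000000000000000000000000000) := D_22 (nat_lit 196) (nat_lit 195) (nat_lit 197) (nat_lit 3) (nat_lit 5) (nat_lit 10) (nat_lit 3) (nat_lit 6) (nat_lit 10) (by decide +kernel)
theorem L69301 : W_22 (nat_lit 3) (nat_lit 0x7800040012000e0000000000000000000000000000000) (nat_lit 0x0) (nat_lit 0x38000800008000000000000000000000000000000000000000) := T_22 (nat_lit 179) (nat_lit 159) (nat_lit 0) (nat_lit 9) (nat_lit 10) L69300 (by decide +kernel)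
theorem L69302 : W_22 (nat_lit 4) (nat_lit 0x7000040012000e0000000000000000000000000000000) (nat_lit 0x0) (nat_lit 0x3800088000a000000000000000000000000000000000000000) := T_22 (nat_lit 175) (nat_lit 157) (nat_lit 0) (nat_lit 8) (nat_lit 10) L69301 (by decide +kernel)
theorem L69303 : W_22 (nat_lit 2) (nat_lit 0x88007800040012000e0000000000000000000000000000000) (nat_lit 0x0) (nat_lit 0x4400040000000000000000000000000000000000000000000) := D_22 (nat_lit 174) (nat_lit 194) (nat_lit 190) (nat_lit 3) (nat_lit 4) (nat_lit 10) (nat_lit 1) (nat_lit 7) (nat_lit 10) (by decide +kernel)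
theorem L69304 : W_22 (nat_lit 3) (nat_lit 0x8007800040012000e0000000000000000000000000000000) (nat_lit 0x0) (nat_lit 0x1c400040000000000000000000000000000000000000000000) := T_22 (nat_lit 195) (nat_lit 196) (nat_lit 3) (nat_lit 5) (nat_lit 10) L69303 (by decide +kernel)
theorem L69305 : W_22 (nat_lit 4) (nat_lit 0x7800040012000e0000000000000000000000000000000) (nat_lit 0x0) (nat_lit 0x1dc00040000000000000000000000000000000000000000000) := T_22 (nat_lit 191) (nat_lit 192) (nat_lit 1) (nat_lit 8) (nat_lit 10) L69304 (by decide +kernel)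
theorem L69306 : W_22 (nat_lit 5) (nat_lit 0x7000040012000e0000000000000000000000000000000) (nat_lit 0x0) (nat_lit 0x1dc000c0002000000000000000000000000000000000000000) := T_22 (nat_lit 175) (nat_lit 157) (nat_lit 0) (nat_lit 8) (nat_lit 10) L69305 (by decide +kernel)
theorem L69307 : W_22 (nat_lit 2) (nat_lit 0x8007c000c0012000e0000000000000000000000000000000) (nat_lit 0x0) (nat_lit 0x30010000000000000000000000000000000000000000) := D_22 (nat_lit 173) (nat_lit 172) (nat_lit 160) (nat_lit 2) (nat_lit 2) (nat_lit 10) (nat_lit 2) (nat_lit 3) (nat_lit 10) (by decide +kernel)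
theorem L69308 : W_22 (nat_lit 3) (nat_lit 0x80078000c0012000e0000000000000000000000000000000) (nat_lit 0x0) (nat_lit 0x400070010000000000000000000000000000000000000000) := T_22 (nat_lit 174) (nat_lit 190) (nat_lit 1) (nat_lit 7) (nat_lit 10) L69307 (by decide +kernel)
theorem L69309 : W_22 (nat_lit 4) (nat_lit 0x78000c0012000e0000000000000000000000000000000) (nat_lit 0x0) (nat_lit 0x1c00070010000000000000000000000000000000000000000) := T_22 (nat_lit 191) (nat_lit 192) (nat_lit 1) (nat_lit 8) (nat_lit 10) L69308 (by decide +kernel)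
theorem L69310 : W_22 (nat_lit 5) (nat_lit 0x7800040012000e0000000000000000000000000000000) (nat_lit 0x0) (nat_lit 0x1c00870018000000000000000000000000000000000000000) := T_22 (nat_lit 159) (nat_lit 179) (nat_lit 0) (nat_lit 9) (nat_lit 10) L69309 (by decide +kernel)
theorem L69311 : W_22 (nat_lit 6) (nat_lit 0x7000040012000e0000000000000000000000000000000) (nat_lit 0x0) (nat_lit 0x1c008f001a000000000000000000000000000000000000000) := T_22 (nat_lit 175) (nat_lit 157) (nat_lit 0) (nat_lit 8) (nat_lit 10) L69310 (by decide +kernel)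
theorem L69312 : W_22 (nat_lit 2) (nat_lit 0x20000f000840012000e0000000000000000000000000000000) (nat_lit 0x0) (nat_lit 0x40001000100000000000000000000000000000000000000000) := D_22 (nat_lit 180) (nat_lit 164) (nat_lit 198) (nat_lit 2) (nat_lit 7) (nat_lit 10) (nat_lit 3) (nat_lit 7) (nat_lit 10) (by decide +kernel)
theorem L69313 : W_22 (nat_lit 3) (nat_lit 0xf000840012000e0000000000000000000000000000000) (nat_lit 0x0) (nat_lit 0x70001000100000000000000000000000000000000000000000) := T_22 (nat_lit 197) (nat_lit 196) (nat_lit 3) (nat_lit 6) (nat_lit 10) L69312 (by decide +kernel)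
theorem L69314 : W_22 (nat_lit 4) (nat_lit 0xf000040012000e0000000000000000000000000000000) (nat_lit 0x0) (nat_lit 0x700010001c0000000000000000000000000000000000000000) := T_22 (nat_lit 163) (nat_lit 162) (nat_lit 2) (nat_lit 6) (nat_lit 10) L69313 (by decide +kernel)
theorem L69315 : W_22 (nat_lit 5) (nat_lit 0x7000040012000e0000000000000000000000000000000) (nat_lit 0x0) (nat_lit 0x700018001c8000000000000000000000000000000000000000) := T_22 (nat_lit 179) (nat_lit 159) (nat_lit 0) (nat_lit 9) (nat_lit 10) L69314 (by decide +kernel)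
theorem L69316 : W_22 (nat_lit 7) (nat_lit 0x6000040012000e0000000000000000000000000000000) (nat_lit 0x0) (nat_lit 0x7dc019f01da000000000000000000000000000000000000000) := Q_22 (nat_lit 176) (C_22 L69302 (C_22 L69306 (C_22 L69311 (C_22 L69315 N_22)))) (by decide +kernel)
theorem L69317 : W_22 (nat_lit 2) (nat_lit 0x6000040012000f0000400000000000000000000000000) (nat_lit 0x0) (nat_lit 0x80000000000008000200000000000000000000000000) := D_22 (nat_lit 123) (nat_lit 105) (nat_lit 175) (nat_lit 0) (nat_lit 7) (nat_lit 7) (nat_lit 4) (nat_lit 5) (nat_lit 10) (by decide +kernel)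
theorem L69318 : W_22 (nat_lit 3) (nat_lit 0x6000040012000f0000000000000000000000000000000) (nat_lit 0x0) (nat_lit 0x80000000000008000e00000000000000000000000000) := T_22 (nat_lit 106) (nat_lit 107) (nat_lit 0) (nat_lit 8) (nat_lit 7) L69317 (by decide +kernel)
theorem L69319 : W_22 (nat_lit 4) (nat_lit 0x6000040012000e0000000000000000000000000000000) (nat_lit 0x0) (nat_lit 0x80000000100018000e00000000000000000000000000) := T_22 (nat_lit 124) (nat_lit 140) (nat_lit 1) (nat_lit 8) (nat_lit 7) L69318 (by decide +kernel)
theorem L69320 : W_22 (nat_lit 2) (nat_lit 0x60000c0012000f0000800000000000000000000000000) (nat_lit 0x0) (nat_lit 0x40012000000000000000000000000000000000000000) := D_22 (nat_lit 157) (nat_lit 160) (nat_lit 174) (nat_lit 3) (nat_lit 4) (nat_lit 9) (nat_lit 5) (nat_lit 5) (nat_lit 6) (by decide +kernel)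
theorem L69321 : W_22 (nat_lit 3) (nat_lit 0x6000040012000f0000800000000000000000000000000) (nat_lit 0x0) (nat_lit 0x14001a000000000000000000000000000000000000000) := T_22 (nat_lit 159) (nat_lit 176) (nat_lit 7) (nat_lit 5) (nat_lit 6) L69320 (by decide +kernel)
theorem L69322 : W_22 (nat_lit 4) (nat_lit 0x6000040012000f0000000000000000000000000000000) (nat_lit 0x0) (nat_lit 0x14001a000000000000c00000000000000000000000000) := T_22 (nat_lit 107) (nat_lit 106) (nat_lit 0) (nat_lit 8) (nat_lit 7) L69321 (by decide +kernel)
theorem L69323 : W_22 (nat_lit 5) (nat_lit 0x6000040012000e0000000000000000000000000000000) (nat_lit 0x0) (nat_lit 0x14001a000100010000c00000000000000000000000000) := T_22 (nat_lit 124) (nat_lit 140) (nat_lit 1) (nat_lit 8) (nat_lit 7) L69322 (by decide +kernel)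
theorem L69324 : W_22 (nat_lit 8) (nat_lit 0x6000000012000e0000000000000000000000000000000) (nat_lit 0x0) (nat_lit 0x7dc019f01de000100018000e00000000000000000000000000) := Q_22 (nat_lit 158) (C_22 L69316 (C_22 L69319 (C_22 L69323 N_22))) (by decide +kernel)
theorem L69325 : W_22 (nat_lit 2) (nat_lit 0xfc00200012000f8000400000001000000000000000000) (nat_lit 0x0) (nat_lit 0x1c00000000000000000000000000000000000000000000000) := D_22 (nat_lit 191) (nat_lit 190) (nat_lit 192) (nat_lit 1) (nat_lit 7) (nat_lit 10) (nat_lit 1) (nat_lit 8) (nat_lit 10) (by decide +kernel)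
theorem L69326 : W_22 (nat_lit 3) (nat_lit 0xf800200012000f8000400000001000000000000000000) (nat_lit 0x0) (nat_lit 0x1c00040010000000000000000000000000000000000000000) := T_22 (nat_lit 174) (nat_lit 160) (nat_lit 2) (nat_lit 4) (nat_lit 10) L69325 (by decide +kernel)
theorem L69327 : W_22 (nat_lit 4) (nat_lit 0xe800200012000f8000400000001000000000000000000) (nat_lit 0x0) (nat_lit 0x1c00140050000000000000000000000000000000000000000) := T_22 (nat_lit 176) (nat_lit 162) (nat_lit 2) (nat_lit 5) (nat_lit 10) L69326 (by decide +kernel)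
theorem L69328 : W_22 (nat_lit 5) (nat_lit 0xe000200012000f8000400000001000000000000000000) (nat_lit 0x0) (nat_lit 0x1c001c0054000000000000000000000000000000000000000) := T_22 (nat_lit 175) (nat_lit 158) (nat_lit 4) (nat_lit 5) (nat_lit 10) L69327 (by decide +kernel)
theorem L69329 : W_22 (nat_lit 6) (nat_lit 0xe000200012000f8000400000000000000000000000000) (nat_lit 0x0) (nat_lit 0x1c001c0054000000000000000020001000000000000000000) := T_22 (nat_lit 72) (nat_lit 89) (nat_lit 7) (nat_lit 4) (nat_lit 4) L69328 (by decide +kernel)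
theorem L69330 : W_22 (nat_lit 7) (nat_lit 0x6000200012000f8000400000000000000000000000000) (nat_lit 0x0) (nat_lit 0x11c009c0054000000000000000020001000000000000000000) := T_22 (nat_lit 179) (nat_lit 196) (nat_lit 7) (nat_lit 8) (nat_lit 7) L69329 (by decide +kernel)
theorem L69331 : W_22 (nat_lit 8) (nat_lit 0x6000200012000f0000400000000000000000000000000) (nat_lit 0x0) (nat_lit 0x11c009c0054000000008000200020001000000000000000000) := T_22 (nat_lit 123) (nat_lit 105) (nat_lit 0) (nat_lit 7) (nat_lit 7) L69330 (by decide +kernel)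
theorem L69332 : W_22 (nat_lit 9) (nat_lit 0x6000000012000f0000400000000000000000000000000) (nat_lit 0x0) (nat_lit 0x11c009c0074000000008002200020001000000000000000000) := T_22 (nat_lit 161) (nat_lit 109) (nat_lit 4) (nat_lit 8) (nat_lit 10) L69331 (by decide +kernel)
theorem L69333 : W_22 (nat_lit 10) (nat_lit 0x6000000012000f0000000000000000000000000000000) (nat_lit 0x0) (nat_lit 0x11c009c0074000000008002e00020001000000000000000000) := T_22 (nat_lit 106) (nat_lit 107) (nat_lit 0) (nat_lit 8) (nat_lit 7) L69332 (by decide +kernel)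
theorem L69334 : W_22 (nat_lit 11) (nat_lit 0x6000000012000e0000000000000000000000000000000) (nat_lit 0x0) (nat_lit 0x11c009c0074000100018002e00020001000000000000000000) := T_22 (nat_lit 124) (nat_lit 140) (nat_lit 1) (nat_lit 8) (nat_lit 7) L69333 (by decide +kernel)
theorem L69335 : W_22 (nat_lit 12) (nat_lit 0x2000000012000e0000000000000000000000000000000) (nat_lit 0x0) (nat_lit 0x7dc01df01fe000100018002e00020001000000000000000000) := Q_22 (nat_lit 178) (C_22 L67728 (C_22 L69324 (C_22 L69334 N_22))) (by decide +kernel)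
theorem L69336 : W_22 (nat_lit 2) (nat_lit 0x7000000016000e0000000000000000000000000000000) (nat_lit 0x0) (nat_lit 0x4000000008000000000002000000000000000000000000000) := D_22 (nat_lit 159) (nat_lit 109) (nat_lit 194) (nat_lit 6) (nat_lit 6) (nat_lit 10) (nat_lit 7) (nat_lit 6) (nat_lit 7) (by decide +kernel)
theorem L69337 : W_22 (nat_lit 3) (nat_lit 0x7000000012000e0000000000000000000000000000000) (nat_lit 0x0) (nat_lit 0x4000000008000400100002000000000000000000000000000) := T_22 (nat_lit 142) (nat_lit 128) (nat_lit 1) (nat_lit 9) (nat_lit 7) L69336 (by decide +kernel)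
theorem L69338 : W_22 (nat_lit 2) (nat_lit 0x80007c00000012000e0000000000000000000000000000000) (nat_lit 0x0) (nat_lit 0x1c00000000000000000000000000000000000000000000000) := D_22 (nat_lit 191) (nat_lit 190) (nat_lit 192) (nat_lit 1) (nat_lit 7) (nat_lit 10) (nat_lit 1) (nat_lit 8) (nat_lit 10) (by decide +kernel)
theorem L69339 : W_22 (nat_lit 3) (nat_lit 0x80007800000012000e0000000000000000000000000000000) (nat_lit 0x0) (nat_lit 0x5c00040000000000000000000000000000000000000000000) := T_22 (nat_lit 174) (nat_lit 194) (nat_lit 3) (nat_lit 4) (nat_lit 10) L69338 (by decide +kernel)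
theorem L69340 : W_22 (nat_lit 4) (nat_lit 0x7800000012000e0000000000000000000000000000000) (nat_lit 0x0) (nat_lit 0x1dc00040000000000000000000000000000000000000000000) := T_22 (nat_lit 195) (nat_lit 196) (nat_lit 3) (nat_lit 5) (nat_lit 10) L69339 (by decide +kernel)
theorem L69341 : W_22 (nat_lit 2) (nat_lit 0x10007800000012000e0000000000000000000000000000000) (nat_lit 0x0) (nat_lit 0x4000400100000000000000000000000000000000) := D_22 (nat_lit 142) (nat_lit 128) (nat_lit 158) (nat_lit 1) (nat_lit 9) (nat_lit 7) (nat_lit 6) (nat_lit 5) (nat_lit 11) (by decide +kernel)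
theorem L69342 : W_22 (nat_lit 3) (nat_lit 0x7800000012000e0000000000000000000000000000000) (nat_lit 0x0) (nat_lit 0x1800000004000400100000000000000000000000000000000) := T_22 (nat_lit 192) (nat_lit 191) (nat_lit 1) (nat_lit 8) (nat_lit 10) L69341 (by decide +kernel)
theorem L69343 : W_22 (nat_lit 2) (nat_lit 0x80007c00000012001e0000000000000000000000000000000) (nat_lit 0x0) (nat_lit 0x7000000000000000000000000000000000000000) := D_22 (nat_lit 157) (nat_lit 156) (nat_lit 158) (nat_lit 0) (nat_lit 7) (nat_lit 10) (nat_lit 0) (nat_lit 8) (nat_lit 10) (by decide +kernel)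
theorem L69344 : W_22 (nat_lit 3) (nat_lit 0x80007800000012001e0000000000000000000000000000000) (nat_lit 0x0) (nat_lit 0x4000040007000000000000000000000000000000000000000) := T_22 (nat_lit 174) (nat_lit 194) (nat_lit 3) (nat_lit 4) (nat_lit 10) L69343 (by decide +kernel)
theorem L69345 : W_22 (nat_lit 4) (nat_lit 0x7800000012001e0000000000000000000000000000000) (nat_lit 0x0) (nat_lit 0x1c000040007000000000000000000000000000000000000000) := T_22 (nat_lit 195) (nat_lit 196) (nat_lit 3) (nat_lit 5) (nat_lit 10) L69344 (by decide +kernel)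
theorem L69346 : W_22 (nat_lit 5) (nat_lit 0x7800000012000e0000000000000000000000000000000) (nat_lit 0x0) (nat_lit 0x1c000040007000400100000000000000000000000000000000) := T_22 (nat_lit 128) (nat_lit 142) (nat_lit 1) (nat_lit 9) (nat_lit 7) L69345 (by decide +kernel)
theorem L69347 : W_22 (nat_lit 6) (nat_lit 0x7000000012000e0000000000000000000000000000000) (nat_lit 0x0) (nat_lit 0x1dc000c0007000400100000000000000000000000000000000) := Q_22 (nat_lit 175) (C_22 L69340 (C_22 L69342 (C_22 L69346 N_22))) (by decide +kernel)
theorem L69348 : W_22 (nat_lit 6) (nat_lit 0x7800000012000e0000000000000000000000000000000) (nat_lit 0x0) (nat_lit 0x1c0087001e000000000000000000000000000000000000000) := T_22 (nat_lit 158) (nat_lit 157) (nat_lit 0) (nat_lit 8) (nat_lit 10) L69310 (by decide +kernel)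
theorem L69349 : W_22 (nat_lit 2) (nat_lit 0x9003f800840013000e0000000000000000000000000000000) (nat_lit 0x0) (nat_lit 0xe0000000000000000000000000000000000000000000000000) := D_22 (nat_lit 198) (nat_lit 197) (nat_lit 199) (nat_lit 3) (nat_lit 7) (nat_lit 10) (nat_lit 3) (nat_lit 8) (nat_lit 10) (by decide +kernel)
theorem L69350 : W_22 (nat_lit 3) (nat_lit 0x9001f800840013000e0000000000000000000000000000000) (nat_lit 0x0) (nat_lit 0xe4002000000000000000000000000000000000000000000000) := T_22 (nat_lit 181) (nat_lit 194) (nat_lit 1) (nat_lit 11) (nat_lit 10) L69349 (by decide +kernel)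
theorem L69351 : W_22 (nat_lit 4) (nat_lit 0x9000f800840013000e0000000000000000000000000000000) (nat_lit 0x0) (nat_lit 0xe4003000100000000000000000000000000000000000000000) := T_22 (nat_lit 180) (nat_lit 164) (nat_lit 2) (nat_lit 7) (nat_lit 10) L69350 (by decide +kernel)
theorem L69352 : W_22 (nat_lit 5) (nat_lit 0x9000f800040013000e0000000000000000000000000000000) (nat_lit 0x0) (nat_lit 0xe40030001c0000000000000000000000000000000000000000) := T_22 (nat_lit 163) (nat_lit 162) (nat_lit 2) (nat_lit 6) (nat_lit 10) L69351 (by decide +kernel)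
theorem L69353 : W_22 (nat_lit 6) (nat_lit 0x9000f800040012000e0000000000000000000000000000000) (nat_lit 0x0) (nat_lit 0xe40030001c0000100008000000000000000000000000000000) := T_22 (nat_lit 140) (nat_lit 123) (nat_lit 4) (nat_lit 5) (nat_lit 11) L69352 (by decide +kernel)
theorem L69354 : W_22 (nat_lit 7) (nat_lit 0x90007800040012000e0000000000000000000000000000000) (nat_lit 0x0) (nat_lit 0xe40038001c8000100008000000000000000000000000000000) := T_22 (nat_lit 179) (nat_lit 159) (nat_lit 0) (nat_lit 9) (nat_lit 10) L69353 (by decide +kernel)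
theorem L69355 : W_22 (nat_lit 8) (nat_lit 0x90007800000012000e0000000000000000000000000000000) (nat_lit 0x0) (nat_lit 0xe40038001ce000100008000000000000000000000000000000) := T_22 (nat_lit 158) (nat_lit 157) (nat_lit 0) (nat_lit 8) (nat_lit 10) L69354 (by decide +kernel)
theorem L69356 : W_22 (nat_lit 9) (nat_lit 0x10007800000012000e0000000000000000000000000000000) (nat_lit 0x0) (nat_lit 0xfc0038001ce000100008000000000000000000000000000000) := T_22 (nat_lit 195) (nat_lit 196) (nat_lit 3) (nat_lit 5) (nat_lit 10) L69355 (by decide +kernel)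
theorem L69357 : W_22 (nat_lit 10) (nat_lit 0x7800000012000e0000000000000000000000000000000) (nat_lit 0x0) (nat_lit 0xfd8038001ce000100008000000000000000000000000000000) := T_22 (nat_lit 192) (nat_lit 191) (nat_lit 1) (nat_lit 8) (nat_lit 10) L69356 (by decide +kernel)
theorem L69358 : W_22 (nat_lit 4) (nat_lit 0x7800000012000e0000000000000000000000000000000) (nat_lit 0x0) (nat_lit 0x3800080000e000000000000000000000000000000000000000) := T_22 (nat_lit 158) (nat_lit 157) (nat_lit 0) (nat_lit 8) (nat_lit 10) L69301 (by decide +kernel)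
theorem L69359 : W_22 (nat_lit 11) (nat_lit 0x7000000012000e0000000000000000000000000000000) (nat_lit 0x0) (nat_lit 0xfdc038f01de000100008000000000000000000000000000000) := Q_22 (nat_lit 175) (C_22 L69340 (C_22 L69348 (C_22 L69357 (C_22 L69358 N_22)))) (by decide +kernel)
theorem L69360 : W_22 (nat_lit 2) (nat_lit 0x7800080016800e0000000000000000000000000000000) (nat_lit 0x0) (nat_lit 0x800006000000000000000000000000000000000000000) := D_22 (nat_lit 158) (nat_lit 179) (nat_lit 157) (nat_lit 0) (nat_lit 9) (nat_lit 10) (nat_lit 0) (nat_lit 8) (nat_lit 10) (by decide +kernel)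
theorem L69361 : W_22 (nat_lit 3) (nat_lit 0x7000080016800e0000000000000000000000000000000) (nat_lit 0x0) (nat_lit 0x1000880006000000000000000000000000000000000000000) := T_22 (nat_lit 175) (nat_lit 192) (nat_lit 5) (nat_lit 6) (nat_lit 7) L69360 (by decide +kernel)
theorem L69362 : W_22 (nat_lit 4) (nat_lit 0x7000000016800e0000000000000000000000000000000) (nat_lit 0x0) (nat_lit 0x100088000e000000000002000000000000000000000000000) := T_22 (nat_lit 159) (nat_lit 109) (nat_lit 6) (nat_lit 6) (nat_lit 10) L69361 (by decide +kernel)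
theorem L69363 : W_22 (nat_lit 5) (nat_lit 0x7000000016000e0000000000000000000000000000000) (nat_lit 0x0) (nat_lit 0x100088000e000180000002000000000000000000000000000) := T_22 (nat_lit 139) (nat_lit 140) (nat_lit 2) (nat_lit 3) (nat_lit 8) L69362 (by decide +kernel)
theorem L69364 : W_22 (nat_lit 6) (nat_lit 0x7000000012000e0000000000000000000000000000000) (nat_lit 0x0) (nat_lit 0x100088000e000580100002000000000000000000000000000) := T_22 (nat_lit 142) (nat_lit 128) (nat_lit 1) (nat_lit 9) (nat_lit 7) L69363 (by decide +kernel)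
theorem L69365 : W_22 (nat_lit 12) (nat_lit 0x6000000012000e0000000000000000000000000000000) (nat_lit 0x0) (nat_lit 0xfdc039f01df000580108002000000000000000000000000000) := Q_22 (nat_lit 176) (C_22 L69337 (C_22 L69347 (C_22 L69284 (C_22 L69359 (C_22 L69364 N_22))))) (by decide +kernel)
theorem L69366 : W_22 (nat_lit 2) (nat_lit 0x6000000012001e0000000000000000000000000000000) (nat_lit 0x0) (nat_lit 0x4000000020000000000008000000000000000000000000000) := D_22 (nat_lit 161) (nat_lit 194) (nat_lit 111) (nat_lit 5) (nat_lit 8) (nat_lit 7) (nat_lit 6) (nat_lit 8) (nat_lit 10) (by decide +kernel)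
theorem L69367 : W_22 (nat_lit 3) (nat_lit 0x6000000012000e0000000000000000000000000000000) (nat_lit 0x0) (nat_lit 0x4000000020000400100008000000000000000000000000000) := T_22 (nat_lit 128) (nat_lit 142) (nat_lit 1) (nat_lit 9) (nat_lit 7) L69366 (by decide +kernel)
theorem L69368 : W_22 (nat_lit 3) (nat_lit 0x6000000012000e0000000000000000000000000000000) (nat_lit 0x0) (nat_lit 0x2000040010000a000000000000000000000000000) := T_22 (nat_lit 161) (nat_lit 109) (nat_lit 4) (nat_lit 8) (nat_lit 10) L69052 (by decide +kernel)
theorem L69369 : W_22 (nat_lit 13) (nat_lit 0x2000000012000e0000000000000000000000000000000) (nat_lit 0x0) (nat_lit 0xfdc03df01ff00058010800a000000000000000000000000000) := Q_22 (nat_lit 178) (C_22 L67728 (C_22 L69365 (C_22 L69367 (C_22 L69368 N_22)))) (by decide +kernel)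
theorem L69370 : W_22 (nat_lit 7) (nat_lit 0x7000000012000e0000000000000000000000000000000) (nat_lit 0x0) (nat_lit 0x3dc008f001e000000000000000000000000000000000000000) := Q_22 (nat_lit 175) (C_22 L69358 (C_22 L69340 (C_22 L69348 N_22))) (by decide +kernel)
theorem L69371 : W_22 (nat_lit 2) (nat_lit 0x7800080016000e0000000000000000000000000000000) (nat_lit 0x0) (nat_lit 0x800006000000000000000000000000000000000000000) := D_22 (nat_lit 158) (nat_lit 179) (nat_lit 157) (nat_lit 0) (nat_lit 9) (nat_lit 10) (nat_lit 0) (nat_lit 8) (nat_lit 10) (by decide +kernel)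
theorem L69372 : W_22 (nat_lit 3) (nat_lit 0x7000080016000e0000000000000000000000000000000) (nat_lit 0x0) (nat_lit 0x1000880006000000000000000000000000000000000000000) := T_22 (nat_lit 175) (nat_lit 192) (nat_lit 5) (nat_lit 6) (nat_lit 7) L69371 (by decide +kernel)
theorem L69373 : W_22 (nat_lit 4) (nat_lit 0x7000000016000e0000000000000000000000000000000) (nat_lit 0x0) (nat_lit 0x100088000e000000000002000000000000000000000000000) := T_22 (nat_lit 159) (nat_lit 109) (nat_lit 6) (nat_lit 6) (nat_lit 10) L69372 (by decide +kernel)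
theorem L69374 : W_22 (nat_lit 5) (nat_lit 0x7000000012000e0000000000000000000000000000000) (nat_lit 0x0) (nat_lit 0x100088000e000400100002000000000000000000000000000) := T_22 (nat_lit 142) (nat_lit 128) (nat_lit 1) (nat_lit 9) (nat_lit 7) L69373 (by decide +kernel)
theorem L69375 : W_22 (nat_lit 8) (nat_lit 0x6000000012000e0000000000000000000000000000000) (nat_lit 0x0) (nat_lit 0x7dc019f001f000400100002000000000000000000000000000) := Q_22 (nat_lit 176) (C_22 L69347 (C_22 L69337 (C_22 L69284 (C_22 L69370 (C_22 L69374 N_22))))) (by decide +kernel)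
theorem L69376 : W_22 (nat_lit 9) (nat_lit 0x2000000012000e0000000000000000000000000000000) (nat_lit 0x0) (nat_lit 0x7dc01df003f00040010000a000000000000000000000000000) := Q_22 (nat_lit 178) (C_22 L69368 (C_22 L69375 (C_22 L67728 (C_22 L69367 N_22)))) (by decide +kernel)
theorem L69377 : W_22 (nat_lit 14) (nat_lit 0x2000000012000a0000000000000000000000000000000) (nat_lit 0x0) (nat_lit 0x2000fdc03df01ff00058015800ae00020001000000000000000000) := Q_22 (nat_lit 126) (C_22 L67702 (C_22 L69299 (C_22 L69335 (C_22 L69369 (C_22 L69376 N_22))))) (by decide +kernel)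
theorem L69378 : W_22 (nat_lit 3) (nat_lit 0x2000000016800e0001000000000000000000000000000) (nat_lit 0x0) (nat_lit 0x8001c000000000000000080000000000000000000000) := T_22 (nat_lit 159) (nat_lit 160) (nat_lit 7) (nat_lit 6) (nat_lit 6) L67689 (by decide +kernel)
theorem L69379 : W_22 (nat_lit 4) (nat_lit 0x2000000016000e0001000000000000000000000000000) (nat_lit 0x0) (nat_lit 0x8001c000180000000000080000000000000000000000) := T_22 (nat_lit 139) (nat_lit 140) (nat_lit 2) (nat_lit 3) (nat_lit 8) L69378 (by decide +kernel)
theorem L69380 : W_22 (nat_lit 11) (nat_lit 0x2000000016000e0000000000000000000000000000000) (nat_lit 0x0) (nat_lit 0x8001c000180000003c001f000e000700018000400000) := Q_22 (nat_lit 108) (C_22 L67706 (C_22 L67718 (C_22 L67715 (C_22 L69379 N_22)))) (by decide +kernel)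
theorem L69381 : W_22 (nat_lit 3) (nat_lit 0x2000000016000e0001000000000000000000000000000) (nat_lit 0x0) (nat_lit 0x8001c000000000000000080000000000000000000000) := T_22 (nat_lit 159) (nat_lit 160) (nat_lit 7) (nat_lit 6) (nat_lit 6) L67693 (by decide +kernel)
theorem L69382 : W_22 (nat_lit 5) (nat_lit 0x2000000016000e0000000000000000000000000000000) (nat_lit 0x0) (nat_lit 0x8001c000000010003c001c0006000100000000000000) := Q_22 (nat_lit 108) (C_22 L67718 (C_22 L67706 (C_22 L67722 (C_22 L69381 N_22)))) (by decide +kernel)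
theorem L69383 : W_22 (nat_lit 12) (nat_lit 0x2000000012000e0000000000000000000000000000000) (nat_lit 0x0) (nat_lit 0x8001c000580010003c001f000e000700018000400000) := Q_22 (nat_lit 142) (C_22 L61544 (C_22 L69380 (C_22 L69382 N_22))) (by decide +kernel)
theorem L69384 : W_22 (nat_lit 13) (nat_lit 0x2000000012000a0000000000000000000000000000000) (nat_lit 0x0) (nat_lit 0x8001c00058035003be001f800f000780018000400000) := Q_22 (nat_lit 126) (C_22 L67780 (C_22 L69383 (C_22 L67702 (C_22 L67701 N_22)))) (by decide +kernel)
theorem L69385 : W_22 (nat_lit 2) (nat_lit 0x2000240012001f0011000000000000000000000000000) (nat_lit 0x0) (nat_lit 0x200022000000000000000000000000000) := D_22 (nat_lit 129) (nat_lit 113) (nat_lit 109) (nat_lit 2) (nat_lit 7) (nat_lit 7) (nat_lit 0) (nat_lit 10) (nat_lit 7) (by decide +kernel)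
theorem L69386 : W_22 (nat_lit 3) (nat_lit 0x2000240012001f0010000000000000000000000000000) (nat_lit 0x0) (nat_lit 0x80000000000200023000000000000000000000000000) := T_22 (nat_lit 108) (nat_lit 175) (nat_lit 6) (nat_lit 5) (nat_lit 10) L69385 (by decide +kernel)
theorem L69387 : W_22 (nat_lit 9) (nat_lit 0x2000000016000a0000000000000000000000000000000) (nat_lit 0x0) (nat_lit 0x8000500058007c0000000100030001c000e000100000000000000) := Q_22 (nat_lit 159) (C_22 L68655 (C_22 L68619 (C_22 L68176 N_22))) (by decide +kernel)
theorem L69388 : W_22 (nat_lit 6) (nat_lit 0x2000000016000a0000000000000000000000000000000) (nat_lit 0x0) (nat_lit 0x400018001c000180140003000080000000000000000000000) := T_22 (nat_lit 126) (nat_lit 128) (nat_lit 1) (nat_lit 9) (nat_lit 7) L67692 (by decide +kernel)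
theorem L69389 : W_22 (nat_lit 10) (nat_lit 0x2000000012000a0000000000000000000000000000000) (nat_lit 0x0) (nat_lit 0x8000500058007c0005801500030001c000e000100000000000000) := Q_22 (nat_lit 142) (C_22 L61545 (C_22 L69387 (C_22 L69388 N_22))) (by decide +kernel)
theorem L69390 : W_22 (nat_lit 2) (nat_lit 0x90007800040012000b0000000000000000000000000000000) (nat_lit 0x0) (nat_lit 0x800008000000000000800000000000000000000000000) := D_22 (nat_lit 159) (nat_lit 179) (nat_lit 107) (nat_lit 0) (nat_lit 9) (nat_lit 10) (nat_lit 7) (nat_lit 5) (nat_lit 6) (by decide +kernel)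
theorem L69391 : W_22 (nat_lit 3) (nat_lit 0x90007800040012000a0000000000000000000000000000000) (nat_lit 0x0) (nat_lit 0x800008000000010001800000000000000000000000000) := T_22 (nat_lit 124) (nat_lit 108) (nat_lit 6) (nat_lit 5) (nat_lit 10) L69390 (by decide +kernel)
theorem L69392 : W_22 (nat_lit 4) (nat_lit 0x80007800040012000a0000000000000000000000000000000) (nat_lit 0x0) (nat_lit 0x1800800008000000010001800000000000000000000000000) := T_22 (nat_lit 192) (nat_lit 191) (nat_lit 1) (nat_lit 8) (nat_lit 10) L69391 (by decide +kernel)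
theorem L69393 : W_22 (nat_lit 5) (nat_lit 0x80007800000012000a0000000000000000000000000000000) (nat_lit 0x0) (nat_lit 0x180080000e000000010001800000000000000000000000000) := T_22 (nat_lit 158) (nat_lit 157) (nat_lit 0) (nat_lit 8) (nat_lit 10) L69392 (by decide +kernel)
theorem L69394 : W_22 (nat_lit 6) (nat_lit 0x7800000012000a0000000000000000000000000000000) (nat_lit 0x0) (nat_lit 0x1980080000e000000010001800000000000000000000000000) := T_22 (nat_lit 195) (nat_lit 196) (nat_lit 3) (nat_lit 5) (nat_lit 10) L69393 (by decide +kernel)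
theorem L69395 : W_22 (nat_lit 7) (nat_lit 0x7000000012000a0000000000000000000000000000000) (nat_lit 0x0) (nat_lit 0x1de008f001f800000010001800000000000000000000000000) := Q_22 (nat_lit 175) (C_22 L69205 (C_22 L69154 (C_22 L69129 (C_22 L69394 (C_22 L69148 N_22))))) (by decide +kernel)
theorem L69396 : W_22 (nat_lit 11) (nat_lit 0x6000000012000a0000000000000000000000000000000) (nat_lit 0x0) (nat_lit 0x3de019f01df800480154003800080000000000000000000000) := Q_22 (nat_lit 176) (C_22 L69216 (C_22 L69149 (C_22 L69395 (C_22 L69172 (C_22 L69206 N_22))))) (by decide +kernel)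
theorem L69397 : W_22 (nat_lit 2) (nat_lit 0x6000780012000a0000000000000000000000000000000) (nat_lit 0x0) (nat_lit 0x1800004000000000000000000000000000000000000000) := D_22 (nat_lit 179) (nat_lit 180) (nat_lit 158) (nat_lit 3) (nat_lit 6) (nat_lit 9) (nat_lit 3) (nat_lit 5) (nat_lit 9) (by decide +kernel)
theorem L69398 : W_22 (nat_lit 3) (nat_lit 0x6000700012000a0000000000000000000000000000000) (nat_lit 0x0) (nat_lit 0x180000c000400000000000000000000000000000000000) := T_22 (nat_lit 159) (nat_lit 142) (nat_lit 0) (nat_lit 9) (nat_lit 9) L69397 (by decide +kernel)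
theorem L69399 : W_22 (nat_lit 2) (nat_lit 0x68017c0012000f0000000000000000000000000000000) (nat_lit 0x0) (nat_lit 0x8000c00000000000000000000000000) := D_22 (nat_lit 106) (nat_lit 123) (nat_lit 107) (nat_lit 4) (nat_lit 5) (nat_lit 10) (nat_lit 0) (nat_lit 8) (nat_lit 7) (by decide +kernel)
theorem L69400 : W_22 (nat_lit 3) (nat_lit 0x68017c0012000e0000000000000000000000000000000) (nat_lit 0x0) (nat_lit 0x18001c00000000000000000000000000) := T_22 (nat_lit 124) (nat_lit 108) (nat_lit 6) (nat_lit 5) (nat_lit 10) L69399 (by decide +kernel)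
theorem L69401 : W_22 (nat_lit 4) (nat_lit 0x60017c0012000e0000000000000000000000000000000) (nat_lit 0x0) (nat_lit 0xc0000000000018001c00000000000000000000000000) := T_22 (nat_lit 175) (nat_lit 174) (nat_lit 1) (nat_lit 8) (nat_lit 9) L69400 (by decide +kernel)
theorem L69402 : W_22 (nat_lit 5) (nat_lit 0x6001780012000e0000000000000000000000000000000) (nat_lit 0x0) (nat_lit 0xc0006000000018001c00000000000000000000000000) := T_22 (nat_lit 158) (nat_lit 157) (nat_lit 3) (nat_lit 4) (nat_lit 9) L69401 (by decide +kernel)
theorem L69403 : W_22 (nat_lit 6) (nat_lit 0x6001780012000a0000000000000000000000000000000) (nat_lit 0x0) (nat_lit 0xc0006000000058003c00000000000000000000000000) := T_22 (nat_lit 126) (nat_lit 109) (nat_lit 4) (nat_lit 8) (nat_lit 10) L69402 (by decide +kernel)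
theorem L69404 : W_22 (nat_lit 7) (nat_lit 0x6001700012000a0000000000000000000000000000000) (nat_lit 0x0) (nat_lit 0xc000e000400058003c00000000000000000000000000) := T_22 (nat_lit 159) (nat_lit 142) (nat_lit 0) (nat_lit 9) (nat_lit 9) L69403 (by decide +kernel)
theorem L69405 : W_22 (nat_lit 8) (nat_lit 0x6000700012000a0000000000000000000000000000000) (nat_lit 0x0) (nat_lit 0xc018e000400058003c00000000000000000000000000) := T_22 (nat_lit 164) (nat_lit 163) (nat_lit 1) (nat_lit 11) (nat_lit 9) L69404 (by decide +kernel)
theorem L69406 : W_22 (nat_lit 9) (nat_lit 0x6000600012000a0000000000000000000000000000000) (nat_lit 0x0) (nat_lit 0x2000380038c019e00c400058003c00000000000000000000000000) := Q_22 (nat_lit 160) (C_22 L69233 (C_22 L69227 (C_22 L69398 (C_22 L69405 N_22)))) (by decide +kernel)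
theorem L69407 : W_22 (nat_lit 2) (nat_lit 0xe000600012000a0000000000000000000000000000000) (nat_lit 0x0) (nat_lit 0x100180000000000000000000000000000000000000000) := D_22 (nat_lit 163) (nat_lit 176) (nat_lit 164) (nat_lit 2) (nat_lit 6) (nat_lit 10) (nat_lit 1) (nat_lit 11) (nat_lit 9) (by decide +kernel)
theorem L69408 : W_22 (nat_lit 3) (nat_lit 0x6000600012000a0000000000000000000000000000000) (nat_lit 0x0) (nat_lit 0x10000900180000000000000000000000000000000000000000) := T_22 (nat_lit 179) (nat_lit 196) (nat_lit 7) (nat_lit 8) (nat_lit 7) L69407 (by decide +kernel)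
theorem L69409 : W_22 (nat_lit 10) (nat_lit 0x6000200012000a0000000000000000000000000000000) (nat_lit 0x0) (nat_lit 0x2000380039c01de00c400058003c00000000000000000000000000) := Q_22 (nat_lit 162) (C_22 L69244 (C_22 L69406 (C_22 L69240 (C_22 L69220 (C_22 L69408 N_22))))) (by decide +kernel)
theorem L69410 : W_22 (nat_lit 11) (nat_lit 0x6000000012000a0000000000000000000000000000000) (nat_lit 0x0) (nat_lit 0x2000f9c039c03fe00c40015800bc00000000000000000000000000) := Q_22 (nat_lit 161) (C_22 L69267 (C_22 L69053 (C_22 L69409 N_22))) (by decide +kernel)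
theorem L69411 : W_22 (nat_lit 14) (nat_lit 0x2000000012000a0000000000000000000000000000000) (nat_lit 0x0) (nat_lit 0x20003000fde0fdf0fff80c48035c00bc00080000000000000000000000) := Q_22 (nat_lit 178) (C_22 L69126 (C_22 L69054 (C_22 L69104 (C_22 L69116 (C_22 L69396 (C_22 L69410 N_22)))))) (by decide +kernel)
theorem L69412 : W_22 (nat_lit 13) (nat_lit 0x2000000012000a0000000000000000000000000000000) (nat_lit 0x0) (nat_lit 0x7dc01df01ff00050015800be000f8007000380000000000000) := Q_22 (nat_lit 126) (C_22 L69335 (C_22 L67780 (C_22 L69376 (C_22 L67697 N_22)))) (by decide +kernel)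
theorem L69413 : W_22 (nat_lit 17) (nat_lit 0x200000001200080000000000000000000000000000000) (nat_lit 0x0) (nat_lit 0x10003f003f80fde0fdf0fff80c5e037f03bf807f801fc007c001c000600000) := Q_22 (nat_lit 125) (C_22 L67727 (C_22 L67781 (C_22 L67807 (C_22 L67835 (C_22 L68169 (C_22 L68657 (C_22 L68987 (C_22 L69051 (C_22 L69269 (C_22 L69377 (C_22 L69384 (C_22 L69389 (C_22 L69411 (C_22 L69412 N_22)))))))))))))) (by decide +kernel)
theorem L69414 : W_22 (nat_lit 4) (nat_lit 0x4000200020001a00080000000000000000000000000000000) (nat_lit 0x0) (nat_lit 0x47000500040000000000000000000000000000000) := T_22 (nat_lit 142) (nat_lit 162) (nat_lit 3) (nat_lit 5) (nat_lit 8) L66074 (by decide +kernel)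
theorem L69415 : W_22 (nat_lit 5) (nat_lit 0x4000200000001a00080000000000000000000000000000000) (nat_lit 0x0) (nat_lit 0x400067000500040000000000000000000000000000000) := T_22 (nat_lit 161) (nat_lit 178) (nat_lit 5) (nat_lit 8) (nat_lit 7) L69414 (by decide +kernel)
theorem L69416 : W_22 (nat_lit 6) (nat_lit 0x200000001a00080000000000000000000000000000000) (nat_lit 0x0) (nat_lit 0x4000400077000500040000000000000000000000000000000) := T_22 (nat_lit 194) (nat_lit 160) (nat_lit 6) (nat_lit 7) (nat_lit 11) L69415 (by decide +kernel)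
theorem L69417 : W_22 (nat_lit 2) (nat_lit 0x4000200020001a00080000000000000000000000000000000) (nat_lit 0x0) (nat_lit 0x40000400100000000000000000000000000000000) := D_22 (nat_lit 142) (nat_lit 162) (nat_lit 128) (nat_lit 3) (nat_lit 5) (nat_lit 8) (nat_lit 2) (nat_lit 5) (nat_lit 8) (by decide +kernel)
theorem L69418 : W_22 (nat_lit 3) (nat_lit 0x4000200000001a00080000000000000000000000000000000) (nat_lit 0x0) (nat_lit 0x400060000400100000000000000000000000000000000) := T_22 (nat_lit 161) (nat_lit 178) (nat_lit 5) (nat_lit 8) (nat_lit 7) L69417 (by decide +kernel)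
theorem L69419 : W_22 (nat_lit 4) (nat_lit 0x200000001a00080000000000000000000000000000000) (nat_lit 0x0) (nat_lit 0x4000400070000400100000000000000000000000000000000) := T_22 (nat_lit 194) (nat_lit 160) (nat_lit 6) (nat_lit 7) (nat_lit 11) L69418 (by decide +kernel)
theorem L69420 : W_22 (nat_lit 2) (nat_lit 0x600000001a00080000000000000000000000000000000) (nat_lit 0x0) (nat_lit 0x4000000030000000000000000000000000000000000000000) := D_22 (nat_lit 194) (nat_lit 160) (nat_lit 161) (nat_lit 6) (nat_lit 7) (nat_lit 11) (nat_lit 5) (nat_lit 8) (nat_lit 7) (by decide +kernel)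
theorem L69421 : W_22 (nat_lit 2) (nat_lit 0x600020001a00080000000000000000000000000000000) (nat_lit 0x0) (nat_lit 0x8000000000000000040002000000000000000000000000000) := D_22 (nat_lit 126) (nat_lit 195) (nat_lit 109) (nat_lit 4) (nat_lit 8) (nat_lit 11) (nat_lit 4) (nat_lit 8) (nat_lit 10) (by decide +kernel)
theorem L69422 : W_22 (nat_lit 3) (nat_lit 0x600000001a00080000000000000000000000000000000) (nat_lit 0x0) (nat_lit 0xc000000020000000040002000000000000000000000000000) := T_22 (nat_lit 161) (nat_lit 194) (nat_lit 5) (nat_lit 8) (nat_lit 7) L69421 (by decide +kernel)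
theorem L69423 : W_22 (nat_lit 2) (nat_lit 0x20001f00010001a00080000000000000000000000000000000) (nat_lit 0x0) (nat_lit 0x1c0000000000000000000000000000000000000000) := D_22 (nat_lit 163) (nat_lit 162) (nat_lit 164) (nat_lit 2) (nat_lit 6) (nat_lit 10) (nat_lit 2) (nat_lit 7) (nat_lit 10) (by decide +kernel)
theorem L69424 : W_22 (nat_lit 3) (nat_lit 0x20001e00010001a00080000000000000000000000000000000) (nat_lit 0x0) (nat_lit 0x100001001c0000000000000000000000000000000000000000) := T_22 (nat_lit 176) (nat_lit 196) (nat_lit 3) (nat_lit 6) (nat_lit 10) L69423 (by decide +kernel)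
theorem L69425 : W_22 (nat_lit 4) (nat_lit 0x1e00010001a00080000000000000000000000000000000) (nat_lit 0x0) (nat_lit 0x700001001c0000000000000000000000000000000000000000) := T_22 (nat_lit 197) (nat_lit 198) (nat_lit 3) (nat_lit 7) (nat_lit 10) L69424 (by decide +kernel)
theorem L69426 : W_22 (nat_lit 5) (nat_lit 0x1e00000001a00080000000000000000000000000000000) (nat_lit 0x0) (nat_lit 0x700001001d8000000000000000000000000000000000000000) := T_22 (nat_lit 160) (nat_lit 159) (nat_lit 0) (nat_lit 10) (nat_lit 10) L69425 (by decide +kernel)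
theorem L69427 : W_22 (nat_lit 2) (nat_lit 0x40003e00010001a000c0000000000000000000000000000000) (nat_lit 0x0) (nat_lit 0x380000000000000000000000000000000000000000) := D_22 (nat_lit 164) (nat_lit 165) (nat_lit 163) (nat_lit 2) (nat_lit 8) (nat_lit 10) (nat_lit 2) (nat_lit 7) (nat_lit 10) (by decide +kernel)
theorem L69428 : W_22 (nat_lit 3) (nat_lit 0x40001e00010001a000c0000000000000000000000000000000) (nat_lit 0x0) (nat_lit 0x80002000380000000000000000000000000000000000000000) := T_22 (nat_lit 181) (nat_lit 199) (nat_lit 3) (nat_lit 8) (nat_lit 10) L69427 (by decide +kernel)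
theorem L69429 : W_22 (nat_lit 4) (nat_lit 0x40001e00010001a00080000000000000000000000000000000) (nat_lit 0x0) (nat_lit 0x88002000380000000040000000000000000000000000000000) := T_22 (nat_lit 126) (nat_lit 195) (nat_lit 7) (nat_lit 7) (nat_lit 7) L69428 (by decide +kernel)
theorem L69430 : W_22 (nat_lit 5) (nat_lit 0x1e00010001a00080000000000000000000000000000000) (nat_lit 0x0) (nat_lit 0xe8002000380000000040000000000000000000000000000000) := T_22 (nat_lit 198) (nat_lit 197) (nat_lit 3) (nat_lit 7) (nat_lit 10) L69429 (by decide +kernel)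
theorem L69431 : W_22 (nat_lit 6) (nat_lit 0x1e00000001a00080000000000000000000000000000000) (nat_lit 0x0) (nat_lit 0xe8002000398000000040000000000000000000000000000000) := T_22 (nat_lit 160) (nat_lit 159) (nat_lit 0) (nat_lit 10) (nat_lit 10) L69430 (by decide +kernel)
theorem L69432 : W_22 (nat_lit 2) (nat_lit 0x1f00080001a00080000000000000000000000000000000) (nat_lit 0x0) (nat_lit 0x70000000000000000000000000000000000000000000000000) := D_22 (nat_lit 197) (nat_lit 198) (nat_lit 196) (nat_lit 3) (nat_lit 7) (nat_lit 10) (nat_lit 3) (nat_lit 6) (nat_lit 10) (by decide +kernel)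
theorem L69433 : W_22 (nat_lit 3) (nat_lit 0x1e00080001a00080000000000000000000000000000000) (nat_lit 0x0) (nat_lit 0x70000100040000000000000000000000000000000000000000) := T_22 (nat_lit 176) (nat_lit 162) (nat_lit 2) (nat_lit 6) (nat_lit 10) L69432 (by decide +kernel)
theorem L69434 : W_22 (nat_lit 4) (nat_lit 0x1e00000001a00080000000000000000000000000000000) (nat_lit 0x0) (nat_lit 0x700001001c0000000000000000000000000000000000000000) := T_22 (nat_lit 163) (nat_lit 164) (nat_lit 2) (nat_lit 7) (nat_lit 10) L69433 (by decide +kernel)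
theorem L69435 : W_22 (nat_lit 2) (nat_lit 0x20001f00000001a00080000000000000000000000000000000) (nat_lit 0x0) (nat_lit 0x1c000000000000000000000000000000000000000) := D_22 (nat_lit 159) (nat_lit 160) (nat_lit 158) (nat_lit 0) (nat_lit 10) (nat_lit 10) (nat_lit 0) (nat_lit 9) (nat_lit 10) (by decide +kernel)
theorem L69436 : W_22 (nat_lit 3) (nat_lit 0x20001e00000001a00080000000000000000000000000000000) (nat_lit 0x0) (nat_lit 0x1000010001c000000000000000000000000000000000000000) := T_22 (nat_lit 176) (nat_lit 196) (nat_lit 3) (nat_lit 6) (nat_lit 10) L69435 (by decide +kernel)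
theorem L69437 : W_22 (nat_lit 4) (nat_lit 0x1e00000001a00080000000000000000000000000000000) (nat_lit 0x0) (nat_lit 0x7000010001c000000000000000000000000000000000000000) := T_22 (nat_lit 197) (nat_lit 198) (nat_lit 3) (nat_lit 7) (nat_lit 10) L69436 (by decide +kernel)
theorem L69438 : W_22 (nat_lit 2) (nat_lit 0x2000000008801f80094001a00080000000000000000000000000000000) (nat_lit 0x0) (nat_lit 0x400040000000000010000000000000000000000000000000) := D_22 (nat_lit 174) (nat_lit 190) (nat_lit 124) (nat_lit 1) (nat_lit 7) (nat_lit 10) (nat_lit 5) (nat_lit 5) (nat_lit 7) (by decide +kernel)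
theorem L69439 : W_22 (nat_lit 3) (nat_lit 0x2000000008801f80090001a00080000000000000000000000000000000) (nat_lit 0x0) (nat_lit 0x400040006000000010000000000000000000000000000000) := T_22 (nat_lit 158) (nat_lit 157) (nat_lit 0) (nat_lit 8) (nat_lit 10) L69438 (by decide +kernel)
theorem L69440 : W_22 (nat_lit 4) (nat_lit 0x2000000008001f80090001a00080000000000000000000000000000000) (nat_lit 0x0) (nat_lit 0x1c00040006000000010000000000000000000000000000000) := T_22 (nat_lit 191) (nat_lit 192) (nat_lit 1) (nat_lit 8) (nat_lit 10) L69439 (by decide +kernel)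
theorem L69441 : W_22 (nat_lit 5) (nat_lit 0x2000000008001f00090001a00080000000000000000000000000000000) (nat_lit 0x0) (nat_lit 0x11c000c0006000000010000000000000000000000000000000) := T_22 (nat_lit 175) (nat_lit 196) (nat_lit 3) (nat_lit 5) (nat_lit 10) L69440 (by decide +kernel)
theorem L69442 : W_22 (nat_lit 6) (nat_lit 0x8001f00090001a00080000000000000000000000000000000) (nat_lit 0x0) (nat_lit 0x2000100011c000c0006000000010000000000000000000000000000000) := T_22 (nat_lit 229) (nat_lit 212) (nat_lit 4) (nat_lit 8) (nat_lit 13) L69441 (by decide +kernel)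
theorem L69443 : W_22 (nat_lit 7) (nat_lit 0x1f00090001a00080000000000000000000000000000000) (nat_lit 0x0) (nat_lit 0x2000100019c000c0006000000050000000000000000000000000000000) := T_22 (nat_lit 195) (nat_lit 126) (nat_lit 7) (nat_lit 7) (nat_lit 7) L69442 (by decide +kernel)
theorem L69444 : W_22 (nat_lit 8) (nat_lit 0x1e00090001a00080000000000000000000000000000000) (nat_lit 0x0) (nat_lit 0x2000100019c001c0046000000050000000000000000000000000000000) := T_22 (nat_lit 176) (nat_lit 162) (nat_lit 2) (nat_lit 6) (nat_lit 10) L69443 (by decide +kernel)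
theorem L69445 : W_22 (nat_lit 9) (nat_lit 0x1e00010001a00080000000000000000000000000000000) (nat_lit 0x0) (nat_lit 0x2000100019c001c01c6000000050000000000000000000000000000000) := T_22 (nat_lit 163) (nat_lit 164) (nat_lit 2) (nat_lit 7) (nat_lit 10) L69444 (by decide +kernel)
theorem L69446 : W_22 (nat_lit 10) (nat_lit 0x1e00000001a00080000000000000000000000000000000) (nat_lit 0x0) (nat_lit 0x2000100019c001c01de000000050000000000000000000000000000000) := T_22 (nat_lit 160) (nat_lit 159) (nat_lit 0) (nat_lit 10) (nat_lit 10) L69445 (by decide +kernel)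
theorem L69447 : W_22 (nat_lit 11) (nat_lit 0xe00000001a00080000000000000000000000000000000) (nat_lit 0x0) (nat_lit 0x20001000f9c031c03de000000050000000000000000000000000000000) := Q_22 (nat_lit 180) (C_22 L69426 (C_22 L69431 (C_22 L69434 (C_22 L69437 (C_22 L69446 N_22))))) (by decide +kernel)
theorem L69448 : W_22 (nat_lit 6) (nat_lit 0xe00010001a00080000000000000000000000000000000) (nat_lit 0x0) (nat_lit 0xe8003000388000000040000000000000000000000000000000) := T_22 (nat_lit 180) (nat_lit 159) (nat_lit 0) (nat_lit 10) (nat_lit 10) L69430 (by decide +kernel)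
theorem L69449 : W_22 (nat_lit 7) (nat_lit 0xe00000001a00080000000000000000000000000000000) (nat_lit 0x0) (nat_lit 0xec003000398000000040000000000000000000000000000000) := T_22 (nat_lit 160) (nat_lit 194) (nat_lit 6) (nat_lit 7) (nat_lit 11) L69448 (by decide +kernel)
theorem L69450 : W_22 (nat_lit 2) (nat_lit 0x4003e00000001a00080000000000000000000000000000000) (nat_lit 0x0) (nat_lit 0xe0000000000000000000000000000000000000000000000000) := D_22 (nat_lit 198) (nat_lit 197) (nat_lit 199) (nat_lit 3) (nat_lit 7) (nat_lit 10) (nat_lit 3) (nat_lit 8) (nat_lit 10) (by decide +kernel)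
theorem L69451 : W_22 (nat_lit 3) (nat_lit 0x4001e00000001a00080000000000000000000000000000000) (nat_lit 0x0) (nat_lit 0xe8002000000000000000000000000000000000000000000000) := T_22 (nat_lit 181) (nat_lit 195) (nat_lit 1) (nat_lit 11) (nat_lit 10) L69450 (by decide +kernel)
theorem L69452 : W_22 (nat_lit 4) (nat_lit 0x1e00000001a00080000000000000000000000000000000) (nat_lit 0x0) (nat_lit 0xec002000010000000000000000000000000000000000000000) := T_22 (nat_lit 194) (nat_lit 160) (nat_lit 6) (nat_lit 7) (nat_lit 11) L69451 (by decide +kernel)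
theorem L69453 : W_22 (nat_lit 2) (nat_lit 0x4003e00000001a00080000000000000000000000000000000) (nat_lit 0x0) (nat_lit 0x380000000000000000000000000000000000000000) := D_22 (nat_lit 164) (nat_lit 163) (nat_lit 165) (nat_lit 2) (nat_lit 7) (nat_lit 10) (nat_lit 2) (nat_lit 8) (nat_lit 10) (by decide +kernel)
theorem L69454 : W_22 (nat_lit 3) (nat_lit 0x4001e00000001a00080000000000000000000000000000000) (nat_lit 0x0) (nat_lit 0x8002000380000000000000000000000000000000000000000) := T_22 (nat_lit 181) (nat_lit 195) (nat_lit 1) (nat_lit 11) (nat_lit 10) L69453 (by decide +kernel)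
theorem L69455 : W_22 (nat_lit 4) (nat_lit 0x1e00000001a00080000000000000000000000000000000) (nat_lit 0x0) (nat_lit 0xc002000390000000000000000000000000000000000000000) := T_22 (nat_lit 194) (nat_lit 160) (nat_lit 6) (nat_lit 7) (nat_lit 11) L69454 (by decide +kernel)
theorem L69456 : W_22 (nat_lit 5) (nat_lit 0xe00000001a00080000000000000000000000000000000) (nat_lit 0x0) (nat_lit 0xfc0031003d0000000000000000000000000000000000000000) := Q_22 (nat_lit 180) (C_22 L69434 (C_22 L69452 (C_22 L69455 N_22))) (by decide +kernel)
theorem L69457 : W_22 (nat_lit 2) (nat_lit 0x4800fe00080001a00680000000000000000000000000000000) (nat_lit 0x0) (nat_lit 0xe00000000000000000000000000000000000000000) := D_22 (nat_lit 166) (nat_lit 165) (nat_lit 167) (nat_lit 2) (nat_lit 9) (nat_lit 10) (nat_lit 2) (nat_lit 10) (nat_lit 10) (by decide +kernel)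
theorem L69458 : W_22 (nat_lit 3) (nat_lit 0x48007e00080001a00680000000000000000000000000000000) (nat_lit 0x0) (nat_lit 0x8000e40000000000000000000000000000000000000000) := T_22 (nat_lit 183) (nat_lit 162) (nat_lit 0) (nat_lit 13) (nat_lit 10) L69457 (by decide +kernel)
theorem L69459 : W_22 (nat_lit 4) (nat_lit 0x48003e00080001a00680000000000000000000000000000000) (nat_lit 0x0) (nat_lit 0x1000c000e40000000000000000000000000000000000000000) := T_22 (nat_lit 182) (nat_lit 196) (nat_lit 1) (nat_lit 12) (nat_lit 10) L69458 (by decide +kernel)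
theorem L69460 : W_22 (nat_lit 5) (nat_lit 0x48003e00080001a00280000000000000000000000000000000) (nat_lit 0x0) (nat_lit 0x1000c000e40000000500000000000000000000000000000000) := T_22 (nat_lit 130) (nat_lit 128) (nat_lit 1) (nat_lit 11) (nat_lit 7) L69459 (by decide +kernel)
theorem L69461 : W_22 (nat_lit 6) (nat_lit 0x48003e00080001a00080000000000000000000000000000000) (nat_lit 0x0) (nat_lit 0x1000c000e40004000700000000000000000000000000000000) := T_22 (nat_lit 129) (nat_lit 146) (nat_lit 7) (nat_lit 10) (nat_lit 7) L69460 (by decide +kernel)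
theorem L69462 : W_22 (nat_lit 7) (nat_lit 0x40003e00080001a00080000000000000000000000000000000) (nat_lit 0x0) (nat_lit 0x1c00c000e40004000700000000000000000000000000000000) := T_22 (nat_lit 195) (nat_lit 194) (nat_lit 1) (nat_lit 11) (nat_lit 10) L69461 (by decide +kernel)
theorem L69463 : W_22 (nat_lit 8) (nat_lit 0x40001e00080001a00080000000000000000000000000000000) (nat_lit 0x0) (nat_lit 0x9c00e000e40004000700000000000000000000000000000000) := T_22 (nat_lit 181) (nat_lit 199) (nat_lit 3) (nat_lit 8) (nat_lit 10) L69462 (by decide +kernel)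
theorem L69464 : W_22 (nat_lit 9) (nat_lit 0x1e00080001a00080000000000000000000000000000000) (nat_lit 0x0) (nat_lit 0xfc00e000e40004000700000000000000000000000000000000) := T_22 (nat_lit 198) (nat_lit 197) (nat_lit 3) (nat_lit 7) (nat_lit 10) L69463 (by decide +kernel)
theorem L69465 : W_22 (nat_lit 10) (nat_lit 0x1e00000001a00080000000000000000000000000000000) (nat_lit 0x0) (nat_lit 0xfc00e000fc0004000700000000000000000000000000000000) := T_22 (nat_lit 163) (nat_lit 164) (nat_lit 2) (nat_lit 7) (nat_lit 10) L69464 (by decide +kernel)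
theorem L69466 : W_22 (nat_lit 2) (nat_lit 0x20801f80084001a00080000000000000000000000000000000) (nat_lit 0x0) (nat_lit 0x400040000000000010000000000000000000000000000000) := D_22 (nat_lit 174) (nat_lit 190) (nat_lit 124) (nat_lit 1) (nat_lit 7) (nat_lit 10) (nat_lit 5) (nat_lit 5) (nat_lit 7) (by decide +kernel)
theorem L69467 : W_22 (nat_lit 3) (nat_lit 0x20001f80084001a00080000000000000000000000000000000) (nat_lit 0x0) (nat_lit 0x1c00040000000000010000000000000000000000000000000) := T_22 (nat_lit 191) (nat_lit 192) (nat_lit 1) (nat_lit 8) (nat_lit 10) L69466 (by decide +kernel)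
theorem L69468 : W_22 (nat_lit 4) (nat_lit 0x20001f00084001a00080000000000000000000000000000000) (nat_lit 0x0) (nat_lit 0x1c000c0002000000010000000000000000000000000000000) := T_22 (nat_lit 175) (nat_lit 157) (nat_lit 0) (nat_lit 8) (nat_lit 10) L69467 (by decide +kernel)
theorem L69469 : W_22 (nat_lit 5) (nat_lit 0x20001f00080001a00080000000000000000000000000000000) (nat_lit 0x0) (nat_lit 0x1c000c000e000000010000000000000000000000000000000) := T_22 (nat_lit 158) (nat_lit 159) (nat_lit 0) (nat_lit 9) (nat_lit 10) L69468 (by decide +kernel)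
theorem L69470 : W_22 (nat_lit 6) (nat_lit 0x20001e00080001a00080000000000000000000000000000000) (nat_lit 0x0) (nat_lit 0x1c001c004e000000010000000000000000000000000000000) := T_22 (nat_lit 176) (nat_lit 162) (nat_lit 2) (nat_lit 6) (nat_lit 10) L69469 (by decide +kernel)
theorem L69471 : W_22 (nat_lit 7) (nat_lit 0x20001e00000001a00080000000000000000000000000000000) (nat_lit 0x0) (nat_lit 0x1c001c01ce000000010000000000000000000000000000000) := T_22 (nat_lit 163) (nat_lit 164) (nat_lit 2) (nat_lit 7) (nat_lit 10) L69470 (by decide +kernel)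
theorem L69472 : W_22 (nat_lit 8) (nat_lit 0x1e00000001a00080000000000000000000000000000000) (nat_lit 0x0) (nat_lit 0x61c001c01ce000000010000000000000000000000000000000) := T_22 (nat_lit 197) (nat_lit 198) (nat_lit 3) (nat_lit 7) (nat_lit 10) L69471 (by decide +kernel)
theorem L69473 : W_22 (nat_lit 2) (nat_lit 0x8000000020801f80044001a00080000000000000000000000000000000) (nat_lit 0x0) (nat_lit 0x400040000000000010000000000000000000000000000000) := D_22 (nat_lit 174) (nat_lit 190) (nat_lit 124) (nat_lit 1) (nat_lit 7) (nat_lit 10) (nat_lit 5) (nat_lit 5) (nat_lit 7) (by decide +kernel)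
theorem L69474 : W_22 (nat_lit 3) (nat_lit 0x8000000020001f80044001a00080000000000000000000000000000000) (nat_lit 0x0) (nat_lit 0x1c00040000000000010000000000000000000000000000000) := T_22 (nat_lit 191) (nat_lit 192) (nat_lit 1) (nat_lit 8) (nat_lit 10) L69473 (by decide +kernel)
theorem L69475 : W_22 (nat_lit 4) (nat_lit 0x8000000020001f00044001a00080000000000000000000000000000000) (nat_lit 0x0) (nat_lit 0x1c000c0002000000010000000000000000000000000000000) := T_22 (nat_lit 175) (nat_lit 157) (nat_lit 0) (nat_lit 8) (nat_lit 10) L69474 (by decide +kernel)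
theorem L69476 : W_22 (nat_lit 5) (nat_lit 0x20001f00044001a00080000000000000000000000000000000) (nat_lit 0x0) (nat_lit 0x8000400001c000c0002000000010000000000000000000000000000000) := T_22 (nat_lit 231) (nat_lit 214) (nat_lit 4) (nat_lit 10) (nat_lit 13) L69475 (by decide +kernel)
theorem L69477 : W_22 (nat_lit 6) (nat_lit 0x20001f00040001a00080000000000000000000000000000000) (nat_lit 0x0) (nat_lit 0x8000400001c000c000e000000010000000000000000000000000000000) := T_22 (nat_lit 158) (nat_lit 159) (nat_lit 0) (nat_lit 9) (nat_lit 10) L69476 (by decide +kernel)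
theorem L69478 : W_22 (nat_lit 7) (nat_lit 0x20001f00000001a00080000000000000000000000000000000) (nat_lit 0x0) (nat_lit 0x8000400001c000c00ce000000010000000000000000000000000000000) := T_22 (nat_lit 162) (nat_lit 163) (nat_lit 2) (nat_lit 6) (nat_lit 10) L69477 (by decide +kernel)
theorem L69479 : W_22 (nat_lit 8) (nat_lit 0x20001e00000001a00080000000000000000000000000000000) (nat_lit 0x0) (nat_lit 0x8000400011c001c00ce000000010000000000000000000000000000000) := T_22 (nat_lit 176) (nat_lit 196) (nat_lit 3) (nat_lit 6) (nat_lit 10) L69478 (by decide +kernel)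
theorem L69480 : W_22 (nat_lit 9) (nat_lit 0x1e00000001a00080000000000000000000000000000000) (nat_lit 0x0) (nat_lit 0x8000400071c001c00ce000000010000000000000000000000000000000) := T_22 (nat_lit 197) (nat_lit 198) (nat_lit 3) (nat_lit 7) (nat_lit 10) L69479 (by decide +kernel)
theorem L69481 : W_22 (nat_lit 2) (nat_lit 0x9001f80084001a00080000000000000000000000000000000) (nat_lit 0x0) (nat_lit 0x4002040000000000000000000000000000000000000000000) := D_22 (nat_lit 194) (nat_lit 174) (nat_lit 181) (nat_lit 3) (nat_lit 4) (nat_lit 10) (nat_lit 1) (nat_lit 11) (nat_lit 10) (by decide +kernel)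
theorem L69482 : W_22 (nat_lit 3) (nat_lit 0x1001f80084001a00080000000000000000000000000000000) (nat_lit 0x0) (nat_lit 0x1c002040000000000000000000000000000000000000000000) := T_22 (nat_lit 195) (nat_lit 196) (nat_lit 3) (nat_lit 5) (nat_lit 10) L69481 (by decide +kernel)
theorem L69483 : W_22 (nat_lit 4) (nat_lit 0x1f80084001a00080000000000000000000000000000000) (nat_lit 0x0) (nat_lit 0x1d802040000000000000000000000000000000000000000000) := T_22 (nat_lit 192) (nat_lit 191) (nat_lit 1) (nat_lit 8) (nat_lit 10) L69482 (by decide +kernel)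
theorem L69484 : W_22 (nat_lit 5) (nat_lit 0x1f00084001a00080000000000000000000000000000000) (nat_lit 0x0) (nat_lit 0x1d8020c0002000000000000000000000000000000000000000) := T_22 (nat_lit 175) (nat_lit 157) (nat_lit 0) (nat_lit 8) (nat_lit 10) L69483 (by decide +kernel)
theorem L69485 : W_22 (nat_lit 6) (nat_lit 0x1f00080001a00080000000000000000000000000000000) (nat_lit 0x0) (nat_lit 0x1d8020c000e000000000000000000000000000000000000000) := T_22 (nat_lit 158) (nat_lit 159) (nat_lit 0) (nat_lit 9) (nat_lit 10) L69484 (by decide +kernel)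
theorem L69486 : W_22 (nat_lit 7) (nat_lit 0x1e00080001a00080000000000000000000000000000000) (nat_lit 0x0) (nat_lit 0x1d8021c004e000000000000000000000000000000000000000) := T_22 (nat_lit 176) (nat_lit 162) (nat_lit 2) (nat_lit 6) (nat_lit 10) L69485 (by decide +kernel)
theorem L69487 : W_22 (nat_lit 8) (nat_lit 0x1e00000001a00080000000000000000000000000000000) (nat_lit 0x0) (nat_lit 0x1d8021c01ce000000000000000000000000000000000000000) := T_22 (nat_lit 163) (nat_lit 164) (nat_lit 2) (nat_lit 7) (nat_lit 10) L69486 (by decide +kernel)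
theorem L69488 : W_22 (nat_lit 6) (nat_lit 0x20001e00080001a00080000000000000000000000000000000) (nat_lit 0x0) (nat_lit 0x11c001c000e000000010000000000000000000000000000000) := T_22 (nat_lit 176) (nat_lit 196) (nat_lit 3) (nat_lit 6) (nat_lit 10) L69469 (by decide +kernel)
theorem L69489 : W_22 (nat_lit 7) (nat_lit 0x1e00080001a00080000000000000000000000000000000) (nat_lit 0x0) (nat_lit 0x71c001c000e000000010000000000000000000000000000000) := T_22 (nat_lit 197) (nat_lit 198) (nat_lit 3) (nat_lit 7) (nat_lit 10) L69488 (by decide +kernel)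
theorem L69490 : W_22 (nat_lit 8) (nat_lit 0x1e00000001a00080000000000000000000000000000000) (nat_lit 0x0) (nat_lit 0x71c001c018e000000010000000000000000000000000000000) := T_22 (nat_lit 163) (nat_lit 164) (nat_lit 2) (nat_lit 7) (nat_lit 10) L69489 (by decide +kernel)
theorem L69491 : W_22 (nat_lit 2) (nat_lit 0x20801f80004001a00080000000000000000000000000000000) (nat_lit 0x0) (nat_lit 0x400040000000000010000000000000000000000000000000) := D_22 (nat_lit 174) (nat_lit 190) (nat_lit 124) (nat_lit 1) (nat_lit 7) (nat_lit 10) (nat_lit 5) (nat_lit 5) (nat_lit 7) (by decide +kernel)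
theorem L69492 : W_22 (nat_lit 3) (nat_lit 0x20001f80004001a00080000000000000000000000000000000) (nat_lit 0x0) (nat_lit 0x1c00040000000000010000000000000000000000000000000) := T_22 (nat_lit 191) (nat_lit 192) (nat_lit 1) (nat_lit 8) (nat_lit 10) L69491 (by decide +kernel)
theorem L69493 : W_22 (nat_lit 4) (nat_lit 0x20001f00004001a00080000000000000000000000000000000) (nat_lit 0x0) (nat_lit 0x1c000c0002000000010000000000000000000000000000000) := T_22 (nat_lit 175) (nat_lit 157) (nat_lit 0) (nat_lit 8) (nat_lit 10) L69492 (by decide +kernel)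
theorem L69494 : W_22 (nat_lit 5) (nat_lit 0x20001f00000001a00080000000000000000000000000000000) (nat_lit 0x0) (nat_lit 0x1c000c000e000000010000000000000000000000000000000) := T_22 (nat_lit 158) (nat_lit 159) (nat_lit 0) (nat_lit 9) (nat_lit 10) L69493 (by decide +kernel)
theorem L69495 : W_22 (nat_lit 6) (nat_lit 0x20001e00000001a00080000000000000000000000000000000) (nat_lit 0x0) (nat_lit 0x11c001c000e000000010000000000000000000000000000000) := T_22 (nat_lit 176) (nat_lit 196) (nat_lit 3) (nat_lit 6) (nat_lit 10) L69494 (by decide +kernel)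
theorem L69496 : W_22 (nat_lit 7) (nat_lit 0x1e00000001a00080000000000000000000000000000000) (nat_lit 0x0) (nat_lit 0x71c001c000e000000010000000000000000000000000000000) := T_22 (nat_lit 197) (nat_lit 198) (nat_lit 3) (nat_lit 7) (nat_lit 10) L69495 (by decide +kernel)
theorem L69497 : W_22 (nat_lit 11) (nat_lit 0xe00000001a00080000000000000000000000000000000) (nat_lit 0x0) (nat_lit 0x80004000fdc0f1c0fce004000710000000000000000000000000000000) := Q_22 (nat_lit 180) (C_22 L69434 (C_22 L69465 (C_22 L69472 (C_22 L69480 (C_22 L69487 (C_22 L69490 (C_22 L69496 N_22))))))) (by decide +kernel)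
theorem L69498 : W_22 (nat_lit 5) (nat_lit 0xe00010001a00080000000000000000000000000000000) (nat_lit 0x0) (nat_lit 0x700011001c8000000000000000000000000000000000000000) := T_22 (nat_lit 180) (nat_lit 159) (nat_lit 0) (nat_lit 10) (nat_lit 10) L69425 (by decide +kernel)
theorem L69499 : W_22 (nat_lit 6) (nat_lit 0xe00000001a00080000000000000000000000000000000) (nat_lit 0x0) (nat_lit 0x740011001d8000000000000000000000000000000000000000) := T_22 (nat_lit 160) (nat_lit 194) (nat_lit 6) (nat_lit 7) (nat_lit 11) L69498 (by decide +kernel)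
theorem L69500 : W_22 (nat_lit 2) (nat_lit 0x14000f80000001a00080000000000000000000000000000000) (nat_lit 0x0) (nat_lit 0xe000000000000000000000000000000000000000) := D_22 (nat_lit 158) (nat_lit 159) (nat_lit 157) (nat_lit 0) (nat_lit 9) (nat_lit 10) (nat_lit 0) (nat_lit 8) (nat_lit 10) (by decide +kernel)
theorem L69501 : W_22 (nat_lit 3) (nat_lit 0x14000f00000001a00080000000000000000000000000000000) (nat_lit 0x0) (nat_lit 0x800008000e000000000000000000000000000000000000000) := T_22 (nat_lit 175) (nat_lit 195) (nat_lit 3) (nat_lit 5) (nat_lit 10) L69500 (by decide +kernel)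
theorem L69502 : W_22 (nat_lit 4) (nat_lit 0x4000f00000001a00080000000000000000000000000000000) (nat_lit 0x0) (nat_lit 0x3800008000e000000000000000000000000000000000000000) := T_22 (nat_lit 196) (nat_lit 197) (nat_lit 3) (nat_lit 6) (nat_lit 10) L69501 (by decide +kernel)
theorem L69503 : W_22 (nat_lit 5) (nat_lit 0xf00000001a00080000000000000000000000000000000) (nat_lit 0x0) (nat_lit 0x3c00008001e000000000000000000000000000000000000000) := T_22 (nat_lit 194) (nat_lit 160) (nat_lit 6) (nat_lit 7) (nat_lit 11) L69502 (by decide +kernel)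
theorem L69504 : W_22 (nat_lit 2) (nat_lit 0x10800f80044001a00080000000000000000000000000000000) (nat_lit 0x0) (nat_lit 0x400040000000000010000000000000000000000000000000) := D_22 (nat_lit 174) (nat_lit 190) (nat_lit 124) (nat_lit 1) (nat_lit 7) (nat_lit 10) (nat_lit 5) (nat_lit 5) (nat_lit 7) (by decide +kernel)
theorem L69505 : W_22 (nat_lit 3) (nat_lit 0x10800f80040001a00080000000000000000000000000000000) (nat_lit 0x0) (nat_lit 0x400040006000000010000000000000000000000000000000) := T_22 (nat_lit 158) (nat_lit 157) (nat_lit 0) (nat_lit 8) (nat_lit 10) L69504 (by decide +kernel)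
theorem L69506 : W_22 (nat_lit 4) (nat_lit 0x10000f80040001a00080000000000000000000000000000000) (nat_lit 0x0) (nat_lit 0x1c00040006000000010000000000000000000000000000000) := T_22 (nat_lit 191) (nat_lit 192) (nat_lit 1) (nat_lit 8) (nat_lit 10) L69505 (by decide +kernel)
theorem L69507 : W_22 (nat_lit 5) (nat_lit 0x10000f00040001a00080000000000000000000000000000000) (nat_lit 0x0) (nat_lit 0x9c000c0006000000010000000000000000000000000000000) := T_22 (nat_lit 175) (nat_lit 195) (nat_lit 3) (nat_lit 5) (nat_lit 10) L69506 (by decide +kernel)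
theorem L69508 : W_22 (nat_lit 6) (nat_lit 0xf00040001a00080000000000000000000000000000000) (nat_lit 0x0) (nat_lit 0x39c000c0006000000010000000000000000000000000000000) := T_22 (nat_lit 196) (nat_lit 197) (nat_lit 3) (nat_lit 6) (nat_lit 10) L69507 (by decide +kernel)
theorem L69509 : W_22 (nat_lit 7) (nat_lit 0xf00000001a00080000000000000000000000000000000) (nat_lit 0x0) (nat_lit 0x39c000c00c6000000010000000000000000000000000000000) := T_22 (nat_lit 162) (nat_lit 163) (nat_lit 2) (nat_lit 6) (nat_lit 10) L69508 (by decide +kernel)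
theorem L69510 : W_22 (nat_lit 2) (nat_lit 0x4800f80044001a00080000000000000000000000000000000) (nat_lit 0x0) (nat_lit 0x8400040000000000000000000000000000000000000000000) := D_22 (nat_lit 174) (nat_lit 195) (nat_lit 190) (nat_lit 3) (nat_lit 4) (nat_lit 10) (nat_lit 1) (nat_lit 7) (nat_lit 10) (by decide +kernel)
theorem L69511 : W_22 (nat_lit 3) (nat_lit 0x4000f80044001a00080000000000000000000000000000000) (nat_lit 0x0) (nat_lit 0x9c00040000000000000000000000000000000000000000000) := T_22 (nat_lit 191) (nat_lit 192) (nat_lit 1) (nat_lit 8) (nat_lit 10) L69510 (by decide +kernel)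
theorem L69512 : W_22 (nat_lit 4) (nat_lit 0x4000f00044001a00080000000000000000000000000000000) (nat_lit 0x0) (nat_lit 0x9c000c0002000000000000000000000000000000000000000) := T_22 (nat_lit 175) (nat_lit 157) (nat_lit 0) (nat_lit 8) (nat_lit 10) L69511 (by decide +kernel)
theorem L69513 : W_22 (nat_lit 5) (nat_lit 0x4000f00040001a00080000000000000000000000000000000) (nat_lit 0x0) (nat_lit 0x9c000c000e000000000000000000000000000000000000000) := T_22 (nat_lit 158) (nat_lit 159) (nat_lit 0) (nat_lit 9) (nat_lit 10) L69512 (by decide +kernel)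
theorem L69514 : W_22 (nat_lit 6) (nat_lit 0x4000f00000001a00080000000000000000000000000000000) (nat_lit 0x0) (nat_lit 0x9c000c00ce000000000000000000000000000000000000000) := T_22 (nat_lit 162) (nat_lit 163) (nat_lit 2) (nat_lit 6) (nat_lit 10) L69513 (by decide +kernel)
theorem L69515 : W_22 (nat_lit 7) (nat_lit 0xf00000001a00080000000000000000000000000000000) (nat_lit 0x0) (nat_lit 0xdc000c00de000000000000000000000000000000000000000) := T_22 (nat_lit 194) (nat_lit 160) (nat_lit 6) (nat_lit 7) (nat_lit 11) L69514 (by decide +kernel)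
theorem L69516 : W_22 (nat_lit 2) (nat_lit 0x10800fc0011001a00080000000000000000000000000000000) (nat_lit 0x0) (nat_lit 0x20008800000000000000000000000000000000000000) := D_22 (nat_lit 173) (nat_lit 159) (nat_lit 155) (nat_lit 2) (nat_lit 3) (nat_lit 10) (nat_lit 0) (nat_lit 6) (nat_lit 10) (by decide +kernel)
theorem L69517 : W_22 (nat_lit 3) (nat_lit 0x10800fc0010001a00080000000000000000000000000000000) (nat_lit 0x0) (nat_lit 0x2000b800000000000000000000000000000000000000) := T_22 (nat_lit 156) (nat_lit 157) (nat_lit 0) (nat_lit 7) (nat_lit 10) L69516 (by decide +kernel)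
theorem L69518 : W_22 (nat_lit 4) (nat_lit 0x10800f80010001a00080000000000000000000000000000000) (nat_lit 0x0) (nat_lit 0x40006000b800000000000000000000000000000000000000) := T_22 (nat_lit 174) (nat_lit 190) (nat_lit 1) (nat_lit 7) (nat_lit 10) L69517 (by decide +kernel)
theorem L69519 : W_22 (nat_lit 5) (nat_lit 0x10800f80000001a00080000000000000000000000000000000) (nat_lit 0x0) (nat_lit 0x440006001b800000000000000000000000000000000000000) := T_22 (nat_lit 160) (nat_lit 194) (nat_lit 6) (nat_lit 7) (nat_lit 11) L69518 (by decide +kernel)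
theorem L69520 : W_22 (nat_lit 6) (nat_lit 0x10000f80000001a00080000000000000000000000000000000) (nat_lit 0x0) (nat_lit 0x5c0006001b800000000000000000000000000000000000000) := T_22 (nat_lit 191) (nat_lit 192) (nat_lit 1) (nat_lit 8) (nat_lit 10) L69519 (by decide +kernel)
theorem L69521 : W_22 (nat_lit 7) (nat_lit 0x10000f00000001a00080000000000000000000000000000000) (nat_lit 0x0) (nat_lit 0xdc000e001b800000000000000000000000000000000000000) := T_22 (nat_lit 175) (nat_lit 195) (nat_lit 3) (nat_lit 5) (nat_lit 10) L69520 (by decide +kernel)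
theorem L69522 : W_22 (nat_lit 8) (nat_lit 0xf00000001a00080000000000000000000000000000000) (nat_lit 0x0) (nat_lit 0x3dc000e001b800000000000000000000000000000000000000) := T_22 (nat_lit 196) (nat_lit 197) (nat_lit 3) (nat_lit 6) (nat_lit 10) L69521 (by decide +kernel)
theorem L69523 : W_22 (nat_lit 2) (nat_lit 0x14800f80044001a00080000000000000000000000000000000) (nat_lit 0x0) (nat_lit 0x400040000000000010000000000000000000000000000000) := D_22 (nat_lit 174) (nat_lit 190) (nat_lit 124) (nat_lit 1) (nat_lit 7) (nat_lit 10) (nat_lit 5) (nat_lit 5) (nat_lit 7) (by decide +kernel)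
theorem L69524 : W_22 (nat_lit 3) (nat_lit 0x14000f80044001a00080000000000000000000000000000000) (nat_lit 0x0) (nat_lit 0x1c00040000000000010000000000000000000000000000000) := T_22 (nat_lit 191) (nat_lit 192) (nat_lit 1) (nat_lit 8) (nat_lit 10) L69523 (by decide +kernel)
theorem L69525 : W_22 (nat_lit 4) (nat_lit 0x14000f80004001a00080000000000000000000000000000000) (nat_lit 0x0) (nat_lit 0x1c000400c0000000010000000000000000000000000000000) := T_22 (nat_lit 162) (nat_lit 163) (nat_lit 2) (nat_lit 6) (nat_lit 10) L69524 (by decide +kernel)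
theorem L69526 : W_22 (nat_lit 5) (nat_lit 0x14000f00004001a00080000000000000000000000000000000) (nat_lit 0x0) (nat_lit 0x1c000c00c2000000010000000000000000000000000000000) := T_22 (nat_lit 175) (nat_lit 157) (nat_lit 0) (nat_lit 8) (nat_lit 10) L69525 (by decide +kernel)
theorem L69527 : W_22 (nat_lit 6) (nat_lit 0x4000f00004001a00080000000000000000000000000000000) (nat_lit 0x0) (nat_lit 0x31c000c00c2000000010000000000000000000000000000000) := T_22 (nat_lit 196) (nat_lit 197) (nat_lit 3) (nat_lit 6) (nat_lit 10) L69526 (by decide +kernel)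
theorem L69528 : W_22 (nat_lit 7) (nat_lit 0x4000f00000001a00080000000000000000000000000000000) (nat_lit 0x0) (nat_lit 0x31c000c00ce000000010000000000000000000000000000000) := T_22 (nat_lit 158) (nat_lit 159) (nat_lit 0) (nat_lit 9) (nat_lit 10) L69527 (by decide +kernel)
theorem L69529 : W_22 (nat_lit 8) (nat_lit 0xf00000001a00080000000000000000000000000000000) (nat_lit 0x0) (nat_lit 0x35c000c00de000000010000000000000000000000000000000) := T_22 (nat_lit 194) (nat_lit 160) (nat_lit 6) (nat_lit 7) (nat_lit 11) L69528 (by decide +kernel)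
theorem L69530 : W_22 (nat_lit 2) (nat_lit 0x10000f00018001a00080000000000000000000000000000000) (nat_lit 0x0) (nat_lit 0x8000000000000000040002000000000000000000000000000) := D_22 (nat_lit 126) (nat_lit 195) (nat_lit 109) (nat_lit 7) (nat_lit 7) (nat_lit 7) (nat_lit 5) (nat_lit 7) (nat_lit 6) (by decide +kernel)
theorem L69531 : W_22 (nat_lit 3) (nat_lit 0x10000f00010001a00080000000000000000000000000000000) (nat_lit 0x0) (nat_lit 0x800000000c000000040002000000000000000000000000000) := T_22 (nat_lit 159) (nat_lit 158) (nat_lit 0) (nat_lit 9) (nat_lit 10) L69530 (by decide +kernel)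
theorem L69532 : W_22 (nat_lit 4) (nat_lit 0x10000f00000001a00080000000000000000000000000000000) (nat_lit 0x0) (nat_lit 0xc00000001c000000040002000000000000000000000000000) := T_22 (nat_lit 160) (nat_lit 194) (nat_lit 6) (nat_lit 7) (nat_lit 11) L69531 (by decide +kernel)
theorem L69533 : W_22 (nat_lit 5) (nat_lit 0xf00000001a00080000000000000000000000000000000) (nat_lit 0x0) (nat_lit 0x3c00000001c000000040002000000000000000000000000000) := T_22 (nat_lit 196) (nat_lit 197) (nat_lit 3) (nat_lit 6) (nat_lit 10) L69532 (by decide +kernel)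
theorem L69534 : W_22 (nat_lit 9) (nat_lit 0xe00000001a00080000000000000000000000000000000) (nat_lit 0x0) (nat_lit 0x3dc001e00df800000050002000000000000000000000000000) := Q_22 (nat_lit 176) (C_22 L69503 (C_22 L69509 (C_22 L69515 (C_22 L69522 (C_22 L69529 (C_22 L69533 N_22)))))) (by decide +kernel)
theorem L69535 : W_22 (nat_lit 10) (nat_lit 0xe00010001a00080000000000000000000000000000000) (nat_lit 0x0) (nat_lit 0x2000100019c011c01ce000000050000000000000000000000000000000) := T_22 (nat_lit 180) (nat_lit 159) (nat_lit 0) (nat_lit 10) (nat_lit 10) L69445 (by decide +kernel)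
theorem L69536 : W_22 (nat_lit 11) (nat_lit 0xe00000001a00080000000000000000000000000000000) (nat_lit 0x0) (nat_lit 0x200010001dc011c01de000000050000000000000000000000000000000) := T_22 (nat_lit 160) (nat_lit 194) (nat_lit 6) (nat_lit 7) (nat_lit 11) L69535 (by decide +kernel)
theorem L69537 : W_22 (nat_lit 2) (nat_lit 0x2000000048003e00210001a00080000000000000000000000000000000) (nat_lit 0x0) (nat_lit 0x10004000400000000000000000000000000000000000000000) := D_22 (nat_lit 182) (nat_lit 196) (nat_lit 166) (nat_lit 1) (nat_lit 12) (nat_lit 10) (nat_lit 2) (nat_lit 9) (nat_lit 10) (by decide +kernel)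
theorem L69538 : W_22 (nat_lit 3) (nat_lit 0x2000000048003e00010001a00080000000000000000000000000000000) (nat_lit 0x0) (nat_lit 0x10004000700000000000000000000000000000000000000000) := T_22 (nat_lit 165) (nat_lit 164) (nat_lit 2) (nat_lit 8) (nat_lit 10) L69537 (by decide +kernel)
theorem L69539 : W_22 (nat_lit 4) (nat_lit 0x2000000048001e00010001a00080000000000000000000000000000000) (nat_lit 0x0) (nat_lit 0x90006000700000000000000000000000000000000000000000) := T_22 (nat_lit 181) (nat_lit 199) (nat_lit 3) (nat_lit 8) (nat_lit 10) L69538 (by decide +kernel)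
theorem L69540 : W_22 (nat_lit 5) (nat_lit 0x48001e00010001a00080000000000000000000000000000000) (nat_lit 0x0) (nat_lit 0x2000100090006000700000000000000000000000000000000000000000) := T_22 (nat_lit 229) (nat_lit 212) (nat_lit 4) (nat_lit 8) (nat_lit 13) L69539 (by decide +kernel)
theorem L69541 : W_22 (nat_lit 6) (nat_lit 0x8001e00010001a00080000000000000000000000000000000) (nat_lit 0x0) (nat_lit 0x20001000f0006000700000000000000000000000000000000000000000) := T_22 (nat_lit 198) (nat_lit 197) (nat_lit 3) (nat_lit 7) (nat_lit 10) L69540 (by decide +kernel)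
theorem L69542 : W_22 (nat_lit 7) (nat_lit 0x1e00010001a00080000000000000000000000000000000) (nat_lit 0x0) (nat_lit 0x20001000f8006000700000000040000000000000000000000000000000) := T_22 (nat_lit 195) (nat_lit 126) (nat_lit 7) (nat_lit 7) (nat_lit 7) L69541 (by decide +kernel)
theorem L69543 : W_22 (nat_lit 8) (nat_lit 0xe00010001a00080000000000000000000000000000000) (nat_lit 0x0) (nat_lit 0x20001000f8007000708000000040000000000000000000000000000000) := T_22 (nat_lit 180) (nat_lit 159) (nat_lit 0) (nat_lit 10) (nat_lit 10) L69542 (by decide +kernel)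
theorem L69544 : W_22 (nat_lit 9) (nat_lit 0xe00000001a00080000000000000000000000000000000) (nat_lit 0x0) (nat_lit 0x20001000fc007000718000000040000000000000000000000000000000) := T_22 (nat_lit 160) (nat_lit 194) (nat_lit 6) (nat_lit 7) (nat_lit 11) L69543 (by decide +kernel)
theorem L69545 : W_22 (nat_lit 12) (nat_lit 0x600000001a00080000000000000000000000000000000) (nat_lit 0x0) (nat_lit 0xa0005000fdc0f9e0fdf804000750002000000000000000000000000000) := Q_22 (nat_lit 179) (C_22 L69447 (C_22 L69449 (C_22 L69456 (C_22 L69497 (C_22 L69499 (C_22 L69534 (C_22 L69536 (C_22 L69544 N_22)))))))) (by decide +kernel)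
theorem L69546 : W_22 (nat_lit 2) (nat_lit 0xe00060001a00080000000000000000000000000000000) (nat_lit 0x0) (nat_lit 0x180080000000000000000000000000000000000000000) := D_22 (nat_lit 176) (nat_lit 163) (nat_lit 175) (nat_lit 2) (nat_lit 6) (nat_lit 10) (nat_lit 2) (nat_lit 5) (nat_lit 10) (by decide +kernel)
theorem L69547 : W_22 (nat_lit 3) (nat_lit 0x600060001a00080000000000000000000000000000000) (nat_lit 0x0) (nat_lit 0x10000980080000000000000000000000000000000000000000) := T_22 (nat_lit 179) (nat_lit 196) (nat_lit 7) (nat_lit 8) (nat_lit 7) L69546 (by decide +kernel)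
theorem L69551 : W_22 (nat_lit 5) (nat_lit 0xe000e0001a00180000000000000000000000000000000) (nat_lit 0x0) (nat_lit 0x300001800c000600010000000000000000000000000000) := T_22 (nat_lit 129) (nat_lit 130) (nat_lit 1) (nat_lit 11) (nat_lit 7) L69550 (by decide +kernel)
theorem L69552 : W_22 (nat_lit 6) (nat_lit 0xe000e0001a00080000000000000000000000000000000) (nat_lit 0x0) (nat_lit 0x300001800c000700018000000000000000000000000000) := T_22 (nat_lit 128) (nat_lit 111) (nat_lit 6) (nat_lit 8) (nat_lit 10) L69551 (by decide +kernel)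
theorem L69553 : W_22 (nat_lit 7) (nat_lit 0xe00060001a00080000000000000000000000000000000) (nat_lit 0x0) (nat_lit 0x300019800c000700018000000000000000000000000000) := T_22 (nat_lit 163) (nat_lit 164) (nat_lit 1) (nat_lit 11) (nat_lit 9) L69552 (by decide +kernel)
theorem L69554 : W_22 (nat_lit 8) (nat_lit 0x600060001a00080000000000000000000000000000000) (nat_lit 0x0) (nat_lit 0x1000380019800c000700018000000000000000000000000000) := T_22 (nat_lit 179) (nat_lit 196) (nat_lit 7) (nat_lit 8) (nat_lit 7) L69553 (by decide +kernel)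
theorem L69555 : W_22 (nat_lit 4) (nat_lit 0x600060001a00180000000000000000000000000000000) (nat_lit 0x0) (nat_lit 0x180190000000600000000000000000000000000000000) := T_22 (nat_lit 130) (nat_lit 129) (nat_lit 1) (nat_lit 11) (nat_lit 7) L1671 (by decide +kernel)
theorem L69556 : W_22 (nat_lit 5) (nat_lit 0x600060001a00080000000000000000000000000000000) (nat_lit 0x0) (nat_lit 0x180190000000700008000000000000000000000000000) := T_22 (nat_lit 128) (nat_lit 111) (nat_lit 6) (nat_lit 8) (nat_lit 10) L69555 (by decide +kernel)
theorem L69557 : W_22 (nat_lit 2) (nat_lit 0x3f00068001a00580000000000000000000000000000000) (nat_lit 0x0) (nat_lit 0xe0000000000000000000000000000000000000000000000000) := D_22 (nat_lit 198) (nat_lit 197) (nat_lit 199) (nat_lit 3) (nat_lit 7) (nat_lit 10) (nat_lit 3) (nat_lit 8) (nat_lit 10) (by decide +kernel)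
theorem L69558 : W_22 (nat_lit 3) (nat_lit 0x1f00068001a00580000000000000000000000000000000) (nat_lit 0x0) (nat_lit 0xe0006000000000000000000000000000000000000000000000) := T_22 (nat_lit 181) (nat_lit 182) (nat_lit 0) (nat_lit 12) (nat_lit 10) L69557 (by decide +kernel)
theorem L69559 : W_22 (nat_lit 4) (nat_lit 0xf00068001a00580000000000000000000000000000000) (nat_lit 0x0) (nat_lit 0xe0007000010000000000000000000000000000000000000000) := T_22 (nat_lit 180) (nat_lit 160) (nat_lit 3) (nat_lit 6) (nat_lit 9) L69558 (by decide +kernel)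
theorem L69560 : W_22 (nat_lit 5) (nat_lit 0xf00060001a00580000000000000000000000000000000) (nat_lit 0x0) (nat_lit 0xe000700001c000000000000000000000000000000000000000) := T_22 (nat_lit 159) (nat_lit 158) (nat_lit 0) (nat_lit 9) (nat_lit 10) L69559 (by decide +kernel)
theorem L69561 : W_22 (nat_lit 6) (nat_lit 0xf00060001a00180000000000000000000000000000000) (nat_lit 0x0) (nat_lit 0xe000700001c000000600000000000000000000000000000000) := T_22 (nat_lit 130) (nat_lit 129) (nat_lit 1) (nat_lit 11) (nat_lit 7) L69560 (by decide +kernel)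
theorem L69562 : W_22 (nat_lit 7) (nat_lit 0xf00060001a00080000000000000000000000000000000) (nat_lit 0x0) (nat_lit 0xe000700001c000000700008000000000000000000000000000) := T_22 (nat_lit 128) (nat_lit 111) (nat_lit 6) (nat_lit 8) (nat_lit 10) L69561 (by decide +kernel)
theorem L69563 : W_22 (nat_lit 8) (nat_lit 0xe00060001a00080000000000000000000000000000000) (nat_lit 0x0) (nat_lit 0xe000718001c000000700008000000000000000000000000000) := T_22 (nat_lit 176) (nat_lit 175) (nat_lit 2) (nat_lit 5) (nat_lit 10) L69562 (by decide +kernel)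
theorem L69564 : W_22 (nat_lit 9) (nat_lit 0x600060001a00080000000000000000000000000000000) (nat_lit 0x0) (nat_lit 0xf000798001c000000700008000000000000000000000000000) := T_22 (nat_lit 179) (nat_lit 196) (nat_lit 7) (nat_lit 8) (nat_lit 7) L69563 (by decide +kernel)
theorem L69565 : W_22 (nat_lit 10) (nat_lit 0x600020001a00080000000000000000000000000000000) (nat_lit 0x0) (nat_lit 0xf00079801dc00c000700018000000000000000000000000000) := Q_22 (nat_lit 162) (C_22 L69547 (C_22 L69554 (C_22 L69556 (C_22 L69564 N_22)))) (by decide +kernel)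
theorem L69566 : W_22 (nat_lit 11) (nat_lit 0x600000001a00080000000000000000000000000000000) (nat_lit 0x0) (nat_lit 0xf80079801fc00c00074001a000000000000000000000000000) := Q_22 (nat_lit 161) (C_22 L69421 (C_22 L69565 N_22)) (by decide +kernel)
theorem L69567 : W_22 (nat_lit 13) (nat_lit 0x200000001a00080000000000000000000000000000000) (nat_lit 0x0) (nat_lit 0xa0005000fdc0fde0fff80c00075001a000000000000000000000000000) := Q_22 (nat_lit 178) (C_22 L69420 (C_22 L69422 (C_22 L69545 (C_22 L69566 N_22)))) (by decide +kernel)
theorem L69568 : W_22 (nat_lit 14) (nat_lit 0x200000001200080000000000000000000000000000000) (nat_lit 0x0) (nat_lit 0xa0005000fdc0fde0fff80cd0075c01a000000000000000000000000000) := Q_22 (nat_lit 143) (C_22 L59833 (C_22 L69416 (C_22 L69419 (C_22 L69567 N_22)))) (by decide +kernel)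
theorem L69569 : W_22 (nat_lit 2) (nat_lit 0x600010001a000e0000000000000000000000000000000) (nat_lit 0x0) (nat_lit 0x100018000000000000000000000000000000) := D_22 (nat_lit 124) (nat_lit 123) (nat_lit 140) (nat_lit 3) (nat_lit 4) (nat_lit 7) (nat_lit 1) (nat_lit 8) (nat_lit 7) (by decide +kernel)
theorem L69570 : W_22 (nat_lit 3) (nat_lit 0x600010001a000c0000000000000000000000000000000) (nat_lit 0x0) (nat_lit 0x100038001000000000000000000000000000) := T_22 (nat_lit 125) (nat_lit 108) (nat_lit 4) (nat_lit 7) (nat_lit 10) L69569 (by decide +kernel)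
theorem L69571 : W_22 (nat_lit 4) (nat_lit 0x600010001a00080000000000000000000000000000000) (nat_lit 0x0) (nat_lit 0x8000000000000100078001000000000000000000000000000) := T_22 (nat_lit 126) (nat_lit 195) (nat_lit 7) (nat_lit 7) (nat_lit 7) L69570 (by decide +kernel)
theorem L69572 : W_22 (nat_lit 5) (nat_lit 0x600000001a00080000000000000000000000000000000) (nat_lit 0x0) (nat_lit 0xc000000010000100078001000000000000000000000000000) := T_22 (nat_lit 160) (nat_lit 194) (nat_lit 6) (nat_lit 7) (nat_lit 11) L69571 (by decide +kernel)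
theorem L69573 : W_22 (nat_lit 2) (nat_lit 0x8000600020001a00080000000000000000000000000000000) (nat_lit 0x0) (nat_lit 0x200010000800000000000000000000000000000000000000000000) := D_22 (nat_lit 196) (nat_lit 179) (nat_lit 213) (nat_lit 7) (nat_lit 8) (nat_lit 7) (nat_lit 7) (nat_lit 8) (nat_lit 8) (by decide +kernel)
theorem L69574 : W_22 (nat_lit 2) (nat_lit 0x5000100008000600020001a00580000000000000000000000000000000) (nat_lit 0x0) (nat_lit 0xa0002000000000000000000000000000000000000000000000000000000000) := D_22 (nat_lit 229) (nat_lit 245) (nat_lit 247) (nat_lit 5) (nat_lit 8) (nat_lit 10) (nat_lit 7) (nat_lit 8) (nat_lit 10) (by decide +kernel)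
theorem L69575 : W_22 (nat_lit 3) (nat_lit 0x1000100008000600020001a00580000000000000000000000000000000) (nat_lit 0x0) (nat_lit 0xa0006000200000000000000000000000000000000000000000000000000000) := T_22 (nat_lit 230) (nat_lit 213) (nat_lit 7) (nat_lit 8) (nat_lit 9) L69574 (by decide +kernel)
theorem L69576 : W_22 (nat_lit 4) (nat_lit 0x100008000600020001a00580000000000000000000000000000000) (nat_lit 0x0) (nat_lit 0xa0007000280000000000000000000000000000000000000000000000000000) := T_22 (nat_lit 228) (nat_lit 211) (nat_lit 5) (nat_lit 8) (nat_lit 9) L69575 (by decide +kernel)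
theorem L69577 : W_22 (nat_lit 5) (nat_lit 0x100008000600020001a00180000000000000000000000000000000) (nat_lit 0x0) (nat_lit 0xa0007000280000000000000000000600000000000000000000000000000000) := T_22 (nat_lit 130) (nat_lit 129) (nat_lit 1) (nat_lit 11) (nat_lit 7) L69576 (by decide +kernel)
theorem L69578 : W_22 (nat_lit 6) (nat_lit 0x100008000600020001a00080000000000000000000000000000000) (nat_lit 0x0) (nat_lit 0xa0007000280000000000000000000700008000000000000000000000000000) := T_22 (nat_lit 128) (nat_lit 111) (nat_lit 6) (nat_lit 8) (nat_lit 10) L69577 (by decide +kernel)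
theorem L69579 : W_22 (nat_lit 7) (nat_lit 0x8000600020001a00080000000000000000000000000000000) (nat_lit 0x0) (nat_lit 0xa0007000380000000000010000000700008000000000000000000000000000) := T_22 (nat_lit 212) (nat_lit 160) (nat_lit 4) (nat_lit 8) (nat_lit 12) L69578 (by decide +kernel)
theorem L69580 : W_22 (nat_lit 2) (nat_lit 0x2000100008000e00020001a00080000000000000000000000000000000) (nat_lit 0x0) (nat_lit 0x20001000080000000000000000000000000000000000000000000000000000) := D_22 (nat_lit 228) (nat_lit 245) (nat_lit 211) (nat_lit 5) (nat_lit 8) (nat_lit 10) (nat_lit 5) (nat_lit 8) (nat_lit 9) (by decide +kernel)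
theorem L69581 : W_22 (nat_lit 3) (nat_lit 0x100008000e00020001a00080000000000000000000000000000000) (nat_lit 0x0) (nat_lit 0x20003000080000000000040000000000000000000000000000000000000000) := T_22 (nat_lit 229) (nat_lit 162) (nat_lit 6) (nat_lit 8) (nat_lit 13) L69580 (by decide +kernel)
theorem L69582 : W_22 (nat_lit 4) (nat_lit 0x100008000600020001a00080000000000000000000000000000000) (nat_lit 0x0) (nat_lit 0x20003000080010000800040000000000000000000000000000000000000000) := T_22 (nat_lit 179) (nat_lit 196) (nat_lit 7) (nat_lit 8) (nat_lit 7) L69581 (by decide +kernel)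
theorem L69583 : W_22 (nat_lit 5) (nat_lit 0x8000600020001a00080000000000000000000000000000000) (nat_lit 0x0) (nat_lit 0x20003000180010000800050000000000000000000000000000000000000000) := T_22 (nat_lit 212) (nat_lit 160) (nat_lit 4) (nat_lit 8) (nat_lit 12) L69582 (by decide +kernel)
theorem L69584 : W_22 (nat_lit 8) (nat_lit 0x600020001a00080000000000000000000000000000000) (nat_lit 0x0) (nat_lit 0xa0007000380018000800050000000700008000000000000000000000000000) := Q_22 (nat_lit 195) (C_22 L69573 (C_22 L69579 (C_22 L69583 N_22))) (by decide +kernel)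
theorem L69585 : W_22 (nat_lit 4) (nat_lit 0xe00020001a003c0010000000000000000000000000000) (nat_lit 0x0) (nat_lit 0x30001c000c000000000000000000000000000000000000) := T_22 (nat_lit 146) (nat_lit 147) (nat_lit 3) (nat_lit 7) (nat_lit 7) L961 (by decide +kernel)
theorem L69586 : W_22 (nat_lit 5) (nat_lit 0xe00020001a003c0000000000000000000000000000000) (nat_lit 0x0) (nat_lit 0x30001c000c000000030000000000000000000000000000) := T_22 (nat_lit 112) (nat_lit 113) (nat_lit 2) (nat_lit 7) (nat_lit 7) L69585 (by decide +kernel)
theorem L69587 : W_22 (nat_lit 6) (nat_lit 0xe00020001a001c0000000000000000000000000000000) (nat_lit 0x0) (nat_lit 0x30001c000c000600030000000000000000000000000000) := T_22 (nat_lit 129) (nat_lit 130) (nat_lit 1) (nat_lit 11) (nat_lit 7) L69586 (by decide +kernel)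
theorem L69588 : W_22 (nat_lit 7) (nat_lit 0xe00020001a000c0000000000000000000000000000000) (nat_lit 0x0) (nat_lit 0x30001c000c000700038000000000000000000000000000) := T_22 (nat_lit 128) (nat_lit 111) (nat_lit 6) (nat_lit 8) (nat_lit 10) L69587 (by decide +kernel)
theorem L69589 : W_22 (nat_lit 8) (nat_lit 0xe00020001a00080000000000000000000000000000000) (nat_lit 0x0) (nat_lit 0x30001c000c00074003a000000000000000000000000000) := T_22 (nat_lit 126) (nat_lit 109) (nat_lit 4) (nat_lit 8) (nat_lit 10) L69588 (by decide +kernel)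
theorem L69590 : W_22 (nat_lit 9) (nat_lit 0x600020001a00080000000000000000000000000000000) (nat_lit 0x0) (nat_lit 0x100038001c000c00074003a000000000000000000000000000) := T_22 (nat_lit 179) (nat_lit 196) (nat_lit 7) (nat_lit 8) (nat_lit 7) L69589 (by decide +kernel)
theorem L69591 : W_22 (nat_lit 10) (nat_lit 0x600000001a00080000000000000000000000000000000) (nat_lit 0x0) (nat_lit 0xa00070003800180038001f000c00074003a000000000000000000000000000) := Q_22 (nat_lit 161) (C_22 L69421 (C_22 L69584 (C_22 L69590 N_22))) (by decide +kernel)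
theorem L69592 : W_22 (nat_lit 11) (nat_lit 0x200000001a00080000000000000000000000000000000) (nat_lit 0x0) (nat_lit 0xa000700038001c003c001f000c10077803b000000000000000000000000000) := Q_22 (nat_lit 178) (C_22 L69422 (C_22 L69420 (C_22 L69572 (C_22 L69591 N_22)))) (by decide +kernel)
theorem L69593 : W_22 (nat_lit 12) (nat_lit 0x200000001200080000000000000000000000000000000) (nat_lit 0x0) (nat_lit 0xa000700038001c003c001f700cd0077c03b000000000000000000000000000) := Q_22 (nat_lit 143) (C_22 L69419 (C_22 L69416 (C_22 L59833 (C_22 L69592 N_22)))) (by decide +kernel)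
theorem L69594 : W_22 (nat_lit 2) (nat_lit 0x4000200020001200080000000000000000000000000000000) (nat_lit 0x0) (nat_lit 0x80000000000010000800000000000000000000000000000000000) := D_22 (nat_lit 160) (nat_lit 143) (nat_lit 211) (nat_lit 6) (nat_lit 7) (nat_lit 11) (nat_lit 6) (nat_lit 7) (nat_lit 12) (by decide +kernel)
theorem L69595 : W_22 (nat_lit 3) (nat_lit 0x4000200000001200080000000000000000000000000000000) (nat_lit 0x0) (nat_lit 0x80000000400030000800000000000000000000000000000000000) := T_22 (nat_lit 161) (nat_lit 178) (nat_lit 5) (nat_lit 8) (nat_lit 7) L69594 (by decide +kernel)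
theorem L69596 : W_22 (nat_lit 4) (nat_lit 0x4000200020001600080000000000000000000000000000000) (nat_lit 0x0) (nat_lit 0x47000900040000000000000000000000000000000) := T_22 (nat_lit 143) (nat_lit 162) (nat_lit 3) (nat_lit 5) (nat_lit 8) L66074 (by decide +kernel)
theorem L69597 : W_22 (nat_lit 5) (nat_lit 0x4000200000001600080000000000000000000000000000000) (nat_lit 0x0) (nat_lit 0x400067000900040000000000000000000000000000000) := T_22 (nat_lit 161) (nat_lit 178) (nat_lit 5) (nat_lit 8) (nat_lit 7) L69596 (by decide +kernel)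
theorem L69598 : W_22 (nat_lit 2) (nat_lit 0x4000200022001e00088000000000000000000000000000000) (nat_lit 0x0) (nat_lit 0x1000100004000000000000000000000000000000) := D_22 (nat_lit 140) (nat_lit 156) (nat_lit 122) (nat_lit 1) (nat_lit 7) (nat_lit 8) (nat_lit 0) (nat_lit 7) (nat_lit 8) (by decide +kernel)
theorem L69599 : W_22 (nat_lit 3) (nat_lit 0x4000200022001e00080000000000000000000000000000000) (nat_lit 0x0) (nat_lit 0x100010001c000000000000000000000000000000) := T_22 (nat_lit 123) (nat_lit 124) (nat_lit 0) (nat_lit 8) (nat_lit 8) L69598 (by decide +kernel)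
theorem L69600 : W_22 (nat_lit 4) (nat_lit 0x4000200020001e00080000000000000000000000000000000) (nat_lit 0x0) (nat_lit 0x700010001c000000000000000000000000000000) := T_22 (nat_lit 157) (nat_lit 158) (nat_lit 1) (nat_lit 8) (nat_lit 8) L69599 (by decide +kernel)
theorem L69601 : W_22 (nat_lit 5) (nat_lit 0x4000200020001600080000000000000000000000000000000) (nat_lit 0x0) (nat_lit 0x4700090001c000000000000000000000000000000) := T_22 (nat_lit 143) (nat_lit 162) (nat_lit 3) (nat_lit 5) (nat_lit 8) L69600 (by decide +kernel)
theorem L69602 : W_22 (nat_lit 6) (nat_lit 0x4000200000001600080000000000000000000000000000000) (nat_lit 0x0) (nat_lit 0x40006700090001c000000000000000000000000000000) := T_22 (nat_lit 161) (nat_lit 178) (nat_lit 5) (nat_lit 8) (nat_lit 7) L69601 (by decide +kernel)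
theorem L69603 : W_22 (nat_lit 4) (nat_lit 0x4000200000001e00080000000000000000000000000000000) (nat_lit 0x0) (nat_lit 0x7000100058000000000000000000000000000000) := T_22 (nat_lit 124) (nat_lit 123) (nat_lit 0) (nat_lit 8) (nat_lit 8) L32794 (by decide +kernel)
theorem L69604 : W_22 (nat_lit 2) (nat_lit 0x4000200002001e00088000000000000000000000000000000) (nat_lit 0x0) (nat_lit 0x1000100004000000000000000000000000000000) := D_22 (nat_lit 140) (nat_lit 156) (nat_lit 122) (nat_lit 1) (nat_lit 7) (nat_lit 8) (nat_lit 0) (nat_lit 7) (nat_lit 8) (by decide +kernel)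
theorem L69605 : W_22 (nat_lit 3) (nat_lit 0x4000200002001e00080000000000000000000000000000000) (nat_lit 0x0) (nat_lit 0x100010001c000000000000000000000000000000) := T_22 (nat_lit 123) (nat_lit 124) (nat_lit 0) (nat_lit 8) (nat_lit 8) L69604 (by decide +kernel)
theorem L69606 : W_22 (nat_lit 4) (nat_lit 0x4000200000001e00080000000000000000000000000000000) (nat_lit 0x0) (nat_lit 0x700010001c000000000000000000000000000000) := T_22 (nat_lit 157) (nat_lit 158) (nat_lit 1) (nat_lit 8) (nat_lit 8) L69605 (by decide +kernel)
theorem L69607 : W_22 (nat_lit 8) (nat_lit 0x4000200000001e00080000000000000000000000000000000) (nat_lit 0x0) (nat_lit 0x638001c007f000000000000000000000000000000) := T_22 (nat_lit 124) (nat_lit 123) (nat_lit 0) (nat_lit 8) (nat_lit 8) L32340 (by decide +kernel)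
theorem L69608 : W_22 (nat_lit 4) (nat_lit 0x4000200000001e00080000000000000000000000000000000) (nat_lit 0x0) (nat_lit 0x67000100040000000000000000000000000000000) := T_22 (nat_lit 161) (nat_lit 162) (nat_lit 3) (nat_lit 5) (nat_lit 8) L66074 (by decide +kernel)
theorem L69609 : W_22 (nat_lit 2) (nat_lit 0x4000200000001e00088000000000000000000000000000000) (nat_lit 0x0) (nat_lit 0x100044000000000000000000000000000000) := D_22 (nat_lit 140) (nat_lit 126) (nat_lit 122) (nat_lit 2) (nat_lit 4) (nat_lit 8) (nat_lit 0) (nat_lit 7) (nat_lit 8) (by decide +kernel)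
theorem L69610 : W_22 (nat_lit 3) (nat_lit 0x4000200000001e00080000000000000000000000000000000) (nat_lit 0x0) (nat_lit 0x10005c000000000000000000000000000000) := T_22 (nat_lit 123) (nat_lit 124) (nat_lit 0) (nat_lit 8) (nat_lit 8) L69609 (by decide +kernel)
theorem L69611 : W_22 (nat_lit 2) (nat_lit 0x400020000c001e000a0000000000000000000000000000000) (nat_lit 0x0) (nat_lit 0x80000000000000001000080000000000000000000000) := D_22 (nat_lit 108) (nat_lit 175) (nat_lit 91) (nat_lit 5) (nat_lit 6) (nat_lit 6) (nat_lit 5) (nat_lit 6) (nat_lit 5) (by decide +kernel)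
theorem L69612 : W_22 (nat_lit 3) (nat_lit 0x4000200004001e000a0000000000000000000000000000000) (nat_lit 0x0) (nat_lit 0x180008000000000001000080000000000000000000000) := T_22 (nat_lit 159) (nat_lit 176) (nat_lit 7) (nat_lit 6) (nat_lit 7) L69611 (by decide +kernel)
theorem L69613 : W_22 (nat_lit 4) (nat_lit 0x4000200000001e000a0000000000000000000000000000000) (nat_lit 0x0) (nat_lit 0x18000e000000000001000080000000000000000000000) := T_22 (nat_lit 158) (nat_lit 157) (nat_lit 1) (nat_lit 8) (nat_lit 8) L69612 (by decide +kernel)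
theorem L69614 : W_22 (nat_lit 2) (nat_lit 0x4000200004001e000b0000000000000000000000000000000) (nat_lit 0x0) (nat_lit 0x1000080000000000000001000000000000000000000000000) := D_22 (nat_lit 175) (nat_lit 192) (nat_lit 108) (nat_lit 6) (nat_lit 5) (nat_lit 11) (nat_lit 6) (nat_lit 5) (nat_lit 10) (by decide +kernel)
theorem L69615 : W_22 (nat_lit 3) (nat_lit 0x4000200004001e000a0000000000000000000000000000000) (nat_lit 0x0) (nat_lit 0x1000080000000000018001000000000000000000000000000) := T_22 (nat_lit 124) (nat_lit 123) (nat_lit 0) (nat_lit 8) (nat_lit 8) L69614 (by decide +kernel)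
theorem L69616 : W_22 (nat_lit 4) (nat_lit 0x4000200000001e000a0000000000000000000000000000000) (nat_lit 0x0) (nat_lit 0x1000080006000000018001000000000000000000000000000) := T_22 (nat_lit 158) (nat_lit 157) (nat_lit 1) (nat_lit 8) (nat_lit 8) L69615 (by decide +kernel)
theorem L69617 : W_22 (nat_lit 2) (nat_lit 0x4000200008001e000a4003c00010000000000000000000000) (nat_lit 0x0) (nat_lit 0x2000200008000000000000000000000) := D_22 (nat_lit 105) (nat_lit 121) (nat_lit 87) (nat_lit 1) (nat_lit 6) (nat_lit 6) (nat_lit 0) (nat_lit 6) (nat_lit 6) (by decide +kernel)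
theorem L69618 : W_22 (nat_lit 3) (nat_lit 0x4000200008001e000a4003c00000000000000000000000000) (nat_lit 0x0) (nat_lit 0x2000200038000000000000000000000) := T_22 (nat_lit 88) (nat_lit 89) (nat_lit 0) (nat_lit 7) (nat_lit 6) L69617 (by decide +kernel)
theorem L69619 : W_22 (nat_lit 4) (nat_lit 0x4000200008001e000a0003c00000000000000000000000000) (nat_lit 0x0) (nat_lit 0xe000200038000000000000000000000) := T_22 (nat_lit 122) (nat_lit 123) (nat_lit 1) (nat_lit 7) (nat_lit 6) L69618 (by decide +kernel)
theorem L69620 : W_22 (nat_lit 5) (nat_lit 0x4000200008001e000a0003800000000000000000000000000) (nat_lit 0x0) (nat_lit 0x4e000600038000000000000000000000) := T_22 (nat_lit 106) (nat_lit 126) (nat_lit 3) (nat_lit 4) (nat_lit 6) L69619 (by decide +kernel)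
theorem L69621 : W_22 (nat_lit 6) (nat_lit 0x4000200008001e000a0003000000000000000000000000000) (nat_lit 0x0) (nat_lit 0x4e000e00078000000000000000000000) := T_22 (nat_lit 107) (nat_lit 90) (nat_lit 4) (nat_lit 6) (nat_lit 9) L69620 (by decide +kernel)
theorem L69622 : W_22 (nat_lit 7) (nat_lit 0x4000200008001e000a0001000000000000000000000000000) (nat_lit 0x0) (nat_lit 0x4e002e00178000000000000000000000) := T_22 (nat_lit 109) (nat_lit 92) (nat_lit 6) (nat_lit 6) (nat_lit 9) L69621 (by decide +kernel)
theorem L69623 : W_22 (nat_lit 8) (nat_lit 0x4000200000001e000a0001000000000000000000000000000) (nat_lit 0x0) (nat_lit 0x10000800000004e002e00178000000000000000000000) := T_22 (nat_lit 159) (nat_lit 176) (nat_lit 7) (nat_lit 6) (nat_lit 7) L69622 (by decide +kernel)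
theorem L69624 : W_22 (nat_lit 2) (nat_lit 0x4000200020001e000b00030001e0000000000000000000000) (nat_lit 0x0) (nat_lit 0x800000001800000000000000000) := D_22 (nat_lit 72) (nat_lit 71) (nat_lit 107) (nat_lit 0) (nat_lit 7) (nat_lit 5) (nat_lit 4) (nat_lit 5) (nat_lit 8) (by decide +kernel)
theorem L69625 : W_22 (nat_lit 3) (nat_lit 0x4000200020001e000b00030001c0000000000000000000000) (nat_lit 0x0) (nat_lit 0x800030001800000000000000000) := T_22 (nat_lit 89) (nat_lit 88) (nat_lit 3) (nat_lit 3) (nat_lit 5) L69624 (by decide +kernel)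
theorem L69626 : W_22 (nat_lit 4) (nat_lit 0x4000200020001e000b00010001c0000000000000000000000) (nat_lit 0x0) (nat_lit 0x40002800030001800000000000000000) := T_22 (nat_lit 109) (nat_lit 126) (nat_lit 7) (nat_lit 7) (nat_lit 5) L69625 (by decide +kernel)
theorem L69627 : W_22 (nat_lit 5) (nat_lit 0x4000200020001e000b00010000c0000000000000000000000) (nat_lit 0x0) (nat_lit 0x40002800130009800000000000000000) := T_22 (nat_lit 92) (nat_lit 75) (nat_lit 6) (nat_lit 6) (nat_lit 8) L69626 (by decide +kernel)
theorem L69628 : W_22 (nat_lit 6) (nat_lit 0x4000200020001e000b0001000080000000000000000000000) (nat_lit 0x0) (nat_lit 0x4000280017000b800000000000000000) := T_22 (nat_lit 90) (nat_lit 73) (nat_lit 4) (nat_lit 6) (nat_lit 8) L69627 (by decide +kernel)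
theorem L69629 : W_22 (nat_lit 7) (nat_lit 0x4000200020001e000b0001000000000000000000000000000) (nat_lit 0x0) (nat_lit 0x400028001f000f800000000000000000) := T_22 (nat_lit 91) (nat_lit 74) (nat_lit 5) (nat_lit 6) (nat_lit 4) L69628 (by decide +kernel)
theorem L69630 : W_22 (nat_lit 8) (nat_lit 0x4000200020001e000a0001000000000000000000000000000) (nat_lit 0x0) (nat_lit 0x580028001f000f800000000000000000) := T_22 (nat_lit 124) (nat_lit 123) (nat_lit 0) (nat_lit 8) (nat_lit 8) L69629 (by decide +kernel)
theorem L69631 : W_22 (nat_lit 9) (nat_lit 0x4000200000001e000a0001000000000000000000000000000) (nat_lit 0x0) (nat_lit 0x600000000580028001f000f800000000000000000) := T_22 (nat_lit 161) (nat_lit 162) (nat_lit 3) (nat_lit 5) (nat_lit 8) L69630 (by decide +kernel)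
theorem L69632 : W_22 (nat_lit 2) (nat_lit 0x4000200008001e000b0001000040000000000000000000000) (nat_lit 0x0) (nat_lit 0x80006000000000000000000) := D_22 (nat_lit 91) (nat_lit 74) (nat_lit 73) (nat_lit 5) (nat_lit 6) (nat_lit 4) (nat_lit 4) (nat_lit 6) (nat_lit 8) (by decide +kernel)
theorem L69633 : W_22 (nat_lit 3) (nat_lit 0x4000200008001e000b0001000000000000000000000000000) (nat_lit 0x0) (nat_lit 0x8000c0006000000000000000000) := T_22 (nat_lit 90) (nat_lit 107) (nat_lit 7) (nat_lit 5) (nat_lit 5) L69632 (by decide +kernel)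
theorem L69634 : W_22 (nat_lit 4) (nat_lit 0x4000200000001e000b0001000000000000000000000000000) (nat_lit 0x0) (nat_lit 0x1000080000000000008000c0006000000000000000000) := T_22 (nat_lit 159) (nat_lit 176) (nat_lit 7) (nat_lit 6) (nat_lit 7) L69633 (by decide +kernel)
theorem L69635 : W_22 (nat_lit 5) (nat_lit 0x4000200000001e000a0001000000000000000000000000000) (nat_lit 0x0) (nat_lit 0x1000080000000180008000c0006000000000000000000) := T_22 (nat_lit 124) (nat_lit 123) (nat_lit 0) (nat_lit 8) (nat_lit 8) L69634 (by decide +kernel)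
theorem L69636 : W_22 (nat_lit 2) (nat_lit 0x4000200008001e000b0001000100000000000000000000000) (nat_lit 0x0) (nat_lit 0x8000c000000000000000000) := D_22 (nat_lit 91) (nat_lit 74) (nat_lit 75) (nat_lit 5) (nat_lit 6) (nat_lit 4) (nat_lit 6) (nat_lit 6) (nat_lit 8) (by decide +kernel)
theorem L69637 : W_22 (nat_lit 3) (nat_lit 0x4000200008001e000b0001000000000000000000000000000) (nat_lit 0x0) (nat_lit 0x200018000c000000000000000000) := T_22 (nat_lit 92) (nat_lit 109) (nat_lit 6) (nat_lit 6) (nat_lit 9) L69636 (by decide +kernel)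
theorem L69638 : W_22 (nat_lit 4) (nat_lit 0x4000200000001e000b0001000000000000000000000000000) (nat_lit 0x0) (nat_lit 0x10000800000000000200018000c000000000000000000) := T_22 (nat_lit 159) (nat_lit 176) (nat_lit 7) (nat_lit 6) (nat_lit 7) L69637 (by decide +kernel)
theorem L69639 : W_22 (nat_lit 5) (nat_lit 0x4000200000001e000a0001000000000000000000000000000) (nat_lit 0x0) (nat_lit 0x10000800000001800200018000c000000000000000000) := T_22 (nat_lit 124) (nat_lit 123) (nat_lit 0) (nat_lit 8) (nat_lit 8) L69638 (by decide +kernel)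
theorem L69640 : W_22 (nat_lit 2) (nat_lit 0x4000200028001e000a2003e00010000000000000000000000) (nat_lit 0x0) (nat_lit 0x11000100000000000000000000000000) := D_22 (nat_lit 104) (nat_lit 124) (nat_lit 120) (nat_lit 3) (nat_lit 2) (nat_lit 6) (nat_lit 1) (nat_lit 5) (nat_lit 6) (by decide +kernel)
theorem L69641 : W_22 (nat_lit 3) (nat_lit 0x4000200028001e000a0003e00010000000000000000000000) (nat_lit 0x0) (nat_lit 0x17000100000000000000000000000000) := T_22 (nat_lit 121) (nat_lit 122) (nat_lit 1) (nat_lit 6) (nat_lit 6) L69640 (by decide +kernel)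
theorem L69642 : W_22 (nat_lit 4) (nat_lit 0x4000200028001e000a0003c00010000000000000000000000) (nat_lit 0x0) (nat_lit 0x17000300008000000000000000000000) := T_22 (nat_lit 105) (nat_lit 87) (nat_lit 0) (nat_lit 6) (nat_lit 6) L69641 (by decide +kernel)
theorem L69643 : W_22 (nat_lit 5) (nat_lit 0x4000200008001e000a0003c00010000000000000000000000) (nat_lit 0x0) (nat_lit 0x60000000017000300008000000000000000000000) := T_22 (nat_lit 161) (nat_lit 162) (nat_lit 3) (nat_lit 5) (nat_lit 8) L69642 (by decide +kernel)
theorem L69644 : W_22 (nat_lit 6) (nat_lit 0x4000200008001e000a0003c00000000000000000000000000) (nat_lit 0x0) (nat_lit 0x60000000017000300038000000000000000000000) := T_22 (nat_lit 88) (nat_lit 89) (nat_lit 0) (nat_lit 7) (nat_lit 6) L69643 (by decide +kernel)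
theorem L69645 : W_22 (nat_lit 7) (nat_lit 0x4000200008001e000a0003800000000000000000000000000) (nat_lit 0x0) (nat_lit 0x60000000057000700038000000000000000000000) := T_22 (nat_lit 106) (nat_lit 126) (nat_lit 3) (nat_lit 4) (nat_lit 6) L69644 (by decide +kernel)
theorem L69646 : W_22 (nat_lit 8) (nat_lit 0x4000200008001e000a0003000000000000000000000000000) (nat_lit 0x0) (nat_lit 0x60000000057000f00078000000000000000000000) := T_22 (nat_lit 107) (nat_lit 90) (nat_lit 4) (nat_lit 6) (nat_lit 9) L69645 (by decide +kernel)
theorem L69647 : W_22 (nat_lit 9) (nat_lit 0x4000200008001e000a0001000000000000000000000000000) (nat_lit 0x0) (nat_lit 0x60000000057002f00178000000000000000000000) := T_22 (nat_lit 109) (nat_lit 92) (nat_lit 6) (nat_lit 6) (nat_lit 9) L69646 (by decide +kernel)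
theorem L69648 : W_22 (nat_lit 10) (nat_lit 0x4000200000001e000a0001000000000000000000000000000) (nat_lit 0x0) (nat_lit 0x100068000000057002f00178000000000000000000000) := T_22 (nat_lit 159) (nat_lit 176) (nat_lit 7) (nat_lit 6) (nat_lit 7) L69647 (by decide +kernel)
theorem L69649 : W_22 (nat_lit 11) (nat_lit 0x4000200000001e000a0000000000000000000000000000000) (nat_lit 0x0) (nat_lit 0x10006800000005f003f001f800f800000000000000000) := Q_22 (nat_lit 108) (C_22 L69623 (C_22 L69631 (C_22 L69635 (C_22 L69639 (C_22 L69648 N_22))))) (by decide +kernel)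
theorem L69650 : W_22 (nat_lit 5) (nat_lit 0x4000200024001e000b0000000000000000000000000000000) (nat_lit 0x0) (nat_lit 0x1000180008000000040000c00060000000000000000000000) := T_22 (nat_lit 192) (nat_lit 175) (nat_lit 6) (nat_lit 5) (nat_lit 11) L31870 (by decide +kernel)
theorem L69651 : W_22 (nat_lit 6) (nat_lit 0x4000200024001e000a0000000000000000000000000000000) (nat_lit 0x0) (nat_lit 0x1000180008000000058000c00060000000000000000000000) := T_22 (nat_lit 124) (nat_lit 123) (nat_lit 0) (nat_lit 8) (nat_lit 8) L69650 (by decide +kernel)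
theorem L69652 : W_22 (nat_lit 7) (nat_lit 0x4000200020001e000a0000000000000000000000000000000) (nat_lit 0x0) (nat_lit 0x100018000e000000058000c00060000000000000000000000) := T_22 (nat_lit 158) (nat_lit 157) (nat_lit 1) (nat_lit 8) (nat_lit 8) L69651 (by decide +kernel)
theorem L69653 : W_22 (nat_lit 8) (nat_lit 0x4000200000001e000a0000000000000000000000000000000) (nat_lit 0x0) (nat_lit 0x100018006e000000058000c00060000000000000000000000) := T_22 (nat_lit 161) (nat_lit 162) (nat_lit 3) (nat_lit 5) (nat_lit 8) L69652 (by decide +kernel)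
theorem L69654 : W_22 (nat_lit 12) (nat_lit 0x4000200000001e00080000000000000000000000000000000) (nat_lit 0x0) (nat_lit 0x100018006e00000007f003f001f800f800000000000000000) := Q_22 (nat_lit 125) (C_22 L69613 (C_22 L69616 (C_22 L69649 (C_22 L69653 N_22)))) (by decide +kernel)
theorem L69655 : W_22 (nat_lit 13) (nat_lit 0x4000200000001600080000000000000000000000000000000) (nat_lit 0x0) (nat_lit 0x100018006f8009c007f003f001f800f800000000000000000) := Q_22 (nat_lit 143) (C_22 L69603 (C_22 L69606 (C_22 L69607 (C_22 L69608 (C_22 L69610 (C_22 L69654 N_22)))))) (by decide +kernel)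
theorem L69656 : W_22 (nat_lit 2) (nat_lit 0x4000200020001f00080000000000000000000000000000000) (nat_lit 0x0) (nat_lit 0x1c000000000000000000000000000000) := D_22 (nat_lit 123) (nat_lit 124) (nat_lit 122) (nat_lit 0) (nat_lit 8) (nat_lit 8) (nat_lit 0) (nat_lit 7) (nat_lit 8) (by decide +kernel)
theorem L69657 : W_22 (nat_lit 3) (nat_lit 0x4000200020001e00080000000000000000000000000000000) (nat_lit 0x0) (nat_lit 0x10005c000000000000000000000000000000) := T_22 (nat_lit 140) (nat_lit 126) (nat_lit 2) (nat_lit 4) (nat_lit 8) L69656 (by decide +kernel)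
theorem L69658 : W_22 (nat_lit 4) (nat_lit 0x4000200020001600080000000000000000000000000000000) (nat_lit 0x0) (nat_lit 0x4000090005c000000000000000000000000000000) := T_22 (nat_lit 143) (nat_lit 162) (nat_lit 3) (nat_lit 5) (nat_lit 8) L69657 (by decide +kernel)
theorem L69659 : W_22 (nat_lit 5) (nat_lit 0x4000200000001600080000000000000000000000000000000) (nat_lit 0x0) (nat_lit 0x40006000090005c000000000000000000000000000000) := T_22 (nat_lit 161) (nat_lit 178) (nat_lit 5) (nat_lit 8) (nat_lit 7) L69658 (by decide +kernel)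
theorem L69660 : W_22 (nat_lit 2) (nat_lit 0x50007800000016000a0000000000000000000000000000000) (nat_lit 0x0) (nat_lit 0x18000040000000000000000000000000000000000000000000) := D_22 (nat_lit 195) (nat_lit 174) (nat_lit 196) (nat_lit 3) (nat_lit 4) (nat_lit 10) (nat_lit 3) (nat_lit 5) (nat_lit 10) (by decide +kernel)
theorem L69661 : W_22 (nat_lit 3) (nat_lit 0x50003800000016000a0000000000000000000000000000000) (nat_lit 0x0) (nat_lit 0x18800440000000000000000000000000000000000000000000) := T_22 (nat_lit 178) (nat_lit 191) (nat_lit 1) (nat_lit 8) (nat_lit 10) L69660 (by decide +kernel)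
theorem L69662 : W_22 (nat_lit 4) (nat_lit 0x40003800000016000a0000000000000000000000000000000) (nat_lit 0x0) (nat_lit 0x19800440004000000000000000000000000000000000000000) := T_22 (nat_lit 192) (nat_lit 158) (nat_lit 6) (nat_lit 5) (nat_lit 11) L69661 (by decide +kernel)
theorem L69663 : W_22 (nat_lit 5) (nat_lit 0x4000380000001600080000000000000000000000000000000) (nat_lit 0x0) (nat_lit 0x1980044000c000000020000000000000000000000000000000) := T_22 (nat_lit 125) (nat_lit 159) (nat_lit 7) (nat_lit 6) (nat_lit 7) L69662 (by decide +kernel)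
theorem L69664 : W_22 (nat_lit 2) (nat_lit 0x48003c0002001600080000000000000000000000000000000) (nat_lit 0x0) (nat_lit 0x4000100010000000000000000000000000000000) := D_22 (nat_lit 124) (nat_lit 158) (nat_lit 140) (nat_lit 5) (nat_lit 5) (nat_lit 7) (nat_lit 6) (nat_lit 4) (nat_lit 11) (by decide +kernel)
theorem L69665 : W_22 (nat_lit 3) (nat_lit 0x48003c0000001600080000000000000000000000000000000) (nat_lit 0x0) (nat_lit 0x7000100010000000000000000000000000000000) := T_22 (nat_lit 157) (nat_lit 156) (nat_lit 0) (nat_lit 7) (nat_lit 10) L69664 (by decide +kernel)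
theorem L69666 : W_22 (nat_lit 4) (nat_lit 0x40003c0000001600080000000000000000000000000000000) (nat_lit 0x0) (nat_lit 0xc00000007000100010000000000000000000000000000000) := T_22 (nat_lit 191) (nat_lit 190) (nat_lit 1) (nat_lit 7) (nat_lit 10) L69665 (by decide +kernel)
theorem L69667 : W_22 (nat_lit 5) (nat_lit 0x4000380000001600080000000000000000000000000000000) (nat_lit 0x0) (nat_lit 0x8c00040007000100010000000000000000000000000000000) := T_22 (nat_lit 174) (nat_lit 195) (nat_lit 3) (nat_lit 4) (nat_lit 10) L69666 (by decide +kernel)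
theorem L69668 : W_22 (nat_lit 2) (nat_lit 0x48007c0002001780080000000000000000000000000000000) (nat_lit 0x0) (nat_lit 0x8000000060000000000000000000000000000000) := D_22 (nat_lit 125) (nat_lit 126) (nat_lit 159) (nat_lit 2) (nat_lit 3) (nat_lit 8) (nat_lit 7) (nat_lit 6) (nat_lit 7) (by decide +kernel)
theorem L69669 : W_22 (nat_lit 3) (nat_lit 0x48007c0002001700080000000000000000000000000000000) (nat_lit 0x0) (nat_lit 0x8000080064000000000000000000000000000000) := T_22 (nat_lit 139) (nat_lit 122) (nat_lit 4) (nat_lit 4) (nat_lit 11) L69668 (by decide +kernel)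
theorem L69670 : W_22 (nat_lit 4) (nat_lit 0x48007c0002001600080000000000000000000000000000000) (nat_lit 0x0) (nat_lit 0x8000180074000000000000000000000000000000) := T_22 (nat_lit 140) (nat_lit 124) (nat_lit 6) (nat_lit 4) (nat_lit 11) L69669 (by decide +kernel)
theorem L69671 : W_22 (nat_lit 5) (nat_lit 0x48003c0002001600080000000000000000000000000000000) (nat_lit 0x0) (nat_lit 0x1000400008000180074000000000000000000000000000000) := T_22 (nat_lit 178) (nat_lit 192) (nat_lit 1) (nat_lit 8) (nat_lit 10) L69670 (by decide +kernel)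
theorem L69672 : W_22 (nat_lit 6) (nat_lit 0x48003c0000001600080000000000000000000000000000000) (nat_lit 0x0) (nat_lit 0x100040000b000180074000000000000000000000000000000) := T_22 (nat_lit 157) (nat_lit 156) (nat_lit 0) (nat_lit 7) (nat_lit 10) L69671 (by decide +kernel)
theorem L69673 : W_22 (nat_lit 7) (nat_lit 0x40003c0000001600080000000000000000000000000000000) (nat_lit 0x0) (nat_lit 0x1c0040000b000180074000000000000000000000000000000) := T_22 (nat_lit 191) (nat_lit 190) (nat_lit 1) (nat_lit 7) (nat_lit 10) L69672 (by decide +kernel)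
theorem L69674 : W_22 (nat_lit 8) (nat_lit 0x4000380000001600080000000000000000000000000000000) (nat_lit 0x0) (nat_lit 0x9c0044000b000180074000000000000000000000000000000) := T_22 (nat_lit 174) (nat_lit 195) (nat_lit 3) (nat_lit 4) (nat_lit 10) L69673 (by decide +kernel)
theorem L69675 : W_22 (nat_lit 2) (nat_lit 0x58003800000016000a0000000000000000000000000000000) (nat_lit 0x0) (nat_lit 0x600040000000000000000000000000000000000000000000) := D_22 (nat_lit 190) (nat_lit 174) (nat_lit 189) (nat_lit 1) (nat_lit 7) (nat_lit 10) (nat_lit 2) (nat_lit 2) (nat_lit 11) (by decide +kernel)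
theorem L69676 : W_22 (nat_lit 3) (nat_lit 0x50003800000016000a0000000000000000000000000000000) (nat_lit 0x0) (nat_lit 0xe00440000000000000000000000000000000000000000000) := T_22 (nat_lit 191) (nat_lit 178) (nat_lit 1) (nat_lit 8) (nat_lit 10) L69675 (by decide +kernel)
theorem L69677 : W_22 (nat_lit 4) (nat_lit 0x40003800000016000a0000000000000000000000000000000) (nat_lit 0x0) (nat_lit 0x1e00440004000000000000000000000000000000000000000) := T_22 (nat_lit 192) (nat_lit 158) (nat_lit 6) (nat_lit 5) (nat_lit 11) L69676 (by decide +kernel)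
theorem L69678 : W_22 (nat_lit 5) (nat_lit 0x4000380000001600080000000000000000000000000000000) (nat_lit 0x0) (nat_lit 0x1e0044000c000000020000000000000000000000000000000) := T_22 (nat_lit 125) (nat_lit 159) (nat_lit 7) (nat_lit 6) (nat_lit 7) L69677 (by decide +kernel)
theorem L69679 : W_22 (nat_lit 2) (nat_lit 0x40003800040016000a0000000000000000000000000000000) (nat_lit 0x0) (nat_lit 0x10001000080000000000000000000000) := D_22 (nat_lit 108) (nat_lit 124) (nat_lit 91) (nat_lit 6) (nat_lit 5) (nat_lit 10) (nat_lit 5) (nat_lit 6) (nat_lit 5) (by decide +kernel)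
theorem L69680 : W_22 (nat_lit 3) (nat_lit 0x40003800000016000a0000000000000000000000000000000) (nat_lit 0x0) (nat_lit 0x1000000004000000010001000080000000000000000000000) := T_22 (nat_lit 158) (nat_lit 192) (nat_lit 6) (nat_lit 5) (nat_lit 11) L69679 (by decide +kernel)
theorem L69681 : W_22 (nat_lit 4) (nat_lit 0x4000380000001600080000000000000000000000000000000) (nat_lit 0x0) (nat_lit 0x100000000c000000030001000080000000000000000000000) := T_22 (nat_lit 125) (nat_lit 159) (nat_lit 7) (nat_lit 6) (nat_lit 7) L69680 (by decide +kernel)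
theorem L69682 : W_22 (nat_lit 9) (nat_lit 0x4000300000001600080000000000000000000000000000000) (nat_lit 0x0) (nat_lit 0x19e004c000f000180074001000080000000000000000000000) := Q_22 (nat_lit 175) (C_22 L69663 (C_22 L69667 (C_22 L69674 (C_22 L69678 (C_22 L69681 N_22))))) (by decide +kernel)
theorem L69683 : W_22 (nat_lit 2) (nat_lit 0x48003c0000001600080000000000000000000000000000000) (nat_lit 0x0) (nat_lit 0x1000400020000000000000000000000000000000000000000) := D_22 (nat_lit 178) (nat_lit 161) (nat_lit 192) (nat_lit 5) (nat_lit 8) (nat_lit 7) (nat_lit 1) (nat_lit 8) (nat_lit 10) (by decide +kernel)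
theorem L69684 : W_22 (nat_lit 3) (nat_lit 0x40003c0000001600080000000000000000000000000000000) (nat_lit 0x0) (nat_lit 0x1c00400020000000000000000000000000000000000000000) := T_22 (nat_lit 191) (nat_lit 190) (nat_lit 1) (nat_lit 7) (nat_lit 10) L69683 (by decide +kernel)
theorem L69685 : W_22 (nat_lit 4) (nat_lit 0x4000380000001600080000000000000000000000000000000) (nat_lit 0x0) (nat_lit 0x9c00440020000000000000000000000000000000000000000) := T_22 (nat_lit 174) (nat_lit 195) (nat_lit 3) (nat_lit 4) (nat_lit 10) L69684 (by decide +kernel)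
theorem L69686 : W_22 (nat_lit 2) (nat_lit 0x5000780004001600080000000000000000000000000000000) (nat_lit 0x0) (nat_lit 0x20000000800008000000000000000000000000000000000000000) := D_22 (nat_lit 159) (nat_lit 179) (nat_lit 209) (nat_lit 0) (nat_lit 9) (nat_lit 10) (nat_lit 6) (nat_lit 5) (nat_lit 12) (by decide +kernel)
theorem L69687 : W_22 (nat_lit 3) (nat_lit 0x5000780000001600080000000000000000000000000000000) (nat_lit 0x0) (nat_lit 0x2000000080000e000000000000000000000000000000000000000) := T_22 (nat_lit 158) (nat_lit 157) (nat_lit 0) (nat_lit 8) (nat_lit 10) L69686 (by decide +kernel)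
theorem L69688 : W_22 (nat_lit 4) (nat_lit 0x4000780000001600080000000000000000000000000000000) (nat_lit 0x0) (nat_lit 0x2000180080000e000000000000000000000000000000000000000) := T_22 (nat_lit 192) (nat_lit 191) (nat_lit 1) (nat_lit 8) (nat_lit 10) L69687 (by decide +kernel)
theorem L69689 : W_22 (nat_lit 5) (nat_lit 0x4000380000001600080000000000000000000000000000000) (nat_lit 0x0) (nat_lit 0x20001800c0002e000000000000000000000000000000000000000) := T_22 (nat_lit 178) (nat_lit 161) (nat_lit 5) (nat_lit 8) (nat_lit 7) L69688 (by decide +kernel)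
theorem L69690 : W_22 (nat_lit 2) (nat_lit 0x4000780000001600080000000000000000000000000000000) (nat_lit 0x0) (nat_lit 0x18000040000000000000000000000000000000000000000000) := D_22 (nat_lit 195) (nat_lit 174) (nat_lit 196) (nat_lit 3) (nat_lit 4) (nat_lit 10) (nat_lit 3) (nat_lit 5) (nat_lit 10) (by decide +kernel)
theorem L69691 : W_22 (nat_lit 3) (nat_lit 0x4000380000001600080000000000000000000000000000000) (nat_lit 0x0) (nat_lit 0x18000440020000000000000000000000000000000000000000) := T_22 (nat_lit 178) (nat_lit 161) (nat_lit 5) (nat_lit 8) (nat_lit 7) L69690 (by decide +kernel)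
theorem L69692 : W_22 (nat_lit 6) (nat_lit 0x4000300000001600080000000000000000000000000000000) (nat_lit 0x0) (nat_lit 0x20019c00cc002f000100010000000000000000000000000000000) := Q_22 (nat_lit 175) (C_22 L69667 (C_22 L69685 (C_22 L69689 (C_22 L69691 N_22)))) (by decide +kernel)
theorem L69693 : W_22 (nat_lit 2) (nat_lit 0x5000780000001600080000000000000000000000000000000) (nat_lit 0x0) (nat_lit 0x6000000020000000000000000000000000000000) := D_22 (nat_lit 158) (nat_lit 157) (nat_lit 125) (nat_lit 0) (nat_lit 8) (nat_lit 10) (nat_lit 6) (nat_lit 5) (nat_lit 11) (by decide +kernel)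
theorem L69694 : W_22 (nat_lit 3) (nat_lit 0x4000780000001600080000000000000000000000000000000) (nat_lit 0x0) (nat_lit 0x1800000006000000020000000000000000000000000000000) := T_22 (nat_lit 192) (nat_lit 191) (nat_lit 1) (nat_lit 8) (nat_lit 10) L69693 (by decide +kernel)
theorem L69695 : W_22 (nat_lit 4) (nat_lit 0x4000380000001600080000000000000000000000000000000) (nat_lit 0x0) (nat_lit 0x1800400026000000020000000000000000000000000000000) := T_22 (nat_lit 178) (nat_lit 161) (nat_lit 5) (nat_lit 8) (nat_lit 7) L69694 (by decide +kernel)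
theorem L69696 : W_22 (nat_lit 6) (nat_lit 0x4000300000001600080000000000000000000000000000000) (nat_lit 0x0) (nat_lit 0x19c004c0027000100030000000000000000000000000000000) := Q_22 (nat_lit 175) (C_22 L69667 (C_22 L69691 (C_22 L69695 N_22))) (by decide +kernel)
theorem L69697 : W_22 (nat_lit 2) (nat_lit 0x48003c00020017000a0000000000000000000000000000000) (nat_lit 0x0) (nat_lit 0x80044000000000000000000000000000000) := D_22 (nat_lit 139) (nat_lit 122) (nat_lit 126) (nat_lit 4) (nat_lit 4) (nat_lit 11) (nat_lit 2) (nat_lit 3) (nat_lit 8) (by decide +kernel)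
theorem L69698 : W_22 (nat_lit 3) (nat_lit 0x48003c00020016000a0000000000000000000000000000000) (nat_lit 0x0) (nat_lit 0x180054000000000000000000000000000000) := T_22 (nat_lit 140) (nat_lit 124) (nat_lit 6) (nat_lit 4) (nat_lit 11) L69697 (by decide +kernel)
theorem L69699 : W_22 (nat_lit 4) (nat_lit 0x48003c0002001600080000000000000000000000000000000) (nat_lit 0x0) (nat_lit 0x8000180074000000000000000000000000000000) := T_22 (nat_lit 125) (nat_lit 159) (nat_lit 7) (nat_lit 6) (nat_lit 7) L69698 (by decide +kernel)
theorem L69700 : W_22 (nat_lit 5) (nat_lit 0x48003c0000001600080000000000000000000000000000000) (nat_lit 0x0) (nat_lit 0xb000180074000000000000000000000000000000) := T_22 (nat_lit 157) (nat_lit 156) (nat_lit 0) (nat_lit 7) (nat_lit 10) L69699 (by decide +kernel)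
theorem L69701 : W_22 (nat_lit 6) (nat_lit 0x40003c0000001600080000000000000000000000000000000) (nat_lit 0x0) (nat_lit 0xc0000000b000180074000000000000000000000000000000) := T_22 (nat_lit 191) (nat_lit 190) (nat_lit 1) (nat_lit 7) (nat_lit 10) L69700 (by decide +kernel)
theorem L69702 : W_22 (nat_lit 7) (nat_lit 0x4000380000001600080000000000000000000000000000000) (nat_lit 0x0) (nat_lit 0x8c0004000b000180074000000000000000000000000000000) := T_22 (nat_lit 174) (nat_lit 195) (nat_lit 3) (nat_lit 4) (nat_lit 10) L69701 (by decide +kernel)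
theorem L69703 : W_22 (nat_lit 2) (nat_lit 0x58003c00020016000a0000000000000000000000000000000) (nat_lit 0x0) (nat_lit 0x400020000000000000000100000000000000000000000000000000000) := D_22 (nat_lit 209) (nat_lit 226) (nat_lit 140) (nat_lit 4) (nat_lit 5) (nat_lit 13) (nat_lit 7) (nat_lit 4) (nat_lit 8) (by decide +kernel)
theorem L69704 : W_22 (nat_lit 3) (nat_lit 0x58003c00000016000a0000000000000000000000000000000) (nat_lit 0x0) (nat_lit 0x400020000000000003000100000000000000000000000000000000000) := T_22 (nat_lit 157) (nat_lit 156) (nat_lit 0) (nat_lit 7) (nat_lit 10) L69703 (by decide +kernel)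
theorem L69705 : W_22 (nat_lit 4) (nat_lit 0x50003c00000016000a0000000000000000000000000000000) (nat_lit 0x0) (nat_lit 0x400020000c00000003000100000000000000000000000000000000000) := T_22 (nat_lit 191) (nat_lit 190) (nat_lit 1) (nat_lit 7) (nat_lit 10) L69704 (by decide +kernel)
theorem L69706 : W_22 (nat_lit 5) (nat_lit 0x50003800000016000a0000000000000000000000000000000) (nat_lit 0x0) (nat_lit 0x400020008c00040003000100000000000000000000000000000000000) := T_22 (nat_lit 174) (nat_lit 195) (nat_lit 3) (nat_lit 4) (nat_lit 10) L69705 (by decide +kernel)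
theorem L69707 : W_22 (nat_lit 6) (nat_lit 0x40003800000016000a0000000000000000000000000000000) (nat_lit 0x0) (nat_lit 0x400020009c00040007000100000000000000000000000000000000000) := T_22 (nat_lit 192) (nat_lit 158) (nat_lit 6) (nat_lit 5) (nat_lit 11) L69706 (by decide +kernel)
theorem L69708 : W_22 (nat_lit 7) (nat_lit 0x4000380000001600080000000000000000000000000000000) (nat_lit 0x0) (nat_lit 0x400020009c0004000f000100020000000000000000000000000000000) := T_22 (nat_lit 125) (nat_lit 159) (nat_lit 7) (nat_lit 6) (nat_lit 7) L69707 (by decide +kernel)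
theorem L69709 : W_22 (nat_lit 8) (nat_lit 0x4000300000001600080000000000000000000000000000000) (nat_lit 0x0) (nat_lit 0x400020009c000c000f000180074001000080000000000000000000000) := Q_22 (nat_lit 175) (C_22 L69681 (C_22 L69667 (C_22 L69702 (C_22 L69708 N_22)))) (by decide +kernel)
theorem L69710 : W_22 (nat_lit 2) (nat_lit 0x24000f000800016000a0000000000000000000000000000000) (nat_lit 0x0) (nat_lit 0x40001000100000000000000000000000000000000000000000) := D_22 (nat_lit 180) (nat_lit 198) (nat_lit 164) (nat_lit 3) (nat_lit 7) (nat_lit 10) (nat_lit 2) (nat_lit 7) (nat_lit 10) (by decide +kernel)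
theorem L69711 : W_22 (nat_lit 3) (nat_lit 0x24000f000000016000a0000000000000000000000000000000) (nat_lit 0x0) (nat_lit 0x400010001c0000000000000000000000000000000000000000) := T_22 (nat_lit 163) (nat_lit 162) (nat_lit 2) (nat_lit 6) (nat_lit 10) L69710 (by decide +kernel)
theorem L69712 : W_22 (nat_lit 4) (nat_lit 0x4000f000000016000a0000000000000000000000000000000) (nat_lit 0x0) (nat_lit 0x700010001c0000000000000000000000000000000000000000) := T_22 (nat_lit 197) (nat_lit 196) (nat_lit 3) (nat_lit 6) (nat_lit 10) L69711 (by decide +kernel)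
theorem L69713 : W_22 (nat_lit 5) (nat_lit 0x4000f00000001600080000000000000000000000000000000) (nat_lit 0x0) (nat_lit 0x700010001c8000000020000000000000000000000000000000) := T_22 (nat_lit 125) (nat_lit 159) (nat_lit 7) (nat_lit 6) (nat_lit 7) L69712 (by decide +kernel)
theorem L69714 : W_22 (nat_lit 2) (nat_lit 0x1c000f00080001600080000000000000000000000000000000) (nat_lit 0x0) (nat_lit 0x3000100000000000000000000000000000000000000000) := D_22 (nat_lit 180) (nat_lit 181) (nat_lit 164) (nat_lit 1) (nat_lit 11) (nat_lit 10) (nat_lit 2) (nat_lit 7) (nat_lit 10) (by decide +kernel)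
theorem L69715 : W_22 (nat_lit 3) (nat_lit 0x1c000f00000001600080000000000000000000000000000000) (nat_lit 0x0) (nat_lit 0x30001c0000000000000000000000000000000000000000) := T_22 (nat_lit 163) (nat_lit 162) (nat_lit 2) (nat_lit 6) (nat_lit 10) L69714 (by decide +kernel)
theorem L69716 : W_22 (nat_lit 4) (nat_lit 0x14000f00000001600080000000000000000000000000000000) (nat_lit 0x0) (nat_lit 0x80030801c0000000000000000000000000000000000000000) := T_22 (nat_lit 195) (nat_lit 175) (nat_lit 3) (nat_lit 5) (nat_lit 10) L69715 (by decide +kernel)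
theorem L69717 : W_22 (nat_lit 5) (nat_lit 0x4000f00000001600080000000000000000000000000000000) (nat_lit 0x0) (nat_lit 0x380030801c0000000000000000000000000000000000000000) := T_22 (nat_lit 196) (nat_lit 197) (nat_lit 3) (nat_lit 6) (nat_lit 10) L69716 (by decide +kernel)
theorem L69718 : W_22 (nat_lit 2) (nat_lit 0x4003f000800016000a0000000000000000000000000000000) (nat_lit 0x0) (nat_lit 0xe0000000000000000000000000000000000000000000000000) := D_22 (nat_lit 198) (nat_lit 197) (nat_lit 199) (nat_lit 3) (nat_lit 7) (nat_lit 10) (nat_lit 3) (nat_lit 8) (nat_lit 10) (by decide +kernel)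
theorem L69719 : W_22 (nat_lit 3) (nat_lit 0x4001f000800016000a0000000000000000000000000000000) (nat_lit 0x0) (nat_lit 0xe8002000000000000000000000000000000000000000000000) := T_22 (nat_lit 181) (nat_lit 195) (nat_lit 1) (nat_lit 11) (nat_lit 10) L69718 (by decide +kernel)
theorem L69720 : W_22 (nat_lit 4) (nat_lit 0x4000f000800016000a0000000000000000000000000000000) (nat_lit 0x0) (nat_lit 0xe8003000100000000000000000000000000000000000000000) := T_22 (nat_lit 180) (nat_lit 164) (nat_lit 2) (nat_lit 7) (nat_lit 10) L69719 (by decide +kernel)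
theorem L69721 : W_22 (nat_lit 5) (nat_lit 0x4000f00080001600080000000000000000000000000000000) (nat_lit 0x0) (nat_lit 0xe8003000108000000020000000000000000000000000000000) := T_22 (nat_lit 125) (nat_lit 159) (nat_lit 7) (nat_lit 6) (nat_lit 7) L69720 (by decide +kernel)
theorem L69722 : W_22 (nat_lit 6) (nat_lit 0x4000f00000001600080000000000000000000000000000000) (nat_lit 0x0) (nat_lit 0xe80030001c8000000020000000000000000000000000000000) := T_22 (nat_lit 163) (nat_lit 162) (nat_lit 2) (nat_lit 6) (nat_lit 10) L69721 (by decide +kernel)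
theorem L69723 : W_22 (nat_lit 2) (nat_lit 0x14800fc00420017000a0000000000000000000000000000000) (nat_lit 0x0) (nat_lit 0x80044000000000000000000000000000000) := D_22 (nat_lit 139) (nat_lit 122) (nat_lit 126) (nat_lit 4) (nat_lit 4) (nat_lit 11) (nat_lit 2) (nat_lit 3) (nat_lit 8) (by decide +kernel)
theorem L69724 : W_22 (nat_lit 3) (nat_lit 0x14800fc00420016000a0000000000000000000000000000000) (nat_lit 0x0) (nat_lit 0x180054000000000000000000000000000000) := T_22 (nat_lit 140) (nat_lit 124) (nat_lit 6) (nat_lit 4) (nat_lit 11) L69723 (by decide +kernel)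
theorem L69725 : W_22 (nat_lit 4) (nat_lit 0x14800fc00400016000a0000000000000000000000000000000) (nat_lit 0x0) (nat_lit 0x3000180054000000000000000000000000000000) := T_22 (nat_lit 157) (nat_lit 156) (nat_lit 0) (nat_lit 7) (nat_lit 10) L69724 (by decide +kernel)
theorem L69726 : W_22 (nat_lit 5) (nat_lit 0x14800f800400016000a0000000000000000000000000000000) (nat_lit 0x0) (nat_lit 0x400040003000180054000000000000000000000000000000) := T_22 (nat_lit 174) (nat_lit 190) (nat_lit 1) (nat_lit 7) (nat_lit 10) L69725 (by decide +kernel)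
theorem L69727 : W_22 (nat_lit 6) (nat_lit 0x14800f80040001600080000000000000000000000000000000) (nat_lit 0x0) (nat_lit 0x40004000b000180074000000000000000000000000000000) := T_22 (nat_lit 125) (nat_lit 159) (nat_lit 7) (nat_lit 6) (nat_lit 7) L69726 (by decide +kernel)
theorem L69728 : W_22 (nat_lit 7) (nat_lit 0x14000f80040001600080000000000000000000000000000000) (nat_lit 0x0) (nat_lit 0x1c0004000b000180074000000000000000000000000000000) := T_22 (nat_lit 191) (nat_lit 192) (nat_lit 1) (nat_lit 8) (nat_lit 10) L69727 (by decide +kernel)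
theorem L69729 : W_22 (nat_lit 8) (nat_lit 0x14000f00040001600080000000000000000000000000000000) (nat_lit 0x0) (nat_lit 0x9c000c000b000180074000000000000000000000000000000) := T_22 (nat_lit 175) (nat_lit 195) (nat_lit 3) (nat_lit 5) (nat_lit 10) L69728 (by decide +kernel)
theorem L69730 : W_22 (nat_lit 9) (nat_lit 0x4000f00040001600080000000000000000000000000000000) (nat_lit 0x0) (nat_lit 0x39c000c000b000180074000000000000000000000000000000) := T_22 (nat_lit 196) (nat_lit 197) (nat_lit 3) (nat_lit 6) (nat_lit 10) L69729 (by decide +kernel)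
theorem L69731 : W_22 (nat_lit 10) (nat_lit 0x4000f00000001600080000000000000000000000000000000) (nat_lit 0x0) (nat_lit 0x39c000c00cb000180074000000000000000000000000000000) := T_22 (nat_lit 162) (nat_lit 163) (nat_lit 2) (nat_lit 6) (nat_lit 10) L69730 (by decide +kernel)
theorem L69732 : W_22 (nat_lit 2) (nat_lit 0xc001f000800016000a0000000000000000000000000000000) (nat_lit 0x0) (nat_lit 0x100000c0000000000000000000000000000000000000000000) := D_22 (nat_lit 175) (nat_lit 174) (nat_lit 196) (nat_lit 3) (nat_lit 4) (nat_lit 10) (nat_lit 3) (nat_lit 5) (nat_lit 10) (by decide +kernel)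
theorem L69733 : W_22 (nat_lit 3) (nat_lit 0x4001f000800016000a0000000000000000000000000000000) (nat_lit 0x0) (nat_lit 0x180020c0000000000000000000000000000000000000000000) := T_22 (nat_lit 195) (nat_lit 181) (nat_lit 1) (nat_lit 11) (nat_lit 10) L69732 (by decide +kernel)
theorem L69734 : W_22 (nat_lit 4) (nat_lit 0x4000f000800016000a0000000000000000000000000000000) (nat_lit 0x0) (nat_lit 0x180030c0100000000000000000000000000000000000000000) := T_22 (nat_lit 180) (nat_lit 164) (nat_lit 2) (nat_lit 7) (nat_lit 10) L69733 (by decide +kernel)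
theorem L69735 : W_22 (nat_lit 5) (nat_lit 0x4000f000000016000a0000000000000000000000000000000) (nat_lit 0x0) (nat_lit 0x180030c01c0000000000000000000000000000000000000000) := T_22 (nat_lit 163) (nat_lit 162) (nat_lit 2) (nat_lit 6) (nat_lit 10) L69734 (by decide +kernel)
theorem L69736 : W_22 (nat_lit 6) (nat_lit 0x4000f00000001600080000000000000000000000000000000) (nat_lit 0x0) (nat_lit 0x180030c01c8000000020000000000000000000000000000000) := T_22 (nat_lit 125) (nat_lit 159) (nat_lit 7) (nat_lit 6) (nat_lit 7) L69735 (by decide +kernel)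
theorem L69737 : W_22 (nat_lit 2) (nat_lit 0x14800fc00020017000a0000000000000000000000000000000) (nat_lit 0x0) (nat_lit 0x80044000000000000000000000000000000) := D_22 (nat_lit 139) (nat_lit 122) (nat_lit 126) (nat_lit 4) (nat_lit 4) (nat_lit 11) (nat_lit 2) (nat_lit 3) (nat_lit 8) (by decide +kernel)
theorem L69738 : W_22 (nat_lit 3) (nat_lit 0x14800fc00020016000a0000000000000000000000000000000) (nat_lit 0x0) (nat_lit 0x180054000000000000000000000000000000) := T_22 (nat_lit 140) (nat_lit 124) (nat_lit 6) (nat_lit 4) (nat_lit 11) L69737 (by decide +kernel)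
theorem L69739 : W_22 (nat_lit 4) (nat_lit 0x14800fc00000016000a0000000000000000000000000000000) (nat_lit 0x0) (nat_lit 0x3000180054000000000000000000000000000000) := T_22 (nat_lit 157) (nat_lit 156) (nat_lit 0) (nat_lit 7) (nat_lit 10) L69738 (by decide +kernel)
theorem L69740 : W_22 (nat_lit 5) (nat_lit 0x14800f800000016000a0000000000000000000000000000000) (nat_lit 0x0) (nat_lit 0x400040003000180054000000000000000000000000000000) := T_22 (nat_lit 174) (nat_lit 190) (nat_lit 1) (nat_lit 7) (nat_lit 10) L69739 (by decide +kernel)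
theorem L69741 : W_22 (nat_lit 6) (nat_lit 0x14800f80000001600080000000000000000000000000000000) (nat_lit 0x0) (nat_lit 0x40004000b000180074000000000000000000000000000000) := T_22 (nat_lit 125) (nat_lit 159) (nat_lit 7) (nat_lit 6) (nat_lit 7) L69740 (by decide +kernel)
theorem L69742 : W_22 (nat_lit 7) (nat_lit 0x14000f80000001600080000000000000000000000000000000) (nat_lit 0x0) (nat_lit 0x1c0004000b000180074000000000000000000000000000000) := T_22 (nat_lit 191) (nat_lit 192) (nat_lit 1) (nat_lit 8) (nat_lit 10) L69741 (by decide +kernel)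
theorem L69743 : W_22 (nat_lit 8) (nat_lit 0x14000f00000001600080000000000000000000000000000000) (nat_lit 0x0) (nat_lit 0x9c000c000b000180074000000000000000000000000000000) := T_22 (nat_lit 175) (nat_lit 195) (nat_lit 3) (nat_lit 5) (nat_lit 10) L69742 (by decide +kernel)
theorem L69744 : W_22 (nat_lit 9) (nat_lit 0x4000f00000001600080000000000000000000000000000000) (nat_lit 0x0) (nat_lit 0x39c000c000b000180074000000000000000000000000000000) := T_22 (nat_lit 196) (nat_lit 197) (nat_lit 3) (nat_lit 6) (nat_lit 10) L69743 (by decide +kernel)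
theorem L69745 : W_22 (nat_lit 11) (nat_lit 0x4000700000001600080000000000000000000000000000000) (nat_lit 0x0) (nat_lit 0xf9c038c01cb000180074000000000000000000000000000000) := Q_22 (nat_lit 179) (C_22 L69713 (C_22 L69717 (C_22 L69722 (C_22 L69731 (C_22 L69736 (C_22 L69744 N_22)))))) (by decide +kernel)
theorem L69746 : W_22 (nat_lit 12) (nat_lit 0x4000300000001600080000000000000000000000000000000) (nat_lit 0x0) (nat_lit 0xf9c03cc01eb000180074000000000000000000000000000000) := T_22 (nat_lit 178) (nat_lit 161) (nat_lit 5) (nat_lit 8) (nat_lit 7) L69745 (by decide +kernel)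
theorem L69747 : W_22 (nat_lit 2) (nat_lit 0x100000001c000f00088001600080000000000000000000000000000000) (nat_lit 0x0) (nat_lit 0x3000100000000000000000000000000000000000000000) := D_22 (nat_lit 180) (nat_lit 164) (nat_lit 181) (nat_lit 2) (nat_lit 7) (nat_lit 10) (nat_lit 1) (nat_lit 11) (nat_lit 10) (by decide +kernel)
theorem L69748 : W_22 (nat_lit 3) (nat_lit 0x1000000014000f00088001600080000000000000000000000000000000) (nat_lit 0x0) (nat_lit 0x8003080100000000000000000000000000000000000000000) := T_22 (nat_lit 195) (nat_lit 175) (nat_lit 3) (nat_lit 5) (nat_lit 10) L69747 (by decide +kernel)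
theorem L69749 : W_22 (nat_lit 4) (nat_lit 0x1000000004000f00088001600080000000000000000000000000000000) (nat_lit 0x0) (nat_lit 0x38003080100000000000000000000000000000000000000000) := T_22 (nat_lit 196) (nat_lit 197) (nat_lit 3) (nat_lit 6) (nat_lit 10) L69748 (by decide +kernel)
theorem L69750 : W_22 (nat_lit 5) (nat_lit 0x1000000004000f00008001600080000000000000000000000000000000) (nat_lit 0x0) (nat_lit 0x380030801c0000000000000000000000000000000000000000) := T_22 (nat_lit 163) (nat_lit 162) (nat_lit 2) (nat_lit 6) (nat_lit 10) L69749 (by decide +kernel)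
theorem L69751 : W_22 (nat_lit 6) (nat_lit 0x1000000004000700008001600080000000000000000000000000000000) (nat_lit 0x0) (nat_lit 0x380038801c4000000000000000000000000000000000000000) := T_22 (nat_lit 179) (nat_lit 158) (nat_lit 0) (nat_lit 9) (nat_lit 10) L69750 (by decide +kernel)
theorem L69752 : W_22 (nat_lit 7) (nat_lit 0x4000700008001600080000000000000000000000000000000) (nat_lit 0x0) (nat_lit 0x10000800380038801c4000000000000000000000000000000000000000) := T_22 (nat_lit 228) (nat_lit 211) (nat_lit 4) (nat_lit 7) (nat_lit 13) L69751 (by decide +kernel)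
theorem L69753 : W_22 (nat_lit 8) (nat_lit 0x4000300008001600080000000000000000000000000000000) (nat_lit 0x0) (nat_lit 0x1000080038003c801e4000000000000000000000000000000000000000) := T_22 (nat_lit 178) (nat_lit 161) (nat_lit 5) (nat_lit 8) (nat_lit 7) L69752 (by decide +kernel)
theorem L69754 : W_22 (nat_lit 9) (nat_lit 0x4000300000001600080000000000000000000000000000000) (nat_lit 0x0) (nat_lit 0x1000080038003c801ec000000020000000000000000000000000000000) := T_22 (nat_lit 159) (nat_lit 125) (nat_lit 7) (nat_lit 6) (nat_lit 7) L69753 (by decide +kernel)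
theorem L69755 : W_22 (nat_lit 2) (nat_lit 0x1000000024000f00088001600080000000000000000000000000000000) (nat_lit 0x0) (nat_lit 0x40001000100000000000000000000000000000000000000000) := D_22 (nat_lit 180) (nat_lit 164) (nat_lit 198) (nat_lit 2) (nat_lit 7) (nat_lit 10) (nat_lit 3) (nat_lit 7) (nat_lit 10) (by decide +kernel)
theorem L69756 : W_22 (nat_lit 3) (nat_lit 0x1000000004000f00088001600080000000000000000000000000000000) (nat_lit 0x0) (nat_lit 0x70001000100000000000000000000000000000000000000000) := T_22 (nat_lit 197) (nat_lit 196) (nat_lit 3) (nat_lit 6) (nat_lit 10) L69755 (by decide +kernel)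
theorem L69757 : W_22 (nat_lit 4) (nat_lit 0x1000000004000f00008001600080000000000000000000000000000000) (nat_lit 0x0) (nat_lit 0x700010001c0000000000000000000000000000000000000000) := T_22 (nat_lit 163) (nat_lit 162) (nat_lit 2) (nat_lit 6) (nat_lit 10) L69756 (by decide +kernel)
theorem L69758 : W_22 (nat_lit 5) (nat_lit 0x1000000004000700008001600080000000000000000000000000000000) (nat_lit 0x0) (nat_lit 0x700018001c4000000000000000000000000000000000000000) := T_22 (nat_lit 179) (nat_lit 158) (nat_lit 0) (nat_lit 9) (nat_lit 10) L69757 (by decide +kernel)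
theorem L69759 : W_22 (nat_lit 6) (nat_lit 0x4000700008001600080000000000000000000000000000000) (nat_lit 0x0) (nat_lit 0x10000800700018001c4000000000000000000000000000000000000000) := T_22 (nat_lit 228) (nat_lit 211) (nat_lit 4) (nat_lit 7) (nat_lit 13) L69758 (by decide +kernel)
theorem L69760 : W_22 (nat_lit 7) (nat_lit 0x4000700000001600080000000000000000000000000000000) (nat_lit 0x0) (nat_lit 0x10000800700018001cc000000020000000000000000000000000000000) := T_22 (nat_lit 159) (nat_lit 125) (nat_lit 7) (nat_lit 6) (nat_lit 7) L69759 (by decide +kernel)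
theorem L69761 : W_22 (nat_lit 8) (nat_lit 0x4000300000001600080000000000000000000000000000000) (nat_lit 0x0) (nat_lit 0x1000080070001c001ec000000020000000000000000000000000000000) := T_22 (nat_lit 178) (nat_lit 161) (nat_lit 5) (nat_lit 8) (nat_lit 7) L69760 (by decide +kernel)
theorem L69762 : W_22 (nat_lit 13) (nat_lit 0x4000200000001600080000000000000000000000000000000) (nat_lit 0x0) (nat_lit 0x14000a00f9e03dc01ef000180074001000080000000000000000000000) := Q_22 (nat_lit 176) (C_22 L69682 (C_22 L69692 (C_22 L69696 (C_22 L69709 (C_22 L69746 (C_22 L69754 (C_22 L69761 N_22))))))) (by decide +kernel)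
theorem L69763 : W_22 (nat_lit 2) (nat_lit 0x500020000c001e000b0000800000000000000000000000000) (nat_lit 0x0) (nat_lit 0x40000400020000000000000000000000) := D_22 (nat_lit 106) (nat_lit 89) (nat_lit 126) (nat_lit 4) (nat_lit 5) (nat_lit 9) (nat_lit 0) (nat_lit 8) (nat_lit 7) (by decide +kernel)
theorem L69764 : W_22 (nat_lit 3) (nat_lit 0x500020000c001e000b0000000000000000000000000000000) (nat_lit 0x0) (nat_lit 0x40000c00060000000000000000000000) := T_22 (nat_lit 107) (nat_lit 90) (nat_lit 7) (nat_lit 5) (nat_lit 5) L69763 (by decide +kernel)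
theorem L69765 : W_22 (nat_lit 4) (nat_lit 0x500020000c001e000a0000000000000000000000000000000) (nat_lit 0x0) (nat_lit 0x58000c00060000000000000000000000) := T_22 (nat_lit 124) (nat_lit 123) (nat_lit 0) (nat_lit 8) (nat_lit 8) L69764 (by decide +kernel)
theorem L69766 : W_22 (nat_lit 5) (nat_lit 0x400020000c001e000a0000000000000000000000000000000) (nat_lit 0x0) (nat_lit 0x1000080000000000058000c00060000000000000000000000) := T_22 (nat_lit 192) (nat_lit 175) (nat_lit 6) (nat_lit 5) (nat_lit 11) L69765 (by decide +kernel)
theorem L69767 : W_22 (nat_lit 6) (nat_lit 0x4000200004001e000a0000000000000000000000000000000) (nat_lit 0x0) (nat_lit 0x1000180008000000058000c00060000000000000000000000) := T_22 (nat_lit 159) (nat_lit 176) (nat_lit 7) (nat_lit 6) (nat_lit 7) L69766 (by decide +kernel)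
theorem L69768 : W_22 (nat_lit 2) (nat_lit 0x400020000c001e000b0000800000000000000000000000000) (nat_lit 0x0) (nat_lit 0x40000400020000000000000000000000) := D_22 (nat_lit 106) (nat_lit 126) (nat_lit 89) (nat_lit 0) (nat_lit 8) (nat_lit 7) (nat_lit 4) (nat_lit 5) (nat_lit 9) (by decide +kernel)
theorem L69769 : W_22 (nat_lit 3) (nat_lit 0x400020000c001e000b0000000000000000000000000000000) (nat_lit 0x0) (nat_lit 0x40000c00060000000000000000000000) := T_22 (nat_lit 107) (nat_lit 90) (nat_lit 7) (nat_lit 5) (nat_lit 5) L69768 (by decide +kernel)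
theorem L69770 : W_22 (nat_lit 4) (nat_lit 0x4000200004001e000b0000000000000000000000000000000) (nat_lit 0x0) (nat_lit 0x100008000000040000c00060000000000000000000000) := T_22 (nat_lit 159) (nat_lit 176) (nat_lit 7) (nat_lit 6) (nat_lit 7) L69769 (by decide +kernel)
theorem L69771 : W_22 (nat_lit 5) (nat_lit 0x4000200004001e000a0000000000000000000000000000000) (nat_lit 0x0) (nat_lit 0x100008000000058000c00060000000000000000000000) := T_22 (nat_lit 124) (nat_lit 123) (nat_lit 0) (nat_lit 8) (nat_lit 8) L69770 (by decide +kernel)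
theorem L69772 : W_22 (nat_lit 7) (nat_lit 0x4000200004001e00080000000000000000000000000000000) (nat_lit 0x0) (nat_lit 0x1000180008000000078001c000e0000000000000000000000) := Q_22 (nat_lit 125) (C_22 L69615 (C_22 L69612 (C_22 L69767 (C_22 L69771 N_22)))) (by decide +kernel)
theorem L69773 : W_22 (nat_lit 8) (nat_lit 0x4000200000001e00080000000000000000000000000000000) (nat_lit 0x0) (nat_lit 0x100018000e000000078001c000e0000000000000000000000) := T_22 (nat_lit 158) (nat_lit 157) (nat_lit 1) (nat_lit 8) (nat_lit 8) L69772 (by decide +kernel)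
theorem L69774 : W_22 (nat_lit 9) (nat_lit 0x4000200000001600080000000000000000000000000000000) (nat_lit 0x0) (nat_lit 0x100018000f00090007c001c000e0000000000000000000000) := Q_22 (nat_lit 143) (C_22 L69610 (C_22 L69606 (C_22 L31820 (C_22 L69773 N_22)))) (by decide +kernel)
theorem L69775 : W_22 (nat_lit 2) (nat_lit 0x4000200000001e00080000000000000000000000000000000) (nat_lit 0x0) (nat_lit 0x400060000000000000000000000000000000000000000) := D_22 (nat_lit 161) (nat_lit 162) (nat_lit 178) (nat_lit 3) (nat_lit 5) (nat_lit 8) (nat_lit 5) (nat_lit 8) (nat_lit 7) (by decide +kernel)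
theorem L69776 : W_22 (nat_lit 9) (nat_lit 0x4000200000001600080000000000000000000000000000000) (nat_lit 0x0) (nat_lit 0x100058006e000800078001c000e0000000000000000000000) := Q_22 (nat_lit 143) (C_22 L69773 (C_22 L69775 N_22)) (by decide +kernel)
theorem L69777 : W_22 (nat_lit 14) (nat_lit 0x4000200000001200080000000000000000000000000000000) (nat_lit 0x0) (nat_lit 0x14000a00f9e03dc01ef800dc007f003f001f800f800000000000000000) := Q_22 (nat_lit 142) (C_22 L69597 (C_22 L69602 (C_22 L69655 (C_22 L69659 (C_22 L69762 (C_22 L69774 (C_22 L69776 N_22))))))) (by decide +kernel)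
theorem L69778 : W_22 (nat_lit 2) (nat_lit 0x20000c0004000200018001200080000000000000000000000000000000) (nat_lit 0x0) (nat_lit 0x40001000000000000100000000000000000000000000000000000000000000) := D_22 (nat_lit 228) (nat_lit 246) (nat_lit 176) (nat_lit 7) (nat_lit 7) (nat_lit 10) (nat_lit 4) (nat_lit 7) (nat_lit 13) (by decide +kernel)
theorem L69779 : W_22 (nat_lit 3) (nat_lit 0x20000c0004000200010001200080000000000000000000000000000000) (nat_lit 0x0) (nat_lit 0x40001000000000000100008000400000000000000000000000000000000000) := T_22 (nat_lit 159) (nat_lit 142) (nat_lit 4) (nat_lit 7) (nat_lit 12) L69778 (by decide +kernel)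
theorem L69780 : W_22 (nat_lit 4) (nat_lit 0xc0004000200010001200080000000000000000000000000000000) (nat_lit 0x0) (nat_lit 0x40003000100000000100008000400000000000000000000000000000000000) := T_22 (nat_lit 229) (nat_lit 212) (nat_lit 7) (nat_lit 7) (nat_lit 9) L69779 (by decide +kernel)
theorem L69781 : W_22 (nat_lit 5) (nat_lit 0x80004000200010001200080000000000000000000000000000000) (nat_lit 0x0) (nat_lit 0x40003800140000000100008000400000000000000000000000000000000000) := T_22 (nat_lit 210) (nat_lit 227) (nat_lit 5) (nat_lit 7) (nat_lit 9) L69780 (by decide +kernel)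
theorem L69782 : W_22 (nat_lit 6) (nat_lit 0x4000200010001200080000000000000000000000000000000) (nat_lit 0x0) (nat_lit 0x400038001c0000000100028000400000000000000000000000000000000000) := T_22 (nat_lit 211) (nat_lit 161) (nat_lit 6) (nat_lit 7) (nat_lit 12) L69781 (by decide +kernel)
theorem L69783 : W_22 (nat_lit 7) (nat_lit 0x4000200000001200080000000000000000000000000000000) (nat_lit 0x0) (nat_lit 0x400038001c0000000100038000c00000000000000000000000000000000000) := T_22 (nat_lit 160) (nat_lit 143) (nat_lit 6) (nat_lit 7) (nat_lit 11) L69782 (by decide +kernel)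
theorem L69784 : W_22 (nat_lit 6) (nat_lit 0x4000200000001200080000000000000000000000000000000) (nat_lit 0x0) (nat_lit 0x400077000d00040000000000000000000000000000000) := T_22 (nat_lit 143) (nat_lit 160) (nat_lit 6) (nat_lit 7) (nat_lit 11) L69415 (by decide +kernel)
theorem L69785 : W_22 (nat_lit 2) (nat_lit 0x80004000200000001200080000000000000000000000000000000) (nat_lit 0x0) (nat_lit 0x400030000000000000000000000000000000000000000) := D_22 (nat_lit 161) (nat_lit 178) (nat_lit 160) (nat_lit 5) (nat_lit 8) (nat_lit 7) (nat_lit 6) (nat_lit 7) (nat_lit 12) (by decide +kernel)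
theorem L69786 : W_22 (nat_lit 2) (nat_lit 0xe0005a0038001c000340000001200080000000000000000000000000000000) (nat_lit 0x0) (nat_lit 0x8000060000000000000000000000000000000000000000000000000000) := D_22 (nat_lit 210) (nat_lit 209) (nat_lit 231) (nat_lit 2) (nat_lit 5) (nat_lit 12) (nat_lit 3) (nat_lit 6) (nat_lit 12) (by decide +kernel)
theorem L69787 : W_22 (nat_lit 3) (nat_lit 0xe0001a0038001c000340000001200080000000000000000000000000000000) (nat_lit 0x0) (nat_lit 0x100000000c000060000000000000000000000000000000000000000000000000000) := T_22 (nat_lit 230) (nat_lit 264) (nat_lit 4) (nat_lit 9) (nat_lit 15) L69786 (by decide +kernel)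
theorem L69788 : W_22 (nat_lit 4) (nat_lit 0xe0001a0038000c000340000001200080000000000000000000000000000000) (nat_lit 0x0) (nat_lit 0x100000000c000060030000000000000000000000000000000000000000000000000) := T_22 (nat_lit 196) (nat_lit 197) (nat_lit 0) (nat_lit 10) (nat_lit 11) L69787 (by decide +kernel)
theorem L69789 : W_22 (nat_lit 5) (nat_lit 0xe0001a0038000c000300000001200080000000000000000000000000000000) (nat_lit 0x0) (nat_lit 0x100000000c0000600300000c0000000000000000000000000000000000000000000) := T_22 (nat_lit 174) (nat_lit 175) (nat_lit 3) (nat_lit 4) (nat_lit 10) L69788 (by decide +kernel)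
theorem L69790 : W_22 (nat_lit 6) (nat_lit 0xe0001a0038000c000200000001200080000000000000000000000000000000) (nat_lit 0x0) (nat_lit 0x100000000c0000600300001c0008000000000000000000000000000000000000000) := T_22 (nat_lit 176) (nat_lit 159) (nat_lit 4) (nat_lit 7) (nat_lit 13) L69789 (by decide +kernel)
theorem L69791 : W_22 (nat_lit 7) (nat_lit 0xe0001a0018000c000200000001200080000000000000000000000000000000) (nat_lit 0x0) (nat_lit 0x100000000c0006600300001c0008000000000000000000000000000000000000000) := T_22 (nat_lit 213) (nat_lit 214) (nat_lit 1) (nat_lit 10) (nat_lit 12) L69790 (by decide +kernel)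
theorem L69792 : W_22 (nat_lit 8) (nat_lit 0x60001a0018000c000200000001200080000000000000000000000000000000) (nat_lit 0x0) (nat_lit 0x100018000c0006600300001c0008000000000000000000000000000000000000000) := T_22 (nat_lit 247) (nat_lit 248) (nat_lit 0) (nat_lit 10) (nat_lit 14) L69791 (by decide +kernel)
theorem L69793 : W_22 (nat_lit 9) (nat_lit 0x60001a0008000c000200000001200080000000000000000000000000000000) (nat_lit 0x0) (nat_lit 0x140018000c0007600300001c0008000000000000000000000000000000000000000) := T_22 (nat_lit 212) (nat_lit 262) (nat_lit 6) (nat_lit 7) (nat_lit 15) L69792 (by decide +kernel)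
theorem L69794 : W_22 (nat_lit 10) (nat_lit 0x6000180008000c000200000001200080000000000000000000000000000000) (nat_lit 0x0) (nat_lit 0x140018000c6007600300001c0008000000000000000000000000000000000000000) := T_22 (nat_lit 225) (nat_lit 226) (nat_lit 3) (nat_lit 4) (nat_lit 13) L69793 (by decide +kernel)
theorem L69795 : W_22 (nat_lit 11) (nat_lit 0x60001800080004000200000001200080000000000000000000000000000000) (nat_lit 0x0) (nat_lit 0x140018000c6007600380005c0008000000000000000000000000000000000000000) := T_22 (nat_lit 195) (nat_lit 178) (nat_lit 6) (nat_lit 7) (nat_lit 14) L69794 (by decide +kernel)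
theorem L69796 : W_22 (nat_lit 12) (nat_lit 0x40001800080004000200000001200080000000000000000000000000000000) (nat_lit 0x0) (nat_lit 0x1c001a000c6007600380005c0008000000000000000000000000000000000000000) := T_22 (nat_lit 245) (nat_lit 263) (nat_lit 7) (nat_lit 7) (nat_lit 11) L69795 (by decide +kernel)
theorem L69797 : W_22 (nat_lit 13) (nat_lit 0x40001000080004000200000001200080000000000000000000000000000000) (nat_lit 0x0) (nat_lit 0x1c001b000ce007600380005c0008000000000000000000000000000000000000000) := T_22 (nat_lit 227) (nat_lit 244) (nat_lit 5) (nat_lit 7) (nat_lit 10) L69796 (by decide +kernel)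
theorem L69798 : W_22 (nat_lit 14) (nat_lit 0x1000080004000200000001200080000000000000000000000000000000) (nat_lit 0x0) (nat_lit 0x1c001f000ee007600380005c0008000000000000000000000000000000000000000) := T_22 (nat_lit 246) (nat_lit 229) (nat_lit 7) (nat_lit 7) (nat_lit 10) L69797 (by decide +kernel)
theorem L69799 : W_22 (nat_lit 2) (nat_lit 0x20001000080004000600000001200080000000000000000000000000000000) (nat_lit 0x0) (nat_lit 0x200010000800000000000000000000000000000000000000000000000000000000) := D_22 (nat_lit 244) (nat_lit 261) (nat_lit 227) (nat_lit 5) (nat_lit 7) (nat_lit 11) (nat_lit 5) (nat_lit 7) (nat_lit 10) (by decide +kernel)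
theorem L69800 : W_22 (nat_lit 3) (nat_lit 0x1000080004000600000001200080000000000000000000000000000000) (nat_lit 0x0) (nat_lit 0x200030000800000008000000000000000000000000000000000000000000000000) := T_22 (nat_lit 245) (nat_lit 195) (nat_lit 6) (nat_lit 7) (nat_lit 14) L69799 (by decide +kernel)
theorem L69801 : W_22 (nat_lit 4) (nat_lit 0x1000080004000200000001200080000000000000000000000000000000) (nat_lit 0x0) (nat_lit 0x200030000800000008000400020000000000000000000000000000000000000000) := T_22 (nat_lit 178) (nat_lit 161) (nat_lit 6) (nat_lit 7) (nat_lit 13) L69800 (by decide +kernel)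
theorem L69802 : W_22 (nat_lit 2) (nat_lit 0x50001000080004000300000001200080000000000000000000000000000000) (nat_lit 0x0) (nat_lit 0xa00020000000000000000000000000000000000000000000000000000000000000) := D_22 (nat_lit 245) (nat_lit 261) (nat_lit 263) (nat_lit 5) (nat_lit 7) (nat_lit 11) (nat_lit 7) (nat_lit 7) (nat_lit 11) (by decide +kernel)
theorem L69803 : W_22 (nat_lit 3) (nat_lit 0x10001000080004000300000001200080000000000000000000000000000000) (nat_lit 0x0) (nat_lit 0xa00060002000000000000000000000000000000000000000000000000000000000) := T_22 (nat_lit 246) (nat_lit 229) (nat_lit 7) (nat_lit 7) (nat_lit 10) L69802 (by decide +kernel)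
theorem L69804 : W_22 (nat_lit 4) (nat_lit 0x1000080004000300000001200080000000000000000000000000000000) (nat_lit 0x0) (nat_lit 0xa00070002800000000000000000000000000000000000000000000000000000000) := T_22 (nat_lit 244) (nat_lit 227) (nat_lit 5) (nat_lit 7) (nat_lit 10) L69803 (by decide +kernel)
theorem L69805 : W_22 (nat_lit 5) (nat_lit 0x1000080004000200000001200080000000000000000000000000000000) (nat_lit 0x0) (nat_lit 0xa00070002800000000000100008000000000000000000000000000000000000000) := T_22 (nat_lit 176) (nat_lit 159) (nat_lit 4) (nat_lit 7) (nat_lit 13) L69804 (by decide +kernel)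
theorem L69806 : W_22 (nat_lit 2) (nat_lit 0x20001000080004000600000001200080000000000000000000000000000000) (nat_lit 0x0) (nat_lit 0x800040002000000000000000000000000000000000000000000000000000000000) := D_22 (nat_lit 246) (nat_lit 229) (nat_lit 263) (nat_lit 7) (nat_lit 7) (nat_lit 10) (nat_lit 7) (nat_lit 7) (nat_lit 11) (by decide +kernel)
theorem L69807 : W_22 (nat_lit 3) (nat_lit 0x1000080004000600000001200080000000000000000000000000000000) (nat_lit 0x0) (nat_lit 0x800060002000000008000000000000000000000000000000000000000000000000) := T_22 (nat_lit 245) (nat_lit 195) (nat_lit 6) (nat_lit 7) (nat_lit 14) L69806 (by decide +kernel)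
theorem L69808 : W_22 (nat_lit 4) (nat_lit 0x1000080004000200000001200080000000000000000000000000000000) (nat_lit 0x0) (nat_lit 0x800060002000000008000400020000000000000000000000000000000000000000) := T_22 (nat_lit 178) (nat_lit 161) (nat_lit 6) (nat_lit 7) (nat_lit 13) L69807 (by decide +kernel)
theorem L69809 : W_22 (nat_lit 2) (nat_lit 0x180008000c000700000001200080000000000000000000000000000000) (nat_lit 0x0) (nat_lit 0x100000c0000000000000000000000000000000000000000000) := D_22 (nat_lit 175) (nat_lit 196) (nat_lit 174) (nat_lit 3) (nat_lit 5) (nat_lit 10) (nat_lit 3) (nat_lit 4) (nat_lit 10) (by decide +kernel)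
theorem L69810 : W_22 (nat_lit 3) (nat_lit 0x180008000c000600000001200080000000000000000000000000000000) (nat_lit 0x0) (nat_lit 0x100001c0008000000000000000000000000000000000000000) := T_22 (nat_lit 176) (nat_lit 159) (nat_lit 4) (nat_lit 7) (nat_lit 13) L69809 (by decide +kernel)
theorem L69811 : W_22 (nat_lit 4) (nat_lit 0x100008000c000600000001200080000000000000000000000000000000) (nat_lit 0x0) (nat_lit 0x100008000000100001c0008000000000000000000000000000000000000000) := T_22 (nat_lit 227) (nat_lit 244) (nat_lit 5) (nat_lit 7) (nat_lit 10) L69810 (by decide +kernel)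
theorem L69812 : W_22 (nat_lit 5) (nat_lit 0x100008000c000200000001200080000000000000000000000000000000) (nat_lit 0x0) (nat_lit 0x100008000000100005c0028000000000000000000000000000000000000000) := T_22 (nat_lit 178) (nat_lit 161) (nat_lit 6) (nat_lit 7) (nat_lit 13) L69811 (by decide +kernel)
theorem L69813 : W_22 (nat_lit 2) (nat_lit 0x380018000c000200020001200080000000000000000000000000000000) (nat_lit 0x0) (nat_lit 0x600200000000000000000000000000000000000000000000000000000) := D_22 (nat_lit 226) (nat_lit 213) (nat_lit 225) (nat_lit 2) (nat_lit 5) (nat_lit 13) (nat_lit 2) (nat_lit 4) (nat_lit 13) (by decide +kernel)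
theorem L69814 : W_22 (nat_lit 3) (nat_lit 0x300018000c000200020001200080000000000000000000000000000000) (nat_lit 0x0) (nat_lit 0x10000e00200000000000000000000000000000000000000000000000000000) := T_22 (nat_lit 227) (nat_lit 244) (nat_lit 5) (nat_lit 7) (nat_lit 10) L69813 (by decide +kernel)
theorem L69815 : W_22 (nat_lit 4) (nat_lit 0x300018000c000200000001200080000000000000000000000000000000) (nat_lit 0x0) (nat_lit 0x10000e00200000000400020000000000000000000000000000000000000000) := T_22 (nat_lit 161) (nat_lit 178) (nat_lit 6) (nat_lit 7) (nat_lit 13) L69814 (by decide +kernel)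
theorem L69816 : W_22 (nat_lit 5) (nat_lit 0x100018000c000200000001200080000000000000000000000000000000) (nat_lit 0x0) (nat_lit 0x50002e00200000000400020000000000000000000000000000000000000000) := T_22 (nat_lit 229) (nat_lit 246) (nat_lit 7) (nat_lit 7) (nat_lit 10) L69815 (by decide +kernel)
theorem L69817 : W_22 (nat_lit 2) (nat_lit 0x1c0018000c000200000001200080000000000000000000000000000000) (nat_lit 0x0) (nat_lit 0x640000000000000000000000000000000000000000000000000000) := D_22 (nat_lit 213) (nat_lit 214) (nat_lit 210) (nat_lit 1) (nat_lit 10) (nat_lit 12) (nat_lit 1) (nat_lit 9) (nat_lit 12) (by decide +kernel)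
theorem L69818 : W_22 (nat_lit 3) (nat_lit 0x180018000c000200000001200080000000000000000000000000000000) (nat_lit 0x0) (nat_lit 0x600640000000000000000000000000000000000000000000000000000) := T_22 (nat_lit 226) (nat_lit 225) (nat_lit 2) (nat_lit 4) (nat_lit 13) L69817 (by decide +kernel)
theorem L69819 : W_22 (nat_lit 4) (nat_lit 0x100018000c000200000001200080000000000000000000000000000000) (nat_lit 0x0) (nat_lit 0x10000e00640000000000000000000000000000000000000000000000000000) := T_22 (nat_lit 227) (nat_lit 244) (nat_lit 5) (nat_lit 7) (nat_lit 10) L69818 (by decide +kernel)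
theorem L69820 : W_22 (nat_lit 2) (nat_lit 0x700018000c002e00000001200080000000000000000000000000000000) (nat_lit 0x0) (nat_lit 0x8000060000000000000000000000000000000000000000000000000000) := D_22 (nat_lit 210) (nat_lit 209) (nat_lit 231) (nat_lit 3) (nat_lit 5) (nat_lit 12) (nat_lit 0) (nat_lit 10) (nat_lit 13) (by decide +kernel)
theorem L69821 : W_22 (nat_lit 3) (nat_lit 0x300018000c002e00000001200080000000000000000000000000000000) (nat_lit 0x0) (nat_lit 0x8000c000060000000000000000000000000000000000000000000000000000) := T_22 (nat_lit 230) (nat_lit 247) (nat_lit 7) (nat_lit 8) (nat_lit 10) L69820 (by decide +kernel)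
theorem L69822 : W_22 (nat_lit 4) (nat_lit 0x300018000c000e00000001200080000000000000000000000000000000) (nat_lit 0x0) (nat_lit 0x8000c000060000003000000000000000000000000000000000000000000000) := T_22 (nat_lit 181) (nat_lit 180) (nat_lit 1) (nat_lit 11) (nat_lit 10) L69821 (by decide +kernel)
theorem L69823 : W_22 (nat_lit 5) (nat_lit 0x300018000c000600000001200080000000000000000000000000000000) (nat_lit 0x0) (nat_lit 0x8000c000060000003800040000000000000000000000000000000000000000) := T_22 (nat_lit 179) (nat_lit 162) (nat_lit 6) (nat_lit 8) (nat_lit 13) L69822 (by decide +kernel)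
theorem L69824 : W_22 (nat_lit 6) (nat_lit 0x300018000c000200000001200080000000000000000000000000000000) (nat_lit 0x0) (nat_lit 0x8000c000060000003c00060000000000000000000000000000000000000000) := T_22 (nat_lit 178) (nat_lit 161) (nat_lit 6) (nat_lit 7) (nat_lit 13) L69823 (by decide +kernel)
theorem L69825 : W_22 (nat_lit 7) (nat_lit 0x100018000c000200000001200080000000000000000000000000000000) (nat_lit 0x0) (nat_lit 0xc000e000060000003c00060000000000000000000000000000000000000000) := T_22 (nat_lit 229) (nat_lit 246) (nat_lit 7) (nat_lit 7) (nat_lit 10) L69824 (by decide +kernel)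
theorem L69826 : W_22 (nat_lit 8) (nat_lit 0x100008000c000200000001200080000000000000000000000000000000) (nat_lit 0x0) (nat_lit 0xd000ee00760000003c00060000000000000000000000000000000000000000) := Q_22 (nat_lit 212) (C_22 L69816 (C_22 L69819 (C_22 L69825 N_22))) (by decide +kernel)
theorem L69827 : W_22 (nat_lit 2) (nat_lit 0x7c002d002c000200000001200080000000000000000000000000000000) (nat_lit 0x0) (nat_lit 0x300008000000000000000000000000000000000000000000000000000) := D_22 (nat_lit 225) (nat_lit 224) (nat_lit 207) (nat_lit 2) (nat_lit 3) (nat_lit 13) (nat_lit 0) (nat_lit 7) (nat_lit 13) (by decide +kernel)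
theorem L69828 : W_22 (nat_lit 3) (nat_lit 0x78002d002c000200000001200080000000000000000000000000000000) (nat_lit 0x0) (nat_lit 0x700108000000000000000000000000000000000000000000000000000) := T_22 (nat_lit 226) (nat_lit 212) (nat_lit 2) (nat_lit 5) (nat_lit 13) L69827 (by decide +kernel)
theorem L69829 : W_22 (nat_lit 4) (nat_lit 0x78000d002c000200000001200080000000000000000000000000000000) (nat_lit 0x0) (nat_lit 0x700708000000000000000000000000000000000000000000000000000) := T_22 (nat_lit 213) (nat_lit 214) (nat_lit 2) (nat_lit 6) (nat_lit 13) L69828 (by decide +kernel)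
theorem L69830 : W_22 (nat_lit 5) (nat_lit 0x38000d002c000200000001200080000000000000000000000000000000) (nat_lit 0x0) (nat_lit 0xc700708000000000000000000000000000000000000000000000000000) := T_22 (nat_lit 230) (nat_lit 231) (nat_lit 0) (nat_lit 10) (nat_lit 13) L69829 (by decide +kernel)
theorem L69831 : W_22 (nat_lit 6) (nat_lit 0x18000d002c000200000001200080000000000000000000000000000000) (nat_lit 0x0) (nat_lit 0x4000e700708000000000000000000000000000000000000000000000000000) := T_22 (nat_lit 229) (nat_lit 246) (nat_lit 7) (nat_lit 7) (nat_lit 10) L69830 (by decide +kernel)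
theorem L69832 : W_22 (nat_lit 7) (nat_lit 0x18000c002c000200000001200080000000000000000000000000000000) (nat_lit 0x0) (nat_lit 0x4000e700738000000000000000000000000000000000000000000000000000) := T_22 (nat_lit 208) (nat_lit 209) (nat_lit 2) (nat_lit 4) (nat_lit 12) L69831 (by decide +kernel)
theorem L69833 : W_22 (nat_lit 8) (nat_lit 0x18000c000c000200000001200080000000000000000000000000000000) (nat_lit 0x0) (nat_lit 0x4000e700738030000000000000000000000000000000000000000000000000) := T_22 (nat_lit 197) (nat_lit 196) (nat_lit 1) (nat_lit 10) (nat_lit 11) L69832 (by decide +kernel)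
theorem L69834 : W_22 (nat_lit 9) (nat_lit 0x10000c000c000200000001200080000000000000000000000000000000) (nat_lit 0x0) (nat_lit 0x5000ef00738030000000000000000000000000000000000000000000000000) := T_22 (nat_lit 227) (nat_lit 244) (nat_lit 5) (nat_lit 7) (nat_lit 10) L69833 (by decide +kernel)
theorem L69835 : W_22 (nat_lit 2) (nat_lit 0x7c002d000c000340000001200080000000000000000000000000000000) (nat_lit 0x0) (nat_lit 0x300008000000000000000000000000000000000000000000000000000) := D_22 (nat_lit 225) (nat_lit 224) (nat_lit 207) (nat_lit 2) (nat_lit 3) (nat_lit 13) (nat_lit 0) (nat_lit 7) (nat_lit 13) (by decide +kernel)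
theorem L69836 : W_22 (nat_lit 3) (nat_lit 0x78002d000c000340000001200080000000000000000000000000000000) (nat_lit 0x0) (nat_lit 0x700108000000000000000000000000000000000000000000000000000) := T_22 (nat_lit 226) (nat_lit 212) (nat_lit 2) (nat_lit 5) (nat_lit 13) L69835 (by decide +kernel)
theorem L69837 : W_22 (nat_lit 4) (nat_lit 0x78000d000c000340000001200080000000000000000000000000000000) (nat_lit 0x0) (nat_lit 0x700708000000000000000000000000000000000000000000000000000) := T_22 (nat_lit 213) (nat_lit 214) (nat_lit 2) (nat_lit 6) (nat_lit 13) L69836 (by decide +kernel)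
theorem L69838 : W_22 (nat_lit 5) (nat_lit 0x38000d000c000340000001200080000000000000000000000000000000) (nat_lit 0x0) (nat_lit 0xc700708000000000000000000000000000000000000000000000000000) := T_22 (nat_lit 230) (nat_lit 231) (nat_lit 0) (nat_lit 10) (nat_lit 13) L69837 (by decide +kernel)
theorem L69839 : W_22 (nat_lit 6) (nat_lit 0x38000d000c000300000001200080000000000000000000000000000000) (nat_lit 0x0) (nat_lit 0xc7007080000000c0000000000000000000000000000000000000000000) := T_22 (nat_lit 174) (nat_lit 175) (nat_lit 3) (nat_lit 4) (nat_lit 10) L69838 (by decide +kernel)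
theorem L69840 : W_22 (nat_lit 7) (nat_lit 0x38000d000c000200000001200080000000000000000000000000000000) (nat_lit 0x0) (nat_lit 0xc7007080000001c0008000000000000000000000000000000000000000) := T_22 (nat_lit 176) (nat_lit 159) (nat_lit 4) (nat_lit 7) (nat_lit 13) L69839 (by decide +kernel)
theorem L69841 : W_22 (nat_lit 8) (nat_lit 0x30000d000c000200000001200080000000000000000000000000000000) (nat_lit 0x0) (nat_lit 0x1000cf007080000001c0008000000000000000000000000000000000000000) := T_22 (nat_lit 227) (nat_lit 244) (nat_lit 5) (nat_lit 7) (nat_lit 10) L69840 (by decide +kernel)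
theorem L69842 : W_22 (nat_lit 9) (nat_lit 0x30000c000c000200000001200080000000000000000000000000000000) (nat_lit 0x0) (nat_lit 0x1000cf007380000001c0008000000000000000000000000000000000000000) := T_22 (nat_lit 208) (nat_lit 209) (nat_lit 3) (nat_lit 4) (nat_lit 12) L69841 (by decide +kernel)
theorem L69843 : W_22 (nat_lit 10) (nat_lit 0x10000c000c000200000001200080000000000000000000000000000000) (nat_lit 0x0) (nat_lit 0x5000ef007380000001c0008000000000000000000000000000000000000000) := T_22 (nat_lit 229) (nat_lit 246) (nat_lit 7) (nat_lit 7) (nat_lit 10) L69842 (by decide +kernel)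
theorem L69844 : W_22 (nat_lit 2) (nat_lit 0x30000e002c000200000001200080000000000000000000000000000000) (nat_lit 0x0) (nat_lit 0xc800000000000000000000000000000000000000000000000000000000) := D_22 (nat_lit 230) (nat_lit 231) (nat_lit 227) (nat_lit 0) (nat_lit 10) (nat_lit 13) (nat_lit 0) (nat_lit 9) (nat_lit 13) (by decide +kernel)
theorem L69845 : W_22 (nat_lit 3) (nat_lit 0x10000e002c000200000001200080000000000000000000000000000000) (nat_lit 0x0) (nat_lit 0x4000e800000000000000000000000000000000000000000000000000000000) := T_22 (nat_lit 229) (nat_lit 246) (nat_lit 7) (nat_lit 7) (nat_lit 10) L69844 (by decide +kernel)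
theorem L69846 : W_22 (nat_lit 4) (nat_lit 0x10000e000c000200000001200080000000000000000000000000000000) (nat_lit 0x0) (nat_lit 0x4000e800000030000000000000000000000000000000000000000000000000) := T_22 (nat_lit 197) (nat_lit 196) (nat_lit 1) (nat_lit 10) (nat_lit 11) L69845 (by decide +kernel)
theorem L69847 : W_22 (nat_lit 5) (nat_lit 0x10000c000c000200000001200080000000000000000000000000000000) (nat_lit 0x0) (nat_lit 0x4000e800030030000000000000000000000000000000000000000000000000) := T_22 (nat_lit 209) (nat_lit 208) (nat_lit 2) (nat_lit 4) (nat_lit 12) L69846 (by decide +kernel)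
theorem L69848 : W_22 (nat_lit 2) (nat_lit 0x10000c001c000340000001200080000000000000000000000000000000) (nat_lit 0x0) (nat_lit 0x130000000000000000000000000000000000000000000000000000) := D_22 (nat_lit 209) (nat_lit 208) (nat_lit 212) (nat_lit 2) (nat_lit 4) (nat_lit 12) (nat_lit 2) (nat_lit 5) (nat_lit 12) (by decide +kernel)
theorem L69849 : W_22 (nat_lit 3) (nat_lit 0x10000c000c000340000001200080000000000000000000000000000000) (nat_lit 0x0) (nat_lit 0x130030000000000000000000000000000000000000000000000000) := T_22 (nat_lit 196) (nat_lit 197) (nat_lit 1) (nat_lit 10) (nat_lit 11) L69848 (by decide +kernel)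
theorem L69850 : W_22 (nat_lit 4) (nat_lit 0x10000c000c000300000001200080000000000000000000000000000000) (nat_lit 0x0) (nat_lit 0x1300300000c0000000000000000000000000000000000000000000) := T_22 (nat_lit 174) (nat_lit 175) (nat_lit 3) (nat_lit 4) (nat_lit 10) L69849 (by decide +kernel)
theorem L69851 : W_22 (nat_lit 5) (nat_lit 0x10000c000c000200000001200080000000000000000000000000000000) (nat_lit 0x0) (nat_lit 0x1300300001c0008000000000000000000000000000000000000000) := T_22 (nat_lit 176) (nat_lit 159) (nat_lit 4) (nat_lit 7) (nat_lit 13) L69850 (by decide +kernel)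
theorem L69852 : W_22 (nat_lit 2) (nat_lit 0x800078002c000c000200000001200080000000000000000000000000000000) (nat_lit 0x0) (nat_lit 0x1000000000400100000000000000000000000000000000000000000000000000000) := D_22 (nat_lit 212) (nat_lit 226) (nat_lit 264) (nat_lit 2) (nat_lit 5) (nat_lit 13) (nat_lit 4) (nat_lit 9) (nat_lit 15) (by decide +kernel)
theorem L69853 : W_22 (nat_lit 3) (nat_lit 0x800078000c000c000200000001200080000000000000000000000000000000) (nat_lit 0x0) (nat_lit 0x1000000000400700000000000000000000000000000000000000000000000000000) := T_22 (nat_lit 213) (nat_lit 214) (nat_lit 2) (nat_lit 6) (nat_lit 13) L69852 (by decide +kernel)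
theorem L69854 : W_22 (nat_lit 4) (nat_lit 0x78000c000c000200000001200080000000000000000000000000000000) (nat_lit 0x0) (nat_lit 0x1000180000400700000000000000000000000000000000000000000000000000000) := T_22 (nat_lit 247) (nat_lit 248) (nat_lit 3) (nat_lit 6) (nat_lit 13) L69853 (by decide +kernel)
theorem L69855 : W_22 (nat_lit 5) (nat_lit 0x70000c000c000200000001200080000000000000000000000000000000) (nat_lit 0x0) (nat_lit 0x1000190000c00700000000000000000000000000000000000000000000000000000) := T_22 (nat_lit 227) (nat_lit 244) (nat_lit 5) (nat_lit 7) (nat_lit 10) L69854 (by decide +kernel)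
theorem L69856 : W_22 (nat_lit 6) (nat_lit 0x30000c000c000200000001200080000000000000000000000000000000) (nat_lit 0x0) (nat_lit 0x100019000cc00700000000000000000000000000000000000000000000000000000) := T_22 (nat_lit 230) (nat_lit 231) (nat_lit 0) (nat_lit 10) (nat_lit 13) L69855 (by decide +kernel)
theorem L69857 : W_22 (nat_lit 7) (nat_lit 0x10000c000c000200000001200080000000000000000000000000000000) (nat_lit 0x0) (nat_lit 0x10001d000ec00700000000000000000000000000000000000000000000000000000) := T_22 (nat_lit 229) (nat_lit 246) (nat_lit 7) (nat_lit 7) (nat_lit 10) L69856 (by decide +kernel)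
theorem L69858 : W_22 (nat_lit 11) (nat_lit 0x100008000c000200000001200080000000000000000000000000000000) (nat_lit 0x0) (nat_lit 0x10001d000ef007780300001c0008000000000000000000000000000000000000000) := Q_22 (nat_lit 210) (C_22 L69834 (C_22 L69843 (C_22 L69847 (C_22 L69851 (C_22 L69857 N_22))))) (by decide +kernel)
theorem L69859 : W_22 (nat_lit 2) (nat_lit 0x300008000c000700000001200080000000000000000000000000000000) (nat_lit 0x0) (nat_lit 0x100000c0000000000000000000000000000000000000000000) := D_22 (nat_lit 175) (nat_lit 196) (nat_lit 174) (nat_lit 3) (nat_lit 5) (nat_lit 10) (nat_lit 3) (nat_lit 4) (nat_lit 10) (by decide +kernel)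
theorem L69860 : W_22 (nat_lit 3) (nat_lit 0x300008000c000600000001200080000000000000000000000000000000) (nat_lit 0x0) (nat_lit 0x100001c0008000000000000000000000000000000000000000) := T_22 (nat_lit 176) (nat_lit 159) (nat_lit 4) (nat_lit 7) (nat_lit 13) L69859 (by decide +kernel)
theorem L69861 : W_22 (nat_lit 4) (nat_lit 0x100008000c000600000001200080000000000000000000000000000000) (nat_lit 0x0) (nat_lit 0x400020000000100001c0008000000000000000000000000000000000000000) := T_22 (nat_lit 229) (nat_lit 246) (nat_lit 7) (nat_lit 7) (nat_lit 10) L69860 (by decide +kernel)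
theorem L69862 : W_22 (nat_lit 5) (nat_lit 0x100008000c000200000001200080000000000000000000000000000000) (nat_lit 0x0) (nat_lit 0x400020000000100005c0028000000000000000000000000000000000000000) := T_22 (nat_lit 178) (nat_lit 161) (nat_lit 6) (nat_lit 7) (nat_lit 13) L69861 (by decide +kernel)
theorem L69863 : W_22 (nat_lit 12) (nat_lit 0x1000080004000200000001200080000000000000000000000000000000) (nat_lit 0x0) (nat_lit 0x10001d000ef00778038003dc0068000000000000000000000000000000000000000) := Q_22 (nat_lit 195) (C_22 L69812 (C_22 L69826 (C_22 L69858 (C_22 L69862 N_22)))) (by decide +kernel)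
theorem L69864 : W_22 (nat_lit 15) (nat_lit 0x80004000200000001200080000000000000000000000000000000) (nat_lit 0x0) (nat_lit 0x1e001f000ff00778038003dc0068000000000000000000000000000000000000000) := Q_22 (nat_lit 228) (C_22 L69798 (C_22 L69801 (C_22 L69805 (C_22 L69808 (C_22 L69863 N_22))))) (by decide +kernel)
theorem L69865 : W_22 (nat_lit 6) (nat_lit 0x80004000200000001200080000000000000000000000000000000) (nat_lit 0x0) (nat_lit 0x40003800140000000100038000400000000000000000000000000000000000) := T_22 (nat_lit 160) (nat_lit 161) (nat_lit 6) (nat_lit 7) (nat_lit 12) L69781 (by decide +kernel)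
theorem L69866 : W_22 (nat_lit 2) (nat_lit 0x3000080004000200010001200080000000000000000000000000000000) (nat_lit 0x0) (nat_lit 0x10000800040000000000000000000000000000000000000000000000000000) := D_22 (nat_lit 227) (nat_lit 210) (nat_lit 244) (nat_lit 5) (nat_lit 7) (nat_lit 9) (nat_lit 5) (nat_lit 7) (nat_lit 10) (by decide +kernel)
theorem L69867 : W_22 (nat_lit 3) (nat_lit 0x3000080004000200000001200080000000000000000000000000000000) (nat_lit 0x0) (nat_lit 0x10000800140000000000010000000000000000000000000000000000000000) := T_22 (nat_lit 160) (nat_lit 212) (nat_lit 7) (nat_lit 7) (nat_lit 9) L69866 (by decide +kernel)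
theorem L69868 : W_22 (nat_lit 4) (nat_lit 0x1000080004000200000001200080000000000000000000000000000000) (nat_lit 0x0) (nat_lit 0x50002800140000000000010000000000000000000000000000000000000000) := T_22 (nat_lit 229) (nat_lit 246) (nat_lit 7) (nat_lit 7) (nat_lit 10) L69867 (by decide +kernel)
theorem L69869 : W_22 (nat_lit 2) (nat_lit 0x1800080004000200010001200080000000000000000000000000000000) (nat_lit 0x0) (nat_lit 0x100008000400000000000000000000000000000000000) := D_22 (nat_lit 159) (nat_lit 142) (nat_lit 176) (nat_lit 4) (nat_lit 7) (nat_lit 12) (nat_lit 4) (nat_lit 7) (nat_lit 13) (by decide +kernel)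
theorem L69870 : W_22 (nat_lit 3) (nat_lit 0x1800080004000200000001200080000000000000000000000000000000) (nat_lit 0x0) (nat_lit 0x40000000100018000400000000000000000000000000000000000) := T_22 (nat_lit 160) (nat_lit 210) (nat_lit 5) (nat_lit 7) (nat_lit 9) L69869 (by decide +kernel)
theorem L69871 : W_22 (nat_lit 4) (nat_lit 0x1000080004000200000001200080000000000000000000000000000000) (nat_lit 0x0) (nat_lit 0x10000800040000000100018000400000000000000000000000000000000000) := T_22 (nat_lit 227) (nat_lit 244) (nat_lit 5) (nat_lit 7) (nat_lit 10) L69870 (by decide +kernel)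
theorem L69872 : W_22 (nat_lit 2) (nat_lit 0x40006000100008000c000340000001200080000000000000000000000000000000) (nat_lit 0x0) (nat_lit 0x4000200010000000000000000000000000000000000000000000000000000000000000) := D_22 (nat_lit 261) (nat_lit 278) (nat_lit 244) (nat_lit 5) (nat_lit 7) (nat_lit 12) (nat_lit 5) (nat_lit 7) (nat_lit 11) (by decide +kernel)
theorem L69873 : W_22 (nat_lit 3) (nat_lit 0x6000100008000c000340000001200080000000000000000000000000000000) (nat_lit 0x0) (nat_lit 0x4000600010000000100000000000000000000000000000000000000000000000000000) := T_22 (nat_lit 262) (nat_lit 212) (nat_lit 6) (nat_lit 7) (nat_lit 15) L69872 (by decide +kernel)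
theorem L69874 : W_22 (nat_lit 4) (nat_lit 0x6000100008000c000300000001200080000000000000000000000000000000) (nat_lit 0x0) (nat_lit 0x40006000100000001000000000c0000000000000000000000000000000000000000000) := T_22 (nat_lit 174) (nat_lit 175) (nat_lit 3) (nat_lit 4) (nat_lit 10) L69873 (by decide +kernel)
theorem L69875 : W_22 (nat_lit 5) (nat_lit 0x60001000080004000300000001200080000000000000000000000000000000) (nat_lit 0x0) (nat_lit 0x40006000100000001000080004c0000000000000000000000000000000000000000000) := T_22 (nat_lit 195) (nat_lit 178) (nat_lit 6) (nat_lit 7) (nat_lit 14) L69874 (by decide +kernel)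
theorem L69876 : W_22 (nat_lit 6) (nat_lit 0x40001000080004000300000001200080000000000000000000000000000000) (nat_lit 0x0) (nat_lit 0x4000e000300000001000080004c0000000000000000000000000000000000000000000) := T_22 (nat_lit 245) (nat_lit 263) (nat_lit 7) (nat_lit 7) (nat_lit 11) L69875 (by decide +kernel)
theorem L69877 : W_22 (nat_lit 7) (nat_lit 0x1000080004000300000001200080000000000000000000000000000000) (nat_lit 0x0) (nat_lit 0x4000e000700020001000080004c0000000000000000000000000000000000000000000) := T_22 (nat_lit 246) (nat_lit 229) (nat_lit 7) (nat_lit 7) (nat_lit 10) L69876 (by decide +kernel)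
theorem L69878 : W_22 (nat_lit 8) (nat_lit 0x1000080004000200000001200080000000000000000000000000000000) (nat_lit 0x0) (nat_lit 0x4000e000700020001000080005c0008000000000000000000000000000000000000000) := T_22 (nat_lit 176) (nat_lit 159) (nat_lit 4) (nat_lit 7) (nat_lit 13) L69877 (by decide +kernel)
theorem L69879 : W_22 (nat_lit 2) (nat_lit 0x3000080004000200010001200080000000000000000000000000000000) (nat_lit 0x0) (nat_lit 0x100008000400000000000000000000000000000000000) := D_22 (nat_lit 159) (nat_lit 176) (nat_lit 142) (nat_lit 4) (nat_lit 7) (nat_lit 13) (nat_lit 4) (nat_lit 7) (nat_lit 12) (by decide +kernel)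
theorem L69880 : W_22 (nat_lit 3) (nat_lit 0x3000080004000200000001200080000000000000000000000000000000) (nat_lit 0x0) (nat_lit 0x100000000100018000400000000000000000000000000000000000) := T_22 (nat_lit 160) (nat_lit 212) (nat_lit 7) (nat_lit 7) (nat_lit 9) L69879 (by decide +kernel)
theorem L69881 : W_22 (nat_lit 4) (nat_lit 0x1000080004000200000001200080000000000000000000000000000000) (nat_lit 0x0) (nat_lit 0x40002000100000000100018000400000000000000000000000000000000000) := T_22 (nat_lit 229) (nat_lit 246) (nat_lit 7) (nat_lit 7) (nat_lit 10) L69880 (by decide +kernel)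
theorem L69882 : W_22 (nat_lit 9) (nat_lit 0x80004000200000001200080000000000000000000000000000000) (nat_lit 0x0) (nat_lit 0x4000e000700038001400080005c0018000400000000000000000000000000000000000) := Q_22 (nat_lit 228) (C_22 L69805 (C_22 L69868 (C_22 L69871 (C_22 L69878 (C_22 L69881 N_22))))) (by decide +kernel)
theorem L69883 : W_22 (nat_lit 16) (nat_lit 0x4000200000001200080000000000000000000000000000000) (nat_lit 0x0) (nat_lit 0x4001e001f000ff007f8038003dc0078000400000000000000000000000000000000000) := Q_22 (nat_lit 211) (C_22 L69785 (C_22 L69864 (C_22 L69865 (C_22 L69882 N_22)))) (by decide +kernel)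
theorem L69884 : W_22 (nat_lit 4) (nat_lit 0x4000200000001600080000000000000000000000000000000) (nat_lit 0x0) (nat_lit 0x17000900040000000000000000000000000000000) := T_22 (nat_lit 143) (nat_lit 160) (nat_lit 6) (nat_lit 7) (nat_lit 11) L31820 (by decide +kernel)
theorem L69885 : W_22 (nat_lit 2) (nat_lit 0x2800080004000200010001600080000000000000000000000000000000) (nat_lit 0x0) (nat_lit 0x50001000000000000000000000000000000000000000000000000000000000) := D_22 (nat_lit 228) (nat_lit 244) (nat_lit 246) (nat_lit 5) (nat_lit 7) (nat_lit 10) (nat_lit 7) (nat_lit 7) (nat_lit 10) (by decide +kernel)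
theorem L69886 : W_22 (nat_lit 3) (nat_lit 0x800080004000200010001600080000000000000000000000000000000) (nat_lit 0x0) (nat_lit 0x50003000100000000000000000000000000000000000000000000000000000) := T_22 (nat_lit 229) (nat_lit 212) (nat_lit 7) (nat_lit 7) (nat_lit 9) L69885 (by decide +kernel)
theorem L69887 : W_22 (nat_lit 4) (nat_lit 0x80004000200010001600080000000000000000000000000000000) (nat_lit 0x0) (nat_lit 0x50003800140000000000000000000000000000000000000000000000000000) := T_22 (nat_lit 227) (nat_lit 210) (nat_lit 5) (nat_lit 7) (nat_lit 9) L69886 (by decide +kernel)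
theorem L69888 : W_22 (nat_lit 5) (nat_lit 0x4000200010001600080000000000000000000000000000000) (nat_lit 0x0) (nat_lit 0x500038001c0000000000008000000000000000000000000000000000000000) := T_22 (nat_lit 211) (nat_lit 159) (nat_lit 4) (nat_lit 7) (nat_lit 12) L69887 (by decide +kernel)
theorem L69889 : W_22 (nat_lit 6) (nat_lit 0x4000200000001600080000000000000000000000000000000) (nat_lit 0x0) (nat_lit 0x500038001c0000000000018000800000000000000000000000000000000000) := T_22 (nat_lit 160) (nat_lit 143) (nat_lit 6) (nat_lit 7) (nat_lit 11) L69888 (by decide +kernel)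
theorem L69890 : W_22 (nat_lit 2) (nat_lit 0x400020001e001680080000000000000000000000000000000) (nat_lit 0x0) (nat_lit 0x1800040000000000000000000000000000000000) := D_22 (nat_lit 156) (nat_lit 155) (nat_lit 138) (nat_lit 2) (nat_lit 2) (nat_lit 9) (nat_lit 0) (nat_lit 6) (nat_lit 9) (by decide +kernel)
theorem L69891 : W_22 (nat_lit 3) (nat_lit 0x400020001c001680080000000000000000000000000000000) (nat_lit 0x0) (nat_lit 0x400003800040000000000000000000000000000000000) := T_22 (nat_lit 157) (nat_lit 178) (nat_lit 3) (nat_lit 4) (nat_lit 9) L69890 (by decide +kernel)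
theorem L69892 : W_22 (nat_lit 4) (nat_lit 0x400020001c001600080000000000000000000000000000000) (nat_lit 0x0) (nat_lit 0x4000038001c0000000000000000000000000000000000) := T_22 (nat_lit 139) (nat_lit 140) (nat_lit 3) (nat_lit 3) (nat_lit 8) L69891 (by decide +kernel)
theorem L69893 : W_22 (nat_lit 2) (nat_lit 0x500020001f0017000b0000c00000000000000000000000000) (nat_lit 0x0) (nat_lit 0x30000000000008000000000000000000000000000000) := D_22 (nat_lit 173) (nat_lit 172) (nat_lit 123) (nat_lit 1) (nat_lit 6) (nat_lit 9) (nat_lit 5) (nat_lit 4) (nat_lit 6) (by decide +kernel)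
theorem L69894 : W_22 (nat_lit 3) (nat_lit 0x500020001f0017000b0000800000000000000000000000000) (nat_lit 0x0) (nat_lit 0x30000000000008000400020000000000000000000000) := T_22 (nat_lit 106) (nat_lit 89) (nat_lit 4) (nat_lit 5) (nat_lit 9) L69893 (by decide +kernel)
theorem L69895 : W_22 (nat_lit 4) (nat_lit 0x500020001e0017000b0000800000000000000000000000000) (nat_lit 0x0) (nat_lit 0x30001800000008000400020000000000000000000000) := T_22 (nat_lit 156) (nat_lit 155) (nat_lit 2) (nat_lit 2) (nat_lit 9) L69894 (by decide +kernel)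
theorem L69896 : W_22 (nat_lit 5) (nat_lit 0x500020001c0017000b0000800000000000000000000000000) (nat_lit 0x0) (nat_lit 0x70003800000008000400020000000000000000000000) := T_22 (nat_lit 157) (nat_lit 174) (nat_lit 5) (nat_lit 5) (nat_lit 6) L69895 (by decide +kernel)
theorem L69897 : W_22 (nat_lit 6) (nat_lit 0x500020001c0017000b0000000000000000000000000000000) (nat_lit 0x0) (nat_lit 0x70003800000008000c00060000000000000000000000) := T_22 (nat_lit 107) (nat_lit 90) (nat_lit 7) (nat_lit 5) (nat_lit 5) L69896 (by decide +kernel)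
theorem L69898 : W_22 (nat_lit 7) (nat_lit 0x500020001c0017000a0000000000000000000000000000000) (nat_lit 0x0) (nat_lit 0x70003800000058000c00060000000000000000000000) := T_22 (nat_lit 124) (nat_lit 126) (nat_lit 1) (nat_lit 8) (nat_lit 7) L69897 (by decide +kernel)
theorem L69899 : W_22 (nat_lit 8) (nat_lit 0x400020001c0017000a0000000000000000000000000000000) (nat_lit 0x0) (nat_lit 0x10000f0003800000058000c00060000000000000000000000) := T_22 (nat_lit 192) (nat_lit 175) (nat_lit 6) (nat_lit 5) (nat_lit 11) L69898 (by decide +kernel)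
theorem L69900 : W_22 (nat_lit 9) (nat_lit 0x400020001c0016000a0000000000000000000000000000000) (nat_lit 0x0) (nat_lit 0x10000f0003800180058000c00060000000000000000000000) := T_22 (nat_lit 140) (nat_lit 139) (nat_lit 3) (nat_lit 3) (nat_lit 8) L69899 (by decide +kernel)
theorem L69901 : W_22 (nat_lit 10) (nat_lit 0x400020001c001600080000000000000000000000000000000) (nat_lit 0x0) (nat_lit 0x10000f0003800180078001c00060000000000000000000000) := T_22 (nat_lit 125) (nat_lit 108) (nat_lit 7) (nat_lit 6) (nat_lit 6) L69900 (by decide +kernel)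
theorem L69902 : W_22 (nat_lit 2) (nat_lit 0x400028001c0017000b0000400000000000000000000000000) (nat_lit 0x0) (nat_lit 0x800060000000000000000000000) := D_22 (nat_lit 107) (nat_lit 89) (nat_lit 90) (nat_lit 4) (nat_lit 5) (nat_lit 9) (nat_lit 7) (nat_lit 5) (nat_lit 5) (by decide +kernel)
theorem L69903 : W_22 (nat_lit 3) (nat_lit 0x400028001c0017000b0000000000000000000000000000000) (nat_lit 0x0) (nat_lit 0x8000c00060000000000000000000000) := T_22 (nat_lit 106) (nat_lit 123) (nat_lit 4) (nat_lit 5) (nat_lit 10) L69902 (by decide +kernel)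
theorem L69904 : W_22 (nat_lit 4) (nat_lit 0x400028001c0017000a0000000000000000000000000000000) (nat_lit 0x0) (nat_lit 0x58000c00060000000000000000000000) := T_22 (nat_lit 124) (nat_lit 126) (nat_lit 1) (nat_lit 8) (nat_lit 7) L69903 (by decide +kernel)
theorem L69905 : W_22 (nat_lit 5) (nat_lit 0x400020001c0017000a0000000000000000000000000000000) (nat_lit 0x0) (nat_lit 0x1000080000000000058000c00060000000000000000000000) := T_22 (nat_lit 175) (nat_lit 192) (nat_lit 6) (nat_lit 5) (nat_lit 11) L69904 (by decide +kernel)
theorem L69906 : W_22 (nat_lit 6) (nat_lit 0x400020001c001700080000000000000000000000000000000) (nat_lit 0x0) (nat_lit 0x1000080000000000078001c00060000000000000000000000) := T_22 (nat_lit 125) (nat_lit 108) (nat_lit 7) (nat_lit 6) (nat_lit 6) L69905 (by decide +kernel)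
theorem L69907 : W_22 (nat_lit 7) (nat_lit 0x400020001c001600080000000000000000000000000000000) (nat_lit 0x0) (nat_lit 0x1000080000000180078001c00060000000000000000000000) := T_22 (nat_lit 140) (nat_lit 139) (nat_lit 3) (nat_lit 3) (nat_lit 8) L69906 (by decide +kernel)
theorem L69908 : W_22 (nat_lit 2) (nat_lit 0x400024001e801600090001000000000000000000000000000) (nat_lit 0x0) (nat_lit 0x10000800080000000000000000000000000000000000000000000) := D_22 (nat_lit 191) (nat_lit 208) (nat_lit 175) (nat_lit 6) (nat_lit 4) (nat_lit 12) (nat_lit 5) (nat_lit 5) (nat_lit 7) (by decide +kernel)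
theorem L69909 : W_22 (nat_lit 3) (nat_lit 0x400024001e801600080001000000000000000000000000000) (nat_lit 0x0) (nat_lit 0x10000800080000000000010000800000000000000000000000000) := T_22 (nat_lit 124) (nat_lit 107) (nat_lit 5) (nat_lit 5) (nat_lit 6) L69908 (by decide +kernel)
theorem L69910 : W_22 (nat_lit 4) (nat_lit 0x400020001e801600080001000000000000000000000000000) (nat_lit 0x0) (nat_lit 0x100008000e0000000000010000800000000000000000000000000) := T_22 (nat_lit 174) (nat_lit 173) (nat_lit 1) (nat_lit 7) (nat_lit 9) L69909 (by decide +kernel)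
theorem L69911 : W_22 (nat_lit 5) (nat_lit 0x400020001e001600080001000000000000000000000000000) (nat_lit 0x0) (nat_lit 0x100008000e0001800000010000800000000000000000000000000) := T_22 (nat_lit 155) (nat_lit 156) (nat_lit 2) (nat_lit 2) (nat_lit 9) L69910 (by decide +kernel)
theorem L69912 : W_22 (nat_lit 6) (nat_lit 0x400020001c001600080001000000000000000000000000000) (nat_lit 0x0) (nat_lit 0x100008004e0003800000010000800000000000000000000000000) := T_22 (nat_lit 157) (nat_lit 178) (nat_lit 3) (nat_lit 4) (nat_lit 9) L69911 (by decide +kernel)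
theorem L69913 : W_22 (nat_lit 7) (nat_lit 0x400020001c001600080000000000000000000000000000000) (nat_lit 0x0) (nat_lit 0x100008004e0003800000030001800000000000000000000000000) := T_22 (nat_lit 108) (nat_lit 125) (nat_lit 7) (nat_lit 6) (nat_lit 6) L69912 (by decide +kernel)
theorem L69914 : W_22 (nat_lit 11) (nat_lit 0x4000200018001600080000000000000000000000000000000) (nat_lit 0x0) (nat_lit 0x100018004f00078001c0078001c00060000000000000000000000) := Q_22 (nat_lit 158) (C_22 L69892 (C_22 L69901 (C_22 L69907 (C_22 L69913 N_22)))) (by decide +kernel)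
theorem L69915 : W_22 (nat_lit 12) (nat_lit 0x4000200008001600080000000000000000000000000000000) (nat_lit 0x0) (nat_lit 0x900018004f00178001c0078001c00060000000000000000000000) := T_22 (nat_lit 160) (nat_lit 211) (nat_lit 4) (nat_lit 7) (nat_lit 12) L69914 (by decide +kernel)
theorem L69916 : W_22 (nat_lit 2) (nat_lit 0xe0005a003c000c000200008001600080000000000000000000000000000000) (nat_lit 0x0) (nat_lit 0x20030000000000000000000000000000000000000000000000000) := D_22 (nat_lit 196) (nat_lit 197) (nat_lit 209) (nat_lit 2) (nat_lit 6) (nat_lit 12) (nat_lit 2) (nat_lit 5) (nat_lit 12) (by decide +kernel)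
theorem L69917 : W_22 (nat_lit 3) (nat_lit 0xe0005a0038000c000200008001600080000000000000000000000000000000) (nat_lit 0x0) (nat_lit 0x8000060030000000000000000000000000000000000000000000000000) := T_22 (nat_lit 210) (nat_lit 231) (nat_lit 3) (nat_lit 6) (nat_lit 12) L69916 (by decide +kernel)
theorem L69918 : W_22 (nat_lit 4) (nat_lit 0xe0001a0038000c000200008001600080000000000000000000000000000000) (nat_lit 0x0) (nat_lit 0x100000000c000060030000000000000000000000000000000000000000000000000) := T_22 (nat_lit 230) (nat_lit 264) (nat_lit 4) (nat_lit 9) (nat_lit 15) L69917 (by decide +kernel)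
theorem L69919 : W_22 (nat_lit 5) (nat_lit 0xe0001a0018000c000200008001600080000000000000000000000000000000) (nat_lit 0x0) (nat_lit 0x100000000c000660030000000000000000000000000000000000000000000000000) := T_22 (nat_lit 213) (nat_lit 214) (nat_lit 1) (nat_lit 10) (nat_lit 12) L69918 (by decide +kernel)
theorem L69920 : W_22 (nat_lit 6) (nat_lit 0x60001a0018000c000200008001600080000000000000000000000000000000) (nat_lit 0x0) (nat_lit 0x100018000c000660030000000000000000000000000000000000000000000000000) := T_22 (nat_lit 247) (nat_lit 248) (nat_lit 0) (nat_lit 10) (nat_lit 14) L69919 (by decide +kernel)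
theorem L69921 : W_22 (nat_lit 7) (nat_lit 0x60001a0008000c000200008001600080000000000000000000000000000000) (nat_lit 0x0) (nat_lit 0x140018000c000760030000000000000000000000000000000000000000000000000) := T_22 (nat_lit 212) (nat_lit 262) (nat_lit 6) (nat_lit 7) (nat_lit 15) L69920 (by decide +kernel)
theorem L69922 : W_22 (nat_lit 8) (nat_lit 0x6000180008000c000200008001600080000000000000000000000000000000) (nat_lit 0x0) (nat_lit 0x140018000c600760030000000000000000000000000000000000000000000000000) := T_22 (nat_lit 225) (nat_lit 226) (nat_lit 3) (nat_lit 4) (nat_lit 13) L69921 (by decide +kernel)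
theorem L69923 : W_22 (nat_lit 9) (nat_lit 0x60001800080004000200008001600080000000000000000000000000000000) (nat_lit 0x0) (nat_lit 0x140018000c600760038000400000000000000000000000000000000000000000000) := T_22 (nat_lit 195) (nat_lit 178) (nat_lit 6) (nat_lit 7) (nat_lit 14) L69922 (by decide +kernel)
theorem L69924 : W_22 (nat_lit 10) (nat_lit 0x40001800080004000200008001600080000000000000000000000000000000) (nat_lit 0x0) (nat_lit 0x1c001a000c600760038000400000000000000000000000000000000000000000000) := T_22 (nat_lit 245) (nat_lit 263) (nat_lit 7) (nat_lit 7) (nat_lit 11) L69923 (by decide +kernel)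
theorem L69925 : W_22 (nat_lit 11) (nat_lit 0x1800080004000200008001600080000000000000000000000000000000) (nat_lit 0x0) (nat_lit 0x1c001e000e600760038000400000000000000000000000000000000000000000000) := T_22 (nat_lit 246) (nat_lit 229) (nat_lit 7) (nat_lit 7) (nat_lit 10) L69924 (by decide +kernel)
theorem L69926 : W_22 (nat_lit 12) (nat_lit 0x1000080004000200008001600080000000000000000000000000000000) (nat_lit 0x0) (nat_lit 0x1c001f000ee00760038000400000000000000000000000000000000000000000000) := T_22 (nat_lit 227) (nat_lit 244) (nat_lit 5) (nat_lit 7) (nat_lit 10) L69925 (by decide +kernel)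
theorem L69927 : W_22 (nat_lit 13) (nat_lit 0x80004000200008001600080000000000000000000000000000000) (nat_lit 0x0) (nat_lit 0x1c001f000fe00760038000500000000000000000000000000000000000000000000) := T_22 (nat_lit 228) (nat_lit 176) (nat_lit 4) (nat_lit 7) (nat_lit 13) L69926 (by decide +kernel)
theorem L69928 : W_22 (nat_lit 14) (nat_lit 0x4000200008001600080000000000000000000000000000000) (nat_lit 0x0) (nat_lit 0x1c001f000fe007e0038000500010000000000000000000000000000000000000000) := T_22 (nat_lit 211) (nat_lit 160) (nat_lit 4) (nat_lit 7) (nat_lit 12) L69927 (by decide +kernel)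
theorem L69929 : W_22 (nat_lit 2) (nat_lit 0x40002000080016000a0001000000000000000000000000000) (nat_lit 0x0) (nat_lit 0x80004000000000000000080000000000000000000000) := D_22 (nat_lit 158) (nat_lit 91) (nat_lit 175) (nat_lit 5) (nat_lit 6) (nat_lit 5) (nat_lit 5) (nat_lit 6) (nat_lit 6) (by decide +kernel)
theorem L69930 : W_22 (nat_lit 2) (nat_lit 0x40002000080016000a8003c00020001000140000000000000) (nat_lit 0x0) (nat_lit 0x8000a000000000) := D_22 (nat_lit 55) (nat_lit 39) (nat_lit 37) (nat_lit 6) (nat_lit 4) (nat_lit 6) (nat_lit 4) (nat_lit 4) (nat_lit 6) (by decide +kernel)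
theorem L69931 : W_22 (nat_lit 3) (nat_lit 0x40002000080016000a8003c00020001000100000000000000) (nat_lit 0x0) (nat_lit 0x8000c000a000000000) := T_22 (nat_lit 54) (nat_lit 71) (nat_lit 4) (nat_lit 4) (nat_lit 7) L69930 (by decide +kernel)
theorem L69932 : W_22 (nat_lit 4) (nat_lit 0x40002000080016000a8003c00020001000000000000000000) (nat_lit 0x0) (nat_lit 0x28001c000a000000000) := T_22 (nat_lit 56) (nat_lit 73) (nat_lit 6) (nat_lit 4) (nat_lit 7) L69931 (by decide +kernel)
theorem L69933 : W_22 (nat_lit 5) (nat_lit 0x40002000080016000a8003c00020000000000000000000000) (nat_lit 0x0) (nat_lit 0x100000000000038001c000a000000000) := T_22 (nat_lit 72) (nat_lit 124) (nat_lit 7) (nat_lit 4) (nat_lit 4) L69932 (by decide +kernel)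
theorem L69934 : W_22 (nat_lit 6) (nat_lit 0x40002000080016000a8003c00000000000000000000000000) (nat_lit 0x0) (nat_lit 0x100000000300038001c000a000000000) := T_22 (nat_lit 89) (nat_lit 88) (nat_lit 0) (nat_lit 7) (nat_lit 6) L69933 (by decide +kernel)
theorem L69935 : W_22 (nat_lit 7) (nat_lit 0x40002000080016000a0003c00000000000000000000000000) (nat_lit 0x0) (nat_lit 0x1c0000000300038001c000a000000000) := T_22 (nat_lit 123) (nat_lit 122) (nat_lit 1) (nat_lit 7) (nat_lit 6) L69934 (by decide +kernel)
theorem L69936 : W_22 (nat_lit 8) (nat_lit 0x40002000080016000a0003800000000000000000000000000) (nat_lit 0x0) (nat_lit 0x5c0004000300038001c000a000000000) := T_22 (nat_lit 106) (nat_lit 126) (nat_lit 3) (nat_lit 4) (nat_lit 6) L69935 (by decide +kernel)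
theorem L69937 : W_22 (nat_lit 9) (nat_lit 0x40002000080016000a0001800000000000000000000000000) (nat_lit 0x0) (nat_lit 0x5c0024001300038001c000a000000000) := T_22 (nat_lit 109) (nat_lit 92) (nat_lit 6) (nat_lit 6) (nat_lit 9) L69936 (by decide +kernel)
theorem L69938 : W_22 (nat_lit 10) (nat_lit 0x40002000080016000a0001000000000000000000000000000) (nat_lit 0x0) (nat_lit 0x5c002c001700038001c000a000000000) := T_22 (nat_lit 107) (nat_lit 90) (nat_lit 4) (nat_lit 6) (nat_lit 9) L69937 (by decide +kernel)
theorem L69939 : W_22 (nat_lit 11) (nat_lit 0x40002000080016000a0000000000000000000000000000000) (nat_lit 0x0) (nat_lit 0x8000400000005c003c001f00038001c000a000000000) := Q_22 (nat_lit 108) (C_22 L69938 (C_22 L69929 N_22)) (by decide +kernel)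
theorem L69940 : W_22 (nat_lit 12) (nat_lit 0x4000200008001600080000000000000000000000000000000) (nat_lit 0x0) (nat_lit 0x18000400000007c003c001f00038001c000a000000000) := T_22 (nat_lit 125) (nat_lit 176) (nat_lit 7) (nat_lit 6) (nat_lit 7) L69939 (by decide +kernel)
theorem L69941 : W_22 (nat_lit 15) (nat_lit 0x4000200000001600080000000000000000000000000000000) (nat_lit 0x0) (nat_lit 0x1c001f000fe007f00398005f001f8001c007c003c001f00038001c000a000000000) := Q_22 (nat_lit 159) (C_22 L69915 (C_22 L69928 (C_22 L69940 N_22))) (by decide +kernel)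
theorem L69942 : W_22 (nat_lit 16) (nat_lit 0x4000200000001200080000000000000000000000000000000) (nat_lit 0x0) (nat_lit 0x1c001f000fe007f00398005f001f800dc007c003c001f00038001c000a000000000) := Q_22 (nat_lit 142) (C_22 L69884 (C_22 L69774 (C_22 L69889 (C_22 L69941 N_22)))) (by decide +kernel)
theorem L69943 : W_22 (nat_lit 17) (nat_lit 0x200000001200080000000000000000000000000000000) (nat_lit 0x0) (nat_lit 0x4001e001f000ff007f80fde03df01ff800dc007f003f001f800f8001c000a000000000) := Q_22 (nat_lit 194) (C_22 L69595 (C_22 L69777 (C_22 L69783 (C_22 L69784 (C_22 L69883 (C_22 L69942 N_22)))))) (by decide +kernel)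
theorem L69944 : W_22 (nat_lit 2) (nat_lit 0x200020001600080000000000000000000000000000000) (nat_lit 0x0) (nat_lit 0x40000800100000000000000000000000000000000) := D_22 (nat_lit 143) (nat_lit 128) (nat_lit 162) (nat_lit 2) (nat_lit 5) (nat_lit 8) (nat_lit 3) (nat_lit 5) (nat_lit 8) (by decide +kernel)
theorem L69945 : W_22 (nat_lit 9) (nat_lit 0x600024001e00080000000000000000000000000000000) (nat_lit 0x0) (nat_lit 0x300118009c00080000000380018000c0000000000000000000000) := T_22 (nat_lit 124) (nat_lit 123) (nat_lit 0) (nat_lit 8) (nat_lit 8) L67452 (by decide +kernel)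
theorem L69946 : W_22 (nat_lit 10) (nat_lit 0x600020001e00080000000000000000000000000000000) (nat_lit 0x0) (nat_lit 0x300118009c000e0000000380018000c0000000000000000000000) := T_22 (nat_lit 158) (nat_lit 157) (nat_lit 1) (nat_lit 8) (nat_lit 8) L69945 (by decide +kernel)
theorem L69947 : W_22 (nat_lit 11) (nat_lit 0x600020001600080000000000000000000000000000000) (nat_lit 0x0) (nat_lit 0x300118009c004e0008000380018000c0000000000000000000000) := T_22 (nat_lit 143) (nat_lit 162) (nat_lit 3) (nat_lit 5) (nat_lit 8) L69946 (by decide +kernel)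
theorem L69948 : W_22 (nat_lit 12) (nat_lit 0x200020001600080000000000000000000000000000000) (nat_lit 0x0) (nat_lit 0x30015800dc004e0008000380018000c0000000000000000000000) := T_22 (nat_lit 178) (nat_lit 194) (nat_lit 5) (nat_lit 8) (nat_lit 7) L69947 (by decide +kernel)
theorem L69949 : W_22 (nat_lit 2) (nat_lit 0x1000280024001700080000000000000000000000000000000) (nat_lit 0x0) (nat_lit 0x2000000000000a000000000000000000000000000000000000000) := D_22 (nat_lit 209) (nat_lit 159) (nat_lit 157) (nat_lit 6) (nat_lit 5) (nat_lit 12) (nat_lit 4) (nat_lit 5) (nat_lit 12) (by decide +kernel)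
theorem L69950 : W_22 (nat_lit 3) (nat_lit 0x1000280024001600080000000000000000000000000000000) (nat_lit 0x0) (nat_lit 0x2000000000000a000100008000000000000000000000000000000) := T_22 (nat_lit 140) (nat_lit 123) (nat_lit 4) (nat_lit 5) (nat_lit 11) L69949 (by decide +kernel)
theorem L69951 : W_22 (nat_lit 2) (nat_lit 0x18002c0024001700080000000000000000000000000000000) (nat_lit 0x0) (nat_lit 0x400500000000000000000000000000000000000000000000) := D_22 (nat_lit 176) (nat_lit 178) (nat_lit 190) (nat_lit 1) (nat_lit 8) (nat_lit 10) (nat_lit 1) (nat_lit 7) (nat_lit 10) (by decide +kernel)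
theorem L69952 : W_22 (nat_lit 3) (nat_lit 0x1800280024001700080000000000000000000000000000000) (nat_lit 0x0) (nat_lit 0x400540000000000010000000000000000000000000000000) := T_22 (nat_lit 174) (nat_lit 124) (nat_lit 5) (nat_lit 5) (nat_lit 7) L69951 (by decide +kernel)
theorem L69953 : W_22 (nat_lit 4) (nat_lit 0x1000280024001700080000000000000000000000000000000) (nat_lit 0x0) (nat_lit 0x10000c00540000000000010000000000000000000000000000000) := T_22 (nat_lit 191) (nat_lit 208) (nat_lit 5) (nat_lit 5) (nat_lit 8) L69952 (by decide +kernel)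
theorem L69954 : W_22 (nat_lit 5) (nat_lit 0x1000280024001600080000000000000000000000000000000) (nat_lit 0x0) (nat_lit 0x10000c00540000000100018000000000000000000000000000000) := T_22 (nat_lit 140) (nat_lit 123) (nat_lit 4) (nat_lit 5) (nat_lit 11) L69953 (by decide +kernel)
theorem L69955 : W_22 (nat_lit 2) (nat_lit 0x20001000280024001600080000000000000000000000000000000) (nat_lit 0x0) (nat_lit 0x200010000800000000000000000000000000000000000000000000000) := D_22 (nat_lit 208) (nat_lit 225) (nat_lit 191) (nat_lit 5) (nat_lit 5) (nat_lit 9) (nat_lit 5) (nat_lit 5) (nat_lit 8) (by decide +kernel)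
theorem L69956 : W_22 (nat_lit 3) (nat_lit 0x1000280024001600080000000000000000000000000000000) (nat_lit 0x0) (nat_lit 0x200030000800000008000000000000000000000000000000000000000) := T_22 (nat_lit 209) (nat_lit 159) (nat_lit 6) (nat_lit 5) (nat_lit 12) L69955 (by decide +kernel)
theorem L69957 : W_22 (nat_lit 6) (nat_lit 0x280024001600080000000000000000000000000000000) (nat_lit 0x0) (nat_lit 0x200030001c0054000a000100018000000000000000000000000000000) := Q_22 (nat_lit 192) (C_22 L69950 (C_22 L69954 (C_22 L69956 N_22))) (by decide +kernel)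
theorem L69958 : W_22 (nat_lit 4) (nat_lit 0x280024001600080000000000000000000000000000000) (nat_lit 0x0) (nat_lit 0x200030001800000008000000020000000000000000000000000000000) := T_22 (nat_lit 192) (nat_lit 125) (nat_lit 6) (nat_lit 5) (nat_lit 11) L69956 (by decide +kernel)
theorem L69959 : W_22 (nat_lit 6) (nat_lit 0x280024001600080000000000000000000000000000000) (nat_lit 0x0) (nat_lit 0x10001c00540000000100038000000000000000000000000000000) := T_22 (nat_lit 192) (nat_lit 125) (nat_lit 6) (nat_lit 5) (nat_lit 11) L69954 (by decide +kernel)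
theorem L69960 : W_22 (nat_lit 4) (nat_lit 0x280024001600080000000000000000000000000000000) (nat_lit 0x0) (nat_lit 0x2000100000000a000100028000000000000000000000000000000) := T_22 (nat_lit 192) (nat_lit 125) (nat_lit 6) (nat_lit 5) (nat_lit 11) L69950 (by decide +kernel)
theorem L69961 : W_22 (nat_lit 2) (nat_lit 0x2c00240016000ba000800000000000000000000000000) (nat_lit 0x0) (nat_lit 0x8000000000000000040002000000000000000000) := D_22 (nat_lit 90) (nat_lit 159) (nat_lit 73) (nat_lit 7) (nat_lit 5) (nat_lit 5) (nat_lit 7) (nat_lit 5) (nat_lit 4) (by decide +kernel)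
theorem L69962 : W_22 (nat_lit 3) (nat_lit 0x2c00240016000ba000000000000000000000000000000) (nat_lit 0x0) (nat_lit 0xa000000000000800040002000000000000000000) := T_22 (nat_lit 107) (nat_lit 157) (nat_lit 5) (nat_lit 5) (nat_lit 6) L69961 (by decide +kernel)
theorem L69963 : W_22 (nat_lit 4) (nat_lit 0x2800240016000ba000000000000000000000000000000) (nat_lit 0x0) (nat_lit 0x80004000a000000000000800040002000000000000000000) := T_22 (nat_lit 174) (nat_lit 191) (nat_lit 5) (nat_lit 5) (nat_lit 7) L69962 (by decide +kernel)
theorem L69964 : W_22 (nat_lit 5) (nat_lit 0x28002400160009a000000000000000000000000000000) (nat_lit 0x0) (nat_lit 0x80004000a000000020001800040002000000000000000000) := T_22 (nat_lit 125) (nat_lit 108) (nat_lit 6) (nat_lit 5) (nat_lit 10) L69963 (by decide +kernel)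
theorem L69965 : W_22 (nat_lit 6) (nat_lit 0x280024001600098000000000000000000000000000000) (nat_lit 0x0) (nat_lit 0x80004000a000000026001800040002000000000000000000) := T_22 (nat_lit 121) (nat_lit 122) (nat_lit 3) (nat_lit 2) (nat_lit 7) L69964 (by decide +kernel)
theorem L69966 : W_22 (nat_lit 7) (nat_lit 0x280024001600090000000000000000000000000000000) (nat_lit 0x0) (nat_lit 0x80004000a00000002e001c00040002000000000000000000) := T_22 (nat_lit 123) (nat_lit 106) (nat_lit 4) (nat_lit 5) (nat_lit 10) L69965 (by decide +kernel)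
theorem L69967 : W_22 (nat_lit 2) (nat_lit 0x2c0024001600090000800000000000000000000000000) (nat_lit 0x0) (nat_lit 0x8000400020000000000000000000000) := D_22 (nat_lit 106) (nat_lit 89) (nat_lit 123) (nat_lit 4) (nat_lit 5) (nat_lit 9) (nat_lit 4) (nat_lit 5) (nat_lit 10) (by decide +kernel)
theorem L69968 : W_22 (nat_lit 3) (nat_lit 0x2c0024001600090000000000000000000000000000000) (nat_lit 0x0) (nat_lit 0x2000000008000c00020000000000000000000000) := T_22 (nat_lit 107) (nat_lit 157) (nat_lit 5) (nat_lit 5) (nat_lit 6) L69967 (by decide +kernel)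
theorem L69969 : W_22 (nat_lit 4) (nat_lit 0x280024001600090000000000000000000000000000000) (nat_lit 0x0) (nat_lit 0x800040002000000008000c00020000000000000000000000) := T_22 (nat_lit 174) (nat_lit 191) (nat_lit 5) (nat_lit 5) (nat_lit 7) L69968 (by decide +kernel)
theorem L69970 : W_22 (nat_lit 2) (nat_lit 0x2c002400160009a001800000000000000000000000000) (nat_lit 0x0) (nat_lit 0x100008000000000000000040000000000000000000000) := D_22 (nat_lit 159) (nat_lit 90) (nat_lit 176) (nat_lit 7) (nat_lit 5) (nat_lit 5) (nat_lit 7) (nat_lit 5) (nat_lit 6) (by decide +kernel)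
theorem L69971 : W_22 (nat_lit 3) (nat_lit 0x2c002400160009a001000000000000000000000000000) (nat_lit 0x0) (nat_lit 0x1000080000000000008000c0000000000000000000000) := T_22 (nat_lit 107) (nat_lit 91) (nat_lit 6) (nat_lit 5) (nat_lit 9) L69970 (by decide +kernel)
theorem L69972 : W_22 (nat_lit 4) (nat_lit 0x28002400160009a001000000000000000000000000000) (nat_lit 0x0) (nat_lit 0x8001400080000000000008000c0000000000000000000000) := T_22 (nat_lit 174) (nat_lit 191) (nat_lit 5) (nat_lit 5) (nat_lit 7) L69971 (by decide +kernel)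
theorem L69973 : W_22 (nat_lit 5) (nat_lit 0x28002400160009a000000000000000000000000000000) (nat_lit 0x0) (nat_lit 0x8001400080000000200018000c0000000000000000000000) := T_22 (nat_lit 108) (nat_lit 125) (nat_lit 6) (nat_lit 5) (nat_lit 10) L69972 (by decide +kernel)
theorem L69974 : W_22 (nat_lit 6) (nat_lit 0x280024001600098000000000000000000000000000000) (nat_lit 0x0) (nat_lit 0x8001400080000000260018000c0000000000000000000000) := T_22 (nat_lit 121) (nat_lit 122) (nat_lit 3) (nat_lit 2) (nat_lit 7) L69973 (by decide +kernel)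
theorem L69975 : W_22 (nat_lit 7) (nat_lit 0x280024001600090000000000000000000000000000000) (nat_lit 0x0) (nat_lit 0x80014000800000002e001c000c0000000000000000000000) := T_22 (nat_lit 123) (nat_lit 106) (nat_lit 4) (nat_lit 5) (nat_lit 10) L69974 (by decide +kernel)
theorem L69976 : W_22 (nat_lit 2) (nat_lit 0x2c00240016800bc000200000000000000000000000000) (nat_lit 0x0) (nat_lit 0x3000100000000000000000000000000000000000) := D_22 (nat_lit 157) (nat_lit 140) (nat_lit 156) (nat_lit 4) (nat_lit 4) (nat_lit 10) (nat_lit 7) (nat_lit 3) (nat_lit 6) (by decide +kernel)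
theorem L69977 : W_22 (nat_lit 3) (nat_lit 0x2c00240016800bc000000000000000000000000000000) (nat_lit 0x0) (nat_lit 0x3000100000000300000000000000000000000000) := T_22 (nat_lit 105) (nat_lit 104) (nat_lit 0) (nat_lit 6) (nat_lit 7) L69976 (by decide +kernel)
theorem L69978 : W_22 (nat_lit 4) (nat_lit 0x2c00240016000bc000000000000000000000000000000) (nat_lit 0x0) (nat_lit 0x30001c0000000300000000000000000000000000) := T_22 (nat_lit 139) (nat_lit 138) (nat_lit 1) (nat_lit 6) (nat_lit 7) L69977 (by decide +kernel)
theorem L69979 : W_22 (nat_lit 5) (nat_lit 0x2c002400160009c000000000000000000000000000000) (nat_lit 0x0) (nat_lit 0x30001c0020001300000000000000000000000000) := T_22 (nat_lit 125) (nat_lit 108) (nat_lit 6) (nat_lit 5) (nat_lit 10) L69978 (by decide +kernel)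
theorem L69980 : W_22 (nat_lit 6) (nat_lit 0x2c0024001600098000000000000000000000000000000) (nat_lit 0x0) (nat_lit 0x30001c0026001300000000000000000000000000) := T_22 (nat_lit 122) (nat_lit 121) (nat_lit 3) (nat_lit 2) (nat_lit 7) L69979 (by decide +kernel)
theorem L69981 : W_22 (nat_lit 7) (nat_lit 0x2c0024001600090000000000000000000000000000000) (nat_lit 0x0) (nat_lit 0x30001c002e001700000000000000000000000000) := T_22 (nat_lit 123) (nat_lit 106) (nat_lit 4) (nat_lit 5) (nat_lit 10) L69980 (by decide +kernel)
theorem L69982 : W_22 (nat_lit 8) (nat_lit 0x280024001600090000000000000000000000000000000) (nat_lit 0x0) (nat_lit 0x8000400030001c002e001700000000000000000000000000) := T_22 (nat_lit 174) (nat_lit 191) (nat_lit 5) (nat_lit 5) (nat_lit 7) L69981 (by decide +kernel)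
theorem L69983 : W_22 (nat_lit 2) (nat_lit 0x2800240016000b0000c00000000000000000000000000) (nat_lit 0x0) (nat_lit 0x100008000000000000000040000000000000000000000) := D_22 (nat_lit 159) (nat_lit 176) (nat_lit 90) (nat_lit 7) (nat_lit 5) (nat_lit 6) (nat_lit 7) (nat_lit 5) (nat_lit 5) (by decide +kernel)
theorem L69984 : W_22 (nat_lit 3) (nat_lit 0x2800240016000b0000400000000000000000000000000) (nat_lit 0x0) (nat_lit 0x100008000000000000800060000000000000000000000) := T_22 (nat_lit 107) (nat_lit 89) (nat_lit 4) (nat_lit 5) (nat_lit 9) L69983 (by decide +kernel)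
theorem L69985 : W_22 (nat_lit 4) (nat_lit 0x2800240016000b0000000000000000000000000000000) (nat_lit 0x0) (nat_lit 0x100008000000008000c00060000000000000000000000) := T_22 (nat_lit 106) (nat_lit 123) (nat_lit 4) (nat_lit 5) (nat_lit 10) L69984 (by decide +kernel)
theorem L69986 : W_22 (nat_lit 5) (nat_lit 0x280024001600090000000000000000000000000000000) (nat_lit 0x0) (nat_lit 0x100008000000028001c00060000000000000000000000) := T_22 (nat_lit 125) (nat_lit 108) (nat_lit 6) (nat_lit 5) (nat_lit 10) L69985 (by decide +kernel)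
theorem L69987 : W_22 (nat_lit 2) (nat_lit 0x2c0024001600090000800000000000000000000000000) (nat_lit 0x0) (nat_lit 0x20001000080000000000000000000000) := D_22 (nat_lit 108) (nat_lit 125) (nat_lit 91) (nat_lit 6) (nat_lit 5) (nat_lit 10) (nat_lit 6) (nat_lit 5) (nat_lit 9) (by decide +kernel)
theorem L69988 : W_22 (nat_lit 3) (nat_lit 0x2c0024001600090000000000000000000000000000000) (nat_lit 0x0) (nat_lit 0x2000000020001800080000000000000000000000) := T_22 (nat_lit 107) (nat_lit 157) (nat_lit 5) (nat_lit 5) (nat_lit 6) L69987 (by decide +kernel)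
theorem L69989 : W_22 (nat_lit 4) (nat_lit 0x280024001600090000000000000000000000000000000) (nat_lit 0x0) (nat_lit 0x800040002000000020001800080000000000000000000000) := T_22 (nat_lit 174) (nat_lit 191) (nat_lit 5) (nat_lit 5) (nat_lit 7) L69988 (by decide +kernel)
theorem L69990 : W_22 (nat_lit 9) (nat_lit 0x280024001600080000000000000000000000000000000) (nat_lit 0x0) (nat_lit 0x80014000b0001c003e001f000e0002000000000000000000) := Q_22 (nat_lit 124) (C_22 L69966 (C_22 L69969 (C_22 L69975 (C_22 L69982 (C_22 L69986 (C_22 L69989 N_22)))))) (by decide +kernel)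
theorem L69991 : W_22 (nat_lit 10) (nat_lit 0x280020001600080000000000000000000000000000000) (nat_lit 0x0) (nat_lit 0x200030001c0054000f0001c003e001f000e0002000000000000000000) := Q_22 (nat_lit 158) (C_22 L69957 (C_22 L69958 (C_22 L69959 (C_22 L69960 (C_22 L69990 N_22))))) (by decide +kernel)
theorem L69992 : W_22 (nat_lit 2) (nat_lit 0x780020001600080000000000000000000000000000000) (nat_lit 0x0) (nat_lit 0x18000800000000000000000000000000000000000000000000) := D_22 (nat_lit 196) (nat_lit 179) (nat_lit 195) (nat_lit 7) (nat_lit 8) (nat_lit 7) (nat_lit 3) (nat_lit 5) (nat_lit 10) (by decide +kernel)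
theorem L69993 : W_22 (nat_lit 3) (nat_lit 0x680020001600080000000000000000000000000000000) (nat_lit 0x0) (nat_lit 0x18000900040000000000000000000000000000000000000000) := T_22 (nat_lit 176) (nat_lit 162) (nat_lit 2) (nat_lit 5) (nat_lit 10) L69992 (by decide +kernel)
theorem L69994 : W_22 (nat_lit 4) (nat_lit 0x280020001600080000000000000000000000000000000) (nat_lit 0x0) (nat_lit 0x1c000d00040000000000000000000000000000000000000000) := T_22 (nat_lit 178) (nat_lit 194) (nat_lit 5) (nat_lit 8) (nat_lit 7) L69993 (by decide +kernel)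
theorem L69995 : W_22 (nat_lit 2) (nat_lit 0x1800680024001600090000000000000000000000000000000) (nat_lit 0x0) (nat_lit 0x100008000400000000000000000000000000) := D_22 (nat_lit 123) (nat_lit 106) (nat_lit 140) (nat_lit 4) (nat_lit 5) (nat_lit 10) (nat_lit 4) (nat_lit 5) (nat_lit 11) (by decide +kernel)
theorem L69996 : W_22 (nat_lit 3) (nat_lit 0x1800680024001600080000000000000000000000000000000) (nat_lit 0x0) (nat_lit 0x40000000100018000400000000000000000000000000) := T_22 (nat_lit 124) (nat_lit 174) (nat_lit 5) (nat_lit 5) (nat_lit 7) L69995 (by decide +kernel)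
theorem L69997 : W_22 (nat_lit 4) (nat_lit 0x1000680024001600080000000000000000000000000000000) (nat_lit 0x0) (nat_lit 0x10000800040000000100018000400000000000000000000000000) := T_22 (nat_lit 191) (nat_lit 208) (nat_lit 5) (nat_lit 5) (nat_lit 8) L69996 (by decide +kernel)
theorem L69998 : W_22 (nat_lit 5) (nat_lit 0x1000280024001600080000000000000000000000000000000) (nat_lit 0x0) (nat_lit 0x10004800440000000100018000400000000000000000000000000) := T_22 (nat_lit 178) (nat_lit 194) (nat_lit 5) (nat_lit 8) (nat_lit 7) L69997 (by decide +kernel)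
theorem L69999 : W_22 (nat_lit 6) (nat_lit 0x280024001600080000000000000000000000000000000) (nat_lit 0x0) (nat_lit 0x20003000580044000a000100018000400000000000000000000000000) := Q_22 (nat_lit 192) (C_22 L69956 (C_22 L69998 (C_22 L69950 N_22))) (by decide +kernel)
theorem L70000 : W_22 (nat_lit 5) (nat_lit 0x680024001600080000000000000000000000000000000) (nat_lit 0x0) (nat_lit 0x10001800040000000100038000400000000000000000000000000) := T_22 (nat_lit 192) (nat_lit 125) (nat_lit 6) (nat_lit 5) (nat_lit 11) L69997 (by decide +kernel)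
theorem L70001 : W_22 (nat_lit 6) (nat_lit 0x280024001600080000000000000000000000000000000) (nat_lit 0x0) (nat_lit 0x10005800440000000100038000400000000000000000000000000) := T_22 (nat_lit 178) (nat_lit 194) (nat_lit 5) (nat_lit 8) (nat_lit 7) L70000 (by decide +kernel)
theorem L70002 : W_22 (nat_lit 2) (nat_lit 0xec00240016001b0000c00000000000000000000000000) (nat_lit 0x0) (nat_lit 0x8000000000000000040002000000000000000000) := D_22 (nat_lit 90) (nat_lit 73) (nat_lit 159) (nat_lit 7) (nat_lit 5) (nat_lit 4) (nat_lit 7) (nat_lit 5) (nat_lit 5) (by decide +kernel)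
theorem L70003 : W_22 (nat_lit 3) (nat_lit 0xec00240016001b0000400000000000000000000000000) (nat_lit 0x0) (nat_lit 0x8000000000000800060002000000000000000000) := T_22 (nat_lit 107) (nat_lit 89) (nat_lit 4) (nat_lit 5) (nat_lit 9) L70002 (by decide +kernel)
theorem L70004 : W_22 (nat_lit 4) (nat_lit 0xec00240016001b0000000000000000000000000000000) (nat_lit 0x0) (nat_lit 0x8000000008000c00060002000000000000000000) := T_22 (nat_lit 106) (nat_lit 123) (nat_lit 4) (nat_lit 5) (nat_lit 10) L70003 (by decide +kernel)
theorem L70005 : W_22 (nat_lit 5) (nat_lit 0xe800240016001b0000000000000000000000000000000) (nat_lit 0x0) (nat_lit 0x800040008000000008000c00060002000000000000000000) := T_22 (nat_lit 174) (nat_lit 191) (nat_lit 5) (nat_lit 5) (nat_lit 7) L70004 (by decide +kernel)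
theorem L70006 : W_22 (nat_lit 6) (nat_lit 0xe800240016000b0000000000000000000000000000000) (nat_lit 0x0) (nat_lit 0x800040008000000108008c00060002000000000000000000) := T_22 (nat_lit 128) (nat_lit 111) (nat_lit 6) (nat_lit 8) (nat_lit 10) L70005 (by decide +kernel)
theorem L70007 : W_22 (nat_lit 7) (nat_lit 0x6800240016000b0000000000000000000000000000000) (nat_lit 0x0) (nat_lit 0x10800840008000000108008c00060002000000000000000000) := T_22 (nat_lit 179) (nat_lit 196) (nat_lit 7) (nat_lit 8) (nat_lit 7) L70006 (by decide +kernel)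
theorem L70008 : W_22 (nat_lit 8) (nat_lit 0x680024001600090000000000000000000000000000000) (nat_lit 0x0) (nat_lit 0x10800840008000000128009c00060002000000000000000000) := T_22 (nat_lit 125) (nat_lit 108) (nat_lit 6) (nat_lit 5) (nat_lit 10) L70007 (by decide +kernel)
theorem L70009 : W_22 (nat_lit 9) (nat_lit 0x280024001600090000000000000000000000000000000) (nat_lit 0x0) (nat_lit 0x14800c40008000000128009c00060002000000000000000000) := T_22 (nat_lit 178) (nat_lit 194) (nat_lit 5) (nat_lit 8) (nat_lit 7) L70008 (by decide +kernel)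
theorem L70010 : W_22 (nat_lit 2) (nat_lit 0xe8002400160019a001800040000000000000000000000) (nat_lit 0x0) (nat_lit 0x2000100000000000000002000000000000000000) := D_22 (nat_lit 140) (nat_lit 157) (nat_lit 73) (nat_lit 5) (nat_lit 5) (nat_lit 5) (nat_lit 5) (nat_lit 5) (nat_lit 4) (by decide +kernel)
theorem L70011 : W_22 (nat_lit 3) (nat_lit 0xe8002400160019a001800000000000000000000000000) (nat_lit 0x0) (nat_lit 0xa000100000000000040002000000000000000000) := T_22 (nat_lit 90) (nat_lit 159) (nat_lit 7) (nat_lit 5) (nat_lit 5) L70010 (by decide +kernel)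
theorem L70012 : W_22 (nat_lit 4) (nat_lit 0xe8002400160009a001800000000000000000000000000) (nat_lit 0x0) (nat_lit 0xa000100100008000040002000000000000000000) := T_22 (nat_lit 128) (nat_lit 111) (nat_lit 6) (nat_lit 8) (nat_lit 10) L70011 (by decide +kernel)
theorem L70013 : W_22 (nat_lit 5) (nat_lit 0xe8002400160009a001000000000000000000000000000) (nat_lit 0x0) (nat_lit 0xa0001001000088000c0002000000000000000000) := T_22 (nat_lit 107) (nat_lit 91) (nat_lit 6) (nat_lit 5) (nat_lit 9) L70012 (by decide +kernel)
theorem L70014 : W_22 (nat_lit 6) (nat_lit 0x68002400160009a001000000000000000000000000000) (nat_lit 0x0) (nat_lit 0x1000080000a0001001000088000c0002000000000000000000) := T_22 (nat_lit 179) (nat_lit 196) (nat_lit 7) (nat_lit 8) (nat_lit 7) L70013 (by decide +kernel)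
theorem L70015 : W_22 (nat_lit 7) (nat_lit 0x68002400160009a000000000000000000000000000000) (nat_lit 0x0) (nat_lit 0x1000080000a0001001200098000c0002000000000000000000) := T_22 (nat_lit 108) (nat_lit 125) (nat_lit 6) (nat_lit 5) (nat_lit 10) L70014 (by decide +kernel)
theorem L70016 : W_22 (nat_lit 8) (nat_lit 0x28002400160009a000000000000000000000000000000) (nat_lit 0x0) (nat_lit 0x14000c0000a0001001200098000c0002000000000000000000) := T_22 (nat_lit 178) (nat_lit 194) (nat_lit 5) (nat_lit 8) (nat_lit 7) L70015 (by decide +kernel)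
theorem L70017 : W_22 (nat_lit 9) (nat_lit 0x280024001600098000000000000000000000000000000) (nat_lit 0x0) (nat_lit 0x14000c0000a0001001260098000c0002000000000000000000) := T_22 (nat_lit 121) (nat_lit 122) (nat_lit 3) (nat_lit 2) (nat_lit 7) L70016 (by decide +kernel)
theorem L70018 : W_22 (nat_lit 10) (nat_lit 0x280024001600090000000000000000000000000000000) (nat_lit 0x0) (nat_lit 0x14000c0000a00010012e009c000c0002000000000000000000) := T_22 (nat_lit 123) (nat_lit 106) (nat_lit 4) (nat_lit 5) (nat_lit 10) L70017 (by decide +kernel)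
theorem L70019 : W_22 (nat_lit 11) (nat_lit 0x280024001600080000000000000000000000000000000) (nat_lit 0x0) (nat_lit 0x14800c4000b0001c013e009f000e0002000000000000000000) := Q_22 (nat_lit 124) (C_22 L69989 (C_22 L69969 (C_22 L70009 (C_22 L69982 (C_22 L70018 N_22))))) (by decide +kernel)
theorem L70020 : W_22 (nat_lit 12) (nat_lit 0x280020001600080000000000000000000000000000000) (nat_lit 0x0) (nat_lit 0x200030015800c4000f0001c013e009f000e0002000000000000000000) := Q_22 (nat_lit 158) (C_22 L69999 (C_22 L70001 (C_22 L69960 (C_22 L69958 (C_22 L70019 N_22))))) (by decide +kernel)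
theorem L70021 : W_22 (nat_lit 2) (nat_lit 0x80000000600018002c0024001700080000000000000000000000000000000) (nat_lit 0x0) (nat_lit 0x600100000000000000000000000000000000000000000000) := D_22 (nat_lit 190) (nat_lit 189) (nat_lit 176) (nat_lit 3) (nat_lit 2) (nat_lit 11) (nat_lit 1) (nat_lit 7) (nat_lit 10) (by decide +kernel)
theorem L70022 : W_22 (nat_lit 3) (nat_lit 0x80000000200018002c0024001700080000000000000000000000000000000) (nat_lit 0x0) (nat_lit 0x800040000600100000000000000000000000000000000000000000000) := T_22 (nat_lit 210) (nat_lit 227) (nat_lit 7) (nat_lit 5) (nat_lit 9) L70021 (by decide +kernel)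
theorem L70023 : W_22 (nat_lit 4) (nat_lit 0x200018002c0024001700080000000000000000000000000000000) (nat_lit 0x0) (nat_lit 0x8000c00040000600100000000000000000000000000000000000000000000) := T_22 (nat_lit 243) (nat_lit 226) (nat_lit 4) (nat_lit 5) (nat_lit 14) L70022 (by decide +kernel)
theorem L70024 : W_22 (nat_lit 5) (nat_lit 0x18002c0024001700080000000000000000000000000000000) (nat_lit 0x0) (nat_lit 0x8000c00060000600100002000000000000000000000000000000000000000) := T_22 (nat_lit 209) (nat_lit 157) (nat_lit 7) (nat_lit 4) (nat_lit 8) L70023 (by decide +kernel)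
theorem L70025 : W_22 (nat_lit 6) (nat_lit 0x1800280024001700080000000000000000000000000000000) (nat_lit 0x0) (nat_lit 0x8000c00060000600140002000000010000000000000000000000000000000) := T_22 (nat_lit 174) (nat_lit 124) (nat_lit 5) (nat_lit 5) (nat_lit 7) L70024 (by decide +kernel)
theorem L70026 : W_22 (nat_lit 7) (nat_lit 0x1000280024001700080000000000000000000000000000000) (nat_lit 0x0) (nat_lit 0x8000c00070000e00140002000000010000000000000000000000000000000) := T_22 (nat_lit 191) (nat_lit 208) (nat_lit 5) (nat_lit 5) (nat_lit 8) L70025 (by decide +kernel)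
theorem L70027 : W_22 (nat_lit 8) (nat_lit 0x1000280024001600080000000000000000000000000000000) (nat_lit 0x0) (nat_lit 0x8000c00070000e00140002000100018000000000000000000000000000000) := T_22 (nat_lit 140) (nat_lit 123) (nat_lit 4) (nat_lit 5) (nat_lit 11) L70026 (by decide +kernel)
theorem L70028 : W_22 (nat_lit 2) (nat_lit 0x58003c0026001780080000000000000000000000000000000) (nat_lit 0x0) (nat_lit 0x8000060000000000000000000000000000000000) := D_22 (nat_lit 138) (nat_lit 159) (nat_lit 137) (nat_lit 3) (nat_lit 2) (nat_lit 8) (nat_lit 3) (nat_lit 1) (nat_lit 8) (by decide +kernel)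
theorem L70029 : W_22 (nat_lit 3) (nat_lit 0x58003c0026001700080000000000000000000000000000000) (nat_lit 0x0) (nat_lit 0x80000e0004000000000000000000000000000000) := T_22 (nat_lit 139) (nat_lit 122) (nat_lit 4) (nat_lit 4) (nat_lit 11) L70028 (by decide +kernel)
theorem L70030 : W_22 (nat_lit 4) (nat_lit 0x18003c0026001700080000000000000000000000000000000) (nat_lit 0x0) (nat_lit 0xc0000000080000e0004000000000000000000000000000000) := T_22 (nat_lit 194) (nat_lit 195) (nat_lit 3) (nat_lit 4) (nat_lit 10) L70029 (by decide +kernel)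
theorem L70031 : W_22 (nat_lit 5) (nat_lit 0x18003c0024001700080000000000000000000000000000000) (nat_lit 0x0) (nat_lit 0xc00000000b0000e0004000000000000000000000000000000) := T_22 (nat_lit 157) (nat_lit 156) (nat_lit 0) (nat_lit 7) (nat_lit 10) L70030 (by decide +kernel)
theorem L70032 : W_22 (nat_lit 6) (nat_lit 0x18002c0024001700080000000000000000000000000000000) (nat_lit 0x0) (nat_lit 0xc40010000b0000e0004000000000000000000000000000000) := T_22 (nat_lit 176) (nat_lit 190) (nat_lit 1) (nat_lit 7) (nat_lit 10) L70031 (by decide +kernel)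
theorem L70033 : W_22 (nat_lit 7) (nat_lit 0x1800280024001700080000000000000000000000000000000) (nat_lit 0x0) (nat_lit 0xc40014000b0000e0014000000000000000000000000000000) := T_22 (nat_lit 174) (nat_lit 124) (nat_lit 5) (nat_lit 5) (nat_lit 7) L70032 (by decide +kernel)
theorem L70034 : W_22 (nat_lit 8) (nat_lit 0x1000280024001700080000000000000000000000000000000) (nat_lit 0x0) (nat_lit 0x1000cc0014000b0000e0014000000000000000000000000000000) := T_22 (nat_lit 191) (nat_lit 208) (nat_lit 5) (nat_lit 5) (nat_lit 8) L70033 (by decide +kernel)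
theorem L70035 : W_22 (nat_lit 9) (nat_lit 0x1000280024001600080000000000000000000000000000000) (nat_lit 0x0) (nat_lit 0x1000cc0014000b0001e001c000000000000000000000000000000) := T_22 (nat_lit 140) (nat_lit 123) (nat_lit 4) (nat_lit 5) (nat_lit 11) L70034 (by decide +kernel)
theorem L70036 : W_22 (nat_lit 10) (nat_lit 0x280024001600080000000000000000000000000000000) (nat_lit 0x0) (nat_lit 0x8000e0007000de0014000b0001e001c000000000000000000000000000000) := Q_22 (nat_lit 192) (C_22 L69956 (C_22 L70027 (C_22 L69950 (C_22 L70035 N_22)))) (by decide +kernel)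
theorem L70037 : W_22 (nat_lit 9) (nat_lit 0x280024001600080000000000000000000000000000000) (nat_lit 0x0) (nat_lit 0x8000c00070001e00140002000100038000000000000000000000000000000) := T_22 (nat_lit 192) (nat_lit 125) (nat_lit 6) (nat_lit 5) (nat_lit 11) L70027 (by decide +kernel)
theorem L70038 : W_22 (nat_lit 11) (nat_lit 0x280020001600080000000000000000000000000000000) (nat_lit 0x0) (nat_lit 0x8000e0007000de0014000f0001e003e001f000e0002000000000000000000) := Q_22 (nat_lit 158) (C_22 L70036 (C_22 L69960 (C_22 L70037 (C_22 L69958 (C_22 L69990 N_22))))) (by decide +kernel)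
theorem L70039 : W_22 (nat_lit 13) (nat_lit 0x200020001600080000000000000000000000000000000) (nat_lit 0x0) (nat_lit 0x8000e0007001de00dc004f0001e013e009f000e0002000000000000000000) := Q_22 (nat_lit 175) (C_22 L69991 (C_22 L69994 (C_22 L70020 (C_22 L70038 N_22)))) (by decide +kernel)
theorem L70040 : W_22 (nat_lit 2) (nat_lit 0x600020001600080000000000000000000000000000000) (nat_lit 0x0) (nat_lit 0x800100008000000000000000000000000000) := D_22 (nat_lit 128) (nat_lit 143) (nat_lit 111) (nat_lit 2) (nat_lit 5) (nat_lit 8) (nat_lit 6) (nat_lit 8) (nat_lit 10) (by decide +kernel)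
theorem L70041 : W_22 (nat_lit 3) (nat_lit 0x200020001600080000000000000000000000000000000) (nat_lit 0x0) (nat_lit 0x4000400000000800100008000000000000000000000000000) := T_22 (nat_lit 178) (nat_lit 194) (nat_lit 5) (nat_lit 8) (nat_lit 7) L70040 (by decide +kernel)
theorem L70042 : W_22 (nat_lit 14) (nat_lit 0x200020001200080000000000000000000000000000000) (nat_lit 0x0) (nat_lit 0x8000e0007001de00dc004f000de013e009f000e0002000000000000000000) := Q_22 (nat_lit 142) (C_22 L69944 (C_22 L69948 (C_22 L70039 (C_22 L70041 N_22)))) (by decide +kernel)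
theorem L70043 : W_22 (nat_lit 3) (nat_lit 0x200020001200080000000000000000000000000000000) (nat_lit 0x0) (nat_lit 0x80004000400010000800000000000000000000000000000000000) := T_22 (nat_lit 194) (nat_lit 178) (nat_lit 5) (nat_lit 8) (nat_lit 7) L69594 (by decide +kernel)
theorem L70044 : W_22 (nat_lit 2) (nat_lit 0x200030001200080000000000000000000000000000000) (nat_lit 0x0) (nat_lit 0x80004000000000000800000000000000000000000000000000000) := D_22 (nat_lit 194) (nat_lit 143) (nat_lit 211) (nat_lit 6) (nat_lit 7) (nat_lit 11) (nat_lit 6) (nat_lit 7) (nat_lit 12) (by decide +kernel)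
theorem L70045 : W_22 (nat_lit 2) (nat_lit 0x200030001a00080000000000000000000000000000000) (nat_lit 0x0) (nat_lit 0x40000400100000000000000000000000000000000) := D_22 (nat_lit 142) (nat_lit 162) (nat_lit 128) (nat_lit 3) (nat_lit 5) (nat_lit 8) (nat_lit 2) (nat_lit 5) (nat_lit 8) (by decide +kernel)
theorem L70046 : W_22 (nat_lit 3) (nat_lit 0x200030001200080000000000000000000000000000000) (nat_lit 0x0) (nat_lit 0x4000000040000c00100000000000000000000000000000000) := T_22 (nat_lit 143) (nat_lit 194) (nat_lit 6) (nat_lit 7) (nat_lit 11) L70045 (by decide +kernel)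
theorem L70047 : W_22 (nat_lit 2) (nat_lit 0x8000000028003c001600080000000000000000000000000000000) (nat_lit 0x0) (nat_lit 0x1000000000000000020001000000000000000000000000000) := D_22 (nat_lit 125) (nat_lit 108) (nat_lit 192) (nat_lit 7) (nat_lit 6) (nat_lit 6) (nat_lit 6) (nat_lit 5) (nat_lit 11) (by decide +kernel)
theorem L70048 : W_22 (nat_lit 3) (nat_lit 0x8000000028003c001200080000000000000000000000000000000) (nat_lit 0x0) (nat_lit 0x1000000040000400020001000000000000000000000000000) := T_22 (nat_lit 142) (nat_lit 162) (nat_lit 0) (nat_lit 9) (nat_lit 9) L70047 (by decide +kernel)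
theorem L70049 : W_22 (nat_lit 4) (nat_lit 0x8000000020003c001200080000000000000000000000000000000) (nat_lit 0x0) (nat_lit 0x10000c0040000400020001000000000000000000000000000) := T_22 (nat_lit 175) (nat_lit 174) (nat_lit 1) (nat_lit 8) (nat_lit 9) L70048 (by decide +kernel)
theorem L70050 : W_22 (nat_lit 5) (nat_lit 0x20003c001200080000000000000000000000000000000) (nat_lit 0x0) (nat_lit 0x800050000c0040000400020001000000000000000000000000000) := T_22 (nat_lit 211) (nat_lit 194) (nat_lit 6) (nat_lit 7) (nat_lit 12) L70049 (by decide +kernel)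
theorem L70051 : W_22 (nat_lit 6) (nat_lit 0x200038001200080000000000000000000000000000000) (nat_lit 0x0) (nat_lit 0x800050000c0044000500020001000000000000000000000000000) := T_22 (nat_lit 158) (nat_lit 140) (nat_lit 0) (nat_lit 8) (nat_lit 9) L70050 (by decide +kernel)
theorem L70052 : W_22 (nat_lit 2) (nat_lit 0x2000fc001200080000000000000000000000000000000) (nat_lit 0x0) (nat_lit 0x3800000000000000000000000000000000000000000000) := D_22 (nat_lit 180) (nat_lit 179) (nat_lit 181) (nat_lit 3) (nat_lit 6) (nat_lit 9) (nat_lit 3) (nat_lit 7) (nat_lit 9) (by decide +kernel)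
theorem L70053 : W_22 (nat_lit 3) (nat_lit 0x20007c001200080000000000000000000000000000000) (nat_lit 0x0) (nat_lit 0x3900080000000000000000000000000000000000000000) := T_22 (nat_lit 163) (nat_lit 176) (nat_lit 1) (nat_lit 10) (nat_lit 9) L70052 (by decide +kernel)
theorem L70054 : W_22 (nat_lit 2) (nat_lit 0x8000000020003f001200080000000000000000000000000000000) (nat_lit 0x0) (nat_lit 0x70000000000000000000000000000000000000000000) := D_22 (nat_lit 173) (nat_lit 172) (nat_lit 174) (nat_lit 1) (nat_lit 6) (nat_lit 9) (nat_lit 1) (nat_lit 7) (nat_lit 9) (by decide +kernel)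
theorem L70055 : W_22 (nat_lit 3) (nat_lit 0x8000000020003e001200080000000000000000000000000000000) (nat_lit 0x0) (nat_lit 0x170001000000000000000000000000000000000000000) := T_22 (nat_lit 156) (nat_lit 176) (nat_lit 3) (nat_lit 3) (nat_lit 9) L70054 (by decide +kernel)
theorem L70056 : W_22 (nat_lit 2) (nat_lit 0x20003e001200080000000000000000000000000000000) (nat_lit 0x0) (nat_lit 0xe0000000000000000000000000000000000000000000) := D_22 (nat_lit 174) (nat_lit 175) (nat_lit 173) (nat_lit 1) (nat_lit 8) (nat_lit 9) (nat_lit 1) (nat_lit 7) (nat_lit 9) (by decide +kernel)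
theorem L70057 : W_22 (nat_lit 4) (nat_lit 0x20003e001200080000000000000000000000000000000) (nat_lit 0x0) (nat_lit 0x80004000170001000000000000000000000000000000000000000) := T_22 (nat_lit 211) (nat_lit 194) (nat_lit 6) (nat_lit 7) (nat_lit 12) L70055 (by decide +kernel)
theorem L70058 : W_22 (nat_lit 2) (nat_lit 0x8000000021003f001240080000000000000000000000000000000) (nat_lit 0x0) (nat_lit 0x8000800020000000000000000000000000000000000) := D_22 (nat_lit 155) (nat_lit 171) (nat_lit 137) (nat_lit 1) (nat_lit 5) (nat_lit 9) (nat_lit 0) (nat_lit 5) (nat_lit 9) (by decide +kernel)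
theorem L70059 : W_22 (nat_lit 3) (nat_lit 0x8000000021003f001200080000000000000000000000000000000) (nat_lit 0x0) (nat_lit 0x80008000e0000000000000000000000000000000000) := T_22 (nat_lit 138) (nat_lit 139) (nat_lit 0) (nat_lit 6) (nat_lit 9) L70058 (by decide +kernel)
theorem L70060 : W_22 (nat_lit 4) (nat_lit 0x8000000020003f001200080000000000000000000000000000000) (nat_lit 0x0) (nat_lit 0x380008000e0000000000000000000000000000000000) := T_22 (nat_lit 172) (nat_lit 173) (nat_lit 1) (nat_lit 6) (nat_lit 9) L70059 (by decide +kernel)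
theorem L70061 : W_22 (nat_lit 5) (nat_lit 0x8000000020003e001200080000000000000000000000000000000) (nat_lit 0x0) (nat_lit 0x1380018000e0000000000000000000000000000000000) := T_22 (nat_lit 156) (nat_lit 176) (nat_lit 3) (nat_lit 3) (nat_lit 9) L70060 (by decide +kernel)
theorem L70062 : W_22 (nat_lit 6) (nat_lit 0x20003e001200080000000000000000000000000000000) (nat_lit 0x0) (nat_lit 0x800040001380018000e0000000000000000000000000000000000) := T_22 (nat_lit 211) (nat_lit 194) (nat_lit 6) (nat_lit 7) (nat_lit 12) L70061 (by decide +kernel)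
theorem L70063 : W_22 (nat_lit 2) (nat_lit 0x30003e001200080000000000000000000000000000000) (nat_lit 0x0) (nat_lit 0xc0040000000000000000000000000000000000000000) := D_22 (nat_lit 175) (nat_lit 174) (nat_lit 162) (nat_lit 2) (nat_lit 4) (nat_lit 10) (nat_lit 1) (nat_lit 9) (nat_lit 9) (by decide +kernel)
theorem L70064 : W_22 (nat_lit 3) (nat_lit 0x20003e001200080000000000000000000000000000000) (nat_lit 0x0) (nat_lit 0x1c0041000000000000000000000000000000000000000) := T_22 (nat_lit 176) (nat_lit 156) (nat_lit 3) (nat_lit 3) (nat_lit 9) L70063 (by decide +kernel)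
theorem L70065 : W_22 (nat_lit 7) (nat_lit 0x20003c001200080000000000000000000000000000000) (nat_lit 0x0) (nat_lit 0x800040001f80438000e0000000000000000000000000000000000) := Q_22 (nat_lit 157) (C_22 L70056 (C_22 L70057 (C_22 L70062 (C_22 L70064 N_22)))) (by decide +kernel)
theorem L70066 : W_22 (nat_lit 8) (nat_lit 0x200038001200080000000000000000000000000000000) (nat_lit 0x0) (nat_lit 0x800040001f80478001e0000000000000000000000000000000000) := T_22 (nat_lit 158) (nat_lit 140) (nat_lit 0) (nat_lit 8) (nat_lit 9) L70065 (by decide +kernel)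
theorem L70067 : W_22 (nat_lit 4) (nat_lit 0x20003c001200080000000000000000000000000000000) (nat_lit 0x0) (nat_lit 0x39000c0000400000000000000000000000000000000000) := T_22 (nat_lit 162) (nat_lit 142) (nat_lit 0) (nat_lit 9) (nat_lit 9) L70053 (by decide +kernel)
theorem L70068 : W_22 (nat_lit 5) (nat_lit 0x200038001200080000000000000000000000000000000) (nat_lit 0x0) (nat_lit 0x39000c4000500000000000000000000000000000000000) := T_22 (nat_lit 158) (nat_lit 140) (nat_lit 0) (nat_lit 8) (nat_lit 9) L70067 (by decide +kernel)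
theorem L70069 : W_22 (nat_lit 2) (nat_lit 0x8000000024003f801200080000000000000000000000000000000) (nat_lit 0x0) (nat_lit 0xe0000000000000000000000000000000000) := D_22 (nat_lit 138) (nat_lit 139) (nat_lit 137) (nat_lit 0) (nat_lit 6) (nat_lit 9) (nat_lit 0) (nat_lit 5) (nat_lit 9) (by decide +kernel)
theorem L70070 : W_22 (nat_lit 3) (nat_lit 0x8000000024003f001200080000000000000000000000000000000) (nat_lit 0x0) (nat_lit 0x8004e0000000000000000000000000000000000) := T_22 (nat_lit 155) (nat_lit 142) (nat_lit 2) (nat_lit 2) (nat_lit 9) L70069 (by decide +kernel)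
theorem L70071 : W_22 (nat_lit 4) (nat_lit 0x8000000024003e001200080000000000000000000000000000000) (nat_lit 0x0) (nat_lit 0x1000018004e0000000000000000000000000000000000) := T_22 (nat_lit 156) (nat_lit 176) (nat_lit 3) (nat_lit 3) (nat_lit 9) L70070 (by decide +kernel)
theorem L70072 : W_22 (nat_lit 5) (nat_lit 0x8000000024003c001200080000000000000000000000000000000) (nat_lit 0x0) (nat_lit 0x1200038004e0000000000000000000000000000000000) := T_22 (nat_lit 157) (nat_lit 173) (nat_lit 1) (nat_lit 7) (nat_lit 9) L70071 (by decide +kernel)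
theorem L70073 : W_22 (nat_lit 6) (nat_lit 0x8000000020003c001200080000000000000000000000000000000) (nat_lit 0x0) (nat_lit 0x1e00038004e0000000000000000000000000000000000) := T_22 (nat_lit 174) (nat_lit 175) (nat_lit 1) (nat_lit 8) (nat_lit 9) L70072 (by decide +kernel)
theorem L70074 : W_22 (nat_lit 7) (nat_lit 0x80000000200038001200080000000000000000000000000000000) (nat_lit 0x0) (nat_lit 0x1e00078005e0000000000000000000000000000000000) := T_22 (nat_lit 158) (nat_lit 140) (nat_lit 0) (nat_lit 8) (nat_lit 9) L70073 (by decide +kernel)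
theorem L70075 : W_22 (nat_lit 8) (nat_lit 0x200038001200080000000000000000000000000000000) (nat_lit 0x0) (nat_lit 0x800040001e00078005e0000000000000000000000000000000000) := T_22 (nat_lit 211) (nat_lit 194) (nat_lit 6) (nat_lit 7) (nat_lit 12) L70074 (by decide +kernel)
theorem L70076 : W_22 (nat_lit 9) (nat_lit 0x200030001200080000000000000000000000000000000) (nat_lit 0x0) (nat_lit 0x800050039f80cf8005e0020001000000000000000000000000000) := Q_22 (nat_lit 159) (C_22 L65536 (C_22 L70051 (C_22 L70066 (C_22 L70068 (C_22 L70075 N_22))))) (by decide +kernel)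
theorem L70077 : W_22 (nat_lit 2) (nat_lit 0x200030001600080000000000000000000000000000000) (nat_lit 0x0) (nat_lit 0x48000800000000000000000000000000000000000) := D_22 (nat_lit 162) (nat_lit 159) (nat_lit 143) (nat_lit 0) (nat_lit 9) (nat_lit 9) (nat_lit 3) (nat_lit 5) (nat_lit 8) (by decide +kernel)
theorem L70078 : W_22 (nat_lit 2) (nat_lit 0x200030001600080000000000000000000000000000000) (nat_lit 0x0) (nat_lit 0x40000800100000000000000000000000000000000) := D_22 (nat_lit 143) (nat_lit 162) (nat_lit 128) (nat_lit 3) (nat_lit 5) (nat_lit 8) (nat_lit 2) (nat_lit 5) (nat_lit 8) (by decide +kernel)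
theorem L70079 : W_22 (nat_lit 2) (nat_lit 0x22000f0009600080000000000000000000000000000000) (nat_lit 0x0) (nat_lit 0x4000100010000000000000000000000000000000000000) := D_22 (nat_lit 164) (nat_lit 148) (nat_lit 182) (nat_lit 2) (nat_lit 8) (nat_lit 9) (nat_lit 3) (nat_lit 8) (nat_lit 9) (by decide +kernel)
theorem L70080 : W_22 (nat_lit 3) (nat_lit 0x2000f0009600080000000000000000000000000000000) (nat_lit 0x0) (nat_lit 0x7000100010000000000000000000000000000000000000) := T_22 (nat_lit 181) (nat_lit 180) (nat_lit 3) (nat_lit 7) (nat_lit 9) L70079 (by decide +kernel)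
theorem L70081 : W_22 (nat_lit 4) (nat_lit 0x2000f0001600080000000000000000000000000000000) (nat_lit 0x0) (nat_lit 0x700010001c000000000000000000000000000000000000) := T_22 (nat_lit 147) (nat_lit 146) (nat_lit 2) (nat_lit 7) (nat_lit 9) L70080 (by decide +kernel)
theorem L70082 : W_22 (nat_lit 5) (nat_lit 0x200070001600080000000000000000000000000000000) (nat_lit 0x0) (nat_lit 0x710018001c000000000000000000000000000000000000) := T_22 (nat_lit 163) (nat_lit 176) (nat_lit 1) (nat_lit 10) (nat_lit 9) L70081 (by decide +kernel)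
theorem L70083 : W_22 (nat_lit 6) (nat_lit 0x200030001600080000000000000000000000000000000) (nat_lit 0x0) (nat_lit 0x71001c801c000000000000000000000000000000000000) := T_22 (nat_lit 162) (nat_lit 159) (nat_lit 0) (nat_lit 9) (nat_lit 9) L70082 (by decide +kernel)
theorem L70084 : W_22 (nat_lit 2) (nat_lit 0x200030001600080000000000000000000000000000000) (nat_lit 0x0) (nat_lit 0x900100000000000000000000000000000000) := D_22 (nat_lit 143) (nat_lit 140) (nat_lit 128) (nat_lit 3) (nat_lit 4) (nat_lit 8) (nat_lit 2) (nat_lit 5) (nat_lit 8) (by decide +kernel)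
theorem L70085 : W_22 (nat_lit 7) (nat_lit 0x200030001200080000000000000000000000000000000) (nat_lit 0x0) (nat_lit 0x71001c801cd00100000000000000000000000000000000) := Q_22 (nat_lit 142) (C_22 L70077 (C_22 L70078 (C_22 L70083 (C_22 L70084 N_22)))) (by decide +kernel)
theorem L70086 : W_22 (nat_lit 10) (nat_lit 0x200020001200080000000000000000000000000000000) (nat_lit 0x0) (nat_lit 0x800050079f81df81cde0120001000000000000000000000000000) := Q_22 (nat_lit 160) (C_22 L70044 (C_22 L70046 (C_22 L70076 (C_22 L70085 N_22)))) (by decide +kernel)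
theorem L70087 : W_22 (nat_lit 2) (nat_lit 0x200030001200080000000000000000000000000000000) (nat_lit 0x0) (nat_lit 0x80004000400000000000000000000000000000000000000000000) := D_22 (nat_lit 194) (nat_lit 178) (nat_lit 211) (nat_lit 5) (nat_lit 8) (nat_lit 7) (nat_lit 6) (nat_lit 7) (nat_lit 12) (by decide +kernel)
theorem L70088 : W_22 (nat_lit 2) (nat_lit 0xe00030001200180000000000000000000000000000000) (nat_lit 0x0) (nat_lit 0x100000c000000000000000000000000000000000000000) := D_22 (nat_lit 159) (nat_lit 158) (nat_lit 180) (nat_lit 3) (nat_lit 5) (nat_lit 9) (nat_lit 0) (nat_lit 10) (nat_lit 10) (by decide +kernel)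
theorem L70089 : W_22 (nat_lit 3) (nat_lit 0x600030001200180000000000000000000000000000000) (nat_lit 0x0) (nat_lit 0x1000180000c000000000000000000000000000000000000000) := T_22 (nat_lit 179) (nat_lit 196) (nat_lit 7) (nat_lit 8) (nat_lit 7) L70088 (by decide +kernel)
theorem L70090 : W_22 (nat_lit 4) (nat_lit 0x600030001200080000000000000000000000000000000) (nat_lit 0x0) (nat_lit 0x1000180000c000000100008000000000000000000000000000) := T_22 (nat_lit 128) (nat_lit 111) (nat_lit 6) (nat_lit 8) (nat_lit 10) L70089 (by decide +kernel)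
theorem L70091 : W_22 (nat_lit 5) (nat_lit 0x200030001200080000000000000000000000000000000) (nat_lit 0x0) (nat_lit 0x14001c0000c000000100008000000000000000000000000000) := T_22 (nat_lit 178) (nat_lit 194) (nat_lit 5) (nat_lit 8) (nat_lit 7) L70090 (by decide +kernel)
theorem L70092 : W_22 (nat_lit 2) (nat_lit 0x21001f800b40012001a8000000000000000000000000000000) (nat_lit 0x0) (nat_lit 0x10001400000000000000000000000000) := D_22 (nat_lit 124) (nat_lit 106) (nat_lit 108) (nat_lit 4) (nat_lit 5) (nat_lit 10) (nat_lit 6) (nat_lit 5) (nat_lit 10) (by decide +kernel)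
theorem L70093 : W_22 (nat_lit 3) (nat_lit 0x21001f800b4001200188000000000000000000000000000000) (nat_lit 0x0) (nat_lit 0x400030001400000000000000000000000000) := T_22 (nat_lit 125) (nat_lit 142) (nat_lit 6) (nat_lit 5) (nat_lit 11) L70092 (by decide +kernel)
theorem L70094 : W_22 (nat_lit 4) (nat_lit 0x21001f800b4001200180000000000000000000000000000000) (nat_lit 0x0) (nat_lit 0x500038001400000000000000000000000000) := T_22 (nat_lit 123) (nat_lit 140) (nat_lit 4) (nat_lit 5) (nat_lit 11) L70093 (by decide +kernel)
theorem L70095 : W_22 (nat_lit 5) (nat_lit 0x20001f800b4001200180000000000000000000000000000000) (nat_lit 0x0) (nat_lit 0x1800000000000500038001400000000000000000000000000) := T_22 (nat_lit 192) (nat_lit 191) (nat_lit 1) (nat_lit 8) (nat_lit 10) L70094 (by decide +kernel)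
theorem L70096 : W_22 (nat_lit 6) (nat_lit 0x20001f800b0001200180000000000000000000000000000000) (nat_lit 0x0) (nat_lit 0x1800000006000500038001400000000000000000000000000) := T_22 (nat_lit 158) (nat_lit 157) (nat_lit 0) (nat_lit 8) (nat_lit 10) L70095 (by decide +kernel)
theorem L70097 : W_22 (nat_lit 7) (nat_lit 0x1f800b0001200180000000000000000000000000000000) (nat_lit 0x0) (nat_lit 0x61800000006000500038001400000000000000000000000000) := T_22 (nat_lit 197) (nat_lit 198) (nat_lit 3) (nat_lit 7) (nat_lit 10) L70096 (by decide +kernel)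
theorem L70098 : W_22 (nat_lit 8) (nat_lit 0x1f000b0001200180000000000000000000000000000000) (nat_lit 0x0) (nat_lit 0x618000c0006000500038001400000000000000000000000000) := T_22 (nat_lit 175) (nat_lit 174) (nat_lit 2) (nat_lit 4) (nat_lit 10) L70097 (by decide +kernel)
theorem L70099 : W_22 (nat_lit 9) (nat_lit 0x1e000b0001200180000000000000000000000000000000) (nat_lit 0x0) (nat_lit 0x618001c0046000500038001400000000000000000000000000) := T_22 (nat_lit 176) (nat_lit 162) (nat_lit 2) (nat_lit 6) (nat_lit 10) L70098 (by decide +kernel)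
theorem L70100 : W_22 (nat_lit 10) (nat_lit 0x1e00030001200180000000000000000000000000000000) (nat_lit 0x0) (nat_lit 0x618001c01c6000500038001400000000000000000000000000) := T_22 (nat_lit 163) (nat_lit 164) (nat_lit 2) (nat_lit 7) (nat_lit 10) L70099 (by decide +kernel)
theorem L70101 : W_22 (nat_lit 11) (nat_lit 0xe00030001200180000000000000000000000000000000) (nat_lit 0x0) (nat_lit 0x618031c01c6000500038001400000000000000000000000000) := T_22 (nat_lit 180) (nat_lit 181) (nat_lit 0) (nat_lit 11) (nat_lit 10) L70100 (by decide +kernel)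
theorem L70102 : W_22 (nat_lit 12) (nat_lit 0x600030001200180000000000000000000000000000000) (nat_lit 0x0) (nat_lit 0x718039c01c6000500038001400000000000000000000000000) := T_22 (nat_lit 179) (nat_lit 196) (nat_lit 7) (nat_lit 8) (nat_lit 7) L70101 (by decide +kernel)
theorem L70103 : W_22 (nat_lit 13) (nat_lit 0x600030001200080000000000000000000000000000000) (nat_lit 0x0) (nat_lit 0x718039c01c6000500138009400000000000000000000000000) := T_22 (nat_lit 128) (nat_lit 111) (nat_lit 6) (nat_lit 8) (nat_lit 10) L70102 (by decide +kernel)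
theorem L70104 : W_22 (nat_lit 2) (nat_lit 0xe00030001200080000000000000000000000000000000) (nat_lit 0x0) (nat_lit 0x100000c000000000000000000000000000000000000000) := D_22 (nat_lit 159) (nat_lit 158) (nat_lit 180) (nat_lit 3) (nat_lit 5) (nat_lit 9) (nat_lit 0) (nat_lit 10) (nat_lit 10) (by decide +kernel)
theorem L70105 : W_22 (nat_lit 3) (nat_lit 0x600030001200080000000000000000000000000000000) (nat_lit 0x0) (nat_lit 0x1000180000c000000000000000000000000000000000000000) := T_22 (nat_lit 179) (nat_lit 196) (nat_lit 7) (nat_lit 8) (nat_lit 7) L70104 (by decide +kernel)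
theorem L70106 : W_22 (nat_lit 2) (nat_lit 0x600078001200180000000000000000000000000000000) (nat_lit 0x0) (nat_lit 0x180080000000000000000000000000000000000000000) := D_22 (nat_lit 176) (nat_lit 175) (nat_lit 163) (nat_lit 2) (nat_lit 5) (nat_lit 10) (nat_lit 1) (nat_lit 10) (nat_lit 9) (by decide +kernel)
theorem L70107 : W_22 (nat_lit 3) (nat_lit 0x600038001200180000000000000000000000000000000) (nat_lit 0x0) (nat_lit 0x1800c0000400000000000000000000000000000000000) := T_22 (nat_lit 162) (nat_lit 142) (nat_lit 0) (nat_lit 9) (nat_lit 9) L70106 (by decide +kernel)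
theorem L70108 : W_22 (nat_lit 4) (nat_lit 0x600038001200080000000000000000000000000000000) (nat_lit 0x0) (nat_lit 0x1800c0000400100008000000000000000000000000000) := T_22 (nat_lit 128) (nat_lit 111) (nat_lit 6) (nat_lit 8) (nat_lit 10) L70107 (by decide +kernel)
theorem L70109 : W_22 (nat_lit 2) (nat_lit 0x600038001200080000000000000000000000000000000) (nat_lit 0x0) (nat_lit 0x1800004000000000000000000000000000000000000000) := D_22 (nat_lit 179) (nat_lit 180) (nat_lit 158) (nat_lit 0) (nat_lit 10) (nat_lit 10) (nat_lit 3) (nat_lit 5) (nat_lit 9) (by decide +kernel)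
theorem L70110 : W_22 (nat_lit 5) (nat_lit 0x600030001200080000000000000000000000000000000) (nat_lit 0x0) (nat_lit 0x19800cc000400100008000000000000000000000000000) := Q_22 (nat_lit 159) (C_22 L70108 (C_22 L70109 N_22)) (by decide +kernel)
theorem L70111 : W_22 (nat_lit 2) (nat_lit 0xe00030001200180000000000000000000000000000000) (nat_lit 0x0) (nat_lit 0x3000008000000000000000000000000000000000000000) := D_22 (nat_lit 180) (nat_lit 181) (nat_lit 159) (nat_lit 0) (nat_lit 11) (nat_lit 10) (nat_lit 0) (nat_lit 10) (nat_lit 10) (by decide +kernel)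
theorem L70112 : W_22 (nat_lit 3) (nat_lit 0x600030001200180000000000000000000000000000000) (nat_lit 0x0) (nat_lit 0x10003800008000000000000000000000000000000000000000) := T_22 (nat_lit 179) (nat_lit 196) (nat_lit 7) (nat_lit 8) (nat_lit 7) L70111 (by decide +kernel)
theorem L70113 : W_22 (nat_lit 4) (nat_lit 0x600030001200080000000000000000000000000000000) (nat_lit 0x0) (nat_lit 0x10003800008000000100008000000000000000000000000000) := T_22 (nat_lit 128) (nat_lit 111) (nat_lit 6) (nat_lit 8) (nat_lit 10) L70112 (by decide +kernel)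
theorem L70114 : W_22 (nat_lit 2) (nat_lit 0xe00078001200180000000000000000000000000000000) (nat_lit 0x0) (nat_lit 0x180080000000000000000000000000000000000000000) := D_22 (nat_lit 176) (nat_lit 175) (nat_lit 163) (nat_lit 2) (nat_lit 5) (nat_lit 10) (nat_lit 2) (nat_lit 6) (nat_lit 10) (by decide +kernel)
theorem L70115 : W_22 (nat_lit 3) (nat_lit 0xe00038001200180000000000000000000000000000000) (nat_lit 0x0) (nat_lit 0x1800c0000400000000000000000000000000000000000) := T_22 (nat_lit 162) (nat_lit 142) (nat_lit 0) (nat_lit 9) (nat_lit 9) L70114 (by decide +kernel)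
theorem L70116 : W_22 (nat_lit 4) (nat_lit 0xe00038001200080000000000000000000000000000000) (nat_lit 0x0) (nat_lit 0x1800c0000400100008000000000000000000000000000) := T_22 (nat_lit 128) (nat_lit 111) (nat_lit 6) (nat_lit 8) (nat_lit 10) L70115 (by decide +kernel)
theorem L70117 : W_22 (nat_lit 5) (nat_lit 0xe00030001200080000000000000000000000000000000) (nat_lit 0x0) (nat_lit 0x1800cc000400100008000000000000000000000000000) := T_22 (nat_lit 159) (nat_lit 158) (nat_lit 3) (nat_lit 5) (nat_lit 9) L70116 (by decide +kernel)
theorem L70118 : W_22 (nat_lit 6) (nat_lit 0x600030001200080000000000000000000000000000000) (nat_lit 0x0) (nat_lit 0x100009800cc000400100008000000000000000000000000000) := T_22 (nat_lit 179) (nat_lit 196) (nat_lit 7) (nat_lit 8) (nat_lit 7) L70117 (by decide +kernel)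
theorem L70119 : W_22 (nat_lit 2) (nat_lit 0x600070001200080000000000000000000000000000000) (nat_lit 0x0) (nat_lit 0x100180000000000000000000000000000000000000000) := D_22 (nat_lit 163) (nat_lit 176) (nat_lit 164) (nat_lit 1) (nat_lit 10) (nat_lit 9) (nat_lit 1) (nat_lit 11) (nat_lit 9) (by decide +kernel)
theorem L70120 : W_22 (nat_lit 2) (nat_lit 0x600178001200180000000000000000000000000000000) (nat_lit 0x0) (nat_lit 0x6000100000000000000000000000000000000000) := D_22 (nat_lit 158) (nat_lit 140) (nat_lit 157) (nat_lit 0) (nat_lit 8) (nat_lit 9) (nat_lit 3) (nat_lit 4) (nat_lit 9) (by decide +kernel)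
theorem L70121 : W_22 (nat_lit 3) (nat_lit 0x600170001200180000000000000000000000000000000) (nat_lit 0x0) (nat_lit 0xe000500000000000000000000000000000000000) := T_22 (nat_lit 159) (nat_lit 142) (nat_lit 0) (nat_lit 9) (nat_lit 9) L70120 (by decide +kernel)
theorem L70122 : W_22 (nat_lit 4) (nat_lit 0x600070001200180000000000000000000000000000000) (nat_lit 0x0) (nat_lit 0x18e000500000000000000000000000000000000000) := T_22 (nat_lit 164) (nat_lit 163) (nat_lit 1) (nat_lit 11) (nat_lit 9) L70121 (by decide +kernel)
theorem L70123 : W_22 (nat_lit 5) (nat_lit 0x600070001200080000000000000000000000000000000) (nat_lit 0x0) (nat_lit 0x18e000500100008000000000000000000000000000) := T_22 (nat_lit 128) (nat_lit 111) (nat_lit 6) (nat_lit 8) (nat_lit 10) L70122 (by decide +kernel)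
theorem L70124 : W_22 (nat_lit 2) (nat_lit 0x600070001200080000000000000000000000000000000) (nat_lit 0x0) (nat_lit 0x180080000000000000000000000000000000000000000) := D_22 (nat_lit 176) (nat_lit 175) (nat_lit 163) (nat_lit 2) (nat_lit 5) (nat_lit 10) (nat_lit 1) (nat_lit 10) (nat_lit 9) (by decide +kernel)
theorem L70125 : W_22 (nat_lit 2) (nat_lit 0x600078001200080000000000000000000000000000000) (nat_lit 0x0) (nat_lit 0x6000100000000000000000000000000000000000) := D_22 (nat_lit 158) (nat_lit 140) (nat_lit 157) (nat_lit 0) (nat_lit 8) (nat_lit 9) (nat_lit 3) (nat_lit 4) (nat_lit 9) (by decide +kernel)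
theorem L70126 : W_22 (nat_lit 3) (nat_lit 0x600070001200080000000000000000000000000000000) (nat_lit 0x0) (nat_lit 0xe000500000000000000000000000000000000000) := T_22 (nat_lit 159) (nat_lit 142) (nat_lit 0) (nat_lit 9) (nat_lit 9) L70125 (by decide +kernel)
theorem L70127 : W_22 (nat_lit 6) (nat_lit 0x600030001200080000000000000000000000000000000) (nat_lit 0x0) (nat_lit 0x1801ce000500100008000000000000000000000000000) := Q_22 (nat_lit 162) (C_22 L70119 (C_22 L70123 (C_22 L70124 (C_22 L70126 N_22)))) (by decide +kernel)
theorem L70128 : W_22 (nat_lit 14) (nat_lit 0x200030001200080000000000000000000000000000000) (nat_lit 0x0) (nat_lit 0x71803dc01ce000500138009400000000000000000000000000) := Q_22 (nat_lit 178) (C_22 L70090 (C_22 L70103 (C_22 L70105 (C_22 L70110 (C_22 L70113 (C_22 L70118 (C_22 L70127 N_22))))))) (by decide +kernel)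
theorem L70129 : W_22 (nat_lit 15) (nat_lit 0x200020001200080000000000000000000000000000000) (nat_lit 0x0) (nat_lit 0x80075803df81df8005e0138009400000000000000000000000000) := Q_22 (nat_lit 160) (C_22 L70087 (C_22 L70076 (C_22 L70091 (C_22 L70128 N_22)))) (by decide +kernel)
theorem L70130 : W_22 (nat_lit 2) (nat_lit 0x700060001200180000000000000000000000000000000) (nat_lit 0x0) (nat_lit 0x190000000000000000000000000000000000000000) := D_22 (nat_lit 163) (nat_lit 164) (nat_lit 160) (nat_lit 1) (nat_lit 11) (nat_lit 9) (nat_lit 1) (nat_lit 10) (nat_lit 9) (by decide +kernel)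
theorem L70131 : W_22 (nat_lit 3) (nat_lit 0x600060001200180000000000000000000000000000000) (nat_lit 0x0) (nat_lit 0x180190000000000000000000000000000000000000000) := T_22 (nat_lit 176) (nat_lit 175) (nat_lit 2) (nat_lit 5) (nat_lit 10) L70130 (by decide +kernel)
theorem L70132 : W_22 (nat_lit 4) (nat_lit 0x600060001200080000000000000000000000000000000) (nat_lit 0x0) (nat_lit 0x180190000000100008000000000000000000000000000) := T_22 (nat_lit 128) (nat_lit 111) (nat_lit 6) (nat_lit 8) (nat_lit 10) L70131 (by decide +kernel)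
theorem L70133 : W_22 (nat_lit 2) (nat_lit 0x8000600060001200080000000000000000000000000000000) (nat_lit 0x0) (nat_lit 0x200010000800000000000000000000000000000000000000000000) := D_22 (nat_lit 196) (nat_lit 179) (nat_lit 213) (nat_lit 7) (nat_lit 8) (nat_lit 7) (nat_lit 7) (nat_lit 8) (nat_lit 8) (by decide +kernel)
theorem L70134 : W_22 (nat_lit 2) (nat_lit 0x100008000600060001200080000000000000000000000000000000) (nat_lit 0x0) (nat_lit 0x2000000000000000010000800000000000000000000000000000000000) := D_22 (nat_lit 160) (nat_lit 143) (nat_lit 229) (nat_lit 4) (nat_lit 8) (nat_lit 12) (nat_lit 4) (nat_lit 8) (nat_lit 13) (by decide +kernel)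
theorem L70135 : W_22 (nat_lit 2) (nat_lit 0x2000180008000600160001200080000000000000000000000000000000) (nat_lit 0x0) (nat_lit 0x80004000200000000000000000000000000000000000000000000000000000) := D_22 (nat_lit 230) (nat_lit 213) (nat_lit 247) (nat_lit 7) (nat_lit 8) (nat_lit 9) (nat_lit 7) (nat_lit 8) (nat_lit 10) (by decide +kernel)
theorem L70136 : W_22 (nat_lit 3) (nat_lit 0x180008000600160001200080000000000000000000000000000000) (nat_lit 0x0) (nat_lit 0x80006000200000000800000000000000000000000000000000000000000000) := T_22 (nat_lit 229) (nat_lit 179) (nat_lit 6) (nat_lit 8) (nat_lit 13) L70135 (by decide +kernel)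
theorem L70137 : W_22 (nat_lit 4) (nat_lit 0x100008000600160001200080000000000000000000000000000000) (nat_lit 0x0) (nat_lit 0x80007000280000000800000000000000000000000000000000000000000000) := T_22 (nat_lit 211) (nat_lit 228) (nat_lit 5) (nat_lit 8) (nat_lit 9) L70136 (by decide +kernel)
theorem L70138 : W_22 (nat_lit 5) (nat_lit 0x100008000600060001200080000000000000000000000000000000) (nat_lit 0x0) (nat_lit 0x80007000280000000800180000000000000000000000000000000000000000) := T_22 (nat_lit 164) (nat_lit 163) (nat_lit 1) (nat_lit 11) (nat_lit 9) L70137 (by decide +kernel)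
theorem L70139 : W_22 (nat_lit 2) (nat_lit 0x3000080016000f8001200180000000000000000000000000000000) (nat_lit 0x0) (nat_lit 0x6000100000000000000000000000000000000000) := D_22 (nat_lit 158) (nat_lit 157) (nat_lit 140) (nat_lit 3) (nat_lit 4) (nat_lit 9) (nat_lit 0) (nat_lit 8) (nat_lit 9) (by decide +kernel)
theorem L70140 : W_22 (nat_lit 3) (nat_lit 0x3000080016000f0001200180000000000000000000000000000000) (nat_lit 0x0) (nat_lit 0x80000e000100000000000000000000000000000000000) := T_22 (nat_lit 159) (nat_lit 179) (nat_lit 3) (nat_lit 6) (nat_lit 9) L70139 (by decide +kernel)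
theorem L70141 : W_22 (nat_lit 4) (nat_lit 0x3000080006000f0001200180000000000000000000000000000000) (nat_lit 0x0) (nat_lit 0x380000e000100000000000000000000000000000000000) := T_22 (nat_lit 180) (nat_lit 181) (nat_lit 3) (nat_lit 7) (nat_lit 9) L70140 (by decide +kernel)
theorem L70142 : W_22 (nat_lit 5) (nat_lit 0x3000080006000e0001200180000000000000000000000000000000) (nat_lit 0x0) (nat_lit 0x380001e000900000000000000000000000000000000000) := T_22 (nat_lit 160) (nat_lit 143) (nat_lit 4) (nat_lit 8) (nat_lit 12) L70141 (by decide +kernel)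
theorem L70143 : W_22 (nat_lit 6) (nat_lit 0x3000080006000e0001200080000000000000000000000000000000) (nat_lit 0x0) (nat_lit 0x380001e000900100008000000000000000000000000000) := T_22 (nat_lit 128) (nat_lit 111) (nat_lit 6) (nat_lit 8) (nat_lit 10) L70142 (by decide +kernel)
theorem L70144 : W_22 (nat_lit 7) (nat_lit 0x300008000600060001200080000000000000000000000000000000) (nat_lit 0x0) (nat_lit 0x380019e000900100008000000000000000000000000000) := T_22 (nat_lit 163) (nat_lit 164) (nat_lit 1) (nat_lit 11) (nat_lit 9) L70143 (by decide +kernel)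
theorem L70145 : W_22 (nat_lit 8) (nat_lit 0x100008000600060001200080000000000000000000000000000000) (nat_lit 0x0) (nat_lit 0x400020000000380019e000900100008000000000000000000000000000) := T_22 (nat_lit 213) (nat_lit 230) (nat_lit 7) (nat_lit 8) (nat_lit 9) L70144 (by decide +kernel)
theorem L70146 : W_22 (nat_lit 9) (nat_lit 0x8000600060001200080000000000000000000000000000000) (nat_lit 0x0) (nat_lit 0x8000700038000000380019e000900100008000000000000000000000000000) := Q_22 (nat_lit 212) (C_22 L70134 (C_22 L70138 (C_22 L70145 N_22))) (by decide +kernel)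
theorem L70147 : W_22 (nat_lit 2) (nat_lit 0x300008000600160001200180000000000000000000000000000000) (nat_lit 0x0) (nat_lit 0x2000000000000000010000800000000000000000000000000000000000) := D_22 (nat_lit 160) (nat_lit 143) (nat_lit 229) (nat_lit 4) (nat_lit 8) (nat_lit 12) (nat_lit 4) (nat_lit 8) (nat_lit 13) (by decide +kernel)
theorem L70148 : W_22 (nat_lit 3) (nat_lit 0x200008000600160001200180000000000000000000000000000000) (nat_lit 0x0) (nat_lit 0x6000100000000000010000800000000000000000000000000000000000) := T_22 (nat_lit 212) (nat_lit 230) (nat_lit 7) (nat_lit 8) (nat_lit 9) L70147 (by decide +kernel)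
theorem L70149 : W_22 (nat_lit 4) (nat_lit 0x200008000600060001200180000000000000000000000000000000) (nat_lit 0x0) (nat_lit 0x6000100000000000190000800000000000000000000000000000000000) := T_22 (nat_lit 164) (nat_lit 163) (nat_lit 1) (nat_lit 11) (nat_lit 9) L70148 (by decide +kernel)
theorem L70150 : W_22 (nat_lit 5) (nat_lit 0x8000600060001200180000000000000000000000000000000) (nat_lit 0x0) (nat_lit 0x6000300010000000190000800000000000000000000000000000000000) := T_22 (nat_lit 213) (nat_lit 196) (nat_lit 7) (nat_lit 8) (nat_lit 8) L70149 (by decide +kernel)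
theorem L70151 : W_22 (nat_lit 6) (nat_lit 0x8000600060001200080000000000000000000000000000000) (nat_lit 0x0) (nat_lit 0x6000300010000000190000800100008000000000000000000000000000) := T_22 (nat_lit 128) (nat_lit 111) (nat_lit 6) (nat_lit 8) (nat_lit 10) L70150 (by decide +kernel)
theorem L70152 : W_22 (nat_lit 2) (nat_lit 0x100008000e00070001200180000000000000000000000000000000) (nat_lit 0x0) (nat_lit 0x100000c000000000000000000000000000000000000000) := D_22 (nat_lit 159) (nat_lit 180) (nat_lit 158) (nat_lit 3) (nat_lit 6) (nat_lit 9) (nat_lit 3) (nat_lit 5) (nat_lit 9) (by decide +kernel)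
theorem L70153 : W_22 (nat_lit 3) (nat_lit 0x100008000e00060001200180000000000000000000000000000000) (nat_lit 0x0) (nat_lit 0x100001c000800000000000000000000000000000000000) := T_22 (nat_lit 160) (nat_lit 143) (nat_lit 4) (nat_lit 8) (nat_lit 12) L70152 (by decide +kernel)
theorem L70154 : W_22 (nat_lit 4) (nat_lit 0x100008000e00060001200080000000000000000000000000000000) (nat_lit 0x0) (nat_lit 0x100001c000800100008000000000000000000000000000) := T_22 (nat_lit 128) (nat_lit 111) (nat_lit 6) (nat_lit 8) (nat_lit 10) L70153 (by decide +kernel)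
theorem L70155 : W_22 (nat_lit 5) (nat_lit 0x8000e00060001200080000000000000000000000000000000) (nat_lit 0x0) (nat_lit 0x200010000000100001c000800100008000000000000000000000000000) := T_22 (nat_lit 212) (nat_lit 229) (nat_lit 6) (nat_lit 8) (nat_lit 13) L70154 (by decide +kernel)
theorem L70156 : W_22 (nat_lit 6) (nat_lit 0x8000600060001200080000000000000000000000000000000) (nat_lit 0x0) (nat_lit 0x200010001000180001c000800100008000000000000000000000000000) := T_22 (nat_lit 179) (nat_lit 196) (nat_lit 7) (nat_lit 8) (nat_lit 7) L70155 (by decide +kernel)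
theorem L70157 : W_22 (nat_lit 10) (nat_lit 0x600060001200080000000000000000000000000000000) (nat_lit 0x0) (nat_lit 0x8000700038001800380019e000900100008000000000000000000000000000) := Q_22 (nat_lit 195) (C_22 L70133 (C_22 L70146 (C_22 L70151 (C_22 L70156 N_22)))) (by decide +kernel)
theorem L70158 : W_22 (nat_lit 2) (nat_lit 0x700060001200080000000000000000000000000000000) (nat_lit 0x0) (nat_lit 0x10000800080000000000000000000000000000000000000000) := D_22 (nat_lit 179) (nat_lit 196) (nat_lit 163) (nat_lit 7) (nat_lit 8) (nat_lit 7) (nat_lit 2) (nat_lit 6) (nat_lit 10) (by decide +kernel)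
theorem L70159 : W_22 (nat_lit 3) (nat_lit 0x600060001200080000000000000000000000000000000) (nat_lit 0x0) (nat_lit 0x10000980080000000000000000000000000000000000000000) := T_22 (nat_lit 176) (nat_lit 175) (nat_lit 2) (nat_lit 5) (nat_lit 10) L70158 (by decide +kernel)
theorem L70160 : W_22 (nat_lit 2) (nat_lit 0x3f00068001200180000000000000000000000000000000) (nat_lit 0x0) (nat_lit 0xe0000000000000000000000000000000000000000000000000) := D_22 (nat_lit 198) (nat_lit 197) (nat_lit 199) (nat_lit 3) (nat_lit 7) (nat_lit 10) (nat_lit 3) (nat_lit 8) (nat_lit 10) (by decide +kernel)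
theorem L70161 : W_22 (nat_lit 3) (nat_lit 0x1f00068001200180000000000000000000000000000000) (nat_lit 0x0) (nat_lit 0xe0006000000000000000000000000000000000000000000000) := T_22 (nat_lit 181) (nat_lit 182) (nat_lit 0) (nat_lit 12) (nat_lit 10) L70160 (by decide +kernel)
theorem L70162 : W_22 (nat_lit 4) (nat_lit 0xf00068001200180000000000000000000000000000000) (nat_lit 0x0) (nat_lit 0xe0007000010000000000000000000000000000000000000000) := T_22 (nat_lit 180) (nat_lit 160) (nat_lit 3) (nat_lit 6) (nat_lit 9) L70161 (by decide +kernel)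
theorem L70163 : W_22 (nat_lit 5) (nat_lit 0xf00060001200180000000000000000000000000000000) (nat_lit 0x0) (nat_lit 0xe000700001c000000000000000000000000000000000000000) := T_22 (nat_lit 159) (nat_lit 158) (nat_lit 0) (nat_lit 9) (nat_lit 10) L70162 (by decide +kernel)
theorem L70164 : W_22 (nat_lit 6) (nat_lit 0xf00060001200080000000000000000000000000000000) (nat_lit 0x0) (nat_lit 0xe000700001c000000100008000000000000000000000000000) := T_22 (nat_lit 128) (nat_lit 111) (nat_lit 6) (nat_lit 8) (nat_lit 10) L70163 (by decide +kernel)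
theorem L70165 : W_22 (nat_lit 7) (nat_lit 0xe00060001200080000000000000000000000000000000) (nat_lit 0x0) (nat_lit 0xe000718001c000000100008000000000000000000000000000) := T_22 (nat_lit 176) (nat_lit 175) (nat_lit 2) (nat_lit 5) (nat_lit 10) L70164 (by decide +kernel)
theorem L70166 : W_22 (nat_lit 8) (nat_lit 0x600060001200080000000000000000000000000000000) (nat_lit 0x0) (nat_lit 0xf000798001c000000100008000000000000000000000000000) := T_22 (nat_lit 179) (nat_lit 196) (nat_lit 7) (nat_lit 8) (nat_lit 7) L70165 (by decide +kernel)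
theorem L70167 : W_22 (nat_lit 11) (nat_lit 0x600020001200080000000000000000000000000000000) (nat_lit 0x0) (nat_lit 0x800070003800f80079801de000900100008000000000000000000000000000) := Q_22 (nat_lit 162) (C_22 L70132 (C_22 L70157 (C_22 L70159 (C_22 L70166 N_22)))) (by decide +kernel)
theorem L70168 : W_22 (nat_lit 2) (nat_lit 0x2000300008000600160001a00580000000000000000000000000000000) (nat_lit 0x0) (nat_lit 0x20001000080000000000000000000000000000000000000000000000000000) := D_22 (nat_lit 228) (nat_lit 245) (nat_lit 211) (nat_lit 5) (nat_lit 8) (nat_lit 10) (nat_lit 5) (nat_lit 8) (nat_lit 9) (by decide +kernel)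
theorem L70169 : W_22 (nat_lit 3) (nat_lit 0x300008000600160001a00580000000000000000000000000000000) (nat_lit 0x0) (nat_lit 0x20003000080000000800000000000000000000000000000000000000000000) := T_22 (nat_lit 229) (nat_lit 179) (nat_lit 6) (nat_lit 8) (nat_lit 13) L70168 (by decide +kernel)
theorem L70170 : W_22 (nat_lit 4) (nat_lit 0x100008000600160001a00580000000000000000000000000000000) (nat_lit 0x0) (nat_lit 0x20007000280000000800000000000000000000000000000000000000000000) := T_22 (nat_lit 213) (nat_lit 230) (nat_lit 7) (nat_lit 8) (nat_lit 9) L70169 (by decide +kernel)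
theorem L70171 : W_22 (nat_lit 5) (nat_lit 0x8000600160001a00580000000000000000000000000000000) (nat_lit 0x0) (nat_lit 0x20007000380000000800010000000000000000000000000000000000000000) := T_22 (nat_lit 212) (nat_lit 160) (nat_lit 4) (nat_lit 8) (nat_lit 12) L70170 (by decide +kernel)
theorem L70172 : W_22 (nat_lit 6) (nat_lit 0x8000600160001a00180000000000000000000000000000000) (nat_lit 0x0) (nat_lit 0x20007000380000000800010000000600000000000000000000000000000000) := T_22 (nat_lit 130) (nat_lit 129) (nat_lit 1) (nat_lit 11) (nat_lit 7) L70171 (by decide +kernel)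
theorem L70173 : W_22 (nat_lit 7) (nat_lit 0x8000600160001200180000000000000000000000000000000) (nat_lit 0x0) (nat_lit 0x20007000380000000800010000c00600000000000000000000000000000000) := T_22 (nat_lit 143) (nat_lit 142) (nat_lit 3) (nat_lit 5) (nat_lit 8) L70172 (by decide +kernel)
theorem L70174 : W_22 (nat_lit 8) (nat_lit 0x8000600160001200080000000000000000000000000000000) (nat_lit 0x0) (nat_lit 0x20007000380000000800010000c00700008000000000000000000000000000) := T_22 (nat_lit 128) (nat_lit 111) (nat_lit 6) (nat_lit 8) (nat_lit 10) L70173 (by decide +kernel)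
theorem L70175 : W_22 (nat_lit 9) (nat_lit 0x8000600060001200080000000000000000000000000000000) (nat_lit 0x0) (nat_lit 0x20007000380000000800190000c00700008000000000000000000000000000) := T_22 (nat_lit 164) (nat_lit 163) (nat_lit 1) (nat_lit 11) (nat_lit 9) L70174 (by decide +kernel)
theorem L70176 : W_22 (nat_lit 2) (nat_lit 0x8000e00060001a00080000000000000000000000000000000) (nat_lit 0x0) (nat_lit 0x2000100000000000010000000000000000000000000000000000000000) := D_22 (nat_lit 212) (nat_lit 229) (nat_lit 160) (nat_lit 6) (nat_lit 8) (nat_lit 13) (nat_lit 4) (nat_lit 8) (nat_lit 12) (by decide +kernel)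
theorem L70177 : W_22 (nat_lit 3) (nat_lit 0x8000600060001a00080000000000000000000000000000000) (nat_lit 0x0) (nat_lit 0x2000100010000800010000000000000000000000000000000000000000) := T_22 (nat_lit 179) (nat_lit 196) (nat_lit 7) (nat_lit 8) (nat_lit 7) L70176 (by decide +kernel)
theorem L70178 : W_22 (nat_lit 4) (nat_lit 0x8000600060001200080000000000000000000000000000000) (nat_lit 0x0) (nat_lit 0x2000100010000800010000c00000000000000000000000000000000000) := T_22 (nat_lit 143) (nat_lit 142) (nat_lit 3) (nat_lit 5) (nat_lit 8) L70177 (by decide +kernel)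
theorem L70179 : W_22 (nat_lit 10) (nat_lit 0x600060001200080000000000000000000000000000000) (nat_lit 0x0) (nat_lit 0x20007000380018000800190000c00700008000000000000000000000000000) := Q_22 (nat_lit 195) (C_22 L70175 (C_22 L70133 (C_22 L70151 (C_22 L70178 N_22)))) (by decide +kernel)
theorem L70180 : W_22 (nat_lit 2) (nat_lit 0x2000100008000680060001a00580000000000000000000000000000000) (nat_lit 0x0) (nat_lit 0x20001000080000000000000000000000000000000000000000000000000000) := D_22 (nat_lit 228) (nat_lit 245) (nat_lit 211) (nat_lit 5) (nat_lit 8) (nat_lit 10) (nat_lit 5) (nat_lit 8) (nat_lit 9) (by decide +kernel)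
theorem L70181 : W_22 (nat_lit 3) (nat_lit 0x100008000680060001a00580000000000000000000000000000000) (nat_lit 0x0) (nat_lit 0x20003000080000000800000000000000000000000000000000000000000000) := T_22 (nat_lit 229) (nat_lit 179) (nat_lit 6) (nat_lit 8) (nat_lit 13) L70180 (by decide +kernel)
theorem L70182 : W_22 (nat_lit 4) (nat_lit 0x100008000680060001a00180000000000000000000000000000000) (nat_lit 0x0) (nat_lit 0x20003000080000000800000000000600000000000000000000000000000000) := T_22 (nat_lit 130) (nat_lit 129) (nat_lit 1) (nat_lit 11) (nat_lit 7) L70181 (by decide +kernel)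
theorem L70183 : W_22 (nat_lit 5) (nat_lit 0x8000680060001a00180000000000000000000000000000000) (nat_lit 0x0) (nat_lit 0x20003000180000000800010000000600000000000000000000000000000000) := T_22 (nat_lit 212) (nat_lit 160) (nat_lit 4) (nat_lit 8) (nat_lit 12) L70182 (by decide +kernel)
theorem L70184 : W_22 (nat_lit 6) (nat_lit 0x8000600060001a00180000000000000000000000000000000) (nat_lit 0x0) (nat_lit 0x20003000180000000980010000000600000000000000000000000000000000) := T_22 (nat_lit 175) (nat_lit 176) (nat_lit 2) (nat_lit 5) (nat_lit 10) L70183 (by decide +kernel)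
theorem L70185 : W_22 (nat_lit 7) (nat_lit 0x8000600060001200180000000000000000000000000000000) (nat_lit 0x0) (nat_lit 0x20003000180000000980010000c00600000000000000000000000000000000) := T_22 (nat_lit 143) (nat_lit 142) (nat_lit 3) (nat_lit 5) (nat_lit 8) L70184 (by decide +kernel)
theorem L70186 : W_22 (nat_lit 8) (nat_lit 0x8000600060001200080000000000000000000000000000000) (nat_lit 0x0) (nat_lit 0x20003000180000000980010000c00700008000000000000000000000000000) := T_22 (nat_lit 128) (nat_lit 111) (nat_lit 6) (nat_lit 8) (nat_lit 10) L70185 (by decide +kernel)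
theorem L70187 : W_22 (nat_lit 2) (nat_lit 0x300008000680060001200080000000000000000000000000000000) (nat_lit 0x0) (nat_lit 0x10000c00000000000000000000000000000000000) := D_22 (nat_lit 143) (nat_lit 142) (nat_lit 160) (nat_lit 3) (nat_lit 5) (nat_lit 8) (nat_lit 4) (nat_lit 8) (nat_lit 12) (by decide +kernel)
theorem L70188 : W_22 (nat_lit 3) (nat_lit 0x200008000680060001200080000000000000000000000000000000) (nat_lit 0x0) (nat_lit 0x4000100000000000010000c00000000000000000000000000000000000) := T_22 (nat_lit 212) (nat_lit 230) (nat_lit 7) (nat_lit 8) (nat_lit 9) L70187 (by decide +kernel)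
theorem L70189 : W_22 (nat_lit 4) (nat_lit 0x200008000600060001200080000000000000000000000000000000) (nat_lit 0x0) (nat_lit 0x4000100000000180010000c00000000000000000000000000000000000) := T_22 (nat_lit 175) (nat_lit 176) (nat_lit 2) (nat_lit 5) (nat_lit 10) L70188 (by decide +kernel)
theorem L70190 : W_22 (nat_lit 5) (nat_lit 0x8000600060001200080000000000000000000000000000000) (nat_lit 0x0) (nat_lit 0x4000300010000180010000c00000000000000000000000000000000000) := T_22 (nat_lit 213) (nat_lit 196) (nat_lit 7) (nat_lit 8) (nat_lit 8) L70189 (by decide +kernel)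
theorem L70191 : W_22 (nat_lit 9) (nat_lit 0x600060001200080000000000000000000000000000000) (nat_lit 0x0) (nat_lit 0x20007000380018000980010000c00700008000000000000000000000000000) := Q_22 (nat_lit 195) (C_22 L70186 (C_22 L70178 (C_22 L70133 (C_22 L70190 N_22)))) (by decide +kernel)
theorem L70192 : W_22 (nat_lit 11) (nat_lit 0x600020001200080000000000000000000000000000000) (nat_lit 0x0) (nat_lit 0x200070003800180009801d0000c00700008000000000000000000000000000) := Q_22 (nat_lit 162) (C_22 L70159 (C_22 L70179 (C_22 L70132 (C_22 L70191 N_22)))) (by decide +kernel)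
theorem L70193 : W_22 (nat_lit 2) (nat_lit 0x600020001f00080000000000000000000000000000000) (nat_lit 0x0) (nat_lit 0x7000000000000000000000000000000000000000) := D_22 (nat_lit 157) (nat_lit 156) (nat_lit 158) (nat_lit 1) (nat_lit 7) (nat_lit 8) (nat_lit 1) (nat_lit 8) (nat_lit 8) (by decide +kernel)
theorem L70194 : W_22 (nat_lit 3) (nat_lit 0x600020001e00080000000000000000000000000000000) (nat_lit 0x0) (nat_lit 0x17000100000000000000000000000000000000000) := T_22 (nat_lit 140) (nat_lit 160) (nat_lit 3) (nat_lit 4) (nat_lit 8) L70193 (by decide +kernel)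
theorem L70195 : W_22 (nat_lit 4) (nat_lit 0x600020001a00080000000000000000000000000000000) (nat_lit 0x0) (nat_lit 0x57000500000000000000000000000000000000000) := T_22 (nat_lit 142) (nat_lit 162) (nat_lit 3) (nat_lit 5) (nat_lit 8) L70194 (by decide +kernel)
theorem L70196 : W_22 (nat_lit 2) (nat_lit 0x600020001a00080000000000000000000000000000000) (nat_lit 0x0) (nat_lit 0x40000400100000000000000000000000000000000) := D_22 (nat_lit 142) (nat_lit 162) (nat_lit 128) (nat_lit 3) (nat_lit 5) (nat_lit 8) (nat_lit 2) (nat_lit 5) (nat_lit 8) (by decide +kernel)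
theorem L70197 : W_22 (nat_lit 2) (nat_lit 0x600020001a00080000000000000000000000000000000) (nat_lit 0x0) (nat_lit 0x400100008000000000000000000000000000) := D_22 (nat_lit 128) (nat_lit 111) (nat_lit 142) (nat_lit 6) (nat_lit 8) (nat_lit 10) (nat_lit 2) (nat_lit 5) (nat_lit 8) (by decide +kernel)
theorem L70198 : W_22 (nat_lit 9) (nat_lit 0x600020001200080000000000000000000000000000000) (nat_lit 0x0) (nat_lit 0xa0007000380018000800057000d00700008000000000000000000000000000) := Q_22 (nat_lit 143) (C_22 L69584 (C_22 L70195 (C_22 L70196 (C_22 L70197 N_22)))) (by decide +kernel)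
theorem L70199 : W_22 (nat_lit 2) (nat_lit 0x2000100006000f0005600080000000000000000000000000000000) (nat_lit 0x0) (nat_lit 0x20003000000000000000000000000000000000000000000000) := D_22 (nat_lit 180) (nat_lit 181) (nat_lit 197) (nat_lit 3) (nat_lit 7) (nat_lit 9) (nat_lit 5) (nat_lit 10) (nat_lit 8) (by decide +kernel)
theorem L70200 : W_22 (nat_lit 3) (nat_lit 0x2000100006000f0001600080000000000000000000000000000000) (nat_lit 0x0) (nat_lit 0x2000300000000c000000000000000000000000000000000000) := T_22 (nat_lit 146) (nat_lit 147) (nat_lit 2) (nat_lit 7) (nat_lit 9) L70199 (by decide +kernel)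
theorem L70201 : W_22 (nat_lit 4) (nat_lit 0x200010000600070001600080000000000000000000000000000000) (nat_lit 0x0) (nat_lit 0x2000300018000c000000000000000000000000000000000000) := T_22 (nat_lit 163) (nat_lit 164) (nat_lit 1) (nat_lit 11) (nat_lit 9) L70200 (by decide +kernel)
theorem L70202 : W_22 (nat_lit 5) (nat_lit 0x10000600070001600080000000000000000000000000000000) (nat_lit 0x0) (nat_lit 0x20002800300018000c000000000000000000000000000000000000) := T_22 (nat_lit 213) (nat_lit 195) (nat_lit 7) (nat_lit 8) (nat_lit 8) L70201 (by decide +kernel)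
theorem L70203 : W_22 (nat_lit 6) (nat_lit 0x10000600060001600080000000000000000000000000000000) (nat_lit 0x0) (nat_lit 0x20002800300019800c000000000000000000000000000000000000) := T_22 (nat_lit 160) (nat_lit 159) (nat_lit 0) (nat_lit 9) (nat_lit 9) L70202 (by decide +kernel)
theorem L70204 : W_22 (nat_lit 7) (nat_lit 0x10000600060001200080000000000000000000000000000000) (nat_lit 0x0) (nat_lit 0x20002800300019800cc00000000000000000000000000000000000) := T_22 (nat_lit 142) (nat_lit 143) (nat_lit 3) (nat_lit 5) (nat_lit 8) L70203 (by decide +kernel)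
theorem L70205 : W_22 (nat_lit 8) (nat_lit 0x600060001200080000000000000000000000000000000) (nat_lit 0x0) (nat_lit 0x20003800380019800cc00000000000000000000000000000000000) := T_22 (nat_lit 196) (nat_lit 179) (nat_lit 7) (nat_lit 8) (nat_lit 7) L70204 (by decide +kernel)
theorem L70206 : W_22 (nat_lit 2) (nat_lit 0x6000e0001200080000000000000000000000000000000) (nat_lit 0x0) (nat_lit 0x180010000000000000000000000000000000000000000) := D_22 (nat_lit 176) (nat_lit 175) (nat_lit 160) (nat_lit 2) (nat_lit 5) (nat_lit 10) (nat_lit 1) (nat_lit 10) (nat_lit 9) (by decide +kernel)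
theorem L70207 : W_22 (nat_lit 3) (nat_lit 0x600060001200080000000000000000000000000000000) (nat_lit 0x0) (nat_lit 0x180190000000000000000000000000000000000000000) := T_22 (nat_lit 163) (nat_lit 164) (nat_lit 1) (nat_lit 11) (nat_lit 9) L70206 (by decide +kernel)
theorem L70208 : W_22 (nat_lit 2) (nat_lit 0xe00068001600080000000000000000000000000000000) (nat_lit 0x0) (nat_lit 0x180004000000000000000000000000000000000000000) := D_22 (nat_lit 176) (nat_lit 158) (nat_lit 175) (nat_lit 0) (nat_lit 9) (nat_lit 10) (nat_lit 2) (nat_lit 5) (nat_lit 10) (by decide +kernel)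
theorem L70209 : W_22 (nat_lit 3) (nat_lit 0x600068001600080000000000000000000000000000000) (nat_lit 0x0) (nat_lit 0x10000980004000000000000000000000000000000000000000) := T_22 (nat_lit 179) (nat_lit 196) (nat_lit 7) (nat_lit 8) (nat_lit 7) L70208 (by decide +kernel)
theorem L70210 : W_22 (nat_lit 4) (nat_lit 0x600060001600080000000000000000000000000000000) (nat_lit 0x0) (nat_lit 0x1000098001c000000000000000000000000000000000000000) := T_22 (nat_lit 159) (nat_lit 160) (nat_lit 0) (nat_lit 9) (nat_lit 9) L70209 (by decide +kernel)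
theorem L70211 : W_22 (nat_lit 5) (nat_lit 0x600060001200080000000000000000000000000000000) (nat_lit 0x0) (nat_lit 0x1000098001c000c00000000000000000000000000000000000) := T_22 (nat_lit 142) (nat_lit 143) (nat_lit 3) (nat_lit 5) (nat_lit 8) L70210 (by decide +kernel)
theorem L70212 : W_22 (nat_lit 9) (nat_lit 0x600020001200080000000000000000000000000000000) (nat_lit 0x0) (nat_lit 0x2000380039801dc00cc00000000000000000000000000000000000) := Q_22 (nat_lit 162) (C_22 L70159 (C_22 L70205 (C_22 L70207 (C_22 L70211 N_22)))) (by decide +kernel)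
theorem L70213 : W_22 (nat_lit 2) (nat_lit 0x20801f800a4001600180000000000000000000000000000000) (nat_lit 0x0) (nat_lit 0x400040000000000010000000000000000000000000000000) := D_22 (nat_lit 174) (nat_lit 190) (nat_lit 124) (nat_lit 1) (nat_lit 7) (nat_lit 10) (nat_lit 5) (nat_lit 5) (nat_lit 7) (by decide +kernel)
theorem L70214 : W_22 (nat_lit 3) (nat_lit 0x20001f800a4001600180000000000000000000000000000000) (nat_lit 0x0) (nat_lit 0x1c00040000000000010000000000000000000000000000000) := T_22 (nat_lit 191) (nat_lit 192) (nat_lit 1) (nat_lit 8) (nat_lit 10) L70213 (by decide +kernel)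
theorem L70215 : W_22 (nat_lit 4) (nat_lit 0x20001f000a4001600180000000000000000000000000000000) (nat_lit 0x0) (nat_lit 0x1c000c0002000000010000000000000000000000000000000) := T_22 (nat_lit 175) (nat_lit 157) (nat_lit 0) (nat_lit 8) (nat_lit 10) L70214 (by decide +kernel)
theorem L70216 : W_22 (nat_lit 5) (nat_lit 0x20001f000a0001600180000000000000000000000000000000) (nat_lit 0x0) (nat_lit 0x1c000c000e000000010000000000000000000000000000000) := T_22 (nat_lit 158) (nat_lit 159) (nat_lit 0) (nat_lit 9) (nat_lit 10) L70215 (by decide +kernel)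
theorem L70217 : W_22 (nat_lit 6) (nat_lit 0x20001e000a0001600180000000000000000000000000000000) (nat_lit 0x0) (nat_lit 0x1c001c004e000000010000000000000000000000000000000) := T_22 (nat_lit 176) (nat_lit 162) (nat_lit 2) (nat_lit 6) (nat_lit 10) L70216 (by decide +kernel)
theorem L70218 : W_22 (nat_lit 7) (nat_lit 0x20001e00020001600180000000000000000000000000000000) (nat_lit 0x0) (nat_lit 0x1c001c01ce000000010000000000000000000000000000000) := T_22 (nat_lit 163) (nat_lit 164) (nat_lit 2) (nat_lit 7) (nat_lit 10) L70217 (by decide +kernel)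
theorem L70219 : W_22 (nat_lit 8) (nat_lit 0x1e00020001600180000000000000000000000000000000) (nat_lit 0x0) (nat_lit 0x61c001c01ce000000010000000000000000000000000000000) := T_22 (nat_lit 197) (nat_lit 198) (nat_lit 3) (nat_lit 7) (nat_lit 10) L70218 (by decide +kernel)
theorem L70220 : W_22 (nat_lit 9) (nat_lit 0x1e00020001600080000000000000000000000000000000) (nat_lit 0x0) (nat_lit 0x61c001c01ce000000110008000000000000000000000000000) := T_22 (nat_lit 128) (nat_lit 111) (nat_lit 6) (nat_lit 8) (nat_lit 10) L70219 (by decide +kernel)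
theorem L70221 : W_22 (nat_lit 2) (nat_lit 0x3e00120001600180000000000000000000000000000000) (nat_lit 0x0) (nat_lit 0xe0000000000000000000000000000000000000000000000000) := D_22 (nat_lit 198) (nat_lit 197) (nat_lit 199) (nat_lit 3) (nat_lit 7) (nat_lit 10) (nat_lit 3) (nat_lit 8) (nat_lit 10) (by decide +kernel)
theorem L70222 : W_22 (nat_lit 3) (nat_lit 0x1e00120001600180000000000000000000000000000000) (nat_lit 0x0) (nat_lit 0xe0002000200000000000000000000000000000000000000000) := T_22 (nat_lit 181) (nat_lit 165) (nat_lit 2) (nat_lit 8) (nat_lit 10) L70221 (by decide +kernel)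
theorem L70223 : W_22 (nat_lit 4) (nat_lit 0x1e00120001600080000000000000000000000000000000) (nat_lit 0x0) (nat_lit 0xe0002000200000000100008000000000000000000000000000) := T_22 (nat_lit 128) (nat_lit 111) (nat_lit 6) (nat_lit 8) (nat_lit 10) L70222 (by decide +kernel)
theorem L70224 : W_22 (nat_lit 5) (nat_lit 0x1e00020001600080000000000000000000000000000000) (nat_lit 0x0) (nat_lit 0xe0002000380000000100008000000000000000000000000000) := T_22 (nat_lit 164) (nat_lit 163) (nat_lit 2) (nat_lit 7) (nat_lit 10) L70223 (by decide +kernel)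
theorem L70225 : W_22 (nat_lit 2) (nat_lit 0x20001f800a4001600080000000000000000000000000000000) (nat_lit 0x0) (nat_lit 0x1800000000000000020000000000000000000000000000000) := D_22 (nat_lit 192) (nat_lit 191) (nat_lit 125) (nat_lit 1) (nat_lit 8) (nat_lit 10) (nat_lit 6) (nat_lit 5) (nat_lit 11) (by decide +kernel)
theorem L70226 : W_22 (nat_lit 3) (nat_lit 0x20001f000a4001600080000000000000000000000000000000) (nat_lit 0x0) (nat_lit 0x1800080002000000020000000000000000000000000000000) := T_22 (nat_lit 175) (nat_lit 157) (nat_lit 0) (nat_lit 8) (nat_lit 10) L70225 (by decide +kernel)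
theorem L70227 : W_22 (nat_lit 4) (nat_lit 0x1f000a4001600080000000000000000000000000000000) (nat_lit 0x0) (nat_lit 0x61800080002000000020000000000000000000000000000000) := T_22 (nat_lit 197) (nat_lit 198) (nat_lit 3) (nat_lit 7) (nat_lit 10) L70226 (by decide +kernel)
theorem L70228 : W_22 (nat_lit 5) (nat_lit 0x1f000a0001600080000000000000000000000000000000) (nat_lit 0x0) (nat_lit 0x6180008000e000000020000000000000000000000000000000) := T_22 (nat_lit 158) (nat_lit 159) (nat_lit 0) (nat_lit 9) (nat_lit 10) L70227 (by decide +kernel)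
theorem L70229 : W_22 (nat_lit 6) (nat_lit 0x1e000a0001600080000000000000000000000000000000) (nat_lit 0x0) (nat_lit 0x6180018004e000000020000000000000000000000000000000) := T_22 (nat_lit 176) (nat_lit 162) (nat_lit 2) (nat_lit 6) (nat_lit 10) L70228 (by decide +kernel)
theorem L70230 : W_22 (nat_lit 7) (nat_lit 0x1e00020001600080000000000000000000000000000000) (nat_lit 0x0) (nat_lit 0x618001801ce000000020000000000000000000000000000000) := T_22 (nat_lit 163) (nat_lit 164) (nat_lit 2) (nat_lit 7) (nat_lit 10) L70229 (by decide +kernel)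
theorem L70231 : W_22 (nat_lit 2) (nat_lit 0x40003e00060001600180000000000000000000000000000000) (nat_lit 0x0) (nat_lit 0x180080000000000000000000000000000000000000000) := D_22 (nat_lit 176) (nat_lit 175) (nat_lit 163) (nat_lit 2) (nat_lit 5) (nat_lit 10) (nat_lit 2) (nat_lit 6) (nat_lit 10) (by decide +kernel)
theorem L70232 : W_22 (nat_lit 3) (nat_lit 0x40003e00020001600180000000000000000000000000000000) (nat_lit 0x0) (nat_lit 0x41800c0000000000000000000000000000000000000000) := T_22 (nat_lit 162) (nat_lit 182) (nat_lit 0) (nat_lit 12) (nat_lit 10) L70231 (by decide +kernel)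
theorem L70233 : W_22 (nat_lit 4) (nat_lit 0x40001e00020001600180000000000000000000000000000000) (nat_lit 0x0) (nat_lit 0x800061800c0000000000000000000000000000000000000000) := T_22 (nat_lit 181) (nat_lit 199) (nat_lit 3) (nat_lit 8) (nat_lit 10) L70232 (by decide +kernel)
theorem L70234 : W_22 (nat_lit 5) (nat_lit 0x40001e00020001600080000000000000000000000000000000) (nat_lit 0x0) (nat_lit 0x800061800c0000000100008000000000000000000000000000) := T_22 (nat_lit 128) (nat_lit 111) (nat_lit 6) (nat_lit 8) (nat_lit 10) L70233 (by decide +kernel)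
theorem L70235 : W_22 (nat_lit 6) (nat_lit 0x1e00020001600080000000000000000000000000000000) (nat_lit 0x0) (nat_lit 0xe00061800c0000000100008000000000000000000000000000) := T_22 (nat_lit 198) (nat_lit 197) (nat_lit 3) (nat_lit 7) (nat_lit 10) L70234 (by decide +kernel)
theorem L70236 : W_22 (nat_lit 2) (nat_lit 0x1f800a4001600180000000000000000000000000000000) (nat_lit 0x0) (nat_lit 0x1800000000000000020000000000000000000000000000000) := D_22 (nat_lit 192) (nat_lit 191) (nat_lit 125) (nat_lit 1) (nat_lit 8) (nat_lit 10) (nat_lit 6) (nat_lit 5) (nat_lit 11) (by decide +kernel)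
theorem L70237 : W_22 (nat_lit 3) (nat_lit 0x1f000a4001600180000000000000000000000000000000) (nat_lit 0x0) (nat_lit 0x1800080002000000020000000000000000000000000000000) := T_22 (nat_lit 175) (nat_lit 157) (nat_lit 0) (nat_lit 8) (nat_lit 10) L70236 (by decide +kernel)
theorem L70238 : W_22 (nat_lit 4) (nat_lit 0x1f000a4001600080000000000000000000000000000000) (nat_lit 0x0) (nat_lit 0x1800080002000000120008000000000000000000000000000) := T_22 (nat_lit 128) (nat_lit 111) (nat_lit 6) (nat_lit 8) (nat_lit 10) L70237 (by decide +kernel)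
theorem L70239 : W_22 (nat_lit 5) (nat_lit 0x1f000a0001600080000000000000000000000000000000) (nat_lit 0x0) (nat_lit 0x180008000e000000120008000000000000000000000000000) := T_22 (nat_lit 158) (nat_lit 159) (nat_lit 0) (nat_lit 9) (nat_lit 10) L70238 (by decide +kernel)
theorem L70240 : W_22 (nat_lit 6) (nat_lit 0x1e000a0001600080000000000000000000000000000000) (nat_lit 0x0) (nat_lit 0x180018004e000000120008000000000000000000000000000) := T_22 (nat_lit 176) (nat_lit 162) (nat_lit 2) (nat_lit 6) (nat_lit 10) L70239 (by decide +kernel)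
theorem L70241 : W_22 (nat_lit 7) (nat_lit 0x1e00020001600080000000000000000000000000000000) (nat_lit 0x0) (nat_lit 0x18001801ce000000120008000000000000000000000000000) := T_22 (nat_lit 163) (nat_lit 164) (nat_lit 2) (nat_lit 7) (nat_lit 10) L70240 (by decide +kernel)
theorem L70242 : W_22 (nat_lit 2) (nat_lit 0x40003e00220001600180000000000000000000000000000000) (nat_lit 0x0) (nat_lit 0x4000440000000000000000000000000000000000000000) := D_22 (nat_lit 182) (nat_lit 162) (nat_lit 166) (nat_lit 0) (nat_lit 12) (nat_lit 10) (nat_lit 2) (nat_lit 9) (nat_lit 10) (by decide +kernel)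
theorem L70243 : W_22 (nat_lit 3) (nat_lit 0x40003e00020001600180000000000000000000000000000000) (nat_lit 0x0) (nat_lit 0x4000740000000000000000000000000000000000000000) := T_22 (nat_lit 165) (nat_lit 164) (nat_lit 2) (nat_lit 8) (nat_lit 10) L70242 (by decide +kernel)
theorem L70244 : W_22 (nat_lit 4) (nat_lit 0x40001e00020001600180000000000000000000000000000000) (nat_lit 0x0) (nat_lit 0x80006000740000000000000000000000000000000000000000) := T_22 (nat_lit 181) (nat_lit 199) (nat_lit 3) (nat_lit 8) (nat_lit 10) L70243 (by decide +kernel)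
theorem L70245 : W_22 (nat_lit 5) (nat_lit 0x1e00020001600180000000000000000000000000000000) (nat_lit 0x0) (nat_lit 0xe0006000740000000000000000000000000000000000000000) := T_22 (nat_lit 198) (nat_lit 197) (nat_lit 3) (nat_lit 7) (nat_lit 10) L70244 (by decide +kernel)
theorem L70246 : W_22 (nat_lit 6) (nat_lit 0x1e00020001600080000000000000000000000000000000) (nat_lit 0x0) (nat_lit 0xe0006000740000000100008000000000000000000000000000) := T_22 (nat_lit 128) (nat_lit 111) (nat_lit 6) (nat_lit 8) (nat_lit 10) L70245 (by decide +kernel)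
theorem L70247 : W_22 (nat_lit 10) (nat_lit 0xe00020001600080000000000000000000000000000000) (nat_lit 0x0) (nat_lit 0xe1c071c07ce000000130008000000000000000000000000000) := Q_22 (nat_lit 180) (C_22 L70220 (C_22 L70224 (C_22 L70230 (C_22 L70235 (C_22 L70241 (C_22 L70246 N_22)))))) (by decide +kernel)
theorem L70248 : W_22 (nat_lit 11) (nat_lit 0x600020001600080000000000000000000000000000000) (nat_lit 0x0) (nat_lit 0xf1c079c07ce000000130008000000000000000000000000000) := T_22 (nat_lit 179) (nat_lit 196) (nat_lit 7) (nat_lit 8) (nat_lit 7) L70247 (by decide +kernel)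
theorem L70249 : W_22 (nat_lit 12) (nat_lit 0x600020001200080000000000000000000000000000000) (nat_lit 0x0) (nat_lit 0x300f1c079c07ce000c001380098000c0000000000000000000000) := Q_22 (nat_lit 142) (C_22 L70040 (C_22 L70248 (C_22 L69947 N_22))) (by decide +kernel)
theorem L70250 : W_22 (nat_lit 2) (nat_lit 0x7c0020001200180000000000000000000000000000000) (nat_lit 0x0) (nat_lit 0x1c00000000000000000000000000000000000000000000000) := D_22 (nat_lit 191) (nat_lit 190) (nat_lit 192) (nat_lit 1) (nat_lit 7) (nat_lit 10) (nat_lit 1) (nat_lit 8) (nat_lit 10) (by decide +kernel)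
theorem L70251 : W_22 (nat_lit 3) (nat_lit 0x780020001200180000000000000000000000000000000) (nat_lit 0x0) (nat_lit 0x1c00040010000000000000000000000000000000000000000) := T_22 (nat_lit 174) (nat_lit 160) (nat_lit 2) (nat_lit 4) (nat_lit 10) L70250 (by decide +kernel)
theorem L70252 : W_22 (nat_lit 4) (nat_lit 0x700020001200180000000000000000000000000000000) (nat_lit 0x0) (nat_lit 0x1c000c0050000000000000000000000000000000000000000) := T_22 (nat_lit 175) (nat_lit 162) (nat_lit 2) (nat_lit 5) (nat_lit 10) L70251 (by decide +kernel)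
theorem L70253 : W_22 (nat_lit 5) (nat_lit 0x700020001200080000000000000000000000000000000) (nat_lit 0x0) (nat_lit 0x1c000c0050000000100008000000000000000000000000000) := T_22 (nat_lit 128) (nat_lit 111) (nat_lit 6) (nat_lit 8) (nat_lit 10) L70252 (by decide +kernel)
theorem L70254 : W_22 (nat_lit 2) (nat_lit 0x7c0020001200080000000000000000000000000000000) (nat_lit 0x0) (nat_lit 0x1c00000000000000000000000000000000000000000000000) := D_22 (nat_lit 191) (nat_lit 190) (nat_lit 192) (nat_lit 1) (nat_lit 7) (nat_lit 10) (nat_lit 1) (nat_lit 8) (nat_lit 10) (by decide +kernel)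
theorem L70255 : W_22 (nat_lit 3) (nat_lit 0x780020001200080000000000000000000000000000000) (nat_lit 0x0) (nat_lit 0x1c00040010000000000000000000000000000000000000000) := T_22 (nat_lit 174) (nat_lit 160) (nat_lit 2) (nat_lit 4) (nat_lit 10) L70254 (by decide +kernel)
theorem L70256 : W_22 (nat_lit 4) (nat_lit 0x700020001200080000000000000000000000000000000) (nat_lit 0x0) (nat_lit 0x1c000c0050000000000000000000000000000000000000000) := T_22 (nat_lit 175) (nat_lit 162) (nat_lit 2) (nat_lit 5) (nat_lit 10) L70255 (by decide +kernel)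
theorem L70257 : W_22 (nat_lit 2) (nat_lit 0x1000780024001200180000000000000000000000000000000) (nat_lit 0x0) (nat_lit 0xc00020000000000000000000000000000000) := D_22 (nat_lit 142) (nat_lit 143) (nat_lit 125) (nat_lit 2) (nat_lit 5) (nat_lit 8) (nat_lit 6) (nat_lit 5) (nat_lit 11) (by decide +kernel)
theorem L70258 : W_22 (nat_lit 3) (nat_lit 0x1000780024001200080000000000000000000000000000000) (nat_lit 0x0) (nat_lit 0xc00120008000000000000000000000000000) := T_22 (nat_lit 128) (nat_lit 111) (nat_lit 6) (nat_lit 8) (nat_lit 10) L70257 (by decide +kernel)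
theorem L70259 : W_22 (nat_lit 4) (nat_lit 0x1000780020001200080000000000000000000000000000000) (nat_lit 0x0) (nat_lit 0x6000c00120008000000000000000000000000000) := T_22 (nat_lit 158) (nat_lit 157) (nat_lit 0) (nat_lit 8) (nat_lit 10) L70258 (by decide +kernel)
theorem L70260 : W_22 (nat_lit 5) (nat_lit 0x780020001200080000000000000000000000000000000) (nat_lit 0x0) (nat_lit 0x1800000006000c00120008000000000000000000000000000) := T_22 (nat_lit 192) (nat_lit 191) (nat_lit 1) (nat_lit 8) (nat_lit 10) L70259 (by decide +kernel)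
theorem L70261 : W_22 (nat_lit 6) (nat_lit 0x700020001200080000000000000000000000000000000) (nat_lit 0x0) (nat_lit 0x1800080046000c00120008000000000000000000000000000) := T_22 (nat_lit 175) (nat_lit 162) (nat_lit 2) (nat_lit 5) (nat_lit 10) L70260 (by decide +kernel)
theorem L70262 : W_22 (nat_lit 2) (nat_lit 0x1f000a0001600180000000000000000000000000000000) (nat_lit 0x0) (nat_lit 0x2000018000000000000000000000000000000000000000) := D_22 (nat_lit 160) (nat_lit 181) (nat_lit 159) (nat_lit 0) (nat_lit 11) (nat_lit 10) (nat_lit 0) (nat_lit 10) (nat_lit 10) (by decide +kernel)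
theorem L70263 : W_22 (nat_lit 3) (nat_lit 0xf000a0001600180000000000000000000000000000000) (nat_lit 0x0) (nat_lit 0x3000118000000000000000000000000000000000000000) := T_22 (nat_lit 180) (nat_lit 164) (nat_lit 2) (nat_lit 7) (nat_lit 10) L70262 (by decide +kernel)
theorem L70264 : W_22 (nat_lit 4) (nat_lit 0xf00020001600180000000000000000000000000000000) (nat_lit 0x0) (nat_lit 0x30001d8000000000000000000000000000000000000000) := T_22 (nat_lit 163) (nat_lit 162) (nat_lit 2) (nat_lit 6) (nat_lit 10) L70263 (by decide +kernel)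
theorem L70265 : W_22 (nat_lit 5) (nat_lit 0xf00020001200180000000000000000000000000000000) (nat_lit 0x0) (nat_lit 0x30001d8000c00000000000000000000000000000000000) := T_22 (nat_lit 142) (nat_lit 143) (nat_lit 2) (nat_lit 5) (nat_lit 8) L70264 (by decide +kernel)
theorem L70266 : W_22 (nat_lit 6) (nat_lit 0xf00020001200080000000000000000000000000000000) (nat_lit 0x0) (nat_lit 0x30001d8000c00100008000000000000000000000000000) := T_22 (nat_lit 128) (nat_lit 111) (nat_lit 6) (nat_lit 8) (nat_lit 10) L70265 (by decide +kernel)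
theorem L70267 : W_22 (nat_lit 2) (nat_lit 0x3f000a0001200080000000000000000000000000000000) (nat_lit 0x0) (nat_lit 0xe0000000000000000000000000000000000000000000000000) := D_22 (nat_lit 198) (nat_lit 197) (nat_lit 199) (nat_lit 3) (nat_lit 7) (nat_lit 10) (nat_lit 3) (nat_lit 8) (nat_lit 10) (by decide +kernel)
theorem L70268 : W_22 (nat_lit 3) (nat_lit 0x1f000a0001200080000000000000000000000000000000) (nat_lit 0x0) (nat_lit 0xe0002000010000000000000000000000000000000000000000) := T_22 (nat_lit 181) (nat_lit 160) (nat_lit 0) (nat_lit 11) (nat_lit 10) L70267 (by decide +kernel)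
theorem L70269 : W_22 (nat_lit 4) (nat_lit 0xf000a0001200080000000000000000000000000000000) (nat_lit 0x0) (nat_lit 0xe0003000110000000000000000000000000000000000000000) := T_22 (nat_lit 180) (nat_lit 164) (nat_lit 2) (nat_lit 7) (nat_lit 10) L70268 (by decide +kernel)
theorem L70270 : W_22 (nat_lit 5) (nat_lit 0xf00020001200080000000000000000000000000000000) (nat_lit 0x0) (nat_lit 0xe00030001d0000000000000000000000000000000000000000) := T_22 (nat_lit 163) (nat_lit 162) (nat_lit 2) (nat_lit 6) (nat_lit 10) L70269 (by decide +kernel)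
theorem L70271 : W_22 (nat_lit 2) (nat_lit 0x40003f000a8001a00180000000000000000000000000000000) (nat_lit 0x0) (nat_lit 0x4000600000000000000000000000000000000) := D_22 (nat_lit 129) (nat_lit 130) (nat_lit 146) (nat_lit 1) (nat_lit 11) (nat_lit 7) (nat_lit 7) (nat_lit 10) (nat_lit 7) (by decide +kernel)
theorem L70272 : W_22 (nat_lit 3) (nat_lit 0x40001f000a8001a00180000000000000000000000000000000) (nat_lit 0x0) (nat_lit 0x80002000000004000600000000000000000000000000000000) := T_22 (nat_lit 181) (nat_lit 199) (nat_lit 3) (nat_lit 8) (nat_lit 10) L70271 (by decide +kernel)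
theorem L70273 : W_22 (nat_lit 4) (nat_lit 0x40001f000a8001200180000000000000000000000000000000) (nat_lit 0x0) (nat_lit 0x80002000000004c00600000000000000000000000000000000) := T_22 (nat_lit 143) (nat_lit 142) (nat_lit 2) (nat_lit 5) (nat_lit 8) L70272 (by decide +kernel)
theorem L70274 : W_22 (nat_lit 5) (nat_lit 0x40001f000a8001200080000000000000000000000000000000) (nat_lit 0x0) (nat_lit 0x80002000000004c00700008000000000000000000000000000) := T_22 (nat_lit 128) (nat_lit 111) (nat_lit 6) (nat_lit 8) (nat_lit 10) L70273 (by decide +kernel)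
theorem L70275 : W_22 (nat_lit 6) (nat_lit 0x1f000a8001200080000000000000000000000000000000) (nat_lit 0x0) (nat_lit 0xe0002000000004c00700008000000000000000000000000000) := T_22 (nat_lit 198) (nat_lit 197) (nat_lit 3) (nat_lit 7) (nat_lit 10) L70274 (by decide +kernel)
theorem L70276 : W_22 (nat_lit 7) (nat_lit 0x1f000a0001200080000000000000000000000000000000) (nat_lit 0x0) (nat_lit 0xe000200000c004c00700008000000000000000000000000000) := T_22 (nat_lit 159) (nat_lit 158) (nat_lit 0) (nat_lit 9) (nat_lit 10) L70275 (by decide +kernel)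
theorem L70277 : W_22 (nat_lit 8) (nat_lit 0xf000a0001200080000000000000000000000000000000) (nat_lit 0x0) (nat_lit 0xe000300010c004c00700008000000000000000000000000000) := T_22 (nat_lit 180) (nat_lit 164) (nat_lit 2) (nat_lit 7) (nat_lit 10) L70276 (by decide +kernel)
theorem L70278 : W_22 (nat_lit 9) (nat_lit 0xf00020001200080000000000000000000000000000000) (nat_lit 0x0) (nat_lit 0xe00030001cc004c00700008000000000000000000000000000) := T_22 (nat_lit 163) (nat_lit 162) (nat_lit 2) (nat_lit 6) (nat_lit 10) L70277 (by decide +kernel)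
theorem L70279 : W_22 (nat_lit 2) (nat_lit 0xf00060001600080000000000000000000000000000000) (nat_lit 0x0) (nat_lit 0x1c000000000000000000000000000000000000000) := D_22 (nat_lit 159) (nat_lit 160) (nat_lit 158) (nat_lit 0) (nat_lit 9) (nat_lit 9) (nat_lit 0) (nat_lit 9) (nat_lit 10) (by decide +kernel)
theorem L70280 : W_22 (nat_lit 3) (nat_lit 0xf00060001200080000000000000000000000000000000) (nat_lit 0x0) (nat_lit 0x1c000c00000000000000000000000000000000000) := T_22 (nat_lit 142) (nat_lit 143) (nat_lit 3) (nat_lit 5) (nat_lit 8) L70279 (by decide +kernel)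
theorem L70281 : W_22 (nat_lit 4) (nat_lit 0xf00020001200080000000000000000000000000000000) (nat_lit 0x0) (nat_lit 0xdc000c00000000000000000000000000000000000) := T_22 (nat_lit 162) (nat_lit 163) (nat_lit 2) (nat_lit 6) (nat_lit 10) L70280 (by decide +kernel)
theorem L70282 : W_22 (nat_lit 2) (nat_lit 0x40001f00128001600180000000000000000000000000000000) (nat_lit 0x0) (nat_lit 0x80002000200000000000000000000000000000000000000000) := D_22 (nat_lit 181) (nat_lit 199) (nat_lit 165) (nat_lit 3) (nat_lit 8) (nat_lit 10) (nat_lit 2) (nat_lit 8) (nat_lit 10) (by decide +kernel)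
theorem L70283 : W_22 (nat_lit 3) (nat_lit 0x40001f00028001600180000000000000000000000000000000) (nat_lit 0x0) (nat_lit 0x80002000380000000000000000000000000000000000000000) := T_22 (nat_lit 164) (nat_lit 163) (nat_lit 2) (nat_lit 7) (nat_lit 10) L70282 (by decide +kernel)
theorem L70284 : W_22 (nat_lit 4) (nat_lit 0x1f00028001600180000000000000000000000000000000) (nat_lit 0x0) (nat_lit 0xe0002000380000000000000000000000000000000000000000) := T_22 (nat_lit 198) (nat_lit 197) (nat_lit 3) (nat_lit 7) (nat_lit 10) L70283 (by decide +kernel)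
theorem L70285 : W_22 (nat_lit 5) (nat_lit 0xf00028001600180000000000000000000000000000000) (nat_lit 0x0) (nat_lit 0xe0003000390000000000000000000000000000000000000000) := T_22 (nat_lit 180) (nat_lit 160) (nat_lit 0) (nat_lit 10) (nat_lit 10) L70284 (by decide +kernel)
theorem L70286 : W_22 (nat_lit 6) (nat_lit 0xf00028001200180000000000000000000000000000000) (nat_lit 0x0) (nat_lit 0xe0003000390000c00000000000000000000000000000000000) := T_22 (nat_lit 142) (nat_lit 143) (nat_lit 2) (nat_lit 5) (nat_lit 8) L70285 (by decide +kernel)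
theorem L70287 : W_22 (nat_lit 7) (nat_lit 0xf00028001200080000000000000000000000000000000) (nat_lit 0x0) (nat_lit 0xe0003000390000c00100008000000000000000000000000000) := T_22 (nat_lit 128) (nat_lit 111) (nat_lit 6) (nat_lit 8) (nat_lit 10) L70286 (by decide +kernel)
theorem L70288 : W_22 (nat_lit 8) (nat_lit 0xf00020001200080000000000000000000000000000000) (nat_lit 0x0) (nat_lit 0xe000300039c000c00100008000000000000000000000000000) := T_22 (nat_lit 159) (nat_lit 158) (nat_lit 0) (nat_lit 9) (nat_lit 10) L70287 (by decide +kernel)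
theorem L70289 : W_22 (nat_lit 2) (nat_lit 0xf00028001600180000000000000000000000000000000) (nat_lit 0x0) (nat_lit 0x1000050000000000000000000000000000000000000000) := D_22 (nat_lit 160) (nat_lit 162) (nat_lit 180) (nat_lit 0) (nat_lit 9) (nat_lit 9) (nat_lit 0) (nat_lit 10) (nat_lit 10) (by decide +kernel)
theorem L70290 : W_22 (nat_lit 3) (nat_lit 0xf00028001200180000000000000000000000000000000) (nat_lit 0x0) (nat_lit 0x1000050000c00000000000000000000000000000000000) := T_22 (nat_lit 142) (nat_lit 143) (nat_lit 2) (nat_lit 5) (nat_lit 8) L70289 (by decide +kernel)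
theorem L70291 : W_22 (nat_lit 4) (nat_lit 0xf00028001200080000000000000000000000000000000) (nat_lit 0x0) (nat_lit 0x1000050000c00100008000000000000000000000000000) := T_22 (nat_lit 128) (nat_lit 111) (nat_lit 6) (nat_lit 8) (nat_lit 10) L70290 (by decide +kernel)
theorem L70292 : W_22 (nat_lit 5) (nat_lit 0xf00020001200080000000000000000000000000000000) (nat_lit 0x0) (nat_lit 0x100005c000c00100008000000000000000000000000000) := T_22 (nat_lit 159) (nat_lit 158) (nat_lit 0) (nat_lit 9) (nat_lit 10) L70291 (by decide +kernel)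
theorem L70293 : W_22 (nat_lit 10) (nat_lit 0x700020001200080000000000000000000000000000000) (nat_lit 0x0) (nat_lit 0xe00038003dc004c00700008000000000000000000000000000) := Q_22 (nat_lit 179) (C_22 L70266 (C_22 L70270 (C_22 L70278 (C_22 L70281 (C_22 L70288 (C_22 L70292 N_22)))))) (by decide +kernel)
theorem L70294 : W_22 (nat_lit 2) (nat_lit 0xf80024001600180000000000000000000000000000000) (nat_lit 0x0) (nat_lit 0x1800000000000000020000000000000000000000000000000) := D_22 (nat_lit 192) (nat_lit 191) (nat_lit 125) (nat_lit 1) (nat_lit 8) (nat_lit 10) (nat_lit 6) (nat_lit 5) (nat_lit 11) (by decide +kernel)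
theorem L70295 : W_22 (nat_lit 3) (nat_lit 0xf00024001600180000000000000000000000000000000) (nat_lit 0x0) (nat_lit 0x1800080002000000020000000000000000000000000000000) := T_22 (nat_lit 175) (nat_lit 157) (nat_lit 0) (nat_lit 8) (nat_lit 10) L70294 (by decide +kernel)
theorem L70296 : W_22 (nat_lit 4) (nat_lit 0x700024001600180000000000000000000000000000000) (nat_lit 0x0) (nat_lit 0x180088000a000000020000000000000000000000000000000) := T_22 (nat_lit 179) (nat_lit 159) (nat_lit 0) (nat_lit 9) (nat_lit 10) L70295 (by decide +kernel)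
theorem L70297 : W_22 (nat_lit 5) (nat_lit 0x700024001200180000000000000000000000000000000) (nat_lit 0x0) (nat_lit 0x180088000a000c00020000000000000000000000000000000) := T_22 (nat_lit 142) (nat_lit 143) (nat_lit 2) (nat_lit 5) (nat_lit 8) L70296 (by decide +kernel)
theorem L70298 : W_22 (nat_lit 6) (nat_lit 0x700024001200080000000000000000000000000000000) (nat_lit 0x0) (nat_lit 0x180088000a000c00120008000000000000000000000000000) := T_22 (nat_lit 128) (nat_lit 111) (nat_lit 6) (nat_lit 8) (nat_lit 10) L70297 (by decide +kernel)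
theorem L70299 : W_22 (nat_lit 2) (nat_lit 0x7c0024001600180000000000000000000000000000000) (nat_lit 0x0) (nat_lit 0x1c00000000000000000000000000000000000000000000000) := D_22 (nat_lit 191) (nat_lit 190) (nat_lit 192) (nat_lit 1) (nat_lit 7) (nat_lit 10) (nat_lit 1) (nat_lit 8) (nat_lit 10) (by decide +kernel)
theorem L70300 : W_22 (nat_lit 3) (nat_lit 0x780024001600180000000000000000000000000000000) (nat_lit 0x0) (nat_lit 0x1c00040010000000000000000000000000000000000000000) := T_22 (nat_lit 174) (nat_lit 160) (nat_lit 2) (nat_lit 4) (nat_lit 10) L70299 (by decide +kernel)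
theorem L70301 : W_22 (nat_lit 4) (nat_lit 0x780024001200180000000000000000000000000000000) (nat_lit 0x0) (nat_lit 0x1c00040010000c00000000000000000000000000000000000) := T_22 (nat_lit 142) (nat_lit 143) (nat_lit 2) (nat_lit 5) (nat_lit 8) L70300 (by decide +kernel)
theorem L70302 : W_22 (nat_lit 5) (nat_lit 0x780024001200080000000000000000000000000000000) (nat_lit 0x0) (nat_lit 0x1c00040010000c00100008000000000000000000000000000) := T_22 (nat_lit 128) (nat_lit 111) (nat_lit 6) (nat_lit 8) (nat_lit 10) L70301 (by decide +kernel)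
theorem L70303 : W_22 (nat_lit 6) (nat_lit 0x700024001200080000000000000000000000000000000) (nat_lit 0x0) (nat_lit 0x1c000c0012000c00100008000000000000000000000000000) := T_22 (nat_lit 175) (nat_lit 157) (nat_lit 0) (nat_lit 8) (nat_lit 10) L70302 (by decide +kernel)
theorem L70304 : W_22 (nat_lit 2) (nat_lit 0xfc0024001200080000000000000000000000000000000) (nat_lit 0x0) (nat_lit 0x1c00000000000000000000000000000000000000000000000) := D_22 (nat_lit 191) (nat_lit 190) (nat_lit 192) (nat_lit 1) (nat_lit 7) (nat_lit 10) (nat_lit 1) (nat_lit 8) (nat_lit 10) (by decide +kernel)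
theorem L70305 : W_22 (nat_lit 3) (nat_lit 0xf80024001200080000000000000000000000000000000) (nat_lit 0x0) (nat_lit 0x1c00040010000000000000000000000000000000000000000) := T_22 (nat_lit 174) (nat_lit 160) (nat_lit 2) (nat_lit 4) (nat_lit 10) L70304 (by decide +kernel)
theorem L70306 : W_22 (nat_lit 4) (nat_lit 0x780024001200080000000000000000000000000000000) (nat_lit 0x0) (nat_lit 0x1c00840018000000000000000000000000000000000000000) := T_22 (nat_lit 179) (nat_lit 159) (nat_lit 0) (nat_lit 9) (nat_lit 10) L70305 (by decide +kernel)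
theorem L70307 : W_22 (nat_lit 5) (nat_lit 0x700024001200080000000000000000000000000000000) (nat_lit 0x0) (nat_lit 0x1c008c001a000000000000000000000000000000000000000) := T_22 (nat_lit 175) (nat_lit 157) (nat_lit 0) (nat_lit 8) (nat_lit 10) L70306 (by decide +kernel)
theorem L70308 : W_22 (nat_lit 2) (nat_lit 0x70002c001200080000000000000000000000000000000) (nat_lit 0x0) (nat_lit 0x12000100000000000000000000000000000000000) := D_22 (nat_lit 160) (nat_lit 140) (nat_lit 157) (nat_lit 0) (nat_lit 8) (nat_lit 9) (nat_lit 3) (nat_lit 4) (nat_lit 9) (by decide +kernel)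
theorem L70309 : W_22 (nat_lit 3) (nat_lit 0x700024001200080000000000000000000000000000000) (nat_lit 0x0) (nat_lit 0x80001a000100000000000000000000000000000000000) := T_22 (nat_lit 159) (nat_lit 179) (nat_lit 0) (nat_lit 9) (nat_lit 10) L70308 (by decide +kernel)
theorem L70310 : W_22 (nat_lit 2) (nat_lit 0x78003c001600180001800000000000000000000000000) (nat_lit 0x0) (nat_lit 0x20001800000000000000000000000000000000000000000000000) := D_22 (nat_lit 192) (nat_lit 209) (nat_lit 191) (nat_lit 6) (nat_lit 5) (nat_lit 12) (nat_lit 1) (nat_lit 8) (nat_lit 10) (by decide +kernel)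
theorem L70311 : W_22 (nat_lit 3) (nat_lit 0x70003c001600180001800000000000000000000000000) (nat_lit 0x0) (nat_lit 0x200018000c0000000000000000000000000000000000000000000) := T_22 (nat_lit 175) (nat_lit 174) (nat_lit 2) (nat_lit 4) (nat_lit 10) L70310 (by decide +kernel)
theorem L70312 : W_22 (nat_lit 4) (nat_lit 0x70003c001600180000800000000000000000000000000) (nat_lit 0x0) (nat_lit 0x200018000c0000000000020001000000000000000000000000000) := T_22 (nat_lit 108) (nat_lit 125) (nat_lit 7) (nat_lit 6) (nat_lit 6) L70311 (by decide +kernel)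
theorem L70313 : W_22 (nat_lit 5) (nat_lit 0x70003c001600180000000000000000000000000000000) (nat_lit 0x0) (nat_lit 0x200018000c0000000000030001800000000000000000000000000) := T_22 (nat_lit 107) (nat_lit 124) (nat_lit 7) (nat_lit 5) (nat_lit 6) L70312 (by decide +kernel)
theorem L70314 : W_22 (nat_lit 6) (nat_lit 0x70002c001600180000000000000000000000000000000) (nat_lit 0x0) (nat_lit 0x200018000c0010000100030001800000000000000000000000000) := T_22 (nat_lit 160) (nat_lit 140) (nat_lit 0) (nat_lit 8) (nat_lit 9) L70313 (by decide +kernel)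
theorem L70315 : W_22 (nat_lit 7) (nat_lit 0x700024001600180000000000000000000000000000000) (nat_lit 0x0) (nat_lit 0x200018008c0018000100030001800000000000000000000000000) := T_22 (nat_lit 159) (nat_lit 179) (nat_lit 0) (nat_lit 9) (nat_lit 10) L70314 (by decide +kernel)
theorem L70316 : W_22 (nat_lit 8) (nat_lit 0x700024001200180000000000000000000000000000000) (nat_lit 0x0) (nat_lit 0x200018008c0018000d00030001800000000000000000000000000) := T_22 (nat_lit 142) (nat_lit 143) (nat_lit 2) (nat_lit 5) (nat_lit 8) L70315 (by decide +kernel)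
theorem L70317 : W_22 (nat_lit 9) (nat_lit 0x700024001200080000000000000000000000000000000) (nat_lit 0x0) (nat_lit 0x200018008c0018000d00130009800000000000000000000000000) := T_22 (nat_lit 128) (nat_lit 111) (nat_lit 6) (nat_lit 8) (nat_lit 10) L70316 (by decide +kernel)
theorem L70318 : W_22 (nat_lit 10) (nat_lit 0x700020001200080000000000000000000000000000000) (nat_lit 0x0) (nat_lit 0x20001c008c001e000d00130009800000000000000000000000000) := Q_22 (nat_lit 158) (C_22 L70298 (C_22 L70303 (C_22 L70307 (C_22 L70309 (C_22 L70317 N_22))))) (by decide +kernel)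
theorem L70319 : W_22 (nat_lit 11) (nat_lit 0x600020001200080000000000000000000000000000000) (nat_lit 0x0) (nat_lit 0x200e1c039c03de004d00730009800000000000000000000000000) := Q_22 (nat_lit 176) (C_22 L70253 (C_22 L70256 (C_22 L70261 (C_22 L70293 (C_22 L70318 N_22))))) (by decide +kernel)
theorem L70320 : W_22 (nat_lit 2) (nat_lit 0x600078001200080000000000000000000000000000000) (nat_lit 0x0) (nat_lit 0x10001800000000000000000000000000000000000000000000) := D_22 (nat_lit 179) (nat_lit 196) (nat_lit 180) (nat_lit 7) (nat_lit 8) (nat_lit 7) (nat_lit 3) (nat_lit 6) (nat_lit 9) (by decide +kernel)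
theorem L70321 : W_22 (nat_lit 3) (nat_lit 0x600070001200080000000000000000000000000000000) (nat_lit 0x0) (nat_lit 0x10001800008000400000000000000000000000000000000000) := T_22 (nat_lit 159) (nat_lit 142) (nat_lit 0) (nat_lit 9) (nat_lit 9) L70320 (by decide +kernel)
theorem L70322 : W_22 (nat_lit 2) (nat_lit 0x2000100016000f0001200080000000000000000000000000000000) (nat_lit 0x0) (nat_lit 0x2000000000000c000000000000000000000000000000000000) := D_22 (nat_lit 146) (nat_lit 147) (nat_lit 197) (nat_lit 2) (nat_lit 7) (nat_lit 9) (nat_lit 5) (nat_lit 10) (nat_lit 8) (by decide +kernel)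
theorem L70323 : W_22 (nat_lit 3) (nat_lit 0x2000100006000f0001200080000000000000000000000000000000) (nat_lit 0x0) (nat_lit 0x2000300000000c000000000000000000000000000000000000) := T_22 (nat_lit 180) (nat_lit 181) (nat_lit 3) (nat_lit 7) (nat_lit 9) L70322 (by decide +kernel)
theorem L70324 : W_22 (nat_lit 4) (nat_lit 0x100006000f0001200080000000000000000000000000000000) (nat_lit 0x0) (nat_lit 0x20002800300000000c000000000000000000000000000000000000) := T_22 (nat_lit 213) (nat_lit 195) (nat_lit 7) (nat_lit 8) (nat_lit 8) L70323 (by decide +kernel)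
theorem L70325 : W_22 (nat_lit 5) (nat_lit 0x10000600070001200080000000000000000000000000000000) (nat_lit 0x0) (nat_lit 0x20002800300018000c000000000000000000000000000000000000) := T_22 (nat_lit 163) (nat_lit 164) (nat_lit 1) (nat_lit 11) (nat_lit 9) L70324 (by decide +kernel)
theorem L70326 : W_22 (nat_lit 6) (nat_lit 0x600070001200080000000000000000000000000000000) (nat_lit 0x0) (nat_lit 0x20003800380018000c000000000000000000000000000000000000) := T_22 (nat_lit 196) (nat_lit 179) (nat_lit 7) (nat_lit 8) (nat_lit 7) L70325 (by decide +kernel)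
theorem L70327 : W_22 (nat_lit 7) (nat_lit 0x600060001200080000000000000000000000000000000) (nat_lit 0x0) (nat_lit 0x20003800380019e00c500000000000000000000000000000000000) := Q_22 (nat_lit 160) (C_22 L70126 (C_22 L70321 (C_22 L70326 N_22))) (by decide +kernel)
theorem L70328 : W_22 (nat_lit 9) (nat_lit 0x600020001200080000000000000000000000000000000) (nat_lit 0x0) (nat_lit 0x2000f80079801de00c500100008000000000000000000000000000) := Q_22 (nat_lit 162) (C_22 L70327 (C_22 L70207 (C_22 L70159 (C_22 L70166 N_22)))) (by decide +kernel)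
theorem L70329 : W_22 (nat_lit 2) (nat_lit 0x1800680024001600190000000000000000000000000000000) (nat_lit 0x0) (nat_lit 0x100008000400000000000000000000000000) := D_22 (nat_lit 123) (nat_lit 106) (nat_lit 140) (nat_lit 4) (nat_lit 5) (nat_lit 10) (nat_lit 4) (nat_lit 5) (nat_lit 11) (by decide +kernel)
theorem L70330 : W_22 (nat_lit 3) (nat_lit 0x1800680024001600180000000000000000000000000000000) (nat_lit 0x0) (nat_lit 0x40000000100018000400000000000000000000000000) := T_22 (nat_lit 124) (nat_lit 174) (nat_lit 5) (nat_lit 5) (nat_lit 7) L70329 (by decide +kernel)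
theorem L70331 : W_22 (nat_lit 4) (nat_lit 0x1000680024001600180000000000000000000000000000000) (nat_lit 0x0) (nat_lit 0x10000800040000000100018000400000000000000000000000000) := T_22 (nat_lit 191) (nat_lit 208) (nat_lit 5) (nat_lit 5) (nat_lit 8) L70330 (by decide +kernel)
theorem L70332 : W_22 (nat_lit 5) (nat_lit 0x680024001600180000000000000000000000000000000) (nat_lit 0x0) (nat_lit 0x10001800040000000100038000400000000000000000000000000) := T_22 (nat_lit 192) (nat_lit 125) (nat_lit 6) (nat_lit 5) (nat_lit 11) L70331 (by decide +kernel)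
theorem L70333 : W_22 (nat_lit 6) (nat_lit 0x680024001200180000000000000000000000000000000) (nat_lit 0x0) (nat_lit 0x10001800040000000d00038000400000000000000000000000000) := T_22 (nat_lit 142) (nat_lit 143) (nat_lit 2) (nat_lit 5) (nat_lit 8) L70332 (by decide +kernel)
theorem L70334 : W_22 (nat_lit 7) (nat_lit 0x680024001200080000000000000000000000000000000) (nat_lit 0x0) (nat_lit 0x10001800040000000d00138008400000000000000000000000000) := T_22 (nat_lit 128) (nat_lit 111) (nat_lit 6) (nat_lit 8) (nat_lit 10) L70333 (by decide +kernel)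
theorem L70335 : W_22 (nat_lit 2) (nat_lit 0x68002c001200080000000000000000000000000000000) (nat_lit 0x0) (nat_lit 0x40010000100000000000000000000000000000000000) := D_22 (nat_lit 160) (nat_lit 140) (nat_lit 174) (nat_lit 0) (nat_lit 8) (nat_lit 9) (nat_lit 1) (nat_lit 8) (nat_lit 9) (by decide +kernel)
theorem L70336 : W_22 (nat_lit 2) (nat_lit 0x180068002c001600190000000000000000000000000000000) (nat_lit 0x0) (nat_lit 0x100008000400000000000000000000000000) := D_22 (nat_lit 123) (nat_lit 106) (nat_lit 140) (nat_lit 4) (nat_lit 5) (nat_lit 10) (nat_lit 4) (nat_lit 5) (nat_lit 11) (by decide +kernel)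
theorem L70337 : W_22 (nat_lit 3) (nat_lit 0x180068002c001600180000000000000000000000000000000) (nat_lit 0x0) (nat_lit 0x40000000100018000400000000000000000000000000) := T_22 (nat_lit 124) (nat_lit 174) (nat_lit 5) (nat_lit 5) (nat_lit 7) L70336 (by decide +kernel)
theorem L70338 : W_22 (nat_lit 4) (nat_lit 0x100068002c001600180000000000000000000000000000000) (nat_lit 0x0) (nat_lit 0x10000800040000000100018000400000000000000000000000000) := T_22 (nat_lit 191) (nat_lit 208) (nat_lit 5) (nat_lit 5) (nat_lit 8) L70337 (by decide +kernel)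
theorem L70339 : W_22 (nat_lit 5) (nat_lit 0x68002c001600180000000000000000000000000000000) (nat_lit 0x0) (nat_lit 0x30001800040000000100018000400000000000000000000000000) := T_22 (nat_lit 192) (nat_lit 209) (nat_lit 6) (nat_lit 5) (nat_lit 12) L70338 (by decide +kernel)
theorem L70340 : W_22 (nat_lit 6) (nat_lit 0x68002c001200180000000000000000000000000000000) (nat_lit 0x0) (nat_lit 0x30001800040000000d00018000400000000000000000000000000) := T_22 (nat_lit 142) (nat_lit 143) (nat_lit 2) (nat_lit 5) (nat_lit 8) L70339 (by decide +kernel)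
theorem L70341 : W_22 (nat_lit 7) (nat_lit 0x68002c001200080000000000000000000000000000000) (nat_lit 0x0) (nat_lit 0x30001800040000000d00118008400000000000000000000000000) := T_22 (nat_lit 128) (nat_lit 111) (nat_lit 6) (nat_lit 8) (nat_lit 10) L70340 (by decide +kernel)
theorem L70342 : W_22 (nat_lit 2) (nat_lit 0x68002c001200080000000000000000000000000000000) (nat_lit 0x0) (nat_lit 0x40012000000000000000000000000000000000000000) := D_22 (nat_lit 160) (nat_lit 157) (nat_lit 174) (nat_lit 3) (nat_lit 4) (nat_lit 9) (nat_lit 1) (nat_lit 8) (nat_lit 9) (by decide +kernel)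
theorem L70343 : W_22 (nat_lit 2) (nat_lit 0x68002c001200080000000000000000000000000000000) (nat_lit 0x0) (nat_lit 0x12000100000000000000000000000000000000000) := D_22 (nat_lit 160) (nat_lit 157) (nat_lit 140) (nat_lit 3) (nat_lit 4) (nat_lit 9) (nat_lit 0) (nat_lit 8) (nat_lit 9) (by decide +kernel)
theorem L70344 : W_22 (nat_lit 8) (nat_lit 0x680024001200080000000000000000000000000000000) (nat_lit 0x0) (nat_lit 0x3000180004001a000d00118008400000000000000000000000000) := Q_22 (nat_lit 159) (C_22 L70335 (C_22 L70341 (C_22 L70342 (C_22 L70343 N_22)))) (by decide +kernel)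
theorem L70345 : W_22 (nat_lit 2) (nat_lit 0x680024001600080000000000000000000000000000000) (nat_lit 0x0) (nat_lit 0x42000800000000000000000000000000000000000) := D_22 (nat_lit 143) (nat_lit 162) (nat_lit 157) (nat_lit 3) (nat_lit 5) (nat_lit 8) (nat_lit 1) (nat_lit 8) (nat_lit 8) (by decide +kernel)
theorem L70346 : W_22 (nat_lit 6) (nat_lit 0x680024001200080000000000000000000000000000000) (nat_lit 0x0) (nat_lit 0x10001800040042000d00038000400000000000000000000000000) := Q_22 (nat_lit 142) (C_22 L70000 (C_22 L70345 N_22)) (by decide +kernel)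
theorem L70347 : W_22 (nat_lit 2) (nat_lit 0x6c00240012001b0000800000000000000000000000000) (nat_lit 0x0) (nat_lit 0x8000400020000000000000000000000) := D_22 (nat_lit 106) (nat_lit 89) (nat_lit 123) (nat_lit 4) (nat_lit 5) (nat_lit 9) (nat_lit 4) (nat_lit 5) (nat_lit 10) (by decide +kernel)
theorem L70348 : W_22 (nat_lit 3) (nat_lit 0x6c00240012001b0000000000000000000000000000000) (nat_lit 0x0) (nat_lit 0x2000000008000c00020000000000000000000000) := T_22 (nat_lit 107) (nat_lit 157) (nat_lit 5) (nat_lit 5) (nat_lit 6) L70347 (by decide +kernel)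
theorem L70349 : W_22 (nat_lit 4) (nat_lit 0x6800240012001b0000000000000000000000000000000) (nat_lit 0x0) (nat_lit 0x800040002000000008000c00020000000000000000000000) := T_22 (nat_lit 174) (nat_lit 191) (nat_lit 5) (nat_lit 5) (nat_lit 7) L70348 (by decide +kernel)
theorem L70350 : W_22 (nat_lit 5) (nat_lit 0x680024001200190000000000000000000000000000000) (nat_lit 0x0) (nat_lit 0x800040002000000028001c00020000000000000000000000) := T_22 (nat_lit 125) (nat_lit 108) (nat_lit 6) (nat_lit 5) (nat_lit 10) L70349 (by decide +kernel)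
theorem L70351 : W_22 (nat_lit 6) (nat_lit 0x680024001200090000000000000000000000000000000) (nat_lit 0x0) (nat_lit 0x800040002000000128009c00020000000000000000000000) := T_22 (nat_lit 128) (nat_lit 111) (nat_lit 6) (nat_lit 8) (nat_lit 10) L70350 (by decide +kernel)
theorem L70352 : W_22 (nat_lit 2) (nat_lit 0x1000680024001200198000000000000000000000000000000) (nat_lit 0x0) (nat_lit 0x10000800040000000000000000000000000000000000000000000) := D_22 (nat_lit 191) (nat_lit 174) (nat_lit 208) (nat_lit 5) (nat_lit 5) (nat_lit 7) (nat_lit 5) (nat_lit 5) (nat_lit 8) (by decide +kernel)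
theorem L70353 : W_22 (nat_lit 3) (nat_lit 0x680024001200198000000000000000000000000000000) (nat_lit 0x0) (nat_lit 0x10001800040000000100000000000000000000000000000000000) := T_22 (nat_lit 192) (nat_lit 140) (nat_lit 4) (nat_lit 5) (nat_lit 11) L70352 (by decide +kernel)
theorem L70354 : W_22 (nat_lit 4) (nat_lit 0x680024001200098000000000000000000000000000000) (nat_lit 0x0) (nat_lit 0x10001800040000000100100008000000000000000000000000000) := T_22 (nat_lit 128) (nat_lit 111) (nat_lit 6) (nat_lit 8) (nat_lit 10) L70353 (by decide +kernel)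
theorem L70355 : W_22 (nat_lit 5) (nat_lit 0x680024001200090000000000000000000000000000000) (nat_lit 0x0) (nat_lit 0x10001800040000000100108008400000000000000000000000000) := T_22 (nat_lit 123) (nat_lit 106) (nat_lit 4) (nat_lit 5) (nat_lit 10) L70354 (by decide +kernel)
theorem L70356 : W_22 (nat_lit 2) (nat_lit 0x6c0024001200090000800000000000000000000000000) (nat_lit 0x0) (nat_lit 0x8000400020000000000000000000000) := D_22 (nat_lit 106) (nat_lit 89) (nat_lit 123) (nat_lit 4) (nat_lit 5) (nat_lit 9) (nat_lit 4) (nat_lit 5) (nat_lit 10) (by decide +kernel)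
theorem L70357 : W_22 (nat_lit 3) (nat_lit 0x6c0024001200090000000000000000000000000000000) (nat_lit 0x0) (nat_lit 0x2000000008000c00020000000000000000000000) := T_22 (nat_lit 107) (nat_lit 157) (nat_lit 5) (nat_lit 5) (nat_lit 6) L70356 (by decide +kernel)
theorem L70358 : W_22 (nat_lit 4) (nat_lit 0x680024001200090000000000000000000000000000000) (nat_lit 0x0) (nat_lit 0x800040002000000008000c00020000000000000000000000) := T_22 (nat_lit 174) (nat_lit 191) (nat_lit 5) (nat_lit 5) (nat_lit 7) L70357 (by decide +kernel)
theorem L70359 : W_22 (nat_lit 2) (nat_lit 0x680024001200190001800000000000000000000000000) (nat_lit 0x0) (nat_lit 0x8000400020000000000000000000000) := D_22 (nat_lit 106) (nat_lit 89) (nat_lit 123) (nat_lit 4) (nat_lit 5) (nat_lit 9) (nat_lit 4) (nat_lit 5) (nat_lit 10) (by decide +kernel)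
theorem L70360 : W_22 (nat_lit 3) (nat_lit 0x680024001200190001000000000000000000000000000) (nat_lit 0x0) (nat_lit 0x8000c000a0000000000000000000000) := T_22 (nat_lit 107) (nat_lit 91) (nat_lit 6) (nat_lit 5) (nat_lit 9) L70359 (by decide +kernel)
theorem L70361 : W_22 (nat_lit 4) (nat_lit 0x680024001200090001000000000000000000000000000) (nat_lit 0x0) (nat_lit 0x108008c000a0000000000000000000000) := T_22 (nat_lit 128) (nat_lit 111) (nat_lit 6) (nat_lit 8) (nat_lit 10) L70360 (by decide +kernel)
theorem L70362 : W_22 (nat_lit 5) (nat_lit 0x680024001200090000000000000000000000000000000) (nat_lit 0x0) (nat_lit 0x128009c000a0000000000000000000000) := T_22 (nat_lit 108) (nat_lit 125) (nat_lit 6) (nat_lit 5) (nat_lit 10) L70361 (by decide +kernel)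
theorem L70363 : W_22 (nat_lit 2) (nat_lit 0x6c0024001200090000800000000000000000000000000) (nat_lit 0x0) (nat_lit 0x20001000080000000000000000000000) := D_22 (nat_lit 108) (nat_lit 125) (nat_lit 91) (nat_lit 6) (nat_lit 5) (nat_lit 10) (nat_lit 6) (nat_lit 5) (nat_lit 9) (by decide +kernel)
theorem L70364 : W_22 (nat_lit 3) (nat_lit 0x6c0024001200090000000000000000000000000000000) (nat_lit 0x0) (nat_lit 0x2000000020001800080000000000000000000000) := T_22 (nat_lit 107) (nat_lit 157) (nat_lit 5) (nat_lit 5) (nat_lit 6) L70363 (by decide +kernel)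
theorem L70365 : W_22 (nat_lit 4) (nat_lit 0x680024001200090000000000000000000000000000000) (nat_lit 0x0) (nat_lit 0x800040002000000020001800080000000000000000000000) := T_22 (nat_lit 174) (nat_lit 191) (nat_lit 5) (nat_lit 5) (nat_lit 7) L70364 (by decide +kernel)
theorem L70366 : W_22 (nat_lit 7) (nat_lit 0x680024001200080000000000000000000000000000000) (nat_lit 0x0) (nat_lit 0x10001800040002000100138009c000a0000000000000000000000) := Q_22 (nat_lit 124) (C_22 L70351 (C_22 L70355 (C_22 L70358 (C_22 L70362 (C_22 L70365 N_22))))) (by decide +kernel)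
theorem L70367 : W_22 (nat_lit 2) (nat_lit 0x20001800680024001600180000000000000000000000000000000) (nat_lit 0x0) (nat_lit 0x2000100008000000000000000000000000000000) := D_22 (nat_lit 140) (nat_lit 157) (nat_lit 123) (nat_lit 4) (nat_lit 5) (nat_lit 12) (nat_lit 4) (nat_lit 5) (nat_lit 11) (by decide +kernel)
theorem L70368 : W_22 (nat_lit 3) (nat_lit 0x1800680024001600180000000000000000000000000000000) (nat_lit 0x0) (nat_lit 0x2000000000000a000100008000000000000000000000000000000) := T_22 (nat_lit 209) (nat_lit 159) (nat_lit 6) (nat_lit 5) (nat_lit 12) L70367 (by decide +kernel)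
theorem L70369 : W_22 (nat_lit 4) (nat_lit 0x1000680024001600180000000000000000000000000000000) (nat_lit 0x0) (nat_lit 0x3000080000000a000100008000000000000000000000000000000) := T_22 (nat_lit 191) (nat_lit 208) (nat_lit 5) (nat_lit 5) (nat_lit 8) L70368 (by decide +kernel)
theorem L70370 : W_22 (nat_lit 5) (nat_lit 0x680024001600180000000000000000000000000000000) (nat_lit 0x0) (nat_lit 0x3000180000000a000100028000000000000000000000000000000) := T_22 (nat_lit 192) (nat_lit 125) (nat_lit 6) (nat_lit 5) (nat_lit 11) L70369 (by decide +kernel)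
theorem L70371 : W_22 (nat_lit 6) (nat_lit 0x680024001200180000000000000000000000000000000) (nat_lit 0x0) (nat_lit 0x3000180000000a000d00028000000000000000000000000000000) := T_22 (nat_lit 142) (nat_lit 143) (nat_lit 2) (nat_lit 5) (nat_lit 8) L70370 (by decide +kernel)
theorem L70372 : W_22 (nat_lit 7) (nat_lit 0x680024001200080000000000000000000000000000000) (nat_lit 0x0) (nat_lit 0x3000180000000a000d00128008000000000000000000000000000) := T_22 (nat_lit 128) (nat_lit 111) (nat_lit 6) (nat_lit 8) (nat_lit 10) L70371 (by decide +kernel)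
theorem L70373 : W_22 (nat_lit 2) (nat_lit 0x180068002c00160019a000000000000000000000000000000) (nat_lit 0x0) (nat_lit 0x52000000000000000000000000000000000000000) := D_22 (nat_lit 160) (nat_lit 157) (nat_lit 162) (nat_lit 3) (nat_lit 4) (nat_lit 9) (nat_lit 0) (nat_lit 9) (nat_lit 9) (by decide +kernel)
theorem L70374 : W_22 (nat_lit 3) (nat_lit 0x180068002400160019a000000000000000000000000000000) (nat_lit 0x0) (nat_lit 0x2000000000005a000000000000000000000000000000000000000) := T_22 (nat_lit 159) (nat_lit 209) (nat_lit 6) (nat_lit 5) (nat_lit 12) L70373 (by decide +kernel)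
theorem L70375 : W_22 (nat_lit 4) (nat_lit 0x1800680024001600198000000000000000000000000000000) (nat_lit 0x0) (nat_lit 0x2000000000005a000000006000000000000000000000000000000) := T_22 (nat_lit 121) (nat_lit 122) (nat_lit 3) (nat_lit 2) (nat_lit 7) L70374 (by decide +kernel)
theorem L70376 : W_22 (nat_lit 5) (nat_lit 0x1800680024001600190000000000000000000000000000000) (nat_lit 0x0) (nat_lit 0x2000000000005a00000000e000400000000000000000000000000) := T_22 (nat_lit 123) (nat_lit 106) (nat_lit 4) (nat_lit 5) (nat_lit 10) L70375 (by decide +kernel)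
theorem L70377 : W_22 (nat_lit 6) (nat_lit 0x1800680024001600180000000000000000000000000000000) (nat_lit 0x0) (nat_lit 0x2000000004005a00000001e000400000000000000000000000000) := T_22 (nat_lit 124) (nat_lit 174) (nat_lit 5) (nat_lit 5) (nat_lit 7) L70376 (by decide +kernel)
theorem L70378 : W_22 (nat_lit 7) (nat_lit 0x1000680024001600180000000000000000000000000000000) (nat_lit 0x0) (nat_lit 0x3000080004005a00000001e000400000000000000000000000000) := T_22 (nat_lit 191) (nat_lit 208) (nat_lit 5) (nat_lit 5) (nat_lit 8) L70377 (by decide +kernel)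
theorem L70379 : W_22 (nat_lit 8) (nat_lit 0x680024001600180000000000000000000000000000000) (nat_lit 0x0) (nat_lit 0x3000180004005a00000003e000400000000000000000000000000) := T_22 (nat_lit 192) (nat_lit 125) (nat_lit 6) (nat_lit 5) (nat_lit 11) L70378 (by decide +kernel)
theorem L70380 : W_22 (nat_lit 9) (nat_lit 0x680024001200180000000000000000000000000000000) (nat_lit 0x0) (nat_lit 0x3000180004005a000c0003e000400000000000000000000000000) := T_22 (nat_lit 142) (nat_lit 143) (nat_lit 2) (nat_lit 5) (nat_lit 8) L70379 (by decide +kernel)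
theorem L70381 : W_22 (nat_lit 10) (nat_lit 0x680024001200080000000000000000000000000000000) (nat_lit 0x0) (nat_lit 0x3000180004005a000c0013e008400000000000000000000000000) := T_22 (nat_lit 128) (nat_lit 111) (nat_lit 6) (nat_lit 8) (nat_lit 10) L70380 (by decide +kernel)
theorem L70382 : W_22 (nat_lit 2) (nat_lit 0x180068002c001600190000000000000000000000000000000) (nat_lit 0x0) (nat_lit 0x12000100000000000000000000000000000000000) := D_22 (nat_lit 160) (nat_lit 157) (nat_lit 140) (nat_lit 3) (nat_lit 4) (nat_lit 9) (nat_lit 0) (nat_lit 8) (nat_lit 9) (by decide +kernel)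
theorem L70383 : W_22 (nat_lit 3) (nat_lit 0x1800680024001600190000000000000000000000000000000) (nat_lit 0x0) (nat_lit 0x2000000000001a000100000000000000000000000000000000000) := T_22 (nat_lit 159) (nat_lit 209) (nat_lit 6) (nat_lit 5) (nat_lit 12) L70382 (by decide +kernel)
theorem L70384 : W_22 (nat_lit 4) (nat_lit 0x1800680024001600180000000000000000000000000000000) (nat_lit 0x0) (nat_lit 0x2000000004001a000100010000000000000000000000000000000) := T_22 (nat_lit 124) (nat_lit 174) (nat_lit 5) (nat_lit 5) (nat_lit 7) L70383 (by decide +kernel)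
theorem L70385 : W_22 (nat_lit 5) (nat_lit 0x1000680024001600180000000000000000000000000000000) (nat_lit 0x0) (nat_lit 0x3000080004001a000100010000000000000000000000000000000) := T_22 (nat_lit 191) (nat_lit 208) (nat_lit 5) (nat_lit 5) (nat_lit 8) L70384 (by decide +kernel)
theorem L70386 : W_22 (nat_lit 6) (nat_lit 0x680024001600180000000000000000000000000000000) (nat_lit 0x0) (nat_lit 0x3000180004001a000100030000000000000000000000000000000) := T_22 (nat_lit 192) (nat_lit 125) (nat_lit 6) (nat_lit 5) (nat_lit 11) L70385 (by decide +kernel)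
theorem L70387 : W_22 (nat_lit 7) (nat_lit 0x680024001200180000000000000000000000000000000) (nat_lit 0x0) (nat_lit 0x3000180004001a000d00030000000000000000000000000000000) := T_22 (nat_lit 142) (nat_lit 143) (nat_lit 2) (nat_lit 5) (nat_lit 8) L70386 (by decide +kernel)
theorem L70388 : W_22 (nat_lit 8) (nat_lit 0x680024001200080000000000000000000000000000000) (nat_lit 0x0) (nat_lit 0x3000180004001a000d00130008000000000000000000000000000) := T_22 (nat_lit 128) (nat_lit 111) (nat_lit 6) (nat_lit 8) (nat_lit 10) L70387 (by decide +kernel)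
theorem L70389 : W_22 (nat_lit 2) (nat_lit 0x1000680024001700180000000000000000000000000000000) (nat_lit 0x0) (nat_lit 0x20000000000018000000000000000000000000000000000000000) := D_22 (nat_lit 159) (nat_lit 160) (nat_lit 209) (nat_lit 0) (nat_lit 8) (nat_lit 9) (nat_lit 6) (nat_lit 5) (nat_lit 12) (by decide +kernel)
theorem L70390 : W_22 (nat_lit 3) (nat_lit 0x1000680024001600180000000000000000000000000000000) (nat_lit 0x0) (nat_lit 0x20000000000018000100008000000000000000000000000000000) := T_22 (nat_lit 140) (nat_lit 123) (nat_lit 4) (nat_lit 5) (nat_lit 11) L70389 (by decide +kernel)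
theorem L70391 : W_22 (nat_lit 4) (nat_lit 0x680024001600180000000000000000000000000000000) (nat_lit 0x0) (nat_lit 0x20001000000018000100028000000000000000000000000000000) := T_22 (nat_lit 192) (nat_lit 125) (nat_lit 6) (nat_lit 5) (nat_lit 11) L70390 (by decide +kernel)
theorem L70392 : W_22 (nat_lit 5) (nat_lit 0x680024001200180000000000000000000000000000000) (nat_lit 0x0) (nat_lit 0x20001000000018000d00028000000000000000000000000000000) := T_22 (nat_lit 142) (nat_lit 143) (nat_lit 2) (nat_lit 5) (nat_lit 8) L70391 (by decide +kernel)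
theorem L70393 : W_22 (nat_lit 6) (nat_lit 0x680024001200080000000000000000000000000000000) (nat_lit 0x0) (nat_lit 0x20001000000018000d00128008000000000000000000000000000) := T_22 (nat_lit 128) (nat_lit 111) (nat_lit 6) (nat_lit 8) (nat_lit 10) L70392 (by decide +kernel)
theorem L70394 : W_22 (nat_lit 2) (nat_lit 0x6c00340016801bc000200000000000000000000000000) (nat_lit 0x0) (nat_lit 0x3000100000000000000000000000000000000000) := D_22 (nat_lit 157) (nat_lit 140) (nat_lit 156) (nat_lit 4) (nat_lit 4) (nat_lit 10) (nat_lit 7) (nat_lit 3) (nat_lit 6) (by decide +kernel)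
theorem L70395 : W_22 (nat_lit 3) (nat_lit 0x6c00340016801bc000000000000000000000000000000) (nat_lit 0x0) (nat_lit 0x3000100000000300000000000000000000000000) := T_22 (nat_lit 105) (nat_lit 104) (nat_lit 0) (nat_lit 6) (nat_lit 7) L70394 (by decide +kernel)
theorem L70396 : W_22 (nat_lit 4) (nat_lit 0x6c00340016001bc000000000000000000000000000000) (nat_lit 0x0) (nat_lit 0x30001c0000000300000000000000000000000000) := T_22 (nat_lit 139) (nat_lit 138) (nat_lit 1) (nat_lit 6) (nat_lit 7) L70395 (by decide +kernel)
theorem L70397 : W_22 (nat_lit 5) (nat_lit 0x6c00340016001b8000000000000000000000000000000) (nat_lit 0x0) (nat_lit 0x30001c0006000300000000000000000000000000) := T_22 (nat_lit 122) (nat_lit 121) (nat_lit 3) (nat_lit 2) (nat_lit 7) L70396 (by decide +kernel)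
theorem L70398 : W_22 (nat_lit 6) (nat_lit 0x6c00340016001b0000000000000000000000000000000) (nat_lit 0x0) (nat_lit 0x30001c000e000700000000000000000000000000) := T_22 (nat_lit 123) (nat_lit 106) (nat_lit 4) (nat_lit 5) (nat_lit 10) L70397 (by decide +kernel)
theorem L70399 : W_22 (nat_lit 7) (nat_lit 0x6c00240016001b0000000000000000000000000000000) (nat_lit 0x0) (nat_lit 0x1b0001c000e000700000000000000000000000000) := T_22 (nat_lit 160) (nat_lit 159) (nat_lit 1) (nat_lit 8) (nat_lit 9) L70398 (by decide +kernel)
theorem L70400 : W_22 (nat_lit 8) (nat_lit 0x6800240016001b0000000000000000000000000000000) (nat_lit 0x0) (nat_lit 0x80004001b0001c000e000700000000000000000000000000) := T_22 (nat_lit 174) (nat_lit 191) (nat_lit 5) (nat_lit 5) (nat_lit 7) L70399 (by decide +kernel)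
theorem L70401 : W_22 (nat_lit 9) (nat_lit 0x680024001600190000000000000000000000000000000) (nat_lit 0x0) (nat_lit 0x80004001b0001c002e001700000000000000000000000000) := T_22 (nat_lit 125) (nat_lit 108) (nat_lit 6) (nat_lit 5) (nat_lit 10) L70400 (by decide +kernel)
theorem L70402 : W_22 (nat_lit 10) (nat_lit 0x680024001200190000000000000000000000000000000) (nat_lit 0x0) (nat_lit 0x80004001b000dc002e001700000000000000000000000000) := T_22 (nat_lit 142) (nat_lit 143) (nat_lit 2) (nat_lit 5) (nat_lit 8) L70401 (by decide +kernel)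
theorem L70403 : W_22 (nat_lit 11) (nat_lit 0x680024001200090000000000000000000000000000000) (nat_lit 0x0) (nat_lit 0x80004001b000dc012e009700000000000000000000000000) := T_22 (nat_lit 128) (nat_lit 111) (nat_lit 6) (nat_lit 8) (nat_lit 10) L70402 (by decide +kernel)
theorem L70404 : W_22 (nat_lit 12) (nat_lit 0x680024001200080000000000000000000000000000000) (nat_lit 0x0) (nat_lit 0x80004001b000dc013e009f000a0000000000000000000000) := Q_22 (nat_lit 124) (C_22 L70365 (C_22 L70358 (C_22 L70362 (C_22 L70403 N_22)))) (by decide +kernel)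
theorem L70405 : W_22 (nat_lit 13) (nat_lit 0x680020001200080000000000000000000000000000000) (nat_lit 0x0) (nat_lit 0x3000180004005f000dc013e009f000a0000000000000000000000) := Q_22 (nat_lit 158) (C_22 L70334 (C_22 L70344 (C_22 L70346 (C_22 L70366 (C_22 L70372 (C_22 L70381 (C_22 L70388 (C_22 L70393 (C_22 L70404 N_22))))))))) (by decide +kernel)
theorem L70406 : W_22 (nat_lit 4) (nat_lit 0x680020001200180000000000000000000000000000000) (nat_lit 0x0) (nat_lit 0x1c00140050000000000000000000000000000000000000000) := T_22 (nat_lit 176) (nat_lit 162) (nat_lit 2) (nat_lit 5) (nat_lit 10) L70251 (by decide +kernel)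
theorem L70407 : W_22 (nat_lit 5) (nat_lit 0x680020001200080000000000000000000000000000000) (nat_lit 0x0) (nat_lit 0x1c00140050000000100008000000000000000000000000000) := T_22 (nat_lit 128) (nat_lit 111) (nat_lit 6) (nat_lit 8) (nat_lit 10) L70406 (by decide +kernel)
theorem L70408 : W_22 (nat_lit 4) (nat_lit 0x680020001200080000000000000000000000000000000) (nat_lit 0x0) (nat_lit 0x1c00140050000000000000000000000000000000000000000) := T_22 (nat_lit 176) (nat_lit 162) (nat_lit 2) (nat_lit 5) (nat_lit 10) L70255 (by decide +kernel)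
theorem L70409 : W_22 (nat_lit 6) (nat_lit 0x680020001200080000000000000000000000000000000) (nat_lit 0x0) (nat_lit 0x1800100046000c00120008000000000000000000000000000) := T_22 (nat_lit 176) (nat_lit 162) (nat_lit 2) (nat_lit 5) (nat_lit 10) L70260 (by decide +kernel)
theorem L70410 : W_22 (nat_lit 2) (nat_lit 0x7c0020001600180000000000000000000000000000000) (nat_lit 0x0) (nat_lit 0x7000000000000000000000000000000000000000) := D_22 (nat_lit 157) (nat_lit 156) (nat_lit 158) (nat_lit 0) (nat_lit 7) (nat_lit 10) (nat_lit 0) (nat_lit 8) (nat_lit 10) (by decide +kernel)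
theorem L70411 : W_22 (nat_lit 3) (nat_lit 0x780020001600180000000000000000000000000000000) (nat_lit 0x0) (nat_lit 0x40017000000000000000000000000000000000000000) := T_22 (nat_lit 174) (nat_lit 160) (nat_lit 2) (nat_lit 4) (nat_lit 10) L70410 (by decide +kernel)
theorem L70412 : W_22 (nat_lit 4) (nat_lit 0x780020001200180000000000000000000000000000000) (nat_lit 0x0) (nat_lit 0x40017000c00000000000000000000000000000000000) := T_22 (nat_lit 142) (nat_lit 143) (nat_lit 2) (nat_lit 5) (nat_lit 8) L70411 (by decide +kernel)
theorem L70413 : W_22 (nat_lit 5) (nat_lit 0x780020001200080000000000000000000000000000000) (nat_lit 0x0) (nat_lit 0x40017000c00100008000000000000000000000000000) := T_22 (nat_lit 128) (nat_lit 111) (nat_lit 6) (nat_lit 8) (nat_lit 10) L70412 (by decide +kernel)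
theorem L70414 : W_22 (nat_lit 6) (nat_lit 0x680020001200080000000000000000000000000000000) (nat_lit 0x0) (nat_lit 0x1c00140017000c00120008000000000000000000000000000) := Q_22 (nat_lit 176) (C_22 L70260 (C_22 L70255 (C_22 L70413 N_22))) (by decide +kernel)
theorem L70415 : W_22 (nat_lit 4) (nat_lit 0x680020001600180000000000000000000000000000000) (nat_lit 0x0) (nat_lit 0x140057000000000000000000000000000000000000000) := T_22 (nat_lit 176) (nat_lit 162) (nat_lit 2) (nat_lit 5) (nat_lit 10) L70411 (by decide +kernel)
theorem L70416 : W_22 (nat_lit 5) (nat_lit 0x680020001200180000000000000000000000000000000) (nat_lit 0x0) (nat_lit 0x140057000c00000000000000000000000000000000000) := T_22 (nat_lit 142) (nat_lit 143) (nat_lit 2) (nat_lit 5) (nat_lit 8) L70415 (by decide +kernel)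
theorem L70417 : W_22 (nat_lit 6) (nat_lit 0x680020001200080000000000000000000000000000000) (nat_lit 0x0) (nat_lit 0x140057000c00100008000000000000000000000000000) := T_22 (nat_lit 128) (nat_lit 111) (nat_lit 6) (nat_lit 8) (nat_lit 10) L70416 (by decide +kernel)
theorem L70418 : W_22 (nat_lit 14) (nat_lit 0x600020001200080000000000000000000000000000000) (nat_lit 0x0) (nat_lit 0x30001c001c005f000dc013e009f000a0000000000000000000000) := Q_22 (nat_lit 175) (C_22 L70405 (C_22 L70407 (C_22 L70408 (C_22 L70409 (C_22 L70414 (C_22 L70417 N_22)))))) (by decide +kernel)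
theorem L70419 : W_22 (nat_lit 2) (nat_lit 0x18000600034001a00580000000000000000000000000000000) (nat_lit 0x0) (nat_lit 0xa000100000000000000000000000000000000000) := D_22 (nat_lit 159) (nat_lit 157) (nat_lit 140) (nat_lit 3) (nat_lit 4) (nat_lit 9) (nat_lit 0) (nat_lit 8) (nat_lit 9) (by decide +kernel)
theorem L70420 : W_22 (nat_lit 3) (nat_lit 0x18000600024001a00580000000000000000000000000000000) (nat_lit 0x0) (nat_lit 0x10000000000001a000100000000000000000000000000000000000) := T_22 (nat_lit 160) (nat_lit 212) (nat_lit 4) (nat_lit 8) (nat_lit 12) L70419 (by decide +kernel)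
theorem L70421 : W_22 (nat_lit 4) (nat_lit 0x10000600024001a00580000000000000000000000000000000) (nat_lit 0x0) (nat_lit 0x30000800000001a000100000000000000000000000000000000000) := T_22 (nat_lit 195) (nat_lit 213) (nat_lit 7) (nat_lit 8) (nat_lit 8) L70420 (by decide +kernel)
theorem L70422 : W_22 (nat_lit 5) (nat_lit 0x10000600024001a00180000000000000000000000000000000) (nat_lit 0x0) (nat_lit 0x30000800000001a000100600000000000000000000000000000000) := T_22 (nat_lit 130) (nat_lit 129) (nat_lit 1) (nat_lit 11) (nat_lit 7) L70421 (by decide +kernel)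
theorem L70423 : W_22 (nat_lit 6) (nat_lit 0x600024001a00180000000000000000000000000000000) (nat_lit 0x0) (nat_lit 0x30001800080001a000100600000000000000000000000000000000) := T_22 (nat_lit 196) (nat_lit 179) (nat_lit 7) (nat_lit 8) (nat_lit 7) L70422 (by decide +kernel)
theorem L70424 : W_22 (nat_lit 7) (nat_lit 0x600024001200180000000000000000000000000000000) (nat_lit 0x0) (nat_lit 0x30001800080001a000d00600000000000000000000000000000000) := T_22 (nat_lit 143) (nat_lit 142) (nat_lit 2) (nat_lit 5) (nat_lit 8) L70423 (by decide +kernel)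
theorem L70425 : W_22 (nat_lit 8) (nat_lit 0x600024001200080000000000000000000000000000000) (nat_lit 0x0) (nat_lit 0x30001800080001a000d00700008000000000000000000000000000) := T_22 (nat_lit 128) (nat_lit 111) (nat_lit 6) (nat_lit 8) (nat_lit 10) L70424 (by decide +kernel)
theorem L70426 : W_22 (nat_lit 2) (nat_lit 0xe00024001200080000000000000000000000000000000) (nat_lit 0x0) (nat_lit 0x100018000000000000000000000000000000000000000) := D_22 (nat_lit 159) (nat_lit 160) (nat_lit 176) (nat_lit 3) (nat_lit 5) (nat_lit 9) (nat_lit 0) (nat_lit 9) (nat_lit 10) (by decide +kernel)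
theorem L70427 : W_22 (nat_lit 3) (nat_lit 0x600024001200080000000000000000000000000000000) (nat_lit 0x0) (nat_lit 0x10000900018000000000000000000000000000000000000000) := T_22 (nat_lit 179) (nat_lit 196) (nat_lit 7) (nat_lit 8) (nat_lit 7) L70426 (by decide +kernel)
theorem L70428 : W_22 (nat_lit 2) (nat_lit 0x19800680024001600190000000000000000000000000000000) (nat_lit 0x0) (nat_lit 0x100008000400000000000000000000000000) := D_22 (nat_lit 123) (nat_lit 106) (nat_lit 140) (nat_lit 4) (nat_lit 5) (nat_lit 10) (nat_lit 4) (nat_lit 5) (nat_lit 11) (by decide +kernel)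
theorem L70429 : W_22 (nat_lit 3) (nat_lit 0x19800680024001600180000000000000000000000000000000) (nat_lit 0x0) (nat_lit 0x40000000100018000400000000000000000000000000) := T_22 (nat_lit 124) (nat_lit 174) (nat_lit 5) (nat_lit 5) (nat_lit 7) L70428 (by decide +kernel)
theorem L70430 : W_22 (nat_lit 4) (nat_lit 0x19000680024001600180000000000000000000000000000000) (nat_lit 0x0) (nat_lit 0x10000800040000000100018000400000000000000000000000000) := T_22 (nat_lit 191) (nat_lit 208) (nat_lit 5) (nat_lit 5) (nat_lit 8) L70429 (by decide +kernel)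
theorem L70431 : W_22 (nat_lit 5) (nat_lit 0x18000680024001600180000000000000000000000000000000) (nat_lit 0x0) (nat_lit 0x10001800040000000100038000400000000000000000000000000) := T_22 (nat_lit 192) (nat_lit 125) (nat_lit 6) (nat_lit 5) (nat_lit 11) L70430 (by decide +kernel)
theorem L70432 : W_22 (nat_lit 6) (nat_lit 0x18000600024001600180000000000000000000000000000000) (nat_lit 0x0) (nat_lit 0x100018001c0000000100038000400000000000000000000000000) := T_22 (nat_lit 175) (nat_lit 176) (nat_lit 3) (nat_lit 5) (nat_lit 10) L70431 (by decide +kernel)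
theorem L70433 : W_22 (nat_lit 7) (nat_lit 0x10000600024001600180000000000000000000000000000000) (nat_lit 0x0) (nat_lit 0x2100098001c0000000100038000400000000000000000000000000) := T_22 (nat_lit 195) (nat_lit 213) (nat_lit 7) (nat_lit 8) (nat_lit 8) L70432 (by decide +kernel)
theorem L70434 : W_22 (nat_lit 8) (nat_lit 0x600024001600180000000000000000000000000000000) (nat_lit 0x0) (nat_lit 0x2100198009c0000000100038000400000000000000000000000000) := T_22 (nat_lit 196) (nat_lit 179) (nat_lit 7) (nat_lit 8) (nat_lit 7) L70433 (by decide +kernel)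
theorem L70435 : W_22 (nat_lit 9) (nat_lit 0x600024001200180000000000000000000000000000000) (nat_lit 0x0) (nat_lit 0x2100198009c0000000d00038000400000000000000000000000000) := T_22 (nat_lit 142) (nat_lit 143) (nat_lit 2) (nat_lit 5) (nat_lit 8) L70434 (by decide +kernel)
theorem L70436 : W_22 (nat_lit 10) (nat_lit 0x600024001200080000000000000000000000000000000) (nat_lit 0x0) (nat_lit 0x2100198009c0000000d00138008400000000000000000000000000) := T_22 (nat_lit 128) (nat_lit 111) (nat_lit 6) (nat_lit 8) (nat_lit 10) L70435 (by decide +kernel)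
theorem L70437 : W_22 (nat_lit 2) (nat_lit 0x60002c001200080000000000000000000000000000000) (nat_lit 0x0) (nat_lit 0x12000100000000000000000000000000000000000) := D_22 (nat_lit 160) (nat_lit 140) (nat_lit 157) (nat_lit 0) (nat_lit 8) (nat_lit 9) (nat_lit 3) (nat_lit 4) (nat_lit 9) (by decide +kernel)
theorem L70438 : W_22 (nat_lit 2) (nat_lit 0x70002c001600180000000000000000000000000000000) (nat_lit 0x0) (nat_lit 0x80003000000000000000000000000000000000000000) := D_22 (nat_lit 157) (nat_lit 175) (nat_lit 156) (nat_lit 0) (nat_lit 8) (nat_lit 10) (nat_lit 3) (nat_lit 3) (nat_lit 9) (by decide +kernel)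
theorem L70439 : W_22 (nat_lit 3) (nat_lit 0x60002c001600180000000000000000000000000000000) (nat_lit 0x0) (nat_lit 0x980003000000000000000000000000000000000000000) := T_22 (nat_lit 176) (nat_lit 179) (nat_lit 0) (nat_lit 9) (nat_lit 10) L70438 (by decide +kernel)
theorem L70440 : W_22 (nat_lit 4) (nat_lit 0x60002c001200180000000000000000000000000000000) (nat_lit 0x0) (nat_lit 0x980003000c00000000000000000000000000000000000) := T_22 (nat_lit 142) (nat_lit 143) (nat_lit 2) (nat_lit 5) (nat_lit 8) L70439 (by decide +kernel)
theorem L70441 : W_22 (nat_lit 5) (nat_lit 0x60002c001200080000000000000000000000000000000) (nat_lit 0x0) (nat_lit 0x980003000c00100008000000000000000000000000000) := T_22 (nat_lit 128) (nat_lit 111) (nat_lit 6) (nat_lit 8) (nat_lit 10) L70440 (by decide +kernel)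
theorem L70442 : W_22 (nat_lit 2) (nat_lit 0x60002c001200080000000000000000000000000000000) (nat_lit 0x0) (nat_lit 0x900010000000000000000000000000000000000000000) := D_22 (nat_lit 179) (nat_lit 176) (nat_lit 160) (nat_lit 0) (nat_lit 9) (nat_lit 10) (nat_lit 3) (nat_lit 5) (nat_lit 9) (by decide +kernel)
theorem L70443 : W_22 (nat_lit 6) (nat_lit 0x600024001200080000000000000000000000000000000) (nat_lit 0x0) (nat_lit 0x98001b000d00100008000000000000000000000000000) := Q_22 (nat_lit 159) (C_22 L70437 (C_22 L70441 (C_22 L70442 N_22))) (by decide +kernel)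
theorem L70444 : W_22 (nat_lit 2) (nat_lit 0x60002e001600180000000000000000000000000000000) (nat_lit 0x0) (nat_lit 0x100001800000000000000000000000000000000000000) := D_22 (nat_lit 156) (nat_lit 176) (nat_lit 155) (nat_lit 3) (nat_lit 3) (nat_lit 9) (nat_lit 2) (nat_lit 2) (nat_lit 9) (by decide +kernel)
theorem L70445 : W_22 (nat_lit 3) (nat_lit 0x600026001600180000000000000000000000000000000) (nat_lit 0x0) (nat_lit 0x100019800000000000000000000000000000000000000) := T_22 (nat_lit 159) (nat_lit 160) (nat_lit 3) (nat_lit 4) (nat_lit 9) L70444 (by decide +kernel)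
theorem L70446 : W_22 (nat_lit 4) (nat_lit 0x600026001200180000000000000000000000000000000) (nat_lit 0x0) (nat_lit 0x100019800c00000000000000000000000000000000000) := T_22 (nat_lit 142) (nat_lit 143) (nat_lit 2) (nat_lit 5) (nat_lit 8) L70445 (by decide +kernel)
theorem L70447 : W_22 (nat_lit 5) (nat_lit 0x600026001200080000000000000000000000000000000) (nat_lit 0x0) (nat_lit 0x100019800c00100008000000000000000000000000000) := T_22 (nat_lit 128) (nat_lit 111) (nat_lit 6) (nat_lit 8) (nat_lit 10) L70446 (by decide +kernel)
theorem L70448 : W_22 (nat_lit 2) (nat_lit 0x800640026001200080000000000000000000000000000000) (nat_lit 0x0) (nat_lit 0x100010000800000000000000000000000000) := D_22 (nat_lit 124) (nat_lit 107) (nat_lit 140) (nat_lit 5) (nat_lit 5) (nat_lit 6) (nat_lit 6) (nat_lit 4) (nat_lit 11) (by decide +kernel)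
theorem L70449 : W_22 (nat_lit 3) (nat_lit 0x640026001200080000000000000000000000000000000) (nat_lit 0x0) (nat_lit 0x10000800000000000100010000800000000000000000000000000) := T_22 (nat_lit 191) (nat_lit 208) (nat_lit 6) (nat_lit 4) (nat_lit 12) L70448 (by decide +kernel)
theorem L70450 : W_22 (nat_lit 2) (nat_lit 0x1000000066002f001680184000000000000000000000000000000) (nat_lit 0x0) (nat_lit 0x100002000100000000000000000000000000) := D_22 (nat_lit 121) (nat_lit 140) (nat_lit 104) (nat_lit 0) (nat_lit 6) (nat_lit 8) (nat_lit 4) (nat_lit 3) (nat_lit 10) (by decide +kernel)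
theorem L70451 : W_22 (nat_lit 3) (nat_lit 0x1000000066002f001680180000000000000000000000000000000) (nat_lit 0x0) (nat_lit 0x100006000300000000000000000000000000) := T_22 (nat_lit 122) (nat_lit 105) (nat_lit 7) (nat_lit 3) (nat_lit 6) L70450 (by decide +kernel)
theorem L70452 : W_22 (nat_lit 4) (nat_lit 0x1000000064002f001680180000000000000000000000000000000) (nat_lit 0x0) (nat_lit 0x30000000100006000300000000000000000000000000) := T_22 (nat_lit 173) (nat_lit 172) (nat_lit 1) (nat_lit 6) (nat_lit 9) L70451 (by decide +kernel)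
theorem L70453 : W_22 (nat_lit 5) (nat_lit 0x1000000064002f001600180000000000000000000000000000000) (nat_lit 0x0) (nat_lit 0x300000001c0006000300000000000000000000000000) := T_22 (nat_lit 139) (nat_lit 138) (nat_lit 0) (nat_lit 6) (nat_lit 9) L70452 (by decide +kernel)
theorem L70454 : W_22 (nat_lit 6) (nat_lit 0x64002f001600180000000000000000000000000000000) (nat_lit 0x0) (nat_lit 0x100008000300000001c0006000300000000000000000000000000) := T_22 (nat_lit 208) (nat_lit 191) (nat_lit 6) (nat_lit 4) (nat_lit 12) L70453 (by decide +kernel)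
theorem L70455 : W_22 (nat_lit 7) (nat_lit 0x64002e001600180000000000000000000000000000000) (nat_lit 0x0) (nat_lit 0x100008000300018001c0006000300000000000000000000000000) := T_22 (nat_lit 156) (nat_lit 155) (nat_lit 2) (nat_lit 2) (nat_lit 9) L70454 (by decide +kernel)
theorem L70456 : W_22 (nat_lit 8) (nat_lit 0x640026001600180000000000000000000000000000000) (nat_lit 0x0) (nat_lit 0x100008000300198001c0006000300000000000000000000000000) := T_22 (nat_lit 159) (nat_lit 160) (nat_lit 3) (nat_lit 4) (nat_lit 9) L70455 (by decide +kernel)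
theorem L70457 : W_22 (nat_lit 9) (nat_lit 0x640026001200180000000000000000000000000000000) (nat_lit 0x0) (nat_lit 0x10000800030019800dc0006000300000000000000000000000000) := T_22 (nat_lit 142) (nat_lit 143) (nat_lit 2) (nat_lit 5) (nat_lit 8) L70456 (by decide +kernel)
theorem L70458 : W_22 (nat_lit 10) (nat_lit 0x640026001200080000000000000000000000000000000) (nat_lit 0x0) (nat_lit 0x10000800030019800dc0106008300000000000000000000000000) := T_22 (nat_lit 128) (nat_lit 111) (nat_lit 6) (nat_lit 8) (nat_lit 10) L70457 (by decide +kernel)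
theorem L70459 : W_22 (nat_lit 2) (nat_lit 0x1000000066002f001680194000000000000000000000000000000) (nat_lit 0x0) (nat_lit 0xa000400000000000000000000000000) := D_22 (nat_lit 123) (nat_lit 106) (nat_lit 121) (nat_lit 6) (nat_lit 3) (nat_lit 10) (nat_lit 3) (nat_lit 2) (nat_lit 7) (by decide +kernel)
theorem L70460 : W_22 (nat_lit 3) (nat_lit 0x1000000066002f001680190000000000000000000000000000000) (nat_lit 0x0) (nat_lit 0xe000600000000000000000000000000) := T_22 (nat_lit 122) (nat_lit 105) (nat_lit 7) (nat_lit 3) (nat_lit 6) L70459 (by decide +kernel)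
theorem L70461 : W_22 (nat_lit 4) (nat_lit 0x1000000066002f001600190000000000000000000000000000000) (nat_lit 0x0) (nat_lit 0xc000e000600000000000000000000000000) := T_22 (nat_lit 139) (nat_lit 138) (nat_lit 0) (nat_lit 6) (nat_lit 9) L70460 (by decide +kernel)
theorem L70462 : W_22 (nat_lit 5) (nat_lit 0x1000000064002f001600190000000000000000000000000000000) (nat_lit 0x0) (nat_lit 0x300000000c000e000600000000000000000000000000) := T_22 (nat_lit 173) (nat_lit 172) (nat_lit 1) (nat_lit 6) (nat_lit 9) L70461 (by decide +kernel)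
theorem L70463 : W_22 (nat_lit 6) (nat_lit 0x1000000064002e001600190000000000000000000000000000000) (nat_lit 0x0) (nat_lit 0x300018000c000e000600000000000000000000000000) := T_22 (nat_lit 156) (nat_lit 155) (nat_lit 2) (nat_lit 2) (nat_lit 9) L70462 (by decide +kernel)
theorem L70464 : W_22 (nat_lit 7) (nat_lit 0x1000000064002e001600090000000000000000000000000000000) (nat_lit 0x0) (nat_lit 0x300018000c010e008600000000000000000000000000) := T_22 (nat_lit 128) (nat_lit 111) (nat_lit 6) (nat_lit 8) (nat_lit 10) L70463 (by decide +kernel)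
theorem L70465 : W_22 (nat_lit 8) (nat_lit 0x10000000640026001600090000000000000000000000000000000) (nat_lit 0x0) (nat_lit 0x300198000c010e008600000000000000000000000000) := T_22 (nat_lit 159) (nat_lit 160) (nat_lit 3) (nat_lit 4) (nat_lit 9) L70464 (by decide +kernel)
theorem L70466 : W_22 (nat_lit 9) (nat_lit 0x10000000640026001200090000000000000000000000000000000) (nat_lit 0x0) (nat_lit 0x30019800cc010e008600000000000000000000000000) := T_22 (nat_lit 142) (nat_lit 143) (nat_lit 1) (nat_lit 8) (nat_lit 8) L70465 (by decide +kernel)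
theorem L70467 : W_22 (nat_lit 10) (nat_lit 0x10000000640026001200080000000000000000000000000000000) (nat_lit 0x0) (nat_lit 0x30019800cc011e008e00000000000000000000000000) := T_22 (nat_lit 124) (nat_lit 107) (nat_lit 5) (nat_lit 5) (nat_lit 6) L70466 (by decide +kernel)
theorem L70468 : W_22 (nat_lit 11) (nat_lit 0x640026001200080000000000000000000000000000000) (nat_lit 0x0) (nat_lit 0x10000800030019800cc011e008e00000000000000000000000000) := T_22 (nat_lit 208) (nat_lit 191) (nat_lit 6) (nat_lit 4) (nat_lit 12) L70467 (by decide +kernel)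
theorem L70469 : W_22 (nat_lit 2) (nat_lit 0x66002f001680184000800000000000000000000000000) (nat_lit 0x0) (nat_lit 0x100002000100000000000000000000000000) := D_22 (nat_lit 121) (nat_lit 140) (nat_lit 104) (nat_lit 0) (nat_lit 6) (nat_lit 8) (nat_lit 4) (nat_lit 3) (nat_lit 10) (by decide +kernel)
theorem L70470 : W_22 (nat_lit 3) (nat_lit 0x66002f001680180000800000000000000000000000000) (nat_lit 0x0) (nat_lit 0x100006000300000000000000000000000000) := T_22 (nat_lit 122) (nat_lit 105) (nat_lit 7) (nat_lit 3) (nat_lit 6) L70469 (by decide +kernel)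
theorem L70471 : W_22 (nat_lit 4) (nat_lit 0x66002f001680080000800000000000000000000000000) (nat_lit 0x0) (nat_lit 0x100106008300000000000000000000000000) := T_22 (nat_lit 128) (nat_lit 111) (nat_lit 6) (nat_lit 8) (nat_lit 10) L70470 (by decide +kernel)
theorem L70472 : W_22 (nat_lit 5) (nat_lit 0x66002f001600080000800000000000000000000000000) (nat_lit 0x0) (nat_lit 0x1c0106008300000000000000000000000000) := T_22 (nat_lit 139) (nat_lit 138) (nat_lit 0) (nat_lit 6) (nat_lit 9) L70471 (by decide +kernel)
theorem L70473 : W_22 (nat_lit 6) (nat_lit 0x64002f001600080000800000000000000000000000000) (nat_lit 0x0) (nat_lit 0x300000001c0106008300000000000000000000000000) := T_22 (nat_lit 173) (nat_lit 172) (nat_lit 1) (nat_lit 6) (nat_lit 9) L70472 (by decide +kernel)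
theorem L70474 : W_22 (nat_lit 7) (nat_lit 0x640027001600080000800000000000000000000000000) (nat_lit 0x0) (nat_lit 0x300180001c0106008300000000000000000000000000) := T_22 (nat_lit 159) (nat_lit 160) (nat_lit 3) (nat_lit 4) (nat_lit 9) L70473 (by decide +kernel)
theorem L70475 : W_22 (nat_lit 8) (nat_lit 0x640026001600080000800000000000000000000000000) (nat_lit 0x0) (nat_lit 0x300198001c0106008300000000000000000000000000) := T_22 (nat_lit 156) (nat_lit 155) (nat_lit 2) (nat_lit 2) (nat_lit 9) L70474 (by decide +kernel)
theorem L70476 : W_22 (nat_lit 9) (nat_lit 0x640026001600080000000000000000000000000000000) (nat_lit 0x0) (nat_lit 0x300198001c0116008b00000000000000000000000000) := T_22 (nat_lit 107) (nat_lit 124) (nat_lit 5) (nat_lit 5) (nat_lit 6) L70475 (by decide +kernel)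
theorem L70477 : W_22 (nat_lit 10) (nat_lit 0x640026001200080000000000000000000000000000000) (nat_lit 0x0) (nat_lit 0x30019800dc0116008b00000000000000000000000000) := T_22 (nat_lit 142) (nat_lit 143) (nat_lit 1) (nat_lit 8) (nat_lit 8) L70476 (by decide +kernel)
theorem L70478 : W_22 (nat_lit 12) (nat_lit 0x600026001200080000000000000000000000000000000) (nat_lit 0x0) (nat_lit 0x10000800070019800dc011e008f00000000000000000000000000) := Q_22 (nat_lit 174) (C_22 L70449 (C_22 L70458 (C_22 L70468 (C_22 L70477 N_22)))) (by decide +kernel)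
theorem L70479 : W_22 (nat_lit 2) (nat_lit 0x1000680026801600180000000000000000000000000000000) (nat_lit 0x0) (nat_lit 0x20000000000000000100008000000000000000000000000000000) := D_22 (nat_lit 140) (nat_lit 123) (nat_lit 209) (nat_lit 4) (nat_lit 5) (nat_lit 11) (nat_lit 4) (nat_lit 5) (nat_lit 12) (by decide +kernel)
theorem L70480 : W_22 (nat_lit 3) (nat_lit 0x680026801600180000000000000000000000000000000) (nat_lit 0x0) (nat_lit 0x20001000000000000100028000000000000000000000000000000) := T_22 (nat_lit 192) (nat_lit 125) (nat_lit 6) (nat_lit 5) (nat_lit 11) L70479 (by decide +kernel)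
theorem L70481 : W_22 (nat_lit 4) (nat_lit 0x680026001600180000000000000000000000000000000) (nat_lit 0x0) (nat_lit 0x20001000000001800100028000000000000000000000000000000) := T_22 (nat_lit 155) (nat_lit 156) (nat_lit 2) (nat_lit 2) (nat_lit 9) L70480 (by decide +kernel)
theorem L70482 : W_22 (nat_lit 5) (nat_lit 0x600026001600180000000000000000000000000000000) (nat_lit 0x0) (nat_lit 0x20001000180001800100028000000000000000000000000000000) := T_22 (nat_lit 175) (nat_lit 176) (nat_lit 0) (nat_lit 8) (nat_lit 10) L70481 (by decide +kernel)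
theorem L70483 : W_22 (nat_lit 6) (nat_lit 0x600026001200180000000000000000000000000000000) (nat_lit 0x0) (nat_lit 0x20001000180001800d00028000000000000000000000000000000) := T_22 (nat_lit 142) (nat_lit 143) (nat_lit 2) (nat_lit 5) (nat_lit 8) L70482 (by decide +kernel)
theorem L70484 : W_22 (nat_lit 7) (nat_lit 0x600026001200080000000000000000000000000000000) (nat_lit 0x0) (nat_lit 0x20001000180001800d00128008000000000000000000000000000) := T_22 (nat_lit 128) (nat_lit 111) (nat_lit 6) (nat_lit 8) (nat_lit 10) L70483 (by decide +kernel)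
theorem L70485 : W_22 (nat_lit 2) (nat_lit 0x700026001200080000000000000000000000000000000) (nat_lit 0x0) (nat_lit 0x19000000000000000000000000000000000000000) := D_22 (nat_lit 159) (nat_lit 160) (nat_lit 156) (nat_lit 3) (nat_lit 4) (nat_lit 9) (nat_lit 3) (nat_lit 3) (nat_lit 9) (by decide +kernel)
theorem L70486 : W_22 (nat_lit 3) (nat_lit 0x600026001200080000000000000000000000000000000) (nat_lit 0x0) (nat_lit 0x180019000000000000000000000000000000000000000) := T_22 (nat_lit 176) (nat_lit 175) (nat_lit 0) (nat_lit 8) (nat_lit 10) L70485 (by decide +kernel)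
theorem L70487 : W_22 (nat_lit 2) (nat_lit 0x68002e001600180000000000000000000000000000000) (nat_lit 0x0) (nat_lit 0x1000000000000000020001000000000000000000000000000) := D_22 (nat_lit 125) (nat_lit 108) (nat_lit 192) (nat_lit 5) (nat_lit 6) (nat_lit 6) (nat_lit 6) (nat_lit 5) (nat_lit 11) (by decide +kernel)
theorem L70488 : W_22 (nat_lit 3) (nat_lit 0x60002e001600180000000000000000000000000000000) (nat_lit 0x0) (nat_lit 0x1000180000000000020001000000000000000000000000000) := T_22 (nat_lit 175) (nat_lit 176) (nat_lit 0) (nat_lit 8) (nat_lit 10) L70487 (by decide +kernel)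
theorem L70489 : W_22 (nat_lit 4) (nat_lit 0x60002e001200180000000000000000000000000000000) (nat_lit 0x0) (nat_lit 0x1000180000000c00020001000000000000000000000000000) := T_22 (nat_lit 142) (nat_lit 143) (nat_lit 2) (nat_lit 5) (nat_lit 8) L70488 (by decide +kernel)
theorem L70490 : W_22 (nat_lit 5) (nat_lit 0x60002e001200080000000000000000000000000000000) (nat_lit 0x0) (nat_lit 0x1000180000000c00120009000000000000000000000000000) := T_22 (nat_lit 128) (nat_lit 111) (nat_lit 6) (nat_lit 8) (nat_lit 10) L70489 (by decide +kernel)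
theorem L70491 : W_22 (nat_lit 6) (nat_lit 0x600026001200080000000000000000000000000000000) (nat_lit 0x0) (nat_lit 0x1000180018000c00120009000000000000000000000000000) := T_22 (nat_lit 159) (nat_lit 160) (nat_lit 3) (nat_lit 4) (nat_lit 9) L70490 (by decide +kernel)
theorem L70492 : W_22 (nat_lit 13) (nat_lit 0x600024001200080000000000000000000000000000000) (nat_lit 0x0) (nat_lit 0x300018001f001b800dc013e009f00000000000000000000000000) := Q_22 (nat_lit 157) (C_22 L70447 (C_22 L70478 (C_22 L70484 (C_22 L70486 (C_22 L70491 N_22))))) (by decide +kernel)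
theorem L70493 : W_22 (nat_lit 14) (nat_lit 0x600020001200080000000000000000000000000000000) (nat_lit 0x0) (nat_lit 0x3300198009f001f800dc073e009f00000000000000000000000000) := Q_22 (nat_lit 158) (C_22 L70425 (C_22 L70427 (C_22 L70436 (C_22 L70443 (C_22 L70492 N_22))))) (by decide +kernel)
theorem L70494 : W_22 (nat_lit 15) (nat_lit 0x200020001200080000000000000000000000000000000) (nat_lit 0x0) (nat_lit 0xa00070003b00f9c07df07df80cdc073e009f000e0000000000000000000000) := Q_22 (nat_lit 178) (C_22 L70167 (C_22 L70192 (C_22 L70198 (C_22 L70212 (C_22 L70249 (C_22 L70319 (C_22 L70328 (C_22 L70418 (C_22 L70493 N_22))))))))) (by decide +kernel)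
theorem L70495 : W_22 (nat_lit 16) (nat_lit 0x200000001200080000000000000000000000000000000) (nat_lit 0x0) (nat_lit 0xa8007e003f00fde07df87ff81cde073e009f000e0002000000000000000000) := Q_22 (nat_lit 161) (C_22 L70042 (C_22 L70043 (C_22 L70086 (C_22 L70129 (C_22 L70494 N_22))))) (by decide +kernel)
theorem L70496 : W_22 (nat_lit 2) (nat_lit 0x200004001200090001c00000000000000000000000000) (nat_lit 0x0) (nat_lit 0x80000000000028000000000000000000000000000000) := D_22 (nat_lit 175) (nat_lit 123) (nat_lit 125) (nat_lit 4) (nat_lit 5) (nat_lit 10) (nat_lit 6) (nat_lit 5) (nat_lit 10) (by decide +kernel)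
theorem L70497 : W_22 (nat_lit 3) (nat_lit 0x200004001200090000c00000000000000000000000000) (nat_lit 0x0) (nat_lit 0x80000000000028001000080000000000000000000000) := T_22 (nat_lit 108) (nat_lit 91) (nat_lit 6) (nat_lit 5) (nat_lit 9) L70496 (by decide +kernel)
theorem L70498 : W_22 (nat_lit 4) (nat_lit 0x200004001200090000800000000000000000000000000) (nat_lit 0x0) (nat_lit 0x800000000000280014000a0000000000000000000000) := T_22 (nat_lit 106) (nat_lit 89) (nat_lit 4) (nat_lit 5) (nat_lit 9) L70497 (by decide +kernel)
theorem L70499 : W_22 (nat_lit 6) (nat_lit 0x200004001200090000000000000000000000000000000) (nat_lit 0x0) (nat_lit 0x8000c000200010006c003c000e0004000000000000000000) := Q_22 (nat_lit 107) (C_22 L39576 (C_22 L40007 (C_22 L70498 (C_22 L39589 (C_22 L39666 N_22))))) (by decide +kernel)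
theorem L70500 : W_22 (nat_lit 2) (nat_lit 0x28000c001200090000c00000000000000000000000000) (nat_lit 0x0) (nat_lit 0x800040002000000000000000000000000000000000000000) := D_22 (nat_lit 174) (nat_lit 157) (nat_lit 191) (nat_lit 5) (nat_lit 5) (nat_lit 6) (nat_lit 5) (nat_lit 5) (nat_lit 7) (by decide +kernel)
theorem L70501 : W_22 (nat_lit 3) (nat_lit 0x20000c001200090000c00000000000000000000000000) (nat_lit 0x0) (nat_lit 0x8000c0002000000008000000000000000000000000000000) := T_22 (nat_lit 175) (nat_lit 123) (nat_lit 4) (nat_lit 5) (nat_lit 10) L70500 (by decide +kernel)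
theorem L70502 : W_22 (nat_lit 4) (nat_lit 0x200004001200090000c00000000000000000000000000) (nat_lit 0x0) (nat_lit 0x8001c000a000000008000000000000000000000000000000) := T_22 (nat_lit 159) (nat_lit 176) (nat_lit 7) (nat_lit 5) (nat_lit 6) L70501 (by decide +kernel)
theorem L70503 : W_22 (nat_lit 5) (nat_lit 0x200004001200090000800000000000000000000000000) (nat_lit 0x0) (nat_lit 0x8001c000a000000008000400020000000000000000000000) := T_22 (nat_lit 106) (nat_lit 89) (nat_lit 4) (nat_lit 5) (nat_lit 9) L70502 (by decide +kernel)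
theorem L70504 : W_22 (nat_lit 6) (nat_lit 0x200004001200090000000000000000000000000000000) (nat_lit 0x0) (nat_lit 0x8001c000a00010004c003c000e0004000000000000000000) := Q_22 (nat_lit 107) (C_22 L39666 (C_22 L70503 (C_22 L40007 N_22))) (by decide +kernel)
theorem L70505 : W_22 (nat_lit 6) (nat_lit 0x200004001200090000000000000000000000000000000) (nat_lit 0x0) (nat_lit 0x8001c000a000100028001c000e0004000000000000000000) := Q_22 (nat_lit 107) (C_22 L39666 (C_22 L70503 (C_22 L70498 N_22))) (by decide +kernel)
theorem L70506 : W_22 (nat_lit 2) (nat_lit 0x20000e0012000d0000c00000000000000000000000000) (nat_lit 0x0) (nat_lit 0x400010000800000000000000000000000000000000000) := D_22 (nat_lit 160) (nat_lit 143) (nat_lit 178) (nat_lit 2) (nat_lit 4) (nat_lit 9) (nat_lit 3) (nat_lit 4) (nat_lit 9) (by decide +kernel)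
theorem L70507 : W_22 (nat_lit 3) (nat_lit 0x20000c0012000d0000c00000000000000000000000000) (nat_lit 0x0) (nat_lit 0x440012000800000000000000000000000000000000000) := T_22 (nat_lit 157) (nat_lit 174) (nat_lit 5) (nat_lit 5) (nat_lit 6) L70506 (by decide +kernel)
theorem L70508 : W_22 (nat_lit 4) (nat_lit 0x2000040012000d0000c00000000000000000000000000) (nat_lit 0x0) (nat_lit 0x54001a000800000000000000000000000000000000000) := T_22 (nat_lit 159) (nat_lit 176) (nat_lit 7) (nat_lit 5) (nat_lit 6) L70507 (by decide +kernel)
theorem L70509 : W_22 (nat_lit 5) (nat_lit 0x200004001200090000c00000000000000000000000000) (nat_lit 0x0) (nat_lit 0x54001a000800060000000000000000000000000000000) := T_22 (nat_lit 126) (nat_lit 125) (nat_lit 0) (nat_lit 8) (nat_lit 7) L70508 (by decide +kernel)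
theorem L70510 : W_22 (nat_lit 6) (nat_lit 0x200004001200090000800000000000000000000000000) (nat_lit 0x0) (nat_lit 0x54001a000800060000400020000000000000000000000) := T_22 (nat_lit 106) (nat_lit 89) (nat_lit 4) (nat_lit 5) (nat_lit 9) L70509 (by decide +kernel)
theorem L70511 : W_22 (nat_lit 2) (nat_lit 0x2d002c0012000d0000c00000000000000000000000000) (nat_lit 0x0) (nat_lit 0x4000400000000000000002000000000000000000000000000) := D_22 (nat_lit 178) (nat_lit 194) (nat_lit 109) (nat_lit 5) (nat_lit 8) (nat_lit 7) (nat_lit 4) (nat_lit 8) (nat_lit 10) (by decide +kernel)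
theorem L70512 : W_22 (nat_lit 3) (nat_lit 0x2d000c0012000d0000c00000000000000000000000000) (nat_lit 0x0) (nat_lit 0x4000400030000000000002000000000000000000000000000) := T_22 (nat_lit 161) (nat_lit 160) (nat_lit 1) (nat_lit 8) (nat_lit 9) L70511 (by decide +kernel)
theorem L70513 : W_22 (nat_lit 4) (nat_lit 0x2c000c0012000d0000c00000000000000000000000000) (nat_lit 0x0) (nat_lit 0x4000430030000000000002000000000000000000000000000) := T_22 (nat_lit 172) (nat_lit 173) (nat_lit 2) (nat_lit 2) (nat_lit 10) L70512 (by decide +kernel)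
theorem L70514 : W_22 (nat_lit 5) (nat_lit 0x28000c0012000d0000c00000000000000000000000000) (nat_lit 0x0) (nat_lit 0x4800470030000000000002000000000000000000000000000) := T_22 (nat_lit 174) (nat_lit 191) (nat_lit 5) (nat_lit 5) (nat_lit 7) L70513 (by decide +kernel)
theorem L70515 : W_22 (nat_lit 6) (nat_lit 0x2800040012000d0000c00000000000000000000000000) (nat_lit 0x0) (nat_lit 0x4800570038000000000002000000000000000000000000000) := T_22 (nat_lit 159) (nat_lit 176) (nat_lit 7) (nat_lit 5) (nat_lit 6) L70514 (by decide +kernel)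
theorem L70516 : W_22 (nat_lit 7) (nat_lit 0x2000040012000d0000c00000000000000000000000000) (nat_lit 0x0) (nat_lit 0x48005f0038000000008002000000000000000000000000000) := T_22 (nat_lit 175) (nat_lit 123) (nat_lit 4) (nat_lit 5) (nat_lit 10) L70515 (by decide +kernel)
theorem L70517 : W_22 (nat_lit 8) (nat_lit 0x200004001200090000c00000000000000000000000000) (nat_lit 0x0) (nat_lit 0x48005f0038000000068002000000000000000000000000000) := T_22 (nat_lit 126) (nat_lit 125) (nat_lit 0) (nat_lit 8) (nat_lit 7) L70516 (by decide +kernel)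
theorem L70518 : W_22 (nat_lit 9) (nat_lit 0x200004001200090000800000000000000000000000000) (nat_lit 0x0) (nat_lit 0x48005f0038000000068002400020000000000000000000000) := T_22 (nat_lit 106) (nat_lit 89) (nat_lit 4) (nat_lit 5) (nat_lit 9) L70517 (by decide +kernel)
theorem L70519 : W_22 (nat_lit 2) (nat_lit 0x7800040012000d0000c00000000000000000000000000) (nat_lit 0x0) (nat_lit 0x60000000000002000000000000000000000000000) := D_22 (nat_lit 161) (nat_lit 162) (nat_lit 109) (nat_lit 2) (nat_lit 5) (nat_lit 10) (nat_lit 4) (nat_lit 8) (nat_lit 10) (by decide +kernel)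
theorem L70520 : W_22 (nat_lit 3) (nat_lit 0x3800040012000d0000c00000000000000000000000000) (nat_lit 0x0) (nat_lit 0x400062000000000002000000000000000000000000000) := T_22 (nat_lit 178) (nat_lit 157) (nat_lit 0) (nat_lit 8) (nat_lit 10) L70519 (by decide +kernel)
theorem L70521 : W_22 (nat_lit 4) (nat_lit 0x2800040012000d0000c00000000000000000000000000) (nat_lit 0x0) (nat_lit 0x50006a000000000002000000000000000000000000000) := T_22 (nat_lit 176) (nat_lit 159) (nat_lit 7) (nat_lit 5) (nat_lit 6) L70520 (by decide +kernel)
theorem L70522 : W_22 (nat_lit 5) (nat_lit 0x2000040012000d0000c00000000000000000000000000) (nat_lit 0x0) (nat_lit 0x58006a000000008002000000000000000000000000000) := T_22 (nat_lit 175) (nat_lit 123) (nat_lit 4) (nat_lit 5) (nat_lit 10) L70521 (by decide +kernel)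
theorem L70523 : W_22 (nat_lit 6) (nat_lit 0x200004001200090000c00000000000000000000000000) (nat_lit 0x0) (nat_lit 0x58006a000000068002000000000000000000000000000) := T_22 (nat_lit 126) (nat_lit 125) (nat_lit 0) (nat_lit 8) (nat_lit 7) L70522 (by decide +kernel)
theorem L70524 : W_22 (nat_lit 7) (nat_lit 0x200004001200090000800000000000000000000000000) (nat_lit 0x0) (nat_lit 0x58006a000000068002400020000000000000000000000) := T_22 (nat_lit 106) (nat_lit 89) (nat_lit 4) (nat_lit 5) (nat_lit 9) L70523 (by decide +kernel)
theorem L70525 : W_22 (nat_lit 2) (nat_lit 0x20000e001200090000800000000000000000000000000) (nat_lit 0x0) (nat_lit 0x400010000800000000000000000000000000000000000) := D_22 (nat_lit 160) (nat_lit 143) (nat_lit 178) (nat_lit 2) (nat_lit 4) (nat_lit 9) (nat_lit 3) (nat_lit 4) (nat_lit 9) (by decide +kernel)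
theorem L70526 : W_22 (nat_lit 3) (nat_lit 0x20000c001200090000800000000000000000000000000) (nat_lit 0x0) (nat_lit 0x440012000800000000000000000000000000000000000) := T_22 (nat_lit 157) (nat_lit 174) (nat_lit 5) (nat_lit 5) (nat_lit 6) L70525 (by decide +kernel)
theorem L70527 : W_22 (nat_lit 4) (nat_lit 0x200004001200090000800000000000000000000000000) (nat_lit 0x0) (nat_lit 0x54001a000800000000000000000000000000000000000) := T_22 (nat_lit 159) (nat_lit 176) (nat_lit 7) (nat_lit 5) (nat_lit 6) L70526 (by decide +kernel)
theorem L70528 : W_22 (nat_lit 10) (nat_lit 0x200004001200090000000000000000000000000000000) (nat_lit 0x0) (nat_lit 0x48005f007a000800068002c00020000000000000000000000) := Q_22 (nat_lit 107) (C_22 L39589 (C_22 L70503 (C_22 L70510 (C_22 L70518 (C_22 L70524 (C_22 L70527 N_22)))))) (by decide +kernel)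
theorem L70529 : W_22 (nat_lit 5) (nat_lit 0x200004001200090000000000000000000000000000000) (nat_lit 0x0) (nat_lit 0x54001a000900060003c000e0004000000000000000000) := Q_22 (nat_lit 107) (C_22 L39666 (C_22 L70527 (C_22 L39576 N_22))) (by decide +kernel)
theorem L70530 : W_22 (nat_lit 2) (nat_lit 0x100006d002c0012000d0001800000000000000000000000000) (nat_lit 0x0) (nat_lit 0x200008000000000000800000000000000000000000000000000000) := D_22 (nat_lit 195) (nat_lit 143) (nat_lit 213) (nat_lit 4) (nat_lit 8) (nat_lit 11) (nat_lit 7) (nat_lit 8) (nat_lit 8) (by decide +kernel)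
theorem L70531 : W_22 (nat_lit 3) (nat_lit 0x6d002c0012000d0001800000000000000000000000000) (nat_lit 0x0) (nat_lit 0x200018000800000000800000000000000000000000000000000000) := T_22 (nat_lit 196) (nat_lit 179) (nat_lit 7) (nat_lit 8) (nat_lit 7) L70530 (by decide +kernel)
theorem L70532 : W_22 (nat_lit 4) (nat_lit 0x6d002c001200090001800000000000000000000000000) (nat_lit 0x0) (nat_lit 0x200018000800000000800040002000000000000000000000000000) := T_22 (nat_lit 126) (nat_lit 109) (nat_lit 4) (nat_lit 8) (nat_lit 10) L70531 (by decide +kernel)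
theorem L70533 : W_22 (nat_lit 5) (nat_lit 0x2d002c001200090001800000000000000000000000000) (nat_lit 0x0) (nat_lit 0x20001c000c00000000800040002000000000000000000000000000) := T_22 (nat_lit 178) (nat_lit 194) (nat_lit 5) (nat_lit 8) (nat_lit 7) L70532 (by decide +kernel)
theorem L70534 : W_22 (nat_lit 6) (nat_lit 0x2d000c001200090001800000000000000000000000000) (nat_lit 0x0) (nat_lit 0x20001c000c00030000800040002000000000000000000000000000) := T_22 (nat_lit 161) (nat_lit 160) (nat_lit 1) (nat_lit 8) (nat_lit 9) L70533 (by decide +kernel)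
theorem L70535 : W_22 (nat_lit 7) (nat_lit 0x2c000c001200090001800000000000000000000000000) (nat_lit 0x0) (nat_lit 0x20001c000c30030000800040002000000000000000000000000000) := T_22 (nat_lit 172) (nat_lit 173) (nat_lit 2) (nat_lit 2) (nat_lit 10) L70534 (by decide +kernel)
theorem L70536 : W_22 (nat_lit 8) (nat_lit 0x28000c001200090001800000000000000000000000000) (nat_lit 0x0) (nat_lit 0x20001c800c70030000800040002000000000000000000000000000) := T_22 (nat_lit 174) (nat_lit 191) (nat_lit 5) (nat_lit 5) (nat_lit 7) L70535 (by decide +kernel)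
theorem L70537 : W_22 (nat_lit 9) (nat_lit 0x20000c001200090001800000000000000000000000000) (nat_lit 0x0) (nat_lit 0x20001c800cf0030000800060002000000000000000000000000000) := T_22 (nat_lit 175) (nat_lit 125) (nat_lit 6) (nat_lit 5) (nat_lit 10) L70536 (by decide +kernel)
theorem L70538 : W_22 (nat_lit 10) (nat_lit 0x20000c001200090000800000000000000000000000000) (nat_lit 0x0) (nat_lit 0x20001c800cf0030000800060003000080000000000000000000000) := T_22 (nat_lit 108) (nat_lit 91) (nat_lit 6) (nat_lit 5) (nat_lit 9) L70537 (by decide +kernel)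
theorem L70539 : W_22 (nat_lit 11) (nat_lit 0x200004001200090000800000000000000000000000000) (nat_lit 0x0) (nat_lit 0x20001c800df0038000800060003000080000000000000000000000) := T_22 (nat_lit 159) (nat_lit 176) (nat_lit 7) (nat_lit 5) (nat_lit 6) L70538 (by decide +kernel)
theorem L70540 : W_22 (nat_lit 12) (nat_lit 0x200004001200090000000000000000000000000000000) (nat_lit 0x0) (nat_lit 0x20001c800df003800080006c003c000a0000000000000000000000) := Q_22 (nat_lit 107) (C_22 L70498 (C_22 L70518 (C_22 L40007 (C_22 L39576 (C_22 L70539 N_22))))) (by decide +kernel)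
theorem L70541 : W_22 (nat_lit 10) (nat_lit 0x280004001200098000000000000000000000000000000) (nat_lit 0x0) (nat_lit 0x10000e0007000580050006a000100020001000000000000000000000000000) := T_22 (nat_lit 125) (nat_lit 108) (nat_lit 6) (nat_lit 5) (nat_lit 10) L68787 (by decide +kernel)
theorem L70542 : W_22 (nat_lit 11) (nat_lit 0x280004001200090000000000000000000000000000000) (nat_lit 0x0) (nat_lit 0x10000e0007000580050006a000100028001400000000000000000000000000) := T_22 (nat_lit 123) (nat_lit 106) (nat_lit 4) (nat_lit 5) (nat_lit 10) L70541 (by decide +kernel)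
theorem L70543 : W_22 (nat_lit 2) (nat_lit 0x18006800040012000f8000000000000000000000000000000) (nat_lit 0x0) (nat_lit 0x4000000020000000000002000000000000000000000000000) := D_22 (nat_lit 161) (nat_lit 194) (nat_lit 109) (nat_lit 5) (nat_lit 8) (nat_lit 7) (nat_lit 4) (nat_lit 8) (nat_lit 10) (by decide +kernel)
theorem L70544 : W_22 (nat_lit 3) (nat_lit 0x18002800040012000f8000000000000000000000000000000) (nat_lit 0x0) (nat_lit 0x4000500020000000000002000000000000000000000000000) := T_22 (nat_lit 178) (nat_lit 176) (nat_lit 1) (nat_lit 8) (nat_lit 10) L70543 (by decide +kernel)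
theorem L70545 : W_22 (nat_lit 4) (nat_lit 0x8002800040012000f8000000000000000000000000000000) (nat_lit 0x0) (nat_lit 0x10005000500020000000000002000000000000000000000000000) := T_22 (nat_lit 192) (nat_lit 208) (nat_lit 5) (nat_lit 5) (nat_lit 8) L70544 (by decide +kernel)
theorem L70546 : W_22 (nat_lit 5) (nat_lit 0x2800040012000f8000000000000000000000000000000) (nat_lit 0x0) (nat_lit 0x10005800540020000000000002000000000000000000000000000) := T_22 (nat_lit 191) (nat_lit 174) (nat_lit 5) (nat_lit 5) (nat_lit 7) L70545 (by decide +kernel)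
theorem L70547 : W_22 (nat_lit 6) (nat_lit 0x2800040012000b8000000000000000000000000000000) (nat_lit 0x0) (nat_lit 0x10005800540020000800040002000000000000000000000000000) := T_22 (nat_lit 126) (nat_lit 143) (nat_lit 3) (nat_lit 4) (nat_lit 7) L70546 (by decide +kernel)
theorem L70548 : W_22 (nat_lit 7) (nat_lit 0x280004001200098000000000000000000000000000000) (nat_lit 0x0) (nat_lit 0x10005800540020000800060003000000000000000000000000000) := T_22 (nat_lit 125) (nat_lit 108) (nat_lit 6) (nat_lit 5) (nat_lit 10) L70547 (by decide +kernel)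
theorem L70549 : W_22 (nat_lit 8) (nat_lit 0x280004001200090000000000000000000000000000000) (nat_lit 0x0) (nat_lit 0x10005800540020000800068003400000000000000000000000000) := T_22 (nat_lit 123) (nat_lit 106) (nat_lit 4) (nat_lit 5) (nat_lit 10) L70548 (by decide +kernel)
theorem L70550 : W_22 (nat_lit 2) (nat_lit 0x18006800040012000f0000000000000000000000000000000) (nat_lit 0x0) (nat_lit 0x4000000020000000000002000000000000000000000000000) := D_22 (nat_lit 161) (nat_lit 194) (nat_lit 109) (nat_lit 5) (nat_lit 8) (nat_lit 7) (nat_lit 4) (nat_lit 8) (nat_lit 10) (by decide +kernel)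
theorem L70551 : W_22 (nat_lit 3) (nat_lit 0x18002800040012000f0000000000000000000000000000000) (nat_lit 0x0) (nat_lit 0x4000500020000000000002000000000000000000000000000) := T_22 (nat_lit 178) (nat_lit 176) (nat_lit 1) (nat_lit 8) (nat_lit 10) L70550 (by decide +kernel)
theorem L70552 : W_22 (nat_lit 4) (nat_lit 0x8002800040012000f0000000000000000000000000000000) (nat_lit 0x0) (nat_lit 0x10005000500020000000000002000000000000000000000000000) := T_22 (nat_lit 192) (nat_lit 208) (nat_lit 5) (nat_lit 5) (nat_lit 8) L70551 (by decide +kernel)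
theorem L70553 : W_22 (nat_lit 5) (nat_lit 0x8002800040012000b0000000000000000000000000000000) (nat_lit 0x0) (nat_lit 0x10005000500020000100040002000000000000000000000000000) := T_22 (nat_lit 126) (nat_lit 140) (nat_lit 1) (nat_lit 8) (nat_lit 7) L70552 (by decide +kernel)
theorem L70554 : W_22 (nat_lit 6) (nat_lit 0x800280004001200090000000000000000000000000000000) (nat_lit 0x0) (nat_lit 0x10005000500020000100060003000000000000000000000000000) := T_22 (nat_lit 125) (nat_lit 108) (nat_lit 6) (nat_lit 5) (nat_lit 10) L70553 (by decide +kernel)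
theorem L70555 : W_22 (nat_lit 7) (nat_lit 0x280004001200090000000000000000000000000000000) (nat_lit 0x0) (nat_lit 0x10005800540020000100060003000000000000000000000000000) := T_22 (nat_lit 191) (nat_lit 174) (nat_lit 5) (nat_lit 5) (nat_lit 7) L70554 (by decide +kernel)
theorem L70556 : W_22 (nat_lit 12) (nat_lit 0x200004001200090000000000000000000000000000000) (nat_lit 0x0) (nat_lit 0x10000e000700058005c006a000900068003400000000000000000000000000) := Q_22 (nat_lit 175) (C_22 L39889 (C_22 L70542 (C_22 L32056 (C_22 L70549 (C_22 L70555 N_22))))) (by decide +kernel)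
theorem L70557 : W_22 (nat_lit 2) (nat_lit 0x20000c0012000b0001800000000000000000000000000) (nat_lit 0x0) (nat_lit 0x100140000000000000000000000000000000) := D_22 (nat_lit 126) (nat_lit 140) (nat_lit 128) (nat_lit 1) (nat_lit 8) (nat_lit 7) (nat_lit 0) (nat_lit 9) (nat_lit 7) (by decide +kernel)
theorem L70558 : W_22 (nat_lit 3) (nat_lit 0x20000c001200090001800000000000000000000000000) (nat_lit 0x0) (nat_lit 0x80000000100160000000000000000000000000000000) := T_22 (nat_lit 125) (nat_lit 175) (nat_lit 6) (nat_lit 5) (nat_lit 10) L70557 (by decide +kernel)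
theorem L70559 : W_22 (nat_lit 4) (nat_lit 0x20000c001200090000800000000000000000000000000) (nat_lit 0x0) (nat_lit 0x80000000100160001000080000000000000000000000) := T_22 (nat_lit 108) (nat_lit 91) (nat_lit 6) (nat_lit 5) (nat_lit 9) L70558 (by decide +kernel)
theorem L70560 : W_22 (nat_lit 5) (nat_lit 0x200004001200090000800000000000000000000000000) (nat_lit 0x0) (nat_lit 0x180008000100160001000080000000000000000000000) := T_22 (nat_lit 159) (nat_lit 176) (nat_lit 7) (nat_lit 5) (nat_lit 6) L70559 (by decide +kernel)
theorem L70561 : W_22 (nat_lit 8) (nat_lit 0x200004001200090000000000000000000000000000000) (nat_lit 0x0) (nat_lit 0x58006a00010016c003c000a0000000000000000000000) := Q_22 (nat_lit 107) (C_22 L70498 (C_22 L70524 (C_22 L40007 (C_22 L39576 (C_22 L70560 N_22))))) (by decide +kernel)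
theorem L70562 : W_22 (nat_lit 6) (nat_lit 0x200004001200090000000000000000000000000000000) (nat_lit 0x0) (nat_lit 0x5c001a0009001600018000c0004000000000000000000) := Q_22 (nat_lit 107) (C_22 L39666 (C_22 L70560 (C_22 L70527 N_22))) (by decide +kernel)
theorem L70563 : W_22 (nat_lit 13) (nat_lit 0x200004001200080000000000000000000000000000000) (nat_lit 0x0) (nat_lit 0x10000e0027001d800df007a00090017c003c000e0004000000000000000000) := Q_22 (nat_lit 124) (C_22 L70499 (C_22 L70504 (C_22 L70505 (C_22 L70528 (C_22 L70529 (C_22 L70540 (C_22 L70556 (C_22 L70561 (C_22 L70562 N_22))))))))) (by decide +kernel)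
theorem L70564 : W_22 (nat_lit 2) (nat_lit 0xe000a4005a003c0010000000000000000000000000000) (nat_lit 0x0) (nat_lit 0x3000100000000000000000000000000000000000000000) := D_22 (nat_lit 164) (nat_lit 180) (nat_lit 181) (nat_lit 2) (nat_lit 7) (nat_lit 10) (nat_lit 7) (nat_lit 10) (nat_lit 6) (by decide +kernel)
theorem L70565 : W_22 (nat_lit 3) (nat_lit 0xe00024005a003c0010000000000000000000000000000) (nat_lit 0x0) (nat_lit 0x30001c0000000000000000000000000000000000000000) := T_22 (nat_lit 163) (nat_lit 162) (nat_lit 5) (nat_lit 10) (nat_lit 6) L70564 (by decide +kernel)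
theorem L70566 : W_22 (nat_lit 4) (nat_lit 0xe00024001a003c0010000000000000000000000000000) (nat_lit 0x0) (nat_lit 0x30001c000c000000000000000000000000000000000000) := T_22 (nat_lit 146) (nat_lit 147) (nat_lit 3) (nat_lit 7) (nat_lit 7) L70565 (by decide +kernel)
theorem L70567 : W_22 (nat_lit 5) (nat_lit 0xe00024001a003c0000000000000000000000000000000) (nat_lit 0x0) (nat_lit 0x30001c000c000000030000000000000000000000000000) := T_22 (nat_lit 112) (nat_lit 113) (nat_lit 2) (nat_lit 7) (nat_lit 7) L70566 (by decide +kernel)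
theorem L70568 : W_22 (nat_lit 6) (nat_lit 0xe00024001a001c0000000000000000000000000000000) (nat_lit 0x0) (nat_lit 0x30001c000c000600030000000000000000000000000000) := T_22 (nat_lit 129) (nat_lit 130) (nat_lit 1) (nat_lit 11) (nat_lit 7) L70567 (by decide +kernel)
theorem L70569 : W_22 (nat_lit 7) (nat_lit 0xe00024001a000c0000000000000000000000000000000) (nat_lit 0x0) (nat_lit 0x30001c000c000700038000000000000000000000000000) := T_22 (nat_lit 128) (nat_lit 111) (nat_lit 6) (nat_lit 8) (nat_lit 10) L70568 (by decide +kernel)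
theorem L70570 : W_22 (nat_lit 8) (nat_lit 0xe000240012000c0000000000000000000000000000000) (nat_lit 0x0) (nat_lit 0x80030001c000c800700038000000000000000000000000000) := T_22 (nat_lit 143) (nat_lit 195) (nat_lit 4) (nat_lit 8) (nat_lit 11) L70569 (by decide +kernel)
theorem L70571 : W_22 (nat_lit 9) (nat_lit 0x6000240012000c0000000000000000000000000000000) (nat_lit 0x0) (nat_lit 0x180038001c000c800700038000000000000000000000000000) := T_22 (nat_lit 179) (nat_lit 196) (nat_lit 7) (nat_lit 8) (nat_lit 7) L70570 (by decide +kernel)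
theorem L70572 : W_22 (nat_lit 10) (nat_lit 0x600024001200080000000000000000000000000000000) (nat_lit 0x0) (nat_lit 0x180038001c000c80074003a000000000000000000000000000) := T_22 (nat_lit 126) (nat_lit 109) (nat_lit 4) (nat_lit 8) (nat_lit 10) L70571 (by decide +kernel)
theorem L70573 : W_22 (nat_lit 11) (nat_lit 0x600004001200080000000000000000000000000000000) (nat_lit 0x0) (nat_lit 0x1c0038001e000c80074003a000000000000000000000000000) := T_22 (nat_lit 161) (nat_lit 194) (nat_lit 5) (nat_lit 8) (nat_lit 7) L70572 (by decide +kernel)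
theorem L70574 : W_22 (nat_lit 4) (nat_lit 0x600004001200080000000000000000000000000000000) (nat_lit 0x0) (nat_lit 0x14000900038000000000000000000000000000000000000000) := T_22 (nat_lit 161) (nat_lit 194) (nat_lit 5) (nat_lit 8) (nat_lit 7) L70427 (by decide +kernel)
theorem L70575 : W_22 (nat_lit 2) (nat_lit 0x400060001c001200080000000000000000000000000000000) (nat_lit 0x0) (nat_lit 0x1900000000000000000000000000000000000000000000) := D_22 (nat_lit 179) (nat_lit 180) (nat_lit 176) (nat_lit 0) (nat_lit 10) (nat_lit 10) (nat_lit 0) (nat_lit 9) (nat_lit 10) (by decide +kernel)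
theorem L70576 : W_22 (nat_lit 3) (nat_lit 0x4000600014001200080000000000000000000000000000000) (nat_lit 0x0) (nat_lit 0x190000a000000000000000000000000000000000000000) := T_22 (nat_lit 159) (nat_lit 157) (nat_lit 3) (nat_lit 4) (nat_lit 9) L70575 (by decide +kernel)
theorem L70577 : W_22 (nat_lit 4) (nat_lit 0x4000600004001200080000000000000000000000000000000) (nat_lit 0x0) (nat_lit 0x190001a000800000000000000000000000000000000000) := T_22 (nat_lit 160) (nat_lit 143) (nat_lit 6) (nat_lit 7) (nat_lit 11) L70576 (by decide +kernel)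
theorem L70578 : W_22 (nat_lit 5) (nat_lit 0x600004001200080000000000000000000000000000000) (nat_lit 0x0) (nat_lit 0x400190003a000800000000000000000000000000000000000) := T_22 (nat_lit 194) (nat_lit 161) (nat_lit 5) (nat_lit 8) (nat_lit 7) L70577 (by decide +kernel)
theorem L70579 : W_22 (nat_lit 2) (nat_lit 0xf80004001200080000000000000000000000000000000) (nat_lit 0x0) (nat_lit 0x38000000000000000000000000000000000000000000000000) := D_22 (nat_lit 196) (nat_lit 195) (nat_lit 197) (nat_lit 3) (nat_lit 5) (nat_lit 10) (nat_lit 3) (nat_lit 6) (nat_lit 10) (by decide +kernel)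
theorem L70580 : W_22 (nat_lit 3) (nat_lit 0x780004001200080000000000000000000000000000000) (nat_lit 0x0) (nat_lit 0x38000800008000000000000000000000000000000000000000) := T_22 (nat_lit 179) (nat_lit 159) (nat_lit 0) (nat_lit 9) (nat_lit 10) L70579 (by decide +kernel)
theorem L70581 : W_22 (nat_lit 4) (nat_lit 0x700004001200080000000000000000000000000000000) (nat_lit 0x0) (nat_lit 0x3800088000a000000000000000000000000000000000000000) := T_22 (nat_lit 175) (nat_lit 157) (nat_lit 0) (nat_lit 8) (nat_lit 10) L70580 (by decide +kernel)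
theorem L70582 : W_22 (nat_lit 2) (nat_lit 0x800780004001200080000000000000000000000000000000) (nat_lit 0x0) (nat_lit 0x400040000000000010000000000000000000000000000000) := D_22 (nat_lit 174) (nat_lit 190) (nat_lit 124) (nat_lit 1) (nat_lit 7) (nat_lit 10) (nat_lit 5) (nat_lit 5) (nat_lit 7) (by decide +kernel)
theorem L70583 : W_22 (nat_lit 3) (nat_lit 0x780004001200080000000000000000000000000000000) (nat_lit 0x0) (nat_lit 0x1c00040000000000010000000000000000000000000000000) := T_22 (nat_lit 191) (nat_lit 192) (nat_lit 1) (nat_lit 8) (nat_lit 10) L70582 (by decide +kernel)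
theorem L70584 : W_22 (nat_lit 4) (nat_lit 0x700004001200080000000000000000000000000000000) (nat_lit 0x0) (nat_lit 0x1c000c0002000000010000000000000000000000000000000) := T_22 (nat_lit 175) (nat_lit 157) (nat_lit 0) (nat_lit 8) (nat_lit 10) L70583 (by decide +kernel)
theorem L70585 : W_22 (nat_lit 2) (nat_lit 0x20000f00084001200080000000000000000000000000000000) (nat_lit 0x0) (nat_lit 0x40001000100000000000000000000000000000000000000000) := D_22 (nat_lit 180) (nat_lit 164) (nat_lit 198) (nat_lit 2) (nat_lit 7) (nat_lit 10) (nat_lit 3) (nat_lit 7) (nat_lit 10) (by decide +kernel)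
theorem L70586 : W_22 (nat_lit 3) (nat_lit 0xf00084001200080000000000000000000000000000000) (nat_lit 0x0) (nat_lit 0x70001000100000000000000000000000000000000000000000) := T_22 (nat_lit 197) (nat_lit 196) (nat_lit 3) (nat_lit 6) (nat_lit 10) L70585 (by decide +kernel)
theorem L70587 : W_22 (nat_lit 4) (nat_lit 0xf00004001200080000000000000000000000000000000) (nat_lit 0x0) (nat_lit 0x700010001c0000000000000000000000000000000000000000) := T_22 (nat_lit 163) (nat_lit 162) (nat_lit 2) (nat_lit 6) (nat_lit 10) L70586 (by decide +kernel)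
theorem L70588 : W_22 (nat_lit 5) (nat_lit 0x700004001200080000000000000000000000000000000) (nat_lit 0x0) (nat_lit 0x700018001c8000000000000000000000000000000000000000) := T_22 (nat_lit 179) (nat_lit 159) (nat_lit 0) (nat_lit 9) (nat_lit 10) L70587 (by decide +kernel)
theorem L70589 : W_22 (nat_lit 6) (nat_lit 0x600004001200080000000000000000000000000000000) (nat_lit 0x0) (nat_lit 0x79c019c01ca000000010000000000000000000000000000000) := Q_22 (nat_lit 176) (C_22 L70581 (C_22 L70584 (C_22 L70588 N_22))) (by decide +kernel)
theorem L70590 : W_22 (nat_lit 2) (nat_lit 0x3800080006000340012001c0000000000000000000000000000000) (nat_lit 0x0) (nat_lit 0xa000100000000000000000000000000000000000) := D_22 (nat_lit 159) (nat_lit 157) (nat_lit 140) (nat_lit 3) (nat_lit 4) (nat_lit 9) (nat_lit 0) (nat_lit 8) (nat_lit 9) (by decide +kernel)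
theorem L70591 : W_22 (nat_lit 3) (nat_lit 0x3800080006000240012001c0000000000000000000000000000000) (nat_lit 0x0) (nat_lit 0x200000000000000001a000100000000000000000000000000000000000) := T_22 (nat_lit 160) (nat_lit 229) (nat_lit 4) (nat_lit 8) (nat_lit 13) L70590 (by decide +kernel)
theorem L70592 : W_22 (nat_lit 4) (nat_lit 0x3000080006000240012001c0000000000000000000000000000000) (nat_lit 0x0) (nat_lit 0x300008000000000001a000100000000000000000000000000000000000) := T_22 (nat_lit 211) (nat_lit 228) (nat_lit 5) (nat_lit 8) (nat_lit 9) L70591 (by decide +kernel)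
theorem L70593 : W_22 (nat_lit 5) (nat_lit 0x2000080006000240012001c0000000000000000000000000000000) (nat_lit 0x0) (nat_lit 0x700018000000000001a000100000000000000000000000000000000000) := T_22 (nat_lit 212) (nat_lit 230) (nat_lit 7) (nat_lit 8) (nat_lit 9) L70592 (by decide +kernel)
theorem L70594 : W_22 (nat_lit 6) (nat_lit 0x80006000240012001c0000000000000000000000000000000) (nat_lit 0x0) (nat_lit 0x700038001000000001a000100000000000000000000000000000000000) := T_22 (nat_lit 213) (nat_lit 196) (nat_lit 7) (nat_lit 8) (nat_lit 8) L70593 (by decide +kernel)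
theorem L70595 : W_22 (nat_lit 7) (nat_lit 0x6000240012001c0000000000000000000000000000000) (nat_lit 0x0) (nat_lit 0x700038001800000001a000900000000000000000000000000000000000) := T_22 (nat_lit 195) (nat_lit 143) (nat_lit 4) (nat_lit 8) (nat_lit 11) L70594 (by decide +kernel)
theorem L70596 : W_22 (nat_lit 8) (nat_lit 0x6000240012000c0000000000000000000000000000000) (nat_lit 0x0) (nat_lit 0x700038001800000001a000900100008000000000000000000000000000) := T_22 (nat_lit 128) (nat_lit 111) (nat_lit 6) (nat_lit 8) (nat_lit 10) L70595 (by decide +kernel)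
theorem L70597 : W_22 (nat_lit 9) (nat_lit 0x600024001200080000000000000000000000000000000) (nat_lit 0x0) (nat_lit 0x700038001800000001a00090014000a000000000000000000000000000) := T_22 (nat_lit 126) (nat_lit 109) (nat_lit 4) (nat_lit 8) (nat_lit 10) L70596 (by decide +kernel)
theorem L70598 : W_22 (nat_lit 10) (nat_lit 0x600004001200080000000000000000000000000000000) (nat_lit 0x0) (nat_lit 0x700038001c00000003a00090014000a000000000000000000000000000) := T_22 (nat_lit 161) (nat_lit 194) (nat_lit 5) (nat_lit 8) (nat_lit 7) L70597 (by decide +kernel)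
theorem L70599 : W_22 (nat_lit 12) (nat_lit 0x200004001200080000000000000000000000000000000) (nat_lit 0x0) (nat_lit 0x700038007dc03dc01fa00c90075003a000000000000000000000000000) := Q_22 (nat_lit 178) (C_22 L70573 (C_22 L70574 (C_22 L70578 (C_22 L70589 (C_22 L70598 N_22))))) (by decide +kernel)
theorem L70600 : W_22 (nat_lit 11) (nat_lit 0x200024001200080000000000000000000000000000000) (nat_lit 0x0) (nat_lit 0x1c003c001c000c80074003a000000000000000000000000000) := T_22 (nat_lit 178) (nat_lit 194) (nat_lit 5) (nat_lit 8) (nat_lit 7) L70572 (by decide +kernel)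
theorem L70601 : W_22 (nat_lit 2) (nat_lit 0x2e00034001a000e0000000000000000000000000000000) (nat_lit 0x0) (nat_lit 0x100018000000000000000000000000000000) := D_22 (nat_lit 124) (nat_lit 123) (nat_lit 140) (nat_lit 3) (nat_lit 4) (nat_lit 7) (nat_lit 1) (nat_lit 8) (nat_lit 7) (by decide +kernel)
theorem L70602 : W_22 (nat_lit 3) (nat_lit 0x2e00034001a000c0000000000000000000000000000000) (nat_lit 0x0) (nat_lit 0x100038001000000000000000000000000000) := T_22 (nat_lit 125) (nat_lit 108) (nat_lit 4) (nat_lit 7) (nat_lit 10) L70601 (by decide +kernel)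
theorem L70603 : W_22 (nat_lit 4) (nat_lit 0xe00034001a000c0000000000000000000000000000000) (nat_lit 0x0) (nat_lit 0x3000000000100038001000000000000000000000000000) := T_22 (nat_lit 181) (nat_lit 180) (nat_lit 0) (nat_lit 11) (nat_lit 10) L70602 (by decide +kernel)
theorem L70604 : W_22 (nat_lit 5) (nat_lit 0xe000340012000c0000000000000000000000000000000) (nat_lit 0x0) (nat_lit 0x8003000000000900038001000000000000000000000000000) := T_22 (nat_lit 143) (nat_lit 195) (nat_lit 7) (nat_lit 7) (nat_lit 7) L70603 (by decide +kernel)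
theorem L70605 : W_22 (nat_lit 6) (nat_lit 0xe000240012000c0000000000000000000000000000000) (nat_lit 0x0) (nat_lit 0x8003000018000900038001000000000000000000000000000) := T_22 (nat_lit 160) (nat_lit 159) (nat_lit 3) (nat_lit 5) (nat_lit 9) L70604 (by decide +kernel)
theorem L70606 : W_22 (nat_lit 7) (nat_lit 0x6000240012000c0000000000000000000000000000000) (nat_lit 0x0) (nat_lit 0x18003800018000900038001000000000000000000000000000) := T_22 (nat_lit 179) (nat_lit 196) (nat_lit 7) (nat_lit 8) (nat_lit 7) L70605 (by decide +kernel)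
theorem L70607 : W_22 (nat_lit 8) (nat_lit 0x600024001200080000000000000000000000000000000) (nat_lit 0x0) (nat_lit 0x18003800018000900078003000000000000000000000000000) := T_22 (nat_lit 126) (nat_lit 109) (nat_lit 4) (nat_lit 8) (nat_lit 10) L70606 (by decide +kernel)
theorem L70608 : W_22 (nat_lit 9) (nat_lit 0x200024001200080000000000000000000000000000000) (nat_lit 0x0) (nat_lit 0x1c003c00018000900078003000000000000000000000000000) := T_22 (nat_lit 178) (nat_lit 194) (nat_lit 5) (nat_lit 8) (nat_lit 7) L70607 (by decide +kernel)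
theorem L70609 : W_22 (nat_lit 2) (nat_lit 0x4000200024001200080000000000000000000000000000000) (nat_lit 0x0) (nat_lit 0x80000000000010000800000000000000000000000000000000000) := D_22 (nat_lit 160) (nat_lit 143) (nat_lit 211) (nat_lit 6) (nat_lit 7) (nat_lit 11) (nat_lit 6) (nat_lit 7) (nat_lit 12) (by decide +kernel)
theorem L70610 : W_22 (nat_lit 3) (nat_lit 0x200024001200080000000000000000000000000000000) (nat_lit 0x0) (nat_lit 0x80004000400010000800000000000000000000000000000000000) := T_22 (nat_lit 194) (nat_lit 178) (nat_lit 5) (nat_lit 8) (nat_lit 7) L70609 (by decide +kernel)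
theorem L70611 : W_22 (nat_lit 5) (nat_lit 0x80000000280034001200090000000000000000000000000000000) (nat_lit 0x0) (nat_lit 0x800040002000000028001c00020000000000000000000000) := T_22 (nat_lit 125) (nat_lit 108) (nat_lit 6) (nat_lit 5) (nat_lit 10) L68172 (by decide +kernel)
theorem L70612 : W_22 (nat_lit 6) (nat_lit 0x280034001200090000000000000000000000000000000) (nat_lit 0x0) (nat_lit 0x80004800040002000000028001c00020000000000000000000000) := T_22 (nat_lit 211) (nat_lit 194) (nat_lit 6) (nat_lit 7) (nat_lit 12) L70611 (by decide +kernel)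
theorem L70613 : W_22 (nat_lit 4) (nat_lit 0x280034001200090000000000000000000000000000000) (nat_lit 0x0) (nat_lit 0x800040002000000008000c00020000000000000000000000) := T_22 (nat_lit 174) (nat_lit 191) (nat_lit 5) (nat_lit 5) (nat_lit 7) L63090 (by decide +kernel)
theorem L70614 : W_22 (nat_lit 2) (nat_lit 0x800000002800340012000f0000000000000000000000000000000) (nat_lit 0x0) (nat_lit 0x8000c00000000000000000000000000) := D_22 (nat_lit 106) (nat_lit 107) (nat_lit 123) (nat_lit 0) (nat_lit 8) (nat_lit 7) (nat_lit 4) (nat_lit 5) (nat_lit 10) (by decide +kernel)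
theorem L70615 : W_22 (nat_lit 3) (nat_lit 0x800000002800340012000b0000000000000000000000000000000) (nat_lit 0x0) (nat_lit 0x100048000c00000000000000000000000000) := T_22 (nat_lit 126) (nat_lit 140) (nat_lit 1) (nat_lit 8) (nat_lit 7) L70614 (by decide +kernel)
theorem L70616 : W_22 (nat_lit 4) (nat_lit 0x80000000280034001200090000000000000000000000000000000) (nat_lit 0x0) (nat_lit 0x100068001c00000000000000000000000000) := T_22 (nat_lit 125) (nat_lit 108) (nat_lit 6) (nat_lit 5) (nat_lit 10) L70615 (by decide +kernel)
theorem L70617 : W_22 (nat_lit 5) (nat_lit 0x280034001200090000000000000000000000000000000) (nat_lit 0x0) (nat_lit 0x80004000000000000100068001c00000000000000000000000000) := T_22 (nat_lit 211) (nat_lit 194) (nat_lit 6) (nat_lit 7) (nat_lit 12) L70616 (by decide +kernel)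
theorem L70618 : W_22 (nat_lit 4) (nat_lit 0x800000002c0034001200090000000000000000000000000000000) (nat_lit 0x0) (nat_lit 0x1000000000000100068001400000000000000000000000000) := T_22 (nat_lit 125) (nat_lit 108) (nat_lit 6) (nat_lit 5) (nat_lit 10) L68855 (by decide +kernel)
theorem L70619 : W_22 (nat_lit 5) (nat_lit 0x2c0034001200090000000000000000000000000000000) (nat_lit 0x0) (nat_lit 0x80005000000000000100068001400000000000000000000000000) := T_22 (nat_lit 211) (nat_lit 194) (nat_lit 6) (nat_lit 7) (nat_lit 12) L70618 (by decide +kernel)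
theorem L70620 : W_22 (nat_lit 6) (nat_lit 0x280034001200090000000000000000000000000000000) (nat_lit 0x0) (nat_lit 0x80005800040000000100068001400000000000000000000000000) := T_22 (nat_lit 174) (nat_lit 191) (nat_lit 5) (nat_lit 5) (nat_lit 7) L70619 (by decide +kernel)
theorem L70621 : W_22 (nat_lit 4) (nat_lit 0x280034001200090000000000000000000000000000000) (nat_lit 0x0) (nat_lit 0x800040002000000020001800080000000000000000000000) := T_22 (nat_lit 174) (nat_lit 191) (nat_lit 5) (nat_lit 5) (nat_lit 7) L51452 (by decide +kernel)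
theorem L70622 : W_22 (nat_lit 7) (nat_lit 0x280034001200080000000000000000000000000000000) (nat_lit 0x0) (nat_lit 0x80005800040002000100078001c000a0000000000000000000000) := Q_22 (nat_lit 124) (C_22 L70612 (C_22 L70613 (C_22 L70617 (C_22 L70620 (C_22 L70621 N_22))))) (by decide +kernel)
theorem L70623 : W_22 (nat_lit 2) (nat_lit 0x800000002c0034001200090000800000000000000000000000000) (nat_lit 0x0) (nat_lit 0x8000400020000000000000000000000) := D_22 (nat_lit 106) (nat_lit 89) (nat_lit 123) (nat_lit 4) (nat_lit 5) (nat_lit 9) (nat_lit 4) (nat_lit 5) (nat_lit 10) (by decide +kernel)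
theorem L70624 : W_22 (nat_lit 3) (nat_lit 0x800000002c0034001200090000000000000000000000000000000) (nat_lit 0x0) (nat_lit 0x2000000008000c00020000000000000000000000) := T_22 (nat_lit 107) (nat_lit 157) (nat_lit 5) (nat_lit 5) (nat_lit 6) L70623 (by decide +kernel)
theorem L70625 : W_22 (nat_lit 4) (nat_lit 0x800000002c0034001200080000000000000000000000000000000) (nat_lit 0x0) (nat_lit 0x800000002000000018000c00020000000000000000000000) := T_22 (nat_lit 124) (nat_lit 191) (nat_lit 5) (nat_lit 5) (nat_lit 7) L70624 (by decide +kernel)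
theorem L70626 : W_22 (nat_lit 5) (nat_lit 0x80000000280034001200080000000000000000000000000000000) (nat_lit 0x0) (nat_lit 0x80004000a000000018000c00020000000000000000000000) := T_22 (nat_lit 174) (nat_lit 159) (nat_lit 1) (nat_lit 8) (nat_lit 9) L70625 (by decide +kernel)
theorem L70627 : W_22 (nat_lit 6) (nat_lit 0x280034001200080000000000000000000000000000000) (nat_lit 0x0) (nat_lit 0x8000480004000a000000018000c00020000000000000000000000) := T_22 (nat_lit 211) (nat_lit 194) (nat_lit 6) (nat_lit 7) (nat_lit 12) L70626 (by decide +kernel)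
theorem L70628 : W_22 (nat_lit 2) (nat_lit 0xa0001000280034001300080000000000000000000000000000000) (nat_lit 0x0) (nat_lit 0x200010000800000000000000000000000000000000000000000000000) := D_22 (nat_lit 208) (nat_lit 191) (nat_lit 225) (nat_lit 5) (nat_lit 5) (nat_lit 8) (nat_lit 5) (nat_lit 5) (nat_lit 9) (by decide +kernel)
theorem L70629 : W_22 (nat_lit 3) (nat_lit 0x80001000280034001300080000000000000000000000000000000) (nat_lit 0x0) (nat_lit 0x200030000800000002000000000000000000000000000000000000000) := T_22 (nat_lit 209) (nat_lit 157) (nat_lit 4) (nat_lit 5) (nat_lit 12) L70628 (by decide +kernel)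
theorem L70630 : W_22 (nat_lit 4) (nat_lit 0x80000000280034001300080000000000000000000000000000000) (nat_lit 0x0) (nat_lit 0x200030001800000002000000008000000000000000000000000000000) := T_22 (nat_lit 192) (nat_lit 123) (nat_lit 4) (nat_lit 5) (nat_lit 11) L70629 (by decide +kernel)
theorem L70631 : W_22 (nat_lit 5) (nat_lit 0x280034001300080000000000000000000000000000000) (nat_lit 0x0) (nat_lit 0x2000b0005800000002000000008000000000000000000000000000000) := T_22 (nat_lit 211) (nat_lit 194) (nat_lit 6) (nat_lit 7) (nat_lit 12) L70630 (by decide +kernel)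
theorem L70632 : W_22 (nat_lit 6) (nat_lit 0x280034001200080000000000000000000000000000000) (nat_lit 0x0) (nat_lit 0x2000b000580000000a000100008000000000000000000000000000000) := T_22 (nat_lit 140) (nat_lit 159) (nat_lit 0) (nat_lit 8) (nat_lit 9) L70631 (by decide +kernel)
theorem L70633 : W_22 (nat_lit 8) (nat_lit 0x200034001200080000000000000000000000000000000) (nat_lit 0x0) (nat_lit 0x2000b00058000c000a000100078001c000a0000000000000000000000) := Q_22 (nat_lit 175) (C_22 L70622 (C_22 L51408 (C_22 L70627 (C_22 L70632 N_22)))) (by decide +kernel)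
theorem L70634 : W_22 (nat_lit 2) (nat_lit 0x200034001200080000000000000000000000000000000) (nat_lit 0x0) (nat_lit 0x80004000000000000800000000000000000000000000000000000) := D_22 (nat_lit 194) (nat_lit 211) (nat_lit 143) (nat_lit 6) (nat_lit 7) (nat_lit 12) (nat_lit 6) (nat_lit 7) (nat_lit 11) (by decide +kernel)
theorem L70635 : W_22 (nat_lit 2) (nat_lit 0x20003c001200080000000000000000000000000000000) (nat_lit 0x0) (nat_lit 0x4000000002000800000000000000000000000000000000000) := D_22 (nat_lit 143) (nat_lit 194) (nat_lit 157) (nat_lit 6) (nat_lit 7) (nat_lit 11) (nat_lit 2) (nat_lit 4) (nat_lit 9) (by decide +kernel)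
theorem L70636 : W_22 (nat_lit 3) (nat_lit 0x200034001200080000000000000000000000000000000) (nat_lit 0x0) (nat_lit 0x400000000a000900000000000000000000000000000000000) := T_22 (nat_lit 159) (nat_lit 140) (nat_lit 0) (nat_lit 8) (nat_lit 9) L70635 (by decide +kernel)
theorem L70637 : W_22 (nat_lit 2) (nat_lit 0x24003c001200080000000000000000000000000000000) (nat_lit 0x0) (nat_lit 0x20002000800000000000000000000000000000000000) := D_22 (nat_lit 157) (nat_lit 143) (nat_lit 173) (nat_lit 2) (nat_lit 4) (nat_lit 9) (nat_lit 1) (nat_lit 7) (nat_lit 9) (by decide +kernel)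
theorem L70638 : W_22 (nat_lit 3) (nat_lit 0x20003c001200080000000000000000000000000000000) (nat_lit 0x0) (nat_lit 0xe0002000800000000000000000000000000000000000) := T_22 (nat_lit 174) (nat_lit 175) (nat_lit 1) (nat_lit 8) (nat_lit 9) L70637 (by decide +kernel)
theorem L70639 : W_22 (nat_lit 4) (nat_lit 0x200034001200080000000000000000000000000000000) (nat_lit 0x0) (nat_lit 0xe000a000900000000000000000000000000000000000) := T_22 (nat_lit 159) (nat_lit 140) (nat_lit 0) (nat_lit 8) (nat_lit 9) L70638 (by decide +kernel)
theorem L70640 : W_22 (nat_lit 9) (nat_lit 0x200024001200080000000000000000000000000000000) (nat_lit 0x0) (nat_lit 0x2000b00058000e001a000900078001c000a0000000000000000000000) := Q_22 (nat_lit 160) (C_22 L70633 (C_22 L70634 (C_22 L70636 (C_22 L70639 N_22)))) (by decide +kernel)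
theorem L70641 : W_22 (nat_lit 2) (nat_lit 0x200034001200080000000000000000000000000000000) (nat_lit 0x0) (nat_lit 0x80004000400000000000000000000000000000000000000000000) := D_22 (nat_lit 194) (nat_lit 178) (nat_lit 211) (nat_lit 5) (nat_lit 8) (nat_lit 7) (nat_lit 6) (nat_lit 7) (nat_lit 12) (by decide +kernel)
theorem L70642 : W_22 (nat_lit 2) (nat_lit 0x600034001200080000000000000000000000000000000) (nat_lit 0x0) (nat_lit 0xa000100000000000000000000000000000000000) := D_22 (nat_lit 159) (nat_lit 140) (nat_lit 157) (nat_lit 0) (nat_lit 8) (nat_lit 9) (nat_lit 3) (nat_lit 4) (nat_lit 9) (by decide +kernel)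
theorem L70643 : W_22 (nat_lit 3) (nat_lit 0x200034001200080000000000000000000000000000000) (nat_lit 0x0) (nat_lit 0x400040000a000100000000000000000000000000000000000) := T_22 (nat_lit 178) (nat_lit 194) (nat_lit 5) (nat_lit 8) (nat_lit 7) L70642 (by decide +kernel)
theorem L70644 : W_22 (nat_lit 2) (nat_lit 0x20003c001200080000000000000000000000000000000) (nat_lit 0x0) (nat_lit 0xc00002000000000000000000000000000000000000000) := D_22 (nat_lit 178) (nat_lit 157) (nat_lit 179) (nat_lit 3) (nat_lit 4) (nat_lit 9) (nat_lit 3) (nat_lit 5) (nat_lit 9) (by decide +kernel)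
theorem L70645 : W_22 (nat_lit 3) (nat_lit 0x200034001200080000000000000000000000000000000) (nat_lit 0x0) (nat_lit 0xc0000a000100000000000000000000000000000000000) := T_22 (nat_lit 159) (nat_lit 140) (nat_lit 0) (nat_lit 8) (nat_lit 9) L70644 (by decide +kernel)
theorem L70646 : W_22 (nat_lit 9) (nat_lit 0x200024001200080000000000000000000000000000000) (nat_lit 0x0) (nat_lit 0x2000b0005800cc001a000100078001c000a0000000000000000000000) := Q_22 (nat_lit 160) (C_22 L70633 (C_22 L70641 (C_22 L70643 (C_22 L70645 N_22)))) (by decide +kernel)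
theorem L70647 : W_22 (nat_lit 2) (nat_lit 0x6000240012000f0000800000000000000000000000000) (nat_lit 0x0) (nat_lit 0x80000000000100001000000000000000000000000000) := D_22 (nat_lit 108) (nat_lit 175) (nat_lit 128) (nat_lit 6) (nat_lit 5) (nat_lit 10) (nat_lit 0) (nat_lit 9) (nat_lit 7) (by decide +kernel)
theorem L70648 : W_22 (nat_lit 3) (nat_lit 0x6000240012000f0000000000000000000000000000000) (nat_lit 0x0) (nat_lit 0x80000000000100001c00000000000000000000000000) := T_22 (nat_lit 107) (nat_lit 106) (nat_lit 0) (nat_lit 8) (nat_lit 7) L70647 (by decide +kernel)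
theorem L70649 : W_22 (nat_lit 4) (nat_lit 0x6000240012000d0000000000000000000000000000000) (nat_lit 0x0) (nat_lit 0x80000000100120001c00000000000000000000000000) := T_22 (nat_lit 125) (nat_lit 140) (nat_lit 1) (nat_lit 8) (nat_lit 7) L70648 (by decide +kernel)
theorem L70650 : W_22 (nat_lit 5) (nat_lit 0x2000240012000d0000000000000000000000000000000) (nat_lit 0x0) (nat_lit 0x480000000100120003c00000000000000000000000000) := T_22 (nat_lit 178) (nat_lit 109) (nat_lit 4) (nat_lit 8) (nat_lit 10) L70649 (by decide +kernel)
theorem L70651 : W_22 (nat_lit 2) (nat_lit 0xe0002e0012001d0001800040000000000000000000000) (nat_lit 0x0) (nat_lit 0x400020001000000000000000000) := D_22 (nat_lit 89) (nat_lit 72) (nat_lit 106) (nat_lit 4) (nat_lit 5) (nat_lit 8) (nat_lit 4) (nat_lit 5) (nat_lit 9) (by decide +kernel)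
theorem L70652 : W_22 (nat_lit 3) (nat_lit 0xe0002e0012001d0001800000000000000000000000000) (nat_lit 0x0) (nat_lit 0x100000000400060001000000000000000000) := T_22 (nat_lit 90) (nat_lit 140) (nat_lit 5) (nat_lit 5) (nat_lit 5) L70651 (by decide +kernel)
theorem L70653 : W_22 (nat_lit 4) (nat_lit 0xe0002c0012001d0001800000000000000000000000000) (nat_lit 0x0) (nat_lit 0x40002000100000000400060001000000000000000000) := T_22 (nat_lit 157) (nat_lit 174) (nat_lit 5) (nat_lit 5) (nat_lit 6) L70652 (by decide +kernel)
theorem L70654 : W_22 (nat_lit 5) (nat_lit 0xe0002c0012000d0001800000000000000000000000000) (nat_lit 0x0) (nat_lit 0x40002000100100008400060001000000000000000000) := T_22 (nat_lit 128) (nat_lit 111) (nat_lit 6) (nat_lit 8) (nat_lit 10) L70653 (by decide +kernel)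
theorem L70655 : W_22 (nat_lit 6) (nat_lit 0xe000240012000d0001800000000000000000000000000) (nat_lit 0x0) (nat_lit 0x4001a000100100008400060001000000000000000000) := T_22 (nat_lit 159) (nat_lit 160) (nat_lit 3) (nat_lit 5) (nat_lit 9) L70654 (by decide +kernel)
theorem L70656 : W_22 (nat_lit 7) (nat_lit 0x6000240012000d0001800000000000000000000000000) (nat_lit 0x0) (nat_lit 0x1000084001a000100100008400060001000000000000000000) := T_22 (nat_lit 179) (nat_lit 196) (nat_lit 7) (nat_lit 8) (nat_lit 7) L70655 (by decide +kernel)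
theorem L70657 : W_22 (nat_lit 8) (nat_lit 0x6000240012000d0000800000000000000000000000000) (nat_lit 0x0) (nat_lit 0x1000084001a0001001000094000e0001000000000000000000) := T_22 (nat_lit 108) (nat_lit 91) (nat_lit 6) (nat_lit 5) (nat_lit 9) L70656 (by decide +kernel)
theorem L70658 : W_22 (nat_lit 9) (nat_lit 0x2000240012000d0000800000000000000000000000000) (nat_lit 0x0) (nat_lit 0x10000c4001a00010010000b4000e0001000000000000000000) := T_22 (nat_lit 178) (nat_lit 109) (nat_lit 4) (nat_lit 8) (nat_lit 10) L70657 (by decide +kernel)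
theorem L70659 : W_22 (nat_lit 2) (nat_lit 0x2000240012000d0000c00000000000000000000000000) (nat_lit 0x0) (nat_lit 0x3000080000000000000000000000) := D_22 (nat_lit 108) (nat_lit 109) (nat_lit 91) (nat_lit 3) (nat_lit 4) (nat_lit 6) (nat_lit 6) (nat_lit 5) (nat_lit 9) (by decide +kernel)
theorem L70660 : W_22 (nat_lit 3) (nat_lit 0x2000240012000d0000800000000000000000000000000) (nat_lit 0x0) (nat_lit 0x34000a0000000000000000000000) := T_22 (nat_lit 106) (nat_lit 89) (nat_lit 4) (nat_lit 5) (nat_lit 9) L70659 (by decide +kernel)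
theorem L70661 : W_22 (nat_lit 2) (nat_lit 0x2800240012000d0001c00000000000000000000000000) (nat_lit 0x0) (nat_lit 0x800040002000000000000000000000000000000000000000) := D_22 (nat_lit 174) (nat_lit 157) (nat_lit 191) (nat_lit 5) (nat_lit 5) (nat_lit 6) (nat_lit 5) (nat_lit 5) (nat_lit 7) (by decide +kernel)
theorem L70662 : W_22 (nat_lit 3) (nat_lit 0x2000240012000d0001c00000000000000000000000000) (nat_lit 0x0) (nat_lit 0x8000c0002000000008000000000000000000000000000000) := T_22 (nat_lit 175) (nat_lit 123) (nat_lit 4) (nat_lit 5) (nat_lit 10) L70661 (by decide +kernel)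
theorem L70663 : W_22 (nat_lit 4) (nat_lit 0x2000240012000d0000c00000000000000000000000000) (nat_lit 0x0) (nat_lit 0x8000c0002000000008001000080000000000000000000000) := T_22 (nat_lit 108) (nat_lit 91) (nat_lit 6) (nat_lit 5) (nat_lit 9) L70662 (by decide +kernel)
theorem L70664 : W_22 (nat_lit 5) (nat_lit 0x2000240012000d0000800000000000000000000000000) (nat_lit 0x0) (nat_lit 0x8000c00020000000080014000a0000000000000000000000) := T_22 (nat_lit 106) (nat_lit 89) (nat_lit 4) (nat_lit 5) (nat_lit 9) L70663 (by decide +kernel)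
theorem L70665 : W_22 (nat_lit 2) (nat_lit 0x2000260012000d0000800040000000000000000000000) (nat_lit 0x0) (nat_lit 0x400020001000000000000000000) := D_22 (nat_lit 89) (nat_lit 72) (nat_lit 106) (nat_lit 4) (nat_lit 5) (nat_lit 8) (nat_lit 4) (nat_lit 5) (nat_lit 9) (by decide +kernel)
theorem L70666 : W_22 (nat_lit 3) (nat_lit 0x2000260012000d0000800000000000000000000000000) (nat_lit 0x0) (nat_lit 0x100000000400060001000000000000000000) := T_22 (nat_lit 90) (nat_lit 140) (nat_lit 5) (nat_lit 5) (nat_lit 5) L70665 (by decide +kernel)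
theorem L70667 : W_22 (nat_lit 4) (nat_lit 0x2000240012000d0000800000000000000000000000000) (nat_lit 0x0) (nat_lit 0x40002000100000000400060001000000000000000000) := T_22 (nat_lit 157) (nat_lit 174) (nat_lit 5) (nat_lit 5) (nat_lit 6) L70666 (by decide +kernel)
theorem L70668 : W_22 (nat_lit 2) (nat_lit 0x6000260012000d0000800040000000000000000000000) (nat_lit 0x0) (nat_lit 0x1000080004000000000000000000) := D_22 (nat_lit 91) (nat_lit 108) (nat_lit 74) (nat_lit 6) (nat_lit 5) (nat_lit 9) (nat_lit 6) (nat_lit 5) (nat_lit 8) (by decide +kernel)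
theorem L70669 : W_22 (nat_lit 3) (nat_lit 0x6000260012000d0000800000000000000000000000000) (nat_lit 0x0) (nat_lit 0x1000000010000c0004000000000000000000) := T_22 (nat_lit 90) (nat_lit 140) (nat_lit 5) (nat_lit 5) (nat_lit 5) L70668 (by decide +kernel)
theorem L70670 : W_22 (nat_lit 4) (nat_lit 0x6000240012000d0000800000000000000000000000000) (nat_lit 0x0) (nat_lit 0x400020001000000010000c0004000000000000000000) := T_22 (nat_lit 157) (nat_lit 174) (nat_lit 5) (nat_lit 5) (nat_lit 6) L70669 (by decide +kernel)
theorem L70671 : W_22 (nat_lit 5) (nat_lit 0x2000240012000d0000800000000000000000000000000) (nat_lit 0x0) (nat_lit 0x4400020001000000030000c0004000000000000000000) := T_22 (nat_lit 178) (nat_lit 109) (nat_lit 4) (nat_lit 8) (nat_lit 10) L70670 (by decide +kernel)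
theorem L70672 : W_22 (nat_lit 10) (nat_lit 0x2000240012000d0000000000000000000000000000000) (nat_lit 0x0) (nat_lit 0x10800cc001a00010010800bc000e0005000000000000000000) := Q_22 (nat_lit 107) (C_22 L70658 (C_22 L70660 (C_22 L70664 (C_22 L70667 (C_22 L70671 N_22))))) (by decide +kernel)
theorem L70673 : W_22 (nat_lit 2) (nat_lit 0x6000240012000f0000800000000000000000000000000) (nat_lit 0x0) (nat_lit 0x80000000000000001000080000000000000000000000) := D_22 (nat_lit 108) (nat_lit 175) (nat_lit 91) (nat_lit 6) (nat_lit 5) (nat_lit 10) (nat_lit 6) (nat_lit 5) (nat_lit 9) (by decide +kernel)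
theorem L70674 : W_22 (nat_lit 3) (nat_lit 0x6000240012000f0000000000000000000000000000000) (nat_lit 0x0) (nat_lit 0x80000000000000001c00080000000000000000000000) := T_22 (nat_lit 107) (nat_lit 106) (nat_lit 0) (nat_lit 8) (nat_lit 7) L70673 (by decide +kernel)
theorem L70675 : W_22 (nat_lit 4) (nat_lit 0x6000240012000d0000000000000000000000000000000) (nat_lit 0x0) (nat_lit 0x80000000100020001c00080000000000000000000000) := T_22 (nat_lit 125) (nat_lit 140) (nat_lit 1) (nat_lit 8) (nat_lit 7) L70674 (by decide +kernel)
theorem L70676 : W_22 (nat_lit 5) (nat_lit 0x2000240012000d0000000000000000000000000000000) (nat_lit 0x0) (nat_lit 0x480000000100020003c00080000000000000000000000) := T_22 (nat_lit 178) (nat_lit 109) (nat_lit 4) (nat_lit 8) (nat_lit 10) L70675 (by decide +kernel)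
theorem L70677 : W_22 (nat_lit 2) (nat_lit 0x2000240012000f0000800000000000000000000000000) (nat_lit 0x0) (nat_lit 0x80000000000100001000000000000000000000000000) := D_22 (nat_lit 108) (nat_lit 175) (nat_lit 128) (nat_lit 6) (nat_lit 5) (nat_lit 10) (nat_lit 0) (nat_lit 9) (nat_lit 7) (by decide +kernel)
theorem L70678 : W_22 (nat_lit 3) (nat_lit 0x2000240012000f0000000000000000000000000000000) (nat_lit 0x0) (nat_lit 0x80000000000100001c00000000000000000000000000) := T_22 (nat_lit 107) (nat_lit 106) (nat_lit 0) (nat_lit 8) (nat_lit 7) L70677 (by decide +kernel)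
theorem L70679 : W_22 (nat_lit 4) (nat_lit 0x2000240012000d0000000000000000000000000000000) (nat_lit 0x0) (nat_lit 0x80000000100120001c00000000000000000000000000) := T_22 (nat_lit 125) (nat_lit 140) (nat_lit 1) (nat_lit 8) (nat_lit 7) L70678 (by decide +kernel)
theorem L70680 : W_22 (nat_lit 2) (nat_lit 0x2000240012000f0000400000000000000000000000000) (nat_lit 0x0) (nat_lit 0x80000000000008000200000000000000000000000000) := D_22 (nat_lit 123) (nat_lit 105) (nat_lit 175) (nat_lit 0) (nat_lit 7) (nat_lit 7) (nat_lit 4) (nat_lit 5) (nat_lit 10) (by decide +kernel)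
theorem L70681 : W_22 (nat_lit 3) (nat_lit 0x2000240012000f0000000000000000000000000000000) (nat_lit 0x0) (nat_lit 0x80000000000008000e00000000000000000000000000) := T_22 (nat_lit 106) (nat_lit 107) (nat_lit 0) (nat_lit 8) (nat_lit 7) L70680 (by decide +kernel)
theorem L70682 : W_22 (nat_lit 4) (nat_lit 0x2000240012000d0000000000000000000000000000000) (nat_lit 0x0) (nat_lit 0x80000000100028000e00000000000000000000000000) := T_22 (nat_lit 125) (nat_lit 140) (nat_lit 1) (nat_lit 8) (nat_lit 7) L70681 (by decide +kernel)
theorem L70683 : W_22 (nat_lit 2) (nat_lit 0x6000240012000f0000800000000000000000000000000) (nat_lit 0x0) (nat_lit 0x100009000000000000000000000000000) := D_22 (nat_lit 128) (nat_lit 111) (nat_lit 108) (nat_lit 6) (nat_lit 8) (nat_lit 10) (nat_lit 0) (nat_lit 9) (nat_lit 7) (by decide +kernel)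
theorem L70684 : W_22 (nat_lit 3) (nat_lit 0x6000240012000f0000000000000000000000000000000) (nat_lit 0x0) (nat_lit 0x100009c00000000000000000000000000) := T_22 (nat_lit 107) (nat_lit 106) (nat_lit 0) (nat_lit 8) (nat_lit 7) L70683 (by decide +kernel)
theorem L70685 : W_22 (nat_lit 4) (nat_lit 0x6000240012000d0000000000000000000000000000000) (nat_lit 0x0) (nat_lit 0x100120009c00000000000000000000000000) := T_22 (nat_lit 125) (nat_lit 140) (nat_lit 1) (nat_lit 8) (nat_lit 7) L70684 (by decide +kernel)
theorem L70686 : W_22 (nat_lit 5) (nat_lit 0x2000240012000d0000000000000000000000000000000) (nat_lit 0x0) (nat_lit 0x40000000010012000bc00000000000000000000000000) := T_22 (nat_lit 178) (nat_lit 109) (nat_lit 4) (nat_lit 8) (nat_lit 10) L70685 (by decide +kernel)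
theorem L70687 : W_22 (nat_lit 2) (nat_lit 0x2000240012001d0000000000000000000000000000000) (nat_lit 0x0) (nat_lit 0x40000000000000000a000000000000000000000000000) := D_22 (nat_lit 178) (nat_lit 109) (nat_lit 111) (nat_lit 4) (nat_lit 8) (nat_lit 10) (nat_lit 6) (nat_lit 8) (nat_lit 10) (by decide +kernel)
theorem L70688 : W_22 (nat_lit 2) (nat_lit 0x2000240012001f0000000000000000000000000000000) (nat_lit 0x0) (nat_lit 0x400000000000000018000000000000000000000000000) := D_22 (nat_lit 111) (nat_lit 178) (nat_lit 112) (nat_lit 6) (nat_lit 8) (nat_lit 10) (nat_lit 2) (nat_lit 6) (nat_lit 7) (by decide +kernel)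
theorem L70689 : W_22 (nat_lit 3) (nat_lit 0x2000240012001d0000000000000000000000000000000) (nat_lit 0x0) (nat_lit 0x400000000100020018000000000000000000000000000) := T_22 (nat_lit 125) (nat_lit 140) (nat_lit 1) (nat_lit 8) (nat_lit 7) L70688 (by decide +kernel)
theorem L70690 : W_22 (nat_lit 2) (nat_lit 0x2000240012001f0002000000000000000000000000000) (nat_lit 0x0) (nat_lit 0x80000000000200001000000000000000000000000000) := D_22 (nat_lit 108) (nat_lit 129) (nat_lit 175) (nat_lit 0) (nat_lit 10) (nat_lit 7) (nat_lit 6) (nat_lit 5) (nat_lit 10) (by decide +kernel)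
theorem L70691 : W_22 (nat_lit 3) (nat_lit 0x2000240012001d0002000000000000000000000000000) (nat_lit 0x0) (nat_lit 0x80000000100220001000000000000000000000000000) := T_22 (nat_lit 125) (nat_lit 140) (nat_lit 1) (nat_lit 8) (nat_lit 7) L70690 (by decide +kernel)
theorem L70692 : W_22 (nat_lit 4) (nat_lit 0x2000240012001d0000000000000000000000000000000) (nat_lit 0x0) (nat_lit 0x480000000100220003000000000000000000000000000) := T_22 (nat_lit 109) (nat_lit 178) (nat_lit 4) (nat_lit 8) (nat_lit 10) L70691 (by decide +kernel)
theorem L70693 : W_22 (nat_lit 4) (nat_lit 0x2000240012001f0000000000000000000000000000000) (nat_lit 0x0) (nat_lit 0x8000000000020003b000000000000000000000000000) := T_22 (nat_lit 112) (nat_lit 111) (nat_lit 2) (nat_lit 6) (nat_lit 7) L69386 (by decide +kernel)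
theorem L70694 : W_22 (nat_lit 5) (nat_lit 0x2000240012001d0000000000000000000000000000000) (nat_lit 0x0) (nat_lit 0x8000000010022003b000000000000000000000000000) := T_22 (nat_lit 125) (nat_lit 140) (nat_lit 1) (nat_lit 8) (nat_lit 7) L70693 (by decide +kernel)
theorem L70695 : W_22 (nat_lit 6) (nat_lit 0x2000240012000d0000000000000000000000000000000) (nat_lit 0x0) (nat_lit 0x48000000010032003b000000000000000000000000000) := Q_22 (nat_lit 128) (C_22 L70687 (C_22 L70689 (C_22 L70692 (C_22 L70694 N_22)))) (by decide +kernel)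
theorem L70696 : W_22 (nat_lit 2) (nat_lit 0x2000240012000d0000800000000000000000000000000) (nat_lit 0x0) (nat_lit 0x20000400020000000000000000000000) := D_22 (nat_lit 106) (nat_lit 125) (nat_lit 89) (nat_lit 0) (nat_lit 8) (nat_lit 7) (nat_lit 4) (nat_lit 5) (nat_lit 9) (by decide +kernel)
theorem L70697 : W_22 (nat_lit 2) (nat_lit 0xe0002e0012001d0000800000000000000000000000000) (nat_lit 0x0) (nat_lit 0x20001000080000000000000000000000) := D_22 (nat_lit 108) (nat_lit 125) (nat_lit 91) (nat_lit 0) (nat_lit 9) (nat_lit 7) (nat_lit 6) (nat_lit 5) (nat_lit 9) (by decide +kernel)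
theorem L70698 : W_22 (nat_lit 3) (nat_lit 0xe0002e0012000d0000800000000000000000000000000) (nat_lit 0x0) (nat_lit 0x120009000080000000000000000000000) := T_22 (nat_lit 128) (nat_lit 111) (nat_lit 6) (nat_lit 8) (nat_lit 10) L70697 (by decide +kernel)
theorem L70699 : W_22 (nat_lit 4) (nat_lit 0x60002e0012000d0000800000000000000000000000000) (nat_lit 0x0) (nat_lit 0x10000800000000000120009000080000000000000000000000) := T_22 (nat_lit 179) (nat_lit 196) (nat_lit 7) (nat_lit 8) (nat_lit 7) L70698 (by decide +kernel)
theorem L70700 : W_22 (nat_lit 5) (nat_lit 0x6000260012000d0000800000000000000000000000000) (nat_lit 0x0) (nat_lit 0x10000800018000000120009000080000000000000000000000) := T_22 (nat_lit 159) (nat_lit 160) (nat_lit 3) (nat_lit 4) (nat_lit 9) L70699 (by decide +kernel)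
theorem L70701 : W_22 (nat_lit 6) (nat_lit 0x6000240012000d0000800000000000000000000000000) (nat_lit 0x0) (nat_lit 0x1000084001a000000120009000080000000000000000000000) := T_22 (nat_lit 157) (nat_lit 174) (nat_lit 5) (nat_lit 5) (nat_lit 6) L70700 (by decide +kernel)
theorem L70702 : W_22 (nat_lit 7) (nat_lit 0x2000240012000d0000800000000000000000000000000) (nat_lit 0x0) (nat_lit 0x10000c4001a00000012000b000080000000000000000000000) := T_22 (nat_lit 178) (nat_lit 109) (nat_lit 4) (nat_lit 8) (nat_lit 10) L70701 (by decide +kernel)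
theorem L70703 : W_22 (nat_lit 8) (nat_lit 0x2000240012000d0000000000000000000000000000000) (nat_lit 0x0) (nat_lit 0x10800cc001a00000012800bc000a0000000000000000000000) := Q_22 (nat_lit 107) (C_22 L70664 (C_22 L70696 (C_22 L70702 N_22))) (by decide +kernel)
theorem L70704 : W_22 (nat_lit 11) (nat_lit 0x2000240012000c0000000000000000000000000000000) (nat_lit 0x0) (nat_lit 0x10800cc001a00010033803be000e0005000000000000000000) := Q_22 (nat_lit 124) (C_22 L70650 (C_22 L70672 (C_22 L70676 (C_22 L70679 (C_22 L70682 (C_22 L70686 (C_22 L70695 (C_22 L70703 N_22)))))))) (by decide +kernel)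
theorem L70705 : W_22 (nat_lit 9) (nat_lit 0x2000240012000c0000000000000000000000000000000) (nat_lit 0x0) (nat_lit 0x700038001800040001a00090010000a000000000000000000000000000) := T_22 (nat_lit 178) (nat_lit 109) (nat_lit 4) (nat_lit 8) (nat_lit 10) L70596 (by decide +kernel)
theorem L70706 : W_22 (nat_lit 10) (nat_lit 0x2000240012000c0000000000000000000000000000000) (nat_lit 0x0) (nat_lit 0x18003c001c000c80070003a000000000000000000000000000) := T_22 (nat_lit 178) (nat_lit 109) (nat_lit 4) (nat_lit 8) (nat_lit 10) L70571 (by decide +kernel)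
theorem L70707 : W_22 (nat_lit 8) (nat_lit 0x2000240012000c0000000000000000000000000000000) (nat_lit 0x0) (nat_lit 0x18003c00018000900038003000000000000000000000000000) := T_22 (nat_lit 178) (nat_lit 109) (nat_lit 4) (nat_lit 8) (nat_lit 10) L70606 (by decide +kernel)
theorem L70708 : W_22 (nat_lit 2) (nat_lit 0x2000240012000d8000c000c0000000000000000000000) (nat_lit 0x0) (nat_lit 0x100000000000000002000100000000000000) := D_22 (nat_lit 73) (nat_lit 140) (nat_lit 56) (nat_lit 5) (nat_lit 5) (nat_lit 4) (nat_lit 5) (nat_lit 5) (nat_lit 3) (by decide +kernel)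
theorem L70709 : W_22 (nat_lit 3) (nat_lit 0x2000240012000d8000c00080000000000000000000000) (nat_lit 0x0) (nat_lit 0x100000000000040006000100000000000000) := T_22 (nat_lit 90) (nat_lit 74) (nat_lit 6) (nat_lit 5) (nat_lit 8) L70708 (by decide +kernel)
theorem L70710 : W_22 (nat_lit 4) (nat_lit 0x2000240012000d0000c00080000000000000000000000) (nat_lit 0x0) (nat_lit 0x80000000100008000000040006000100000000000000) := T_22 (nat_lit 123) (nat_lit 175) (nat_lit 4) (nat_lit 5) (nat_lit 10) L70709 (by decide +kernel)
theorem L70711 : W_22 (nat_lit 5) (nat_lit 0x2000240012000d0000c00000000000000000000000000) (nat_lit 0x0) (nat_lit 0x800000001000080010000c0006000100000000000000) := T_22 (nat_lit 91) (nat_lit 108) (nat_lit 6) (nat_lit 5) (nat_lit 9) L70710 (by decide +kernel)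
theorem L70712 : W_22 (nat_lit 6) (nat_lit 0x2000240012000d0000800000000000000000000000000) (nat_lit 0x0) (nat_lit 0x800000001000080014000e0006000100000000000000) := T_22 (nat_lit 106) (nat_lit 89) (nat_lit 4) (nat_lit 5) (nat_lit 9) L70711 (by decide +kernel)
theorem L70713 : W_22 (nat_lit 2) (nat_lit 0x2000260012000d0000800040000000000000000000000) (nat_lit 0x0) (nat_lit 0x1000080004000000000000000000) := D_22 (nat_lit 91) (nat_lit 108) (nat_lit 74) (nat_lit 6) (nat_lit 5) (nat_lit 9) (nat_lit 6) (nat_lit 5) (nat_lit 8) (by decide +kernel)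
theorem L70714 : W_22 (nat_lit 3) (nat_lit 0x2000260012000d0000800000000000000000000000000) (nat_lit 0x0) (nat_lit 0x1000000010000c0004000000000000000000) := T_22 (nat_lit 90) (nat_lit 140) (nat_lit 5) (nat_lit 5) (nat_lit 5) L70713 (by decide +kernel)
theorem L70715 : W_22 (nat_lit 4) (nat_lit 0x2000240012000d0000800000000000000000000000000) (nat_lit 0x0) (nat_lit 0x400020001000000010000c0004000000000000000000) := T_22 (nat_lit 157) (nat_lit 174) (nat_lit 5) (nat_lit 5) (nat_lit 6) L70714 (by decide +kernel)
theorem L70716 : W_22 (nat_lit 7) (nat_lit 0x2000240012000d0000000000000000000000000000000) (nat_lit 0x0) (nat_lit 0x8000c0002000100008001c000e0007000100000000000000) := Q_22 (nat_lit 107) (C_22 L70667 (C_22 L70712 (C_22 L70664 (C_22 L70715 N_22)))) (by decide +kernel)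
theorem L70717 : W_22 (nat_lit 2) (nat_lit 0x2000240012000f0000800000000000000000000000000) (nat_lit 0x0) (nat_lit 0x100001000080000000000000000000000) := D_22 (nat_lit 108) (nat_lit 128) (nat_lit 91) (nat_lit 0) (nat_lit 9) (nat_lit 7) (nat_lit 6) (nat_lit 5) (nat_lit 9) (by decide +kernel)
theorem L70718 : W_22 (nat_lit 3) (nat_lit 0x2000240012000f0000000000000000000000000000000) (nat_lit 0x0) (nat_lit 0x100001c00080000000000000000000000) := T_22 (nat_lit 107) (nat_lit 106) (nat_lit 0) (nat_lit 8) (nat_lit 7) L70717 (by decide +kernel)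
theorem L70719 : W_22 (nat_lit 4) (nat_lit 0x2000240012000d0000000000000000000000000000000) (nat_lit 0x0) (nat_lit 0x100120001c00080000000000000000000000) := T_22 (nat_lit 125) (nat_lit 140) (nat_lit 1) (nat_lit 8) (nat_lit 7) L70718 (by decide +kernel)
theorem L70720 : W_22 (nat_lit 2) (nat_lit 0x2000240012000f8000000000000000000000000000000) (nat_lit 0x0) (nat_lit 0x80000000000000000600000000000000000000000000) := D_22 (nat_lit 106) (nat_lit 105) (nat_lit 175) (nat_lit 0) (nat_lit 7) (nat_lit 7) (nat_lit 4) (nat_lit 5) (nat_lit 10) (by decide +kernel)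
theorem L70721 : W_22 (nat_lit 3) (nat_lit 0x2000240012000f0000000000000000000000000000000) (nat_lit 0x0) (nat_lit 0x80000000800008000600000000000000000000000000) := T_22 (nat_lit 123) (nat_lit 143) (nat_lit 3) (nat_lit 4) (nat_lit 7) L70720 (by decide +kernel)
theorem L70722 : W_22 (nat_lit 4) (nat_lit 0x2000240012000d0000000000000000000000000000000) (nat_lit 0x0) (nat_lit 0x80000000900028000600000000000000000000000000) := T_22 (nat_lit 125) (nat_lit 140) (nat_lit 1) (nat_lit 8) (nat_lit 7) L70721 (by decide +kernel)
theorem L70723 : W_22 (nat_lit 2) (nat_lit 0x2000240012000d0001800000000000000000000000000) (nat_lit 0x0) (nat_lit 0x80000000000120000000000000000000000000000000) := D_22 (nat_lit 125) (nat_lit 128) (nat_lit 175) (nat_lit 0) (nat_lit 9) (nat_lit 7) (nat_lit 6) (nat_lit 5) (nat_lit 10) (by decide +kernel)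
theorem L70724 : W_22 (nat_lit 3) (nat_lit 0x2000240012000d0000800000000000000000000000000) (nat_lit 0x0) (nat_lit 0x80000000000120001000080000000000000000000000) := T_22 (nat_lit 108) (nat_lit 91) (nat_lit 6) (nat_lit 5) (nat_lit 9) L70723 (by decide +kernel)
theorem L70725 : W_22 (nat_lit 6) (nat_lit 0x2000240012000d0000000000000000000000000000000) (nat_lit 0x0) (nat_lit 0x8000c0002000000128001c000a0000000000000000000000) := Q_22 (nat_lit 107) (C_22 L70696 (C_22 L70664 (C_22 L70724 N_22))) (by decide +kernel)
theorem L70726 : W_22 (nat_lit 2) (nat_lit 0x2000240012000f8001000000000000000000000000000) (nat_lit 0x0) (nat_lit 0x100000800080000000000000000000000) := D_22 (nat_lit 107) (nat_lit 91) (nat_lit 128) (nat_lit 6) (nat_lit 5) (nat_lit 9) (nat_lit 0) (nat_lit 9) (nat_lit 7) (by decide +kernel)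
theorem L70727 : W_22 (nat_lit 3) (nat_lit 0x2000240012000f8000000000000000000000000000000) (nat_lit 0x0) (nat_lit 0x80000000000100001800080000000000000000000000) := T_22 (nat_lit 108) (nat_lit 175) (nat_lit 6) (nat_lit 5) (nat_lit 10) L70726 (by decide +kernel)
theorem L70728 : W_22 (nat_lit 4) (nat_lit 0x2000240012000f0000000000000000000000000000000) (nat_lit 0x0) (nat_lit 0x80000000800108001800080000000000000000000000) := T_22 (nat_lit 123) (nat_lit 143) (nat_lit 3) (nat_lit 4) (nat_lit 7) L70727 (by decide +kernel)
theorem L70729 : W_22 (nat_lit 5) (nat_lit 0x2000240012000d0000000000000000000000000000000) (nat_lit 0x0) (nat_lit 0x80000000900128001800080000000000000000000000) := T_22 (nat_lit 125) (nat_lit 140) (nat_lit 1) (nat_lit 8) (nat_lit 7) L70728 (by decide +kernel)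
theorem L70730 : W_22 (nat_lit 8) (nat_lit 0x2000240012000c0000000000000000000000000000000) (nat_lit 0x0) (nat_lit 0x8000c0002000900138001e000e0007000100000000000000) := Q_22 (nat_lit 124) (C_22 L70682 (C_22 L70716 (C_22 L70719 (C_22 L70722 (C_22 L70725 (C_22 L70729 N_22)))))) (by decide +kernel)
theorem L70731 : W_22 (nat_lit 12) (nat_lit 0x200024001200080000000000000000000000000000000) (nat_lit 0x0) (nat_lit 0x7000380018803cc01da00c90077803be000e0007000100000000000000) := Q_22 (nat_lit 126) (C_22 L70704 (C_22 L70705 (C_22 L70706 (C_22 L70707 (C_22 L70730 N_22))))) (by decide +kernel)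
theorem L70732 : W_22 (nat_lit 13) (nat_lit 0x200004001200080000000000000000000000000000000) (nat_lit 0x0) (nat_lit 0x72003b001d803ce01fa00c90077803be000e0007000100000000000000) := Q_22 (nat_lit 161) (C_22 L70600 (C_22 L70608 (C_22 L70610 (C_22 L70640 (C_22 L70646 (C_22 L70731 N_22)))))) (by decide +kernel)
theorem L70733 : W_22 (nat_lit 2) (nat_lit 0x100006000240012000c0000000000000000000000000000000) (nat_lit 0x0) (nat_lit 0x200008000000000000800000000000000000000000000000000000) := D_22 (nat_lit 195) (nat_lit 143) (nat_lit 213) (nat_lit 4) (nat_lit 8) (nat_lit 11) (nat_lit 7) (nat_lit 8) (nat_lit 8) (by decide +kernel)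
theorem L70734 : W_22 (nat_lit 3) (nat_lit 0x6000240012000c0000000000000000000000000000000) (nat_lit 0x0) (nat_lit 0x200018000800000000800000000000000000000000000000000000) := T_22 (nat_lit 196) (nat_lit 179) (nat_lit 7) (nat_lit 8) (nat_lit 7) L70733 (by decide +kernel)
theorem L70735 : W_22 (nat_lit 4) (nat_lit 0x600024001200080000000000000000000000000000000) (nat_lit 0x0) (nat_lit 0x200018000800000000800040002000000000000000000000000000) := T_22 (nat_lit 126) (nat_lit 109) (nat_lit 4) (nat_lit 8) (nat_lit 10) L70734 (by decide +kernel)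
theorem L70736 : W_22 (nat_lit 5) (nat_lit 0x600004001200080000000000000000000000000000000) (nat_lit 0x0) (nat_lit 0x20001c000800020000800040002000000000000000000000000000) := T_22 (nat_lit 161) (nat_lit 194) (nat_lit 5) (nat_lit 8) (nat_lit 7) L70735 (by decide +kernel)
theorem L70737 : W_22 (nat_lit 8) (nat_lit 0x680004001200080000000000000000000000000000000) (nat_lit 0x0) (nat_lit 0x10005800040022000100138009c000a0000000000000000000000) := T_22 (nat_lit 161) (nat_lit 194) (nat_lit 5) (nat_lit 8) (nat_lit 7) L70366 (by decide +kernel)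
theorem L70738 : W_22 (nat_lit 2) (nat_lit 0x680024001200080000000000000000000000000000000) (nat_lit 0x0) (nat_lit 0x100042000000000000000000000000000000000000000) := D_22 (nat_lit 176) (nat_lit 162) (nat_lit 157) (nat_lit 2) (nat_lit 5) (nat_lit 10) (nat_lit 0) (nat_lit 8) (nat_lit 10) (by decide +kernel)
theorem L70739 : W_22 (nat_lit 3) (nat_lit 0x680004001200080000000000000000000000000000000) (nat_lit 0x0) (nat_lit 0x4000100062000000000000000000000000000000000000000) := T_22 (nat_lit 161) (nat_lit 194) (nat_lit 5) (nat_lit 8) (nat_lit 7) L70738 (by decide +kernel)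
theorem L70740 : W_22 (nat_lit 4) (nat_lit 0x680004001200080000000000000000000000000000000) (nat_lit 0x0) (nat_lit 0x1c00140002000000010000000000000000000000000000000) := T_22 (nat_lit 176) (nat_lit 157) (nat_lit 0) (nat_lit 8) (nat_lit 10) L70583 (by decide +kernel)
theorem L70741 : W_22 (nat_lit 2) (nat_lit 0x780024001200080000000000000000000000000000000) (nat_lit 0x0) (nat_lit 0x18000800000000000000000000000000000000000000000000) := D_22 (nat_lit 196) (nat_lit 179) (nat_lit 195) (nat_lit 7) (nat_lit 8) (nat_lit 7) (nat_lit 3) (nat_lit 5) (nat_lit 10) (by decide +kernel)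
theorem L70742 : W_22 (nat_lit 3) (nat_lit 0x680024001200080000000000000000000000000000000) (nat_lit 0x0) (nat_lit 0x18000900040000000000000000000000000000000000000000) := T_22 (nat_lit 176) (nat_lit 162) (nat_lit 2) (nat_lit 5) (nat_lit 10) L70741 (by decide +kernel)
theorem L70743 : W_22 (nat_lit 4) (nat_lit 0x680004001200080000000000000000000000000000000) (nat_lit 0x0) (nat_lit 0x1c000900060000000000000000000000000000000000000000) := T_22 (nat_lit 161) (nat_lit 194) (nat_lit 5) (nat_lit 8) (nat_lit 7) L70742 (by decide +kernel)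
theorem L70744 : W_22 (nat_lit 9) (nat_lit 0x600004001200080000000000000000000000000000000) (nat_lit 0x0) (nat_lit 0x1001dc009c0062000100138009c000a0000000000000000000000) := Q_22 (nat_lit 175) (C_22 L70737 (C_22 L70739 (C_22 L70740 (C_22 L70743 N_22)))) (by decide +kernel)
theorem L70745 : W_22 (nat_lit 2) (nat_lit 0x80007c00240012001c0000000000000000000000000000000) (nat_lit 0x0) (nat_lit 0x1c00000000000000000000000000000000000000000000000) := D_22 (nat_lit 191) (nat_lit 190) (nat_lit 192) (nat_lit 1) (nat_lit 7) (nat_lit 10) (nat_lit 1) (nat_lit 8) (nat_lit 10) (by decide +kernel)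
theorem L70746 : W_22 (nat_lit 3) (nat_lit 0x80007800240012001c0000000000000000000000000000000) (nat_lit 0x0) (nat_lit 0x1c00040010000000000000000000000000000000000000000) := T_22 (nat_lit 174) (nat_lit 160) (nat_lit 2) (nat_lit 4) (nat_lit 10) L70745 (by decide +kernel)
theorem L70747 : W_22 (nat_lit 4) (nat_lit 0x80006800240012001c0000000000000000000000000000000) (nat_lit 0x0) (nat_lit 0x1c00140050000000000000000000000000000000000000000) := T_22 (nat_lit 176) (nat_lit 162) (nat_lit 2) (nat_lit 5) (nat_lit 10) L70746 (by decide +kernel)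
theorem L70748 : W_22 (nat_lit 5) (nat_lit 0x6800240012001c0000000000000000000000000000000) (nat_lit 0x0) (nat_lit 0x9c00140050000800000000000000000000000000000000000) := T_22 (nat_lit 195) (nat_lit 143) (nat_lit 4) (nat_lit 8) (nat_lit 11) L70747 (by decide +kernel)
theorem L70749 : W_22 (nat_lit 6) (nat_lit 0x6800240012000c0000000000000000000000000000000) (nat_lit 0x0) (nat_lit 0x9c00140050000800100008000000000000000000000000000) := T_22 (nat_lit 128) (nat_lit 111) (nat_lit 6) (nat_lit 8) (nat_lit 10) L70748 (by decide +kernel)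
theorem L70750 : W_22 (nat_lit 7) (nat_lit 0x680024001200080000000000000000000000000000000) (nat_lit 0x0) (nat_lit 0x9c0014005000080014000a000000000000000000000000000) := T_22 (nat_lit 126) (nat_lit 109) (nat_lit 4) (nat_lit 8) (nat_lit 10) L70749 (by decide +kernel)
theorem L70751 : W_22 (nat_lit 8) (nat_lit 0x680004001200080000000000000000000000000000000) (nat_lit 0x0) (nat_lit 0xdc0014007000080014000a000000000000000000000000000) := T_22 (nat_lit 161) (nat_lit 194) (nat_lit 5) (nat_lit 8) (nat_lit 7) L70750 (by decide +kernel)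
theorem L70752 : W_22 (nat_lit 9) (nat_lit 0x600004001200080000000000000000000000000000000) (nat_lit 0x0) (nat_lit 0x1000dc001c007200090017800bc000a0000000000000000000000) := Q_22 (nat_lit 175) (C_22 L70737 (C_22 L70740 (C_22 L70739 (C_22 L70751 N_22)))) (by decide +kernel)
theorem L70753 : W_22 (nat_lit 2) (nat_lit 0xfc00240012001c0000000000000000000000000000000) (nat_lit 0x0) (nat_lit 0x1c00000000000000000000000000000000000000000000000) := D_22 (nat_lit 191) (nat_lit 190) (nat_lit 192) (nat_lit 1) (nat_lit 7) (nat_lit 10) (nat_lit 1) (nat_lit 8) (nat_lit 10) (by decide +kernel)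
theorem L70754 : W_22 (nat_lit 3) (nat_lit 0xf800240012001c0000000000000000000000000000000) (nat_lit 0x0) (nat_lit 0x1c00040010000000000000000000000000000000000000000) := T_22 (nat_lit 174) (nat_lit 160) (nat_lit 2) (nat_lit 4) (nat_lit 10) L70753 (by decide +kernel)
theorem L70755 : W_22 (nat_lit 4) (nat_lit 0xe800240012001c0000000000000000000000000000000) (nat_lit 0x0) (nat_lit 0x1c00140050000000000000000000000000000000000000000) := T_22 (nat_lit 176) (nat_lit 162) (nat_lit 2) (nat_lit 5) (nat_lit 10) L70754 (by decide +kernel)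
theorem L70756 : W_22 (nat_lit 5) (nat_lit 0xe800240012000c0000000000000000000000000000000) (nat_lit 0x0) (nat_lit 0x1c00140050000000100008000000000000000000000000000) := T_22 (nat_lit 128) (nat_lit 111) (nat_lit 6) (nat_lit 8) (nat_lit 10) L70755 (by decide +kernel)
theorem L70757 : W_22 (nat_lit 6) (nat_lit 0x6800240012000c0000000000000000000000000000000) (nat_lit 0x0) (nat_lit 0x11c00940050000000100008000000000000000000000000000) := T_22 (nat_lit 179) (nat_lit 196) (nat_lit 7) (nat_lit 8) (nat_lit 7) L70756 (by decide +kernel)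
theorem L70758 : W_22 (nat_lit 7) (nat_lit 0x680024001200080000000000000000000000000000000) (nat_lit 0x0) (nat_lit 0x11c0094005000000014000a000000000000000000000000000) := T_22 (nat_lit 126) (nat_lit 109) (nat_lit 4) (nat_lit 8) (nat_lit 10) L70757 (by decide +kernel)
theorem L70759 : W_22 (nat_lit 8) (nat_lit 0x680004001200080000000000000000000000000000000) (nat_lit 0x0) (nat_lit 0x15c0094007000000014000a000000000000000000000000000) := T_22 (nat_lit 161) (nat_lit 194) (nat_lit 5) (nat_lit 8) (nat_lit 7) L70758 (by decide +kernel)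
theorem L70760 : W_22 (nat_lit 9) (nat_lit 0x600004001200080000000000000000000000000000000) (nat_lit 0x0) (nat_lit 0x10015c009c007200010017800bc000a0000000000000000000000) := Q_22 (nat_lit 175) (C_22 L70737 (C_22 L70740 (C_22 L70739 (C_22 L70759 N_22)))) (by decide +kernel)
theorem L70761 : W_22 (nat_lit 2) (nat_lit 0x6800040012000b8000000000000000000000000000000) (nat_lit 0x0) (nat_lit 0x900040000000000000000000000000000000) := D_22 (nat_lit 126) (nat_lit 143) (nat_lit 140) (nat_lit 3) (nat_lit 4) (nat_lit 7) (nat_lit 1) (nat_lit 8) (nat_lit 7) (by decide +kernel)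
theorem L70762 : W_22 (nat_lit 3) (nat_lit 0x680004001200098000000000000000000000000000000) (nat_lit 0x0) (nat_lit 0x900060001000000000000000000000000000) := T_22 (nat_lit 125) (nat_lit 108) (nat_lit 6) (nat_lit 5) (nat_lit 10) L70761 (by decide +kernel)
theorem L70763 : W_22 (nat_lit 4) (nat_lit 0x680004001200090000000000000000000000000000000) (nat_lit 0x0) (nat_lit 0x900068001400000000000000000000000000) := T_22 (nat_lit 123) (nat_lit 106) (nat_lit 4) (nat_lit 5) (nat_lit 10) L70762 (by decide +kernel)
theorem L70764 : W_22 (nat_lit 2) (nat_lit 0x6c0004001300098000800080000000000000000000000) (nat_lit 0x0) (nat_lit 0x40006000000000000000000) := D_22 (nat_lit 90) (nat_lit 73) (nat_lit 74) (nat_lit 5) (nat_lit 5) (nat_lit 4) (nat_lit 6) (nat_lit 5) (nat_lit 8) (by decide +kernel)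
theorem L70765 : W_22 (nat_lit 3) (nat_lit 0x6c0004001300098000800000000000000000000000000) (nat_lit 0x0) (nat_lit 0x10000c0006000000000000000000) := T_22 (nat_lit 91) (nat_lit 108) (nat_lit 6) (nat_lit 5) (nat_lit 9) L70764 (by decide +kernel)
theorem L70766 : W_22 (nat_lit 4) (nat_lit 0x6c0004001200098000800000000000000000000000000) (nat_lit 0x0) (nat_lit 0x10000000000001000000010000c0006000000000000000000) := T_22 (nat_lit 140) (nat_lit 192) (nat_lit 4) (nat_lit 5) (nat_lit 11) L70765 (by decide +kernel)
theorem L70767 : W_22 (nat_lit 5) (nat_lit 0x6c0004001200098000000000000000000000000000000) (nat_lit 0x0) (nat_lit 0x10000000020001000000018000c0006000000000000000000) := T_22 (nat_lit 107) (nat_lit 157) (nat_lit 5) (nat_lit 5) (nat_lit 6) L70766 (by decide +kernel)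
theorem L70768 : W_22 (nat_lit 6) (nat_lit 0x680004001200098000000000000000000000000000000) (nat_lit 0x0) (nat_lit 0x18000400020001000000018000c0006000000000000000000) := T_22 (nat_lit 174) (nat_lit 191) (nat_lit 5) (nat_lit 5) (nat_lit 7) L70767 (by decide +kernel)
theorem L70769 : W_22 (nat_lit 7) (nat_lit 0x680004001200090000000000000000000000000000000) (nat_lit 0x0) (nat_lit 0x1800040002000100008001c000c0006000000000000000000) := T_22 (nat_lit 123) (nat_lit 106) (nat_lit 4) (nat_lit 5) (nat_lit 10) L70768 (by decide +kernel)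
theorem L70770 : W_22 (nat_lit 2) (nat_lit 0x2006f00068013000dd000000000000000000000000000000) (nat_lit 0x0) (nat_lit 0x10000c0000000000000000000000000000000000) := D_22 (nat_lit 139) (nat_lit 156) (nat_lit 138) (nat_lit 5) (nat_lit 3) (nat_lit 7) (nat_lit 6) (nat_lit 2) (nat_lit 11) (by decide +kernel)
theorem L70771 : W_22 (nat_lit 3) (nat_lit 0x2006f00060013000dd000000000000000000000000000000) (nat_lit 0x0) (nat_lit 0x1c000c0000000000000000000000000000000000) := T_22 (nat_lit 155) (nat_lit 154) (nat_lit 0) (nat_lit 5) (nat_lit 10) L70770 (by decide +kernel)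
theorem L70772 : W_22 (nat_lit 4) (nat_lit 0x6f00060013000dd000000000000000000000000000000) (nat_lit 0x0) (nat_lit 0x300000001c000c0000000000000000000000000000000000) := T_22 (nat_lit 189) (nat_lit 188) (nat_lit 1) (nat_lit 5) (nat_lit 10) L70771 (by decide +kernel)
theorem L70773 : W_22 (nat_lit 5) (nat_lit 0x6e00060013000dd000000000000000000000000000000) (nat_lit 0x0) (nat_lit 0x300018001c000c0000000000000000000000000000000000) := T_22 (nat_lit 172) (nat_lit 171) (nat_lit 2) (nat_lit 1) (nat_lit 10) L70772 (by decide +kernel)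
theorem L70774 : W_22 (nat_lit 6) (nat_lit 0x6c00060013000dd000000000000000000000000000000) (nat_lit 0x0) (nat_lit 0x700038001c000c0000000000000000000000000000000000) := T_22 (nat_lit 173) (nat_lit 190) (nat_lit 5) (nat_lit 4) (nat_lit 7) L70773 (by decide +kernel)
theorem L70775 : W_22 (nat_lit 7) (nat_lit 0x6c000600130009d000000000000000000000000000000) (nat_lit 0x0) (nat_lit 0x700038001c000c0060000000000000000000000000000000) := T_22 (nat_lit 126) (nat_lit 125) (nat_lit 1) (nat_lit 8) (nat_lit 7) L70774 (by decide +kernel)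
theorem L70776 : W_22 (nat_lit 8) (nat_lit 0x6c000600130009c000000000000000000000000000000) (nat_lit 0x0) (nat_lit 0x700038001c000c0063000000000000000000000000000000) := T_22 (nat_lit 120) (nat_lit 121) (nat_lit 3) (nat_lit 1) (nat_lit 7) L70775 (by decide +kernel)
theorem L70777 : W_22 (nat_lit 9) (nat_lit 0x6c0006001300098000000000000000000000000000000) (nat_lit 0x0) (nat_lit 0x700038001c000c0067000200000000000000000000000000) := T_22 (nat_lit 122) (nat_lit 105) (nat_lit 4) (nat_lit 4) (nat_lit 10) L70776 (by decide +kernel)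
theorem L70778 : W_22 (nat_lit 10) (nat_lit 0x6c0006001200098000000000000000000000000000000) (nat_lit 0x0) (nat_lit 0x1700038001c001c0067000200000000000000000000000000) := T_22 (nat_lit 140) (nat_lit 192) (nat_lit 7) (nat_lit 4) (nat_lit 7) L70777 (by decide +kernel)
theorem L70779 : W_22 (nat_lit 11) (nat_lit 0x6c0004001200098000000000000000000000000000000) (nat_lit 0x0) (nat_lit 0x1700038003c001c0067000a00000000000000000000000000) := T_22 (nat_lit 157) (nat_lit 107) (nat_lit 5) (nat_lit 5) (nat_lit 6) L70778 (by decide +kernel)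
theorem L70780 : W_22 (nat_lit 12) (nat_lit 0x680004001200098000000000000000000000000000000) (nat_lit 0x0) (nat_lit 0x1f00078003c001c0067000a00000000000000000000000000) := T_22 (nat_lit 174) (nat_lit 191) (nat_lit 5) (nat_lit 5) (nat_lit 7) L70779 (by decide +kernel)
theorem L70781 : W_22 (nat_lit 13) (nat_lit 0x680004001200090000000000000000000000000000000) (nat_lit 0x0) (nat_lit 0x1f00078003c001c006f000e00000000000000000000000000) := T_22 (nat_lit 123) (nat_lit 106) (nat_lit 4) (nat_lit 5) (nat_lit 10) L70780 (by decide +kernel)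
theorem L70782 : W_22 (nat_lit 2) (nat_lit 0x6c0004001200098001000000000000000000000000000) (nat_lit 0x0) (nat_lit 0x2000000000000800080000000000000000000000) := D_22 (nat_lit 107) (nat_lit 157) (nat_lit 91) (nat_lit 5) (nat_lit 5) (nat_lit 6) (nat_lit 6) (nat_lit 5) (nat_lit 9) (by decide +kernel)
theorem L70783 : W_22 (nat_lit 3) (nat_lit 0x680004001200098001000000000000000000000000000) (nat_lit 0x0) (nat_lit 0x800040002000000000000800080000000000000000000000) := T_22 (nat_lit 174) (nat_lit 191) (nat_lit 5) (nat_lit 5) (nat_lit 7) L70782 (by decide +kernel)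
theorem L70784 : W_22 (nat_lit 4) (nat_lit 0x680004001200098000000000000000000000000000000) (nat_lit 0x0) (nat_lit 0x800040002000000020001800080000000000000000000000) := T_22 (nat_lit 108) (nat_lit 125) (nat_lit 6) (nat_lit 5) (nat_lit 10) L70783 (by decide +kernel)
theorem L70785 : W_22 (nat_lit 5) (nat_lit 0x680004001200090000000000000000000000000000000) (nat_lit 0x0) (nat_lit 0x800040002000000028001c00080000000000000000000000) := T_22 (nat_lit 123) (nat_lit 106) (nat_lit 4) (nat_lit 5) (nat_lit 10) L70784 (by decide +kernel)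
theorem L70786 : W_22 (nat_lit 2) (nat_lit 0x6c0004001200090000800000000000000000000000000) (nat_lit 0x0) (nat_lit 0x20001000080000000000000000000000) := D_22 (nat_lit 108) (nat_lit 125) (nat_lit 91) (nat_lit 6) (nat_lit 5) (nat_lit 10) (nat_lit 6) (nat_lit 5) (nat_lit 9) (by decide +kernel)
theorem L70787 : W_22 (nat_lit 3) (nat_lit 0x6c0004001200090000000000000000000000000000000) (nat_lit 0x0) (nat_lit 0x2000000020001800080000000000000000000000) := T_22 (nat_lit 107) (nat_lit 157) (nat_lit 5) (nat_lit 5) (nat_lit 6) L70786 (by decide +kernel)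
theorem L70788 : W_22 (nat_lit 4) (nat_lit 0x680004001200090000000000000000000000000000000) (nat_lit 0x0) (nat_lit 0x800040002000000020001800080000000000000000000000) := T_22 (nat_lit 174) (nat_lit 191) (nat_lit 5) (nat_lit 5) (nat_lit 7) L70787 (by decide +kernel)
theorem L70789 : W_22 (nat_lit 14) (nat_lit 0x680004001200080000000000000000000000000000000) (nat_lit 0x0) (nat_lit 0x1f00078003c009c007f001e000c0006000000000000000000) := Q_22 (nat_lit 124) (C_22 L70763 (C_22 L70769 (C_22 L70781 (C_22 L70785 (C_22 L70788 N_22))))) (by decide +kernel)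
theorem L70790 : W_22 (nat_lit 2) (nat_lit 0x8800780004001200080000000000000000000000000000000) (nat_lit 0x0) (nat_lit 0x4400040000000000000000000000000000000000000000000) := D_22 (nat_lit 174) (nat_lit 194) (nat_lit 190) (nat_lit 3) (nat_lit 4) (nat_lit 10) (nat_lit 1) (nat_lit 7) (nat_lit 10) (by decide +kernel)
theorem L70791 : W_22 (nat_lit 3) (nat_lit 0x800780004001200080000000000000000000000000000000) (nat_lit 0x0) (nat_lit 0x1c400040000000000000000000000000000000000000000000) := T_22 (nat_lit 195) (nat_lit 196) (nat_lit 3) (nat_lit 5) (nat_lit 10) L70790 (by decide +kernel)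
theorem L70792 : W_22 (nat_lit 4) (nat_lit 0x780004001200080000000000000000000000000000000) (nat_lit 0x0) (nat_lit 0x1dc00040000000000000000000000000000000000000000000) := T_22 (nat_lit 191) (nat_lit 192) (nat_lit 1) (nat_lit 8) (nat_lit 10) L70791 (by decide +kernel)
theorem L70793 : W_22 (nat_lit 5) (nat_lit 0x680004001200080000000000000000000000000000000) (nat_lit 0x0) (nat_lit 0x1dc00140002000000000000000000000000000000000000000) := T_22 (nat_lit 176) (nat_lit 157) (nat_lit 0) (nat_lit 8) (nat_lit 10) L70792 (by decide +kernel)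
theorem L70794 : W_22 (nat_lit 2) (nat_lit 0x800680004001200098000000000000000000000000000000) (nat_lit 0x0) (nat_lit 0x1000100000000100000000000000000000000000000000000) := D_22 (nat_lit 192) (nat_lit 140) (nat_lit 176) (nat_lit 4) (nat_lit 5) (nat_lit 11) (nat_lit 1) (nat_lit 8) (nat_lit 10) (by decide +kernel)
theorem L70795 : W_22 (nat_lit 3) (nat_lit 0x680004001200098000000000000000000000000000000) (nat_lit 0x0) (nat_lit 0x1800140000000100000000000000000000000000000000000) := T_22 (nat_lit 191) (nat_lit 174) (nat_lit 5) (nat_lit 5) (nat_lit 7) L70794 (by decide +kernel)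
theorem L70796 : W_22 (nat_lit 4) (nat_lit 0x680004001200090000000000000000000000000000000) (nat_lit 0x0) (nat_lit 0x1800140000000100008000400000000000000000000000000) := T_22 (nat_lit 123) (nat_lit 106) (nat_lit 4) (nat_lit 5) (nat_lit 10) L70795 (by decide +kernel)
theorem L70797 : W_22 (nat_lit 2) (nat_lit 0x8006800040012000f8000000000000000000000000000000) (nat_lit 0x0) (nat_lit 0x10001000100000000000000000000000000000000000000000000) := D_22 (nat_lit 192) (nat_lit 176) (nat_lit 208) (nat_lit 1) (nat_lit 8) (nat_lit 10) (nat_lit 5) (nat_lit 5) (nat_lit 8) (by decide +kernel)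
theorem L70798 : W_22 (nat_lit 3) (nat_lit 0x6800040012000f8000000000000000000000000000000) (nat_lit 0x0) (nat_lit 0x10001800140000000000000000000000000000000000000000000) := T_22 (nat_lit 191) (nat_lit 174) (nat_lit 5) (nat_lit 5) (nat_lit 7) L70797 (by decide +kernel)
theorem L70799 : W_22 (nat_lit 4) (nat_lit 0x6800040012000b8000000000000000000000000000000) (nat_lit 0x0) (nat_lit 0x10001800140000000800040000000000000000000000000000000) := T_22 (nat_lit 126) (nat_lit 143) (nat_lit 3) (nat_lit 4) (nat_lit 7) L70798 (by decide +kernel)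
theorem L70800 : W_22 (nat_lit 5) (nat_lit 0x680004001200098000000000000000000000000000000) (nat_lit 0x0) (nat_lit 0x10001800140000000800060001000000000000000000000000000) := T_22 (nat_lit 125) (nat_lit 108) (nat_lit 6) (nat_lit 5) (nat_lit 10) L70799 (by decide +kernel)
theorem L70801 : W_22 (nat_lit 6) (nat_lit 0x680004001200090000000000000000000000000000000) (nat_lit 0x0) (nat_lit 0x10001800140000000800068001400000000000000000000000000) := T_22 (nat_lit 123) (nat_lit 106) (nat_lit 4) (nat_lit 5) (nat_lit 10) L70800 (by decide +kernel)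
theorem L70802 : W_22 (nat_lit 2) (nat_lit 0x800680004001200090000000000000000000000000000000) (nat_lit 0x0) (nat_lit 0x10001000100000000000000000000000000000000000000000000) := D_22 (nat_lit 192) (nat_lit 176) (nat_lit 208) (nat_lit 1) (nat_lit 8) (nat_lit 10) (nat_lit 5) (nat_lit 5) (nat_lit 8) (by decide +kernel)
theorem L70803 : W_22 (nat_lit 3) (nat_lit 0x680004001200090000000000000000000000000000000) (nat_lit 0x0) (nat_lit 0x10001800140000000000000000000000000000000000000000000) := T_22 (nat_lit 191) (nat_lit 174) (nat_lit 5) (nat_lit 5) (nat_lit 7) L70802 (by decide +kernel)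
theorem L70804 : W_22 (nat_lit 7) (nat_lit 0x680004001200080000000000000000000000000000000) (nat_lit 0x0) (nat_lit 0x10001800140000000900078001400000000000000000000000000) := Q_22 (nat_lit 124) (C_22 L70763 (C_22 L70796 (C_22 L70801 (C_22 L70803 N_22)))) (by decide +kernel)
theorem L70805 : W_22 (nat_lit 2) (nat_lit 0x1000680004001200080000000000000000000000000000000) (nat_lit 0x0) (nat_lit 0x800100002000000000000000000000000000000000000000) := D_22 (nat_lit 176) (nat_lit 157) (nat_lit 191) (nat_lit 0) (nat_lit 8) (nat_lit 10) (nat_lit 1) (nat_lit 8) (nat_lit 10) (by decide +kernel)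
theorem L70806 : W_22 (nat_lit 2) (nat_lit 0x10001000680004001300080000000000000000000000000000000) (nat_lit 0x0) (nat_lit 0x200020000000000002000000000000000000000000000000000000000) := D_22 (nat_lit 209) (nat_lit 225) (nat_lit 157) (nat_lit 5) (nat_lit 5) (nat_lit 9) (nat_lit 4) (nat_lit 5) (nat_lit 12) (by decide +kernel)
theorem L70807 : W_22 (nat_lit 3) (nat_lit 0x10001000680004001200080000000000000000000000000000000) (nat_lit 0x0) (nat_lit 0x200020000000000002000100008000000000000000000000000000000) := T_22 (nat_lit 140) (nat_lit 123) (nat_lit 4) (nat_lit 5) (nat_lit 11) L70806 (by decide +kernel)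
theorem L70808 : W_22 (nat_lit 4) (nat_lit 0x1000680004001200080000000000000000000000000000000) (nat_lit 0x0) (nat_lit 0x200030000800000002000100008000000000000000000000000000000) := T_22 (nat_lit 208) (nat_lit 191) (nat_lit 5) (nat_lit 5) (nat_lit 8) L70807 (by decide +kernel)
theorem L70809 : W_22 (nat_lit 2) (nat_lit 0x1000680004001200080000000000000000000000000000000) (nat_lit 0x0) (nat_lit 0x10000800100000000000000000000000000000000000000000000) := D_22 (nat_lit 191) (nat_lit 208) (nat_lit 176) (nat_lit 5) (nat_lit 5) (nat_lit 8) (nat_lit 1) (nat_lit 8) (nat_lit 10) (by decide +kernel)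
theorem L70810 : W_22 (nat_lit 2) (nat_lit 0x1000680006001200080000000000000000000000000000000) (nat_lit 0x0) (nat_lit 0x20000000000000000100008000000000000000000000000000000) := D_22 (nat_lit 140) (nat_lit 123) (nat_lit 209) (nat_lit 4) (nat_lit 5) (nat_lit 11) (nat_lit 4) (nat_lit 5) (nat_lit 12) (by decide +kernel)
theorem L70811 : W_22 (nat_lit 3) (nat_lit 0x1000680004001200080000000000000000000000000000000) (nat_lit 0x0) (nat_lit 0x20000000100002000100008000000000000000000000000000000) := T_22 (nat_lit 157) (nat_lit 176) (nat_lit 0) (nat_lit 8) (nat_lit 10) L70810 (by decide +kernel)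
theorem L70812 : W_22 (nat_lit 5) (nat_lit 0x680004001200080000000000000000000000000000000) (nat_lit 0x0) (nat_lit 0x200030001800100002000100008000000000000000000000000000000) := Q_22 (nat_lit 192) (C_22 L70805 (C_22 L70808 (C_22 L70809 (C_22 L70811 N_22)))) (by decide +kernel)
theorem L70813 : W_22 (nat_lit 2) (nat_lit 0x680006001200098000800000000000000000000000000) (nat_lit 0x0) (nat_lit 0x1000000000000100000000000040000000000000000000000) := D_22 (nat_lit 140) (nat_lit 90) (nat_lit 192) (nat_lit 5) (nat_lit 5) (nat_lit 5) (nat_lit 4) (nat_lit 5) (nat_lit 11) (by decide +kernel)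
theorem L70814 : W_22 (nat_lit 3) (nat_lit 0x680006001200098000000000000000000000000000000) (nat_lit 0x0) (nat_lit 0x1000040000000100000000800040000000000000000000000) := T_22 (nat_lit 107) (nat_lit 174) (nat_lit 5) (nat_lit 5) (nat_lit 6) L70813 (by decide +kernel)
theorem L70815 : W_22 (nat_lit 4) (nat_lit 0x680006001200090000000000000000000000000000000) (nat_lit 0x0) (nat_lit 0x1000040000000100008000c00040000000000000000000000) := T_22 (nat_lit 123) (nat_lit 106) (nat_lit 4) (nat_lit 5) (nat_lit 10) L70814 (by decide +kernel)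
theorem L70816 : W_22 (nat_lit 5) (nat_lit 0x680004001200090000000000000000000000000000000) (nat_lit 0x0) (nat_lit 0x1000140002000100008000c00040000000000000000000000) := T_22 (nat_lit 157) (nat_lit 176) (nat_lit 0) (nat_lit 8) (nat_lit 10) L70815 (by decide +kernel)
theorem L70817 : W_22 (nat_lit 2) (nat_lit 0x80007c00040012000b0000400000000000000000000000000) (nat_lit 0x0) (nat_lit 0x40000800020000000000000000000000) := D_22 (nat_lit 107) (nat_lit 89) (nat_lit 126) (nat_lit 4) (nat_lit 5) (nat_lit 9) (nat_lit 0) (nat_lit 8) (nat_lit 7) (by decide +kernel)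
theorem L70818 : W_22 (nat_lit 3) (nat_lit 0x80007c00040012000b0000000000000000000000000000000) (nat_lit 0x0) (nat_lit 0x48000c00020000000000000000000000) := T_22 (nat_lit 106) (nat_lit 123) (nat_lit 4) (nat_lit 5) (nat_lit 10) L70817 (by decide +kernel)
theorem L70819 : W_22 (nat_lit 4) (nat_lit 0x80007800040012000b0000000000000000000000000000000) (nat_lit 0x0) (nat_lit 0x4000040000000000048000c00020000000000000000000000) := T_22 (nat_lit 174) (nat_lit 194) (nat_lit 3) (nat_lit 4) (nat_lit 10) L70818 (by decide +kernel)
theorem L70820 : W_22 (nat_lit 5) (nat_lit 0x7800040012000b0000000000000000000000000000000) (nat_lit 0x0) (nat_lit 0x1c000040000000000048000c00020000000000000000000000) := T_22 (nat_lit 195) (nat_lit 196) (nat_lit 3) (nat_lit 5) (nat_lit 10) L70819 (by decide +kernel)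
theorem L70821 : W_22 (nat_lit 6) (nat_lit 0x780004001200090000000000000000000000000000000) (nat_lit 0x0) (nat_lit 0x1c000040000000000068001c00020000000000000000000000) := T_22 (nat_lit 125) (nat_lit 108) (nat_lit 6) (nat_lit 5) (nat_lit 10) L70820 (by decide +kernel)
theorem L70822 : W_22 (nat_lit 7) (nat_lit 0x680004001200090000000000000000000000000000000) (nat_lit 0x0) (nat_lit 0x1c000140002000000068001c00020000000000000000000000) := T_22 (nat_lit 176) (nat_lit 157) (nat_lit 0) (nat_lit 8) (nat_lit 10) L70821 (by decide +kernel)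
theorem L70823 : W_22 (nat_lit 2) (nat_lit 0x6800040012000f0000800000000000000000000000000) (nat_lit 0x0) (nat_lit 0x140002000000000000000000000000000000000000000) := D_22 (nat_lit 157) (nat_lit 176) (nat_lit 174) (nat_lit 0) (nat_lit 8) (nat_lit 10) (nat_lit 5) (nat_lit 5) (nat_lit 6) (by decide +kernel)
theorem L70824 : W_22 (nat_lit 3) (nat_lit 0x6800040012000f0000000000000000000000000000000) (nat_lit 0x0) (nat_lit 0x140002000000000000c00000000000000000000000000) := T_22 (nat_lit 107) (nat_lit 106) (nat_lit 0) (nat_lit 8) (nat_lit 7) L70823 (by decide +kernel)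
theorem L70825 : W_22 (nat_lit 4) (nat_lit 0x6800040012000b0000000000000000000000000000000) (nat_lit 0x0) (nat_lit 0x140002000100040000c00000000000000000000000000) := T_22 (nat_lit 126) (nat_lit 140) (nat_lit 1) (nat_lit 8) (nat_lit 7) L70824 (by decide +kernel)
theorem L70826 : W_22 (nat_lit 5) (nat_lit 0x680004001200090000000000000000000000000000000) (nat_lit 0x0) (nat_lit 0x140002000100060001c00000000000000000000000000) := T_22 (nat_lit 125) (nat_lit 108) (nat_lit 6) (nat_lit 5) (nat_lit 10) L70825 (by decide +kernel)
theorem L70827 : W_22 (nat_lit 2) (nat_lit 0x80007800040012000f0000000000000000000000000000000) (nat_lit 0x0) (nat_lit 0x10000800008000000000000000000000000000000) := D_22 (nat_lit 143) (nat_lit 123) (nat_lit 160) (nat_lit 3) (nat_lit 4) (nat_lit 7) (nat_lit 7) (nat_lit 7) (nat_lit 7) (by decide +kernel)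
theorem L70828 : W_22 (nat_lit 3) (nat_lit 0x7800040012000f0000000000000000000000000000000) (nat_lit 0x0) (nat_lit 0x18000000010000800008000000000000000000000000000000) := T_22 (nat_lit 195) (nat_lit 196) (nat_lit 3) (nat_lit 5) (nat_lit 10) L70827 (by decide +kernel)
theorem L70829 : W_22 (nat_lit 4) (nat_lit 0x7800040012000b0000000000000000000000000000000) (nat_lit 0x0) (nat_lit 0x18000000010000900048000000000000000000000000000000) := T_22 (nat_lit 126) (nat_lit 140) (nat_lit 1) (nat_lit 8) (nat_lit 7) L70828 (by decide +kernel)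
theorem L70830 : W_22 (nat_lit 5) (nat_lit 0x780004001200090000000000000000000000000000000) (nat_lit 0x0) (nat_lit 0x18000000010000900068001000000000000000000000000000) := T_22 (nat_lit 125) (nat_lit 108) (nat_lit 6) (nat_lit 5) (nat_lit 10) L70829 (by decide +kernel)
theorem L70831 : W_22 (nat_lit 6) (nat_lit 0x680004001200090000000000000000000000000000000) (nat_lit 0x0) (nat_lit 0x18000100012000900068001000000000000000000000000000) := T_22 (nat_lit 176) (nat_lit 157) (nat_lit 0) (nat_lit 8) (nat_lit 10) L70830 (by decide +kernel)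
theorem L70832 : W_22 (nat_lit 8) (nat_lit 0x680004001200080000000000000000000000000000000) (nat_lit 0x0) (nat_lit 0x1d000140012000900078001c00060000000000000000000000) := Q_22 (nat_lit 124) (C_22 L70763 (C_22 L70816 (C_22 L70822 (C_22 L70826 (C_22 L70831 N_22))))) (by decide +kernel)
theorem L70833 : W_22 (nat_lit 2) (nat_lit 0x80007c0004001200080000000000000000000000000000000) (nat_lit 0x0) (nat_lit 0xc00000000000000010000000000000000000000000000000) := D_22 (nat_lit 191) (nat_lit 190) (nat_lit 124) (nat_lit 1) (nat_lit 7) (nat_lit 10) (nat_lit 5) (nat_lit 5) (nat_lit 7) (by decide +kernel)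
theorem L70834 : W_22 (nat_lit 3) (nat_lit 0x8000780004001200080000000000000000000000000000000) (nat_lit 0x0) (nat_lit 0x4c00040000000000010000000000000000000000000000000) := T_22 (nat_lit 174) (nat_lit 194) (nat_lit 3) (nat_lit 4) (nat_lit 10) L70833 (by decide +kernel)
theorem L70835 : W_22 (nat_lit 4) (nat_lit 0x780004001200080000000000000000000000000000000) (nat_lit 0x0) (nat_lit 0x1cc00040000000000010000000000000000000000000000000) := T_22 (nat_lit 195) (nat_lit 196) (nat_lit 3) (nat_lit 5) (nat_lit 10) L70834 (by decide +kernel)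
theorem L70836 : W_22 (nat_lit 5) (nat_lit 0x680004001200080000000000000000000000000000000) (nat_lit 0x0) (nat_lit 0x1cc00140002000000010000000000000000000000000000000) := T_22 (nat_lit 176) (nat_lit 157) (nat_lit 0) (nat_lit 8) (nat_lit 10) L70835 (by decide +kernel)
theorem L70837 : W_22 (nat_lit 15) (nat_lit 0x600004001200080000000000000000000000000000000) (nat_lit 0x0) (nat_lit 0x20003001df001f8013c009c007f001e000e0006000000000000000000) := Q_22 (nat_lit 175) (C_22 L70789 (C_22 L70740 (C_22 L70793 (C_22 L70804 (C_22 L70812 (C_22 L70832 (C_22 L70836 N_22))))))) (by decide +kernel)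
theorem L70838 : W_22 (nat_lit 8) (nat_lit 0x600024001200080000000000000000000000000000000) (nat_lit 0x0) (nat_lit 0x10011c009c005200010017800bc000a0000000000000000000000) := Q_22 (nat_lit 175) (C_22 L70738 (C_22 L70758 (C_22 L70366 N_22))) (by decide +kernel)
theorem L70839 : W_22 (nat_lit 8) (nat_lit 0x600024001200080000000000000000000000000000000) (nat_lit 0x0) (nat_lit 0x100198009c0042000100138009c000a0000000000000000000000) := Q_22 (nat_lit 175) (C_22 L70738 (C_22 L70742 (C_22 L70366 N_22))) (by decide +kernel)
theorem L70840 : W_22 (nat_lit 8) (nat_lit 0x600024001200080000000000000000000000000000000) (nat_lit 0x0) (nat_lit 0x10009c001c005200090017800bc000a0000000000000000000000) := Q_22 (nat_lit 175) (C_22 L70750 (C_22 L70366 (C_22 L70738 N_22))) (by decide +kernel)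
theorem L70841 : W_22 (nat_lit 9) (nat_lit 0x600004001200080000000000000000000000000000000) (nat_lit 0x0) (nat_lit 0x210019c009c007200090017800bc000a0000000000000000000000) := Q_22 (nat_lit 161) (C_22 L70735 (C_22 L70838 (C_22 L70839 (C_22 L70840 N_22)))) (by decide +kernel)
theorem L70842 : W_22 (nat_lit 16) (nat_lit 0x200004001200080000000000000000000000000000000) (nat_lit 0x0) (nat_lit 0x20023001df03df81f3c0c9c077f03be000e0006000000000000000000) := Q_22 (nat_lit 178) (C_22 L70573 (C_22 L70736 (C_22 L70744 (C_22 L70752 (C_22 L70760 (C_22 L70837 (C_22 L70841 N_22))))))) (by decide +kernel)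
theorem L70843 : W_22 (nat_lit 16) (nat_lit 0x200004001200080000000000000000000000000000000) (nat_lit 0x0) (nat_lit 0x20023007df01df81fbc009c007f003e000e0006000000000000000000) := Q_22 (nat_lit 178) (C_22 L70837 (C_22 L70736 (C_22 L70589 (C_22 L70578 N_22)))) (by decide +kernel)
theorem L70844 : W_22 (nat_lit 2) (nat_lit 0x700024001200080000000000000000000000000000000) (nat_lit 0x0) (nat_lit 0x80042000000000000000000000000000000000000000) := D_22 (nat_lit 175) (nat_lit 157) (nat_lit 162) (nat_lit 0) (nat_lit 8) (nat_lit 10) (nat_lit 2) (nat_lit 5) (nat_lit 10) (by decide +kernel)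
theorem L70845 : W_22 (nat_lit 3) (nat_lit 0x700004001200080000000000000000000000000000000) (nat_lit 0x0) (nat_lit 0x4000080062000000000000000000000000000000000000000) := T_22 (nat_lit 161) (nat_lit 194) (nat_lit 5) (nat_lit 8) (nat_lit 7) L70844 (by decide +kernel)
theorem L70846 : W_22 (nat_lit 2) (nat_lit 0x1f000a4005a003c0000000000000000000000000000000) (nat_lit 0x0) (nat_lit 0x60002000000000000000000000000000000000000000000000) := D_22 (nat_lit 198) (nat_lit 197) (nat_lit 181) (nat_lit 3) (nat_lit 7) (nat_lit 10) (nat_lit 7) (nat_lit 10) (nat_lit 7) (by decide +kernel)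
theorem L70847 : W_22 (nat_lit 3) (nat_lit 0xf000a4005a003c0000000000000000000000000000000) (nat_lit 0x0) (nat_lit 0x60003000100000000000000000000000000000000000000000) := T_22 (nat_lit 180) (nat_lit 164) (nat_lit 2) (nat_lit 7) (nat_lit 10) L70846 (by decide +kernel)
theorem L70848 : W_22 (nat_lit 4) (nat_lit 0xf000a4001a003c0000000000000000000000000000000) (nat_lit 0x0) (nat_lit 0x6000300010000c000000000000000000000000000000000000) := T_22 (nat_lit 146) (nat_lit 147) (nat_lit 3) (nat_lit 7) (nat_lit 7) L70847 (by decide +kernel)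
theorem L70849 : W_22 (nat_lit 5) (nat_lit 0xf00024001a003c0000000000000000000000000000000) (nat_lit 0x0) (nat_lit 0x600030001c000c000000000000000000000000000000000000) := T_22 (nat_lit 163) (nat_lit 162) (nat_lit 2) (nat_lit 6) (nat_lit 10) L70848 (by decide +kernel)
theorem L70850 : W_22 (nat_lit 6) (nat_lit 0xf00024001a001c0000000000000000000000000000000) (nat_lit 0x0) (nat_lit 0x600030001c000c000600000000000000000000000000000000) := T_22 (nat_lit 129) (nat_lit 130) (nat_lit 1) (nat_lit 11) (nat_lit 7) L70849 (by decide +kernel)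
theorem L70851 : W_22 (nat_lit 7) (nat_lit 0x700024001a001c0000000000000000000000000000000) (nat_lit 0x0) (nat_lit 0x600038001c800c000600000000000000000000000000000000) := T_22 (nat_lit 179) (nat_lit 159) (nat_lit 0) (nat_lit 9) (nat_lit 10) L70850 (by decide +kernel)
theorem L70852 : W_22 (nat_lit 8) (nat_lit 0x7000240012001c0000000000000000000000000000000) (nat_lit 0x0) (nat_lit 0x680038001c800c800600000000000000000000000000000000) := T_22 (nat_lit 143) (nat_lit 195) (nat_lit 4) (nat_lit 8) (nat_lit 11) L70851 (by decide +kernel)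
theorem L70853 : W_22 (nat_lit 9) (nat_lit 0x7000240012000c0000000000000000000000000000000) (nat_lit 0x0) (nat_lit 0x680038001c800c800700008000000000000000000000000000) := T_22 (nat_lit 128) (nat_lit 111) (nat_lit 6) (nat_lit 8) (nat_lit 10) L70852 (by decide +kernel)
theorem L70854 : W_22 (nat_lit 10) (nat_lit 0x700024001200080000000000000000000000000000000) (nat_lit 0x0) (nat_lit 0x680038001c800c80074000a000000000000000000000000000) := T_22 (nat_lit 126) (nat_lit 109) (nat_lit 4) (nat_lit 8) (nat_lit 10) L70853 (by decide +kernel)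
theorem L70855 : W_22 (nat_lit 11) (nat_lit 0x700004001200080000000000000000000000000000000) (nat_lit 0x0) (nat_lit 0x6c0038001e800c80074000a000000000000000000000000000) := T_22 (nat_lit 161) (nat_lit 194) (nat_lit 5) (nat_lit 8) (nat_lit 7) L70854 (by decide +kernel)
theorem L70856 : W_22 (nat_lit 12) (nat_lit 0x600004001200080000000000000000000000000000000) (nat_lit 0x0) (nat_lit 0x6dc039c01ea00c80075000a000000000000000000000000000) := Q_22 (nat_lit 176) (C_22 L70584 (C_22 L70845 (C_22 L70855 N_22))) (by decide +kernel)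
theorem L70857 : W_22 (nat_lit 2) (nat_lit 0xf000240012000c0000000000000000000000000000000) (nat_lit 0x0) (nat_lit 0x80042000000000000000000000000000000000000000) := D_22 (nat_lit 175) (nat_lit 157) (nat_lit 162) (nat_lit 0) (nat_lit 8) (nat_lit 10) (nat_lit 2) (nat_lit 5) (nat_lit 10) (by decide +kernel)
theorem L70858 : W_22 (nat_lit 3) (nat_lit 0xe000240012000c0000000000000000000000000000000) (nat_lit 0x0) (nat_lit 0x18004a000000000000000000000000000000000000000) := T_22 (nat_lit 176) (nat_lit 159) (nat_lit 0) (nat_lit 9) (nat_lit 10) L70857 (by decide +kernel)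
theorem L70859 : W_22 (nat_lit 4) (nat_lit 0x6000240012000c0000000000000000000000000000000) (nat_lit 0x0) (nat_lit 0x1000098004a000000000000000000000000000000000000000) := T_22 (nat_lit 179) (nat_lit 196) (nat_lit 7) (nat_lit 8) (nat_lit 7) L70858 (by decide +kernel)
theorem L70860 : W_22 (nat_lit 5) (nat_lit 0x600024001200080000000000000000000000000000000) (nat_lit 0x0) (nat_lit 0x1000098004a000000040002000000000000000000000000000) := T_22 (nat_lit 126) (nat_lit 109) (nat_lit 4) (nat_lit 8) (nat_lit 10) L70859 (by decide +kernel)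
theorem L70861 : W_22 (nat_lit 6) (nat_lit 0x600004001200080000000000000000000000000000000) (nat_lit 0x0) (nat_lit 0x1400098006a000000040002000000000000000000000000000) := T_22 (nat_lit 161) (nat_lit 194) (nat_lit 5) (nat_lit 8) (nat_lit 7) L70860 (by decide +kernel)
theorem L70862 : W_22 (nat_lit 15) (nat_lit 0x600004001200080000000000000000000000000000000) (nat_lit 0x0) (nat_lit 0x20003001df001f8063c009c007f001e000c0006000000000000000000) := Q_22 (nat_lit 175) (C_22 L70789 (C_22 L70836 (C_22 L70812 (C_22 L70804 (C_22 L70739 N_22))))) (by decide +kernel)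
theorem L70863 : W_22 (nat_lit 16) (nat_lit 0x200004001200080000000000000000000000000000000) (nat_lit 0x0) (nat_lit 0x20023007df03df81ebc0c9c077f00be000e0006000000000000000000) := Q_22 (nat_lit 178) (C_22 L70744 (C_22 L70736 (C_22 L70856 (C_22 L70861 (C_22 L70589 (C_22 L70862 N_22)))))) (by decide +kernel)
theorem L70864 : W_22 (nat_lit 2) (nat_lit 0x600014001200080000000000000000000000000000000) (nat_lit 0x0) (nat_lit 0x4000000020000800000000000000000000000000000000000) := D_22 (nat_lit 194) (nat_lit 161) (nat_lit 143) (nat_lit 5) (nat_lit 8) (nat_lit 7) (nat_lit 6) (nat_lit 7) (nat_lit 11) (by decide +kernel)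
theorem L70865 : W_22 (nat_lit 2) (nat_lit 0x80064000e001200080000000000000000000000000000000) (nat_lit 0x0) (nat_lit 0x100010000800000000000000000000000000) := D_22 (nat_lit 124) (nat_lit 107) (nat_lit 140) (nat_lit 5) (nat_lit 5) (nat_lit 6) (nat_lit 6) (nat_lit 4) (nat_lit 11) (by decide +kernel)
theorem L70866 : W_22 (nat_lit 3) (nat_lit 0x64000e001200080000000000000000000000000000000) (nat_lit 0x0) (nat_lit 0x10000800000000000100010000800000000000000000000000000) := T_22 (nat_lit 191) (nat_lit 208) (nat_lit 6) (nat_lit 4) (nat_lit 12) L70865 (by decide +kernel)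
theorem L70867 : W_22 (nat_lit 4) (nat_lit 0x640006001200080000000000000000000000000000000) (nat_lit 0x0) (nat_lit 0x10000800000018000100010000800000000000000000000000000) := T_22 (nat_lit 159) (nat_lit 160) (nat_lit 3) (nat_lit 4) (nat_lit 9) L70866 (by decide +kernel)
theorem L70868 : W_22 (nat_lit 2) (nat_lit 0x640006001200090000000000000000000000000000000) (nat_lit 0x0) (nat_lit 0x10000800080000000000000000000000000000000000000000000) := D_22 (nat_lit 191) (nat_lit 208) (nat_lit 175) (nat_lit 6) (nat_lit 4) (nat_lit 12) (nat_lit 5) (nat_lit 5) (nat_lit 7) (by decide +kernel)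
theorem L70869 : W_22 (nat_lit 3) (nat_lit 0x640006001200080000000000000000000000000000000) (nat_lit 0x0) (nat_lit 0x10000800080000000000010000800000000000000000000000000) := T_22 (nat_lit 124) (nat_lit 107) (nat_lit 5) (nat_lit 5) (nat_lit 6) L70868 (by decide +kernel)
theorem L70870 : W_22 (nat_lit 2) (nat_lit 0x1000000064000e001280080000000000000000000000000000000) (nat_lit 0x0) (nat_lit 0x1000140000000000000000000000000000000000) := D_22 (nat_lit 138) (nat_lit 140) (nat_lit 156) (nat_lit 3) (nat_lit 2) (nat_lit 8) (nat_lit 0) (nat_lit 6) (nat_lit 9) (by decide +kernel)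
theorem L70871 : W_22 (nat_lit 3) (nat_lit 0x10000000640006001280080000000000000000000000000000000) (nat_lit 0x0) (nat_lit 0x19000140000000000000000000000000000000000) := T_22 (nat_lit 159) (nat_lit 160) (nat_lit 3) (nat_lit 4) (nat_lit 9) L70870 (by decide +kernel)
theorem L70872 : W_22 (nat_lit 4) (nat_lit 0x640006001280080000000000000000000000000000000) (nat_lit 0x0) (nat_lit 0x10000800000019000140000000000000000000000000000000000) := T_22 (nat_lit 208) (nat_lit 191) (nat_lit 6) (nat_lit 4) (nat_lit 12) L70871 (by decide +kernel)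
theorem L70873 : W_22 (nat_lit 2) (nat_lit 0x18006400060013a0088000000000000000000000000000000) (nat_lit 0x0) (nat_lit 0x8000400020000000000000000000000000000000000000000000) := D_22 (nat_lit 190) (nat_lit 207) (nat_lit 173) (nat_lit 5) (nat_lit 4) (nat_lit 8) (nat_lit 5) (nat_lit 4) (nat_lit 7) (by decide +kernel)
theorem L70874 : W_22 (nat_lit 3) (nat_lit 0x18006400060013a0080000000000000000000000000000000) (nat_lit 0x0) (nat_lit 0x80004000a0000000000008000000000000000000000000000000) := T_22 (nat_lit 123) (nat_lit 175) (nat_lit 7) (nat_lit 4) (nat_lit 7) L70873 (by decide +kernel)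
theorem L70875 : W_22 (nat_lit 4) (nat_lit 0x8006400060013a0080000000000000000000000000000000) (nat_lit 0x0) (nat_lit 0x280014000a0000000000008000000000000000000000000000000) := T_22 (nat_lit 192) (nat_lit 209) (nat_lit 7) (nat_lit 4) (nat_lit 8) L70874 (by decide +kernel)
theorem L70876 : W_22 (nat_lit 5) (nat_lit 0x800640006001380080000000000000000000000000000000) (nat_lit 0x0) (nat_lit 0x280014000a0000000060008000000000000000000000000000000) := T_22 (nat_lit 137) (nat_lit 138) (nat_lit 3) (nat_lit 1) (nat_lit 8) L70875 (by decide +kernel)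
theorem L70877 : W_22 (nat_lit 6) (nat_lit 0x800640006001280080000000000000000000000000000000) (nat_lit 0x0) (nat_lit 0x280014000a000000016000c000000000000000000000000000000) := T_22 (nat_lit 140) (nat_lit 122) (nat_lit 4) (nat_lit 4) (nat_lit 11) L70876 (by decide +kernel)
theorem L70878 : W_22 (nat_lit 7) (nat_lit 0x640006001280080000000000000000000000000000000) (nat_lit 0x0) (nat_lit 0x38001c000a000000016000c000000000000000000000000000000) := T_22 (nat_lit 191) (nat_lit 208) (nat_lit 6) (nat_lit 4) (nat_lit 12) L70877 (by decide +kernel)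
theorem L70879 : W_22 (nat_lit 2) (nat_lit 0x80064000f001280080000000000000000000000000000000) (nat_lit 0x0) (nat_lit 0x30000000000004000000000000000000000000000000) := D_22 (nat_lit 173) (nat_lit 172) (nat_lit 122) (nat_lit 1) (nat_lit 6) (nat_lit 9) (nat_lit 7) (nat_lit 3) (nat_lit 7) (by decide +kernel)
theorem L70880 : W_22 (nat_lit 3) (nat_lit 0x80064000e001280080000000000000000000000000000000) (nat_lit 0x0) (nat_lit 0x30001000040004000000000000000000000000000000) := T_22 (nat_lit 156) (nat_lit 138) (nat_lit 0) (nat_lit 6) (nat_lit 9) L70879 (by decide +kernel)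
theorem L70881 : W_22 (nat_lit 4) (nat_lit 0x800640006001280080000000000000000000000000000000) (nat_lit 0x0) (nat_lit 0x30019000040004000000000000000000000000000000) := T_22 (nat_lit 159) (nat_lit 160) (nat_lit 3) (nat_lit 4) (nat_lit 9) L70880 (by decide +kernel)
theorem L70882 : W_22 (nat_lit 5) (nat_lit 0x640006001280080000000000000000000000000000000) (nat_lit 0x0) (nat_lit 0x10000800030019000040004000000000000000000000000000000) := T_22 (nat_lit 191) (nat_lit 208) (nat_lit 6) (nat_lit 4) (nat_lit 12) L70881 (by decide +kernel)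
theorem L70883 : W_22 (nat_lit 2) (nat_lit 0x64000e001280080000000000000000000000000000000) (nat_lit 0x0) (nat_lit 0x1000140000000000000000000000000000000000) := D_22 (nat_lit 138) (nat_lit 140) (nat_lit 156) (nat_lit 3) (nat_lit 2) (nat_lit 8) (nat_lit 0) (nat_lit 6) (nat_lit 9) (by decide +kernel)
theorem L70884 : W_22 (nat_lit 3) (nat_lit 0x640006001280080000000000000000000000000000000) (nat_lit 0x0) (nat_lit 0x19000140000000000000000000000000000000000) := T_22 (nat_lit 159) (nat_lit 160) (nat_lit 3) (nat_lit 4) (nat_lit 9) L70883 (by decide +kernel)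
theorem L70885 : W_22 (nat_lit 2) (nat_lit 0xc0064000e001380088000000000000000000000000000000) (nat_lit 0x0) (nat_lit 0x20001000080000000000000000000000000000000000000000000) := D_22 (nat_lit 192) (nat_lit 175) (nat_lit 209) (nat_lit 7) (nat_lit 4) (nat_lit 7) (nat_lit 7) (nat_lit 4) (nat_lit 8) (by decide +kernel)
theorem L70886 : W_22 (nat_lit 3) (nat_lit 0xc0064000e001380080000000000000000000000000000000) (nat_lit 0x0) (nat_lit 0x200010000a0000000000008000000000000000000000000000000) := T_22 (nat_lit 123) (nat_lit 173) (nat_lit 5) (nat_lit 4) (nat_lit 7) L70885 (by decide +kernel)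
theorem L70887 : W_22 (nat_lit 4) (nat_lit 0x80064000e001380080000000000000000000000000000000) (nat_lit 0x0) (nat_lit 0x280014000a0000000000008000000000000000000000000000000) := T_22 (nat_lit 190) (nat_lit 207) (nat_lit 5) (nat_lit 4) (nat_lit 8) L70886 (by decide +kernel)
theorem L70888 : W_22 (nat_lit 5) (nat_lit 0x80064000e001280080000000000000000000000000000000) (nat_lit 0x0) (nat_lit 0x280014000a000000010000c000000000000000000000000000000) := T_22 (nat_lit 140) (nat_lit 122) (nat_lit 4) (nat_lit 4) (nat_lit 11) L70887 (by decide +kernel)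
theorem L70889 : W_22 (nat_lit 6) (nat_lit 0x64000e001280080000000000000000000000000000000) (nat_lit 0x0) (nat_lit 0x38001c000a000000010000c000000000000000000000000000000) := T_22 (nat_lit 191) (nat_lit 208) (nat_lit 6) (nat_lit 4) (nat_lit 12) L70888 (by decide +kernel)
theorem L70890 : W_22 (nat_lit 7) (nat_lit 0x640006001280080000000000000000000000000000000) (nat_lit 0x0) (nat_lit 0x38001c000a001800010000c000000000000000000000000000000) := T_22 (nat_lit 159) (nat_lit 160) (nat_lit 3) (nat_lit 4) (nat_lit 9) L70889 (by decide +kernel)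
theorem L70891 : W_22 (nat_lit 8) (nat_lit 0x640006001200080000000000000000000000000000000) (nat_lit 0x0) (nat_lit 0x38001c000b00190001e000c000000000000000000000000000000) := Q_22 (nat_lit 139) (C_22 L70872 (C_22 L70878 (C_22 L70882 (C_22 L70884 (C_22 L70890 N_22))))) (by decide +kernel)
theorem L70892 : W_22 (nat_lit 2) (nat_lit 0x670006001200080000800000000000000000000000000) (nat_lit 0x0) (nat_lit 0x19000000000000000000000000000000000000000) := D_22 (nat_lit 159) (nat_lit 160) (nat_lit 156) (nat_lit 3) (nat_lit 4) (nat_lit 9) (nat_lit 1) (nat_lit 6) (nat_lit 9) (by decide +kernel)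
theorem L70893 : W_22 (nat_lit 3) (nat_lit 0x660006001200080000800000000000000000000000000) (nat_lit 0x0) (nat_lit 0x18019000000000000000000000000000000000000000) := T_22 (nat_lit 172) (nat_lit 171) (nat_lit 2) (nat_lit 1) (nat_lit 10) L70892 (by decide +kernel)
theorem L70894 : W_22 (nat_lit 4) (nat_lit 0x660006001200080000000000000000000000000000000) (nat_lit 0x0) (nat_lit 0x18019000000010000800000000000000000000000000) := T_22 (nat_lit 107) (nat_lit 124) (nat_lit 5) (nat_lit 5) (nat_lit 6) L70893 (by decide +kernel)
theorem L70895 : W_22 (nat_lit 2) (nat_lit 0x60000e001200098000c00040002000000000000000000) (nat_lit 0x0) (nat_lit 0x80004000200000000000000) := D_22 (nat_lit 74) (nat_lit 91) (nat_lit 57) (nat_lit 6) (nat_lit 5) (nat_lit 8) (nat_lit 6) (nat_lit 5) (nat_lit 7) (by decide +kernel)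
theorem L70896 : W_22 (nat_lit 3) (nat_lit 0x60000e001200098000c00040000000000000000000000) (nat_lit 0x0) (nat_lit 0x80006000300000000000000) := T_22 (nat_lit 73) (nat_lit 56) (nat_lit 5) (nat_lit 5) (nat_lit 3) L70895 (by decide +kernel)
theorem L70897 : W_22 (nat_lit 4) (nat_lit 0x60000e001200098000c00000000000000000000000000) (nat_lit 0x0) (nat_lit 0x1000000000000c0006000300000000000000) := T_22 (nat_lit 90) (nat_lit 140) (nat_lit 6) (nat_lit 4) (nat_lit 9) L70896 (by decide +kernel)
theorem L70898 : W_22 (nat_lit 5) (nat_lit 0x60000e001200090000c00000000000000000000000000) (nat_lit 0x0) (nat_lit 0x800000001000080000000c0006000300000000000000) := T_22 (nat_lit 123) (nat_lit 175) (nat_lit 4) (nat_lit 5) (nat_lit 10) L70897 (by decide +kernel)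
theorem L70899 : W_22 (nat_lit 6) (nat_lit 0x600006001200090000c00000000000000000000000000) (nat_lit 0x0) (nat_lit 0x800180001000080000000c0006000300000000000000) := T_22 (nat_lit 159) (nat_lit 160) (nat_lit 3) (nat_lit 4) (nat_lit 9) L70898 (by decide +kernel)
theorem L70900 : W_22 (nat_lit 2) (nat_lit 0x600006001200090000800040000000000000000000000) (nat_lit 0x0) (nat_lit 0x400020001000000000000000000) := D_22 (nat_lit 89) (nat_lit 72) (nat_lit 106) (nat_lit 4) (nat_lit 5) (nat_lit 8) (nat_lit 4) (nat_lit 5) (nat_lit 9) (by decide +kernel)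
theorem L70901 : W_22 (nat_lit 3) (nat_lit 0x600006001200090000800000000000000000000000000) (nat_lit 0x0) (nat_lit 0x100000000400060001000000000000000000) := T_22 (nat_lit 90) (nat_lit 140) (nat_lit 5) (nat_lit 5) (nat_lit 5) L70900 (by decide +kernel)
theorem L70902 : W_22 (nat_lit 2) (nat_lit 0x1800680006001200090001400000000000000000000000000) (nat_lit 0x0) (nat_lit 0x8000a0000000000000000000000) := D_22 (nat_lit 107) (nat_lit 91) (nat_lit 89) (nat_lit 6) (nat_lit 5) (nat_lit 9) (nat_lit 4) (nat_lit 5) (nat_lit 9) (by decide +kernel)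
theorem L70903 : W_22 (nat_lit 3) (nat_lit 0x1800680006001200090001000000000000000000000000000) (nat_lit 0x0) (nat_lit 0x8000c000a0000000000000000000000) := T_22 (nat_lit 106) (nat_lit 123) (nat_lit 4) (nat_lit 5) (nat_lit 10) L70902 (by decide +kernel)
theorem L70904 : W_22 (nat_lit 4) (nat_lit 0x1800680006001200090000000000000000000000000000000) (nat_lit 0x0) (nat_lit 0x28001c000a0000000000000000000000) := T_22 (nat_lit 108) (nat_lit 125) (nat_lit 6) (nat_lit 5) (nat_lit 10) L70903 (by decide +kernel)
theorem L70905 : W_22 (nat_lit 5) (nat_lit 0x1800680006001200080000000000000000000000000000000) (nat_lit 0x0) (nat_lit 0x40000000000038001c000a0000000000000000000000) := T_22 (nat_lit 124) (nat_lit 174) (nat_lit 5) (nat_lit 5) (nat_lit 7) L70904 (by decide +kernel)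
theorem L70906 : W_22 (nat_lit 6) (nat_lit 0x1000680006001200080000000000000000000000000000000) (nat_lit 0x0) (nat_lit 0x10000800040000000000038001c000a0000000000000000000000) := T_22 (nat_lit 191) (nat_lit 208) (nat_lit 5) (nat_lit 5) (nat_lit 8) L70905 (by decide +kernel)
theorem L70907 : W_22 (nat_lit 2) (nat_lit 0x1800680006001300090001000000000000000000000000000) (nat_lit 0x0) (nat_lit 0x8000c0000000000000000000000) := D_22 (nat_lit 107) (nat_lit 91) (nat_lit 90) (nat_lit 6) (nat_lit 5) (nat_lit 9) (nat_lit 5) (nat_lit 5) (nat_lit 5) (by decide +kernel)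
theorem L70908 : W_22 (nat_lit 3) (nat_lit 0x1800680006001200090001000000000000000000000000000) (nat_lit 0x0) (nat_lit 0x200000000000000001000000008000c0000000000000000000000) := T_22 (nat_lit 140) (nat_lit 209) (nat_lit 4) (nat_lit 5) (nat_lit 12) L70907 (by decide +kernel)
theorem L70909 : W_22 (nat_lit 4) (nat_lit 0x1800680006001200090000000000000000000000000000000) (nat_lit 0x0) (nat_lit 0x200000000000000001000200018000c0000000000000000000000) := T_22 (nat_lit 108) (nat_lit 125) (nat_lit 6) (nat_lit 5) (nat_lit 10) L70908 (by decide +kernel)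
theorem L70910 : W_22 (nat_lit 5) (nat_lit 0x1800680006001200080000000000000000000000000000000) (nat_lit 0x0) (nat_lit 0x200000000400000001000300018000c0000000000000000000000) := T_22 (nat_lit 124) (nat_lit 174) (nat_lit 5) (nat_lit 5) (nat_lit 7) L70909 (by decide +kernel)
theorem L70911 : W_22 (nat_lit 6) (nat_lit 0x1000680006001200080000000000000000000000000000000) (nat_lit 0x0) (nat_lit 0x300008000400000001000300018000c0000000000000000000000) := T_22 (nat_lit 191) (nat_lit 208) (nat_lit 5) (nat_lit 5) (nat_lit 8) L70910 (by decide +kernel)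
theorem L70912 : W_22 (nat_lit 7) (nat_lit 0x680006001200080000000000000000000000000000000) (nat_lit 0x0) (nat_lit 0x30001800040000000100038001c000e0000000000000000000000) := Q_22 (nat_lit 192) (C_22 L70906 (C_22 L70810 (C_22 L70911 N_22))) (by decide +kernel)
theorem L70913 : W_22 (nat_lit 2) (nat_lit 0x60000e001200098001c00000000000000000000000000) (nat_lit 0x0) (nat_lit 0x6002000000000000000000000000000) := D_22 (nat_lit 122) (nat_lit 121) (nat_lit 109) (nat_lit 2) (nat_lit 2) (nat_lit 7) (nat_lit 1) (nat_lit 7) (nat_lit 6) (by decide +kernel)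
theorem L70914 : W_22 (nat_lit 3) (nat_lit 0x60000e001200098000c00000000000000000000000000) (nat_lit 0x0) (nat_lit 0x6003000080000000000000000000000) := T_22 (nat_lit 108) (nat_lit 91) (nat_lit 6) (nat_lit 5) (nat_lit 9) L70913 (by decide +kernel)
theorem L70915 : W_22 (nat_lit 2) (nat_lit 0x4800fe00084001200280000000000000000000000000000000) (nat_lit 0x0) (nat_lit 0xe00000000000000000000000000000000000000000) := D_22 (nat_lit 166) (nat_lit 165) (nat_lit 167) (nat_lit 2) (nat_lit 9) (nat_lit 10) (nat_lit 2) (nat_lit 10) (nat_lit 10) (by decide +kernel)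
theorem L70916 : W_22 (nat_lit 3) (nat_lit 0x48007e00084001200280000000000000000000000000000000) (nat_lit 0x0) (nat_lit 0x8000e40000000000000000000000000000000000000000) := T_22 (nat_lit 183) (nat_lit 162) (nat_lit 0) (nat_lit 13) (nat_lit 10) L70915 (by decide +kernel)
theorem L70917 : W_22 (nat_lit 4) (nat_lit 0x48003e00084001200280000000000000000000000000000000) (nat_lit 0x0) (nat_lit 0x1000c000e40000000000000000000000000000000000000000) := T_22 (nat_lit 182) (nat_lit 196) (nat_lit 1) (nat_lit 12) (nat_lit 10) L70916 (by decide +kernel)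
theorem L70918 : W_22 (nat_lit 5) (nat_lit 0x48003e00084001200080000000000000000000000000000000) (nat_lit 0x0) (nat_lit 0x1000c000e40004000200000000000000000000000000000000) := T_22 (nat_lit 129) (nat_lit 146) (nat_lit 7) (nat_lit 10) (nat_lit 7) L70917 (by decide +kernel)
theorem L70919 : W_22 (nat_lit 6) (nat_lit 0x40003e00084001200080000000000000000000000000000000) (nat_lit 0x0) (nat_lit 0x1c00c000e40004000200000000000000000000000000000000) := T_22 (nat_lit 195) (nat_lit 194) (nat_lit 1) (nat_lit 11) (nat_lit 10) L70918 (by decide +kernel)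
theorem L70920 : W_22 (nat_lit 7) (nat_lit 0x40001e00084001200080000000000000000000000000000000) (nat_lit 0x0) (nat_lit 0x9c00e000e40004000200000000000000000000000000000000) := T_22 (nat_lit 181) (nat_lit 199) (nat_lit 3) (nat_lit 8) (nat_lit 10) L70919 (by decide +kernel)
theorem L70921 : W_22 (nat_lit 8) (nat_lit 0x1e00084001200080000000000000000000000000000000) (nat_lit 0x0) (nat_lit 0xfc00e000e40004000200000000000000000000000000000000) := T_22 (nat_lit 198) (nat_lit 197) (nat_lit 3) (nat_lit 7) (nat_lit 10) L70920 (by decide +kernel)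
theorem L70922 : W_22 (nat_lit 9) (nat_lit 0x1e00004001200080000000000000000000000000000000) (nat_lit 0x0) (nat_lit 0xfc00e000fc0004000200000000000000000000000000000000) := T_22 (nat_lit 163) (nat_lit 164) (nat_lit 2) (nat_lit 7) (nat_lit 10) L70921 (by decide +kernel)
theorem L70923 : W_22 (nat_lit 2) (nat_lit 0x44001e00014001200080000000000000000000000000000000) (nat_lit 0x0) (nat_lit 0x88002000000000000000000000000000000000000000000000) := D_22 (nat_lit 181) (nat_lit 195) (nat_lit 199) (nat_lit 1) (nat_lit 11) (nat_lit 10) (nat_lit 3) (nat_lit 8) (nat_lit 10) (by decide +kernel)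
theorem L70924 : W_22 (nat_lit 3) (nat_lit 0x40001e00014001200080000000000000000000000000000000) (nat_lit 0x0) (nat_lit 0x8c002000000000800000000000000000000000000000000000) := T_22 (nat_lit 194) (nat_lit 143) (nat_lit 6) (nat_lit 7) (nat_lit 11) L70923 (by decide +kernel)
theorem L70925 : W_22 (nat_lit 4) (nat_lit 0x1e00014001200080000000000000000000000000000000) (nat_lit 0x0) (nat_lit 0xec002000000000800000000000000000000000000000000000) := T_22 (nat_lit 198) (nat_lit 197) (nat_lit 3) (nat_lit 7) (nat_lit 10) L70924 (by decide +kernel)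
theorem L70926 : W_22 (nat_lit 5) (nat_lit 0x1e00004001200080000000000000000000000000000000) (nat_lit 0x0) (nat_lit 0xec002000018000800000000000000000000000000000000000) := T_22 (nat_lit 160) (nat_lit 159) (nat_lit 0) (nat_lit 10) (nat_lit 10) L70925 (by decide +kernel)
theorem L70927 : W_22 (nat_lit 2) (nat_lit 0x40001e0010c001200080000000000000000000000000000000) (nat_lit 0x0) (nat_lit 0x80002000200000000000000000000000000000000000000000) := D_22 (nat_lit 181) (nat_lit 199) (nat_lit 165) (nat_lit 3) (nat_lit 8) (nat_lit 10) (nat_lit 2) (nat_lit 8) (nat_lit 10) (by decide +kernel)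
theorem L70928 : W_22 (nat_lit 3) (nat_lit 0x40001e0000c001200080000000000000000000000000000000) (nat_lit 0x0) (nat_lit 0x80002000380000000000000000000000000000000000000000) := T_22 (nat_lit 164) (nat_lit 163) (nat_lit 2) (nat_lit 7) (nat_lit 10) L70927 (by decide +kernel)
theorem L70929 : W_22 (nat_lit 4) (nat_lit 0x1e0000c001200080000000000000000000000000000000) (nat_lit 0x0) (nat_lit 0xe0002000380000000000000000000000000000000000000000) := T_22 (nat_lit 198) (nat_lit 197) (nat_lit 3) (nat_lit 7) (nat_lit 10) L70928 (by decide +kernel)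
theorem L70930 : W_22 (nat_lit 2) (nat_lit 0x60000e0012000b0001800040001000000000000000000) (nat_lit 0x0) (nat_lit 0x2000180000000000000) := D_22 (nat_lit 73) (nat_lit 55) (nat_lit 56) (nat_lit 4) (nat_lit 5) (nat_lit 7) (nat_lit 7) (nat_lit 5) (nat_lit 3) (by decide +kernel)
theorem L70931 : W_22 (nat_lit 3) (nat_lit 0x60000e001200090001800040001000000000000000000) (nat_lit 0x0) (nat_lit 0x80000000000020000000000002000180000000000000) := T_22 (nat_lit 125) (nat_lit 175) (nat_lit 6) (nat_lit 5) (nat_lit 10) L70930 (by decide +kernel)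
theorem L70932 : W_22 (nat_lit 2) (nat_lit 0x68000e001300090001800000000000000000000000000) (nat_lit 0x0) (nat_lit 0x20001000000000000000008000000000000000000000000000000) := D_22 (nat_lit 192) (nat_lit 209) (nat_lit 123) (nat_lit 4) (nat_lit 5) (nat_lit 12) (nat_lit 4) (nat_lit 5) (nat_lit 11) (by decide +kernel)
theorem L70933 : W_22 (nat_lit 3) (nat_lit 0x60000e001300090001800000000000000000000000000) (nat_lit 0x0) (nat_lit 0x20001000080000000000028000000000000000000000000000000) := T_22 (nat_lit 175) (nat_lit 125) (nat_lit 6) (nat_lit 5) (nat_lit 10) L70932 (by decide +kernel)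
theorem L70934 : W_22 (nat_lit 2) (nat_lit 0x600004001200090001c00000000000000000000000000) (nat_lit 0x0) (nat_lit 0x80000000000028000000000000000000000000000000) := D_22 (nat_lit 175) (nat_lit 123) (nat_lit 125) (nat_lit 4) (nat_lit 5) (nat_lit 10) (nat_lit 6) (nat_lit 5) (nat_lit 10) (by decide +kernel)
theorem L70935 : W_22 (nat_lit 3) (nat_lit 0x600004001200090000c00000000000000000000000000) (nat_lit 0x0) (nat_lit 0x80000000000028001000080000000000000000000000) := T_22 (nat_lit 108) (nat_lit 91) (nat_lit 6) (nat_lit 5) (nat_lit 9) L70934 (by decide +kernel)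
theorem L70936 : W_22 (nat_lit 4) (nat_lit 0x600004001200090000800000000000000000000000000) (nat_lit 0x0) (nat_lit 0x800000000000280014000a0000000000000000000000) := T_22 (nat_lit 106) (nat_lit 89) (nat_lit 4) (nat_lit 5) (nat_lit 9) L70935 (by decide +kernel)
theorem L70937 : W_22 (nat_lit 7) (nat_lit 0x600004001200090000c00000000000000000000000000) (nat_lit 0x0) (nat_lit 0xc001a0001000080000000c0006000300000000000000) := T_22 (nat_lit 157) (nat_lit 174) (nat_lit 5) (nat_lit 5) (nat_lit 6) L70899 (by decide +kernel)
theorem L70938 : W_22 (nat_lit 8) (nat_lit 0x600004001200090000800000000000000000000000000) (nat_lit 0x0) (nat_lit 0xc001a0001000080004000e0006000300000000000000) := T_22 (nat_lit 106) (nat_lit 89) (nat_lit 4) (nat_lit 5) (nat_lit 9) L70937 (by decide +kernel)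
theorem L70939 : W_22 (nat_lit 2) (nat_lit 0x600006001200090000c00080000000000000000000000) (nat_lit 0x0) (nat_lit 0x100000000000040004000000000000000000) := D_22 (nat_lit 90) (nat_lit 140) (nat_lit 74) (nat_lit 5) (nat_lit 5) (nat_lit 5) (nat_lit 6) (nat_lit 5) (nat_lit 8) (by decide +kernel)
theorem L70940 : W_22 (nat_lit 3) (nat_lit 0x600004001200090000c00080000000000000000000000) (nat_lit 0x0) (nat_lit 0x40002000100000000000040004000000000000000000) := T_22 (nat_lit 157) (nat_lit 174) (nat_lit 5) (nat_lit 5) (nat_lit 6) L70939 (by decide +kernel)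
theorem L70941 : W_22 (nat_lit 4) (nat_lit 0x600004001200090000c00000000000000000000000000) (nat_lit 0x0) (nat_lit 0x400020001000000010000c0004000000000000000000) := T_22 (nat_lit 91) (nat_lit 108) (nat_lit 6) (nat_lit 5) (nat_lit 9) L70940 (by decide +kernel)
theorem L70942 : W_22 (nat_lit 5) (nat_lit 0x600004001200090000800000000000000000000000000) (nat_lit 0x0) (nat_lit 0x400020001000000014000e0004000000000000000000) := T_22 (nat_lit 106) (nat_lit 89) (nat_lit 4) (nat_lit 5) (nat_lit 9) L70941 (by decide +kernel)
theorem L70943 : W_22 (nat_lit 4) (nat_lit 0x600004001200090000800000000000000000000000000) (nat_lit 0x0) (nat_lit 0x40002000100000000400060001000000000000000000) := T_22 (nat_lit 157) (nat_lit 174) (nat_lit 5) (nat_lit 5) (nat_lit 6) L70901 (by decide +kernel)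
theorem L70944 : W_22 (nat_lit 4) (nat_lit 0x600006001200090001800040001000000000000000000) (nat_lit 0x0) (nat_lit 0x80018000000020000000000002000180000000000000) := T_22 (nat_lit 159) (nat_lit 160) (nat_lit 3) (nat_lit 4) (nat_lit 9) L70931 (by decide +kernel)
theorem L70945 : W_22 (nat_lit 5) (nat_lit 0x600006001200090001800040000000000000000000000) (nat_lit 0x0) (nat_lit 0x80018000000020000000020003000180000000000000) := T_22 (nat_lit 72) (nat_lit 89) (nat_lit 4) (nat_lit 5) (nat_lit 8) L70944 (by decide +kernel)
theorem L70946 : W_22 (nat_lit 6) (nat_lit 0x600006001200090001800000000000000000000000000) (nat_lit 0x0) (nat_lit 0x80018000100020000000060003000180000000000000) := T_22 (nat_lit 90) (nat_lit 140) (nat_lit 5) (nat_lit 5) (nat_lit 5) L70945 (by decide +kernel)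
theorem L70947 : W_22 (nat_lit 7) (nat_lit 0x600004001200090001800000000000000000000000000) (nat_lit 0x0) (nat_lit 0xc001a000100020000000060003000180000000000000) := T_22 (nat_lit 157) (nat_lit 174) (nat_lit 5) (nat_lit 5) (nat_lit 6) L70946 (by decide +kernel)
theorem L70948 : W_22 (nat_lit 8) (nat_lit 0x600004001200090000800000000000000000000000000) (nat_lit 0x0) (nat_lit 0xc001a0001000200010000e0003000180000000000000) := T_22 (nat_lit 108) (nat_lit 91) (nat_lit 6) (nat_lit 5) (nat_lit 9) L70947 (by decide +kernel)
theorem L70949 : W_22 (nat_lit 4) (nat_lit 0x600006001300090001800000000000000000000000000) (nat_lit 0x0) (nat_lit 0x20001000080018000000028000000000000000000000000000000) := T_22 (nat_lit 159) (nat_lit 160) (nat_lit 3) (nat_lit 4) (nat_lit 9) L70933 (by decide +kernel)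
theorem L70950 : W_22 (nat_lit 5) (nat_lit 0x600006001200090001800000000000000000000000000) (nat_lit 0x0) (nat_lit 0x20001000080018000100028000000040000000000000000000000) := T_22 (nat_lit 140) (nat_lit 90) (nat_lit 5) (nat_lit 5) (nat_lit 5) L70949 (by decide +kernel)
theorem L70951 : W_22 (nat_lit 6) (nat_lit 0x600004001200090001800000000000000000000000000) (nat_lit 0x0) (nat_lit 0x200010000c001a000100028000000040000000000000000000000) := T_22 (nat_lit 157) (nat_lit 174) (nat_lit 5) (nat_lit 5) (nat_lit 6) L70950 (by decide +kernel)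
theorem L70952 : W_22 (nat_lit 7) (nat_lit 0x600004001200090000800000000000000000000000000) (nat_lit 0x0) (nat_lit 0x200010000c001a0001000280010000c0000000000000000000000) := T_22 (nat_lit 108) (nat_lit 91) (nat_lit 6) (nat_lit 5) (nat_lit 9) L70951 (by decide +kernel)
theorem L70953 : W_22 (nat_lit 9) (nat_lit 0x600004001200090000000000000000000000000000000) (nat_lit 0x0) (nat_lit 0x200010000c001a000100028001c000e0007000380000000000000) := Q_22 (nat_lit 107) (C_22 L70936 (C_22 L70938 (C_22 L70942 (C_22 L70943 (C_22 L70948 (C_22 L70952 N_22)))))) (by decide +kernel)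
theorem L70954 : W_22 (nat_lit 2) (nat_lit 0x4000600016001200090000800040000000000000000000000) (nat_lit 0x0) (nat_lit 0x400020001000000000000000000) := D_22 (nat_lit 89) (nat_lit 72) (nat_lit 106) (nat_lit 4) (nat_lit 5) (nat_lit 8) (nat_lit 4) (nat_lit 5) (nat_lit 9) (by decide +kernel)
theorem L70955 : W_22 (nat_lit 3) (nat_lit 0x4000600016001200090000800000000000000000000000000) (nat_lit 0x0) (nat_lit 0x100000000400060001000000000000000000) := T_22 (nat_lit 90) (nat_lit 140) (nat_lit 5) (nat_lit 5) (nat_lit 5) L70954 (by decide +kernel)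
theorem L70956 : W_22 (nat_lit 4) (nat_lit 0x4000600016001200090000000000000000000000000000000) (nat_lit 0x0) (nat_lit 0x40000000100000000c00060001000000000000000000) := T_22 (nat_lit 107) (nat_lit 174) (nat_lit 5) (nat_lit 5) (nat_lit 6) L70955 (by decide +kernel)
theorem L70957 : W_22 (nat_lit 5) (nat_lit 0x4000600014001200090000000000000000000000000000000) (nat_lit 0x0) (nat_lit 0x4000a000100000000c00060001000000000000000000) := T_22 (nat_lit 157) (nat_lit 159) (nat_lit 3) (nat_lit 4) (nat_lit 9) L70956 (by decide +kernel)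
theorem L70958 : W_22 (nat_lit 6) (nat_lit 0x4000600004001200090000000000000000000000000000000) (nat_lit 0x0) (nat_lit 0x4001a000900000000c00060001000000000000000000) := T_22 (nat_lit 160) (nat_lit 143) (nat_lit 6) (nat_lit 7) (nat_lit 11) L70957 (by decide +kernel)
theorem L70959 : W_22 (nat_lit 7) (nat_lit 0x600004001200090000000000000000000000000000000) (nat_lit 0x0) (nat_lit 0x400004003a000900000000c00060001000000000000000000) := T_22 (nat_lit 194) (nat_lit 161) (nat_lit 5) (nat_lit 8) (nat_lit 7) L70958 (by decide +kernel)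
theorem L70960 : W_22 (nat_lit 2) (nat_lit 0xe80024001200090001800000000000000000000000000) (nat_lit 0x0) (nat_lit 0x800040002000000000000000000000000000000000000000) := D_22 (nat_lit 174) (nat_lit 191) (nat_lit 157) (nat_lit 5) (nat_lit 5) (nat_lit 7) (nat_lit 5) (nat_lit 5) (nat_lit 6) (by decide +kernel)
theorem L70961 : W_22 (nat_lit 3) (nat_lit 0xe00024001200090001800000000000000000000000000) (nat_lit 0x0) (nat_lit 0x8000c0002000000020000000000000000000000000000000) := T_22 (nat_lit 175) (nat_lit 125) (nat_lit 6) (nat_lit 5) (nat_lit 10) L70960 (by decide +kernel)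
theorem L70962 : W_22 (nat_lit 4) (nat_lit 0x600024001200090001800000000000000000000000000) (nat_lit 0x0) (nat_lit 0x108008c0002000000020000000000000000000000000000000) := T_22 (nat_lit 179) (nat_lit 196) (nat_lit 7) (nat_lit 8) (nat_lit 7) L70961 (by decide +kernel)
theorem L70963 : W_22 (nat_lit 5) (nat_lit 0x600024001200090000800000000000000000000000000) (nat_lit 0x0) (nat_lit 0x108008c0002000000020001000080000000000000000000000) := T_22 (nat_lit 108) (nat_lit 91) (nat_lit 6) (nat_lit 5) (nat_lit 9) L70962 (by decide +kernel)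
theorem L70964 : W_22 (nat_lit 6) (nat_lit 0x600004001200090000800000000000000000000000000) (nat_lit 0x0) (nat_lit 0x148008c0022000000020001000080000000000000000000000) := T_22 (nat_lit 161) (nat_lit 194) (nat_lit 5) (nat_lit 8) (nat_lit 7) L70963 (by decide +kernel)
theorem L70965 : W_22 (nat_lit 7) (nat_lit 0x600004001200090000000000000000000000000000000) (nat_lit 0x0) (nat_lit 0x148008c0022000100028001c000e0001000000000000000000) := Q_22 (nat_lit 107) (C_22 L70943 (C_22 L70936 (C_22 L70964 N_22))) (by decide +kernel)
theorem L70966 : W_22 (nat_lit 6) (nat_lit 0x680004001200090000000000000000000000000000000) (nat_lit 0x0) (nat_lit 0x4000000020000000128009c000a0000000000000000000000) := T_22 (nat_lit 161) (nat_lit 194) (nat_lit 5) (nat_lit 8) (nat_lit 7) L70362 (by decide +kernel)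
theorem L70967 : W_22 (nat_lit 6) (nat_lit 0x680004001200090000000000000000000000000000000) (nat_lit 0x0) (nat_lit 0x10005800040020000100108008400000000000000000000000000) := T_22 (nat_lit 161) (nat_lit 194) (nat_lit 5) (nat_lit 8) (nat_lit 7) L70355 (by decide +kernel)
theorem L70968 : W_22 (nat_lit 2) (nat_lit 0x180006c00340012000b8000000000000000000000000000000) (nat_lit 0x0) (nat_lit 0x2000100000000000000000800000000000000000000000000000000000) := D_22 (nat_lit 212) (nat_lit 229) (nat_lit 143) (nat_lit 4) (nat_lit 8) (nat_lit 13) (nat_lit 4) (nat_lit 8) (nat_lit 12) (by decide +kernel)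
theorem L70969 : W_22 (nat_lit 3) (nat_lit 0x100006c00340012000b8000000000000000000000000000000) (nat_lit 0x0) (nat_lit 0x2000300008000000000000800000000000000000000000000000000000) := T_22 (nat_lit 195) (nat_lit 213) (nat_lit 7) (nat_lit 8) (nat_lit 8) L70968 (by decide +kernel)
theorem L70970 : W_22 (nat_lit 4) (nat_lit 0x100006c00340012000b0000000000000000000000000000000) (nat_lit 0x0) (nat_lit 0x2000300008000000000000800008000400000000000000000000000000) := T_22 (nat_lit 123) (nat_lit 106) (nat_lit 4) (nat_lit 5) (nat_lit 10) L70969 (by decide +kernel)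
theorem L70971 : W_22 (nat_lit 5) (nat_lit 0x6c00340012000b0000000000000000000000000000000) (nat_lit 0x0) (nat_lit 0x2000300018000800000000800008000400000000000000000000000000) := T_22 (nat_lit 196) (nat_lit 179) (nat_lit 7) (nat_lit 8) (nat_lit 7) L70970 (by decide +kernel)
theorem L70972 : W_22 (nat_lit 6) (nat_lit 0x6c00240012000b0000000000000000000000000000000) (nat_lit 0x0) (nat_lit 0x2000300018000800018000800008000400000000000000000000000000) := T_22 (nat_lit 160) (nat_lit 159) (nat_lit 1) (nat_lit 8) (nat_lit 9) L70971 (by decide +kernel)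
theorem L70973 : W_22 (nat_lit 7) (nat_lit 0x6c00040012000b0000000000000000000000000000000) (nat_lit 0x0) (nat_lit 0x200030001c000800038000800008000400000000000000000000000000) := T_22 (nat_lit 161) (nat_lit 194) (nat_lit 5) (nat_lit 8) (nat_lit 7) L70972 (by decide +kernel)
theorem L70974 : W_22 (nat_lit 8) (nat_lit 0x6c0004001200090000000000000000000000000000000) (nat_lit 0x0) (nat_lit 0x200030001c000800038000800028001400000000000000000000000000) := T_22 (nat_lit 125) (nat_lit 108) (nat_lit 6) (nat_lit 5) (nat_lit 10) L70973 (by decide +kernel)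
theorem L70975 : W_22 (nat_lit 9) (nat_lit 0x680004001200090000000000000000000000000000000) (nat_lit 0x0) (nat_lit 0x200030001c800840038000800028001400000000000000000000000000) := T_22 (nat_lit 174) (nat_lit 191) (nat_lit 5) (nat_lit 5) (nat_lit 7) L70974 (by decide +kernel)
theorem L70976 : W_22 (nat_lit 2) (nat_lit 0x10006800040012000b8000000000000000000000000000000) (nat_lit 0x0) (nat_lit 0x10000800040000000000000000000000000000000000000000000) := D_22 (nat_lit 191) (nat_lit 174) (nat_lit 208) (nat_lit 5) (nat_lit 5) (nat_lit 7) (nat_lit 5) (nat_lit 5) (nat_lit 8) (by decide +kernel)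
theorem L70977 : W_22 (nat_lit 3) (nat_lit 0x6800040012000b8000000000000000000000000000000) (nat_lit 0x0) (nat_lit 0x10001800040000000100000000000000000000000000000000000) := T_22 (nat_lit 192) (nat_lit 140) (nat_lit 4) (nat_lit 5) (nat_lit 11) L70976 (by decide +kernel)
theorem L70978 : W_22 (nat_lit 4) (nat_lit 0x680004001200098000000000000000000000000000000) (nat_lit 0x0) (nat_lit 0x10001800040000000100020001000000000000000000000000000) := T_22 (nat_lit 125) (nat_lit 108) (nat_lit 6) (nat_lit 5) (nat_lit 10) L70977 (by decide +kernel)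
theorem L70979 : W_22 (nat_lit 5) (nat_lit 0x680004001200090000000000000000000000000000000) (nat_lit 0x0) (nat_lit 0x10001800040000000100028001400000000000000000000000000) := T_22 (nat_lit 123) (nat_lit 106) (nat_lit 4) (nat_lit 5) (nat_lit 10) L70978 (by decide +kernel)
theorem L70980 : W_22 (nat_lit 2) (nat_lit 0x180006c00340012001b0000000000000000000000000000000) (nat_lit 0x0) (nat_lit 0x2000100000000000000000800000000000000000000000000000000000) := D_22 (nat_lit 212) (nat_lit 229) (nat_lit 143) (nat_lit 4) (nat_lit 8) (nat_lit 13) (nat_lit 4) (nat_lit 8) (nat_lit 12) (by decide +kernel)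
theorem L70981 : W_22 (nat_lit 3) (nat_lit 0x100006c00340012001b0000000000000000000000000000000) (nat_lit 0x0) (nat_lit 0x2000300008000000000000800000000000000000000000000000000000) := T_22 (nat_lit 195) (nat_lit 213) (nat_lit 7) (nat_lit 8) (nat_lit 8) L70980 (by decide +kernel)
theorem L70982 : W_22 (nat_lit 4) (nat_lit 0x100006c00340012000b0000000000000000000000000000000) (nat_lit 0x0) (nat_lit 0x2000300008000000000000800100008000000000000000000000000000) := T_22 (nat_lit 128) (nat_lit 111) (nat_lit 6) (nat_lit 8) (nat_lit 10) L70981 (by decide +kernel)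
theorem L70983 : W_22 (nat_lit 5) (nat_lit 0x6c00340012000b0000000000000000000000000000000) (nat_lit 0x0) (nat_lit 0x2000300018000800000000800100008000000000000000000000000000) := T_22 (nat_lit 196) (nat_lit 179) (nat_lit 7) (nat_lit 8) (nat_lit 7) L70982 (by decide +kernel)
theorem L70984 : W_22 (nat_lit 6) (nat_lit 0x6c00240012000b0000000000000000000000000000000) (nat_lit 0x0) (nat_lit 0x2000300018000800018000800100008000000000000000000000000000) := T_22 (nat_lit 160) (nat_lit 159) (nat_lit 1) (nat_lit 8) (nat_lit 9) L70983 (by decide +kernel)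
theorem L70985 : W_22 (nat_lit 7) (nat_lit 0x6c00040012000b0000000000000000000000000000000) (nat_lit 0x0) (nat_lit 0x200030001c000800038000800100008000000000000000000000000000) := T_22 (nat_lit 161) (nat_lit 194) (nat_lit 5) (nat_lit 8) (nat_lit 7) L70984 (by decide +kernel)
theorem L70986 : W_22 (nat_lit 8) (nat_lit 0x6c0004001200090000000000000000000000000000000) (nat_lit 0x0) (nat_lit 0x200030001c000800038000800120009000000000000000000000000000) := T_22 (nat_lit 125) (nat_lit 108) (nat_lit 6) (nat_lit 5) (nat_lit 10) L70985 (by decide +kernel)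
theorem L70987 : W_22 (nat_lit 9) (nat_lit 0x680004001200090000000000000000000000000000000) (nat_lit 0x0) (nat_lit 0x200030001c800840038000800120009000000000000000000000000000) := T_22 (nat_lit 174) (nat_lit 191) (nat_lit 5) (nat_lit 5) (nat_lit 7) L70986 (by decide +kernel)
theorem L70988 : W_22 (nat_lit 10) (nat_lit 0x600004001200090000000000000000000000000000000) (nat_lit 0x0) (nat_lit 0x200031001d8008c0038000900128009c000a0000000000000000000000) := Q_22 (nat_lit 175) (C_22 L70966 (C_22 L70967 (C_22 L70975 (C_22 L70979 (C_22 L70987 N_22))))) (by decide +kernel)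
theorem L70989 : W_22 (nat_lit 2) (nat_lit 0x580006800340013401b8000000000000000000000000000000) (nat_lit 0x0) (nat_lit 0x2000100000000000000000800000000000000000000000000000000000) := D_22 (nat_lit 212) (nat_lit 229) (nat_lit 143) (nat_lit 4) (nat_lit 8) (nat_lit 13) (nat_lit 4) (nat_lit 8) (nat_lit 12) (by decide +kernel)
theorem L70990 : W_22 (nat_lit 3) (nat_lit 0x580006800240013401b8000000000000000000000000000000) (nat_lit 0x0) (nat_lit 0x2000100000000000018000800000000000000000000000000000000000) := T_22 (nat_lit 160) (nat_lit 159) (nat_lit 0) (nat_lit 8) (nat_lit 9) L70989 (by decide +kernel)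
theorem L70991 : W_22 (nat_lit 4) (nat_lit 0x580006800240013001b8000000000000000000000000000000) (nat_lit 0x0) (nat_lit 0x20001000000000000180008c0000000000000000000000000000000000) := T_22 (nat_lit 138) (nat_lit 139) (nat_lit 2) (nat_lit 2) (nat_lit 8) L70990 (by decide +kernel)
theorem L70992 : W_22 (nat_lit 5) (nat_lit 0x580006800240012001b8000000000000000000000000000000) (nat_lit 0x0) (nat_lit 0x20001000010000000180009c0000000000000000000000000000000000) := T_22 (nat_lit 140) (nat_lit 192) (nat_lit 4) (nat_lit 5) (nat_lit 11) L70991 (by decide +kernel)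
theorem L70993 : W_22 (nat_lit 6) (nat_lit 0x580006800240012001b0000000000000000000000000000000) (nat_lit 0x0) (nat_lit 0x20001000010000000180009c0008000400000000000000000000000000) := T_22 (nat_lit 123) (nat_lit 106) (nat_lit 4) (nat_lit 5) (nat_lit 10) L70992 (by decide +kernel)
theorem L70994 : W_22 (nat_lit 7) (nat_lit 0x180006800240012001b0000000000000000000000000000000) (nat_lit 0x0) (nat_lit 0x20001000610000000180009c0008000400000000000000000000000000) := T_22 (nat_lit 198) (nat_lit 197) (nat_lit 0) (nat_lit 11) (nat_lit 11) L70993 (by decide +kernel)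
theorem L70995 : W_22 (nat_lit 8) (nat_lit 0x100006800240012001b0000000000000000000000000000000) (nat_lit 0x0) (nat_lit 0x20003000690000000180009c0008000400000000000000000000000000) := T_22 (nat_lit 195) (nat_lit 213) (nat_lit 7) (nat_lit 8) (nat_lit 8) L70994 (by decide +kernel)
theorem L70996 : W_22 (nat_lit 9) (nat_lit 0x100006800240012000b0000000000000000000000000000000) (nat_lit 0x0) (nat_lit 0x20003000690000000180009c0108008400000000000000000000000000) := T_22 (nat_lit 128) (nat_lit 111) (nat_lit 6) (nat_lit 8) (nat_lit 10) L70995 (by decide +kernel)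
theorem L70997 : W_22 (nat_lit 10) (nat_lit 0x6800240012000b0000000000000000000000000000000) (nat_lit 0x0) (nat_lit 0x20003000790008000180009c0108008400000000000000000000000000) := T_22 (nat_lit 196) (nat_lit 179) (nat_lit 7) (nat_lit 8) (nat_lit 7) L70996 (by decide +kernel)
theorem L70998 : W_22 (nat_lit 11) (nat_lit 0x680024001200090000000000000000000000000000000) (nat_lit 0x0) (nat_lit 0x20003000790008000180009c0128009400000000000000000000000000) := T_22 (nat_lit 125) (nat_lit 108) (nat_lit 6) (nat_lit 5) (nat_lit 10) L70997 (by decide +kernel)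
theorem L70999 : W_22 (nat_lit 12) (nat_lit 0x680004001200090000000000000000000000000000000) (nat_lit 0x0) (nat_lit 0x200030007d0008000380009c0128009400000000000000000000000000) := T_22 (nat_lit 161) (nat_lit 194) (nat_lit 5) (nat_lit 8) (nat_lit 7) L70998 (by decide +kernel)
theorem L71000 : W_22 (nat_lit 13) (nat_lit 0x600004001200090000000000000000000000000000000) (nat_lit 0x0) (nat_lit 0x200031007d8008c00380009c0128009400000000000000000000000000) := Q_22 (nat_lit 175) (C_22 L70979 (C_22 L70967 (C_22 L70987 (C_22 L70999 N_22)))) (by decide +kernel)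
theorem L71001 : W_22 (nat_lit 2) (nat_lit 0x4000600016001200090001c00000000000000000000000000) (nat_lit 0x0) (nat_lit 0x80000000000028000000000000000000000000000000) := D_22 (nat_lit 175) (nat_lit 123) (nat_lit 125) (nat_lit 4) (nat_lit 5) (nat_lit 10) (nat_lit 6) (nat_lit 5) (nat_lit 10) (by decide +kernel)
theorem L71002 : W_22 (nat_lit 3) (nat_lit 0x4000600016001200090000c00000000000000000000000000) (nat_lit 0x0) (nat_lit 0x80000000000028001000080000000000000000000000) := T_22 (nat_lit 108) (nat_lit 91) (nat_lit 6) (nat_lit 5) (nat_lit 9) L71001 (by decide +kernel)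
theorem L71003 : W_22 (nat_lit 4) (nat_lit 0x4000600016001200090000800000000000000000000000000) (nat_lit 0x0) (nat_lit 0x800000000000280014000a0000000000000000000000) := T_22 (nat_lit 106) (nat_lit 89) (nat_lit 4) (nat_lit 5) (nat_lit 9) L71002 (by decide +kernel)
theorem L71004 : W_22 (nat_lit 5) (nat_lit 0x4000600016001200090000000000000000000000000000000) (nat_lit 0x0) (nat_lit 0xc0000000000028001c000a0000000000000000000000) := T_22 (nat_lit 107) (nat_lit 174) (nat_lit 5) (nat_lit 5) (nat_lit 6) L71003 (by decide +kernel)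
theorem L71005 : W_22 (nat_lit 6) (nat_lit 0x4000600014001200090000000000000000000000000000000) (nat_lit 0x0) (nat_lit 0xc000a000000028001c000a0000000000000000000000) := T_22 (nat_lit 157) (nat_lit 159) (nat_lit 3) (nat_lit 4) (nat_lit 9) L71004 (by decide +kernel)
theorem L71006 : W_22 (nat_lit 7) (nat_lit 0x4000600004001200090000000000000000000000000000000) (nat_lit 0x0) (nat_lit 0xc001a000800028001c000a0000000000000000000000) := T_22 (nat_lit 160) (nat_lit 143) (nat_lit 6) (nat_lit 7) (nat_lit 11) L71005 (by decide +kernel)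
theorem L71007 : W_22 (nat_lit 8) (nat_lit 0x600004001200090000000000000000000000000000000) (nat_lit 0x0) (nat_lit 0x40000c003a000800028001c000a0000000000000000000000) := T_22 (nat_lit 194) (nat_lit 161) (nat_lit 5) (nat_lit 8) (nat_lit 7) L71006 (by decide +kernel)
theorem L71008 : W_22 (nat_lit 2) (nat_lit 0x600014001200090000000000000000000000000000000) (nat_lit 0x0) (nat_lit 0x4000000020000800000000000000000000000000000000000) := D_22 (nat_lit 194) (nat_lit 161) (nat_lit 143) (nat_lit 5) (nat_lit 8) (nat_lit 7) (nat_lit 6) (nat_lit 7) (nat_lit 11) (by decide +kernel)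
theorem L71009 : W_22 (nat_lit 2) (nat_lit 0x600034001200090000000000000000000000000000000) (nat_lit 0x0) (nat_lit 0x80000a000000000000000000000000000000000000000) := D_22 (nat_lit 159) (nat_lit 179) (nat_lit 157) (nat_lit 3) (nat_lit 5) (nat_lit 9) (nat_lit 3) (nat_lit 4) (nat_lit 9) (by decide +kernel)
theorem L71010 : W_22 (nat_lit 3) (nat_lit 0x600014001200090000000000000000000000000000000) (nat_lit 0x0) (nat_lit 0x400080002a000000000000000000000000000000000000000) := T_22 (nat_lit 161) (nat_lit 194) (nat_lit 5) (nat_lit 8) (nat_lit 7) L71009 (by decide +kernel)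
theorem L71011 : W_22 (nat_lit 2) (nat_lit 0x4000600014001200090001c00000000000000000000000000) (nat_lit 0x0) (nat_lit 0x80000000000028000000000000000000000000000000) := D_22 (nat_lit 175) (nat_lit 123) (nat_lit 125) (nat_lit 4) (nat_lit 5) (nat_lit 10) (nat_lit 6) (nat_lit 5) (nat_lit 10) (by decide +kernel)
theorem L71012 : W_22 (nat_lit 3) (nat_lit 0x4000600014001200090000c00000000000000000000000000) (nat_lit 0x0) (nat_lit 0x80000000000028001000080000000000000000000000) := T_22 (nat_lit 108) (nat_lit 91) (nat_lit 6) (nat_lit 5) (nat_lit 9) L71011 (by decide +kernel)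
theorem L71013 : W_22 (nat_lit 4) (nat_lit 0x4000600014001200090000800000000000000000000000000) (nat_lit 0x0) (nat_lit 0x800000000000280014000a0000000000000000000000) := T_22 (nat_lit 106) (nat_lit 89) (nat_lit 4) (nat_lit 5) (nat_lit 9) L71012 (by decide +kernel)
theorem L71014 : W_22 (nat_lit 5) (nat_lit 0x600014001200090000800000000000000000000000000) (nat_lit 0x0) (nat_lit 0x40000800000008000280014000a0000000000000000000000) := T_22 (nat_lit 194) (nat_lit 143) (nat_lit 6) (nat_lit 7) (nat_lit 11) L71013 (by decide +kernel)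
theorem L71015 : W_22 (nat_lit 2) (nat_lit 0x600016001200090000c00040000000000000000000000) (nat_lit 0x0) (nat_lit 0x1000080004000000000000000000) := D_22 (nat_lit 91) (nat_lit 108) (nat_lit 74) (nat_lit 6) (nat_lit 5) (nat_lit 9) (nat_lit 6) (nat_lit 5) (nat_lit 8) (by decide +kernel)
theorem L71016 : W_22 (nat_lit 3) (nat_lit 0x600016001200090000c00000000000000000000000000) (nat_lit 0x0) (nat_lit 0x1000000010000c0004000000000000000000) := T_22 (nat_lit 90) (nat_lit 140) (nat_lit 5) (nat_lit 5) (nat_lit 5) L71015 (by decide +kernel)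
theorem L71017 : W_22 (nat_lit 4) (nat_lit 0x600014001200090000c00000000000000000000000000) (nat_lit 0x0) (nat_lit 0xa0001000000010000c0004000000000000000000) := T_22 (nat_lit 157) (nat_lit 159) (nat_lit 3) (nat_lit 4) (nat_lit 9) L71016 (by decide +kernel)
theorem L71018 : W_22 (nat_lit 5) (nat_lit 0x600014001200090000800000000000000000000000000) (nat_lit 0x0) (nat_lit 0xa0001000000014000e0004000000000000000000) := T_22 (nat_lit 106) (nat_lit 89) (nat_lit 4) (nat_lit 5) (nat_lit 9) L71017 (by decide +kernel)
theorem L71019 : W_22 (nat_lit 2) (nat_lit 0x4000600016001200098000c00040002000000000000000000) (nat_lit 0x0) (nat_lit 0x80004000200000000000000) := D_22 (nat_lit 74) (nat_lit 91) (nat_lit 57) (nat_lit 6) (nat_lit 5) (nat_lit 8) (nat_lit 6) (nat_lit 5) (nat_lit 7) (by decide +kernel)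
theorem L71020 : W_22 (nat_lit 3) (nat_lit 0x4000600016001200098000c00040000000000000000000000) (nat_lit 0x0) (nat_lit 0x80006000300000000000000) := T_22 (nat_lit 73) (nat_lit 56) (nat_lit 5) (nat_lit 5) (nat_lit 3) L71019 (by decide +kernel)
theorem L71021 : W_22 (nat_lit 4) (nat_lit 0x4000600016001200098000c00000000000000000000000000) (nat_lit 0x0) (nat_lit 0x1000000000000c0006000300000000000000) := T_22 (nat_lit 90) (nat_lit 140) (nat_lit 6) (nat_lit 4) (nat_lit 9) L71020 (by decide +kernel)
theorem L71022 : W_22 (nat_lit 5) (nat_lit 0x4000600014001200098000c00000000000000000000000000) (nat_lit 0x0) (nat_lit 0xa0001000000000000c0006000300000000000000) := T_22 (nat_lit 157) (nat_lit 159) (nat_lit 3) (nat_lit 4) (nat_lit 9) L71021 (by decide +kernel)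
theorem L71023 : W_22 (nat_lit 6) (nat_lit 0x4000600014001200090000c00000000000000000000000000) (nat_lit 0x0) (nat_lit 0x8000a0001000080000000c0006000300000000000000) := T_22 (nat_lit 123) (nat_lit 175) (nat_lit 4) (nat_lit 5) (nat_lit 10) L71022 (by decide +kernel)
theorem L71024 : W_22 (nat_lit 7) (nat_lit 0x600014001200090000c00000000000000000000000000) (nat_lit 0x0) (nat_lit 0x400008000a0009000080000000c0006000300000000000000) := T_22 (nat_lit 194) (nat_lit 143) (nat_lit 6) (nat_lit 7) (nat_lit 11) L71023 (by decide +kernel)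
theorem L71025 : W_22 (nat_lit 8) (nat_lit 0x600014001200090000800000000000000000000000000) (nat_lit 0x0) (nat_lit 0x400008000a0009000080004000e0006000300000000000000) := T_22 (nat_lit 106) (nat_lit 89) (nat_lit 4) (nat_lit 5) (nat_lit 9) L71024 (by decide +kernel)
theorem L71026 : W_22 (nat_lit 2) (nat_lit 0x600016001200090000800040000000000000000000000) (nat_lit 0x0) (nat_lit 0x400020001000000000000000000) := D_22 (nat_lit 89) (nat_lit 72) (nat_lit 106) (nat_lit 4) (nat_lit 5) (nat_lit 8) (nat_lit 4) (nat_lit 5) (nat_lit 9) (by decide +kernel)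
theorem L71027 : W_22 (nat_lit 3) (nat_lit 0x600016001200090000800000000000000000000000000) (nat_lit 0x0) (nat_lit 0x100000000400060001000000000000000000) := T_22 (nat_lit 90) (nat_lit 140) (nat_lit 5) (nat_lit 5) (nat_lit 5) L71026 (by decide +kernel)
theorem L71028 : W_22 (nat_lit 4) (nat_lit 0x600014001200090000800000000000000000000000000) (nat_lit 0x0) (nat_lit 0xa000100000000400060001000000000000000000) := T_22 (nat_lit 157) (nat_lit 159) (nat_lit 3) (nat_lit 4) (nat_lit 9) L71027 (by decide +kernel)
theorem L71029 : W_22 (nat_lit 2) (nat_lit 0x40006000160012000b0001800040001000000000000000000) (nat_lit 0x0) (nat_lit 0x2000180000000000000) := D_22 (nat_lit 73) (nat_lit 55) (nat_lit 56) (nat_lit 4) (nat_lit 5) (nat_lit 7) (nat_lit 7) (nat_lit 5) (nat_lit 3) (by decide +kernel)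
theorem L71030 : W_22 (nat_lit 3) (nat_lit 0x4000600016001200090001800040001000000000000000000) (nat_lit 0x0) (nat_lit 0x80000000000020000000000002000180000000000000) := T_22 (nat_lit 125) (nat_lit 175) (nat_lit 6) (nat_lit 5) (nat_lit 10) L71029 (by decide +kernel)
theorem L71031 : W_22 (nat_lit 4) (nat_lit 0x4000600016001200090001800040000000000000000000000) (nat_lit 0x0) (nat_lit 0x80000000000020000000020003000180000000000000) := T_22 (nat_lit 72) (nat_lit 89) (nat_lit 4) (nat_lit 5) (nat_lit 8) L71030 (by decide +kernel)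
theorem L71032 : W_22 (nat_lit 5) (nat_lit 0x4000600016001200090001800000000000000000000000000) (nat_lit 0x0) (nat_lit 0x80000000100020000000060003000180000000000000) := T_22 (nat_lit 90) (nat_lit 140) (nat_lit 5) (nat_lit 5) (nat_lit 5) L71031 (by decide +kernel)
theorem L71033 : W_22 (nat_lit 6) (nat_lit 0x4000600016001200090000800000000000000000000000000) (nat_lit 0x0) (nat_lit 0x800000001000200010000e0003000180000000000000) := T_22 (nat_lit 108) (nat_lit 91) (nat_lit 6) (nat_lit 5) (nat_lit 9) L71032 (by decide +kernel)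
theorem L71034 : W_22 (nat_lit 7) (nat_lit 0x4000600014001200090000800000000000000000000000000) (nat_lit 0x0) (nat_lit 0x8000a0001000200010000e0003000180000000000000) := T_22 (nat_lit 157) (nat_lit 159) (nat_lit 3) (nat_lit 4) (nat_lit 9) L71033 (by decide +kernel)
theorem L71035 : W_22 (nat_lit 8) (nat_lit 0x600014001200090000800000000000000000000000000) (nat_lit 0x0) (nat_lit 0x400008000a0009000200010000e0003000180000000000000) := T_22 (nat_lit 194) (nat_lit 143) (nat_lit 6) (nat_lit 7) (nat_lit 11) L71034 (by decide +kernel)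
theorem L71036 : W_22 (nat_lit 2) (nat_lit 0xf000500068001400120009a001800000000000000000000000000) (nat_lit 0x0) (nat_lit 0x3000100000000000000000000000000000000000000000000000000000) := D_22 (nat_lit 229) (nat_lit 228) (nat_lit 212) (nat_lit 3) (nat_lit 4) (nat_lit 12) (nat_lit 7) (nat_lit 7) (nat_lit 9) (by decide +kernel)
theorem L71037 : W_22 (nat_lit 3) (nat_lit 0x7000500068001400120009a001800000000000000000000000000) (nat_lit 0x0) (nat_lit 0x3000180008000000000000000000000000000000000000000000000000) := T_22 (nat_lit 211) (nat_lit 195) (nat_lit 2) (nat_lit 4) (nat_lit 12) L71036 (by decide +kernel)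
theorem L71038 : W_22 (nat_lit 4) (nat_lit 0x3000500068001400120009a001800000000000000000000000000) (nat_lit 0x0) (nat_lit 0x38001c0008000000000000000000000000000000000000000000000000) := T_22 (nat_lit 210) (nat_lit 227) (nat_lit 7) (nat_lit 5) (nat_lit 9) L71037 (by decide +kernel)
theorem L71039 : W_22 (nat_lit 5) (nat_lit 0x1000500068001400120009a001800000000000000000000000000) (nat_lit 0x0) (nat_lit 0x3a001e0008000000000000000000000000000000000000000000000000) := T_22 (nat_lit 209) (nat_lit 225) (nat_lit 5) (nat_lit 5) (nat_lit 9) L71038 (by decide +kernel)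
theorem L71040 : W_22 (nat_lit 6) (nat_lit 0x500068001400120009a001800000000000000000000000000) (nat_lit 0x0) (nat_lit 0x3a001f0008800000000000000000000000000000000000000000000000) := T_22 (nat_lit 208) (nat_lit 191) (nat_lit 5) (nat_lit 5) (nat_lit 8) L71039 (by decide +kernel)
theorem L71041 : W_22 (nat_lit 7) (nat_lit 0x400068001400120009a001800000000000000000000000000) (nat_lit 0x0) (nat_lit 0x3a001f0009800000000000100000000000000000000000000000000000) := T_22 (nat_lit 192) (nat_lit 140) (nat_lit 4) (nat_lit 5) (nat_lit 11) L71040 (by decide +kernel)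
theorem L71042 : W_22 (nat_lit 8) (nat_lit 0x4000680014001200098001800000000000000000000000000) (nat_lit 0x0) (nat_lit 0x3a001f0009800000000000100006000000000000000000000000000000) := T_22 (nat_lit 121) (nat_lit 122) (nat_lit 2) (nat_lit 2) (nat_lit 7) L71041 (by decide +kernel)
theorem L71043 : W_22 (nat_lit 9) (nat_lit 0x4000680014001200090001800000000000000000000000000) (nat_lit 0x0) (nat_lit 0x3a001f000980000000000010000e000400000000000000000000000000) := T_22 (nat_lit 123) (nat_lit 106) (nat_lit 4) (nat_lit 5) (nat_lit 10) L71042 (by decide +kernel)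
theorem L71044 : W_22 (nat_lit 10) (nat_lit 0x4000600014001200090001800000000000000000000000000) (nat_lit 0x0) (nat_lit 0x3a001f000980008000000010002e000400000000000000000000000000) := T_22 (nat_lit 175) (nat_lit 125) (nat_lit 6) (nat_lit 5) (nat_lit 10) L71043 (by decide +kernel)
theorem L71045 : W_22 (nat_lit 11) (nat_lit 0x600014001200090001800000000000000000000000000) (nat_lit 0x0) (nat_lit 0x3a001f000d80008000000090002e000400000000000000000000000000) := T_22 (nat_lit 194) (nat_lit 143) (nat_lit 6) (nat_lit 7) (nat_lit 11) L71044 (by decide +kernel)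
theorem L71046 : W_22 (nat_lit 12) (nat_lit 0x600014001200090000800000000000000000000000000) (nat_lit 0x0) (nat_lit 0x3a001f000d80008000000090002e001400080000000000000000000000) := T_22 (nat_lit 108) (nat_lit 91) (nat_lit 6) (nat_lit 5) (nat_lit 9) L71045 (by decide +kernel)
theorem L71047 : W_22 (nat_lit 13) (nat_lit 0x600014001200090000000000000000000000000000000) (nat_lit 0x0) (nat_lit 0x3a001f000d80008000a00090002e001c000e0007000380000000000000) := Q_22 (nat_lit 107) (C_22 L71014 (C_22 L71018 (C_22 L71025 (C_22 L71028 (C_22 L71035 (C_22 L71046 N_22)))))) (by decide +kernel)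
theorem L71048 : W_22 (nat_lit 2) (nat_lit 0x60001c001200090000000000000000000000000000000) (nat_lit 0x0) (nat_lit 0x800020000100000000000000000000000000000000000) := D_22 (nat_lit 161) (nat_lit 179) (nat_lit 140) (nat_lit 3) (nat_lit 5) (nat_lit 9) (nat_lit 0) (nat_lit 8) (nat_lit 9) (by decide +kernel)
theorem L71049 : W_22 (nat_lit 3) (nat_lit 0x600014001200090000000000000000000000000000000) (nat_lit 0x0) (nat_lit 0x80002a000100000000000000000000000000000000000) := T_22 (nat_lit 159) (nat_lit 157) (nat_lit 3) (nat_lit 4) (nat_lit 9) L71048 (by decide +kernel)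
theorem L71050 : W_22 (nat_lit 14) (nat_lit 0x600004001200090000000000000000000000000000000) (nat_lit 0x0) (nat_lit 0x3a001f000d80088003a00090002e001c000e0007000380000000000000) := Q_22 (nat_lit 160) (C_22 L71008 (C_22 L71010 (C_22 L71047 (C_22 L71049 N_22)))) (by decide +kernel)
theorem L71051 : W_22 (nat_lit 7) (nat_lit 0x4000600016001200090000000000000000000000000000000) (nat_lit 0x0) (nat_lit 0xc00000001000200018000e0003000180000000000000) := T_22 (nat_lit 107) (nat_lit 174) (nat_lit 5) (nat_lit 5) (nat_lit 6) L71033 (by decide +kernel)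
theorem L71052 : W_22 (nat_lit 8) (nat_lit 0x4000600014001200090000000000000000000000000000000) (nat_lit 0x0) (nat_lit 0xc000a0001000200018000e0003000180000000000000) := T_22 (nat_lit 157) (nat_lit 159) (nat_lit 3) (nat_lit 4) (nat_lit 9) L71051 (by decide +kernel)
theorem L71053 : W_22 (nat_lit 9) (nat_lit 0x4000600004001200090000000000000000000000000000000) (nat_lit 0x0) (nat_lit 0xc001a0009000200018000e0003000180000000000000) := T_22 (nat_lit 160) (nat_lit 143) (nat_lit 6) (nat_lit 7) (nat_lit 11) L71052 (by decide +kernel)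
theorem L71054 : W_22 (nat_lit 10) (nat_lit 0x600004001200090000000000000000000000000000000) (nat_lit 0x0) (nat_lit 0x40000c003a0009000200018000e0003000180000000000000) := T_22 (nat_lit 194) (nat_lit 161) (nat_lit 5) (nat_lit 8) (nat_lit 7) L71053 (by decide +kernel)
theorem L71055 : W_22 (nat_lit 15) (nat_lit 0x600004001200080000000000000000000000000000000) (nat_lit 0x0) (nat_lit 0x3a003f007d8008c003a0009c013e009c000e0007000380000000000000) := Q_22 (nat_lit 124) (C_22 L70953 (C_22 L70959 (C_22 L70965 (C_22 L70988 (C_22 L71000 (C_22 L71007 (C_22 L71050 (C_22 L71054 N_22)))))))) (by decide +kernel)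
theorem L71056 : W_22 (nat_lit 2) (nat_lit 0x60000e001200080000000000000000000000000000000) (nat_lit 0x0) (nat_lit 0x180001000000000000000000000000000000000000000) := D_22 (nat_lit 176) (nat_lit 156) (nat_lit 175) (nat_lit 3) (nat_lit 3) (nat_lit 9) (nat_lit 0) (nat_lit 8) (nat_lit 10) (by decide +kernel)
theorem L71057 : W_22 (nat_lit 3) (nat_lit 0x600006001200080000000000000000000000000000000) (nat_lit 0x0) (nat_lit 0x180019000000000000000000000000000000000000000) := T_22 (nat_lit 159) (nat_lit 160) (nat_lit 3) (nat_lit 4) (nat_lit 9) L71056 (by decide +kernel)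
theorem L71058 : W_22 (nat_lit 2) (nat_lit 0x4000600006001200080000000000000000000000000000000) (nat_lit 0x0) (nat_lit 0x18000800000000000000000000000000000000000) := D_22 (nat_lit 160) (nat_lit 159) (nat_lit 143) (nat_lit 3) (nat_lit 4) (nat_lit 9) (nat_lit 6) (nat_lit 7) (nat_lit 11) (by decide +kernel)
theorem L71059 : W_22 (nat_lit 3) (nat_lit 0x600006001200080000000000000000000000000000000) (nat_lit 0x0) (nat_lit 0x4000000038000800000000000000000000000000000000000) := T_22 (nat_lit 194) (nat_lit 161) (nat_lit 5) (nat_lit 8) (nat_lit 7) L71058 (by decide +kernel)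
theorem L71060 : W_22 (nat_lit 8) (nat_lit 0x600006001200080000000000000000000000000000000) (nat_lit 0x0) (nat_lit 0x300018001c0000000100038001c000e0000000000000000000000) := T_22 (nat_lit 175) (nat_lit 176) (nat_lit 0) (nat_lit 8) (nat_lit 10) L70912 (by decide +kernel)
theorem L71061 : W_22 (nat_lit 9) (nat_lit 0x600004001200080000000000000000000000000000000) (nat_lit 0x0) (nat_lit 0x300058001c003b000900038001c000e0000000000000000000000) := Q_22 (nat_lit 157) (C_22 L71057 (C_22 L71059 (C_22 L71060 N_22))) (by decide +kernel)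
theorem L71062 : W_22 (nat_lit 16) (nat_lit 0x200004001200080000000000000000000000000000000) (nat_lit 0x0) (nat_lit 0x3a003f007dc01dc01fb0009c013e009c000e0007000380000000000000) := Q_22 (nat_lit 178) (C_22 L70744 (C_22 L70589 (C_22 L71055 (C_22 L70578 (C_22 L70574 (C_22 L71061 N_22)))))) (by decide +kernel)
theorem L71063 : W_22 (nat_lit 2) (nat_lit 0x20001e0012000d0000c00040006000100000000000000) (nat_lit 0x0) (nat_lit 0x1000080004000000000) := D_22 (nat_lit 55) (nat_lit 38) (nat_lit 72) (nat_lit 4) (nat_lit 5) (nat_lit 6) (nat_lit 4) (nat_lit 5) (nat_lit 7) (by decide +kernel)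
theorem L71064 : W_22 (nat_lit 3) (nat_lit 0x20001e0012000d0000c00040006000000000000000000) (nat_lit 0x0) (nat_lit 0x8000000000001000180004000000000) := T_22 (nat_lit 56) (nat_lit 123) (nat_lit 5) (nat_lit 5) (nat_lit 3) L71063 (by decide +kernel)
theorem L71065 : W_22 (nat_lit 4) (nat_lit 0x20001e0012000d0000c00040004000000000000000000) (nat_lit 0x0) (nat_lit 0x8000000000003000380004000000000) := T_22 (nat_lit 73) (nat_lit 57) (nat_lit 6) (nat_lit 5) (nat_lit 7) L71064 (by decide +kernel)
theorem L71066 : W_22 (nat_lit 5) (nat_lit 0x20001e0012000d0000c00040000000000000000000000) (nat_lit 0x0) (nat_lit 0x8000000080007000380004000000000) := T_22 (nat_lit 74) (nat_lit 91) (nat_lit 6) (nat_lit 5) (nat_lit 8) L71065 (by decide +kernel)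
theorem L71067 : W_22 (nat_lit 6) (nat_lit 0x20000e0012000d0000c00040000000000000000000000) (nat_lit 0x0) (nat_lit 0x10000800008000000080007000380004000000000) := T_22 (nat_lit 160) (nat_lit 143) (nat_lit 2) (nat_lit 4) (nat_lit 9) L71066 (by decide +kernel)
theorem L71068 : W_22 (nat_lit 7) (nat_lit 0x20000e0012000d0000c00000000000000000000000000) (nat_lit 0x0) (nat_lit 0x100009000080000000c0007000380004000000000) := T_22 (nat_lit 90) (nat_lit 140) (nat_lit 5) (nat_lit 5) (nat_lit 5) L71067 (by decide +kernel)
theorem L71069 : W_22 (nat_lit 8) (nat_lit 0x20000c0012000d0000c00000000000000000000000000) (nat_lit 0x0) (nat_lit 0x400120009000080000000c0007000380004000000000) := T_22 (nat_lit 157) (nat_lit 174) (nat_lit 5) (nat_lit 5) (nat_lit 6) L71068 (by decide +kernel)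
theorem L71070 : W_22 (nat_lit 9) (nat_lit 0x2000040012000d0000c00000000000000000000000000) (nat_lit 0x0) (nat_lit 0x14001a0009000080000000c0007000380004000000000) := T_22 (nat_lit 159) (nat_lit 176) (nat_lit 7) (nat_lit 5) (nat_lit 6) L71069 (by decide +kernel)
theorem L71071 : W_22 (nat_lit 10) (nat_lit 0x200004001200090000c00000000000000000000000000) (nat_lit 0x0) (nat_lit 0x14001a0009000680000000c0007000380004000000000) := T_22 (nat_lit 126) (nat_lit 125) (nat_lit 0) (nat_lit 8) (nat_lit 7) L71070 (by decide +kernel)
theorem L71072 : W_22 (nat_lit 11) (nat_lit 0x200004001200090000800000000000000000000000000) (nat_lit 0x0) (nat_lit 0x14001a0009000680004000e0007000380004000000000) := T_22 (nat_lit 106) (nat_lit 89) (nat_lit 4) (nat_lit 5) (nat_lit 9) L71071 (by decide +kernel)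
theorem L71073 : W_22 (nat_lit 5) (nat_lit 0x2800040012000d0000c00000000000000000000000000) (nat_lit 0x0) (nat_lit 0xc800140038000800000000000000000000000000000000000) := T_22 (nat_lit 176) (nat_lit 159) (nat_lit 7) (nat_lit 5) (nat_lit 6) L32059 (by decide +kernel)
theorem L71074 : W_22 (nat_lit 6) (nat_lit 0x2000040012000d0000c00000000000000000000000000) (nat_lit 0x0) (nat_lit 0xc8001c0038000800008000000000000000000000000000000) := T_22 (nat_lit 175) (nat_lit 123) (nat_lit 4) (nat_lit 5) (nat_lit 10) L71073 (by decide +kernel)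
theorem L71075 : W_22 (nat_lit 7) (nat_lit 0x200004001200090000c00000000000000000000000000) (nat_lit 0x0) (nat_lit 0xc8001c0038000800068000000000000000000000000000000) := T_22 (nat_lit 126) (nat_lit 125) (nat_lit 0) (nat_lit 8) (nat_lit 7) L71074 (by decide +kernel)
theorem L71076 : W_22 (nat_lit 8) (nat_lit 0x200004001200090000800000000000000000000000000) (nat_lit 0x0) (nat_lit 0xc8001c0038000800068000400020000000000000000000000) := T_22 (nat_lit 106) (nat_lit 89) (nat_lit 4) (nat_lit 5) (nat_lit 9) L71075 (by decide +kernel)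
theorem L71077 : W_22 (nat_lit 2) (nat_lit 0x20000c001300090000800060004000000000000000000) (nat_lit 0x0) (nat_lit 0x8000000000002000200000000000000) := D_22 (nat_lit 73) (nat_lit 123) (nat_lit 57) (nat_lit 5) (nat_lit 5) (nat_lit 4) (nat_lit 6) (nat_lit 5) (nat_lit 7) (by decide +kernel)
theorem L71078 : W_22 (nat_lit 3) (nat_lit 0x20000c001200090000800060004000000000000000000) (nat_lit 0x0) (nat_lit 0x2000100008000000000002000200000000000000) := T_22 (nat_lit 140) (nat_lit 157) (nat_lit 5) (nat_lit 5) (nat_lit 5) L71077 (by decide +kernel)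
theorem L71079 : W_22 (nat_lit 4) (nat_lit 0x20000c001200090000800060000000000000000000000) (nat_lit 0x0) (nat_lit 0x2000100008000000080006000200000000000000) := T_22 (nat_lit 74) (nat_lit 91) (nat_lit 6) (nat_lit 5) (nat_lit 8) L71078 (by decide +kernel)
theorem L71080 : W_22 (nat_lit 5) (nat_lit 0x200004001200090000800060000000000000000000000) (nat_lit 0x0) (nat_lit 0x10000a000100008000000080006000200000000000000) := T_22 (nat_lit 159) (nat_lit 176) (nat_lit 7) (nat_lit 5) (nat_lit 6) L71079 (by decide +kernel)
theorem L71081 : W_22 (nat_lit 6) (nat_lit 0x200004001200090000800020000000000000000000000) (nat_lit 0x0) (nat_lit 0x10000a0001000080000000c0007000200000000000000) := T_22 (nat_lit 90) (nat_lit 72) (nat_lit 4) (nat_lit 5) (nat_lit 8) L71080 (by decide +kernel)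
theorem L71082 : W_22 (nat_lit 7) (nat_lit 0x200004001200090000800000000000000000000000000) (nat_lit 0x0) (nat_lit 0x10000a0001000080004000e0007000200000000000000) := T_22 (nat_lit 89) (nat_lit 106) (nat_lit 4) (nat_lit 5) (nat_lit 9) L71081 (by decide +kernel)
theorem L71083 : W_22 (nat_lit 2) (nat_lit 0x20000e001200090000800040000000000000000000000) (nat_lit 0x0) (nat_lit 0x400020001000000000000000000) := D_22 (nat_lit 89) (nat_lit 72) (nat_lit 106) (nat_lit 4) (nat_lit 5) (nat_lit 8) (nat_lit 4) (nat_lit 5) (nat_lit 9) (by decide +kernel)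
theorem L71084 : W_22 (nat_lit 3) (nat_lit 0x20000e001200090000800000000000000000000000000) (nat_lit 0x0) (nat_lit 0x100000000400060001000000000000000000) := T_22 (nat_lit 90) (nat_lit 140) (nat_lit 5) (nat_lit 5) (nat_lit 5) L71083 (by decide +kernel)
theorem L71085 : W_22 (nat_lit 4) (nat_lit 0x20000c001200090000800000000000000000000000000) (nat_lit 0x0) (nat_lit 0x40002000100000000400060001000000000000000000) := T_22 (nat_lit 157) (nat_lit 174) (nat_lit 5) (nat_lit 5) (nat_lit 6) L71084 (by decide +kernel)
theorem L71086 : W_22 (nat_lit 5) (nat_lit 0x200004001200090000800000000000000000000000000) (nat_lit 0x0) (nat_lit 0x14000a000100000000400060001000000000000000000) := T_22 (nat_lit 159) (nat_lit 176) (nat_lit 7) (nat_lit 5) (nat_lit 6) L71085 (by decide +kernel)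
theorem L71087 : W_22 (nat_lit 2) (nat_lit 0x20000e001200090000800040005000000000000000000) (nat_lit 0x0) (nat_lit 0x2000280000000000000) := D_22 (nat_lit 73) (nat_lit 55) (nat_lit 57) (nat_lit 4) (nat_lit 5) (nat_lit 7) (nat_lit 6) (nat_lit 5) (nat_lit 7) (by decide +kernel)
theorem L71088 : W_22 (nat_lit 3) (nat_lit 0x20000e001200090000800040001000000000000000000) (nat_lit 0x0) (nat_lit 0x80006000280000000000000) := T_22 (nat_lit 74) (nat_lit 91) (nat_lit 6) (nat_lit 5) (nat_lit 8) L71087 (by decide +kernel)
theorem L71089 : W_22 (nat_lit 4) (nat_lit 0x20000e001200090000800040000000000000000000000) (nat_lit 0x0) (nat_lit 0xa0007000280000000000000) := T_22 (nat_lit 72) (nat_lit 89) (nat_lit 4) (nat_lit 5) (nat_lit 8) L71088 (by decide +kernel)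
theorem L71090 : W_22 (nat_lit 5) (nat_lit 0x20000e001200090000800000000000000000000000000) (nat_lit 0x0) (nat_lit 0x1000000000000e0007000280000000000000) := T_22 (nat_lit 90) (nat_lit 140) (nat_lit 5) (nat_lit 5) (nat_lit 5) L71089 (by decide +kernel)
theorem L71091 : W_22 (nat_lit 6) (nat_lit 0x20000c001200090000800000000000000000000000000) (nat_lit 0x0) (nat_lit 0x400020001000000000000e0007000280000000000000) := T_22 (nat_lit 157) (nat_lit 174) (nat_lit 5) (nat_lit 5) (nat_lit 6) L71090 (by decide +kernel)
theorem L71092 : W_22 (nat_lit 7) (nat_lit 0x200004001200090000800000000000000000000000000) (nat_lit 0x0) (nat_lit 0x14000a0001000000000000e0007000280000000000000) := T_22 (nat_lit 159) (nat_lit 176) (nat_lit 7) (nat_lit 5) (nat_lit 6) L71091 (by decide +kernel)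
theorem L71093 : W_22 (nat_lit 2) (nat_lit 0x20000e001300090000800000000000000000000000000) (nat_lit 0x0) (nat_lit 0x100000c0000000000000000000000000000000000) := D_22 (nat_lit 139) (nat_lit 138) (nat_lit 160) (nat_lit 3) (nat_lit 2) (nat_lit 8) (nat_lit 0) (nat_lit 7) (nat_lit 9) (by decide +kernel)
theorem L71094 : W_22 (nat_lit 3) (nat_lit 0x200006001300090000800000000000000000000000000) (nat_lit 0x0) (nat_lit 0x1000180000c0000000000000000000000000000000000) := T_22 (nat_lit 159) (nat_lit 176) (nat_lit 7) (nat_lit 5) (nat_lit 6) L71093 (by decide +kernel)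
theorem L71095 : W_22 (nat_lit 4) (nat_lit 0x200006001200090000800000000000000000000000000) (nat_lit 0x0) (nat_lit 0x1000180001c0000000000040000000000000000000000) := T_22 (nat_lit 140) (nat_lit 90) (nat_lit 5) (nat_lit 5) (nat_lit 5) L71094 (by decide +kernel)
theorem L71096 : W_22 (nat_lit 5) (nat_lit 0x200004001200090000800000000000000000000000000) (nat_lit 0x0) (nat_lit 0x14001a0001c0000000000040000000000000000000000) := T_22 (nat_lit 157) (nat_lit 174) (nat_lit 5) (nat_lit 5) (nat_lit 6) L71095 (by decide +kernel)
theorem L71097 : W_22 (nat_lit 12) (nat_lit 0x200004001200090000000000000000000000000000000) (nat_lit 0x0) (nat_lit 0xc8001c003a0009c0068000c000e0007000380004000000000) := Q_22 (nat_lit 107) (C_22 L70503 (C_22 L39589 (C_22 L71072 (C_22 L71076 (C_22 L71082 (C_22 L71086 (C_22 L71092 (C_22 L71096 N_22)))))))) (by decide +kernel)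
theorem L71098 : W_22 (nat_lit 6) (nat_lit 0x200004001200090000000000000000000000000000000) (nat_lit 0x0) (nat_lit 0x14001a0001c0060003c000e0004000000000000000000) := Q_22 (nat_lit 107) (C_22 L71096 (C_22 L39666 (C_22 L39576 N_22))) (by decide +kernel)
theorem L71099 : W_22 (nat_lit 9) (nat_lit 0x200004001200090000000000000000000000000000000) (nat_lit 0x0) (nat_lit 0xc8001c003800090016c003c000a0000000000000000000000) := Q_22 (nat_lit 107) (C_22 L70560 (C_22 L70498 (C_22 L71076 (C_22 L40007 (C_22 L39576 N_22))))) (by decide +kernel)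
theorem L71100 : W_22 (nat_lit 6) (nat_lit 0x40002c0004001a000b8000000000000000000000000000000) (nat_lit 0x0) (nat_lit 0x870013000b800000000000000000000000000000000000000) := T_22 (nat_lit 176) (nat_lit 195) (nat_lit 3) (nat_lit 4) (nat_lit 10) L32986 (by decide +kernel)
theorem L71101 : W_22 (nat_lit 7) (nat_lit 0x2c0004001a000b8000000000000000000000000000000) (nat_lit 0x0) (nat_lit 0xc70013001b800000000000000000000000000000000000000) := T_22 (nat_lit 194) (nat_lit 160) (nat_lit 6) (nat_lit 7) (nat_lit 11) L71100 (by decide +kernel)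
theorem L71102 : W_22 (nat_lit 8) (nat_lit 0x280004001a000b8000000000000000000000000000000) (nat_lit 0x0) (nat_lit 0xcf0017001b800000000000000000000000000000000000000) := T_22 (nat_lit 174) (nat_lit 191) (nat_lit 5) (nat_lit 5) (nat_lit 7) L71101 (by decide +kernel)
theorem L71103 : W_22 (nat_lit 9) (nat_lit 0x2800040012000b8000000000000000000000000000000) (nat_lit 0x0) (nat_lit 0xcf0017001b800800040000000000000000000000000000000) := T_22 (nat_lit 143) (nat_lit 126) (nat_lit 3) (nat_lit 4) (nat_lit 7) L71102 (by decide +kernel)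
theorem L71104 : W_22 (nat_lit 10) (nat_lit 0x280004001200098000000000000000000000000000000) (nat_lit 0x0) (nat_lit 0xcf0017001b800800060001000000000000000000000000000) := T_22 (nat_lit 125) (nat_lit 108) (nat_lit 6) (nat_lit 5) (nat_lit 10) L71103 (by decide +kernel)
theorem L71105 : W_22 (nat_lit 11) (nat_lit 0x280004001200090000000000000000000000000000000) (nat_lit 0x0) (nat_lit 0xcf0017001b800800068001400000000000000000000000000) := T_22 (nat_lit 123) (nat_lit 106) (nat_lit 4) (nat_lit 5) (nat_lit 10) L71104 (by decide +kernel)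
theorem L71106 : W_22 (nat_lit 2) (nat_lit 0x28000800058002800160013800b0000000000000000000000000000000) (nat_lit 0x0) (nat_lit 0x50001000000000000000000000000000000000000000000000000000000000) := D_22 (nat_lit 228) (nat_lit 244) (nat_lit 246) (nat_lit 5) (nat_lit 7) (nat_lit 10) (nat_lit 7) (nat_lit 7) (nat_lit 10) (by decide +kernel)
theorem L71107 : W_22 (nat_lit 3) (nat_lit 0x8000800058002800160013800b0000000000000000000000000000000) (nat_lit 0x0) (nat_lit 0x50003000100000000000000000000000000000000000000000000000000000) := T_22 (nat_lit 229) (nat_lit 212) (nat_lit 7) (nat_lit 7) (nat_lit 9) L71106 (by decide +kernel)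
theorem L71108 : W_22 (nat_lit 4) (nat_lit 0x800058002800160013800b0000000000000000000000000000000) (nat_lit 0x0) (nat_lit 0x50003800140000000000000000000000000000000000000000000000000000) := T_22 (nat_lit 227) (nat_lit 210) (nat_lit 5) (nat_lit 7) (nat_lit 9) L71107 (by decide +kernel)
theorem L71109 : W_22 (nat_lit 5) (nat_lit 0x58002800160013800b0000000000000000000000000000000) (nat_lit 0x0) (nat_lit 0x500038001c0000000000020000000000000000000000000000000000000000) := T_22 (nat_lit 211) (nat_lit 161) (nat_lit 6) (nat_lit 7) (nat_lit 12) L71108 (by decide +kernel)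
theorem L71110 : W_22 (nat_lit 6) (nat_lit 0x18002800160013800b0000000000000000000000000000000) (nat_lit 0x0) (nat_lit 0x500038001c0004000000020000800000000000000000000000000000000000) := T_22 (nat_lit 194) (nat_lit 143) (nat_lit 6) (nat_lit 7) (nat_lit 11) L71109 (by decide +kernel)
theorem L71111 : W_22 (nat_lit 7) (nat_lit 0x18002800060013800b0000000000000000000000000000000) (nat_lit 0x0) (nat_lit 0x500038001c0004000000038000800000000000000000000000000000000000) := T_22 (nat_lit 160) (nat_lit 159) (nat_lit 0) (nat_lit 7) (nat_lit 9) L71110 (by decide +kernel)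
theorem L71112 : W_22 (nat_lit 8) (nat_lit 0x18002800060013000b0000000000000000000000000000000) (nat_lit 0x0) (nat_lit 0x500038001c00040000000380008c0000000000000000000000000000000000) := T_22 (nat_lit 139) (nat_lit 138) (nat_lit 2) (nat_lit 2) (nat_lit 8) L71111 (by decide +kernel)
theorem L71113 : W_22 (nat_lit 9) (nat_lit 0x18002800040013000b0000000000000000000000000000000) (nat_lit 0x0) (nat_lit 0x500038001e000400000003a0008c0000000000000000000000000000000000) := T_22 (nat_lit 157) (nat_lit 209) (nat_lit 4) (nat_lit 5) (nat_lit 12) L71112 (by decide +kernel)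
theorem L71114 : W_22 (nat_lit 10) (nat_lit 0x8002800040013000b0000000000000000000000000000000) (nat_lit 0x0) (nat_lit 0x500038001f000500000003a0008c0000000000000000000000000000000000) := T_22 (nat_lit 192) (nat_lit 208) (nat_lit 5) (nat_lit 5) (nat_lit 8) L71113 (by decide +kernel)
theorem L71115 : W_22 (nat_lit 11) (nat_lit 0x8002800040012000b0000000000000000000000000000000) (nat_lit 0x0) (nat_lit 0x500038001f000500000003a0009c0040000000000000000000000000000000) := T_22 (nat_lit 140) (nat_lit 126) (nat_lit 1) (nat_lit 8) (nat_lit 7) L71114 (by decide +kernel)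
theorem L71116 : W_22 (nat_lit 12) (nat_lit 0x800280004001200090000000000000000000000000000000) (nat_lit 0x0) (nat_lit 0x500038001f000500000003a0009c0060001000000000000000000000000000) := T_22 (nat_lit 125) (nat_lit 108) (nat_lit 6) (nat_lit 5) (nat_lit 10) L71115 (by decide +kernel)
theorem L71117 : W_22 (nat_lit 13) (nat_lit 0x280004001200090000000000000000000000000000000) (nat_lit 0x0) (nat_lit 0x500038001f000580004003a0009c0060001000000000000000000000000000) := T_22 (nat_lit 191) (nat_lit 174) (nat_lit 5) (nat_lit 5) (nat_lit 7) L71116 (by decide +kernel)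
theorem L71118 : W_22 (nat_lit 14) (nat_lit 0x200004001200090000000000000000000000000000000) (nat_lit 0x0) (nat_lit 0x500038001f000df001f003b8009c0068001400000000000000000000000000) := Q_22 (nat_lit 175) (C_22 L32056 (C_22 L71105 (C_22 L39889 (C_22 L71117 N_22)))) (by decide +kernel)
theorem L71119 : W_22 (nat_lit 2) (nat_lit 0x20000e001a000b0001800000000000000000000000000) (nat_lit 0x0) (nat_lit 0x148000000000000000000000000000000) := D_22 (nat_lit 126) (nat_lit 123) (nat_lit 128) (nat_lit 3) (nat_lit 4) (nat_lit 7) (nat_lit 0) (nat_lit 9) (nat_lit 7) (by decide +kernel)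
theorem L71120 : W_22 (nat_lit 3) (nat_lit 0x20000e001a00090001800000000000000000000000000) (nat_lit 0x0) (nat_lit 0x80000000000168000000000000000000000000000000) := T_22 (nat_lit 125) (nat_lit 175) (nat_lit 6) (nat_lit 5) (nat_lit 10) L71119 (by decide +kernel)
theorem L71121 : W_22 (nat_lit 4) (nat_lit 0x20000e001200090001800000000000000000000000000) (nat_lit 0x0) (nat_lit 0x80010000800168000000000000000000000000000000) := T_22 (nat_lit 143) (nat_lit 160) (nat_lit 2) (nat_lit 4) (nat_lit 9) L71120 (by decide +kernel)
theorem L71122 : W_22 (nat_lit 5) (nat_lit 0x20000c001200090001800000000000000000000000000) (nat_lit 0x0) (nat_lit 0xc0012000800168000000000000000000000000000000) := T_22 (nat_lit 157) (nat_lit 174) (nat_lit 5) (nat_lit 5) (nat_lit 6) L71121 (by decide +kernel)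
theorem L71123 : W_22 (nat_lit 6) (nat_lit 0x20000c001200090000800000000000000000000000000) (nat_lit 0x0) (nat_lit 0xc0012000800168001000080000000000000000000000) := T_22 (nat_lit 108) (nat_lit 91) (nat_lit 6) (nat_lit 5) (nat_lit 9) L71122 (by decide +kernel)
theorem L71124 : W_22 (nat_lit 7) (nat_lit 0x200004001200090000800000000000000000000000000) (nat_lit 0x0) (nat_lit 0x1c001a000800168001000080000000000000000000000) := T_22 (nat_lit 159) (nat_lit 176) (nat_lit 7) (nat_lit 5) (nat_lit 6) L71123 (by decide +kernel)
theorem L71125 : W_22 (nat_lit 9) (nat_lit 0x200004001200090000000000000000000000000000000) (nat_lit 0x0) (nat_lit 0xc8001c003a000800168003c000a0000000000000000000000) := Q_22 (nat_lit 107) (C_22 L70503 (C_22 L39589 (C_22 L71076 (C_22 L39576 (C_22 L71124 N_22))))) (by decide +kernel)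
theorem L71126 : W_22 (nat_lit 2) (nat_lit 0x28000c001a000d0002c00100000000000000000000000) (nat_lit 0x0) (nat_lit 0x4000000012000000000000000000000000000000000000000) := D_22 (nat_lit 160) (nat_lit 194) (nat_lit 157) (nat_lit 6) (nat_lit 7) (nat_lit 11) (nat_lit 2) (nat_lit 4) (nat_lit 9) (by decide +kernel)
theorem L71127 : W_22 (nat_lit 3) (nat_lit 0x28000c0012000d0002c00100000000000000000000000) (nat_lit 0x0) (nat_lit 0x4000000032000800000000000000000000000000000000000) := T_22 (nat_lit 143) (nat_lit 161) (nat_lit 7) (nat_lit 7) (nat_lit 5) L71126 (by decide +kernel)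
theorem L71128 : W_22 (nat_lit 4) (nat_lit 0x28000c0012000d0002c00000000000000000000000000) (nat_lit 0x0) (nat_lit 0x4000000032000800000000000100008000000000000000000) := T_22 (nat_lit 92) (nat_lit 75) (nat_lit 7) (nat_lit 7) (nat_lit 4) L71127 (by decide +kernel)
theorem L71129 : W_22 (nat_lit 5) (nat_lit 0x2800040012000d0002c00000000000000000000000000) (nat_lit 0x0) (nat_lit 0x400010003a000800000000000100008000000000000000000) := T_22 (nat_lit 159) (nat_lit 176) (nat_lit 7) (nat_lit 5) (nat_lit 6) L71128 (by decide +kernel)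
theorem L71130 : W_22 (nat_lit 6) (nat_lit 0x2800040012000d0000c00000000000000000000000000) (nat_lit 0x0) (nat_lit 0x400010003a000800000003000100008000000000000000000) := T_22 (nat_lit 109) (nat_lit 108) (nat_lit 3) (nat_lit 4) (nat_lit 6) L71129 (by decide +kernel)
theorem L71131 : W_22 (nat_lit 7) (nat_lit 0x2000040012000d0000c00000000000000000000000000) (nat_lit 0x0) (nat_lit 0x400018003a000800008003000100008000000000000000000) := T_22 (nat_lit 175) (nat_lit 123) (nat_lit 4) (nat_lit 5) (nat_lit 10) L71130 (by decide +kernel)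
theorem L71132 : W_22 (nat_lit 8) (nat_lit 0x200004001200090000c00000000000000000000000000) (nat_lit 0x0) (nat_lit 0x400018003a000800068003000100008000000000000000000) := T_22 (nat_lit 126) (nat_lit 125) (nat_lit 0) (nat_lit 8) (nat_lit 7) L71131 (by decide +kernel)
theorem L71133 : W_22 (nat_lit 9) (nat_lit 0x200004001200090000800000000000000000000000000) (nat_lit 0x0) (nat_lit 0x400018003a000800068003400120008000000000000000000) := T_22 (nat_lit 106) (nat_lit 89) (nat_lit 4) (nat_lit 5) (nat_lit 9) L71132 (by decide +kernel)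
theorem L71134 : W_22 (nat_lit 10) (nat_lit 0x200004001200090000000000000000000000000000000) (nat_lit 0x0) (nat_lit 0x400018003a000900168003c001e000f000200000000000000) := Q_22 (nat_lit 107) (C_22 L71082 (C_22 L70498 (C_22 L71133 (C_22 L70560 N_22)))) (by decide +kernel)
theorem L71135 : W_22 (nat_lit 8) (nat_lit 0x200004001200090000000000000000000000000000000) (nat_lit 0x0) (nat_lit 0x1c001a0009c01680018000c0004000000000000000000) := Q_22 (nat_lit 107) (C_22 L71124 (C_22 L39666 (C_22 L71096 (C_22 L70560 N_22)))) (by decide +kernel)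
theorem L71136 : W_22 (nat_lit 15) (nat_lit 0x200004001200080000000000000000000000000000000) (nat_lit 0x0) (nat_lit 0x500038001f000df001f003b8009c017c003c001e000f000380004000000000) := Q_22 (nat_lit 124) (C_22 L70499 (C_22 L70505 (C_22 L70504 (C_22 L71097 (C_22 L71098 (C_22 L71099 (C_22 L71118 (C_22 L71125 (C_22 L71134 (C_22 L71135 N_22)))))))))) (by decide +kernel)
theorem L71137 : W_22 (nat_lit 5) (nat_lit 0x700004001200080000000000000000000000000000000) (nat_lit 0x0) (nat_lit 0x1dc000c0002000000000000000000000000000000000000000) := T_22 (nat_lit 175) (nat_lit 157) (nat_lit 0) (nat_lit 8) (nat_lit 10) L70792 (by decide +kernel)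
theorem L71138 : W_22 (nat_lit 2) (nat_lit 0x8007c000c001200080000000000000000000000000000000) (nat_lit 0x0) (nat_lit 0x30010000000000000000000000000000000000000000) := D_22 (nat_lit 173) (nat_lit 172) (nat_lit 160) (nat_lit 2) (nat_lit 2) (nat_lit 10) (nat_lit 2) (nat_lit 3) (nat_lit 10) (by decide +kernel)
theorem L71139 : W_22 (nat_lit 3) (nat_lit 0x80078000c001200080000000000000000000000000000000) (nat_lit 0x0) (nat_lit 0x400070010000000000000000000000000000000000000000) := T_22 (nat_lit 174) (nat_lit 190) (nat_lit 1) (nat_lit 7) (nat_lit 10) L71138 (by decide +kernel)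
theorem L71140 : W_22 (nat_lit 4) (nat_lit 0x78000c001200080000000000000000000000000000000) (nat_lit 0x0) (nat_lit 0x1c00070010000000000000000000000000000000000000000) := T_22 (nat_lit 191) (nat_lit 192) (nat_lit 1) (nat_lit 8) (nat_lit 10) L71139 (by decide +kernel)
theorem L71141 : W_22 (nat_lit 5) (nat_lit 0x780004001200080000000000000000000000000000000) (nat_lit 0x0) (nat_lit 0x1c00870018000000000000000000000000000000000000000) := T_22 (nat_lit 159) (nat_lit 179) (nat_lit 0) (nat_lit 9) (nat_lit 10) L71140 (by decide +kernel)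
theorem L71142 : W_22 (nat_lit 6) (nat_lit 0x700004001200080000000000000000000000000000000) (nat_lit 0x0) (nat_lit 0x1c008f001a000000000000000000000000000000000000000) := T_22 (nat_lit 175) (nat_lit 157) (nat_lit 0) (nat_lit 8) (nat_lit 10) L71141 (by decide +kernel)
theorem L71143 : W_22 (nat_lit 7) (nat_lit 0x600004001200080000000000000000000000000000000) (nat_lit 0x0) (nat_lit 0x7dc019f01da000000000000000000000000000000000000000) := Q_22 (nat_lit 176) (C_22 L70588 (C_22 L71137 (C_22 L71142 N_22))) (by decide +kernel)
theorem L71144 : W_22 (nat_lit 2) (nat_lit 0x700034001200080000000000000000000000000000000) (nat_lit 0x0) (nat_lit 0xc0002000000000000000000000000000000000000000) := D_22 (nat_lit 175) (nat_lit 157) (nat_lit 174) (nat_lit 0) (nat_lit 8) (nat_lit 10) (nat_lit 2) (nat_lit 4) (nat_lit 10) (by decide +kernel)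
theorem L71145 : W_22 (nat_lit 2) (nat_lit 0x27000b4005a003e0010000000000000000000000000000) (nat_lit 0x0) (nat_lit 0x40001800000000000000000000000000000000000000000000) := D_22 (nat_lit 180) (nat_lit 179) (nat_lit 198) (nat_lit 0) (nat_lit 11) (nat_lit 10) (nat_lit 7) (nat_lit 10) (nat_lit 7) (by decide +kernel)
theorem L71146 : W_22 (nat_lit 3) (nat_lit 0x7000b4005a003e0010000000000000000000000000000) (nat_lit 0x0) (nat_lit 0x40003800100000000000000000000000000000000000000000) := T_22 (nat_lit 181) (nat_lit 164) (nat_lit 7) (nat_lit 10) (nat_lit 6) L71145 (by decide +kernel)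
theorem L71147 : W_22 (nat_lit 4) (nat_lit 0x7000b4001a003e0010000000000000000000000000000) (nat_lit 0x0) (nat_lit 0x4000380010000c000000000000000000000000000000000000) := T_22 (nat_lit 146) (nat_lit 147) (nat_lit 3) (nat_lit 7) (nat_lit 7) L71146 (by decide +kernel)
theorem L71148 : W_22 (nat_lit 5) (nat_lit 0x7000b4001a003e0000000000000000000000000000000) (nat_lit 0x0) (nat_lit 0x4000380010000c000000030000000000000000000000000000) := T_22 (nat_lit 112) (nat_lit 113) (nat_lit 2) (nat_lit 7) (nat_lit 7) L71147 (by decide +kernel)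
theorem L71149 : W_22 (nat_lit 6) (nat_lit 0x7000b4001a001e0000000000000000000000000000000) (nat_lit 0x0) (nat_lit 0x4000380010000c000600030000000000000000000000000000) := T_22 (nat_lit 129) (nat_lit 130) (nat_lit 1) (nat_lit 11) (nat_lit 7) L71148 (by decide +kernel)
theorem L71150 : W_22 (nat_lit 7) (nat_lit 0x7000b4001a000e0000000000000000000000000000000) (nat_lit 0x0) (nat_lit 0x4000380010000c000700038000000000000000000000000000) := T_22 (nat_lit 128) (nat_lit 111) (nat_lit 6) (nat_lit 8) (nat_lit 10) L71149 (by decide +kernel)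
theorem L71151 : W_22 (nat_lit 8) (nat_lit 0x7000b4001a000c0000000000000000000000000000000) (nat_lit 0x0) (nat_lit 0x4000380010000c000720039000000000000000000000000000) := T_22 (nat_lit 125) (nat_lit 108) (nat_lit 4) (nat_lit 7) (nat_lit 10) L71150 (by decide +kernel)
theorem L71152 : W_22 (nat_lit 9) (nat_lit 0x7000b40012000c0000000000000000000000000000000) (nat_lit 0x0) (nat_lit 0x4800380010000c800720039000000000000000000000000000) := T_22 (nat_lit 143) (nat_lit 195) (nat_lit 7) (nat_lit 7) (nat_lit 7) L71151 (by decide +kernel)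
theorem L71153 : W_22 (nat_lit 10) (nat_lit 0x7000340012000c0000000000000000000000000000000) (nat_lit 0x0) (nat_lit 0x480038001c000c800720039000000000000000000000000000) := T_22 (nat_lit 163) (nat_lit 162) (nat_lit 1) (nat_lit 10) (nat_lit 9) L71152 (by decide +kernel)
theorem L71154 : W_22 (nat_lit 11) (nat_lit 0x700034001200080000000000000000000000000000000) (nat_lit 0x0) (nat_lit 0x480038001c000c80076003b000000000000000000000000000) := T_22 (nat_lit 126) (nat_lit 109) (nat_lit 4) (nat_lit 8) (nat_lit 10) L71153 (by decide +kernel)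
theorem L71155 : W_22 (nat_lit 12) (nat_lit 0x600034001200080000000000000000000000000000000) (nat_lit 0x0) (nat_lit 0x480039c01c200c80076003b000000000000000000000000000) := Q_22 (nat_lit 176) (C_22 L71144 (C_22 L71154 N_22)) (by decide +kernel)
theorem L71156 : W_22 (nat_lit 2) (nat_lit 0x600034001200080000000000000000000000000000000) (nat_lit 0x0) (nat_lit 0x800008000100000000000000000000000000000000000) := D_22 (nat_lit 159) (nat_lit 140) (nat_lit 179) (nat_lit 0) (nat_lit 8) (nat_lit 9) (nat_lit 3) (nat_lit 5) (nat_lit 9) (by decide +kernel)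
theorem L71157 : W_22 (nat_lit 13) (nat_lit 0x600024001200080000000000000000000000000000000) (nat_lit 0x0) (nat_lit 0x480039c01da00c90076003b000000000000000000000000000) := Q_22 (nat_lit 160) (C_22 L70642 (C_22 L71155 (C_22 L71156 N_22))) (by decide +kernel)
theorem L71158 : W_22 (nat_lit 14) (nat_lit 0x600004001200080000000000000000000000000000000) (nat_lit 0x0) (nat_lit 0x70003800580039c01fa00c90076003b000000000000000000000000000) := Q_22 (nat_lit 161) (C_22 L70735 (C_22 L70860 (C_22 L70427 (C_22 L71157 (C_22 L70597 N_22))))) (by decide +kernel)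
theorem L71159 : W_22 (nat_lit 15) (nat_lit 0x200004001200080000000000000000000000000000000) (nat_lit 0x0) (nat_lit 0x700038007dc03df01fa00c90076003b000000000000000000000000000) := Q_22 (nat_lit 178) (C_22 L70736 (C_22 L70861 (C_22 L70578 (C_22 L71143 (C_22 L71158 (C_22 L70598 N_22)))))) (by decide +kernel)
theorem L71160 : W_22 (nat_lit 10) (nat_lit 0x200004001200090000000000000000000000000000000) (nat_lit 0x0) (nat_lit 0x48005f003800010016c003c000a0000000000000000000000) := Q_22 (nat_lit 107) (C_22 L70498 (C_22 L70560 (C_22 L40007 (C_22 L70518 (C_22 L39576 N_22))))) (by decide +kernel)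
theorem L71161 : W_22 (nat_lit 13) (nat_lit 0x200004001200080000000000000000000000000000000) (nat_lit 0x0) (nat_lit 0x10000e000700058005f007a0009c017c003c001e000f000200000000000000) := Q_22 (nat_lit 124) (C_22 L70499 (C_22 L71135 (C_22 L70504 (C_22 L70505 (C_22 L70528 (C_22 L71098 (C_22 L71160 (C_22 L70556 (C_22 L71134 N_22))))))))) (by decide +kernel)
theorem L71162 : W_22 (nat_lit 2) (nat_lit 0xe0002c0012001d8000d002c0000000000000000000000) (nat_lit 0x0) (nat_lit 0x100000000000000002000100000000000000) := D_22 (nat_lit 73) (nat_lit 56) (nat_lit 140) (nat_lit 5) (nat_lit 5) (nat_lit 3) (nat_lit 5) (nat_lit 5) (nat_lit 4) (by decide +kernel)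
theorem L71163 : W_22 (nat_lit 3) (nat_lit 0xe0002c0012001d0000d002c0000000000000000000000) (nat_lit 0x0) (nat_lit 0x80000000100008000000000002000100000000000000) := T_22 (nat_lit 123) (nat_lit 175) (nat_lit 4) (nat_lit 5) (nat_lit 10) L71162 (by decide +kernel)
theorem L71164 : W_22 (nat_lit 4) (nat_lit 0xe0002c0012001d0000d000c0000000000000000000000) (nat_lit 0x0) (nat_lit 0x80000000100008000000300002000100000000000000) := T_22 (nat_lit 93) (nat_lit 92) (nat_lit 1) (nat_lit 8) (nat_lit 5) L71163 (by decide +kernel)
theorem L71165 : W_22 (nat_lit 5) (nat_lit 0xe0002c0012001d0000c000c0000000000000000000000) (nat_lit 0x0) (nat_lit 0x80000000100008000300300002000100000000000000) := T_22 (nat_lit 104) (nat_lit 105) (nat_lit 2) (nat_lit 2) (nat_lit 6) L71164 (by decide +kernel)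
theorem L71166 : W_22 (nat_lit 6) (nat_lit 0xe0002c0012001d0000c00080000000000000000000000) (nat_lit 0x0) (nat_lit 0x80000000100008000300340006000100000000000000) := T_22 (nat_lit 90) (nat_lit 74) (nat_lit 6) (nat_lit 5) (nat_lit 8) L71165 (by decide +kernel)
theorem L71167 : W_22 (nat_lit 7) (nat_lit 0xe0002c0012001d0000800080000000000000000000000) (nat_lit 0x0) (nat_lit 0x80000000100008000700360006000100000000000000) := T_22 (nat_lit 106) (nat_lit 89) (nat_lit 4) (nat_lit 5) (nat_lit 9) L71166 (by decide +kernel)
theorem L71168 : W_22 (nat_lit 8) (nat_lit 0xe0002c0012001d0000800000000000000000000000000) (nat_lit 0x0) (nat_lit 0x800000001000080017003e0006000100000000000000) := T_22 (nat_lit 91) (nat_lit 108) (nat_lit 6) (nat_lit 5) (nat_lit 9) L71167 (by decide +kernel)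
theorem L71169 : W_22 (nat_lit 9) (nat_lit 0xe0002c0012000d0000800000000000000000000000000) (nat_lit 0x0) (nat_lit 0x800000001001080097003e0006000100000000000000) := T_22 (nat_lit 128) (nat_lit 111) (nat_lit 6) (nat_lit 8) (nat_lit 10) L71168 (by decide +kernel)
theorem L71170 : W_22 (nat_lit 10) (nat_lit 0xe000240012000d0000800000000000000000000000000) (nat_lit 0x0) (nat_lit 0x800180001001080097003e0006000100000000000000) := T_22 (nat_lit 159) (nat_lit 160) (nat_lit 3) (nat_lit 5) (nat_lit 9) L71169 (by decide +kernel)
theorem L71171 : W_22 (nat_lit 11) (nat_lit 0x6000240012000d0000800000000000000000000000000) (nat_lit 0x0) (nat_lit 0x100008800180001001080097003e0006000100000000000000) := T_22 (nat_lit 179) (nat_lit 196) (nat_lit 7) (nat_lit 8) (nat_lit 7) L71170 (by decide +kernel)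
theorem L71172 : W_22 (nat_lit 12) (nat_lit 0x600024001200090000800000000000000000000000000) (nat_lit 0x0) (nat_lit 0x1000088001800010014800b7003e0006000100000000000000) := T_22 (nat_lit 126) (nat_lit 109) (nat_lit 4) (nat_lit 8) (nat_lit 10) L71171 (by decide +kernel)
theorem L71173 : W_22 (nat_lit 13) (nat_lit 0x600004001200090000800000000000000000000000000) (nat_lit 0x0) (nat_lit 0x1400088003800010014800b7003e0006000100000000000000) := T_22 (nat_lit 161) (nat_lit 194) (nat_lit 5) (nat_lit 8) (nat_lit 7) L71172 (by decide +kernel)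
theorem L71174 : W_22 (nat_lit 4) (nat_lit 0x60000e001200090000c00000000000000000000000000) (nat_lit 0x0) (nat_lit 0x8000000000000e003000080000000000000000000000) := T_22 (nat_lit 123) (nat_lit 175) (nat_lit 4) (nat_lit 5) (nat_lit 10) L70914 (by decide +kernel)
theorem L71175 : W_22 (nat_lit 5) (nat_lit 0x600006001200090000c00000000000000000000000000) (nat_lit 0x0) (nat_lit 0x8001800000000e003000080000000000000000000000) := T_22 (nat_lit 159) (nat_lit 160) (nat_lit 3) (nat_lit 4) (nat_lit 9) L71174 (by decide +kernel)
theorem L71176 : W_22 (nat_lit 6) (nat_lit 0x600004001200090000c00000000000000000000000000) (nat_lit 0x0) (nat_lit 0xc001a00000000e003000080000000000000000000000) := T_22 (nat_lit 157) (nat_lit 174) (nat_lit 5) (nat_lit 5) (nat_lit 6) L71175 (by decide +kernel)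
theorem L71177 : W_22 (nat_lit 7) (nat_lit 0x600004001200090000800000000000000000000000000) (nat_lit 0x0) (nat_lit 0xc001a00000000e0034000a0000000000000000000000) := T_22 (nat_lit 106) (nat_lit 89) (nat_lit 4) (nat_lit 5) (nat_lit 9) L71176 (by decide +kernel)
theorem L71178 : W_22 (nat_lit 5) (nat_lit 0x600024001200090000800000000000000000000000000) (nat_lit 0x0) (nat_lit 0x400020001000400030000c0004000000000000000000) := T_22 (nat_lit 126) (nat_lit 109) (nat_lit 4) (nat_lit 8) (nat_lit 10) L70670 (by decide +kernel)
theorem L71179 : W_22 (nat_lit 6) (nat_lit 0x600004001200090000800000000000000000000000000) (nat_lit 0x0) (nat_lit 0x40000400220001000400030000c0004000000000000000000) := T_22 (nat_lit 161) (nat_lit 194) (nat_lit 5) (nat_lit 8) (nat_lit 7) L71178 (by decide +kernel)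
theorem L71180 : W_22 (nat_lit 14) (nat_lit 0x600004001200090000000000000000000000000000000) (nat_lit 0x0) (nat_lit 0x140008c003a00010014e00bf003e0007000100000000000000) := Q_22 (nat_lit 107) (C_22 L70943 (C_22 L71173 (C_22 L71177 (C_22 L71179 N_22)))) (by decide +kernel)
theorem L71181 : W_22 (nat_lit 2) (nat_lit 0x6000240012000f0000400000000000000000000000000) (nat_lit 0x0) (nat_lit 0x80000000000008000200000000000000000000000000) := D_22 (nat_lit 123) (nat_lit 105) (nat_lit 175) (nat_lit 0) (nat_lit 7) (nat_lit 7) (nat_lit 4) (nat_lit 5) (nat_lit 10) (by decide +kernel)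
theorem L71182 : W_22 (nat_lit 3) (nat_lit 0x6000240012000f0000000000000000000000000000000) (nat_lit 0x0) (nat_lit 0x80000000000008000e00000000000000000000000000) := T_22 (nat_lit 106) (nat_lit 107) (nat_lit 0) (nat_lit 8) (nat_lit 7) L71181 (by decide +kernel)
theorem L71183 : W_22 (nat_lit 4) (nat_lit 0x6000240012000d0000000000000000000000000000000) (nat_lit 0x0) (nat_lit 0x80000000100028000e00000000000000000000000000) := T_22 (nat_lit 125) (nat_lit 140) (nat_lit 1) (nat_lit 8) (nat_lit 7) L71182 (by decide +kernel)
theorem L71184 : W_22 (nat_lit 5) (nat_lit 0x600024001200090000000000000000000000000000000) (nat_lit 0x0) (nat_lit 0x80000000100068002e00000000000000000000000000) := T_22 (nat_lit 126) (nat_lit 109) (nat_lit 4) (nat_lit 8) (nat_lit 10) L71183 (by decide +kernel)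
theorem L71185 : W_22 (nat_lit 6) (nat_lit 0x600004001200090000000000000000000000000000000) (nat_lit 0x0) (nat_lit 0x4000080020000100068002e00000000000000000000000000) := T_22 (nat_lit 161) (nat_lit 194) (nat_lit 5) (nat_lit 8) (nat_lit 7) L71184 (by decide +kernel)
theorem L71186 : W_22 (nat_lit 5) (nat_lit 0x600024001200090000000000000000000000000000000) (nat_lit 0x0) (nat_lit 0x10016000bc00000000000000000000000000) := T_22 (nat_lit 126) (nat_lit 109) (nat_lit 4) (nat_lit 8) (nat_lit 10) L70685 (by decide +kernel)
theorem L71187 : W_22 (nat_lit 6) (nat_lit 0x600004001200090000000000000000000000000000000) (nat_lit 0x0) (nat_lit 0x400000002000010016000bc00000000000000000000000000) := T_22 (nat_lit 161) (nat_lit 194) (nat_lit 5) (nat_lit 8) (nat_lit 7) L71186 (by decide +kernel)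
theorem L71188 : W_22 (nat_lit 2) (nat_lit 0x600024001300090000000000000000000000000000000) (nat_lit 0x0) (nat_lit 0x60002000000000000000000000000000) := D_22 (nat_lit 126) (nat_lit 109) (nat_lit 125) (nat_lit 4) (nat_lit 8) (nat_lit 10) (nat_lit 1) (nat_lit 8) (nat_lit 7) (by decide +kernel)
theorem L71189 : W_22 (nat_lit 3) (nat_lit 0x600004001300090000000000000000000000000000000) (nat_lit 0x0) (nat_lit 0x4000000020000000060002000000000000000000000000000) := T_22 (nat_lit 161) (nat_lit 194) (nat_lit 5) (nat_lit 8) (nat_lit 7) L71188 (by decide +kernel)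
theorem L71190 : W_22 (nat_lit 2) (nat_lit 0x680004001300090000000000000000000000000000000) (nat_lit 0x0) (nat_lit 0x1000000000000000008000400000000000000000000000000) := D_22 (nat_lit 123) (nat_lit 106) (nat_lit 192) (nat_lit 4) (nat_lit 5) (nat_lit 10) (nat_lit 4) (nat_lit 5) (nat_lit 11) (by decide +kernel)
theorem L71191 : W_22 (nat_lit 2) (nat_lit 0x1200198006800340013001d0000000000000000000000000000000) (nat_lit 0x0) (nat_lit 0x8000c0000000000000000000000000000000000000000000000000000) := D_22 (nat_lit 210) (nat_lit 211) (nat_lit 227) (nat_lit 2) (nat_lit 5) (nat_lit 12) (nat_lit 7) (nat_lit 5) (nat_lit 9) (by decide +kernel)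
theorem L71192 : W_22 (nat_lit 3) (nat_lit 0x1000198006800340013001d0000000000000000000000000000000) (nat_lit 0x0) (nat_lit 0x8000e0000000000002000000000000000000000000000000000000000) := T_22 (nat_lit 209) (nat_lit 157) (nat_lit 4) (nat_lit 5) (nat_lit 12) L71191 (by decide +kernel)
theorem L71193 : W_22 (nat_lit 4) (nat_lit 0x1000188006800340013001d0000000000000000000000000000000) (nat_lit 0x0) (nat_lit 0x8000f0001000000002000000000000000000000000000000000000000) := T_22 (nat_lit 192) (nat_lit 208) (nat_lit 5) (nat_lit 5) (nat_lit 8) L71192 (by decide +kernel)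
theorem L71194 : W_22 (nat_lit 5) (nat_lit 0x188006800340013001d0000000000000000000000000000000) (nat_lit 0x0) (nat_lit 0x28001f0001000000002000000000000000000000000000000000000000) := T_22 (nat_lit 212) (nat_lit 229) (nat_lit 4) (nat_lit 8) (nat_lit 13) L71193 (by decide +kernel)
theorem L71195 : W_22 (nat_lit 6) (nat_lit 0x180006800340013001d0000000000000000000000000000000) (nat_lit 0x0) (nat_lit 0x28001f0001800040002000000000000000000000000000000000000000) := T_22 (nat_lit 191) (nat_lit 174) (nat_lit 5) (nat_lit 5) (nat_lit 7) L71194 (by decide +kernel)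
theorem L71196 : W_22 (nat_lit 7) (nat_lit 0x180006800240013001d0000000000000000000000000000000) (nat_lit 0x0) (nat_lit 0x28001f000180004001a000000000000000000000000000000000000000) := T_22 (nat_lit 160) (nat_lit 159) (nat_lit 0) (nat_lit 8) (nat_lit 9) L71195 (by decide +kernel)
theorem L71197 : W_22 (nat_lit 8) (nat_lit 0x100006800240013001d0000000000000000000000000000000) (nat_lit 0x0) (nat_lit 0x28003f000980004001a000000000000000000000000000000000000000) := T_22 (nat_lit 195) (nat_lit 213) (nat_lit 7) (nat_lit 8) (nat_lit 8) L71196 (by decide +kernel)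
theorem L71198 : W_22 (nat_lit 9) (nat_lit 0x100006800240013000d0000000000000000000000000000000) (nat_lit 0x0) (nat_lit 0x28003f000980004001a000000100008000000000000000000000000000) := T_22 (nat_lit 128) (nat_lit 111) (nat_lit 6) (nat_lit 8) (nat_lit 10) L71197 (by decide +kernel)
theorem L71199 : W_22 (nat_lit 10) (nat_lit 0x6800240013000d0000000000000000000000000000000) (nat_lit 0x0) (nat_lit 0x28003f001980084001a000000100008000000000000000000000000000) := T_22 (nat_lit 196) (nat_lit 179) (nat_lit 7) (nat_lit 8) (nat_lit 7) L71198 (by decide +kernel)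
theorem L71200 : W_22 (nat_lit 11) (nat_lit 0x680024001300090000000000000000000000000000000) (nat_lit 0x0) (nat_lit 0x28003f001980084001a00000014000a000000000000000000000000000) := T_22 (nat_lit 126) (nat_lit 109) (nat_lit 4) (nat_lit 8) (nat_lit 10) L71199 (by decide +kernel)
theorem L71201 : W_22 (nat_lit 12) (nat_lit 0x680004001300090000000000000000000000000000000) (nat_lit 0x0) (nat_lit 0x28003f001d80084003a00000014000a000000000000000000000000000) := T_22 (nat_lit 161) (nat_lit 194) (nat_lit 5) (nat_lit 8) (nat_lit 7) L71200 (by decide +kernel)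
theorem L71202 : W_22 (nat_lit 2) (nat_lit 0xee002e0013400dc000000000000000000000000000000) (nat_lit 0x0) (nat_lit 0x20003000000000000000000000000000000) := D_22 (nat_lit 121) (nat_lit 120) (nat_lit 137) (nat_lit 3) (nat_lit 1) (nat_lit 7) (nat_lit 1) (nat_lit 5) (nat_lit 7) (by decide +kernel)
theorem L71203 : W_22 (nat_lit 3) (nat_lit 0xee002e0013400d8000000000000000000000000000000) (nat_lit 0x0) (nat_lit 0x20007000200000000000000000000000000) := T_22 (nat_lit 122) (nat_lit 105) (nat_lit 4) (nat_lit 4) (nat_lit 10) L71202 (by decide +kernel)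
theorem L71204 : W_22 (nat_lit 4) (nat_lit 0xee002c0013400d8000000000000000000000000000000) (nat_lit 0x0) (nat_lit 0x400000002000020007000200000000000000000000000000) := T_22 (nat_lit 157) (nat_lit 190) (nat_lit 5) (nat_lit 4) (nat_lit 7) L71203 (by decide +kernel)
theorem L71205 : W_22 (nat_lit 5) (nat_lit 0xec002c0013400d8000000000000000000000000000000) (nat_lit 0x0) (nat_lit 0x400030002000020007000200000000000000000000000000) := T_22 (nat_lit 173) (nat_lit 172) (nat_lit 2) (nat_lit 2) (nat_lit 10) L71204 (by decide +kernel)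
theorem L71206 : W_22 (nat_lit 6) (nat_lit 0xec002c0013400d0000000000000000000000000000000) (nat_lit 0x0) (nat_lit 0x40003000200002000f000600000000000000000000000000) := T_22 (nat_lit 123) (nat_lit 106) (nat_lit 4) (nat_lit 5) (nat_lit 10) L71205 (by decide +kernel)
theorem L71207 : W_22 (nat_lit 7) (nat_lit 0xe8002c0013400d0000000000000000000000000000000) (nat_lit 0x0) (nat_lit 0xc0007000200002000f000600000000000000000000000000) := T_22 (nat_lit 174) (nat_lit 191) (nat_lit 5) (nat_lit 5) (nat_lit 7) L71206 (by decide +kernel)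
theorem L71208 : W_22 (nat_lit 8) (nat_lit 0xe8002c0013000d0000000000000000000000000000000) (nat_lit 0x0) (nat_lit 0xc000700020000e000f000600000000000000000000000000) := T_22 (nat_lit 138) (nat_lit 139) (nat_lit 3) (nat_lit 2) (nat_lit 8) L71207 (by decide +kernel)
theorem L71209 : W_22 (nat_lit 9) (nat_lit 0xe800240013000d0000000000000000000000000000000) (nat_lit 0x0) (nat_lit 0xc0007001a0000e000f000600000000000000000000000000) := T_22 (nat_lit 159) (nat_lit 160) (nat_lit 3) (nat_lit 5) (nat_lit 9) L71208 (by decide +kernel)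
theorem L71210 : W_22 (nat_lit 10) (nat_lit 0x6800240013000d0000000000000000000000000000000) (nat_lit 0x0) (nat_lit 0x10c0087001a0000e000f000600000000000000000000000000) := T_22 (nat_lit 179) (nat_lit 196) (nat_lit 7) (nat_lit 8) (nat_lit 7) L71209 (by decide +kernel)
theorem L71211 : W_22 (nat_lit 11) (nat_lit 0x680024001300090000000000000000000000000000000) (nat_lit 0x0) (nat_lit 0x10c0087001a0000e004f002600000000000000000000000000) := T_22 (nat_lit 126) (nat_lit 109) (nat_lit 4) (nat_lit 8) (nat_lit 10) L71210 (by decide +kernel)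
theorem L71212 : W_22 (nat_lit 12) (nat_lit 0x680004001300090000000000000000000000000000000) (nat_lit 0x0) (nat_lit 0x14c0087003a0000e004f002600000000000000000000000000) := T_22 (nat_lit 161) (nat_lit 194) (nat_lit 5) (nat_lit 8) (nat_lit 7) L71211 (by decide +kernel)
theorem L71213 : W_22 (nat_lit 13) (nat_lit 0x600004001300090000000000000000000000000000000) (nat_lit 0x0) (nat_lit 0x28003f001dc008f003a0000e014f00a600000000000000000000000000) := Q_22 (nat_lit 175) (C_22 L71190 (C_22 L71201 (C_22 L71212 N_22))) (by decide +kernel)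
theorem L71214 : W_22 (nat_lit 2) (nat_lit 0x1a00188006800340013001b0000000000000000000000000000000) (nat_lit 0x0) (nat_lit 0x10001000000002000000000000000000000000000000000000000) := D_22 (nat_lit 192) (nat_lit 157) (nat_lit 208) (nat_lit 4) (nat_lit 5) (nat_lit 12) (nat_lit 5) (nat_lit 5) (nat_lit 8) (by decide +kernel)
theorem L71215 : W_22 (nat_lit 3) (nat_lit 0x1800188006800340013001b0000000000000000000000000000000) (nat_lit 0x0) (nat_lit 0x70001000000002000000000000000000000000000000000000000) := T_22 (nat_lit 209) (nat_lit 210) (nat_lit 2) (nat_lit 5) (nat_lit 12) L71214 (by decide +kernel)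
theorem L71216 : W_22 (nat_lit 4) (nat_lit 0x1000188006800340013001b0000000000000000000000000000000) (nat_lit 0x0) (nat_lit 0x10000f0001000000002000000000000000000000000000000000000000) := T_22 (nat_lit 211) (nat_lit 228) (nat_lit 5) (nat_lit 8) (nat_lit 9) L71215 (by decide +kernel)
theorem L71217 : W_22 (nat_lit 5) (nat_lit 0x1000180006800340013001b0000000000000000000000000000000) (nat_lit 0x0) (nat_lit 0x10000f0001800040002000000000000000000000000000000000000000) := T_22 (nat_lit 191) (nat_lit 174) (nat_lit 5) (nat_lit 5) (nat_lit 7) L71216 (by decide +kernel)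
theorem L71218 : W_22 (nat_lit 6) (nat_lit 0x100018000680034001300190000000000000000000000000000000) (nat_lit 0x0) (nat_lit 0x10000f0001800040002000000020001000000000000000000000000000) := T_22 (nat_lit 125) (nat_lit 108) (nat_lit 6) (nat_lit 5) (nat_lit 10) L71217 (by decide +kernel)
theorem L71219 : W_22 (nat_lit 7) (nat_lit 0x18000680034001300190000000000000000000000000000000) (nat_lit 0x0) (nat_lit 0x30001f0001800040002000000020001000000000000000000000000000) := T_22 (nat_lit 212) (nat_lit 229) (nat_lit 4) (nat_lit 8) (nat_lit 13) L71218 (by decide +kernel)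
theorem L71220 : W_22 (nat_lit 8) (nat_lit 0x10000680034001300190000000000000000000000000000000) (nat_lit 0x0) (nat_lit 0x30003f0009800040002000000020001000000000000000000000000000) := T_22 (nat_lit 195) (nat_lit 213) (nat_lit 7) (nat_lit 8) (nat_lit 8) L71219 (by decide +kernel)
theorem L71221 : W_22 (nat_lit 9) (nat_lit 0x10000680034001300090000000000000000000000000000000) (nat_lit 0x0) (nat_lit 0x30003f0009800040002000000120009000000000000000000000000000) := T_22 (nat_lit 128) (nat_lit 111) (nat_lit 6) (nat_lit 8) (nat_lit 10) L71220 (by decide +kernel)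
theorem L71222 : W_22 (nat_lit 10) (nat_lit 0x680034001300090000000000000000000000000000000) (nat_lit 0x0) (nat_lit 0x30003f0019800840002000000120009000000000000000000000000000) := T_22 (nat_lit 196) (nat_lit 179) (nat_lit 7) (nat_lit 8) (nat_lit 7) L71221 (by decide +kernel)
theorem L71223 : W_22 (nat_lit 11) (nat_lit 0x680024001300090000000000000000000000000000000) (nat_lit 0x0) (nat_lit 0x30003f001980084001a000000120009000000000000000000000000000) := T_22 (nat_lit 160) (nat_lit 159) (nat_lit 0) (nat_lit 8) (nat_lit 9) L71222 (by decide +kernel)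
theorem L71224 : W_22 (nat_lit 12) (nat_lit 0x680004001300090000000000000000000000000000000) (nat_lit 0x0) (nat_lit 0x30003f001d80084003a000000120009000000000000000000000000000) := T_22 (nat_lit 161) (nat_lit 194) (nat_lit 5) (nat_lit 8) (nat_lit 7) L71223 (by decide +kernel)
theorem L71225 : W_22 (nat_lit 2) (nat_lit 0xee002e00134019c000000000000000000000000000000) (nat_lit 0x0) (nat_lit 0x20003000000000000000000000000000000) := D_22 (nat_lit 121) (nat_lit 120) (nat_lit 137) (nat_lit 3) (nat_lit 1) (nat_lit 7) (nat_lit 1) (nat_lit 5) (nat_lit 7) (by decide +kernel)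
theorem L71226 : W_22 (nat_lit 3) (nat_lit 0xee002e001340198000000000000000000000000000000) (nat_lit 0x0) (nat_lit 0x20007000200000000000000000000000000) := T_22 (nat_lit 122) (nat_lit 105) (nat_lit 4) (nat_lit 4) (nat_lit 10) L71225 (by decide +kernel)
theorem L71227 : W_22 (nat_lit 4) (nat_lit 0xee002c001340198000000000000000000000000000000) (nat_lit 0x0) (nat_lit 0x400000002000020007000200000000000000000000000000) := T_22 (nat_lit 157) (nat_lit 190) (nat_lit 5) (nat_lit 4) (nat_lit 7) L71226 (by decide +kernel)
theorem L71228 : W_22 (nat_lit 5) (nat_lit 0x6e002c001340198000000000000000000000000000000) (nat_lit 0x0) (nat_lit 0x10400800002000020007000200000000000000000000000000) := T_22 (nat_lit 179) (nat_lit 196) (nat_lit 7) (nat_lit 8) (nat_lit 7) L71227 (by decide +kernel)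
theorem L71229 : W_22 (nat_lit 6) (nat_lit 0x6c002c001340198000000000000000000000000000000) (nat_lit 0x0) (nat_lit 0x10400830002000020007000200000000000000000000000000) := T_22 (nat_lit 173) (nat_lit 172) (nat_lit 2) (nat_lit 2) (nat_lit 10) L71228 (by decide +kernel)
theorem L71230 : W_22 (nat_lit 7) (nat_lit 0x6c002c001300198000000000000000000000000000000) (nat_lit 0x0) (nat_lit 0x104008300020000e0007000200000000000000000000000000) := T_22 (nat_lit 138) (nat_lit 139) (nat_lit 3) (nat_lit 2) (nat_lit 8) L71229 (by decide +kernel)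
theorem L71231 : W_22 (nat_lit 8) (nat_lit 0x6c002c001300098000000000000000000000000000000) (nat_lit 0x0) (nat_lit 0x104008300020000e0107008200000000000000000000000000) := T_22 (nat_lit 128) (nat_lit 111) (nat_lit 6) (nat_lit 8) (nat_lit 10) L71230 (by decide +kernel)
theorem L71232 : W_22 (nat_lit 9) (nat_lit 0x6c0024001300098000000000000000000000000000000) (nat_lit 0x0) (nat_lit 0x1040083001a0000e0107008200000000000000000000000000) := T_22 (nat_lit 159) (nat_lit 160) (nat_lit 1) (nat_lit 8) (nat_lit 9) L71231 (by decide +kernel)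
theorem L71233 : W_22 (nat_lit 10) (nat_lit 0x6c0004001300098000000000000000000000000000000) (nat_lit 0x0) (nat_lit 0x1440083003a0000e0107008200000000000000000000000000) := T_22 (nat_lit 161) (nat_lit 194) (nat_lit 5) (nat_lit 8) (nat_lit 7) L71232 (by decide +kernel)
theorem L71234 : W_22 (nat_lit 11) (nat_lit 0x6c0004001300090000000000000000000000000000000) (nat_lit 0x0) (nat_lit 0x1440083003a0000e010f008600000000000000000000000000) := T_22 (nat_lit 123) (nat_lit 106) (nat_lit 4) (nat_lit 5) (nat_lit 10) L71233 (by decide +kernel)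
theorem L71235 : W_22 (nat_lit 12) (nat_lit 0x680004001300090000000000000000000000000000000) (nat_lit 0x0) (nat_lit 0x14c0087003a0000e010f008600000000000000000000000000) := T_22 (nat_lit 174) (nat_lit 191) (nat_lit 5) (nat_lit 5) (nat_lit 7) L71234 (by decide +kernel)
theorem L71236 : W_22 (nat_lit 13) (nat_lit 0x600004001300090000000000000000000000000000000) (nat_lit 0x0) (nat_lit 0x30003f001dc008f003a0000e012f009600000000000000000000000000) := Q_22 (nat_lit 175) (C_22 L71190 (C_22 L71224 (C_22 L71235 N_22))) (by decide +kernel)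
theorem L71237 : W_22 (nat_lit 2) (nat_lit 0x6800040013400b0000000000000000000000000000000) (nat_lit 0x0) (nat_lit 0x1000000000000000008000400000000000000000000000000) := D_22 (nat_lit 123) (nat_lit 106) (nat_lit 192) (nat_lit 4) (nat_lit 5) (nat_lit 10) (nat_lit 4) (nat_lit 5) (nat_lit 11) (by decide +kernel)
theorem L71238 : W_22 (nat_lit 3) (nat_lit 0x6000040013400b0000000000000000000000000000000) (nat_lit 0x0) (nat_lit 0x1000080000000000008001400000000000000000000000000) := T_22 (nat_lit 175) (nat_lit 108) (nat_lit 6) (nat_lit 5) (nat_lit 10) L71237 (by decide +kernel)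
theorem L71239 : W_22 (nat_lit 4) (nat_lit 0x6000040013000b0000000000000000000000000000000) (nat_lit 0x0) (nat_lit 0x10000800000000c0008001400000000000000000000000000) := T_22 (nat_lit 138) (nat_lit 139) (nat_lit 2) (nat_lit 2) (nat_lit 8) L71238 (by decide +kernel)
theorem L71240 : W_22 (nat_lit 5) (nat_lit 0x600004001300090000000000000000000000000000000) (nat_lit 0x0) (nat_lit 0x10000800000000c0068001400000000000000000000000000) := T_22 (nat_lit 125) (nat_lit 126) (nat_lit 1) (nat_lit 8) (nat_lit 7) L71239 (by decide +kernel)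
theorem L71241 : W_22 (nat_lit 14) (nat_lit 0x600004001200090000000000000000000000000000000) (nat_lit 0x0) (nat_lit 0x38003f001dc008f003a0001e016f00b600000000000000000000000000) := Q_22 (nat_lit 140) (C_22 L71189 (C_22 L71213 (C_22 L71236 (C_22 L71240 N_22)))) (by decide +kernel)
theorem L71242 : W_22 (nat_lit 2) (nat_lit 0x6000240012000d0000800000000000000000000000000) (nat_lit 0x0) (nat_lit 0x20000400020000000000000000000000) := D_22 (nat_lit 106) (nat_lit 125) (nat_lit 89) (nat_lit 0) (nat_lit 8) (nat_lit 7) (nat_lit 4) (nat_lit 5) (nat_lit 9) (by decide +kernel)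
theorem L71243 : W_22 (nat_lit 3) (nat_lit 0x600024001200090000800000000000000000000000000) (nat_lit 0x0) (nat_lit 0x60002400020000000000000000000000) := T_22 (nat_lit 126) (nat_lit 109) (nat_lit 4) (nat_lit 8) (nat_lit 10) L71242 (by decide +kernel)
theorem L71244 : W_22 (nat_lit 4) (nat_lit 0x600004001200090000800000000000000000000000000) (nat_lit 0x0) (nat_lit 0x4000000020000000060002400020000000000000000000000) := T_22 (nat_lit 161) (nat_lit 194) (nat_lit 5) (nat_lit 8) (nat_lit 7) L71243 (by decide +kernel)
theorem L71245 : W_22 (nat_lit 8) (nat_lit 0x600004001200090000000000000000000000000000000) (nat_lit 0x0) (nat_lit 0x148008c003a00000006e003c000a0000000000000000000000) := Q_22 (nat_lit 107) (C_22 L71177 (C_22 L71244 (C_22 L70964 N_22))) (by decide +kernel)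
theorem L71246 : W_22 (nat_lit 2) (nat_lit 0xe0002c0012000f0001000000000000000000000000000) (nat_lit 0x0) (nat_lit 0x100008800000000000000000000000000) := D_22 (nat_lit 128) (nat_lit 111) (nat_lit 107) (nat_lit 6) (nat_lit 8) (nat_lit 10) (nat_lit 0) (nat_lit 9) (nat_lit 7) (by decide +kernel)
theorem L71247 : W_22 (nat_lit 3) (nat_lit 0xe0002c0012000f0000000000000000000000000000000) (nat_lit 0x0) (nat_lit 0x80000000000100009800000000000000000000000000) := T_22 (nat_lit 108) (nat_lit 175) (nat_lit 6) (nat_lit 5) (nat_lit 10) L71246 (by decide +kernel)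
theorem L71248 : W_22 (nat_lit 4) (nat_lit 0xe000240012000f0000000000000000000000000000000) (nat_lit 0x0) (nat_lit 0x80018000000100009800000000000000000000000000) := T_22 (nat_lit 159) (nat_lit 160) (nat_lit 3) (nat_lit 5) (nat_lit 9) L71247 (by decide +kernel)
theorem L71249 : W_22 (nat_lit 5) (nat_lit 0x6000240012000f0000000000000000000000000000000) (nat_lit 0x0) (nat_lit 0x10000880018000000100009800000000000000000000000000) := T_22 (nat_lit 179) (nat_lit 196) (nat_lit 7) (nat_lit 8) (nat_lit 7) L71248 (by decide +kernel)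
theorem L71250 : W_22 (nat_lit 6) (nat_lit 0x6000240012000d0000000000000000000000000000000) (nat_lit 0x0) (nat_lit 0x10000880018000100120009800000000000000000000000000) := T_22 (nat_lit 125) (nat_lit 140) (nat_lit 1) (nat_lit 8) (nat_lit 7) L71249 (by decide +kernel)
theorem L71251 : W_22 (nat_lit 7) (nat_lit 0x600024001200090000000000000000000000000000000) (nat_lit 0x0) (nat_lit 0x1000088001800010016000b800000000000000000000000000) := T_22 (nat_lit 126) (nat_lit 109) (nat_lit 4) (nat_lit 8) (nat_lit 10) L71250 (by decide +kernel)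
theorem L71252 : W_22 (nat_lit 8) (nat_lit 0x600004001200090000000000000000000000000000000) (nat_lit 0x0) (nat_lit 0x1400088003800010016000b800000000000000000000000000) := T_22 (nat_lit 161) (nat_lit 194) (nat_lit 5) (nat_lit 8) (nat_lit 7) L71251 (by decide +kernel)
theorem L71253 : W_22 (nat_lit 15) (nat_lit 0x600004001200080000000000000000000000000000000) (nat_lit 0x0) (nat_lit 0x38003f001dc008f003a0001e017f00bf003e0007000380000000000000) := Q_22 (nat_lit 124) (C_22 L70965 (C_22 L70953 (C_22 L71180 (C_22 L71185 (C_22 L71187 (C_22 L71241 (C_22 L71245 (C_22 L71252 N_22)))))))) (by decide +kernel)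
theorem L71254 : W_22 (nat_lit 2) (nat_lit 0x6700260012001e0000800000000000000000000000000) (nat_lit 0x0) (nat_lit 0x80009000000000000000000000000000000000000000) := D_22 (nat_lit 159) (nat_lit 156) (nat_lit 175) (nat_lit 1) (nat_lit 6) (nat_lit 9) (nat_lit 2) (nat_lit 2) (nat_lit 10) (by decide +kernel)
theorem L71255 : W_22 (nat_lit 3) (nat_lit 0x6600260012001e0000800000000000000000000000000) (nat_lit 0x0) (nat_lit 0x98009000000000000000000000000000000000000000) := T_22 (nat_lit 172) (nat_lit 171) (nat_lit 2) (nat_lit 1) (nat_lit 10) L71254 (by decide +kernel)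
theorem L71256 : W_22 (nat_lit 4) (nat_lit 0x6600260012001c0000800000000000000000000000000) (nat_lit 0x0) (nat_lit 0x98009000000020001000000000000000000000000000) := T_22 (nat_lit 125) (nat_lit 108) (nat_lit 0) (nat_lit 9) (nat_lit 7) L71255 (by decide +kernel)
theorem L71257 : W_22 (nat_lit 5) (nat_lit 0x6600260012001c0000000000000000000000000000000) (nat_lit 0x0) (nat_lit 0x98009000000030001800000000000000000000000000) := T_22 (nat_lit 107) (nat_lit 124) (nat_lit 5) (nat_lit 5) (nat_lit 6) L71256 (by decide +kernel)
theorem L71258 : W_22 (nat_lit 6) (nat_lit 0x6600260012000c0000000000000000000000000000000) (nat_lit 0x0) (nat_lit 0x98009000000130009800000000000000000000000000) := T_22 (nat_lit 128) (nat_lit 111) (nat_lit 6) (nat_lit 8) (nat_lit 10) L71257 (by decide +kernel)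
theorem L71259 : W_22 (nat_lit 7) (nat_lit 0x660026001200080000000000000000000000000000000) (nat_lit 0x0) (nat_lit 0x9800900000017000b800000000000000000000000000) := T_22 (nat_lit 126) (nat_lit 109) (nat_lit 4) (nat_lit 8) (nat_lit 10) L71258 (by decide +kernel)
theorem L71260 : W_22 (nat_lit 8) (nat_lit 0x660006001200080000000000000000000000000000000) (nat_lit 0x0) (nat_lit 0x400009802900000017000b800000000000000000000000000) := T_22 (nat_lit 161) (nat_lit 194) (nat_lit 5) (nat_lit 8) (nat_lit 7) L71259 (by decide +kernel)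
theorem L71261 : W_22 (nat_lit 2) (nat_lit 0x6680260013001d8000000000000000000000000000000) (nat_lit 0x0) (nat_lit 0x80001000000000000400000000000000000000000000) := D_22 (nat_lit 106) (nat_lit 156) (nat_lit 175) (nat_lit 5) (nat_lit 4) (nat_lit 6) (nat_lit 7) (nat_lit 4) (nat_lit 6) (by decide +kernel)
theorem L71262 : W_22 (nat_lit 3) (nat_lit 0x6680260013001d0000000000000000000000000000000) (nat_lit 0x0) (nat_lit 0x400080001000000008000400000000000000000000000000) := T_22 (nat_lit 123) (nat_lit 190) (nat_lit 5) (nat_lit 4) (nat_lit 7) L71261 (by decide +kernel)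
theorem L71263 : W_22 (nat_lit 4) (nat_lit 0x6680260012001d0000000000000000000000000000000) (nat_lit 0x0) (nat_lit 0x400080001000100028000400000000000000000000000000) := T_22 (nat_lit 140) (nat_lit 125) (nat_lit 1) (nat_lit 8) (nat_lit 7) L71262 (by decide +kernel)
theorem L71264 : W_22 (nat_lit 5) (nat_lit 0x6680260012001c0000000000000000000000000000000) (nat_lit 0x0) (nat_lit 0x400080001000100038000c00000000000000000000000000) := T_22 (nat_lit 124) (nat_lit 107) (nat_lit 5) (nat_lit 5) (nat_lit 6) L71263 (by decide +kernel)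
theorem L71265 : W_22 (nat_lit 6) (nat_lit 0x6680260012000c0000000000000000000000000000000) (nat_lit 0x0) (nat_lit 0x400080001000100138008c00000000000000000000000000) := T_22 (nat_lit 128) (nat_lit 111) (nat_lit 6) (nat_lit 8) (nat_lit 10) L71264 (by decide +kernel)
theorem L71266 : W_22 (nat_lit 7) (nat_lit 0x668026001200080000000000000000000000000000000) (nat_lit 0x0) (nat_lit 0x40008000100010017800ac00000000000000000000000000) := T_22 (nat_lit 126) (nat_lit 109) (nat_lit 4) (nat_lit 8) (nat_lit 10) L71265 (by decide +kernel)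
theorem L71267 : W_22 (nat_lit 8) (nat_lit 0x668006001200080000000000000000000000000000000) (nat_lit 0x0) (nat_lit 0x440008002100010017800ac00000000000000000000000000) := T_22 (nat_lit 161) (nat_lit 194) (nat_lit 5) (nat_lit 8) (nat_lit 7) L71266 (by decide +kernel)
theorem L71268 : W_22 (nat_lit 9) (nat_lit 0x660006001200080000000000000000000000000000000) (nat_lit 0x0) (nat_lit 0x440009802100010017800ac00000000000000000000000000) := T_22 (nat_lit 171) (nat_lit 172) (nat_lit 2) (nat_lit 1) (nat_lit 10) L71267 (by decide +kernel)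
theorem L71269 : W_22 (nat_lit 2) (nat_lit 0x66000e001200080000000000000000000000000000000) (nat_lit 0x0) (nat_lit 0x98000000000000000000000000000000000000000000) := D_22 (nat_lit 172) (nat_lit 175) (nat_lit 171) (nat_lit 2) (nat_lit 2) (nat_lit 10) (nat_lit 2) (nat_lit 1) (nat_lit 10) (by decide +kernel)
theorem L71270 : W_22 (nat_lit 3) (nat_lit 0x660006001200080000000000000000000000000000000) (nat_lit 0x0) (nat_lit 0x98018000000000000000000000000000000000000000) := T_22 (nat_lit 159) (nat_lit 160) (nat_lit 3) (nat_lit 4) (nat_lit 9) L71269 (by decide +kernel)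
theorem L71271 : W_22 (nat_lit 2) (nat_lit 0x6600360013001d8000000000000000000000000000000) (nat_lit 0x0) (nat_lit 0x80001000000000000400000000000000000000000000) := D_22 (nat_lit 106) (nat_lit 156) (nat_lit 175) (nat_lit 5) (nat_lit 4) (nat_lit 6) (nat_lit 7) (nat_lit 4) (nat_lit 6) (by decide +kernel)
theorem L71272 : W_22 (nat_lit 3) (nat_lit 0x6600360013001d0000000000000000000000000000000) (nat_lit 0x0) (nat_lit 0x400080001000000008000400000000000000000000000000) := T_22 (nat_lit 123) (nat_lit 190) (nat_lit 5) (nat_lit 4) (nat_lit 7) L71271 (by decide +kernel)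
theorem L71273 : W_22 (nat_lit 4) (nat_lit 0x6600360013000d0000000000000000000000000000000) (nat_lit 0x0) (nat_lit 0x400080001000000108008400000000000000000000000000) := T_22 (nat_lit 128) (nat_lit 111) (nat_lit 6) (nat_lit 8) (nat_lit 10) L71272 (by decide +kernel)
theorem L71274 : W_22 (nat_lit 5) (nat_lit 0x6600360012000d0000000000000000000000000000000) (nat_lit 0x0) (nat_lit 0x400080001000100128008400000000000000000000000000) := T_22 (nat_lit 140) (nat_lit 125) (nat_lit 1) (nat_lit 8) (nat_lit 7) L71273 (by decide +kernel)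
theorem L71275 : W_22 (nat_lit 6) (nat_lit 0x660036001200090000000000000000000000000000000) (nat_lit 0x0) (nat_lit 0x40008000100010016800a400000000000000000000000000) := T_22 (nat_lit 126) (nat_lit 109) (nat_lit 4) (nat_lit 8) (nat_lit 10) L71274 (by decide +kernel)
theorem L71276 : W_22 (nat_lit 7) (nat_lit 0x660016001200090000000000000000000000000000000) (nat_lit 0x0) (nat_lit 0x440008002100010016800a400000000000000000000000000) := T_22 (nat_lit 161) (nat_lit 194) (nat_lit 5) (nat_lit 8) (nat_lit 7) L71275 (by decide +kernel)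
theorem L71277 : W_22 (nat_lit 8) (nat_lit 0x660016001200080000000000000000000000000000000) (nat_lit 0x0) (nat_lit 0x440008002100010017800ac00000000000000000000000000) := T_22 (nat_lit 124) (nat_lit 107) (nat_lit 5) (nat_lit 5) (nat_lit 6) L71276 (by decide +kernel)
theorem L71278 : W_22 (nat_lit 9) (nat_lit 0x660006001200080000000000000000000000000000000) (nat_lit 0x0) (nat_lit 0x440008003900010017800ac00000000000000000000000000) := T_22 (nat_lit 160) (nat_lit 159) (nat_lit 3) (nat_lit 4) (nat_lit 9) L71277 (by decide +kernel)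
theorem L71279 : W_22 (nat_lit 10) (nat_lit 0x640006001200080000000000000000000000000000000) (nat_lit 0x0) (nat_lit 0x44000b803900010017800bc00000000000000000000000000) := Q_22 (nat_lit 173) (C_22 L71260 (C_22 L71268 (C_22 L70894 (C_22 L71270 (C_22 L71278 N_22))))) (by decide +kernel)
theorem L71280 : W_22 (nat_lit 11) (nat_lit 0x600006001200080000000000000000000000000000000) (nat_lit 0x0) (nat_lit 0x38005c000f80390001e017c00bc00000000000000000000000000) := Q_22 (nat_lit 174) (C_22 L70891 (C_22 L70869 (C_22 L70867 (C_22 L71279 N_22)))) (by decide +kernel)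
theorem L71281 : W_22 (nat_lit 2) (nat_lit 0x60002e0012001c0000000000000000000000000000000) (nat_lit 0x0) (nat_lit 0x900001000000000000000000000000000000000000000) := D_22 (nat_lit 176) (nat_lit 156) (nat_lit 179) (nat_lit 3) (nat_lit 3) (nat_lit 9) (nat_lit 0) (nat_lit 9) (nat_lit 10) (by decide +kernel)
theorem L71282 : W_22 (nat_lit 3) (nat_lit 0x6000260012001c0000000000000000000000000000000) (nat_lit 0x0) (nat_lit 0x900019000000000000000000000000000000000000000) := T_22 (nat_lit 159) (nat_lit 160) (nat_lit 3) (nat_lit 4) (nat_lit 9) L71281 (by decide +kernel)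
theorem L71283 : W_22 (nat_lit 4) (nat_lit 0x6000260012000c0000000000000000000000000000000) (nat_lit 0x0) (nat_lit 0x900019000000100008000000000000000000000000000) := T_22 (nat_lit 128) (nat_lit 111) (nat_lit 6) (nat_lit 8) (nat_lit 10) L71282 (by decide +kernel)
theorem L71284 : W_22 (nat_lit 5) (nat_lit 0x600026001200080000000000000000000000000000000) (nat_lit 0x0) (nat_lit 0x90001900000014000a000000000000000000000000000) := T_22 (nat_lit 126) (nat_lit 109) (nat_lit 4) (nat_lit 8) (nat_lit 10) L71283 (by decide +kernel)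
theorem L71285 : W_22 (nat_lit 6) (nat_lit 0x600006001200080000000000000000000000000000000) (nat_lit 0x0) (nat_lit 0x400090003900000014000a000000000000000000000000000) := T_22 (nat_lit 161) (nat_lit 194) (nat_lit 5) (nat_lit 8) (nat_lit 7) L71284 (by decide +kernel)
theorem L71286 : W_22 (nat_lit 12) (nat_lit 0x600004001200080000000000000000000000000000000) (nat_lit 0x0) (nat_lit 0x38005c009f803b0001e017c00bc000e0000000000000000000000) := Q_22 (nat_lit 157) (C_22 L71060 (C_22 L71057 (C_22 L71280 (C_22 L71285 N_22)))) (by decide +kernel)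
theorem L71287 : W_22 (nat_lit 2) (nat_lit 0x40062002f8013401e0001000000000000000000000000000) (nat_lit 0x0) (nat_lit 0x40000000000008000400000000000000000000000000) := D_22 (nat_lit 123) (nat_lit 106) (nat_lit 174) (nat_lit 5) (nat_lit 4) (nat_lit 6) (nat_lit 5) (nat_lit 4) (nat_lit 7) (by decide +kernel)
theorem L71288 : W_22 (nat_lit 3) (nat_lit 0x62002f8013401e0001000000000000000000000000000) (nat_lit 0x0) (nat_lit 0x8000400040000000000008000400000000000000000000000000) := T_22 (nat_lit 190) (nat_lit 207) (nat_lit 6) (nat_lit 3) (nat_lit 12) L71287 (by decide +kernel)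
theorem L71289 : W_22 (nat_lit 4) (nat_lit 0x62002f8013401e0000000000000000000000000000000) (nat_lit 0x0) (nat_lit 0x8000400040000000000008001c00000000000000000000000000) := T_22 (nat_lit 108) (nat_lit 107) (nat_lit 0) (nat_lit 9) (nat_lit 7) L71288 (by decide +kernel)
theorem L71290 : W_22 (nat_lit 5) (nat_lit 0x62002f8013401c0000000000000000000000000000000) (nat_lit 0x0) (nat_lit 0x8000400040000000000038001c00000000000000000000000000) := T_22 (nat_lit 125) (nat_lit 124) (nat_lit 1) (nat_lit 8) (nat_lit 7) L71289 (by decide +kernel)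
theorem L71291 : W_22 (nat_lit 6) (nat_lit 0x62002f8012401c0000000000000000000000000000000) (nat_lit 0x0) (nat_lit 0x8000400040000400100038001c00000000000000000000000000) := T_22 (nat_lit 140) (nat_lit 154) (nat_lit 2) (nat_lit 1) (nat_lit 9) L71290 (by decide +kernel)
theorem L71292 : W_22 (nat_lit 7) (nat_lit 0x62002f0012401c0000000000000000000000000000000) (nat_lit 0x0) (nat_lit 0x8000400040000c00120038001c00000000000000000000000000) := T_22 (nat_lit 155) (nat_lit 137) (nat_lit 0) (nat_lit 5) (nat_lit 9) L71291 (by decide +kernel)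
theorem L71293 : W_22 (nat_lit 8) (nat_lit 0x62002f0012001c0000000000000000000000000000000) (nat_lit 0x0) (nat_lit 0x8000400040000c001e0038001c00000000000000000000000000) := T_22 (nat_lit 138) (nat_lit 139) (nat_lit 0) (nat_lit 6) (nat_lit 9) L71292 (by decide +kernel)
theorem L71294 : W_22 (nat_lit 9) (nat_lit 0x60002f0012001c0000000000000000000000000000000) (nat_lit 0x0) (nat_lit 0x8000400070000c001e0038001c00000000000000000000000000) := T_22 (nat_lit 173) (nat_lit 172) (nat_lit 1) (nat_lit 6) (nat_lit 9) L71293 (by decide +kernel)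
theorem L71295 : W_22 (nat_lit 10) (nat_lit 0x60002e0012001c0000000000000000000000000000000) (nat_lit 0x0) (nat_lit 0x8000400170001c001e0038001c00000000000000000000000000) := T_22 (nat_lit 156) (nat_lit 176) (nat_lit 3) (nat_lit 3) (nat_lit 9) L71294 (by decide +kernel)
theorem L71296 : W_22 (nat_lit 11) (nat_lit 0x6000260012001c0000000000000000000000000000000) (nat_lit 0x0) (nat_lit 0x8000400170019c001e0038001c00000000000000000000000000) := T_22 (nat_lit 159) (nat_lit 160) (nat_lit 3) (nat_lit 4) (nat_lit 9) L71295 (by decide +kernel)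
theorem L71297 : W_22 (nat_lit 12) (nat_lit 0x6000260012000c0000000000000000000000000000000) (nat_lit 0x0) (nat_lit 0x8000400170019c001e0138009c00000000000000000000000000) := T_22 (nat_lit 128) (nat_lit 111) (nat_lit 6) (nat_lit 8) (nat_lit 10) L71296 (by decide +kernel)
theorem L71298 : W_22 (nat_lit 13) (nat_lit 0x600026001200080000000000000000000000000000000) (nat_lit 0x0) (nat_lit 0x8000400170019c001e017800bc00000000000000000000000000) := T_22 (nat_lit 126) (nat_lit 109) (nat_lit 4) (nat_lit 8) (nat_lit 10) L71297 (by decide +kernel)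
theorem L71299 : W_22 (nat_lit 14) (nat_lit 0x600006001200080000000000000000000000000000000) (nat_lit 0x0) (nat_lit 0x8004400170039c001e017800bc00000000000000000000000000) := T_22 (nat_lit 161) (nat_lit 194) (nat_lit 5) (nat_lit 8) (nat_lit 7) L71298 (by decide +kernel)
theorem L71300 : W_22 (nat_lit 15) (nat_lit 0x600004001200080000000000000000000000000000000) (nat_lit 0x0) (nat_lit 0x38005c001f803bc001e017c00bc000e0000000000000000000000) := Q_22 (nat_lit 157) (C_22 L71060 (C_22 L71280 (C_22 L71057 (C_22 L71299 N_22)))) (by decide +kernel)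
theorem L71301 : W_22 (nat_lit 16) (nat_lit 0x200004001200080000000000000000000000000000000) (nat_lit 0x0) (nat_lit 0x38003f807dc01df81fbc001e017f00bf003e0007000380000000000000) := Q_22 (nat_lit 178) (C_22 L71253 (C_22 L70760 (C_22 L71143 (C_22 L70861 (C_22 L71286 (C_22 L70574 (C_22 L70589 (C_22 L71300 N_22)))))))) (by decide +kernel)
theorem L71302 : W_22 (nat_lit 2) (nat_lit 0x8003800040012000d0000c00000000000000000000000000) (nat_lit 0x0) (nat_lit 0x10001000400000000000000000000000000000000000000000000) := D_22 (nat_lit 192) (nat_lit 178) (nat_lit 208) (nat_lit 1) (nat_lit 8) (nat_lit 10) (nat_lit 5) (nat_lit 5) (nat_lit 8) (by decide +kernel)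
theorem L71303 : W_22 (nat_lit 3) (nat_lit 0x3800040012000d0000c00000000000000000000000000) (nat_lit 0x0) (nat_lit 0x10001800440000000000000000000000000000000000000000000) := T_22 (nat_lit 191) (nat_lit 174) (nat_lit 5) (nat_lit 5) (nat_lit 7) L71302 (by decide +kernel)
theorem L71304 : W_22 (nat_lit 4) (nat_lit 0x2800040012000d0000c00000000000000000000000000) (nat_lit 0x0) (nat_lit 0x10001800540008000000000000000000000000000000000000000) := T_22 (nat_lit 176) (nat_lit 159) (nat_lit 7) (nat_lit 5) (nat_lit 6) L71303 (by decide +kernel)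
theorem L71305 : W_22 (nat_lit 5) (nat_lit 0x2000040012000d0000c00000000000000000000000000) (nat_lit 0x0) (nat_lit 0x100018005c0008000000008000000000000000000000000000000) := T_22 (nat_lit 175) (nat_lit 123) (nat_lit 4) (nat_lit 5) (nat_lit 10) L71304 (by decide +kernel)
theorem L71306 : W_22 (nat_lit 6) (nat_lit 0x200004001200090000c00000000000000000000000000) (nat_lit 0x0) (nat_lit 0x100018005c0008000000068000000000000000000000000000000) := T_22 (nat_lit 126) (nat_lit 125) (nat_lit 0) (nat_lit 8) (nat_lit 7) L71305 (by decide +kernel)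
theorem L71307 : W_22 (nat_lit 7) (nat_lit 0x200004001200090000800000000000000000000000000) (nat_lit 0x0) (nat_lit 0x100018005c0008000000068000400020000000000000000000000) := T_22 (nat_lit 106) (nat_lit 89) (nat_lit 4) (nat_lit 5) (nat_lit 9) L71306 (by decide +kernel)
theorem L71308 : W_22 (nat_lit 8) (nat_lit 0x200004001200090000000000000000000000000000000) (nat_lit 0x0) (nat_lit 0x100018005c001a0001c0068000c000e0007000200000000000000) := Q_22 (nat_lit 107) (C_22 L39589 (C_22 L71096 (C_22 L71307 (C_22 L71082 N_22)))) (by decide +kernel)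
theorem L71309 : W_22 (nat_lit 8) (nat_lit 0x200004001200090000000000000000000000000000000) (nat_lit 0x0) (nat_lit 0x100018005c000800010016c003c000a0000000000000000000000) := Q_22 (nat_lit 107) (C_22 L70498 (C_22 L71307 (C_22 L40007 (C_22 L39576 (C_22 L70560 N_22))))) (by decide +kernel)
theorem L71310 : W_22 (nat_lit 2) (nat_lit 0x8000200018003800040013000b0000000000000000000000000000000) (nat_lit 0x0) (nat_lit 0x10000400000000000000008000000000000000000000000000000000000000) := D_22 (nat_lit 226) (nat_lit 159) (nat_lit 244) (nat_lit 6) (nat_lit 5) (nat_lit 13) (nat_lit 7) (nat_lit 5) (nat_lit 10) (by decide +kernel)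
theorem L71311 : W_22 (nat_lit 3) (nat_lit 0x200018003800040013000b0000000000000000000000000000000) (nat_lit 0x0) (nat_lit 0x10000c00040000000000008000000000000000000000000000000000000000) := T_22 (nat_lit 227) (nat_lit 210) (nat_lit 7) (nat_lit 5) (nat_lit 9) L71310 (by decide +kernel)
theorem L71312 : W_22 (nat_lit 4) (nat_lit 0x200018002800040013000b0000000000000000000000000000000) (nat_lit 0x0) (nat_lit 0x10000c00040000000500008000000000000000000000000000000000000000) := T_22 (nat_lit 176) (nat_lit 178) (nat_lit 1) (nat_lit 8) (nat_lit 10) L71311 (by decide +kernel)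
theorem L71313 : W_22 (nat_lit 5) (nat_lit 0x18002800040013000b0000000000000000000000000000000) (nat_lit 0x0) (nat_lit 0x10000c0006000000050000a000000000000000000000000000000000000000) := T_22 (nat_lit 209) (nat_lit 157) (nat_lit 4) (nat_lit 5) (nat_lit 12) L71312 (by decide +kernel)
theorem L71314 : W_22 (nat_lit 6) (nat_lit 0x8002800040013000b0000000000000000000000000000000) (nat_lit 0x0) (nat_lit 0x10000c0007000100050000a000000000000000000000000000000000000000) := T_22 (nat_lit 192) (nat_lit 208) (nat_lit 5) (nat_lit 5) (nat_lit 8) L71313 (by decide +kernel)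
theorem L71315 : W_22 (nat_lit 7) (nat_lit 0x8002800040012000b0000000000000000000000000000000) (nat_lit 0x0) (nat_lit 0x10000c0007000100050000a000100040000000000000000000000000000000) := T_22 (nat_lit 140) (nat_lit 126) (nat_lit 1) (nat_lit 8) (nat_lit 7) L71314 (by decide +kernel)
theorem L71316 : W_22 (nat_lit 8) (nat_lit 0x800280004001200090000000000000000000000000000000) (nat_lit 0x0) (nat_lit 0x10000c0007000100050000a000100060001000000000000000000000000000) := T_22 (nat_lit 125) (nat_lit 108) (nat_lit 6) (nat_lit 5) (nat_lit 10) L71315 (by decide +kernel)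
theorem L71317 : W_22 (nat_lit 9) (nat_lit 0x280004001200090000000000000000000000000000000) (nat_lit 0x0) (nat_lit 0x10000c0007000180054000a000100060001000000000000000000000000000) := T_22 (nat_lit 191) (nat_lit 174) (nat_lit 5) (nat_lit 5) (nat_lit 7) L71316 (by decide +kernel)
theorem L71318 : W_22 (nat_lit 12) (nat_lit 0x200004001200090000000000000000000000000000000) (nat_lit 0x0) (nat_lit 0x10000c0007000df005f001b800900068001400000000000000000000000000) := Q_22 (nat_lit 175) (C_22 L32056 (C_22 L71105 (C_22 L39889 (C_22 L71317 N_22)))) (by decide +kernel)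
theorem L71319 : W_22 (nat_lit 8) (nat_lit 0x200004001200090000000000000000000000000000000) (nat_lit 0x0) (nat_lit 0x100018005c001a000800068001c000a0000000000000000000000) := Q_22 (nat_lit 107) (C_22 L39589 (C_22 L71307 (C_22 L70527 (C_22 L70498 N_22)))) (by decide +kernel)
theorem L71320 : W_22 (nat_lit 2) (nat_lit 0x2000040012000b0000c00000000000000000000000000) (nat_lit 0x0) (nat_lit 0x80000000000008001000000000000000000000000000) := D_22 (nat_lit 175) (nat_lit 123) (nat_lit 108) (nat_lit 4) (nat_lit 5) (nat_lit 10) (nat_lit 6) (nat_lit 5) (nat_lit 10) (by decide +kernel)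
theorem L71321 : W_22 (nat_lit 3) (nat_lit 0x200004001200090000c00000000000000000000000000) (nat_lit 0x0) (nat_lit 0x80000000000068001000000000000000000000000000) := T_22 (nat_lit 125) (nat_lit 126) (nat_lit 0) (nat_lit 8) (nat_lit 7) L71320 (by decide +kernel)
theorem L71322 : W_22 (nat_lit 4) (nat_lit 0x200004001200090000800000000000000000000000000) (nat_lit 0x0) (nat_lit 0x80000000000068001400020000000000000000000000) := T_22 (nat_lit 106) (nat_lit 89) (nat_lit 4) (nat_lit 5) (nat_lit 9) L71321 (by decide +kernel)
theorem L71323 : W_22 (nat_lit 8) (nat_lit 0x200004001200090000000000000000000000000000000) (nat_lit 0x0) (nat_lit 0x18000a000100168001c000e0007000200000000000000) := Q_22 (nat_lit 107) (C_22 L70498 (C_22 L71082 (C_22 L71322 (C_22 L70560 N_22)))) (by decide +kernel)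
theorem L71324 : W_22 (nat_lit 13) (nat_lit 0x200004001200080000000000000000000000000000000) (nat_lit 0x0) (nat_lit 0x10000c0007000df005f001b8009c017c003c000e0007000200000000000000) := Q_22 (nat_lit 124) (C_22 L70499 (C_22 L71135 (C_22 L70504 (C_22 L70505 (C_22 L71308 (C_22 L71098 (C_22 L71309 (C_22 L71318 (C_22 L71319 (C_22 L71323 N_22)))))))))) (by decide +kernel)
theorem L71325 : W_22 (nat_lit 2) (nat_lit 0x600014001a000e0000000000000000000000000000000) (nat_lit 0x0) (nat_lit 0x100018000000000000000000000000000000) := D_22 (nat_lit 124) (nat_lit 123) (nat_lit 140) (nat_lit 3) (nat_lit 4) (nat_lit 7) (nat_lit 1) (nat_lit 8) (nat_lit 7) (by decide +kernel)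
theorem L71326 : W_22 (nat_lit 3) (nat_lit 0x600014001a000c0000000000000000000000000000000) (nat_lit 0x0) (nat_lit 0x100038001000000000000000000000000000) := T_22 (nat_lit 125) (nat_lit 108) (nat_lit 4) (nat_lit 7) (nat_lit 10) L71325 (by decide +kernel)
theorem L71327 : W_22 (nat_lit 4) (nat_lit 0x600014001a00080000000000000000000000000000000) (nat_lit 0x0) (nat_lit 0x8000000000000100078001000000000000000000000000000) := T_22 (nat_lit 126) (nat_lit 195) (nat_lit 7) (nat_lit 7) (nat_lit 7) L71326 (by decide +kernel)
theorem L71328 : W_22 (nat_lit 5) (nat_lit 0x600014001200080000000000000000000000000000000) (nat_lit 0x0) (nat_lit 0xc000000000000900078001000000000000000000000000000) := T_22 (nat_lit 143) (nat_lit 194) (nat_lit 6) (nat_lit 7) (nat_lit 11) L71327 (by decide +kernel)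
theorem L71329 : W_22 (nat_lit 4) (nat_lit 0x600014001200080000000000000000000000000000000) (nat_lit 0x0) (nat_lit 0x400190000a000800000000000000000000000000000000000) := T_22 (nat_lit 194) (nat_lit 143) (nat_lit 6) (nat_lit 7) (nat_lit 11) L70576 (by decide +kernel)
theorem L71330 : W_22 (nat_lit 2) (nat_lit 0x60001c001200080000000000000000000000000000000) (nat_lit 0x0) (nat_lit 0x1900000000000000000000000000000000000000000000) := D_22 (nat_lit 179) (nat_lit 180) (nat_lit 176) (nat_lit 0) (nat_lit 10) (nat_lit 10) (nat_lit 0) (nat_lit 9) (nat_lit 10) (by decide +kernel)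
theorem L71331 : W_22 (nat_lit 3) (nat_lit 0x600014001200080000000000000000000000000000000) (nat_lit 0x0) (nat_lit 0x190000a000000000000000000000000000000000000000) := T_22 (nat_lit 159) (nat_lit 157) (nat_lit 3) (nat_lit 4) (nat_lit 9) L71330 (by decide +kernel)
theorem L71332 : W_22 (nat_lit 6) (nat_lit 0x600004001200080000000000000000000000000000000) (nat_lit 0x0) (nat_lit 0xc00190001a000900078001000000000000000000000000000) := Q_22 (nat_lit 160) (C_22 L71328 (C_22 L71329 (C_22 L71331 N_22))) (by decide +kernel)
theorem L71333 : W_22 (nat_lit 2) (nat_lit 0xe000ac005a003c0010000000000000000000000000000) (nat_lit 0x0) (nat_lit 0x3000100000000000000000000000000000000000000000) := D_22 (nat_lit 164) (nat_lit 180) (nat_lit 181) (nat_lit 2) (nat_lit 7) (nat_lit 10) (nat_lit 7) (nat_lit 10) (nat_lit 6) (by decide +kernel)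
theorem L71334 : W_22 (nat_lit 3) (nat_lit 0xe0002c005a003c0010000000000000000000000000000) (nat_lit 0x0) (nat_lit 0x30001c0000000000000000000000000000000000000000) := T_22 (nat_lit 163) (nat_lit 162) (nat_lit 5) (nat_lit 10) (nat_lit 6) L71333 (by decide +kernel)
theorem L71335 : W_22 (nat_lit 4) (nat_lit 0xe0002c001a003c0010000000000000000000000000000) (nat_lit 0x0) (nat_lit 0x30001c000c000000000000000000000000000000000000) := T_22 (nat_lit 146) (nat_lit 147) (nat_lit 3) (nat_lit 7) (nat_lit 7) L71334 (by decide +kernel)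
theorem L71336 : W_22 (nat_lit 5) (nat_lit 0xe0002c001a003c0000000000000000000000000000000) (nat_lit 0x0) (nat_lit 0x30001c000c000000030000000000000000000000000000) := T_22 (nat_lit 112) (nat_lit 113) (nat_lit 2) (nat_lit 7) (nat_lit 7) L71335 (by decide +kernel)
theorem L71337 : W_22 (nat_lit 6) (nat_lit 0xe0002c001a001c0000000000000000000000000000000) (nat_lit 0x0) (nat_lit 0x30001c000c000600030000000000000000000000000000) := T_22 (nat_lit 129) (nat_lit 130) (nat_lit 1) (nat_lit 11) (nat_lit 7) L71336 (by decide +kernel)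
theorem L71338 : W_22 (nat_lit 7) (nat_lit 0xe0002c001a000c0000000000000000000000000000000) (nat_lit 0x0) (nat_lit 0x30001c000c000700038000000000000000000000000000) := T_22 (nat_lit 128) (nat_lit 111) (nat_lit 6) (nat_lit 8) (nat_lit 10) L71337 (by decide +kernel)
theorem L71339 : W_22 (nat_lit 8) (nat_lit 0xe0002c0012000c0000000000000000000000000000000) (nat_lit 0x0) (nat_lit 0x80030001c000c800700038000000000000000000000000000) := T_22 (nat_lit 143) (nat_lit 195) (nat_lit 4) (nat_lit 8) (nat_lit 11) L71338 (by decide +kernel)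
theorem L71340 : W_22 (nat_lit 9) (nat_lit 0x60002c0012000c0000000000000000000000000000000) (nat_lit 0x0) (nat_lit 0x80039001c000c800700038000000000000000000000000000) := T_22 (nat_lit 179) (nat_lit 176) (nat_lit 0) (nat_lit 9) (nat_lit 10) L71339 (by decide +kernel)
theorem L71341 : W_22 (nat_lit 10) (nat_lit 0x60002c001200080000000000000000000000000000000) (nat_lit 0x0) (nat_lit 0x80039001c000c80074003a000000000000000000000000000) := T_22 (nat_lit 126) (nat_lit 109) (nat_lit 4) (nat_lit 8) (nat_lit 10) L71340 (by decide +kernel)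
theorem L71342 : W_22 (nat_lit 11) (nat_lit 0x600024001200080000000000000000000000000000000) (nat_lit 0x0) (nat_lit 0x80039001da00c90074003a000000000000000000000000000) := Q_22 (nat_lit 159) (C_22 L70442 (C_22 L70437 (C_22 L71341 N_22))) (by decide +kernel)
theorem L71343 : W_22 (nat_lit 12) (nat_lit 0x600004001200080000000000000000000000000000000) (nat_lit 0x0) (nat_lit 0x70003800180039001fa00c90074003a000000000000000000000000000) := Q_22 (nat_lit 161) (C_22 L70735 (C_22 L70427 (C_22 L71342 (C_22 L70597 N_22)))) (by decide +kernel)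
theorem L71344 : W_22 (nat_lit 13) (nat_lit 0x200004001200080000000000000000000000000000000) (nat_lit 0x0) (nat_lit 0x700038001c003d001fa00c90077803b000000000000000000000000000) := Q_22 (nat_lit 178) (C_22 L70736 (C_22 L70578 (C_22 L70574 (C_22 L71332 (C_22 L71343 (C_22 L70598 N_22)))))) (by decide +kernel)
theorem L71345 : W_22 (nat_lit 3) (nat_lit 0x600014001200080000000000000000000000000000000) (nat_lit 0x0) (nat_lit 0x4000800028000100000000000000000000000000000000000) := T_22 (nat_lit 161) (nat_lit 194) (nat_lit 5) (nat_lit 8) (nat_lit 7) L71156 (by decide +kernel)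
theorem L71346 : W_22 (nat_lit 2) (nat_lit 0x600034001a001e0000000000000000000000000000000) (nat_lit 0x0) (nat_lit 0x100018000000000000000000000000000000) := D_22 (nat_lit 124) (nat_lit 123) (nat_lit 140) (nat_lit 3) (nat_lit 4) (nat_lit 7) (nat_lit 1) (nat_lit 8) (nat_lit 7) (by decide +kernel)
theorem L71347 : W_22 (nat_lit 3) (nat_lit 0x600034001a001c0000000000000000000000000000000) (nat_lit 0x0) (nat_lit 0x100038001000000000000000000000000000) := T_22 (nat_lit 125) (nat_lit 108) (nat_lit 4) (nat_lit 7) (nat_lit 10) L71346 (by decide +kernel)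
theorem L71348 : W_22 (nat_lit 4) (nat_lit 0x6000340012001c0000000000000000000000000000000) (nat_lit 0x0) (nat_lit 0x8000000000000900038001000000000000000000000000000) := T_22 (nat_lit 143) (nat_lit 195) (nat_lit 7) (nat_lit 7) (nat_lit 7) L71347 (by decide +kernel)
theorem L71349 : W_22 (nat_lit 5) (nat_lit 0x600034001200180000000000000000000000000000000) (nat_lit 0x0) (nat_lit 0x8000000000000900078003000000000000000000000000000) := T_22 (nat_lit 126) (nat_lit 109) (nat_lit 4) (nat_lit 8) (nat_lit 10) L71348 (by decide +kernel)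
theorem L71350 : W_22 (nat_lit 6) (nat_lit 0x600034001200080000000000000000000000000000000) (nat_lit 0x0) (nat_lit 0x800000000000090017800b000000000000000000000000000) := T_22 (nat_lit 128) (nat_lit 111) (nat_lit 6) (nat_lit 8) (nat_lit 10) L71349 (by decide +kernel)
theorem L71351 : W_22 (nat_lit 2) (nat_lit 0x100078003c001a000d0000000000000000000000000000000) (nat_lit 0x0) (nat_lit 0x28001000000000000000000000000000) := D_22 (nat_lit 125) (nat_lit 108) (nat_lit 123) (nat_lit 6) (nat_lit 5) (nat_lit 10) (nat_lit 3) (nat_lit 4) (nat_lit 7) (by decide +kernel)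
theorem L71352 : W_22 (nat_lit 3) (nat_lit 0x100078003c001a000c0000000000000000000000000000000) (nat_lit 0x0) (nat_lit 0x38001800000000000000000000000000) := T_22 (nat_lit 124) (nat_lit 107) (nat_lit 7) (nat_lit 5) (nat_lit 6) L71351 (by decide +kernel)
theorem L71353 : W_22 (nat_lit 4) (nat_lit 0x78003c001a000c0000000000000000000000000000000) (nat_lit 0x0) (nat_lit 0x1800000000000000038001800000000000000000000000000) := T_22 (nat_lit 192) (nat_lit 191) (nat_lit 1) (nat_lit 8) (nat_lit 10) L71352 (by decide +kernel)
theorem L71354 : W_22 (nat_lit 5) (nat_lit 0x68003c001a000c0000000000000000000000000000000) (nat_lit 0x0) (nat_lit 0x1800100040000000038001800000000000000000000000000) := T_22 (nat_lit 176) (nat_lit 162) (nat_lit 2) (nat_lit 5) (nat_lit 10) L71353 (by decide +kernel)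
theorem L71355 : W_22 (nat_lit 6) (nat_lit 0x68003c0012000c0000000000000000000000000000000) (nat_lit 0x0) (nat_lit 0x9800100040000800038001800000000000000000000000000) := T_22 (nat_lit 143) (nat_lit 195) (nat_lit 7) (nat_lit 7) (nat_lit 7) L71354 (by decide +kernel)
theorem L71356 : W_22 (nat_lit 7) (nat_lit 0x60003c0012000c0000000000000000000000000000000) (nat_lit 0x0) (nat_lit 0x98001c0040000800038001800000000000000000000000000) := T_22 (nat_lit 175) (nat_lit 174) (nat_lit 1) (nat_lit 8) (nat_lit 9) L71355 (by decide +kernel)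
theorem L71357 : W_22 (nat_lit 8) (nat_lit 0x6000340012000c0000000000000000000000000000000) (nat_lit 0x0) (nat_lit 0x98009c0048000800038001800000000000000000000000000) := T_22 (nat_lit 159) (nat_lit 179) (nat_lit 3) (nat_lit 5) (nat_lit 9) L71356 (by decide +kernel)
theorem L71358 : W_22 (nat_lit 9) (nat_lit 0x600034001200080000000000000000000000000000000) (nat_lit 0x0) (nat_lit 0x98009c0048000800078003800000000000000000000000000) := T_22 (nat_lit 126) (nat_lit 109) (nat_lit 4) (nat_lit 8) (nat_lit 10) L71357 (by decide +kernel)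
theorem L71359 : W_22 (nat_lit 10) (nat_lit 0x600014001200080000000000000000000000000000000) (nat_lit 0x0) (nat_lit 0x98009c006800090017800b800000000000000000000000000) := Q_22 (nat_lit 161) (C_22 L71156 (C_22 L71350 (C_22 L71358 N_22))) (by decide +kernel)
theorem L71360 : W_22 (nat_lit 11) (nat_lit 0x600004001200080000000000000000000000000000000) (nat_lit 0x0) (nat_lit 0xd8009c007800090017800b800000000000000000000000000) := Q_22 (nat_lit 160) (C_22 L71328 (C_22 L70864 (C_22 L71345 (C_22 L71359 N_22)))) (by decide +kernel)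
theorem L71361 : W_22 (nat_lit 5) (nat_lit 0xe00004001200080000000000000000000000000000000) (nat_lit 0x0) (nat_lit 0x700011001c8000000000000000000000000000000000000000) := T_22 (nat_lit 176) (nat_lit 159) (nat_lit 0) (nat_lit 9) (nat_lit 10) L70587 (by decide +kernel)
theorem L71362 : W_22 (nat_lit 2) (nat_lit 0x1f00084001200080000000000000000000000000000000) (nat_lit 0x0) (nat_lit 0x70000000000000000000000000000000000000000000000000) := D_22 (nat_lit 197) (nat_lit 198) (nat_lit 196) (nat_lit 3) (nat_lit 7) (nat_lit 10) (nat_lit 3) (nat_lit 6) (nat_lit 10) (by decide +kernel)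
theorem L71363 : W_22 (nat_lit 3) (nat_lit 0x1e00084001200080000000000000000000000000000000) (nat_lit 0x0) (nat_lit 0x70000100040000000000000000000000000000000000000000) := T_22 (nat_lit 176) (nat_lit 162) (nat_lit 2) (nat_lit 6) (nat_lit 10) L71362 (by decide +kernel)
theorem L71364 : W_22 (nat_lit 4) (nat_lit 0x1e00004001200080000000000000000000000000000000) (nat_lit 0x0) (nat_lit 0x700001001c0000000000000000000000000000000000000000) := T_22 (nat_lit 163) (nat_lit 164) (nat_lit 2) (nat_lit 7) (nat_lit 10) L71363 (by decide +kernel)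
theorem L71365 : W_22 (nat_lit 2) (nat_lit 0x40001e00104001200080000000000000000000000000000000) (nat_lit 0x0) (nat_lit 0x80002000200000000000000000000000000000000000000000) := D_22 (nat_lit 181) (nat_lit 199) (nat_lit 165) (nat_lit 3) (nat_lit 8) (nat_lit 10) (nat_lit 2) (nat_lit 8) (nat_lit 10) (by decide +kernel)
theorem L71366 : W_22 (nat_lit 3) (nat_lit 0x40001e00004001200080000000000000000000000000000000) (nat_lit 0x0) (nat_lit 0x80002000380000000000000000000000000000000000000000) := T_22 (nat_lit 164) (nat_lit 163) (nat_lit 2) (nat_lit 7) (nat_lit 10) L71365 (by decide +kernel)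
theorem L71367 : W_22 (nat_lit 4) (nat_lit 0x1e00004001200080000000000000000000000000000000) (nat_lit 0x0) (nat_lit 0xe0002000380000000000000000000000000000000000000000) := T_22 (nat_lit 198) (nat_lit 197) (nat_lit 3) (nat_lit 7) (nat_lit 10) L71366 (by decide +kernel)
theorem L71368 : W_22 (nat_lit 2) (nat_lit 0x3e00004001200080000000000000000000000000000000) (nat_lit 0x0) (nat_lit 0xe0000000000000000000000000000000000000000000000000) := D_22 (nat_lit 198) (nat_lit 197) (nat_lit 199) (nat_lit 3) (nat_lit 7) (nat_lit 10) (nat_lit 3) (nat_lit 8) (nat_lit 10) (by decide +kernel)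
theorem L71369 : W_22 (nat_lit 2) (nat_lit 0x88003e00004001200080000000000000000000000000000000) (nat_lit 0x0) (nat_lit 0x110004000000000000000000000000000000000000000000000) := D_22 (nat_lit 182) (nat_lit 200) (nat_lit 196) (nat_lit 3) (nat_lit 9) (nat_lit 10) (nat_lit 1) (nat_lit 12) (nat_lit 10) (by decide +kernel)
theorem L71370 : W_22 (nat_lit 3) (nat_lit 0x80003e00004001200080000000000000000000000000000000) (nat_lit 0x0) (nat_lit 0x11c004000000000000000000000000000000000000000000000) := T_22 (nat_lit 195) (nat_lit 194) (nat_lit 1) (nat_lit 11) (nat_lit 10) L71369 (by decide +kernel)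
theorem L71371 : W_22 (nat_lit 4) (nat_lit 0x3e00004001200080000000000000000000000000000000) (nat_lit 0x0) (nat_lit 0x1dc004000000000000000000000000000000000000000000000) := T_22 (nat_lit 199) (nat_lit 198) (nat_lit 3) (nat_lit 8) (nat_lit 10) L71370 (by decide +kernel)
theorem L71372 : W_22 (nat_lit 2) (nat_lit 0x108007e00404001200080000000000000000000000000000000) (nat_lit 0x0) (nat_lit 0x200008000800000000000000000000000000000000000000000) := D_22 (nat_lit 183) (nat_lit 167) (nat_lit 201) (nat_lit 2) (nat_lit 10) (nat_lit 10) (nat_lit 3) (nat_lit 10) (nat_lit 10) (by decide +kernel)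
theorem L71373 : W_22 (nat_lit 3) (nat_lit 0x8007e00404001200080000000000000000000000000000000) (nat_lit 0x0) (nat_lit 0x380008000800000000000000000000000000000000000000000) := T_22 (nat_lit 200) (nat_lit 199) (nat_lit 3) (nat_lit 9) (nat_lit 10) L71372 (by decide +kernel)
theorem L71374 : W_22 (nat_lit 4) (nat_lit 0x8007e00004001200080000000000000000000000000000000) (nat_lit 0x0) (nat_lit 0x380008000e00000000000000000000000000000000000000000) := T_22 (nat_lit 166) (nat_lit 165) (nat_lit 2) (nat_lit 9) (nat_lit 10) L71373 (by decide +kernel)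
theorem L71375 : W_22 (nat_lit 5) (nat_lit 0x8003e00004001200080000000000000000000000000000000) (nat_lit 0x0) (nat_lit 0x39000c000e00000000000000000000000000000000000000000) := T_22 (nat_lit 182) (nat_lit 196) (nat_lit 1) (nat_lit 12) (nat_lit 10) L71374 (by decide +kernel)
theorem L71376 : W_22 (nat_lit 6) (nat_lit 0x3e00004001200080000000000000000000000000000000) (nat_lit 0x0) (nat_lit 0x39c00c000e00000000000000000000000000000000000000000) := T_22 (nat_lit 195) (nat_lit 194) (nat_lit 1) (nat_lit 11) (nat_lit 10) L71375 (by decide +kernel)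
theorem L71377 : W_22 (nat_lit 2) (nat_lit 0x28003e00004001200080000000000000000000000000000000) (nat_lit 0x0) (nat_lit 0x10004100000000000000000000000000000000000000000000) := D_22 (nat_lit 196) (nat_lit 176) (nat_lit 182) (nat_lit 3) (nat_lit 6) (nat_lit 10) (nat_lit 1) (nat_lit 12) (nat_lit 10) (by decide +kernel)
theorem L71378 : W_22 (nat_lit 3) (nat_lit 0x8003e00004001200080000000000000000000000000000000) (nat_lit 0x0) (nat_lit 0x70004100000000000000000000000000000000000000000000) := T_22 (nat_lit 197) (nat_lit 198) (nat_lit 3) (nat_lit 7) (nat_lit 10) L71377 (by decide +kernel)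
theorem L71379 : W_22 (nat_lit 4) (nat_lit 0x3e00004001200080000000000000000000000000000000) (nat_lit 0x0) (nat_lit 0x7c004100000000000000000000000000000000000000000000) := T_22 (nat_lit 195) (nat_lit 194) (nat_lit 1) (nat_lit 11) (nat_lit 10) L71378 (by decide +kernel)
theorem L71380 : W_22 (nat_lit 7) (nat_lit 0x1e00004001200080000000000000000000000000000000) (nat_lit 0x0) (nat_lit 0x3fc00e100e00000000000000000000000000000000000000000) := Q_22 (nat_lit 181) (C_22 L71368 (C_22 L71371 (C_22 L71376 (C_22 L71379 N_22)))) (by decide +kernel)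
theorem L71381 : W_22 (nat_lit 2) (nat_lit 0x88003e00104001200080000000000000000000000000000000) (nat_lit 0x0) (nat_lit 0x110004000000000000000000000000000000000000000000000) := D_22 (nat_lit 182) (nat_lit 196) (nat_lit 200) (nat_lit 1) (nat_lit 12) (nat_lit 10) (nat_lit 3) (nat_lit 9) (nat_lit 10) (by decide +kernel)
theorem L71382 : W_22 (nat_lit 3) (nat_lit 0x8003e00104001200080000000000000000000000000000000) (nat_lit 0x0) (nat_lit 0x1d0004000000000000000000000000000000000000000000000) := T_22 (nat_lit 199) (nat_lit 198) (nat_lit 3) (nat_lit 8) (nat_lit 10) L71381 (by decide +kernel)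
theorem L71383 : W_22 (nat_lit 4) (nat_lit 0x3e00104001200080000000000000000000000000000000) (nat_lit 0x0) (nat_lit 0x1dc004000000000000000000000000000000000000000000000) := T_22 (nat_lit 195) (nat_lit 194) (nat_lit 1) (nat_lit 11) (nat_lit 10) L71382 (by decide +kernel)
theorem L71384 : W_22 (nat_lit 5) (nat_lit 0x1e00104001200080000000000000000000000000000000) (nat_lit 0x0) (nat_lit 0x1dc006000200000000000000000000000000000000000000000) := T_22 (nat_lit 181) (nat_lit 165) (nat_lit 2) (nat_lit 8) (nat_lit 10) L71383 (by decide +kernel)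
theorem L71385 : W_22 (nat_lit 6) (nat_lit 0x1e00004001200080000000000000000000000000000000) (nat_lit 0x0) (nat_lit 0x1dc006000380000000000000000000000000000000000000000) := T_22 (nat_lit 164) (nat_lit 163) (nat_lit 2) (nat_lit 7) (nat_lit 10) L71384 (by decide +kernel)
theorem L71386 : W_22 (nat_lit 2) (nat_lit 0x10801f80084001200080000000000000000000000000000000) (nat_lit 0x0) (nat_lit 0x400040000000000010000000000000000000000000000000) := D_22 (nat_lit 174) (nat_lit 190) (nat_lit 124) (nat_lit 1) (nat_lit 7) (nat_lit 10) (nat_lit 5) (nat_lit 5) (nat_lit 7) (by decide +kernel)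
theorem L71387 : W_22 (nat_lit 3) (nat_lit 0x10001f80084001200080000000000000000000000000000000) (nat_lit 0x0) (nat_lit 0x1c00040000000000010000000000000000000000000000000) := T_22 (nat_lit 191) (nat_lit 192) (nat_lit 1) (nat_lit 8) (nat_lit 10) L71386 (by decide +kernel)
theorem L71388 : W_22 (nat_lit 4) (nat_lit 0x10001f00084001200080000000000000000000000000000000) (nat_lit 0x0) (nat_lit 0x9c000c0000000000010000000000000000000000000000000) := T_22 (nat_lit 175) (nat_lit 195) (nat_lit 3) (nat_lit 5) (nat_lit 10) L71387 (by decide +kernel)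
theorem L71389 : W_22 (nat_lit 5) (nat_lit 0x1f00084001200080000000000000000000000000000000) (nat_lit 0x0) (nat_lit 0x39c000c0000000000010000000000000000000000000000000) := T_22 (nat_lit 196) (nat_lit 197) (nat_lit 3) (nat_lit 6) (nat_lit 10) L71388 (by decide +kernel)
theorem L71390 : W_22 (nat_lit 6) (nat_lit 0x1e00084001200080000000000000000000000000000000) (nat_lit 0x0) (nat_lit 0x39c001c0040000000010000000000000000000000000000000) := T_22 (nat_lit 176) (nat_lit 162) (nat_lit 2) (nat_lit 6) (nat_lit 10) L71389 (by decide +kernel)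
theorem L71391 : W_22 (nat_lit 7) (nat_lit 0x1e00004001200080000000000000000000000000000000) (nat_lit 0x0) (nat_lit 0x39c001c01c0000000010000000000000000000000000000000) := T_22 (nat_lit 163) (nat_lit 164) (nat_lit 2) (nat_lit 7) (nat_lit 10) L71390 (by decide +kernel)
theorem L71392 : W_22 (nat_lit 10) (nat_lit 0xe00004001200080000000000000000000000000000000) (nat_lit 0x0) (nat_lit 0x3fdc0f1c0fc0004000210000000000000000000000000000000) := Q_22 (nat_lit 180) (C_22 L71364 (C_22 L70922 (C_22 L71367 (C_22 L71380 (C_22 L71385 (C_22 L71391 N_22)))))) (by decide +kernel)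
theorem L71393 : W_22 (nat_lit 2) (nat_lit 0x20001e00094001a000e0000000000000000000000000000000) (nat_lit 0x0) (nat_lit 0x100018000000000000000000000000000000) := D_22 (nat_lit 124) (nat_lit 123) (nat_lit 140) (nat_lit 3) (nat_lit 4) (nat_lit 7) (nat_lit 1) (nat_lit 8) (nat_lit 7) (by decide +kernel)
theorem L71394 : W_22 (nat_lit 3) (nat_lit 0x20001e00094001a000c0000000000000000000000000000000) (nat_lit 0x0) (nat_lit 0x100038001000000000000000000000000000) := T_22 (nat_lit 125) (nat_lit 108) (nat_lit 4) (nat_lit 7) (nat_lit 10) L71393 (by decide +kernel)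
theorem L71395 : W_22 (nat_lit 4) (nat_lit 0x20001e00094001a00080000000000000000000000000000000) (nat_lit 0x0) (nat_lit 0x8000000000000100078001000000000000000000000000000) := T_22 (nat_lit 126) (nat_lit 195) (nat_lit 7) (nat_lit 7) (nat_lit 7) L71394 (by decide +kernel)
theorem L71396 : W_22 (nat_lit 5) (nat_lit 0x1e00094001a00080000000000000000000000000000000) (nat_lit 0x0) (nat_lit 0x68000000000000100078001000000000000000000000000000) := T_22 (nat_lit 197) (nat_lit 198) (nat_lit 3) (nat_lit 7) (nat_lit 10) L71395 (by decide +kernel)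
theorem L71397 : W_22 (nat_lit 6) (nat_lit 0x1e00094001200080000000000000000000000000000000) (nat_lit 0x0) (nat_lit 0x6c000000000000900078001000000000000000000000000000) := T_22 (nat_lit 143) (nat_lit 194) (nat_lit 6) (nat_lit 7) (nat_lit 11) L71396 (by decide +kernel)
theorem L71398 : W_22 (nat_lit 7) (nat_lit 0x1e00014001200080000000000000000000000000000000) (nat_lit 0x0) (nat_lit 0x6c000000180000900078001000000000000000000000000000) := T_22 (nat_lit 163) (nat_lit 164) (nat_lit 2) (nat_lit 7) (nat_lit 10) L71397 (by decide +kernel)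
theorem L71399 : W_22 (nat_lit 8) (nat_lit 0x1e00004001200080000000000000000000000000000000) (nat_lit 0x0) (nat_lit 0x6c000000198000900078001000000000000000000000000000) := T_22 (nat_lit 160) (nat_lit 159) (nat_lit 0) (nat_lit 10) (nat_lit 10) L71398 (by decide +kernel)
theorem L71400 : W_22 (nat_lit 2) (nat_lit 0x1e00094001a000e0000000000000000000000000000000) (nat_lit 0x0) (nat_lit 0x100018000000000000000000000000000000) := D_22 (nat_lit 124) (nat_lit 123) (nat_lit 140) (nat_lit 3) (nat_lit 4) (nat_lit 7) (nat_lit 1) (nat_lit 8) (nat_lit 7) (by decide +kernel)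
theorem L71401 : W_22 (nat_lit 3) (nat_lit 0x1e00094001a000c0000000000000000000000000000000) (nat_lit 0x0) (nat_lit 0x100038001000000000000000000000000000) := T_22 (nat_lit 125) (nat_lit 108) (nat_lit 4) (nat_lit 7) (nat_lit 10) L71400 (by decide +kernel)
theorem L71402 : W_22 (nat_lit 4) (nat_lit 0x1e00094001a00080000000000000000000000000000000) (nat_lit 0x0) (nat_lit 0x8000000000000100078001000000000000000000000000000) := T_22 (nat_lit 126) (nat_lit 195) (nat_lit 7) (nat_lit 7) (nat_lit 7) L71401 (by decide +kernel)
theorem L71403 : W_22 (nat_lit 5) (nat_lit 0x1e00094001200080000000000000000000000000000000) (nat_lit 0x0) (nat_lit 0xc000000000000900078001000000000000000000000000000) := T_22 (nat_lit 143) (nat_lit 194) (nat_lit 6) (nat_lit 7) (nat_lit 11) L71402 (by decide +kernel)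
theorem L71404 : W_22 (nat_lit 6) (nat_lit 0x1e00014001200080000000000000000000000000000000) (nat_lit 0x0) (nat_lit 0xc000000180000900078001000000000000000000000000000) := T_22 (nat_lit 163) (nat_lit 164) (nat_lit 2) (nat_lit 7) (nat_lit 10) L71403 (by decide +kernel)
theorem L71405 : W_22 (nat_lit 7) (nat_lit 0x1e00004001200080000000000000000000000000000000) (nat_lit 0x0) (nat_lit 0xc000000198000900078001000000000000000000000000000) := T_22 (nat_lit 160) (nat_lit 159) (nat_lit 0) (nat_lit 10) (nat_lit 10) L71404 (by decide +kernel)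
theorem L71406 : W_22 (nat_lit 9) (nat_lit 0xe00004001200080000000000000000000000000000000) (nat_lit 0x0) (nat_lit 0x1fc007000398000900078001000000000000000000000000000) := Q_22 (nat_lit 180) (C_22 L71367 (C_22 L71385 (C_22 L70926 (C_22 L71399 (C_22 L71405 N_22))))) (by decide +kernel)
theorem L71407 : W_22 (nat_lit 5) (nat_lit 0xe0000c001200080000000000000000000000000000000) (nat_lit 0x0) (nat_lit 0xe0003000390000000000000000000000000000000000000000) := T_22 (nat_lit 180) (nat_lit 160) (nat_lit 0) (nat_lit 10) (nat_lit 10) L70929 (by decide +kernel)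
theorem L71408 : W_22 (nat_lit 6) (nat_lit 0xe00004001200080000000000000000000000000000000) (nat_lit 0x0) (nat_lit 0xe0003100398000000000000000000000000000000000000000) := T_22 (nat_lit 159) (nat_lit 176) (nat_lit 0) (nat_lit 9) (nat_lit 10) L71407 (by decide +kernel)
theorem L71409 : W_22 (nat_lit 2) (nat_lit 0x10800f80044001200080000000000000000000000000000000) (nat_lit 0x0) (nat_lit 0x400040000000000010000000000000000000000000000000) := D_22 (nat_lit 174) (nat_lit 190) (nat_lit 124) (nat_lit 1) (nat_lit 7) (nat_lit 10) (nat_lit 5) (nat_lit 5) (nat_lit 7) (by decide +kernel)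
theorem L71410 : W_22 (nat_lit 3) (nat_lit 0x10000f80044001200080000000000000000000000000000000) (nat_lit 0x0) (nat_lit 0x1c00040000000000010000000000000000000000000000000) := T_22 (nat_lit 191) (nat_lit 192) (nat_lit 1) (nat_lit 8) (nat_lit 10) L71409 (by decide +kernel)
theorem L71411 : W_22 (nat_lit 4) (nat_lit 0x10000f00044001200080000000000000000000000000000000) (nat_lit 0x0) (nat_lit 0x9c000c0000000000010000000000000000000000000000000) := T_22 (nat_lit 175) (nat_lit 195) (nat_lit 3) (nat_lit 5) (nat_lit 10) L71410 (by decide +kernel)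
theorem L71412 : W_22 (nat_lit 5) (nat_lit 0xf00044001200080000000000000000000000000000000) (nat_lit 0x0) (nat_lit 0x39c000c0000000000010000000000000000000000000000000) := T_22 (nat_lit 196) (nat_lit 197) (nat_lit 3) (nat_lit 6) (nat_lit 10) L71411 (by decide +kernel)
theorem L71413 : W_22 (nat_lit 6) (nat_lit 0xf00004001200080000000000000000000000000000000) (nat_lit 0x0) (nat_lit 0x39c000c00c0000000010000000000000000000000000000000) := T_22 (nat_lit 162) (nat_lit 163) (nat_lit 2) (nat_lit 6) (nat_lit 10) L71412 (by decide +kernel)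
theorem L71414 : W_22 (nat_lit 7) (nat_lit 0xe00004001200080000000000000000000000000000000) (nat_lit 0x0) (nat_lit 0x39c001c00c8000000010000000000000000000000000000000) := T_22 (nat_lit 176) (nat_lit 159) (nat_lit 0) (nat_lit 9) (nat_lit 10) L71413 (by decide +kernel)
theorem L71415 : W_22 (nat_lit 2) (nat_lit 0x88003e0010c001200080000000000000000000000000000000) (nat_lit 0x0) (nat_lit 0x110004000000000000000000000000000000000000000000000) := D_22 (nat_lit 182) (nat_lit 196) (nat_lit 200) (nat_lit 1) (nat_lit 12) (nat_lit 10) (nat_lit 3) (nat_lit 9) (nat_lit 10) (by decide +kernel)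
theorem L71416 : W_22 (nat_lit 3) (nat_lit 0x8003e0010c001200080000000000000000000000000000000) (nat_lit 0x0) (nat_lit 0x1d0004000000000000000000000000000000000000000000000) := T_22 (nat_lit 199) (nat_lit 198) (nat_lit 3) (nat_lit 8) (nat_lit 10) L71415 (by decide +kernel)
theorem L71417 : W_22 (nat_lit 4) (nat_lit 0x3e0010c001200080000000000000000000000000000000) (nat_lit 0x0) (nat_lit 0x1dc004000000000000000000000000000000000000000000000) := T_22 (nat_lit 195) (nat_lit 194) (nat_lit 1) (nat_lit 11) (nat_lit 10) L71416 (by decide +kernel)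
theorem L71418 : W_22 (nat_lit 5) (nat_lit 0x1e0010c001200080000000000000000000000000000000) (nat_lit 0x0) (nat_lit 0x1dc006000200000000000000000000000000000000000000000) := T_22 (nat_lit 181) (nat_lit 165) (nat_lit 2) (nat_lit 8) (nat_lit 10) L71417 (by decide +kernel)
theorem L71419 : W_22 (nat_lit 6) (nat_lit 0x1e0000c001200080000000000000000000000000000000) (nat_lit 0x0) (nat_lit 0x1dc006000380000000000000000000000000000000000000000) := T_22 (nat_lit 164) (nat_lit 163) (nat_lit 2) (nat_lit 7) (nat_lit 10) L71418 (by decide +kernel)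
theorem L71420 : W_22 (nat_lit 7) (nat_lit 0xe0000c001200080000000000000000000000000000000) (nat_lit 0x0) (nat_lit 0x1dc007000390000000000000000000000000000000000000000) := T_22 (nat_lit 180) (nat_lit 160) (nat_lit 0) (nat_lit 10) (nat_lit 10) L71419 (by decide +kernel)
theorem L71421 : W_22 (nat_lit 8) (nat_lit 0xe00004001200080000000000000000000000000000000) (nat_lit 0x0) (nat_lit 0x1dc007100398000000000000000000000000000000000000000) := T_22 (nat_lit 159) (nat_lit 176) (nat_lit 0) (nat_lit 9) (nat_lit 10) L71420 (by decide +kernel)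
theorem L71422 : W_22 (nat_lit 2) (nat_lit 0x10800f80004001200080000000000000000000000000000000) (nat_lit 0x0) (nat_lit 0x400040000000000010000000000000000000000000000000) := D_22 (nat_lit 174) (nat_lit 190) (nat_lit 124) (nat_lit 1) (nat_lit 7) (nat_lit 10) (nat_lit 5) (nat_lit 5) (nat_lit 7) (by decide +kernel)
theorem L71423 : W_22 (nat_lit 3) (nat_lit 0x10000f80004001200080000000000000000000000000000000) (nat_lit 0x0) (nat_lit 0x1c00040000000000010000000000000000000000000000000) := T_22 (nat_lit 191) (nat_lit 192) (nat_lit 1) (nat_lit 8) (nat_lit 10) L71422 (by decide +kernel)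
theorem L71424 : W_22 (nat_lit 4) (nat_lit 0x10000f00004001200080000000000000000000000000000000) (nat_lit 0x0) (nat_lit 0x9c000c0000000000010000000000000000000000000000000) := T_22 (nat_lit 175) (nat_lit 195) (nat_lit 3) (nat_lit 5) (nat_lit 10) L71423 (by decide +kernel)
theorem L71425 : W_22 (nat_lit 5) (nat_lit 0xf00004001200080000000000000000000000000000000) (nat_lit 0x0) (nat_lit 0x39c000c0000000000010000000000000000000000000000000) := T_22 (nat_lit 196) (nat_lit 197) (nat_lit 3) (nat_lit 6) (nat_lit 10) L71424 (by decide +kernel)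
theorem L71426 : W_22 (nat_lit 6) (nat_lit 0xe00004001200080000000000000000000000000000000) (nat_lit 0x0) (nat_lit 0x39c001c0008000000010000000000000000000000000000000) := T_22 (nat_lit 176) (nat_lit 159) (nat_lit 0) (nat_lit 9) (nat_lit 10) L71425 (by decide +kernel)
theorem L71427 : W_22 (nat_lit 11) (nat_lit 0x600004001200080000000000000000000000000000000) (nat_lit 0x0) (nat_lit 0x3fdc0f9c0fd8004900278001000000000000000000000000000) := Q_22 (nat_lit 179) (C_22 L71361 (C_22 L71392 (C_22 L71406 (C_22 L71408 (C_22 L71414 (C_22 L71421 (C_22 L71426 N_22))))))) (by decide +kernel)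
theorem L71428 : W_22 (nat_lit 10) (nat_lit 0x600024001200080000000000000000000000000000000) (nat_lit 0x0) (nat_lit 0x98009c005800090017800b800000000000000000000000000) := Q_22 (nat_lit 160) (C_22 L71156 (C_22 L71358 (C_22 L71350 N_22))) (by decide +kernel)
theorem L71429 : W_22 (nat_lit 2) (nat_lit 0x10003000080006000240012001c0000000000000000000000000000000) (nat_lit 0x0) (nat_lit 0x20002000000000000000010000000000000000000000000000000000000000) := D_22 (nat_lit 229) (nat_lit 160) (nat_lit 245) (nat_lit 4) (nat_lit 8) (nat_lit 13) (nat_lit 5) (nat_lit 8) (nat_lit 10) (by decide +kernel)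
theorem L71430 : W_22 (nat_lit 3) (nat_lit 0x3000080006000240012001c0000000000000000000000000000000) (nat_lit 0x0) (nat_lit 0x20003000080000000000010000000000000000000000000000000000000000) := T_22 (nat_lit 228) (nat_lit 211) (nat_lit 5) (nat_lit 8) (nat_lit 9) L71429 (by decide +kernel)
theorem L71431 : W_22 (nat_lit 4) (nat_lit 0x2000080006000240012001c0000000000000000000000000000000) (nat_lit 0x0) (nat_lit 0x20007000180000000000010000000000000000000000000000000000000000) := T_22 (nat_lit 212) (nat_lit 230) (nat_lit 7) (nat_lit 8) (nat_lit 9) L71430 (by decide +kernel)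
theorem L71432 : W_22 (nat_lit 5) (nat_lit 0x80006000240012001c0000000000000000000000000000000) (nat_lit 0x0) (nat_lit 0x20007000380010000000010000000000000000000000000000000000000000) := T_22 (nat_lit 213) (nat_lit 196) (nat_lit 7) (nat_lit 8) (nat_lit 8) L71431 (by decide +kernel)
theorem L71433 : W_22 (nat_lit 6) (nat_lit 0x6000240012001c0000000000000000000000000000000) (nat_lit 0x0) (nat_lit 0x20007000380018000000010000800000000000000000000000000000000000) := T_22 (nat_lit 195) (nat_lit 143) (nat_lit 4) (nat_lit 8) (nat_lit 11) L71432 (by decide +kernel)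
theorem L71434 : W_22 (nat_lit 7) (nat_lit 0x6000240012000c0000000000000000000000000000000) (nat_lit 0x0) (nat_lit 0x20007000380018000000010000800100008000000000000000000000000000) := T_22 (nat_lit 128) (nat_lit 111) (nat_lit 6) (nat_lit 8) (nat_lit 10) L71433 (by decide +kernel)
theorem L71435 : W_22 (nat_lit 8) (nat_lit 0x600024001200080000000000000000000000000000000) (nat_lit 0x0) (nat_lit 0x2000700038001800000001000080014000a000000000000000000000000000) := T_22 (nat_lit 126) (nat_lit 109) (nat_lit 4) (nat_lit 8) (nat_lit 10) L71434 (by decide +kernel)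
theorem L71436 : W_22 (nat_lit 11) (nat_lit 0x600004001200080000000000000000000000000000000) (nat_lit 0x0) (nat_lit 0x200070003800198009c007800090017800b800000000000000000000000000) := Q_22 (nat_lit 161) (C_22 L70735 (C_22 L70427 (C_22 L71428 (C_22 L71435 N_22)))) (by decide +kernel)
theorem L71437 : W_22 (nat_lit 9) (nat_lit 0x600004001200080000000000000000000000000000000) (nat_lit 0x0) (nat_lit 0x2000700038001c00000003000080014000a000000000000000000000000000) := T_22 (nat_lit 161) (nat_lit 194) (nat_lit 5) (nat_lit 8) (nat_lit 7) L71435 (by decide +kernel)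
theorem L71438 : W_22 (nat_lit 12) (nat_lit 0x200004001200080000000000000000000000000000000) (nat_lit 0x0) (nat_lit 0x200070003803fdc0fdc0ff800490037800b800000000000000000000000000) := Q_22 (nat_lit 178) (C_22 L70736 (C_22 L70574 (C_22 L71360 (C_22 L71427 (C_22 L71436 (C_22 L71437 N_22)))))) (by decide +kernel)
theorem L71439 : W_22 (nat_lit 2) (nat_lit 0x780004001200098000000000000000000000000000000) (nat_lit 0x0) (nat_lit 0x1800040000000000000000000000000000000000000000000) := D_22 (nat_lit 191) (nat_lit 174) (nat_lit 192) (nat_lit 5) (nat_lit 5) (nat_lit 7) (nat_lit 1) (nat_lit 8) (nat_lit 10) (by decide +kernel)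
theorem L71440 : W_22 (nat_lit 3) (nat_lit 0x380004001200098000000000000000000000000000000) (nat_lit 0x0) (nat_lit 0x1800440002000000000000000000000000000000000000000) := T_22 (nat_lit 178) (nat_lit 157) (nat_lit 0) (nat_lit 8) (nat_lit 10) L71439 (by decide +kernel)
theorem L71441 : W_22 (nat_lit 4) (nat_lit 0x380004001200090000000000000000000000000000000) (nat_lit 0x0) (nat_lit 0x1800440002000000008000400000000000000000000000000) := T_22 (nat_lit 123) (nat_lit 106) (nat_lit 4) (nat_lit 5) (nat_lit 10) L71440 (by decide +kernel)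
theorem L71442 : W_22 (nat_lit 2) (nat_lit 0x3e00140012000f8000000000000000000000000000000) (nat_lit 0x0) (nat_lit 0x3800000000000000000000000000000000000000) := D_22 (nat_lit 156) (nat_lit 157) (nat_lit 155) (nat_lit 0) (nat_lit 7) (nat_lit 10) (nat_lit 0) (nat_lit 6) (nat_lit 10) (by decide +kernel)
theorem L71443 : W_22 (nat_lit 3) (nat_lit 0x3c00140012000f8000000000000000000000000000000) (nat_lit 0x0) (nat_lit 0x2000b800000000000000000000000000000000000000) := T_22 (nat_lit 173) (nat_lit 159) (nat_lit 2) (nat_lit 3) (nat_lit 10) L71442 (by decide +kernel)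
theorem L71444 : W_22 (nat_lit 4) (nat_lit 0x3c00040012000f8000000000000000000000000000000) (nat_lit 0x0) (nat_lit 0x2003b800000000000000000000000000000000000000) := T_22 (nat_lit 160) (nat_lit 161) (nat_lit 2) (nat_lit 4) (nat_lit 10) L71443 (by decide +kernel)
theorem L71445 : W_22 (nat_lit 5) (nat_lit 0x3800040012000f8000000000000000000000000000000) (nat_lit 0x0) (nat_lit 0x80006003b800000000000000000000000000000000000000) := T_22 (nat_lit 174) (nat_lit 191) (nat_lit 5) (nat_lit 5) (nat_lit 7) L71444 (by decide +kernel)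
theorem L71446 : W_22 (nat_lit 6) (nat_lit 0x3800040012000b8000000000000000000000000000000) (nat_lit 0x0) (nat_lit 0x80006003b800800040000000000000000000000000000000) := T_22 (nat_lit 126) (nat_lit 143) (nat_lit 3) (nat_lit 4) (nat_lit 7) L71445 (by decide +kernel)
theorem L71447 : W_22 (nat_lit 7) (nat_lit 0x3800040012000b0000000000000000000000000000000) (nat_lit 0x0) (nat_lit 0x80006003b800800048000400000000000000000000000000) := T_22 (nat_lit 123) (nat_lit 106) (nat_lit 4) (nat_lit 5) (nat_lit 10) L71446 (by decide +kernel)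
theorem L71448 : W_22 (nat_lit 8) (nat_lit 0x380004001200090000000000000000000000000000000) (nat_lit 0x0) (nat_lit 0x80006003b800800068001400000000000000000000000000) := T_22 (nat_lit 125) (nat_lit 108) (nat_lit 6) (nat_lit 5) (nat_lit 10) L71447 (by decide +kernel)
theorem L71449 : W_22 (nat_lit 2) (nat_lit 0x2003f0014001200098000000000000000000000000000000) (nat_lit 0x0) (nat_lit 0x1c00000000000000000000000000000000000000) := D_22 (nat_lit 155) (nat_lit 154) (nat_lit 156) (nat_lit 0) (nat_lit 5) (nat_lit 10) (nat_lit 0) (nat_lit 6) (nat_lit 10) (by decide +kernel)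
theorem L71450 : W_22 (nat_lit 3) (nat_lit 0x2003e0014001200098000000000000000000000000000000) (nat_lit 0x0) (nat_lit 0x100010001c00000000000000000000000000000000000000) := T_22 (nat_lit 172) (nat_lit 188) (nat_lit 1) (nat_lit 5) (nat_lit 10) L71449 (by decide +kernel)
theorem L71451 : W_22 (nat_lit 4) (nat_lit 0x2003e0014001200090000000000000000000000000000000) (nat_lit 0x0) (nat_lit 0x100010001c00000008000400000000000000000000000000) := T_22 (nat_lit 123) (nat_lit 106) (nat_lit 4) (nat_lit 5) (nat_lit 10) L71450 (by decide +kernel)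
theorem L71452 : W_22 (nat_lit 5) (nat_lit 0x3e0014001200090000000000000000000000000000000) (nat_lit 0x0) (nat_lit 0x700010001c00000008000400000000000000000000000000) := T_22 (nat_lit 189) (nat_lit 190) (nat_lit 1) (nat_lit 6) (nat_lit 10) L71451 (by decide +kernel)
theorem L71453 : W_22 (nat_lit 6) (nat_lit 0x3c0014001200090000000000000000000000000000000) (nat_lit 0x0) (nat_lit 0x700030009c00000008000400000000000000000000000000) := T_22 (nat_lit 173) (nat_lit 159) (nat_lit 2) (nat_lit 3) (nat_lit 10) L71452 (by decide +kernel)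
theorem L71454 : W_22 (nat_lit 7) (nat_lit 0x3c0004001200090000000000000000000000000000000) (nat_lit 0x0) (nat_lit 0x700030039c00000008000400000000000000000000000000) := T_22 (nat_lit 160) (nat_lit 161) (nat_lit 2) (nat_lit 4) (nat_lit 10) L71453 (by decide +kernel)
theorem L71455 : W_22 (nat_lit 8) (nat_lit 0x380004001200090000000000000000000000000000000) (nat_lit 0x0) (nat_lit 0xf00070039c00000008000400000000000000000000000000) := T_22 (nat_lit 174) (nat_lit 191) (nat_lit 5) (nat_lit 5) (nat_lit 7) L71454 (by decide +kernel)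
theorem L71456 : W_22 (nat_lit 2) (nat_lit 0x7800040012000f8000000000000000000000000000000) (nat_lit 0x0) (nat_lit 0x60000000000002000000000000000000000000000) := D_22 (nat_lit 161) (nat_lit 162) (nat_lit 109) (nat_lit 2) (nat_lit 5) (nat_lit 10) (nat_lit 4) (nat_lit 8) (nat_lit 10) (by decide +kernel)
theorem L71457 : W_22 (nat_lit 3) (nat_lit 0x7800040012000b8000000000000000000000000000000) (nat_lit 0x0) (nat_lit 0x60000800040002000000000000000000000000000) := T_22 (nat_lit 126) (nat_lit 143) (nat_lit 3) (nat_lit 4) (nat_lit 7) L71456 (by decide +kernel)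
theorem L71458 : W_22 (nat_lit 4) (nat_lit 0x7800040012000b0000000000000000000000000000000) (nat_lit 0x0) (nat_lit 0x60000800048002400000000000000000000000000) := T_22 (nat_lit 123) (nat_lit 106) (nat_lit 4) (nat_lit 5) (nat_lit 10) L71457 (by decide +kernel)
theorem L71459 : W_22 (nat_lit 5) (nat_lit 0x3800040012000b0000000000000000000000000000000) (nat_lit 0x0) (nat_lit 0x400062000800048002400000000000000000000000000) := T_22 (nat_lit 178) (nat_lit 157) (nat_lit 0) (nat_lit 8) (nat_lit 10) L71458 (by decide +kernel)
theorem L71460 : W_22 (nat_lit 6) (nat_lit 0x380004001200090000000000000000000000000000000) (nat_lit 0x0) (nat_lit 0x400062000800068003400000000000000000000000000) := T_22 (nat_lit 125) (nat_lit 108) (nat_lit 6) (nat_lit 5) (nat_lit 10) L71459 (by decide +kernel)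
theorem L71461 : W_22 (nat_lit 2) (nat_lit 0x3c0004001200090000000000000000000000000000000) (nat_lit 0x0) (nat_lit 0x400003000000000000000000000000000000000000000) := D_22 (nat_lit 157) (nat_lit 178) (nat_lit 156) (nat_lit 0) (nat_lit 8) (nat_lit 10) (nat_lit 0) (nat_lit 7) (nat_lit 10) (by decide +kernel)
theorem L71462 : W_22 (nat_lit 3) (nat_lit 0x380004001200090000000000000000000000000000000) (nat_lit 0x0) (nat_lit 0x800440003000000000000000000000000000000000000000) := T_22 (nat_lit 174) (nat_lit 191) (nat_lit 5) (nat_lit 5) (nat_lit 7) L71461 (by decide +kernel)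
theorem L71463 : W_22 (nat_lit 9) (nat_lit 0x280004001200090000000000000000000000000000000) (nat_lit 0x0) (nat_lit 0x1f0057007bc00800068003400000000000000000000000000) := Q_22 (nat_lit 176) (C_22 L71441 (C_22 L71448 (C_22 L71455 (C_22 L71460 (C_22 L71462 N_22))))) (by decide +kernel)
theorem L71464 : W_22 (nat_lit 10) (nat_lit 0x200004001200090000000000000000000000000000000) (nat_lit 0x0) (nat_lit 0x10000c00070001f005f007bc00900068003400000000000000000000000000) := Q_22 (nat_lit 175) (C_22 L71317 (C_22 L32056 (C_22 L71463 (C_22 L39889 N_22)))) (by decide +kernel)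
theorem L71465 : W_22 (nat_lit 11) (nat_lit 0x200004001200080000000000000000000000000000000) (nat_lit 0x0) (nat_lit 0x10000c00070001f005f007bc009c017c003c000e0007000200000000000000) := Q_22 (nat_lit 124) (C_22 L70499 (C_22 L71323 (C_22 L70504 (C_22 L70505 (C_22 L71308 (C_22 L71098 (C_22 L71309 (C_22 L71464 (C_22 L71319 (C_22 L71135 N_22)))))))))) (by decide +kernel)
theorem L71466 : W_22 (nat_lit 13) (nat_lit 0x200004001200080000000000000000000000000000000) (nat_lit 0x0) (nat_lit 0x2000700038007dc03df01fa00c80075000a000000000000000000000000000) := Q_22 (nat_lit 178) (C_22 L71437 (C_22 L71143 (C_22 L70861 (C_22 L70856 (C_22 L70589 N_22))))) (by decide +kernel)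
theorem L71467 : W_22 (nat_lit 17) (nat_lit 0x200000001200080000000000000000000000000000000) (nat_lit 0x0) (nat_lit 0x70007e003f83fdf0fdf8fffc0c9e077f03bf003e000f000380004000000000) := Q_22 (nat_lit 158) (C_22 L70563 (C_22 L70599 (C_22 L70732 (C_22 L70842 (C_22 L70843 (C_22 L70863 (C_22 L71062 (C_22 L71136 (C_22 L71159 (C_22 L71161 (C_22 L71301 (C_22 L71324 (C_22 L71344 (C_22 L71438 (C_22 L71465 (C_22 L71466 N_22)))))))))))))))) (by decide +kernel)
theorem L71468 : W_22 (nat_lit 9) (nat_lit 0x200000001e00080000000000000000000000000000000) (nat_lit 0x0) (nat_lit 0x500018001e000000078001c000e0000000000000000000000) := T_22 (nat_lit 194) (nat_lit 160) (nat_lit 6) (nat_lit 7) (nat_lit 11) L69773 (by decide +kernel)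
theorem L71469 : W_22 (nat_lit 10) (nat_lit 0x200000001600080000000000000000000000000000000) (nat_lit 0x0) (nat_lit 0x500018007f00090007c001c000e0000000000000000000000) := Q_22 (nat_lit 143) (C_22 L59832 (C_22 L59810 (C_22 L31824 (C_22 L71468 N_22)))) (by decide +kernel)
theorem L71470 : W_22 (nat_lit 5) (nat_lit 0x200000001600080000000000000000000000000000000) (nat_lit 0x0) (nat_lit 0x4000000070000900118000000000000000000000000000000) := T_22 (nat_lit 143) (nat_lit 128) (nat_lit 2) (nat_lit 5) (nat_lit 8) L59810 (by decide +kernel)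
theorem L71471 : W_22 (nat_lit 7) (nat_lit 0x2000000016000a0001000000000000000000000000000) (nat_lit 0x0) (nat_lit 0x500018001800000001000280018000c000000000000000000) := T_22 (nat_lit 159) (nat_lit 160) (nat_lit 7) (nat_lit 6) (nat_lit 6) L68193 (by decide +kernel)
theorem L71472 : W_22 (nat_lit 3) (nat_lit 0x2000000016000a0001000000000000000000000000000) (nat_lit 0x0) (nat_lit 0x8001c000000000000000080000000000000000000000) := T_22 (nat_lit 159) (nat_lit 160) (nat_lit 7) (nat_lit 6) (nat_lit 6) L68618 (by decide +kernel)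
theorem L71473 : W_22 (nat_lit 4) (nat_lit 0x2000000016000a0001000000000000000000000000000) (nat_lit 0x0) (nat_lit 0x4000100018000000010000800040000000000000000000000) := T_22 (nat_lit 159) (nat_lit 160) (nat_lit 7) (nat_lit 6) (nat_lit 6) L68182 (by decide +kernel)
theorem L71474 : W_22 (nat_lit 8) (nat_lit 0x2000000016000a0000000000000000000000000000000) (nat_lit 0x0) (nat_lit 0x500018001c0000000100038001c000e000100000000000000) := Q_22 (nat_lit 108) (C_22 L62622 (C_22 L71471 (C_22 L71472 (C_22 L71473 N_22)))) (by decide +kernel)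
theorem L71475 : W_22 (nat_lit 15) (nat_lit 0x200000001600080000000000000000000000000000000) (nat_lit 0x0) (nat_lit 0xd8001f001f8001c017e003f007f800f000100000000000000) := Q_22 (nat_lit 125) (C_22 L61545 (C_22 L69388 (C_22 L67544 (C_22 L71474 N_22)))) (by decide +kernel)
theorem L71476 : W_22 (nat_lit 10) (nat_lit 0x200000001600080000000000000000000000000000000) (nat_lit 0x0) (nat_lit 0x500018001e000800178001c000e0000000000000000000000) := T_22 (nat_lit 143) (nat_lit 128) (nat_lit 2) (nat_lit 5) (nat_lit 8) L71468 (by decide +kernel)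
theorem L71477 : W_22 (nat_lit 16) (nat_lit 0x200000001200080000000000000000000000000000000) (nat_lit 0x0) (nat_lit 0xd8001f007f800dc017e003f007f800f000100000000000000) := Q_22 (nat_lit 142) (C_22 L61614 (C_22 L71469 (C_22 L71470 (C_22 L61613 (C_22 L71475 (C_22 L71476 N_22)))))) (by decide +kernel)
theorem L71478 : W_22 (nat_lit 4) (nat_lit 0x4000200020001a00080000000000000000000000000000000) (nat_lit 0x0) (nat_lit 0x4000050005c000000000000000000000000000000) := T_22 (nat_lit 142) (nat_lit 162) (nat_lit 3) (nat_lit 5) (nat_lit 8) L69657 (by decide +kernel)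
theorem L71479 : W_22 (nat_lit 5) (nat_lit 0x4000200000001a00080000000000000000000000000000000) (nat_lit 0x0) (nat_lit 0x40006000050005c000000000000000000000000000000) := T_22 (nat_lit 161) (nat_lit 178) (nat_lit 5) (nat_lit 8) (nat_lit 7) L71478 (by decide +kernel)
theorem L71480 : W_22 (nat_lit 6) (nat_lit 0x200000001a00080000000000000000000000000000000) (nat_lit 0x0) (nat_lit 0x400040007000050005c000000000000000000000000000000) := T_22 (nat_lit 194) (nat_lit 160) (nat_lit 6) (nat_lit 7) (nat_lit 11) L71479 (by decide +kernel)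
theorem L71481 : W_22 (nat_lit 12) (nat_lit 0x200000001200080000000000000000000000000000000) (nat_lit 0x0) (nat_lit 0xa000700038001c003c001f000cd0077c03b000000000000000000000000000) := Q_22 (nat_lit 143) (C_22 L69419 (C_22 L69592 (C_22 L71480 (C_22 L59833 N_22)))) (by decide +kernel)
theorem L71482 : W_22 (nat_lit 2) (nat_lit 0x40001e00100001a00080000000000000000000000000000000) (nat_lit 0x0) (nat_lit 0x80002000200000000000000000000000000000000000000000) := D_22 (nat_lit 181) (nat_lit 165) (nat_lit 199) (nat_lit 2) (nat_lit 8) (nat_lit 10) (nat_lit 3) (nat_lit 8) (nat_lit 10) (by decide +kernel)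
theorem L71483 : W_22 (nat_lit 3) (nat_lit 0x1e00100001a00080000000000000000000000000000000) (nat_lit 0x0) (nat_lit 0xe0002000200000000000000000000000000000000000000000) := T_22 (nat_lit 198) (nat_lit 197) (nat_lit 3) (nat_lit 7) (nat_lit 10) L71482 (by decide +kernel)
theorem L71484 : W_22 (nat_lit 4) (nat_lit 0x1e00000001a00080000000000000000000000000000000) (nat_lit 0x0) (nat_lit 0xe0002000380000000000000000000000000000000000000000) := T_22 (nat_lit 164) (nat_lit 163) (nat_lit 2) (nat_lit 7) (nat_lit 10) L71483 (by decide +kernel)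
theorem L71485 : W_22 (nat_lit 2) (nat_lit 0x3e00000001a00080000000000000000000000000000000) (nat_lit 0x0) (nat_lit 0xe0000000000000000000000000000000000000000000000000) := D_22 (nat_lit 198) (nat_lit 197) (nat_lit 199) (nat_lit 3) (nat_lit 7) (nat_lit 10) (nat_lit 3) (nat_lit 8) (nat_lit 10) (by decide +kernel)
theorem L71486 : W_22 (nat_lit 2) (nat_lit 0x88003e00000001a00080000000000000000000000000000000) (nat_lit 0x0) (nat_lit 0x110004000000000000000000000000000000000000000000000) := D_22 (nat_lit 182) (nat_lit 200) (nat_lit 196) (nat_lit 3) (nat_lit 9) (nat_lit 10) (nat_lit 1) (nat_lit 12) (nat_lit 10) (by decide +kernel)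
theorem L71487 : W_22 (nat_lit 3) (nat_lit 0x80003e00000001a00080000000000000000000000000000000) (nat_lit 0x0) (nat_lit 0x11c004000000000000000000000000000000000000000000000) := T_22 (nat_lit 195) (nat_lit 194) (nat_lit 1) (nat_lit 11) (nat_lit 10) L71486 (by decide +kernel)
theorem L71488 : W_22 (nat_lit 4) (nat_lit 0x3e00000001a00080000000000000000000000000000000) (nat_lit 0x0) (nat_lit 0x1dc004000000000000000000000000000000000000000000000) := T_22 (nat_lit 199) (nat_lit 198) (nat_lit 3) (nat_lit 8) (nat_lit 10) L71487 (by decide +kernel)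
theorem L71489 : W_22 (nat_lit 2) (nat_lit 0x108007e00400001a00080000000000000000000000000000000) (nat_lit 0x0) (nat_lit 0x200008000800000000000000000000000000000000000000000) := D_22 (nat_lit 183) (nat_lit 167) (nat_lit 201) (nat_lit 2) (nat_lit 10) (nat_lit 10) (nat_lit 3) (nat_lit 10) (nat_lit 10) (by decide +kernel)
theorem L71490 : W_22 (nat_lit 3) (nat_lit 0x8007e00400001a00080000000000000000000000000000000) (nat_lit 0x0) (nat_lit 0x380008000800000000000000000000000000000000000000000) := T_22 (nat_lit 200) (nat_lit 199) (nat_lit 3) (nat_lit 9) (nat_lit 10) L71489 (by decide +kernel)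
theorem L71491 : W_22 (nat_lit 4) (nat_lit 0x8007e00000001a00080000000000000000000000000000000) (nat_lit 0x0) (nat_lit 0x380008000e00000000000000000000000000000000000000000) := T_22 (nat_lit 166) (nat_lit 165) (nat_lit 2) (nat_lit 9) (nat_lit 10) L71490 (by decide +kernel)
theorem L71492 : W_22 (nat_lit 5) (nat_lit 0x8003e00000001a00080000000000000000000000000000000) (nat_lit 0x0) (nat_lit 0x39000c000e00000000000000000000000000000000000000000) := T_22 (nat_lit 182) (nat_lit 196) (nat_lit 1) (nat_lit 12) (nat_lit 10) L71491 (by decide +kernel)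
theorem L71493 : W_22 (nat_lit 6) (nat_lit 0x3e00000001a00080000000000000000000000000000000) (nat_lit 0x0) (nat_lit 0x39c00c000e00000000000000000000000000000000000000000) := T_22 (nat_lit 195) (nat_lit 194) (nat_lit 1) (nat_lit 11) (nat_lit 10) L71492 (by decide +kernel)
theorem L71494 : W_22 (nat_lit 2) (nat_lit 0x28003e00000001a00080000000000000000000000000000000) (nat_lit 0x0) (nat_lit 0x10004100000000000000000000000000000000000000000000) := D_22 (nat_lit 196) (nat_lit 176) (nat_lit 182) (nat_lit 3) (nat_lit 6) (nat_lit 10) (nat_lit 1) (nat_lit 12) (nat_lit 10) (by decide +kernel)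
theorem L71495 : W_22 (nat_lit 3) (nat_lit 0x8003e00000001a00080000000000000000000000000000000) (nat_lit 0x0) (nat_lit 0x70004100000000000000000000000000000000000000000000) := T_22 (nat_lit 197) (nat_lit 198) (nat_lit 3) (nat_lit 7) (nat_lit 10) L71494 (by decide +kernel)
theorem L71496 : W_22 (nat_lit 4) (nat_lit 0x3e00000001a00080000000000000000000000000000000) (nat_lit 0x0) (nat_lit 0x7c004100000000000000000000000000000000000000000000) := T_22 (nat_lit 195) (nat_lit 194) (nat_lit 1) (nat_lit 11) (nat_lit 10) L71495 (by decide +kernel)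
theorem L71497 : W_22 (nat_lit 7) (nat_lit 0x1e00000001a00080000000000000000000000000000000) (nat_lit 0x0) (nat_lit 0x3fc00e100e00000000000000000000000000000000000000000) := Q_22 (nat_lit 181) (C_22 L71485 (C_22 L71488 (C_22 L71493 (C_22 L71496 N_22)))) (by decide +kernel)
theorem L71498 : W_22 (nat_lit 11) (nat_lit 0xe00000001a00080000000000000000000000000000000) (nat_lit 0x0) (nat_lit 0x3fd80f1c0fce004000700000000000000000000000000000000) := Q_22 (nat_lit 180) (C_22 L69434 (C_22 L69487 (C_22 L69465 (C_22 L71484 (C_22 L71497 N_22))))) (by decide +kernel)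
theorem L71499 : W_22 (nat_lit 2) (nat_lit 0xf80000001a00080000000000000000000000000000000) (nat_lit 0x0) (nat_lit 0xe000000000000000000000000000000000000000) := D_22 (nat_lit 158) (nat_lit 159) (nat_lit 157) (nat_lit 0) (nat_lit 9) (nat_lit 10) (nat_lit 0) (nat_lit 8) (nat_lit 10) (by decide +kernel)
theorem L71500 : W_22 (nat_lit 2) (nat_lit 0x4800fc0000001a00080000000000000000000000000000000) (nat_lit 0x0) (nat_lit 0x7000000000000000000000000000000000000000) := D_22 (nat_lit 157) (nat_lit 156) (nat_lit 158) (nat_lit 0) (nat_lit 7) (nat_lit 10) (nat_lit 0) (nat_lit 8) (nat_lit 10) (by decide +kernel)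
theorem L71501 : W_22 (nat_lit 3) (nat_lit 0x4800f80000001a00080000000000000000000000000000000) (nat_lit 0x0) (nat_lit 0x400040007000000000000000000000000000000000000000) := T_22 (nat_lit 174) (nat_lit 190) (nat_lit 1) (nat_lit 7) (nat_lit 10) L71500 (by decide +kernel)
theorem L71502 : W_22 (nat_lit 4) (nat_lit 0x800f80000001a00080000000000000000000000000000000) (nat_lit 0x0) (nat_lit 0x4400040017000000000000000000000000000000000000000) := T_22 (nat_lit 194) (nat_lit 160) (nat_lit 6) (nat_lit 7) (nat_lit 11) L71501 (by decide +kernel)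
theorem L71503 : W_22 (nat_lit 5) (nat_lit 0xf80000001a00080000000000000000000000000000000) (nat_lit 0x0) (nat_lit 0x5c00040017000000000000000000000000000000000000000) := T_22 (nat_lit 191) (nat_lit 192) (nat_lit 1) (nat_lit 8) (nat_lit 10) L71502 (by decide +kernel)
theorem L71504 : W_22 (nat_lit 7) (nat_lit 0xf80000001a00080000000000000000000000000000000) (nat_lit 0x0) (nat_lit 0x35c0006001b800000000000000000000000000000000000000) := T_22 (nat_lit 196) (nat_lit 197) (nat_lit 3) (nat_lit 6) (nat_lit 10) L69520 (by decide +kernel)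
theorem L71505 : W_22 (nat_lit 2) (nat_lit 0x10000fc0018001a00080002000000000000000000000000000) (nat_lit 0x0) (nat_lit 0x1c00000000000000000000000000000000000000000000000) := D_22 (nat_lit 191) (nat_lit 192) (nat_lit 190) (nat_lit 1) (nat_lit 8) (nat_lit 10) (nat_lit 1) (nat_lit 7) (nat_lit 10) (by decide +kernel)
theorem L71506 : W_22 (nat_lit 3) (nat_lit 0x10000f80018001a00080002000000000000000000000000000) (nat_lit 0x0) (nat_lit 0x1c00060000000000000000000000000000000000000000000) := T_22 (nat_lit 174) (nat_lit 173) (nat_lit 2) (nat_lit 3) (nat_lit 10) L71505 (by decide +kernel)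
theorem L71507 : W_22 (nat_lit 4) (nat_lit 0x10000f80018001a00080000000000000000000000000000000) (nat_lit 0x0) (nat_lit 0x1c00060000000000040002000000000000000000000000000) := T_22 (nat_lit 109) (nat_lit 126) (nat_lit 5) (nat_lit 7) (nat_lit 6) L71506 (by decide +kernel)
theorem L71508 : W_22 (nat_lit 5) (nat_lit 0xf80018001a00080000000000000000000000000000000) (nat_lit 0x0) (nat_lit 0x31c00060000000000040002000000000000000000000000000) := T_22 (nat_lit 196) (nat_lit 197) (nat_lit 3) (nat_lit 6) (nat_lit 10) L71507 (by decide +kernel)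
theorem L71509 : W_22 (nat_lit 6) (nat_lit 0xf80010001a00080000000000000000000000000000000) (nat_lit 0x0) (nat_lit 0x31c0006000c000000040002000000000000000000000000000) := T_22 (nat_lit 159) (nat_lit 158) (nat_lit 0) (nat_lit 9) (nat_lit 10) L71508 (by decide +kernel)
theorem L71510 : W_22 (nat_lit 7) (nat_lit 0xf80000001a00080000000000000000000000000000000) (nat_lit 0x0) (nat_lit 0x35c0006001c000000040002000000000000000000000000000) := T_22 (nat_lit 160) (nat_lit 194) (nat_lit 6) (nat_lit 7) (nat_lit 11) L71509 (by decide +kernel)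
theorem L71511 : W_22 (nat_lit 8) (nat_lit 0xf00000001a00080000000000000000000000000000000) (nat_lit 0x0) (nat_lit 0x35c000e001f800000040002000000000000000000000000000) := Q_22 (nat_lit 175) (C_22 L71499 (C_22 L71503 (C_22 L71504 (C_22 L71510 N_22)))) (by decide +kernel)
theorem L71512 : W_22 (nat_lit 2) (nat_lit 0x10800f80042001a00080000000000000000000000000000000) (nat_lit 0x0) (nat_lit 0x400040001000000000000000000000000000000000000000) := D_22 (nat_lit 174) (nat_lit 190) (nat_lit 156) (nat_lit 1) (nat_lit 7) (nat_lit 10) (nat_lit 0) (nat_lit 7) (nat_lit 10) (by decide +kernel)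
theorem L71513 : W_22 (nat_lit 3) (nat_lit 0x10800f80040001a00080000000000000000000000000000000) (nat_lit 0x0) (nat_lit 0x400040007000000000000000000000000000000000000000) := T_22 (nat_lit 157) (nat_lit 158) (nat_lit 0) (nat_lit 8) (nat_lit 10) L71512 (by decide +kernel)
theorem L71514 : W_22 (nat_lit 4) (nat_lit 0x10000f80040001a00080000000000000000000000000000000) (nat_lit 0x0) (nat_lit 0x1c00040007000000000000000000000000000000000000000) := T_22 (nat_lit 191) (nat_lit 192) (nat_lit 1) (nat_lit 8) (nat_lit 10) L71513 (by decide +kernel)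
theorem L71515 : W_22 (nat_lit 5) (nat_lit 0x10000f00040001a00080000000000000000000000000000000) (nat_lit 0x0) (nat_lit 0x9c000c0007000000000000000000000000000000000000000) := T_22 (nat_lit 175) (nat_lit 195) (nat_lit 3) (nat_lit 5) (nat_lit 10) L71514 (by decide +kernel)
theorem L71516 : W_22 (nat_lit 6) (nat_lit 0xf00040001a00080000000000000000000000000000000) (nat_lit 0x0) (nat_lit 0x39c000c0007000000000000000000000000000000000000000) := T_22 (nat_lit 196) (nat_lit 197) (nat_lit 3) (nat_lit 6) (nat_lit 10) L71515 (by decide +kernel)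
theorem L71517 : W_22 (nat_lit 7) (nat_lit 0xf00000001a00080000000000000000000000000000000) (nat_lit 0x0) (nat_lit 0x39c000c00c7000000000000000000000000000000000000000) := T_22 (nat_lit 162) (nat_lit 163) (nat_lit 2) (nat_lit 6) (nat_lit 10) L71516 (by decide +kernel)
theorem L71518 : W_22 (nat_lit 9) (nat_lit 0xe00000001a00080000000000000000000000000000000) (nat_lit 0x0) (nat_lit 0x3dc001e00df800000040002000000000000000000000000000) := Q_22 (nat_lit 176) (C_22 L71511 (C_22 L71517 (C_22 L69515 (C_22 L69522 (C_22 L69533 N_22))))) (by decide +kernel)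
theorem L71519 : W_22 (nat_lit 2) (nat_lit 0x2000000008801f80092001a00080000000000000000000000000000000) (nat_lit 0x0) (nat_lit 0x400040001000000000000000000000000000000000000000) := D_22 (nat_lit 174) (nat_lit 190) (nat_lit 156) (nat_lit 1) (nat_lit 7) (nat_lit 10) (nat_lit 0) (nat_lit 7) (nat_lit 10) (by decide +kernel)
theorem L71520 : W_22 (nat_lit 3) (nat_lit 0x2000000008801f80090001a00080000000000000000000000000000000) (nat_lit 0x0) (nat_lit 0x400040007000000000000000000000000000000000000000) := T_22 (nat_lit 157) (nat_lit 158) (nat_lit 0) (nat_lit 8) (nat_lit 10) L71519 (by decide +kernel)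
theorem L71521 : W_22 (nat_lit 4) (nat_lit 0x2000000008001f80090001a00080000000000000000000000000000000) (nat_lit 0x0) (nat_lit 0x1c00040007000000000000000000000000000000000000000) := T_22 (nat_lit 191) (nat_lit 192) (nat_lit 1) (nat_lit 8) (nat_lit 10) L71520 (by decide +kernel)
theorem L71522 : W_22 (nat_lit 5) (nat_lit 0x2000000008001f00090001a00080000000000000000000000000000000) (nat_lit 0x0) (nat_lit 0x11c000c0007000000000000000000000000000000000000000) := T_22 (nat_lit 175) (nat_lit 196) (nat_lit 3) (nat_lit 5) (nat_lit 10) L71521 (by decide +kernel)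
theorem L71523 : W_22 (nat_lit 6) (nat_lit 0x8001f00090001a00080000000000000000000000000000000) (nat_lit 0x0) (nat_lit 0x2000100011c000c0007000000000000000000000000000000000000000) := T_22 (nat_lit 229) (nat_lit 212) (nat_lit 4) (nat_lit 8) (nat_lit 13) L71522 (by decide +kernel)
theorem L71524 : W_22 (nat_lit 7) (nat_lit 0x1f00090001a00080000000000000000000000000000000) (nat_lit 0x0) (nat_lit 0x2000100019c000c0007000000040000000000000000000000000000000) := T_22 (nat_lit 195) (nat_lit 126) (nat_lit 7) (nat_lit 7) (nat_lit 7) L71523 (by decide +kernel)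
theorem L71525 : W_22 (nat_lit 8) (nat_lit 0x1e00090001a00080000000000000000000000000000000) (nat_lit 0x0) (nat_lit 0x2000100019c001c0047000000040000000000000000000000000000000) := T_22 (nat_lit 176) (nat_lit 162) (nat_lit 2) (nat_lit 6) (nat_lit 10) L71524 (by decide +kernel)
theorem L71526 : W_22 (nat_lit 9) (nat_lit 0x1e00010001a00080000000000000000000000000000000) (nat_lit 0x0) (nat_lit 0x2000100019c001c01c7000000040000000000000000000000000000000) := T_22 (nat_lit 163) (nat_lit 164) (nat_lit 2) (nat_lit 7) (nat_lit 10) L71525 (by decide +kernel)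
theorem L71527 : W_22 (nat_lit 10) (nat_lit 0x1e00000001a00080000000000000000000000000000000) (nat_lit 0x0) (nat_lit 0x2000100019c001c01df000000040000000000000000000000000000000) := T_22 (nat_lit 160) (nat_lit 159) (nat_lit 0) (nat_lit 10) (nat_lit 10) L71526 (by decide +kernel)
theorem L71528 : W_22 (nat_lit 11) (nat_lit 0xe00000001a00080000000000000000000000000000000) (nat_lit 0x0) (nat_lit 0x20001000f9c031c03df000000040000000000000000000000000000000) := Q_22 (nat_lit 180) (C_22 L71484 (C_22 L69437 (C_22 L71527 N_22))) (by decide +kernel)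
theorem L71529 : W_22 (nat_lit 10) (nat_lit 0xe00010001a00080000000000000000000000000000000) (nat_lit 0x0) (nat_lit 0x2000100019c011c01cf000000040000000000000000000000000000000) := T_22 (nat_lit 180) (nat_lit 159) (nat_lit 0) (nat_lit 10) (nat_lit 10) L71526 (by decide +kernel)
theorem L71530 : W_22 (nat_lit 11) (nat_lit 0xe00000001a00080000000000000000000000000000000) (nat_lit 0x0) (nat_lit 0x200010001dc011c01df000000040000000000000000000000000000000) := T_22 (nat_lit 160) (nat_lit 194) (nat_lit 6) (nat_lit 7) (nat_lit 11) L71529 (by decide +kernel)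
theorem L71531 : W_22 (nat_lit 12) (nat_lit 0x600000001a00080000000000000000000000000000000) (nat_lit 0x0) (nat_lit 0x20001003fdc0f9e0fdf804000740002000000000000000000000000000) := Q_22 (nat_lit 179) (C_22 L71498 (C_22 L69456 (C_22 L69544 (C_22 L69449 (C_22 L69499 (C_22 L71518 (C_22 L71528 (C_22 L71530 N_22)))))))) (by decide +kernel)
theorem L71532 : W_22 (nat_lit 13) (nat_lit 0x200000001a00080000000000000000000000000000000) (nat_lit 0x0) (nat_lit 0xa00070003803fdc0fde0fff80c00074003a000000000000000000000000000) := Q_22 (nat_lit 178) (C_22 L69591 (C_22 L69422 (C_22 L69420 (C_22 L71531 N_22)))) (by decide +kernel)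
theorem L71533 : W_22 (nat_lit 14) (nat_lit 0x200000001200080000000000000000000000000000000) (nat_lit 0x0) (nat_lit 0xa00070003803fdc0fde0fff80cd0074003a000000000000000000000000000) := Q_22 (nat_lit 143) (C_22 L69419 (C_22 L69416 (C_22 L31825 (C_22 L71532 N_22)))) (by decide +kernel)
theorem L71534 : W_22 (nat_lit 9) (nat_lit 0x200000001600080000000000000000000000000000000) (nat_lit 0x0) (nat_lit 0x500018001c0001801700038001c000e000100000000000000) := Q_22 (nat_lit 125) (C_22 L61545 (C_22 L71474 (C_22 L69388 N_22))) (by decide +kernel)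
theorem L71535 : W_22 (nat_lit 14) (nat_lit 0x200000001200080000000000000000000000000000000) (nat_lit 0x0) (nat_lit 0x30015800dc007f000d8017c003c001e000e000100000000000000) := Q_22 (nat_lit 142) (C_22 L71476 (C_22 L71470 (C_22 L71469 (C_22 L67458 (C_22 L61613 (C_22 L71534 N_22)))))) (by decide +kernel)
theorem L71536 : W_22 (nat_lit 6) (nat_lit 0x200010001e00090000000000000000000000000000000) (nat_lit 0x0) (nat_lit 0xf0001c0027000000000000000000000000000000) := T_22 (nat_lit 157) (nat_lit 158) (nat_lit 1) (nat_lit 8) (nat_lit 8) L63151 (by decide +kernel)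
theorem L71537 : W_22 (nat_lit 7) (nat_lit 0x200000001e00090000000000000000000000000000000) (nat_lit 0x0) (nat_lit 0x400000001f0001c0027000000000000000000000000000000) := T_22 (nat_lit 160) (nat_lit 194) (nat_lit 6) (nat_lit 7) (nat_lit 11) L71536 (by decide +kernel)
theorem L71538 : W_22 (nat_lit 8) (nat_lit 0x200000001e00080000000000000000000000000000000) (nat_lit 0x0) (nat_lit 0x400000001f0001c003f000000000000000000000000000000) := T_22 (nat_lit 124) (nat_lit 123) (nat_lit 0) (nat_lit 8) (nat_lit 8) L71537 (by decide +kernel)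
theorem L71539 : W_22 (nat_lit 10) (nat_lit 0x200000001600080000000000000000000000000000000) (nat_lit 0x0) (nat_lit 0x500018001f0009c007f001c000e0000000000000000000000) := Q_22 (nat_lit 143) (C_22 L59832 (C_22 L71468 (C_22 L71538 (C_22 L31824 N_22)))) (by decide +kernel)
theorem L71540 : W_22 (nat_lit 9) (nat_lit 0x200000001600080000000000000000000000000000000) (nat_lit 0x0) (nat_lit 0x400000001f0009c013f000000000000000000000000000000) := T_22 (nat_lit 143) (nat_lit 128) (nat_lit 2) (nat_lit 5) (nat_lit 8) L71538 (by decide +kernel)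
theorem L71541 : W_22 (nat_lit 11) (nat_lit 0x200000001200080000000000000000000000000000000) (nat_lit 0x0) (nat_lit 0x500018001f000dc017f003c001e000e000100000000000000) := Q_22 (nat_lit 142) (C_22 L71534 (C_22 L61614 (C_22 L71539 (C_22 L71540 (C_22 L61613 (C_22 L71476 N_22)))))) (by decide +kernel)
theorem L71542 : W_22 (nat_lit 3) (nat_lit 0x200020001e00090000000000000000000000000000000) (nat_lit 0x0) (nat_lit 0x17000100000000000000000000000000000000000) := T_22 (nat_lit 140) (nat_lit 160) (nat_lit 3) (nat_lit 4) (nat_lit 8) L62625 (by decide +kernel)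
theorem L71543 : W_22 (nat_lit 4) (nat_lit 0x200000001e00090000000000000000000000000000000) (nat_lit 0x0) (nat_lit 0x77000100000000000000000000000000000000000) := T_22 (nat_lit 161) (nat_lit 162) (nat_lit 3) (nat_lit 5) (nat_lit 8) L71542 (by decide +kernel)
theorem L71544 : W_22 (nat_lit 5) (nat_lit 0x200000001e00080000000000000000000000000000000) (nat_lit 0x0) (nat_lit 0x77000100018000000000000000000000000000000) := T_22 (nat_lit 124) (nat_lit 123) (nat_lit 0) (nat_lit 8) (nat_lit 8) L71543 (by decide +kernel)
theorem L71545 : W_22 (nat_lit 2) (nat_lit 0x200000001e000a0001000000000000000000000000000) (nat_lit 0x0) (nat_lit 0x10000000040000000080000000000000000000000) := D_22 (nat_lit 160) (nat_lit 126) (nat_lit 91) (nat_lit 4) (nat_lit 7) (nat_lit 10) (nat_lit 7) (nat_lit 6) (nat_lit 5) (by decide +kernel)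
theorem L71546 : W_22 (nat_lit 2) (nat_lit 0x200020001e000b00010001c0000000000000000000000) (nat_lit 0x0) (nat_lit 0x8000000000002800000000000000000000000000) := D_22 (nat_lit 159) (nat_lit 107) (nat_lit 109) (nat_lit 7) (nat_lit 5) (nat_lit 5) (nat_lit 6) (nat_lit 6) (nat_lit 9) (by decide +kernel)
theorem L71547 : W_22 (nat_lit 3) (nat_lit 0x200020001e000b00010000c0000000000000000000000) (nat_lit 0x0) (nat_lit 0x8000000000002800100008000000000000000000) := T_22 (nat_lit 92) (nat_lit 75) (nat_lit 6) (nat_lit 6) (nat_lit 8) L71546 (by decide +kernel)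
theorem L71548 : W_22 (nat_lit 4) (nat_lit 0x200020001e000b0001000080000000000000000000000) (nat_lit 0x0) (nat_lit 0x800000000000280014000a000000000000000000) := T_22 (nat_lit 90) (nat_lit 73) (nat_lit 4) (nat_lit 6) (nat_lit 8) L71547 (by decide +kernel)
theorem L71549 : W_22 (nat_lit 5) (nat_lit 0x200020001e000b0001000000000000000000000000000) (nat_lit 0x0) (nat_lit 0x80000000000028001c000e000000000000000000) := T_22 (nat_lit 91) (nat_lit 74) (nat_lit 5) (nat_lit 6) (nat_lit 4) L71548 (by decide +kernel)
theorem L71550 : W_22 (nat_lit 6) (nat_lit 0x200000001e000b0001000000000000000000000000000) (nat_lit 0x0) (nat_lit 0x680000000000028001c000e000000000000000000) := T_22 (nat_lit 161) (nat_lit 162) (nat_lit 3) (nat_lit 5) (nat_lit 8) L71549 (by decide +kernel)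
theorem L71551 : W_22 (nat_lit 7) (nat_lit 0x200000001e000a0001000000000000000000000000000) (nat_lit 0x0) (nat_lit 0x680000000180028001c000e000000000000000000) := T_22 (nat_lit 124) (nat_lit 123) (nat_lit 0) (nat_lit 8) (nat_lit 8) L71550 (by decide +kernel)
theorem L71552 : W_22 (nat_lit 2) (nat_lit 0x200000001e000a0001000000000000000000000000000) (nat_lit 0x0) (nat_lit 0x18000000040000000000000000000000000000000) := D_22 (nat_lit 160) (nat_lit 126) (nat_lit 159) (nat_lit 4) (nat_lit 7) (nat_lit 10) (nat_lit 7) (nat_lit 6) (nat_lit 6) (by decide +kernel)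
theorem L71553 : W_22 (nat_lit 8) (nat_lit 0x200000001e000a0000000000000000000000000000000) (nat_lit 0x0) (nat_lit 0x780000000580038001c000e000000000000000000) := Q_22 (nat_lit 108) (C_22 L71545 (C_22 L71551 (C_22 L71552 N_22))) (by decide +kernel)
theorem L71554 : W_22 (nat_lit 2) (nat_lit 0x2c0024001e000b0000000000000000000000000000000) (nat_lit 0x0) (nat_lit 0x100018000000000000000000000000000000000000000) := D_22 (nat_lit 160) (nat_lit 176) (nat_lit 159) (nat_lit 2) (nat_lit 4) (nat_lit 10) (nat_lit 1) (nat_lit 8) (nat_lit 9) (by decide +kernel)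
theorem L71555 : W_22 (nat_lit 3) (nat_lit 0x280024001e000b0000000000000000000000000000000) (nat_lit 0x0) (nat_lit 0x800140018000000000000000000000000000000000000000) := T_22 (nat_lit 174) (nat_lit 191) (nat_lit 5) (nat_lit 5) (nat_lit 7) L71554 (by decide +kernel)
theorem L71556 : W_22 (nat_lit 4) (nat_lit 0x280004001e000b0000000000000000000000000000000) (nat_lit 0x0) (nat_lit 0x800140078000000000000000000000000000000000000000) := T_22 (nat_lit 161) (nat_lit 162) (nat_lit 3) (nat_lit 5) (nat_lit 8) L71555 (by decide +kernel)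
theorem L71557 : W_22 (nat_lit 5) (nat_lit 0x200004001e000b0000000000000000000000000000000) (nat_lit 0x0) (nat_lit 0x18001c0078000000000000000000000000000000000000000) := T_22 (nat_lit 175) (nat_lit 192) (nat_lit 6) (nat_lit 5) (nat_lit 11) L71556 (by decide +kernel)
theorem L71558 : W_22 (nat_lit 6) (nat_lit 0x200004001e000a0000000000000000000000000000000) (nat_lit 0x0) (nat_lit 0x18001c0078000000018000000000000000000000000000000) := T_22 (nat_lit 124) (nat_lit 123) (nat_lit 0) (nat_lit 8) (nat_lit 8) L71557 (by decide +kernel)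
theorem L71559 : W_22 (nat_lit 7) (nat_lit 0x200000001e000a0000000000000000000000000000000) (nat_lit 0x0) (nat_lit 0x18001c007e000000018000000000000000000000000000000) := T_22 (nat_lit 158) (nat_lit 157) (nat_lit 1) (nat_lit 8) (nat_lit 8) L71558 (by decide +kernel)
theorem L71560 : W_22 (nat_lit 9) (nat_lit 0x200000001e00080000000000000000000000000000000) (nat_lit 0x0) (nat_lit 0x18001c007e0000000780038001c000e000000000000000000) := Q_22 (nat_lit 125) (C_22 L62683 (C_22 L71553 (C_22 L62769 (C_22 L71559 N_22)))) (by decide +kernel)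
theorem L71561 : W_22 (nat_lit 10) (nat_lit 0x200000001600080000000000000000000000000000000) (nat_lit 0x0) (nat_lit 0x18001c007f00090007c0038001c000e000000000000000000) := Q_22 (nat_lit 143) (C_22 L59832 (C_22 L71544 (C_22 L31824 (C_22 L71560 N_22)))) (by decide +kernel)
theorem L71562 : W_22 (nat_lit 6) (nat_lit 0x200000001600080000000000000000000000000000000) (nat_lit 0x0) (nat_lit 0x77000900118000000000000000000000000000000) := T_22 (nat_lit 143) (nat_lit 128) (nat_lit 2) (nat_lit 5) (nat_lit 8) L71544 (by decide +kernel)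
theorem L71563 : W_22 (nat_lit 5) (nat_lit 0x2000000016000a0001000000000000000000000000000) (nat_lit 0x0) (nat_lit 0x180000000000028001c000a000000000000000000) := T_22 (nat_lit 159) (nat_lit 160) (nat_lit 7) (nat_lit 6) (nat_lit 6) L68179 (by decide +kernel)
theorem L71564 : W_22 (nat_lit 2) (nat_lit 0x30000c0016000a0003000000000000000000000000000) (nat_lit 0x0) (nat_lit 0x10000800040000000000000000000000) := D_22 (nat_lit 107) (nat_lit 124) (nat_lit 90) (nat_lit 7) (nat_lit 5) (nat_lit 6) (nat_lit 4) (nat_lit 6) (nat_lit 9) (by decide +kernel)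
theorem L71565 : W_22 (nat_lit 3) (nat_lit 0x20000c0016000a0003000000000000000000000000000) (nat_lit 0x0) (nat_lit 0x100000000000050000800040000000000000000000000) := T_22 (nat_lit 176) (nat_lit 126) (nat_lit 6) (nat_lit 6) (nat_lit 10) L71564 (by decide +kernel)
theorem L71566 : W_22 (nat_lit 4) (nat_lit 0x2000080016000a0003000000000000000000000000000) (nat_lit 0x0) (nat_lit 0x180004000000050000800040000000000000000000000) := T_22 (nat_lit 158) (nat_lit 175) (nat_lit 5) (nat_lit 6) (nat_lit 6) L71565 (by decide +kernel)
theorem L71567 : W_22 (nat_lit 5) (nat_lit 0x2000080016000a0001000000000000000000000000000) (nat_lit 0x0) (nat_lit 0x180004000000050002800140000000000000000000000) := T_22 (nat_lit 109) (nat_lit 92) (nat_lit 6) (nat_lit 6) (nat_lit 9) L71566 (by decide +kernel)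
theorem L71568 : W_22 (nat_lit 6) (nat_lit 0x2000000016000a0001000000000000000000000000000) (nat_lit 0x0) (nat_lit 0x18001c000000050002800140000000000000000000000) := T_22 (nat_lit 159) (nat_lit 160) (nat_lit 7) (nat_lit 6) (nat_lit 6) L71567 (by decide +kernel)
theorem L71569 : W_22 (nat_lit 7) (nat_lit 0x2000000016000a0000000000000000000000000000000) (nat_lit 0x0) (nat_lit 0x18001c0000000500038001c000e000100000000000000) := Q_22 (nat_lit 108) (C_22 L62622 (C_22 L71472 (C_22 L71563 (C_22 L71568 N_22)))) (by decide +kernel)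
theorem L71570 : W_22 (nat_lit 8) (nat_lit 0x20000c0016000a0003000000000000000000000000000) (nat_lit 0x0) (nat_lit 0x14000380000001e000f00060000000000000000000000) := T_22 (nat_lit 107) (nat_lit 90) (nat_lit 4) (nat_lit 6) (nat_lit 9) L68599 (by decide +kernel)
theorem L71571 : W_22 (nat_lit 9) (nat_lit 0x2000080016000a0003000000000000000000000000000) (nat_lit 0x0) (nat_lit 0x1c000780000001e000f00060000000000000000000000) := T_22 (nat_lit 158) (nat_lit 175) (nat_lit 5) (nat_lit 6) (nat_lit 6) L71570 (by decide +kernel)
theorem L71572 : W_22 (nat_lit 10) (nat_lit 0x2000080016000a0001000000000000000000000000000) (nat_lit 0x0) (nat_lit 0x1c000780000001e002f00160000000000000000000000) := T_22 (nat_lit 109) (nat_lit 92) (nat_lit 6) (nat_lit 6) (nat_lit 9) L71571 (by decide +kernel)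
theorem L71573 : W_22 (nat_lit 11) (nat_lit 0x2000000016000a0001000000000000000000000000000) (nat_lit 0x0) (nat_lit 0x1c001f80000001e002f00160000000000000000000000) := T_22 (nat_lit 159) (nat_lit 160) (nat_lit 7) (nat_lit 6) (nat_lit 6) L71572 (by decide +kernel)
theorem L71574 : W_22 (nat_lit 12) (nat_lit 0x2000000016000a0000000000000000000000000000000) (nat_lit 0x0) (nat_lit 0x1c001f80000001e003f001e000e000100000000000000) := Q_22 (nat_lit 108) (C_22 L62622 (C_22 L71563 (C_22 L71573 (C_22 L71472 N_22)))) (by decide +kernel)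
theorem L71575 : W_22 (nat_lit 12) (nat_lit 0x2000000016000a0000000000000000000000000000000) (nat_lit 0x0) (nat_lit 0x8001c000180140003c001f000e000700018000400000) := T_22 (nat_lit 126) (nat_lit 128) (nat_lit 1) (nat_lit 9) (nat_lit 7) L69380 (by decide +kernel)
theorem L71576 : W_22 (nat_lit 13) (nat_lit 0x200000001600080000000000000000000000000000000) (nat_lit 0x0) (nat_lit 0x1c001f80018017e003f001f000e000700018000400000) := Q_22 (nat_lit 125) (C_22 L61545 (C_22 L71569 (C_22 L71574 (C_22 L71575 N_22)))) (by decide +kernel)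
theorem L71577 : W_22 (nat_lit 10) (nat_lit 0x200000001600080000000000000000000000000000000) (nat_lit 0x0) (nat_lit 0x18001c007e0008001780038001c000e000000000000000000) := T_22 (nat_lit 143) (nat_lit 128) (nat_lit 2) (nat_lit 5) (nat_lit 8) L71560 (by decide +kernel)
theorem L71578 : W_22 (nat_lit 14) (nat_lit 0x200000001200080000000000000000000000000000000) (nat_lit 0x0) (nat_lit 0x18001c007f800d8017e003f001f000e000700018000400000) := Q_22 (nat_lit 142) (C_22 L61614 (C_22 L71561 (C_22 L71562 (C_22 L61613 (C_22 L71576 (C_22 L71577 N_22)))))) (by decide +kernel)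
theorem L71579 : W_22 (nat_lit 2) (nat_lit 0x200020001a00080000000000000000000000000000000) (nat_lit 0x0) (nat_lit 0x4000400010000000000000000000000000000000000000000) := D_22 (nat_lit 194) (nat_lit 160) (nat_lit 178) (nat_lit 6) (nat_lit 7) (nat_lit 11) (nat_lit 5) (nat_lit 8) (nat_lit 7) (by decide +kernel)
theorem L71580 : W_22 (nat_lit 10) (nat_lit 0x200024001e00080000000000000000000000000000000) (nat_lit 0x0) (nat_lit 0x30015800dc00080000000380018000c0000000000000000000000) := T_22 (nat_lit 124) (nat_lit 123) (nat_lit 0) (nat_lit 8) (nat_lit 8) L67453 (by decide +kernel)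
theorem L71581 : W_22 (nat_lit 11) (nat_lit 0x200020001e00080000000000000000000000000000000) (nat_lit 0x0) (nat_lit 0x30015800dc000e0000000380018000c0000000000000000000000) := T_22 (nat_lit 158) (nat_lit 157) (nat_lit 1) (nat_lit 8) (nat_lit 8) L71580 (by decide +kernel)
theorem L71582 : W_22 (nat_lit 12) (nat_lit 0x200020001a00080000000000000000000000000000000) (nat_lit 0x0) (nat_lit 0x30015800dc004e0004000380018000c0000000000000000000000) := T_22 (nat_lit 142) (nat_lit 162) (nat_lit 3) (nat_lit 5) (nat_lit 8) L71581 (by decide +kernel)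
theorem L71583 : W_22 (nat_lit 2) (nat_lit 0x200070001a00080000000000000000000000000000000) (nat_lit 0x0) (nat_lit 0x100180000000000000000000000000000000000000000) := D_22 (nat_lit 163) (nat_lit 176) (nat_lit 164) (nat_lit 1) (nat_lit 10) (nat_lit 9) (nat_lit 0) (nat_lit 11) (nat_lit 9) (by decide +kernel)
theorem L71584 : W_22 (nat_lit 3) (nat_lit 0x200030001a00080000000000000000000000000000000) (nat_lit 0x0) (nat_lit 0x1001c0000400000000000000000000000000000000000) := T_22 (nat_lit 162) (nat_lit 142) (nat_lit 3) (nat_lit 5) (nat_lit 8) L71583 (by decide +kernel)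
theorem L71585 : W_22 (nat_lit 4) (nat_lit 0x200020001a00080000000000000000000000000000000) (nat_lit 0x0) (nat_lit 0x40001001d0000400000000000000000000000000000000000) := T_22 (nat_lit 160) (nat_lit 194) (nat_lit 6) (nat_lit 7) (nat_lit 11) L71584 (by decide +kernel)
theorem L71586 : W_22 (nat_lit 2) (nat_lit 0x1a000f0005a00080000000000000000000000000000000) (nat_lit 0x0) (nat_lit 0x200010000400000000000000000000000000000000000000000000) := D_22 (nat_lit 196) (nat_lit 178) (nat_lit 213) (nat_lit 7) (nat_lit 8) (nat_lit 7) (nat_lit 6) (nat_lit 9) (nat_lit 12) (by decide +kernel)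
theorem L71587 : W_22 (nat_lit 3) (nat_lit 0x12000f0005a00080000000000000000000000000000000) (nat_lit 0x0) (nat_lit 0x200010000c00008000000000000000000000000000000000000000) := T_22 (nat_lit 179) (nat_lit 159) (nat_lit 3) (nat_lit 6) (nat_lit 9) L71586 (by decide +kernel)
theorem L71588 : W_22 (nat_lit 4) (nat_lit 0x2000f0005a00080000000000000000000000000000000) (nat_lit 0x0) (nat_lit 0x200010003c00008000000000000000000000000000000000000000) := T_22 (nat_lit 180) (nat_lit 181) (nat_lit 3) (nat_lit 7) (nat_lit 9) L71587 (by decide +kernel)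
theorem L71589 : W_22 (nat_lit 5) (nat_lit 0x2000f0001a00080000000000000000000000000000000) (nat_lit 0x0) (nat_lit 0x200010003c0000800c000000000000000000000000000000000000) := T_22 (nat_lit 146) (nat_lit 147) (nat_lit 2) (nat_lit 7) (nat_lit 9) L71588 (by decide +kernel)
theorem L71590 : W_22 (nat_lit 6) (nat_lit 0x2000e0001a00080000000000000000000000000000000) (nat_lit 0x0) (nat_lit 0x200010003d0001800c000000000000000000000000000000000000) := T_22 (nat_lit 160) (nat_lit 176) (nat_lit 1) (nat_lit 10) (nat_lit 9) L71589 (by decide +kernel)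
theorem L71591 : W_22 (nat_lit 7) (nat_lit 0x200060001a00080000000000000000000000000000000) (nat_lit 0x0) (nat_lit 0x200010003d0019800c000000000000000000000000000000000000) := T_22 (nat_lit 163) (nat_lit 164) (nat_lit 0) (nat_lit 11) (nat_lit 9) L71590 (by decide +kernel)
theorem L71592 : W_22 (nat_lit 8) (nat_lit 0x200020001a00080000000000000000000000000000000) (nat_lit 0x0) (nat_lit 0x200010003d001d800c400000000000000000000000000000000000) := T_22 (nat_lit 162) (nat_lit 142) (nat_lit 3) (nat_lit 5) (nat_lit 8) L71591 (by decide +kernel)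
theorem L71593 : W_22 (nat_lit 13) (nat_lit 0x200000001a00080000000000000000000000000000000) (nat_lit 0x0) (nat_lit 0x230015803dc01fe00c4000380018000c0000000000000000000000) := Q_22 (nat_lit 161) (C_22 L71579 (C_22 L71582 (C_22 L71585 (C_22 L71592 N_22)))) (by decide +kernel)
theorem L71594 : W_22 (nat_lit 13) (nat_lit 0x200000001a00080000000000000000000000000000000) (nat_lit 0x0) (nat_lit 0x30015800dc006e0004001380018000c0000000000000000000000) := T_22 (nat_lit 142) (nat_lit 128) (nat_lit 2) (nat_lit 5) (nat_lit 8) L67456 (by decide +kernel)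
theorem L71595 : W_22 (nat_lit 10) (nat_lit 0x200000001a00080000000000000000000000000000000) (nat_lit 0x0) (nat_lit 0x18001c007e0004001780038001c000e000000000000000000) := T_22 (nat_lit 142) (nat_lit 128) (nat_lit 2) (nat_lit 5) (nat_lit 8) L71560 (by decide +kernel)
theorem L71596 : W_22 (nat_lit 10) (nat_lit 0x200000001a00080000000000000000000000000000000) (nat_lit 0x0) (nat_lit 0x500018001e000400178001c000e0000000000000000000000) := T_22 (nat_lit 142) (nat_lit 128) (nat_lit 2) (nat_lit 5) (nat_lit 8) L71468 (by decide +kernel)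
theorem L71597 : W_22 (nat_lit 14) (nat_lit 0x200000001200080000000000000000000000000000000) (nat_lit 0x0) (nat_lit 0xa00070003b03fdc0fde0fff80cc0077803bc001e000e000000000000000000) := Q_22 (nat_lit 143) (C_22 L71532 (C_22 L69419 (C_22 L71593 (C_22 L71594 (C_22 L71595 (C_22 L71596 N_22)))))) (by decide +kernel)
theorem L71598 : W_22 (nat_lit 18) (nat_lit 0x200000001000080000000000000000000000000000000) (nat_lit 0x0) (nat_lit 0x4001e001f800ff007f83fdf0fdf8fffc1cfe077f03bf807f801fc007c001e000600000) := Q_22 (nat_lit 141) (C_22 L67687 (C_22 L69413 (C_22 L69568 (C_22 L69593 (C_22 L69943 (C_22 L70495 (C_22 L71467 (C_22 L71477 (C_22 L71481 (C_22 L71533 (C_22 L71535 (C_22 L71541 (C_22 L71578 (C_22 L71597 N_22)))))))))))))) (by decide +kernel)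
end Crest.Agent.Helper32.Snaky.R1_0
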