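import Crest.Agent.Helper32.Snaky.Gen.R1_0_p2
set_option autoImplicit false
set_option maxRecDepth 100000
set_option linter.all false
set_option Elab.async false
namespace Crest.Agent.Helper32.Snaky.R1_0
@[reducible] def W_23 (d M Bz Z : Nat) : Prop := Crest.Agent.Helper32.Snaky.Wins (nat_lit 17) d M Bz Z
theorem D_23 {d M Bz Z : Nat} (m t1 t2 o1 x1 y1 o2 x2 y2 : Nat) (h : Crest.Agent.Helper32.Snaky.chkDoubleC (nat_lit 17) d M Bz Z m t1 t2 o1 x1 y1 o2 x2 y2 = true) : W_23 d M Bz Z := Crest.Agent.Helper32.Snaky.doubleC m t1 t2 o1 x1 y1 o2 x2 y2 h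
theorem T_23 {d M Bz Z cd cM cBz cZ : Nat} (m t o x y : Nat) (child : W_23 cd cM cBz cZ) (h : Crest.Agent.Helper32.Snaky.chkThreatC (nat_lit 17) d M Bz Z cd cM cBz cZ m t o x y = true) : W_23 d M Bz Z := Crest.Agent.Helper32.Snaky.threatC m t o x y child h
theorem Q_23 {d M Bz Z : Nat} (m : Nat) {l : List Crest.Agent.Helper32.Snaky.Spec} (kids : Crest.Agent.Helper32.Snaky.AllWins (nat_lit 17) l) (h : Crest.Agent.Helper32.Snaky.chkQuiet d M Bz Z m l = true) : W_23 d M Bz Z := Crest.Agent.Helper32.Snaky.quiet m kids h
theorem C_23 {cd cM cBz cZ : Nat} {l : List Crest.Agent.Helper32.Snaky.Spec} (h : W_23 cd cM cBz cZ) (hl : Crest.Agent.Helper32.Snaky.AllWins (nat_lit 17) l) : Crest.Agent.Helper32.Snaky.AllWins (nat_lit 17) ((cd, cM, cBz, cZ) :: l) := Crest.Agent.Helper32.Snaky.AllWins.cons h hl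
theorem N_23 : Crest.Agent.Helper32.Snaky.AllWins (nat_lit 17) [] := Crest.Agent.Helper32.Snaky.AllWins.nil
theorem L11257 : W_23 (nat_lit 3) (nat_lit 0x780004001600080000000000000000000000000000000) (nat_lit 0x0) (nat_lit 0x2000000000000800118000000000000000000000000000000) := T_23 (nat_lit 143) (nat_lit 128) (nat_lit 2) (nat_lit 5) (nat_lit 8) L11256 (by decide +kernel)
theorem L11258 : W_23 (nat_lit 4) (nat_lit 0x780000001600080000000000000000000000000000000) (nat_lit 0x0) (nat_lit 0x2000000006000800118000000000000000000000000000000) := T_23 (nat_lit 158) (nat_lit 157) (nat_lit 0) (nat_lit 8) (nat_lit 10) L11257 (by decide +kernel)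
theorem L11259 : W_23 (nat_lit 2) (nat_lit 0x8000780004001600090000000000000000000000000000000) (nat_lit 0x0) (nat_lit 0x800008000400000000000000000000000000) := D_23 (nat_lit 123) (nat_lit 143) (nat_lit 106) (nat_lit 0) (nat_lit 8) (nat_lit 8) (nat_lit 4) (nat_lit 5) (nat_lit 10) (by decide +kernel)
theorem L11260 : W_23 (nat_lit 3) (nat_lit 0x8000780004001600080000000000000000000000000000000) (nat_lit 0x0) (nat_lit 0x2000000000000800018000400000000000000000000000000) := T_23 (nat_lit 124) (nat_lit 193) (nat_lit 7) (nat_lit 5) (nat_lit 7) L11259 (by decide +kernel)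
theorem L11261 : W_23 (nat_lit 4) (nat_lit 0x780004001600080000000000000000000000000000000) (nat_lit 0x0) (nat_lit 0x1a000000000000800018000400000000000000000000000000) := T_23 (nat_lit 195) (nat_lit 196) (nat_lit 3) (nat_lit 5) (nat_lit 10) L11260 (by decide +kernel)
theorem L11262 : W_23 (nat_lit 5) (nat_lit 0x780000001600080000000000000000000000000000000) (nat_lit 0x0) (nat_lit 0x1a000000006000800018000400000000000000000000000000) := T_23 (nat_lit 158) (nat_lit 157) (nat_lit 0) (nat_lit 8) (nat_lit 10) L11261 (by decide +kernel)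
theorem L11263 : W_23 (nat_lit 2) (nat_lit 0x8000780004001600090000800000000000000000000000000) (nat_lit 0x0) (nat_lit 0x20001000080000000000000000000000) := D_23 (nat_lit 108) (nat_lit 91) (nat_lit 125) (nat_lit 6) (nat_lit 5) (nat_lit 9) (nat_lit 6) (nat_lit 5) (nat_lit 10) (by decide +kernel)
theorem L11264 : W_23 (nat_lit 3) (nat_lit 0x8000780004001600090000000000000000000000000000000) (nat_lit 0x0) (nat_lit 0x8000000020001800080000000000000000000000) := T_23 (nat_lit 107) (nat_lit 159) (nat_lit 7) (nat_lit 5) (nat_lit 6) L11263 (by decide +kernel)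
theorem L11265 : W_23 (nat_lit 4) (nat_lit 0x8000780004001600080000000000000000000000000000000) (nat_lit 0x0) (nat_lit 0x2000000008000000030001800080000000000000000000000) := T_23 (nat_lit 124) (nat_lit 193) (nat_lit 7) (nat_lit 5) (nat_lit 7) L11264 (by decide +kernel)
theorem L11266 : W_23 (nat_lit 5) (nat_lit 0x780004001600080000000000000000000000000000000) (nat_lit 0x0) (nat_lit 0x1a000000008000000030001800080000000000000000000000) := T_23 (nat_lit 195) (nat_lit 196) (nat_lit 3) (nat_lit 5) (nat_lit 10) L11265 (by decide +kernel)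
theorem L11267 : W_23 (nat_lit 6) (nat_lit 0x780000001600080000000000000000000000000000000) (nat_lit 0x0) (nat_lit 0x1a00000000e000000030001800080000000000000000000000) := T_23 (nat_lit 158) (nat_lit 157) (nat_lit 0) (nat_lit 8) (nat_lit 10) L11266 (by decide +kernel)
theorem L11268 : W_23 (nat_lit 2) (nat_lit 0x780004001f00080000000000000000000000000000000) (nat_lit 0x0) (nat_lit 0x1c000000000000000000000000000000) := D_23 (nat_lit 123) (nat_lit 122) (nat_lit 124) (nat_lit 0) (nat_lit 7) (nat_lit 8) (nat_lit 0) (nat_lit 8) (nat_lit 8) (by decide +kernel)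
theorem L11269 : W_23 (nat_lit 3) (nat_lit 0x780004001e00080000000000000000000000000000000) (nat_lit 0x0) (nat_lit 0x10005c000000000000000000000000000000) := T_23 (nat_lit 140) (nat_lit 126) (nat_lit 2) (nat_lit 4) (nat_lit 8) L11268 (by decide +kernel)
theorem L11270 : W_23 (nat_lit 4) (nat_lit 0x780004001600080000000000000000000000000000000) (nat_lit 0x0) (nat_lit 0x90015c000000000000000000000000000000) := T_23 (nat_lit 143) (nat_lit 128) (nat_lit 2) (nat_lit 5) (nat_lit 8) L11269 (by decide +kernel)
theorem L11271 : W_23 (nat_lit 5) (nat_lit 0x780000001600080000000000000000000000000000000) (nat_lit 0x0) (nat_lit 0x600090015c000000000000000000000000000000) := T_23 (nat_lit 158) (nat_lit 157) (nat_lit 0) (nat_lit 8) (nat_lit 10) L11270 (by decide +kernel)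
theorem L11272 : W_23 (nat_lit 2) (nat_lit 0x800078000d001f80084000000000000000000000000000000) (nat_lit 0x0) (nat_lit 0x4000000000000000020001000000000000000000000000000) := D_23 (nat_lit 125) (nat_lit 108) (nat_lit 194) (nat_lit 5) (nat_lit 6) (nat_lit 6) (nat_lit 7) (nat_lit 6) (nat_lit 7) (by decide +kernel)
theorem L11273 : W_23 (nat_lit 3) (nat_lit 0x8000780005001f80084000000000000000000000000000000) (nat_lit 0x0) (nat_lit 0x4000000008000040020001000000000000000000000000000) := T_23 (nat_lit 159) (nat_lit 138) (nat_lit 3) (nat_lit 2) (nat_lit 8) L11272 (by decide +kernel)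
theorem L11274 : W_23 (nat_lit 4) (nat_lit 0x8000780004001f80084000000000000000000000000000000) (nat_lit 0x0) (nat_lit 0x4000000009800040020001000000000000000000000000000) := T_23 (nat_lit 156) (nat_lit 155) (nat_lit 1) (nat_lit 6) (nat_lit 8) L11273 (by decide +kernel)
theorem L11275 : W_23 (nat_lit 5) (nat_lit 0x8000780004001f00084000000000000000000000000000000) (nat_lit 0x0) (nat_lit 0x40000000098000c0022001000000000000000000000000000) := T_23 (nat_lit 139) (nat_lit 121) (nat_lit 0) (nat_lit 6) (nat_lit 8) L11274 (by decide +kernel)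
theorem L11276 : W_23 (nat_lit 6) (nat_lit 0x8000780004001f00080000000000000000000000000000000) (nat_lit 0x0) (nat_lit 0x40000000098000c002e001000000000000000000000000000) := T_23 (nat_lit 122) (nat_lit 123) (nat_lit 0) (nat_lit 7) (nat_lit 8) L11275 (by decide +kernel)
theorem L11277 : W_23 (nat_lit 7) (nat_lit 0x8000780004001e00080000000000000000000000000000000) (nat_lit 0x0) (nat_lit 0x40000000098001c006e001000000000000000000000000000) := T_23 (nat_lit 140) (nat_lit 126) (nat_lit 2) (nat_lit 4) (nat_lit 8) L11276 (by decide +kernel)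
theorem L11278 : W_23 (nat_lit 8) (nat_lit 0x8000780004001600080000000000000000000000000000000) (nat_lit 0x0) (nat_lit 0x40000000098009c016e001000000000000000000000000000) := T_23 (nat_lit 143) (nat_lit 128) (nat_lit 2) (nat_lit 5) (nat_lit 8) L11277 (by decide +kernel)
theorem L11279 : W_23 (nat_lit 9) (nat_lit 0x8000780000001600080000000000000000000000000000000) (nat_lit 0x0) (nat_lit 0x400000000f8009c016e001000000000000000000000000000) := T_23 (nat_lit 158) (nat_lit 157) (nat_lit 0) (nat_lit 8) (nat_lit 10) L11278 (by decide +kernel)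
theorem L11280 : W_23 (nat_lit 10) (nat_lit 0x780000001600080000000000000000000000000000000) (nat_lit 0x0) (nat_lit 0x1c00000000f8009c016e001000000000000000000000000000) := T_23 (nat_lit 195) (nat_lit 196) (nat_lit 3) (nat_lit 5) (nat_lit 10) L11279 (by decide +kernel)
theorem L11281 : W_23 (nat_lit 4) (nat_lit 0x780000001600080000000000000000000000000000000) (nat_lit 0x0) (nat_lit 0x90015c000000000000000000000000000000) := T_23 (nat_lit 143) (nat_lit 128) (nat_lit 2) (nat_lit 5) (nat_lit 8) L8540 (by decide +kernel)
theorem L11282 : W_23 (nat_lit 11) (nat_lit 0x780000001400080000000000000000000000000000000) (nat_lit 0x0) (nat_lit 0x1e00000000f800bc017e001c00080000000000000000000000) := Q_23 (nat_lit 141) (C_23 L11258 (C_23 L11262 (C_23 L11267 (C_23 L11271 (C_23 L11280 (C_23 L11281 N_23)))))) (by decide +kernel)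
theorem L11283 : W_23 (nat_lit 2) (nat_lit 0x9000780004001400080000000000000000000000000000000) (nat_lit 0x0) (nat_lit 0x8000200020000000000000000000000000000000) := D_23 (nat_lit 125) (nat_lit 159) (nat_lit 141) (nat_lit 5) (nat_lit 6) (nat_lit 7) (nat_lit 6) (nat_lit 5) (nat_lit 11) (by decide +kernel)
theorem L11284 : W_23 (nat_lit 3) (nat_lit 0x9000780000001400080000000000000000000000000000000) (nat_lit 0x0) (nat_lit 0xe000200020000000000000000000000000000000) := T_23 (nat_lit 158) (nat_lit 157) (nat_lit 0) (nat_lit 8) (nat_lit 10) L11283 (by decide +kernel)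
theorem L11285 : W_23 (nat_lit 4) (nat_lit 0x8000780000001400080000000000000000000000000000000) (nat_lit 0x0) (nat_lit 0x180000000e000200020000000000000000000000000000000) := T_23 (nat_lit 192) (nat_lit 191) (nat_lit 1) (nat_lit 8) (nat_lit 10) L11284 (by decide +kernel)
theorem L11286 : W_23 (nat_lit 5) (nat_lit 0x780000001400080000000000000000000000000000000) (nat_lit 0x0) (nat_lit 0x1980000000e000200020000000000000000000000000000000) := T_23 (nat_lit 195) (nat_lit 196) (nat_lit 3) (nat_lit 5) (nat_lit 10) L11285 (by decide +kernel)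
theorem L11287 : W_23 (nat_lit 2) (nat_lit 0x3000d000780004001400080000000000000000000000000000000) (nat_lit 0x0) (nat_lit 0x8000c0000000000000000000000000000000000000000000000000000) := D_23 (nat_lit 210) (nat_lit 227) (nat_lit 211) (nat_lit 7) (nat_lit 5) (nat_lit 9) (nat_lit 2) (nat_lit 4) (nat_lit 12) (by decide +kernel)
theorem L11288 : W_23 (nat_lit 3) (nat_lit 0x30009000780004001400080000000000000000000000000000000) (nat_lit 0x0) (nat_lit 0x8000c0006000000000000000000000000000000000000000000000000) := T_23 (nat_lit 194) (nat_lit 193) (nat_lit 1) (nat_lit 8) (nat_lit 11) L11287 (by decide +kernel)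
theorem L11289 : W_23 (nat_lit 4) (nat_lit 0x20009000780004001400080000000000000000000000000000000) (nat_lit 0x0) (nat_lit 0xa000d0006000000000000000000000000000000000000000000000000) := T_23 (nat_lit 208) (nat_lit 225) (nat_lit 5) (nat_lit 5) (nat_lit 9) L11288 (by decide +kernel)
theorem L11290 : W_23 (nat_lit 5) (nat_lit 0x9000780004001400080000000000000000000000000000000) (nat_lit 0x0) (nat_lit 0xa000f0006000000008000000000000000000000000000000000000000) := T_23 (nat_lit 209) (nat_lit 159) (nat_lit 6) (nat_lit 5) (nat_lit 12) L11289 (by decide +kernel)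
theorem L11291 : W_23 (nat_lit 6) (nat_lit 0x9000780000001400080000000000000000000000000000000) (nat_lit 0x0) (nat_lit 0xa000f000600000000e000000000000000000000000000000000000000) := T_23 (nat_lit 158) (nat_lit 157) (nat_lit 0) (nat_lit 8) (nat_lit 10) L11290 (by decide +kernel)
theorem L11292 : W_23 (nat_lit 7) (nat_lit 0x1000780000001400080000000000000000000000000000000) (nat_lit 0x0) (nat_lit 0xa000f001e00000000e000000000000000000000000000000000000000) := T_23 (nat_lit 195) (nat_lit 196) (nat_lit 3) (nat_lit 5) (nat_lit 10) L11291 (by decide +kernel)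
theorem L11293 : W_23 (nat_lit 8) (nat_lit 0x780000001400080000000000000000000000000000000) (nat_lit 0x0) (nat_lit 0xa000f001f80000000e000000000000000000000000000000000000000) := T_23 (nat_lit 192) (nat_lit 191) (nat_lit 1) (nat_lit 8) (nat_lit 10) L11292 (by decide +kernel)
theorem L11294 : W_23 (nat_lit 2) (nat_lit 0x9000780004001600080000000000000000000000000000000) (nat_lit 0x0) (nat_lit 0x40002000000000000000010000000000000000000000000000000) := D_23 (nat_lit 193) (nat_lit 124) (nat_lit 210) (nat_lit 7) (nat_lit 5) (nat_lit 7) (nat_lit 7) (nat_lit 5) (nat_lit 8) (by decide +kernel)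
theorem L11295 : W_23 (nat_lit 3) (nat_lit 0x9000780004001400080000000000000000000000000000000) (nat_lit 0x0) (nat_lit 0x40002000000000000200030000000000000000000000000000000) := T_23 (nat_lit 141) (nat_lit 125) (nat_lit 6) (nat_lit 5) (nat_lit 11) L11294 (by decide +kernel)
theorem L11296 : W_23 (nat_lit 4) (nat_lit 0x1000780004001400080000000000000000000000000000000) (nat_lit 0x0) (nat_lit 0x4001a000000000000200030000000000000000000000000000000) := T_23 (nat_lit 195) (nat_lit 196) (nat_lit 3) (nat_lit 5) (nat_lit 10) L11295 (by decide +kernel)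
theorem L11297 : W_23 (nat_lit 5) (nat_lit 0x780004001400080000000000000000000000000000000) (nat_lit 0x0) (nat_lit 0x4001b800000000000200030000000000000000000000000000000) := T_23 (nat_lit 192) (nat_lit 191) (nat_lit 1) (nat_lit 8) (nat_lit 10) L11296 (by decide +kernel)
theorem L11298 : W_23 (nat_lit 6) (nat_lit 0x780000001400080000000000000000000000000000000) (nat_lit 0x0) (nat_lit 0x4001b800000006000200030000000000000000000000000000000) := T_23 (nat_lit 158) (nat_lit 157) (nat_lit 0) (nat_lit 8) (nat_lit 10) L11297 (by decide +kernel)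
theorem L11299 : W_23 (nat_lit 2) (nat_lit 0x1000780004001400080000000000000000000000000000000) (nat_lit 0x0) (nat_lit 0x8000200020000000000000000000000000000000) := D_23 (nat_lit 125) (nat_lit 159) (nat_lit 141) (nat_lit 5) (nat_lit 6) (nat_lit 7) (nat_lit 6) (nat_lit 5) (nat_lit 11) (by decide +kernel)
theorem L11300 : W_23 (nat_lit 3) (nat_lit 0x1000780000001400080000000000000000000000000000000) (nat_lit 0x0) (nat_lit 0xe000200020000000000000000000000000000000) := T_23 (nat_lit 158) (nat_lit 157) (nat_lit 0) (nat_lit 8) (nat_lit 10) L11299 (by decide +kernel)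
theorem L11301 : W_23 (nat_lit 4) (nat_lit 0x780000001400080000000000000000000000000000000) (nat_lit 0x0) (nat_lit 0x180000000e000200020000000000000000000000000000000) := T_23 (nat_lit 192) (nat_lit 191) (nat_lit 1) (nat_lit 8) (nat_lit 10) L11300 (by decide +kernel)
theorem L11302 : W_23 (nat_lit 2) (nat_lit 0x9000780008001400080000000000000000000000000000000) (nat_lit 0x0) (nat_lit 0x400020002000000000000000000000000000000000000000000000000) := D_23 (nat_lit 209) (nat_lit 193) (nat_lit 226) (nat_lit 5) (nat_lit 6) (nat_lit 8) (nat_lit 6) (nat_lit 5) (nat_lit 13) (by decide +kernel)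
theorem L11303 : W_23 (nat_lit 3) (nat_lit 0x9000780000001400080000000000000000000000000000000) (nat_lit 0x0) (nat_lit 0x400020002000000008000000020000000000000000000000000000000) := T_23 (nat_lit 159) (nat_lit 125) (nat_lit 5) (nat_lit 6) (nat_lit 7) L11302 (by decide +kernel)
theorem L11304 : W_23 (nat_lit 4) (nat_lit 0x1000780000001400080000000000000000000000000000000) (nat_lit 0x0) (nat_lit 0x40002001a000000008000000020000000000000000000000000000000) := T_23 (nat_lit 195) (nat_lit 196) (nat_lit 3) (nat_lit 5) (nat_lit 10) L11303 (by decide +kernel)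
theorem L11305 : W_23 (nat_lit 5) (nat_lit 0x780000001400080000000000000000000000000000000) (nat_lit 0x0) (nat_lit 0x40002001b800000008000000020000000000000000000000000000000) := T_23 (nat_lit 192) (nat_lit 191) (nat_lit 1) (nat_lit 8) (nat_lit 10) L11304 (by decide +kernel)
theorem L11306 : W_23 (nat_lit 12) (nat_lit 0x780000001000080000000000000000000000000000000) (nat_lit 0x0) (nat_lit 0xe000f001f80000000f800fc017e001c00080000000000000000000000) := Q_23 (nat_lit 142) (C_23 L11282 (C_23 L11286 (C_23 L11293 (C_23 L11298 (C_23 L11301 (C_23 L11305 N_23)))))) (by decide +kernel)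
theorem L11307 : W_23 (nat_lit 2) (nat_lit 0x9000780002001000080000000000000000000000000000000) (nat_lit 0x0) (nat_lit 0x4000040001000000000000000000000000000000000000000) := D_23 (nat_lit 174) (nat_lit 194) (nat_lit 156) (nat_lit 3) (nat_lit 4) (nat_lit 10) (nat_lit 0) (nat_lit 7) (nat_lit 10) (by decide +kernel)
theorem L11308 : W_23 (nat_lit 3) (nat_lit 0x1000780002001000080000000000000000000000000000000) (nat_lit 0x0) (nat_lit 0x1c000040001000000000000000000000000000000000000000) := T_23 (nat_lit 195) (nat_lit 196) (nat_lit 3) (nat_lit 5) (nat_lit 10) L11307 (by decide +kernel)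
theorem L11309 : W_23 (nat_lit 4) (nat_lit 0x1000780000001000080000000000000000000000000000000) (nat_lit 0x0) (nat_lit 0x1c000040007000000000000000000000000000000000000000) := T_23 (nat_lit 157) (nat_lit 158) (nat_lit 0) (nat_lit 8) (nat_lit 10) L11308 (by decide +kernel)
theorem L11310 : W_23 (nat_lit 5) (nat_lit 0x780000001000080000000000000000000000000000000) (nat_lit 0x0) (nat_lit 0x1d800040007000000000000000000000000000000000000000) := T_23 (nat_lit 192) (nat_lit 191) (nat_lit 1) (nat_lit 8) (nat_lit 10) L11309 (by decide +kernel)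
theorem L11321 : W_23 (nat_lit 2) (nat_lit 0x8000780002001000080000000000000000000000000000000) (nat_lit 0x0) (nat_lit 0x4000040001000000000000000000000000000000000000000) := D_23 (nat_lit 174) (nat_lit 194) (nat_lit 156) (nat_lit 3) (nat_lit 4) (nat_lit 10) (nat_lit 0) (nat_lit 7) (nat_lit 10) (by decide +kernel)
theorem L11322 : W_23 (nat_lit 3) (nat_lit 0x780002001000080000000000000000000000000000000) (nat_lit 0x0) (nat_lit 0x1c000040001000000000000000000000000000000000000000) := T_23 (nat_lit 195) (nat_lit 196) (nat_lit 3) (nat_lit 5) (nat_lit 10) L11321 (by decide +kernel)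
theorem L11323 : W_23 (nat_lit 4) (nat_lit 0x780000001000080000000000000000000000000000000) (nat_lit 0x0) (nat_lit 0x1c000040007000000000000000000000000000000000000000) := T_23 (nat_lit 157) (nat_lit 158) (nat_lit 0) (nat_lit 8) (nat_lit 10) L11322 (by decide +kernel)
theorem L11324 : W_23 (nat_lit 13) (nat_lit 0x700000001000080000000000000000000000000000000) (nat_lit 0x0) (nat_lit 0xe000f001fe000f000fc00fc017e001c00080000000000000000000000) := Q_23 (nat_lit 175) (C_23 L11306 (C_23 L11310 (C_23 L11313 (C_23 L11320 (C_23 L8355 (C_23 L11323 N_23)))))) (by decide +kernel)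
theorem L11325 : W_23 (nat_lit 2) (nat_lit 0x18001f00088001000080000000000000000000000000000000) (nat_lit 0x0) (nat_lit 0x4006000000000000000000000000000000000000000000000) := D_23 (nat_lit 181) (nat_lit 182) (nat_lit 194) (nat_lit 1) (nat_lit 12) (nat_lit 10) (nat_lit 1) (nat_lit 11) (nat_lit 10) (by decide +kernel)
theorem L11326 : W_23 (nat_lit 3) (nat_lit 0x18000f00088001000080000000000000000000000000000000) (nat_lit 0x0) (nat_lit 0x4007000100000000000000000000000000000000000000000) := T_23 (nat_lit 180) (nat_lit 164) (nat_lit 2) (nat_lit 7) (nat_lit 10) L11325 (by decide +kernel)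
theorem L11327 : W_23 (nat_lit 4) (nat_lit 0x10000f00088001000080000000000000000000000000000000) (nat_lit 0x0) (nat_lit 0xc007080100000000000000000000000000000000000000000) := T_23 (nat_lit 195) (nat_lit 175) (nat_lit 3) (nat_lit 5) (nat_lit 10) L11326 (by decide +kernel)
theorem L11328 : W_23 (nat_lit 5) (nat_lit 0xf00088001000080000000000000000000000000000000) (nat_lit 0x0) (nat_lit 0x3c007080100000000000000000000000000000000000000000) := T_23 (nat_lit 196) (nat_lit 197) (nat_lit 3) (nat_lit 6) (nat_lit 10) L11327 (by decide +kernel)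
theorem L11329 : W_23 (nat_lit 6) (nat_lit 0xf00008001000080000000000000000000000000000000) (nat_lit 0x0) (nat_lit 0x3c0070801c0000000000000000000000000000000000000000) := T_23 (nat_lit 163) (nat_lit 162) (nat_lit 2) (nat_lit 6) (nat_lit 10) L11328 (by decide +kernel)
theorem L11330 : W_23 (nat_lit 7) (nat_lit 0xf00000001000080000000000000000000000000000000) (nat_lit 0x0) (nat_lit 0x3c0070801cc000000000000000000000000000000000000000) := T_23 (nat_lit 159) (nat_lit 158) (nat_lit 0) (nat_lit 9) (nat_lit 10) L11329 (by decide +kernel)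
theorem L11331 : W_23 (nat_lit 2) (nat_lit 0x16000f80042001000080000000000000000000000000000000) (nat_lit 0x0) (nat_lit 0x60001000000000000000000000000000000000000000) := D_23 (nat_lit 174) (nat_lit 156) (nat_lit 173) (nat_lit 0) (nat_lit 7) (nat_lit 10) (nat_lit 3) (nat_lit 3) (nat_lit 10) (by decide +kernel)
theorem L11332 : W_23 (nat_lit 3) (nat_lit 0x12000f80042001000080000000000000000000000000000000) (nat_lit 0x0) (nat_lit 0x4001060001000000000000000000000000000000000000000) := T_23 (nat_lit 194) (nat_lit 180) (nat_lit 1) (nat_lit 10) (nat_lit 10) L11331 (by decide +kernel)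
theorem L11333 : W_23 (nat_lit 4) (nat_lit 0x12000f80040001000080000000000000000000000000000000) (nat_lit 0x0) (nat_lit 0x4001060007000000000000000000000000000000000000000) := T_23 (nat_lit 157) (nat_lit 158) (nat_lit 0) (nat_lit 8) (nat_lit 10) L11332 (by decide +kernel)
theorem L11334 : W_23 (nat_lit 5) (nat_lit 0x12000f00040001000080000000000000000000000000000000) (nat_lit 0x0) (nat_lit 0xc0010e0007000000000000000000000000000000000000000) := T_23 (nat_lit 175) (nat_lit 195) (nat_lit 3) (nat_lit 5) (nat_lit 10) L11333 (by decide +kernel)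
theorem L11335 : W_23 (nat_lit 6) (nat_lit 0x2000f00040001000080000000000000000000000000000000) (nat_lit 0x0) (nat_lit 0x3c0010e0007000000000000000000000000000000000000000) := T_23 (nat_lit 196) (nat_lit 197) (nat_lit 3) (nat_lit 6) (nat_lit 10) L11334 (by decide +kernel)
theorem L11336 : W_23 (nat_lit 7) (nat_lit 0xf00040001000080000000000000000000000000000000) (nat_lit 0x0) (nat_lit 0x3f0010e0007000000000000000000000000000000000000000) := T_23 (nat_lit 193) (nat_lit 192) (nat_lit 1) (nat_lit 9) (nat_lit 10) L11335 (by decide +kernel)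
theorem L11337 : W_23 (nat_lit 8) (nat_lit 0xf00000001000080000000000000000000000000000000) (nat_lit 0x0) (nat_lit 0x3f0010e00c7000000000000000000000000000000000000000) := T_23 (nat_lit 162) (nat_lit 163) (nat_lit 2) (nat_lit 6) (nat_lit 10) L11336 (by decide +kernel)
theorem L11342 : W_23 (nat_lit 2) (nat_lit 0x1000400034001e000f00040001000080000000000000000000000000000000) (nat_lit 0x0) (nat_lit 0x100008000080000000000000000000000000000000000000000000000000000) := D_23 (nat_lit 231) (nat_lit 211) (nat_lit 248) (nat_lit 3) (nat_lit 6) (nat_lit 12) (nat_lit 7) (nat_lit 9) (nat_lit 10) (by decide +kernel)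
theorem L11343 : W_23 (nat_lit 3) (nat_lit 0x1000000034001e000f00040001000080000000000000000000000000000000) (nat_lit 0x0) (nat_lit 0x18000c000080000000000000000000000000000000000000000000000000000) := T_23 (nat_lit 230) (nat_lit 247) (nat_lit 4) (nat_lit 9) (nat_lit 14) L11342 (by decide +kernel)
theorem L11344 : W_23 (nat_lit 4) (nat_lit 0x1000000024001e000f00040001000080000000000000000000000000000000) (nat_lit 0x0) (nat_lit 0x18000e000180000000000000000000000000000000000000000000000000000) := T_23 (nat_lit 212) (nat_lit 229) (nat_lit 6) (nat_lit 8) (nat_lit 13) L11343 (by decide +kernel)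
theorem L11345 : W_23 (nat_lit 5) (nat_lit 0x24001e000f00040001000080000000000000000000000000000000) (nat_lit 0x0) (nat_lit 0x19000e800180000000000000000000000000000000000000000000000000000) := T_23 (nat_lit 244) (nat_lit 227) (nat_lit 6) (nat_lit 6) (nat_lit 14) L11344 (by decide +kernel)
theorem L11346 : W_23 (nat_lit 6) (nat_lit 0x4001e000f00040001000080000000000000000000000000000000) (nat_lit 0x0) (nat_lit 0x19000e800780000000000000000000000000000000000000000000000000000) := T_23 (nat_lit 213) (nat_lit 214) (nat_lit 3) (nat_lit 6) (nat_lit 11) L11345 (by decide +kernel)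
theorem L11347 : W_23 (nat_lit 7) (nat_lit 0x1e000f00040001000080000000000000000000000000000000) (nat_lit 0x0) (nat_lit 0x19000e8007e0000000000000000000000000000000000000000000000000000) := T_23 (nat_lit 210) (nat_lit 209) (nat_lit 1) (nat_lit 9) (nat_lit 11) L11346 (by decide +kernel)
theorem L11348 : W_23 (nat_lit 8) (nat_lit 0x1a000f00040001000080000000000000000000000000000000) (nat_lit 0x0) (nat_lit 0x19000e8007e0004001000000000000000000000000000000000000000000000) := T_23 (nat_lit 194) (nat_lit 180) (nat_lit 2) (nat_lit 6) (nat_lit 11) L11347 (by decide +kernel)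
theorem L11349 : W_23 (nat_lit 9) (nat_lit 0x12000f00040001000080000000000000000000000000000000) (nat_lit 0x0) (nat_lit 0x19000e8007e000c001080000000000000000000000000000000000000000000) := T_23 (nat_lit 195) (nat_lit 175) (nat_lit 3) (nat_lit 5) (nat_lit 10) L11348 (by decide +kernel)
theorem L11350 : W_23 (nat_lit 10) (nat_lit 0x2000f00040001000080000000000000000000000000000000) (nat_lit 0x0) (nat_lit 0x19000e8007e003c001080000000000000000000000000000000000000000000) := T_23 (nat_lit 196) (nat_lit 197) (nat_lit 3) (nat_lit 6) (nat_lit 10) L11349 (by decide +kernel)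
theorem L11351 : W_23 (nat_lit 11) (nat_lit 0xf00040001000080000000000000000000000000000000) (nat_lit 0x0) (nat_lit 0x19000e8007e003f001080000000000000000000000000000000000000000000) := T_23 (nat_lit 193) (nat_lit 192) (nat_lit 1) (nat_lit 9) (nat_lit 10) L11350 (by decide +kernel)
theorem L11352 : W_23 (nat_lit 12) (nat_lit 0xf00000001000080000000000000000000000000000000) (nat_lit 0x0) (nat_lit 0x19000e8007e003f0010800c0000000000000000000000000000000000000000) := T_23 (nat_lit 162) (nat_lit 163) (nat_lit 2) (nat_lit 6) (nat_lit 10) L11351 (by decide +kernel)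
theorem L11353 : W_23 (nat_lit 2) (nat_lit 0x2000f80044001000080000000000000000000000000000000) (nat_lit 0x0) (nat_lit 0x38000000000000000000000000000000000000000000000000) := D_23 (nat_lit 196) (nat_lit 197) (nat_lit 195) (nat_lit 3) (nat_lit 6) (nat_lit 10) (nat_lit 3) (nat_lit 5) (nat_lit 10) (by decide +kernel)
theorem L11354 : W_23 (nat_lit 3) (nat_lit 0x2000f00044001000080000000000000000000000000000000) (nat_lit 0x0) (nat_lit 0x38000080002000000000000000000000000000000000000000) := T_23 (nat_lit 175) (nat_lit 157) (nat_lit 0) (nat_lit 8) (nat_lit 10) L11353 (by decide +kernel)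
theorem L11355 : W_23 (nat_lit 4) (nat_lit 0x2000f00004001000080000000000000000000000000000000) (nat_lit 0x0) (nat_lit 0x380000800c2000000000000000000000000000000000000000) := T_23 (nat_lit 162) (nat_lit 163) (nat_lit 2) (nat_lit 6) (nat_lit 10) L11354 (by decide +kernel)
theorem L11356 : W_23 (nat_lit 5) (nat_lit 0x2000f00000001000080000000000000000000000000000000) (nat_lit 0x0) (nat_lit 0x380000800ce000000000000000000000000000000000000000) := T_23 (nat_lit 158) (nat_lit 159) (nat_lit 0) (nat_lit 9) (nat_lit 10) L11355 (by decide +kernel)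
theorem L11357 : W_23 (nat_lit 6) (nat_lit 0xf00000001000080000000000000000000000000000000) (nat_lit 0x0) (nat_lit 0x3b0000800ce000000000000000000000000000000000000000) := T_23 (nat_lit 193) (nat_lit 192) (nat_lit 1) (nat_lit 9) (nat_lit 10) L11356 (by decide +kernel)
theorem L11358 : W_23 (nat_lit 13) (nat_lit 0x700000001000080000000000000000000000000000000) (nat_lit 0x0) (nat_lit 0x19000e8007e003f8078e01cf000000000000000000000000000000000000000) := Q_23 (nat_lit 179) (C_23 L11330 (C_23 L11337 (C_23 L11341 (C_23 L11352 (C_23 L11357 (C_23 L4774 N_23)))))) (by decide +kernel)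
theorem L11359 : W_23 (nat_lit 2) (nat_lit 0x9003f80084001000080000000000000000000000000000000) (nat_lit 0x0) (nat_lit 0xe0000000000000000000000000000000000000000000000000) := D_23 (nat_lit 198) (nat_lit 197) (nat_lit 199) (nat_lit 3) (nat_lit 7) (nat_lit 10) (nat_lit 3) (nat_lit 8) (nat_lit 10) (by decide +kernel)
theorem L11360 : W_23 (nat_lit 3) (nat_lit 0x9001f80084001000080000000000000000000000000000000) (nat_lit 0x0) (nat_lit 0xe4002000000000000000000000000000000000000000000000) := T_23 (nat_lit 181) (nat_lit 194) (nat_lit 1) (nat_lit 11) (nat_lit 10) L11359 (by decide +kernel)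
theorem L11361 : W_23 (nat_lit 4) (nat_lit 0x9000f80084001000080000000000000000000000000000000) (nat_lit 0x0) (nat_lit 0xe4003000100000000000000000000000000000000000000000) := T_23 (nat_lit 180) (nat_lit 164) (nat_lit 2) (nat_lit 7) (nat_lit 10) L11360 (by decide +kernel)
theorem L11362 : W_23 (nat_lit 5) (nat_lit 0x9000f80004001000080000000000000000000000000000000) (nat_lit 0x0) (nat_lit 0xe40030001c0000000000000000000000000000000000000000) := T_23 (nat_lit 163) (nat_lit 162) (nat_lit 2) (nat_lit 6) (nat_lit 10) L11361 (by decide +kernel)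
theorem L11363 : W_23 (nat_lit 6) (nat_lit 0x8000f80004001000080000000000000000000000000000000) (nat_lit 0x0) (nat_lit 0xe58030001c0000000000000000000000000000000000000000) := T_23 (nat_lit 192) (nat_lit 191) (nat_lit 1) (nat_lit 8) (nat_lit 10) L11362 (by decide +kernel)
theorem L11364 : W_23 (nat_lit 7) (nat_lit 0x8000780004001000080000000000000000000000000000000) (nat_lit 0x0) (nat_lit 0xe58038001c8000000000000000000000000000000000000000) := T_23 (nat_lit 179) (nat_lit 159) (nat_lit 0) (nat_lit 9) (nat_lit 10) L11363 (by decide +kernel)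
theorem L11365 : W_23 (nat_lit 8) (nat_lit 0x780004001000080000000000000000000000000000000) (nat_lit 0x0) (nat_lit 0xfd8038001c8000000000000000000000000000000000000000) := T_23 (nat_lit 195) (nat_lit 196) (nat_lit 3) (nat_lit 5) (nat_lit 10) L11364 (by decide +kernel)
theorem L11366 : W_23 (nat_lit 9) (nat_lit 0x780000001000080000000000000000000000000000000) (nat_lit 0x0) (nat_lit 0xfd8038001ce000000000000000000000000000000000000000) := T_23 (nat_lit 158) (nat_lit 157) (nat_lit 0) (nat_lit 8) (nat_lit 10) L11365 (by decide +kernel)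
theorem L11367 : W_23 (nat_lit 10) (nat_lit 0x700000001000080000000000000000000000000000000) (nat_lit 0x0) (nat_lit 0xfdc038c01cf000000000000000000000000000000000000000) := Q_23 (nat_lit 175) (C_23 L11323 (C_23 L11313 (C_23 L11366 (C_23 L8355 N_23)))) (by decide +kernel)
theorem L11373 : W_23 (nat_lit 7) (nat_lit 0x700000001000080000000000000000000000000000000) (nat_lit 0x0) (nat_lit 0x7fc078c01c7000000000000000000000000000000000000000) := Q_23 (nat_lit 179) (C_23 L11372 (C_23 L8382 (C_23 L4847 (C_23 L8378 N_23)))) (by decide +kernel)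
theorem L11383 : W_23 (nat_lit 3) (nat_lit 0x2000f00008001000080000000000000000000000000000000) (nat_lit 0x0) (nat_lit 0x74001000000000000000000000000000000000000000000000) := T_23 (nat_lit 180) (nat_lit 194) (nat_lit 1) (nat_lit 10) (nat_lit 10) L11382 (by decide +kernel)
theorem L11384 : W_23 (nat_lit 4) (nat_lit 0x2000f00000001000080000000000000000000000000000000) (nat_lit 0x0) (nat_lit 0x7400100000c000000000000000000000000000000000000000) := T_23 (nat_lit 159) (nat_lit 158) (nat_lit 0) (nat_lit 9) (nat_lit 10) L11383 (by decide +kernel)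
theorem L11385 : W_23 (nat_lit 5) (nat_lit 0xf00000001000080000000000000000000000000000000) (nat_lit 0x0) (nat_lit 0x7700100000c000000000000000000000000000000000000000) := T_23 (nat_lit 193) (nat_lit 192) (nat_lit 1) (nat_lit 9) (nat_lit 10) L11384 (by decide +kernel)
theorem L11386 : W_23 (nat_lit 6) (nat_lit 0x700000001000080000000000000000000000000000000) (nat_lit 0x0) (nat_lit 0x778018801ce000000000000000000000000000000000000000) := Q_23 (nat_lit 179) (C_23 L11377 (C_23 L4847 (C_23 L11381 (C_23 L11385 N_23)))) (by decide +kernel)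
theorem L11408 : W_23 (nat_lit 9) (nat_lit 0x700000001000080000000000000000000000000000000) (nat_lit 0x0) (nat_lit 0x100008000fc038e01cf800400000000000000000000000000000000000) := Q_23 (nat_lit 175) (C_23 L11313 (C_23 L11392 (C_23 L11395 (C_23 L11400 (C_23 L11407 N_23))))) (by decide +kernel)
theorem L11409 : W_23 (nat_lit 2) (nat_lit 0x2000f00008001400080000000000000000000000000000000) (nat_lit 0x0) (nat_lit 0x80004000000000000000020000000000000000000000000000000) := D_23 (nat_lit 194) (nat_lit 125) (nat_lit 211) (nat_lit 7) (nat_lit 6) (nat_lit 7) (nat_lit 7) (nat_lit 6) (nat_lit 8) (by decide +kernel)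
theorem L11410 : W_23 (nat_lit 3) (nat_lit 0xf00008001400080000000000000000000000000000000) (nat_lit 0x0) (nat_lit 0x80007000000000000000020000000000000000000000000000000) := T_23 (nat_lit 193) (nat_lit 192) (nat_lit 1) (nat_lit 9) (nat_lit 10) L11409 (by decide +kernel)
theorem L11411 : W_23 (nat_lit 2) (nat_lit 0x2000f00048001c00080000000000000000000000000000000) (nat_lit 0x0) (nat_lit 0x200110000000000000000000000000000000) := D_23 (nat_lit 141) (nat_lit 128) (nat_lit 124) (nat_lit 2) (nat_lit 5) (nat_lit 8) (nat_lit 4) (nat_lit 6) (nat_lit 11) (by decide +kernel)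
theorem L11412 : W_23 (nat_lit 3) (nat_lit 0x2000f00048001400080000000000000000000000000000000) (nat_lit 0x0) (nat_lit 0xa00150000000000000000000000000000000) := T_23 (nat_lit 143) (nat_lit 126) (nat_lit 6) (nat_lit 6) (nat_lit 11) L11411 (by decide +kernel)
theorem L11413 : W_23 (nat_lit 4) (nat_lit 0x2000f00008001400080000000000000000000000000000000) (nat_lit 0x0) (nat_lit 0xc0000a00150000000000000000000000000000000) := T_23 (nat_lit 162) (nat_lit 163) (nat_lit 2) (nat_lit 6) (nat_lit 10) L11412 (by decide +kernel)
theorem L11414 : W_23 (nat_lit 5) (nat_lit 0xf00008001400080000000000000000000000000000000) (nat_lit 0x0) (nat_lit 0x30000000c0000a00150000000000000000000000000000000) := T_23 (nat_lit 193) (nat_lit 192) (nat_lit 1) (nat_lit 9) (nat_lit 10) L11413 (by decide +kernel)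
theorem L11415 : W_23 (nat_lit 2) (nat_lit 0xf000480014001e0000000000000000000000000000000) (nat_lit 0x0) (nat_lit 0x10001800000000000000000000000000) := D_23 (nat_lit 107) (nat_lit 108) (nat_lit 124) (nat_lit 0) (nat_lit 9) (nat_lit 7) (nat_lit 4) (nat_lit 6) (nat_lit 10) (by decide +kernel)
theorem L11416 : W_23 (nat_lit 3) (nat_lit 0xf000480014000e0000000000000000000000000000000) (nat_lit 0x0) (nat_lit 0x200110001800000000000000000000000000) := T_23 (nat_lit 128) (nat_lit 141) (nat_lit 1) (nat_lit 9) (nat_lit 7) L11415 (by decide +kernel)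
theorem L11417 : W_23 (nat_lit 4) (nat_lit 0xf000480014000a0000000000000000000000000000000) (nat_lit 0x0) (nat_lit 0x200150003800000000000000000000000000) := T_23 (nat_lit 126) (nat_lit 109) (nat_lit 6) (nat_lit 6) (nat_lit 10) L11416 (by decide +kernel)
theorem L11418 : W_23 (nat_lit 5) (nat_lit 0xf00048001400080000000000000000000000000000000) (nat_lit 0x0) (nat_lit 0x4000000000000200170003800000000000000000000000000) := T_23 (nat_lit 125) (nat_lit 194) (nat_lit 7) (nat_lit 6) (nat_lit 7) L11417 (by decide +kernel)
theorem L11419 : W_23 (nat_lit 6) (nat_lit 0xf00008001400080000000000000000000000000000000) (nat_lit 0x0) (nat_lit 0x40000000c0000200170003800000000000000000000000000) := T_23 (nat_lit 162) (nat_lit 163) (nat_lit 2) (nat_lit 6) (nat_lit 10) L11418 (by decide +kernel)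
theorem L11420 : W_23 (nat_lit 7) (nat_lit 0xf00008001000080000000000000000000000000000000) (nat_lit 0x0) (nat_lit 0x800070000000c0000e00170003800000000000000000000000000) := Q_23 (nat_lit 142) (C_23 L11410 (C_23 L11414 (C_23 L11419 N_23))) (by decide +kernel)
theorem L11421 : W_23 (nat_lit 8) (nat_lit 0xf00000001000080000000000000000000000000000000) (nat_lit 0x0) (nat_lit 0x800070000000cc000e00170003800000000000000000000000000) := T_23 (nat_lit 159) (nat_lit 158) (nat_lit 0) (nat_lit 9) (nat_lit 10) L11420 (by decide +kernel)
theorem L11422 : W_23 (nat_lit 9) (nat_lit 0x700000001000080000000000000000000000000000000) (nat_lit 0x0) (nat_lit 0x800770018001cc000e00170003800000000000000000000000000) := Q_23 (nat_lit 179) (C_23 L11377 (C_23 L11385 (C_23 L4847 (C_23 L11421 N_23)))) (by decide +kernel)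
theorem L11440 : W_23 (nat_lit 8) (nat_lit 0x700000001000080000000000000000000000000000000) (nat_lit 0x0) (nat_lit 0xfe0078c01ce000000000000000000000000000000000000000) := Q_23 (nat_lit 179) (C_23 L11377 (C_23 L8378 (C_23 L11428 (C_23 L11432 (C_23 L11436 (C_23 L11439 N_23)))))) (by decide +kernel)
theorem L11441 : W_23 (nat_lit 7) (nat_lit 0x700000001000080000000000000000000000000000000) (nat_lit 0x0) (nat_lit 0x3f8078801c0000000000000000000000000000000000000000) := Q_23 (nat_lit 179) (C_23 L8378 (C_23 L4847 (C_23 L4774 N_23))) (by decide +kernel)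
theorem L11442 : W_23 (nat_lit 7) (nat_lit 0x700000001000080000000000000000000000000000000) (nat_lit 0x0) (nat_lit 0x7bc018c01cf000000000000000000000000000000000000000) := Q_23 (nat_lit 179) (C_23 L11439 (C_23 L11372 (C_23 L11381 (C_23 L11377 (C_23 L4774 N_23))))) (by decide +kernel)
theorem L11443 : W_23 (nat_lit 14) (nat_lit 0x600000001000080000000000000000000000000000000) (nat_lit 0x0) (nat_lit 0x19000fe007f00ffe079f01cfc00fc017e003c00080000000000000000000000) := Q_23 (nat_lit 176) (C_23 L11324 (C_23 L11358 (C_23 L11367 (C_23 L11373 (C_23 L11386 (C_23 L11408 (C_23 L11422 (C_23 L11440 (C_23 L11441 (C_23 L11442 N_23)))))))))) (by decide +kernel)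
theorem L11444 : W_23 (nat_lit 8) (nat_lit 0xe00000001000080000000000000000000000000000000) (nat_lit 0x0) (nat_lit 0xff0071c01ce000000000000000000000000000000000000000) := Q_23 (nat_lit 176) (C_23 L11439 (C_23 L8378 (C_23 L11385 (C_23 L11428 (C_23 L11436 N_23))))) (by decide +kernel)
theorem L11445 : W_23 (nat_lit 5) (nat_lit 0xe00000001000080000000000000000000000000000000) (nat_lit 0x0) (nat_lit 0xee003000020000000000000000000000000000000000000000) := T_23 (nat_lit 194) (nat_lit 161) (nat_lit 5) (nat_lit 8) (nat_lit 7) L5492 (by decide +kernel)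
theorem L11446 : W_23 (nat_lit 4) (nat_lit 0x10000e00000001000080000000000000000000000000000000) (nat_lit 0x0) (nat_lit 0x2800018000e000000000000000000000000000000000000000) := T_23 (nat_lit 176) (nat_lit 197) (nat_lit 3) (nat_lit 6) (nat_lit 10) L11438 (by decide +kernel)
theorem L11447 : W_23 (nat_lit 5) (nat_lit 0xe00000001000080000000000000000000000000000000) (nat_lit 0x0) (nat_lit 0x3800018002e000000000000000000000000000000000000000) := T_23 (nat_lit 196) (nat_lit 161) (nat_lit 7) (nat_lit 8) (nat_lit 7) L11446 (by decide +kernel)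
theorem L11448 : W_23 (nat_lit 9) (nat_lit 0x600000001000080000000000000000000000000000000) (nat_lit 0x0) (nat_lit 0xff0079c01ee000000000000000000000000000000000000000) := Q_23 (nat_lit 179) (C_23 L11444 (C_23 L4870 (C_23 L11445 (C_23 L11447 N_23)))) (by decide +kernel)
theorem L11449 : W_23 (nat_lit 9) (nat_lit 0xe00000001000080000000000000000000000000000000) (nat_lit 0x0) (nat_lit 0x800770011001cc000e00170003800000000000000000000000000) := Q_23 (nat_lit 176) (C_23 L11377 (C_23 L11421 (C_23 L4847 (C_23 L11385 N_23)))) (by decide +kernel)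
theorem L11450 : W_23 (nat_lit 2) (nat_lit 0x44001e00100001000080000000000000000000000000000000) (nat_lit 0x0) (nat_lit 0x80002000200000000000000000000000000000000000000000) := D_23 (nat_lit 181) (nat_lit 165) (nat_lit 199) (nat_lit 2) (nat_lit 8) (nat_lit 10) (nat_lit 3) (nat_lit 8) (nat_lit 10) (by decide +kernel)
theorem L11451 : W_23 (nat_lit 3) (nat_lit 0x4001e00100001000080000000000000000000000000000000) (nat_lit 0x0) (nat_lit 0xe0002000200000000000000000000000000000000000000000) := T_23 (nat_lit 198) (nat_lit 197) (nat_lit 3) (nat_lit 7) (nat_lit 10) L11450 (by decide +kernel)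
theorem L11452 : W_23 (nat_lit 4) (nat_lit 0x4001e00000001000080000000000000000000000000000000) (nat_lit 0x0) (nat_lit 0xe0002000380000000000000000000000000000000000000000) := T_23 (nat_lit 164) (nat_lit 163) (nat_lit 2) (nat_lit 7) (nat_lit 10) L11451 (by decide +kernel)
theorem L11453 : W_23 (nat_lit 5) (nat_lit 0x4000e00000001000080000000000000000000000000000000) (nat_lit 0x0) (nat_lit 0xe2003000380000000000000000000000000000000000000000) := T_23 (nat_lit 180) (nat_lit 193) (nat_lit 1) (nat_lit 10) (nat_lit 10) L11452 (by decide +kernel)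
theorem L11454 : W_23 (nat_lit 6) (nat_lit 0xe00000001000080000000000000000000000000000000) (nat_lit 0x0) (nat_lit 0xe60030003a0000000000000000000000000000000000000000) := T_23 (nat_lit 194) (nat_lit 161) (nat_lit 5) (nat_lit 8) (nat_lit 7) L11453 (by decide +kernel)
theorem L11455 : W_23 (nat_lit 2) (nat_lit 0x11000f00044001000080000000000000000000000000000000) (nat_lit 0x0) (nat_lit 0x800080002000000000000000000000000000000000000000) := D_23 (nat_lit 175) (nat_lit 191) (nat_lit 157) (nat_lit 1) (nat_lit 8) (nat_lit 10) (nat_lit 0) (nat_lit 8) (nat_lit 10) (by decide +kernel)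
theorem L11456 : W_23 (nat_lit 3) (nat_lit 0x11000f00040001000080000000000000000000000000000000) (nat_lit 0x0) (nat_lit 0x80008000e000000000000000000000000000000000000000) := T_23 (nat_lit 158) (nat_lit 159) (nat_lit 0) (nat_lit 9) (nat_lit 10) L11455 (by decide +kernel)
theorem L11457 : W_23 (nat_lit 4) (nat_lit 0x10000f00040001000080000000000000000000000000000000) (nat_lit 0x0) (nat_lit 0x380008000e000000000000000000000000000000000000000) := T_23 (nat_lit 192) (nat_lit 193) (nat_lit 1) (nat_lit 9) (nat_lit 10) L11456 (by decide +kernel)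
theorem L11458 : W_23 (nat_lit 5) (nat_lit 0x10000f00000001000080000000000000000000000000000000) (nat_lit 0x0) (nat_lit 0x38000800ce000000000000000000000000000000000000000) := T_23 (nat_lit 162) (nat_lit 163) (nat_lit 2) (nat_lit 6) (nat_lit 10) L11457 (by decide +kernel)
theorem L11459 : W_23 (nat_lit 6) (nat_lit 0x10000e00000001000080000000000000000000000000000000) (nat_lit 0x0) (nat_lit 0x238001800ce000000000000000000000000000000000000000) := T_23 (nat_lit 176) (nat_lit 197) (nat_lit 3) (nat_lit 6) (nat_lit 10) L11458 (by decide +kernel)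
theorem L11460 : W_23 (nat_lit 7) (nat_lit 0xe00000001000080000000000000000000000000000000) (nat_lit 0x0) (nat_lit 0x338001800ee000000000000000000000000000000000000000) := T_23 (nat_lit 196) (nat_lit 161) (nat_lit 7) (nat_lit 8) (nat_lit 7) L11459 (by decide +kernel)
theorem L11461 : W_23 (nat_lit 10) (nat_lit 0x600000001000080000000000000000000000000000000) (nat_lit 0x0) (nat_lit 0x800f78039803ee000e00170003800000000000000000000000000) := Q_23 (nat_lit 179) (C_23 L11449 (C_23 L4870 (C_23 L11454 (C_23 L11460 N_23)))) (by decide +kernel)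
theorem L11467 : W_23 (nat_lit 2) (nat_lit 0x1000780020001000080000000000000000000000000000000) (nat_lit 0x0) (nat_lit 0x12000800000000000000000000000000000000000000000000) := D_23 (nat_lit 179) (nat_lit 196) (nat_lit 193) (nat_lit 7) (nat_lit 8) (nat_lit 7) (nat_lit 1) (nat_lit 9) (nat_lit 10) (by decide +kernel)
theorem L11468 : W_23 (nat_lit 3) (nat_lit 0x780020001000080000000000000000000000000000000) (nat_lit 0x0) (nat_lit 0x13800800000000000000000000000000000000000000000000) := T_23 (nat_lit 192) (nat_lit 191) (nat_lit 1) (nat_lit 8) (nat_lit 10) L11467 (by decide +kernel)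
theorem L11469 : W_23 (nat_lit 4) (nat_lit 0x700020001000080000000000000000000000000000000) (nat_lit 0x0) (nat_lit 0x13800880040000000000000000000000000000000000000000) := T_23 (nat_lit 175) (nat_lit 162) (nat_lit 2) (nat_lit 5) (nat_lit 10) L11468 (by decide +kernel)
theorem L11470 : W_23 (nat_lit 2) (nat_lit 0x10007800240010000c0000000000000000000000000000000) (nat_lit 0x0) (nat_lit 0x2000800008000000000000000000000000000000000000000) := D_23 (nat_lit 179) (nat_lit 193) (nat_lit 159) (nat_lit 1) (nat_lit 9) (nat_lit 10) (nat_lit 0) (nat_lit 9) (nat_lit 10) (by decide +kernel)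
theorem L11471 : W_23 (nat_lit 3) (nat_lit 0x10007800200010000c0000000000000000000000000000000) (nat_lit 0x0) (nat_lit 0x200080000e000000000000000000000000000000000000000) := T_23 (nat_lit 158) (nat_lit 157) (nat_lit 0) (nat_lit 8) (nat_lit 10) L11470 (by decide +kernel)
theorem L11472 : W_23 (nat_lit 4) (nat_lit 0x7800200010000c0000000000000000000000000000000) (nat_lit 0x0) (nat_lit 0x380080000e000000000000000000000000000000000000000) := T_23 (nat_lit 192) (nat_lit 191) (nat_lit 1) (nat_lit 8) (nat_lit 10) L11471 (by decide +kernel)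
theorem L11473 : W_23 (nat_lit 5) (nat_lit 0x7000200010000c0000000000000000000000000000000) (nat_lit 0x0) (nat_lit 0x380088004e000000000000000000000000000000000000000) := T_23 (nat_lit 175) (nat_lit 162) (nat_lit 2) (nat_lit 5) (nat_lit 10) L11472 (by decide +kernel)
theorem L11474 : W_23 (nat_lit 6) (nat_lit 0x700020001000080000000000000000000000000000000) (nat_lit 0x0) (nat_lit 0x380088004e000000040002000000000000000000000000000) := T_23 (nat_lit 126) (nat_lit 109) (nat_lit 4) (nat_lit 8) (nat_lit 10) L11473 (by decide +kernel)
theorem L11475 : W_23 (nat_lit 2) (nat_lit 0x88007c00200010001c0000000000000000000000000000000) (nat_lit 0x0) (nat_lit 0x7000000000000000000000000000000000000000) := D_23 (nat_lit 157) (nat_lit 156) (nat_lit 158) (nat_lit 0) (nat_lit 7) (nat_lit 10) (nat_lit 0) (nat_lit 8) (nat_lit 10) (by decide +kernel)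
theorem L11476 : W_23 (nat_lit 3) (nat_lit 0x88007800200010001c0000000000000000000000000000000) (nat_lit 0x0) (nat_lit 0x400040007000000000000000000000000000000000000000) := T_23 (nat_lit 174) (nat_lit 190) (nat_lit 1) (nat_lit 7) (nat_lit 10) L11475 (by decide +kernel)
theorem L11477 : W_23 (nat_lit 4) (nat_lit 0x8007800200010001c0000000000000000000000000000000) (nat_lit 0x0) (nat_lit 0x18400040007000000000000000000000000000000000000000) := T_23 (nat_lit 195) (nat_lit 196) (nat_lit 3) (nat_lit 5) (nat_lit 10) L11476 (by decide +kernel)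
theorem L11478 : W_23 (nat_lit 5) (nat_lit 0x7800200010001c0000000000000000000000000000000) (nat_lit 0x0) (nat_lit 0x19c00040007000000000000000000000000000000000000000) := T_23 (nat_lit 191) (nat_lit 192) (nat_lit 1) (nat_lit 8) (nat_lit 10) L11477 (by decide +kernel)
theorem L11479 : W_23 (nat_lit 6) (nat_lit 0x7000200010001c0000000000000000000000000000000) (nat_lit 0x0) (nat_lit 0x19c000c0047000000000000000000000000000000000000000) := T_23 (nat_lit 175) (nat_lit 162) (nat_lit 2) (nat_lit 5) (nat_lit 10) L11478 (by decide +kernel)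
theorem L11480 : W_23 (nat_lit 7) (nat_lit 0x700020001000180000000000000000000000000000000) (nat_lit 0x0) (nat_lit 0x19c000c0047000000040002000000000000000000000000000) := T_23 (nat_lit 126) (nat_lit 109) (nat_lit 4) (nat_lit 8) (nat_lit 10) L11479 (by decide +kernel)
theorem L11481 : W_23 (nat_lit 8) (nat_lit 0x700020001000080000000000000000000000000000000) (nat_lit 0x0) (nat_lit 0x19c000c004700000014000a000000000000000000000000000) := T_23 (nat_lit 128) (nat_lit 111) (nat_lit 6) (nat_lit 8) (nat_lit 10) L11480 (by decide +kernel)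
theorem L11482 : W_23 (nat_lit 2) (nat_lit 0x1f00020001000080000000000000000000000000000000) (nat_lit 0x0) (nat_lit 0x1c0000000000000000000000000000000000000000) := D_23 (nat_lit 163) (nat_lit 162) (nat_lit 164) (nat_lit 2) (nat_lit 6) (nat_lit 10) (nat_lit 2) (nat_lit 7) (nat_lit 10) (by decide +kernel)
theorem L11483 : W_23 (nat_lit 2) (nat_lit 0x3f00060001000080000000000000000000000000000000) (nat_lit 0x0) (nat_lit 0xe0000000000000000000000000000000000000000000000000) := D_23 (nat_lit 198) (nat_lit 197) (nat_lit 199) (nat_lit 3) (nat_lit 7) (nat_lit 10) (nat_lit 3) (nat_lit 8) (nat_lit 10) (by decide +kernel)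
theorem L11484 : W_23 (nat_lit 3) (nat_lit 0x1f00060001000080000000000000000000000000000000) (nat_lit 0x0) (nat_lit 0xe0006000000000000000000000000000000000000000000000) := T_23 (nat_lit 181) (nat_lit 182) (nat_lit 0) (nat_lit 12) (nat_lit 10) L11483 (by decide +kernel)
theorem L11485 : W_23 (nat_lit 4) (nat_lit 0x1f00020001000080000000000000000000000000000000) (nat_lit 0x0) (nat_lit 0xe00060000c0000000000000000000000000000000000000000) := T_23 (nat_lit 162) (nat_lit 163) (nat_lit 2) (nat_lit 6) (nat_lit 10) L11484 (by decide +kernel)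
theorem L11490 : W_23 (nat_lit 6) (nat_lit 0x2001f000280010000c0000000000000000000000000000000) (nat_lit 0x0) (nat_lit 0xe0006000740000000100008000000000000000000000000000) := T_23 (nat_lit 128) (nat_lit 111) (nat_lit 6) (nat_lit 8) (nat_lit 10) L11489 (by decide +kernel)
theorem L11491 : W_23 (nat_lit 7) (nat_lit 0x2001f000200010000c0000000000000000000000000000000) (nat_lit 0x0) (nat_lit 0xe000600074c000000100008000000000000000000000000000) := T_23 (nat_lit 159) (nat_lit 158) (nat_lit 0) (nat_lit 9) (nat_lit 10) L11490 (by decide +kernel)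
theorem L11492 : W_23 (nat_lit 8) (nat_lit 0x1f000200010000c0000000000000000000000000000000) (nat_lit 0x0) (nat_lit 0xe300600074c000000100008000000000000000000000000000) := T_23 (nat_lit 193) (nat_lit 192) (nat_lit 1) (nat_lit 9) (nat_lit 10) L11491 (by decide +kernel)
theorem L11493 : W_23 (nat_lit 9) (nat_lit 0x1f00020001000080000000000000000000000000000000) (nat_lit 0x0) (nat_lit 0xe300600074c00000014000a000000000000000000000000000) := T_23 (nat_lit 126) (nat_lit 109) (nat_lit 4) (nat_lit 8) (nat_lit 10) L11492 (by decide +kernel)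
theorem L11494 : W_23 (nat_lit 2) (nat_lit 0x40001f00120001000080000000000000000000000000000000) (nat_lit 0x0) (nat_lit 0x80002000200000000000000000000000000000000000000000) := D_23 (nat_lit 181) (nat_lit 199) (nat_lit 165) (nat_lit 3) (nat_lit 8) (nat_lit 10) (nat_lit 2) (nat_lit 8) (nat_lit 10) (by decide +kernel)
theorem L11495 : W_23 (nat_lit 3) (nat_lit 0x40001f00020001000080000000000000000000000000000000) (nat_lit 0x0) (nat_lit 0x80002000380000000000000000000000000000000000000000) := T_23 (nat_lit 164) (nat_lit 163) (nat_lit 2) (nat_lit 7) (nat_lit 10) L11494 (by decide +kernel)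
theorem L11496 : W_23 (nat_lit 4) (nat_lit 0x1f00020001000080000000000000000000000000000000) (nat_lit 0x0) (nat_lit 0xe0002000380000000000000000000000000000000000000000) := T_23 (nat_lit 198) (nat_lit 197) (nat_lit 3) (nat_lit 7) (nat_lit 10) L11495 (by decide +kernel)
theorem L11497 : W_23 (nat_lit 10) (nat_lit 0xf00020001000080000000000000000000000000000000) (nat_lit 0x0) (nat_lit 0xe30070007cc00000014000a000000000000000000000000000) := Q_23 (nat_lit 180) (C_23 L11482 (C_23 L11485 (C_23 L11493 (C_23 L11496 N_23)))) (by decide +kernel)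
theorem L11498 : W_23 (nat_lit 11) (nat_lit 0x700020001000080000000000000000000000000000000) (nat_lit 0x0) (nat_lit 0xf30078007cc00000014000a000000000000000000000000000) := T_23 (nat_lit 179) (nat_lit 196) (nat_lit 7) (nat_lit 8) (nat_lit 7) L11497 (by decide +kernel)
theorem L11499 : W_23 (nat_lit 2) (nat_lit 0x1000f000240010000c0000000000000000000000000000000) (nat_lit 0x0) (nat_lit 0x800080002000000000000000000000000000000000000000) := D_23 (nat_lit 175) (nat_lit 191) (nat_lit 157) (nat_lit 1) (nat_lit 8) (nat_lit 10) (nat_lit 0) (nat_lit 8) (nat_lit 10) (by decide +kernel)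
theorem L11500 : W_23 (nat_lit 3) (nat_lit 0x1000f000200010000c0000000000000000000000000000000) (nat_lit 0x0) (nat_lit 0x80008000e000000000000000000000000000000000000000) := T_23 (nat_lit 158) (nat_lit 159) (nat_lit 0) (nat_lit 9) (nat_lit 10) L11499 (by decide +kernel)
theorem L11501 : W_23 (nat_lit 4) (nat_lit 0xf000200010000c0000000000000000000000000000000) (nat_lit 0x0) (nat_lit 0x380008000e000000000000000000000000000000000000000) := T_23 (nat_lit 192) (nat_lit 193) (nat_lit 1) (nat_lit 9) (nat_lit 10) L11500 (by decide +kernel)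
theorem L11502 : W_23 (nat_lit 5) (nat_lit 0x7000200010000c0000000000000000000000000000000) (nat_lit 0x0) (nat_lit 0x1380088000e000000000000000000000000000000000000000) := T_23 (nat_lit 179) (nat_lit 196) (nat_lit 7) (nat_lit 8) (nat_lit 7) L11501 (by decide +kernel)
theorem L11503 : W_23 (nat_lit 6) (nat_lit 0x700020001000080000000000000000000000000000000) (nat_lit 0x0) (nat_lit 0x1380088000e000000040002000000000000000000000000000) := T_23 (nat_lit 126) (nat_lit 109) (nat_lit 4) (nat_lit 8) (nat_lit 10) L11502 (by decide +kernel)
theorem L11504 : W_23 (nat_lit 12) (nat_lit 0x600020001000080000000000000000000000000000000) (nat_lit 0x0) (nat_lit 0xfbc079c07cf00000014000a000000000000000000000000000) := Q_23 (nat_lit 176) (C_23 L11464 (C_23 L11466 (C_23 L11469 (C_23 L11474 (C_23 L11481 (C_23 L11498 (C_23 L11503 N_23))))))) (by decide +kernel)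
theorem L11505 : W_23 (nat_lit 2) (nat_lit 0x8007c0020001000180000000000000000000000000000000) (nat_lit 0x0) (nat_lit 0x7000000000000000000000000000000000000000) := D_23 (nat_lit 157) (nat_lit 156) (nat_lit 158) (nat_lit 0) (nat_lit 7) (nat_lit 10) (nat_lit 0) (nat_lit 8) (nat_lit 10) (by decide +kernel)
theorem L11506 : W_23 (nat_lit 3) (nat_lit 0x800780020001000180000000000000000000000000000000) (nat_lit 0x0) (nat_lit 0x400040007000000000000000000000000000000000000000) := T_23 (nat_lit 174) (nat_lit 190) (nat_lit 1) (nat_lit 7) (nat_lit 10) L11505 (by decide +kernel)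
theorem L11507 : W_23 (nat_lit 4) (nat_lit 0x800780020001000080000000000000000000000000000000) (nat_lit 0x0) (nat_lit 0x400040007000000100008000000000000000000000000000) := T_23 (nat_lit 128) (nat_lit 111) (nat_lit 6) (nat_lit 8) (nat_lit 10) L11506 (by decide +kernel)
theorem L11508 : W_23 (nat_lit 5) (nat_lit 0x780020001000080000000000000000000000000000000) (nat_lit 0x0) (nat_lit 0x1c00040007000000100008000000000000000000000000000) := T_23 (nat_lit 191) (nat_lit 192) (nat_lit 1) (nat_lit 8) (nat_lit 10) L11507 (by decide +kernel)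
theorem L11509 : W_23 (nat_lit 6) (nat_lit 0x700020001000080000000000000000000000000000000) (nat_lit 0x0) (nat_lit 0x1c000c0047000000100008000000000000000000000000000) := T_23 (nat_lit 175) (nat_lit 162) (nat_lit 2) (nat_lit 5) (nat_lit 10) L11508 (by decide +kernel)
theorem L11510 : W_23 (nat_lit 9) (nat_lit 0x2001f000a8001000180000000000000000000000000000000) (nat_lit 0x0) (nat_lit 0x100008000e000200000003c800e000e0000000000000000000000000000) := T_23 (nat_lit 198) (nat_lit 197) (nat_lit 3) (nat_lit 7) (nat_lit 10) L4974 (by decide +kernel)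
theorem L11511 : W_23 (nat_lit 10) (nat_lit 0x2001f000a0001000180000000000000000000000000000000) (nat_lit 0x0) (nat_lit 0x100008000e000200000c03c800e000e0000000000000000000000000000) := T_23 (nat_lit 159) (nat_lit 158) (nat_lit 0) (nat_lit 9) (nat_lit 10) L11510 (by decide +kernel)
theorem L11512 : W_23 (nat_lit 11) (nat_lit 0x2000f000a0001000180000000000000000000000000000000) (nat_lit 0x0) (nat_lit 0x100008000e000300010c03c800e000e0000000000000000000000000000) := T_23 (nat_lit 180) (nat_lit 164) (nat_lit 2) (nat_lit 7) (nat_lit 10) L11511 (by decide +kernel)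
theorem L11513 : W_23 (nat_lit 12) (nat_lit 0xf000a0001000180000000000000000000000000000000) (nat_lit 0x0) (nat_lit 0x100008000e300300010c03c800e000e0000000000000000000000000000) := T_23 (nat_lit 193) (nat_lit 192) (nat_lit 1) (nat_lit 9) (nat_lit 10) L11512 (by decide +kernel)
theorem L11514 : W_23 (nat_lit 13) (nat_lit 0xf00020001000180000000000000000000000000000000) (nat_lit 0x0) (nat_lit 0x100008000e30030001cc03c800e000e0000000000000000000000000000) := T_23 (nat_lit 163) (nat_lit 162) (nat_lit 2) (nat_lit 6) (nat_lit 10) L11513 (by decide +kernel)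
theorem L11515 : W_23 (nat_lit 14) (nat_lit 0x700020001000180000000000000000000000000000000) (nat_lit 0x0) (nat_lit 0x100008000f30038001cc03c800e000e0000000000000000000000000000) := T_23 (nat_lit 179) (nat_lit 196) (nat_lit 7) (nat_lit 8) (nat_lit 7) L11514 (by decide +kernel)
theorem L11516 : W_23 (nat_lit 15) (nat_lit 0x700020001000080000000000000000000000000000000) (nat_lit 0x0) (nat_lit 0x100008000f30038001cc03c800f000e8000000000000000000000000000) := T_23 (nat_lit 128) (nat_lit 111) (nat_lit 6) (nat_lit 8) (nat_lit 10) L11515 (by decide +kernel)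
theorem L11517 : W_23 (nat_lit 2) (nat_lit 0x1000f00024001000080000000000000000000000000000000) (nat_lit 0x0) (nat_lit 0x800080002000000000000000000000000000000000000000) := D_23 (nat_lit 175) (nat_lit 191) (nat_lit 157) (nat_lit 1) (nat_lit 8) (nat_lit 10) (nat_lit 0) (nat_lit 8) (nat_lit 10) (by decide +kernel)
theorem L11518 : W_23 (nat_lit 3) (nat_lit 0x1000f00020001000080000000000000000000000000000000) (nat_lit 0x0) (nat_lit 0x80008000e000000000000000000000000000000000000000) := T_23 (nat_lit 158) (nat_lit 159) (nat_lit 0) (nat_lit 9) (nat_lit 10) L11517 (by decide +kernel)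
theorem L11519 : W_23 (nat_lit 4) (nat_lit 0xf00020001000080000000000000000000000000000000) (nat_lit 0x0) (nat_lit 0x380008000e000000000000000000000000000000000000000) := T_23 (nat_lit 192) (nat_lit 193) (nat_lit 1) (nat_lit 9) (nat_lit 10) L11518 (by decide +kernel)
theorem L11520 : W_23 (nat_lit 5) (nat_lit 0x700020001000080000000000000000000000000000000) (nat_lit 0x0) (nat_lit 0x1380088000e000000000000000000000000000000000000000) := T_23 (nat_lit 179) (nat_lit 196) (nat_lit 7) (nat_lit 8) (nat_lit 7) L11519 (by decide +kernel)
theorem L11521 : W_23 (nat_lit 16) (nat_lit 0x600020001000080000000000000000000000000000000) (nat_lit 0x0) (nat_lit 0x100008000fbc039c01cf03c800f000e8000000000000000000000000000) := Q_23 (nat_lit 176) (C_23 L11466 (C_23 L11469 (C_23 L5954 (C_23 L11509 (C_23 L11516 (C_23 L11520 N_23)))))) (by decide +kernel)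
theorem L11522 : W_23 (nat_lit 2) (nat_lit 0x7000600010000c0000000000000000000000000000000) (nat_lit 0x0) (nat_lit 0x10000800080000000000000000000000000000000000000000) := D_23 (nat_lit 179) (nat_lit 196) (nat_lit 163) (nat_lit 7) (nat_lit 8) (nat_lit 7) (nat_lit 2) (nat_lit 6) (nat_lit 10) (by decide +kernel)
theorem L11523 : W_23 (nat_lit 3) (nat_lit 0x6000600010000c0000000000000000000000000000000) (nat_lit 0x0) (nat_lit 0x10000980080000000000000000000000000000000000000000) := T_23 (nat_lit 176) (nat_lit 175) (nat_lit 2) (nat_lit 5) (nat_lit 10) L11522 (by decide +kernel)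
theorem L11524 : W_23 (nat_lit 4) (nat_lit 0x600060001000080000000000000000000000000000000) (nat_lit 0x0) (nat_lit 0x10000980080000000040002000000000000000000000000000) := T_23 (nat_lit 126) (nat_lit 109) (nat_lit 4) (nat_lit 8) (nat_lit 10) L11523 (by decide +kernel)
theorem L11526 : W_23 (nat_lit 3) (nat_lit 0xe00160009000780000000000000000000000000000000) (nat_lit 0x0) (nat_lit 0x2000000000000000070000800000000000000000000000) := T_23 (nat_lit 113) (nat_lit 114) (nat_lit 2) (nat_lit 8) (nat_lit 7) L11525 (by decide +kernel)
theorem L11527 : W_23 (nat_lit 4) (nat_lit 0xe00160001000780000000000000000000000000000000) (nat_lit 0x0) (nat_lit 0x2000000018000000070000800000000000000000000000) := T_23 (nat_lit 147) (nat_lit 148) (nat_lit 3) (nat_lit 8) (nat_lit 7) L11526 (by decide +kernel)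
theorem L11528 : W_23 (nat_lit 5) (nat_lit 0xe00060001000780000000000000000000000000000000) (nat_lit 0x0) (nat_lit 0x2000180018000000070000800000000000000000000000) := T_23 (nat_lit 164) (nat_lit 163) (nat_lit 1) (nat_lit 11) (nat_lit 9) L11527 (by decide +kernel)
theorem L11529 : W_23 (nat_lit 6) (nat_lit 0xe00060001000380000000000000000000000000000000) (nat_lit 0x0) (nat_lit 0x2000180018800400070000800000000000000000000000) := T_23 (nat_lit 130) (nat_lit 143) (nat_lit 1) (nat_lit 11) (nat_lit 7) L11528 (by decide +kernel)
theorem L11530 : W_23 (nat_lit 7) (nat_lit 0x600060001000380000000000000000000000000000000) (nat_lit 0x0) (nat_lit 0x10002800180018800400070000800000000000000000000000) := T_23 (nat_lit 179) (nat_lit 196) (nat_lit 7) (nat_lit 8) (nat_lit 7) L11529 (by decide +kernel)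
theorem L11531 : W_23 (nat_lit 2) (nat_lit 0xe001600090003c0010000000000000000000000000000) (nat_lit 0x0) (nat_lit 0x2000000010000400000000000000000000000000000000) := D_23 (nat_lit 130) (nat_lit 148) (nat_lit 181) (nat_lit 3) (nat_lit 8) (nat_lit 7) (nat_lit 4) (nat_lit 11) (nat_lit 10) (by decide +kernel)
theorem L11532 : W_23 (nat_lit 3) (nat_lit 0xe001600090003c0000000000000000000000000000000) (nat_lit 0x0) (nat_lit 0x2000000010000400030000000000000000000000000000) := T_23 (nat_lit 112) (nat_lit 113) (nat_lit 2) (nat_lit 7) (nat_lit 7) L11531 (by decide +kernel)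
theorem L11533 : W_23 (nat_lit 4) (nat_lit 0xe001600010003c0000000000000000000000000000000) (nat_lit 0x0) (nat_lit 0x200000001c000400030000000000000000000000000000) := T_23 (nat_lit 147) (nat_lit 146) (nat_lit 3) (nat_lit 7) (nat_lit 7) L11532 (by decide +kernel)
theorem L11534 : W_23 (nat_lit 5) (nat_lit 0xe00160001000380000000000000000000000000000000) (nat_lit 0x0) (nat_lit 0x200000001c000440032000000000000000000000000000) := T_23 (nat_lit 126) (nat_lit 109) (nat_lit 4) (nat_lit 8) (nat_lit 10) L11533 (by decide +kernel)
theorem L11535 : W_23 (nat_lit 6) (nat_lit 0x600160001000380000000000000000000000000000000) (nat_lit 0x0) (nat_lit 0x1000280000001c000440032000000000000000000000000000) := T_23 (nat_lit 179) (nat_lit 196) (nat_lit 7) (nat_lit 8) (nat_lit 7) L11534 (by decide +kernel)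
theorem L11536 : W_23 (nat_lit 7) (nat_lit 0x600060001000380000000000000000000000000000000) (nat_lit 0x0) (nat_lit 0x1000280018001c000440032000000000000000000000000000) := T_23 (nat_lit 164) (nat_lit 163) (nat_lit 1) (nat_lit 11) (nat_lit 9) L11535 (by decide +kernel)
theorem L11537 : W_23 (nat_lit 2) (nat_lit 0x6000e00058003c0000000000000000000000000000000) (nat_lit 0x0) (nat_lit 0x800000000000000030000000000000000000000000000) := D_23 (nat_lit 112) (nat_lit 113) (nat_lit 179) (nat_lit 2) (nat_lit 7) (nat_lit 7) (nat_lit 5) (nat_lit 10) (nat_lit 6) (by decide +kernel)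
theorem L11538 : W_23 (nat_lit 3) (nat_lit 0x6000600058003c0000000000000000000000000000000) (nat_lit 0x0) (nat_lit 0x800180000000000030000000000000000000000000000) := T_23 (nat_lit 163) (nat_lit 164) (nat_lit 1) (nat_lit 11) (nat_lit 9) L11537 (by decide +kernel)
theorem L11539 : W_23 (nat_lit 4) (nat_lit 0x6000600050003c0000000000000000000000000000000) (nat_lit 0x0) (nat_lit 0x800180000c00000030000000000000000000000000000) := T_23 (nat_lit 143) (nat_lit 142) (nat_lit 1) (nat_lit 10) (nat_lit 7) L11538 (by decide +kernel)
theorem L11540 : W_23 (nat_lit 5) (nat_lit 0x6000600010003c0000000000000000000000000000000) (nat_lit 0x0) (nat_lit 0x80018000cc00000030000000000000000000000000000) := T_23 (nat_lit 146) (nat_lit 147) (nat_lit 3) (nat_lit 7) (nat_lit 7) L11539 (by decide +kernel)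
theorem L11541 : W_23 (nat_lit 6) (nat_lit 0x600060001000380000000000000000000000000000000) (nat_lit 0x0) (nat_lit 0x80018000cc00040032000000000000000000000000000) := T_23 (nat_lit 126) (nat_lit 109) (nat_lit 4) (nat_lit 8) (nat_lit 10) L11540 (by decide +kernel)
theorem L11542 : W_23 (nat_lit 2) (nat_lit 0x6001600010003c0000000000000000000000000000000) (nat_lit 0x0) (nat_lit 0xc00400000000000000000000000000000000) := D_23 (nat_lit 143) (nat_lit 130) (nat_lit 142) (nat_lit 1) (nat_lit 11) (nat_lit 7) (nat_lit 1) (nat_lit 10) (nat_lit 7) (by decide +kernel)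
theorem L11543 : W_23 (nat_lit 3) (nat_lit 0x600160001000380000000000000000000000000000000) (nat_lit 0x0) (nat_lit 0xc00440002000000000000000000000000000) := T_23 (nat_lit 126) (nat_lit 109) (nat_lit 4) (nat_lit 8) (nat_lit 10) L11542 (by decide +kernel)
theorem L11544 : W_23 (nat_lit 4) (nat_lit 0x600060001000380000000000000000000000000000000) (nat_lit 0x0) (nat_lit 0x180000c00440002000000000000000000000000000) := T_23 (nat_lit 164) (nat_lit 163) (nat_lit 1) (nat_lit 11) (nat_lit 9) L11543 (by decide +kernel)
theorem L11545 : W_23 (nat_lit 2) (nat_lit 0xe00060009000780000000000000000000000000000000) (nat_lit 0x0) (nat_lit 0x4000040002000000000000000000000000000) := D_23 (nat_lit 126) (nat_lit 146) (nat_lit 109) (nat_lit 3) (nat_lit 7) (nat_lit 7) (nat_lit 4) (nat_lit 8) (nat_lit 10) (by decide +kernel)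
theorem L11546 : W_23 (nat_lit 3) (nat_lit 0xe00060001000780000000000000000000000000000000) (nat_lit 0x0) (nat_lit 0x1c000040002000000000000000000000000000) := T_23 (nat_lit 147) (nat_lit 148) (nat_lit 3) (nat_lit 8) (nat_lit 7) L11545 (by decide +kernel)
theorem L11547 : W_23 (nat_lit 4) (nat_lit 0x600060001000780000000000000000000000000000000) (nat_lit 0x0) (nat_lit 0x1000080000001c000040002000000000000000000000000000) := T_23 (nat_lit 179) (nat_lit 196) (nat_lit 7) (nat_lit 8) (nat_lit 7) L11546 (by decide +kernel)
theorem L11548 : W_23 (nat_lit 5) (nat_lit 0x600060001000380000000000000000000000000000000) (nat_lit 0x0) (nat_lit 0x1000080000001c800440002000000000000000000000000000) := T_23 (nat_lit 130) (nat_lit 143) (nat_lit 1) (nat_lit 11) (nat_lit 7) L11547 (by decide +kernel)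
theorem L11549 : W_23 (nat_lit 8) (nat_lit 0x600060001000180000000000000000000000000000000) (nat_lit 0x0) (nat_lit 0x1000280018001cc00640072000800000000000000000000000) := Q_23 (nat_lit 129) (C_23 L11530 (C_23 L11536 (C_23 L11541 (C_23 L11544 (C_23 L11548 N_23))))) (by decide +kernel)
theorem L11550 : W_23 (nat_lit 9) (nat_lit 0x600060001000080000000000000000000000000000000) (nat_lit 0x0) (nat_lit 0x1000280018001cc0074007a000800000000000000000000000) := T_23 (nat_lit 128) (nat_lit 111) (nat_lit 6) (nat_lit 8) (nat_lit 10) L11549 (by decide +kernel)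
theorem L11551 : W_23 (nat_lit 2) (nat_lit 0x6000e0001000080000000000000000000000000000000) (nat_lit 0x0) (nat_lit 0x980000000000000000000000000000000000000000000) := D_23 (nat_lit 176) (nat_lit 175) (nat_lit 179) (nat_lit 2) (nat_lit 5) (nat_lit 10) (nat_lit 2) (nat_lit 6) (nat_lit 10) (by decide +kernel)
theorem L11552 : W_23 (nat_lit 3) (nat_lit 0x600060001000080000000000000000000000000000000) (nat_lit 0x0) (nat_lit 0x980180000000000000000000000000000000000000000) := T_23 (nat_lit 163) (nat_lit 164) (nat_lit 1) (nat_lit 11) (nat_lit 9) L11551 (by decide +kernel)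
theorem L11553 : W_23 (nat_lit 2) (nat_lit 0x680160009000780020000000000000000000000000000) (nat_lit 0x0) (nat_lit 0x2000000000000000010000800000000000000000000000) := D_23 (nat_lit 112) (nat_lit 181) (nat_lit 95) (nat_lit 4) (nat_lit 11) (nat_lit 10) (nat_lit 4) (nat_lit 11) (nat_lit 9) (by decide +kernel)
theorem L11554 : W_23 (nat_lit 3) (nat_lit 0x680160009000780000000000000000000000000000000) (nat_lit 0x0) (nat_lit 0x2000000000000000070000800000000000000000000000) := T_23 (nat_lit 113) (nat_lit 114) (nat_lit 2) (nat_lit 8) (nat_lit 7) L11553 (by decide +kernel)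
theorem L11555 : W_23 (nat_lit 4) (nat_lit 0x680160001000780000000000000000000000000000000) (nat_lit 0x0) (nat_lit 0x2000000018000000070000800000000000000000000000) := T_23 (nat_lit 147) (nat_lit 148) (nat_lit 3) (nat_lit 8) (nat_lit 7) L11554 (by decide +kernel)
theorem L11556 : W_23 (nat_lit 5) (nat_lit 0x680060001000780000000000000000000000000000000) (nat_lit 0x0) (nat_lit 0x2000180018000000070000800000000000000000000000) := T_23 (nat_lit 164) (nat_lit 163) (nat_lit 1) (nat_lit 11) (nat_lit 9) L11555 (by decide +kernel)
theorem L11557 : W_23 (nat_lit 6) (nat_lit 0x680060001000380000000000000000000000000000000) (nat_lit 0x0) (nat_lit 0x2000180018800400070000800000000000000000000000) := T_23 (nat_lit 130) (nat_lit 143) (nat_lit 1) (nat_lit 11) (nat_lit 7) L11556 (by decide +kernel)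
theorem L11558 : W_23 (nat_lit 7) (nat_lit 0x600060001000380000000000000000000000000000000) (nat_lit 0x0) (nat_lit 0x2180180018800400070000800000000000000000000000) := T_23 (nat_lit 175) (nat_lit 176) (nat_lit 2) (nat_lit 5) (nat_lit 10) L11557 (by decide +kernel)
theorem L11559 : W_23 (nat_lit 2) (nat_lit 0x6801600090003c0010000000000000000000000000000) (nat_lit 0x0) (nat_lit 0x2000000010000400000000000000000000000000000000) := D_23 (nat_lit 130) (nat_lit 148) (nat_lit 181) (nat_lit 3) (nat_lit 8) (nat_lit 7) (nat_lit 4) (nat_lit 11) (nat_lit 10) (by decide +kernel)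
theorem L11560 : W_23 (nat_lit 3) (nat_lit 0x6801600090003c0000000000000000000000000000000) (nat_lit 0x0) (nat_lit 0x2000000010000400030000000000000000000000000000) := T_23 (nat_lit 112) (nat_lit 113) (nat_lit 2) (nat_lit 7) (nat_lit 7) L11559 (by decide +kernel)
theorem L11561 : W_23 (nat_lit 4) (nat_lit 0x6801600010003c0000000000000000000000000000000) (nat_lit 0x0) (nat_lit 0x200000001c000400030000000000000000000000000000) := T_23 (nat_lit 147) (nat_lit 146) (nat_lit 3) (nat_lit 7) (nat_lit 7) L11560 (by decide +kernel)
theorem L11562 : W_23 (nat_lit 5) (nat_lit 0x680160001000380000000000000000000000000000000) (nat_lit 0x0) (nat_lit 0x200000001c000440032000000000000000000000000000) := T_23 (nat_lit 126) (nat_lit 109) (nat_lit 4) (nat_lit 8) (nat_lit 10) L11561 (by decide +kernel)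
theorem L11563 : W_23 (nat_lit 6) (nat_lit 0x600160001000380000000000000000000000000000000) (nat_lit 0x0) (nat_lit 0x218000001c000440032000000000000000000000000000) := T_23 (nat_lit 175) (nat_lit 176) (nat_lit 2) (nat_lit 5) (nat_lit 10) L11562 (by decide +kernel)
theorem L11564 : W_23 (nat_lit 7) (nat_lit 0x600060001000380000000000000000000000000000000) (nat_lit 0x0) (nat_lit 0x218018001c000440032000000000000000000000000000) := T_23 (nat_lit 164) (nat_lit 163) (nat_lit 1) (nat_lit 11) (nat_lit 9) L11563 (by decide +kernel)
theorem L11565 : W_23 (nat_lit 2) (nat_lit 0x7000600054003e0000800000000000000000000000000) (nat_lit 0x0) (nat_lit 0x8000000010000400000000000000000000000000) := D_23 (nat_lit 124) (nat_lit 106) (nat_lit 159) (nat_lit 0) (nat_lit 8) (nat_lit 7) (nat_lit 4) (nat_lit 6) (nat_lit 10) (by decide +kernel)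
theorem L11566 : W_23 (nat_lit 3) (nat_lit 0x6000600054003e0000800000000000000000000000000) (nat_lit 0x0) (nat_lit 0x180008000000010000400000000000000000000000000) := T_23 (nat_lit 176) (nat_lit 175) (nat_lit 2) (nat_lit 5) (nat_lit 10) L11565 (by decide +kernel)
theorem L11567 : W_23 (nat_lit 4) (nat_lit 0x6000600054003e0000000000000000000000000000000) (nat_lit 0x0) (nat_lit 0x180008000000010001c00000000000000000000000000) := T_23 (nat_lit 107) (nat_lit 108) (nat_lit 0) (nat_lit 9) (nat_lit 7) L11566 (by decide +kernel)
theorem L11568 : W_23 (nat_lit 5) (nat_lit 0x6000600054003c0000000000000000000000000000000) (nat_lit 0x0) (nat_lit 0x180008000200030001c00000000000000000000000000) := T_23 (nat_lit 125) (nat_lit 141) (nat_lit 1) (nat_lit 9) (nat_lit 7) L11567 (by decide +kernel)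
theorem L11569 : W_23 (nat_lit 6) (nat_lit 0x6000600050003c0000000000000000000000000000000) (nat_lit 0x0) (nat_lit 0x180008000e00030001c00000000000000000000000000) := T_23 (nat_lit 142) (nat_lit 143) (nat_lit 1) (nat_lit 10) (nat_lit 7) L11568 (by decide +kernel)
theorem L11570 : W_23 (nat_lit 7) (nat_lit 0x6000600010003c0000000000000000000000000000000) (nat_lit 0x0) (nat_lit 0x18000800ce00030001c00000000000000000000000000) := T_23 (nat_lit 146) (nat_lit 147) (nat_lit 3) (nat_lit 7) (nat_lit 7) L11569 (by decide +kernel)
theorem L11571 : W_23 (nat_lit 8) (nat_lit 0x600060001000380000000000000000000000000000000) (nat_lit 0x0) (nat_lit 0x18000800ce00070003c00000000000000000000000000) := T_23 (nat_lit 126) (nat_lit 109) (nat_lit 4) (nat_lit 8) (nat_lit 10) L11570 (by decide +kernel)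
theorem L11572 : W_23 (nat_lit 9) (nat_lit 0x600060001000180000000000000000000000000000000) (nat_lit 0x0) (nat_lit 0x218018801ce00670073c00800000000000000000000000) := Q_23 (nat_lit 129) (C_23 L11558 (C_23 L11564 (C_23 L11571 (C_23 L11544 N_23)))) (by decide +kernel)
theorem L11573 : W_23 (nat_lit 10) (nat_lit 0x600060001000080000000000000000000000000000000) (nat_lit 0x0) (nat_lit 0x218018801ce0077007bc00800000000000000000000000) := T_23 (nat_lit 128) (nat_lit 111) (nat_lit 6) (nat_lit 8) (nat_lit 10) L11572 (by decide +kernel)
theorem L11577 : W_23 (nat_lit 5) (nat_lit 0x2000f00068001000080000000000000000000000000000000) (nat_lit 0x0) (nat_lit 0xe0017000a000000000000000000000000000) := T_23 (nat_lit 126) (nat_lit 109) (nat_lit 4) (nat_lit 8) (nat_lit 10) L11576 (by decide +kernel)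
theorem L11578 : W_23 (nat_lit 6) (nat_lit 0x2000f00060001000080000000000000000000000000000000) (nat_lit 0x0) (nat_lit 0xc000e0017000a000000000000000000000000000) := T_23 (nat_lit 159) (nat_lit 158) (nat_lit 0) (nat_lit 9) (nat_lit 10) L11577 (by decide +kernel)
theorem L11579 : W_23 (nat_lit 7) (nat_lit 0xf00060001000080000000000000000000000000000000) (nat_lit 0x0) (nat_lit 0x300000000c000e0017000a000000000000000000000000000) := T_23 (nat_lit 193) (nat_lit 192) (nat_lit 1) (nat_lit 9) (nat_lit 10) L11578 (by decide +kernel)
theorem L11580 : W_23 (nat_lit 8) (nat_lit 0x700060001000080000000000000000000000000000000) (nat_lit 0x0) (nat_lit 0x1300080000c000e0017000a000000000000000000000000000) := T_23 (nat_lit 179) (nat_lit 196) (nat_lit 7) (nat_lit 8) (nat_lit 7) L11579 (by decide +kernel)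
theorem L11581 : W_23 (nat_lit 9) (nat_lit 0x600060001000080000000000000000000000000000000) (nat_lit 0x0) (nat_lit 0x1300098000c000e0017000a000000000000000000000000000) := T_23 (nat_lit 176) (nat_lit 175) (nat_lit 2) (nat_lit 5) (nat_lit 10) L11580 (by decide +kernel)
theorem L11582 : W_23 (nat_lit 11) (nat_lit 0x600020001000080000000000000000000000000000000) (nat_lit 0x0) (nat_lit 0x130029801cc01ce0077007bc00800000000000000000000000) := Q_23 (nat_lit 162) (C_23 L11524 (C_23 L11550 (C_23 L11552 (C_23 L11573 (C_23 L11581 N_23))))) (by decide +kernel)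
theorem L11583 : W_23 (nat_lit 17) (nat_lit 0x600000001000080000000000000000000000000000000) (nat_lit 0x0) (nat_lit 0x10000a000fbc079c07ef03ce00f700fbc00800000000000000000000000) := Q_23 (nat_lit 161) (C_23 L11504 (C_23 L11521 (C_23 L994 (C_23 L11582 (C_23 L4895 N_23))))) (by decide +kernel)
theorem L11584 : W_23 (nat_lit 18) (nat_lit 0x200000001000080000000000000000000000000000000) (nat_lit 0x0) (nat_lit 0x19001fe00ff00ffe07df07efc3cfc0f7e0fbc00880000000000000000000000) := Q_23 (nat_lit 178) (C_23 L11443 (C_23 L11448 (C_23 L4869 (C_23 L11461 (C_23 L4896 (C_23 L11583 N_23)))))) (by decide +kernel)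
theorem L11588 : W_23 (nat_lit 2) (nat_lit 0x40001f0016000f000b00000001000080000000000000000000000000000000) (nat_lit 0x0) (nat_lit 0x7000000000000000000000000000000000000000000000000000000000000) := D_23 (nat_lit 241) (nat_lit 242) (nat_lit 240) (nat_lit 1) (nat_lit 7) (nat_lit 13) (nat_lit 1) (nat_lit 6) (nat_lit 13) (by decide +kernel)
theorem L11589 : W_23 (nat_lit 3) (nat_lit 0x40000f0016000f000b00000001000080000000000000000000000000000000) (nat_lit 0x0) (nat_lit 0x27001000000000000000000000000000000000000000000000000000000000) := T_23 (nat_lit 228) (nat_lit 245) (nat_lit 3) (nat_lit 4) (nat_lit 13) L11588 (by decide +kernel)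
theorem L11590 : W_23 (nat_lit 4) (nat_lit 0x40000e0016000f000b00000001000080000000000000000000000000000000) (nat_lit 0x0) (nat_lit 0x27001180000000000000000000000000000000000000000000000000000000) := T_23 (nat_lit 224) (nat_lit 223) (nat_lit 2) (nat_lit 2) (nat_lit 13) L11589 (by decide +kernel)
theorem L11591 : W_23 (nat_lit 5) (nat_lit 0x4000060016000f000b00000001000080000000000000000000000000000000) (nat_lit 0x0) (nat_lit 0x37001980000000000000000000000000000000000000000000000000000000) := T_23 (nat_lit 227) (nat_lit 244) (nat_lit 6) (nat_lit 6) (nat_lit 14) L11590 (by decide +kernel)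
theorem L11592 : W_23 (nat_lit 6) (nat_lit 0x4000040016000f000b00000001000080000000000000000000000000000000) (nat_lit 0x0) (nat_lit 0x37001b80080000000000000000000000000000000000000000000000000000) := T_23 (nat_lit 225) (nat_lit 211) (nat_lit 1) (nat_lit 8) (nat_lit 12) L11591 (by decide +kernel)
theorem L11593 : W_23 (nat_lit 7) (nat_lit 0x4000040012000f000b00000001000080000000000000000000000000000000) (nat_lit 0x0) (nat_lit 0x37001b800c0000000000008000000000000000000000000000000000000000) := T_23 (nat_lit 210) (nat_lit 159) (nat_lit 5) (nat_lit 6) (nat_lit 9) L11592 (by decide +kernel)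
theorem L11594 : W_23 (nat_lit 8) (nat_lit 0x4000000012000f000b00000001000080000000000000000000000000000000) (nat_lit 0x0) (nat_lit 0x3f001f800c0000000000008000000000000000000000000000000000000000) := T_23 (nat_lit 226) (nat_lit 243) (nat_lit 6) (nat_lit 5) (nat_lit 14) L11593 (by decide +kernel)
theorem L11595 : W_23 (nat_lit 9) (nat_lit 0x4000000010000f000b00000001000080000000000000000000000000000000) (nat_lit 0x0) (nat_lit 0x3f001f800f0000000000008000000000000000000000000000000000000000) := T_23 (nat_lit 209) (nat_lit 208) (nat_lit 1) (nat_lit 8) (nat_lit 11) L11594 (by decide +kernel)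
theorem L11596 : W_23 (nat_lit 10) (nat_lit 0x10000f000b00000001000080000000000000000000000000000000) (nat_lit 0x0) (nat_lit 0x7f003f800f0000000000008000000000000000000000000000000000000000) := T_23 (nat_lit 246) (nat_lit 229) (nat_lit 4) (nat_lit 8) (nat_lit 14) L11595 (by decide +kernel)
theorem L11597 : W_23 (nat_lit 11) (nat_lit 0x10000f000300000001000080000000000000000000000000000000) (nat_lit 0x0) (nat_lit 0x7f003f800f0000000c00008000000000000000000000000000000000000000) := T_23 (nat_lit 179) (nat_lit 178) (nat_lit 2) (nat_lit 5) (nat_lit 11) L11596 (by decide +kernel)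
theorem L11598 : W_23 (nat_lit 12) (nat_lit 0xf000300000001000080000000000000000000000000000000) (nat_lit 0x0) (nat_lit 0x7f003f803f0000000c00008000000000000000000000000000000000000000) := T_23 (nat_lit 212) (nat_lit 213) (nat_lit 3) (nat_lit 5) (nat_lit 11) L11597 (by decide +kernel)
theorem L11599 : W_23 (nat_lit 13) (nat_lit 0xd000300000001000080000000000000000000000000000000) (nat_lit 0x0) (nat_lit 0x7f003f803f0002c00c00008000000000000000000000000000000000000000) := Q_23 (nat_lit 193) (C_23 L11585 (C_23 L11587 (C_23 L11598 N_23))) (by decide +kernel)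
theorem L11600 : W_23 (nat_lit 5) (nat_lit 0xd000380000001000080000000000000000000000000000000) (nat_lit 0x0) (nat_lit 0x40002800c00006000200010000000000000000000000000000000) := T_23 (nat_lit 178) (nat_lit 191) (nat_lit 1) (nat_lit 8) (nat_lit 10) L11052 (by decide +kernel)
theorem L11601 : W_23 (nat_lit 6) (nat_lit 0xd000300000001000080000000000000000000000000000000) (nat_lit 0x0) (nat_lit 0x40002800cc0006000200010000000000000000000000000000000) := T_23 (nat_lit 175) (nat_lit 174) (nat_lit 3) (nat_lit 4) (nat_lit 10) L11600 (by decide +kernel)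
theorem L11604 : W_23 (nat_lit 2) (nat_lit 0x40001f0016000f000340000001000080000000000000000000000000000000) (nat_lit 0x0) (nat_lit 0x7000000000000000000000000000000000000000000000000000000000000) := D_23 (nat_lit 241) (nat_lit 242) (nat_lit 240) (nat_lit 1) (nat_lit 7) (nat_lit 13) (nat_lit 1) (nat_lit 6) (nat_lit 13) (by decide +kernel)
theorem L11605 : W_23 (nat_lit 3) (nat_lit 0x40000f0016000f000340000001000080000000000000000000000000000000) (nat_lit 0x0) (nat_lit 0x27001000000000000000000000000000000000000000000000000000000000) := T_23 (nat_lit 228) (nat_lit 245) (nat_lit 3) (nat_lit 4) (nat_lit 13) L11604 (by decide +kernel)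
theorem L11606 : W_23 (nat_lit 4) (nat_lit 0x40000e0016000f000340000001000080000000000000000000000000000000) (nat_lit 0x0) (nat_lit 0x27001180000000000000000000000000000000000000000000000000000000) := T_23 (nat_lit 224) (nat_lit 223) (nat_lit 2) (nat_lit 2) (nat_lit 13) L11605 (by decide +kernel)
theorem L11607 : W_23 (nat_lit 5) (nat_lit 0x4000060016000f000340000001000080000000000000000000000000000000) (nat_lit 0x0) (nat_lit 0x37001980000000000000000000000000000000000000000000000000000000) := T_23 (nat_lit 227) (nat_lit 244) (nat_lit 6) (nat_lit 6) (nat_lit 14) L11606 (by decide +kernel)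
theorem L11608 : W_23 (nat_lit 6) (nat_lit 0x4000040016000f000340000001000080000000000000000000000000000000) (nat_lit 0x0) (nat_lit 0x37001b80080000000000000000000000000000000000000000000000000000) := T_23 (nat_lit 225) (nat_lit 211) (nat_lit 1) (nat_lit 8) (nat_lit 12) L11607 (by decide +kernel)
theorem L11609 : W_23 (nat_lit 7) (nat_lit 0x4000040012000f000340000001000080000000000000000000000000000000) (nat_lit 0x0) (nat_lit 0x37001b800c0000000000008000000000000000000000000000000000000000) := T_23 (nat_lit 210) (nat_lit 159) (nat_lit 5) (nat_lit 6) (nat_lit 9) L11608 (by decide +kernel)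
theorem L11610 : W_23 (nat_lit 8) (nat_lit 0x4000000012000f000340000001000080000000000000000000000000000000) (nat_lit 0x0) (nat_lit 0x3f001f800c0000000000008000000000000000000000000000000000000000) := T_23 (nat_lit 226) (nat_lit 243) (nat_lit 6) (nat_lit 5) (nat_lit 14) L11609 (by decide +kernel)
theorem L11611 : W_23 (nat_lit 9) (nat_lit 0x12000f000340000001000080000000000000000000000000000000) (nat_lit 0x0) (nat_lit 0x7f003f800c0000000000008000000000000000000000000000000000000000) := T_23 (nat_lit 246) (nat_lit 229) (nat_lit 4) (nat_lit 8) (nat_lit 14) L11610 (by decide +kernel)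
theorem L11612 : W_23 (nat_lit 10) (nat_lit 0x10000f000340000001000080000000000000000000000000000000) (nat_lit 0x0) (nat_lit 0x7f003f800f0000000000008000000000000000000000000000000000000000) := T_23 (nat_lit 209) (nat_lit 208) (nat_lit 1) (nat_lit 8) (nat_lit 11) L11611 (by decide +kernel)
theorem L11613 : W_23 (nat_lit 11) (nat_lit 0x10000f000300000001000080000000000000000000000000000000) (nat_lit 0x0) (nat_lit 0x7f003f800f00000000c0008000000000000000000000000000000000000000) := T_23 (nat_lit 174) (nat_lit 175) (nat_lit 3) (nat_lit 4) (nat_lit 10) L11612 (by decide +kernel)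
theorem L11614 : W_23 (nat_lit 12) (nat_lit 0xf000300000001000080000000000000000000000000000000) (nat_lit 0x0) (nat_lit 0x7f003f803f00000000c0008000000000000000000000000000000000000000) := T_23 (nat_lit 212) (nat_lit 213) (nat_lit 3) (nat_lit 5) (nat_lit 11) L11613 (by decide +kernel)
theorem L11615 : W_23 (nat_lit 13) (nat_lit 0xd000300000001000080000000000000000000000000000000) (nat_lit 0x0) (nat_lit 0x7f003f803f0002c000e0008000000000000000000000000000000000000000) := Q_23 (nat_lit 193) (C_23 L11587 (C_23 L11603 (C_23 L11614 N_23))) (by decide +kernel)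
theorem L11616 : W_23 (nat_lit 6) (nat_lit 0xd000380000001000080000000000000000000000000000000) (nat_lit 0x0) (nat_lit 0x803c001ce000000000000000000000000000000000000000) := T_23 (nat_lit 178) (nat_lit 191) (nat_lit 1) (nat_lit 8) (nat_lit 10) L7401 (by decide +kernel)
theorem L11617 : W_23 (nat_lit 7) (nat_lit 0xd000300000001000080000000000000000000000000000000) (nat_lit 0x0) (nat_lit 0x803cc01ce000000000000000000000000000000000000000) := T_23 (nat_lit 175) (nat_lit 174) (nat_lit 3) (nat_lit 4) (nat_lit 10) L11616 (by decide +kernel)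
theorem L11618 : W_23 (nat_lit 2) (nat_lit 0x240016000f000740000001000080000000000000000000000000000000) (nat_lit 0x0) (nat_lit 0x80004000080000000000000000000000000000000000000000000000000000) := D_23 (nat_lit 230) (nat_lit 247) (nat_lit 211) (nat_lit 7) (nat_lit 8) (nat_lit 10) (nat_lit 3) (nat_lit 5) (nat_lit 12) (by decide +kernel)
theorem L11619 : W_23 (nat_lit 3) (nat_lit 0x240012000f000740000001000080000000000000000000000000000000) (nat_lit 0x0) (nat_lit 0x800040000c0000000000008000000000000000000000000000000000000000) := T_23 (nat_lit 210) (nat_lit 159) (nat_lit 5) (nat_lit 6) (nat_lit 9) L11618 (by decide +kernel)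
theorem L11620 : W_23 (nat_lit 4) (nat_lit 0x40012000f000740000001000080000000000000000000000000000000) (nat_lit 0x0) (nat_lit 0xc00060000c0000000000008000000000000000000000000000000000000000) := T_23 (nat_lit 229) (nat_lit 246) (nat_lit 4) (nat_lit 8) (nat_lit 14) L11619 (by decide +kernel)
theorem L11621 : W_23 (nat_lit 5) (nat_lit 0x12000f000740000001000080000000000000000000000000000000) (nat_lit 0x0) (nat_lit 0xc80064000c0000000000008000000000000000000000000000000000000000) := T_23 (nat_lit 226) (nat_lit 243) (nat_lit 6) (nat_lit 5) (nat_lit 14) L11620 (by decide +kernel)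
theorem L11622 : W_23 (nat_lit 6) (nat_lit 0x2000f000740000001000080000000000000000000000000000000) (nat_lit 0x0) (nat_lit 0xc80064003c0000000000008000000000000000000000000000000000000000) := T_23 (nat_lit 212) (nat_lit 213) (nat_lit 3) (nat_lit 5) (nat_lit 11) L11621 (by decide +kernel)
theorem L11623 : W_23 (nat_lit 7) (nat_lit 0xf000740000001000080000000000000000000000000000000) (nat_lit 0x0) (nat_lit 0xc80064003f0000000000008000000000000000000000000000000000000000) := T_23 (nat_lit 209) (nat_lit 208) (nat_lit 1) (nat_lit 8) (nat_lit 11) L11622 (by decide +kernel)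
theorem L11624 : W_23 (nat_lit 8) (nat_lit 0xf000340000001000080000000000000000000000000000000) (nat_lit 0x0) (nat_lit 0xc80064003f0000000c00008000000000000000000000000000000000000000) := T_23 (nat_lit 178) (nat_lit 179) (nat_lit 2) (nat_lit 5) (nat_lit 11) L11623 (by decide +kernel)
theorem L11625 : W_23 (nat_lit 9) (nat_lit 0xf000300000001000080000000000000000000000000000000) (nat_lit 0x0) (nat_lit 0xc80064003f0000000cc0008000000000000000000000000000000000000000) := T_23 (nat_lit 174) (nat_lit 175) (nat_lit 3) (nat_lit 4) (nat_lit 10) L11624 (by decide +kernel)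
theorem L11626 : W_23 (nat_lit 4) (nat_lit 0x4000000010000f000700000001000080000000000000000000000000000000) (nat_lit 0x0) (nat_lit 0x8000400000000c0006000200000000000000000000000000000000000) := T_23 (nat_lit 175) (nat_lit 174) (nat_lit 3) (nat_lit 4) (nat_lit 10) L10188 (by decide +kernel)
theorem L11627 : W_23 (nat_lit 5) (nat_lit 0x10000f000700000001000080000000000000000000000000000000) (nat_lit 0x0) (nat_lit 0x400028000400000000c0006000200000000000000000000000000000000000) := T_23 (nat_lit 246) (nat_lit 229) (nat_lit 4) (nat_lit 8) (nat_lit 14) L11626 (by decide +kernel)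
theorem L11628 : W_23 (nat_lit 6) (nat_lit 0x10000f000300000001000080000000000000000000000000000000) (nat_lit 0x0) (nat_lit 0x40002800040000000cc0006000200000000000000000000000000000000000) := T_23 (nat_lit 178) (nat_lit 179) (nat_lit 2) (nat_lit 5) (nat_lit 11) L11627 (by decide +kernel)
theorem L11629 : W_23 (nat_lit 7) (nat_lit 0xf000300000001000080000000000000000000000000000000) (nat_lit 0x0) (nat_lit 0x40002800340000000cc0006000200000000000000000000000000000000000) := T_23 (nat_lit 212) (nat_lit 213) (nat_lit 3) (nat_lit 5) (nat_lit 11) L11628 (by decide +kernel)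
theorem L11630 : W_23 (nat_lit 2) (nat_lit 0x2000f000380000001000080000000000000000000000000000000) (nat_lit 0x0) (nat_lit 0x8000400000000000000008000000000000000000000000000000000000000) := D_23 (nat_lit 226) (nat_lit 243) (nat_lit 159) (nat_lit 6) (nat_lit 5) (nat_lit 14) (nat_lit 6) (nat_lit 5) (nat_lit 13) (by decide +kernel)
theorem L11631 : W_23 (nat_lit 3) (nat_lit 0x2000f000300000001000080000000000000000000000000000000) (nat_lit 0x0) (nat_lit 0x80004000000000000c0008000000000000000000000000000000000000000) := T_23 (nat_lit 175) (nat_lit 174) (nat_lit 3) (nat_lit 4) (nat_lit 10) L11630 (by decide +kernel)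
theorem L11632 : W_23 (nat_lit 4) (nat_lit 0xf000300000001000080000000000000000000000000000000) (nat_lit 0x0) (nat_lit 0x80004000300000000c0008000000000000000000000000000000000000000) := T_23 (nat_lit 209) (nat_lit 208) (nat_lit 1) (nat_lit 8) (nat_lit 11) L11631 (by decide +kernel)
theorem L11633 : W_23 (nat_lit 13) (nat_lit 0xd000300000001000080000000000000000000000000000000) (nat_lit 0x0) (nat_lit 0xff007f803f0002000cc000e000200000000000000000000000000000000000) := Q_23 (nat_lit 193) (C_23 L11625 (C_23 L11614 (C_23 L11629 (C_23 L11598 (C_23 L11632 N_23))))) (by decide +kernel)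
theorem L11634 : W_23 (nat_lit 14) (nat_lit 0xc000300000001000080000000000000000000000000000000) (nat_lit 0x0) (nat_lit 0xff007f803f0003c03ce01ce000200010000000000000000000000000000000) := Q_23 (nat_lit 192) (C_23 L11599 (C_23 L11601 (C_23 L11615 (C_23 L11617 (C_23 L11633 N_23))))) (by decide +kernel)
theorem L11635 : W_23 (nat_lit 13) (nat_lit 0xe000300000001000080000000000000000000000000000000) (nat_lit 0x0) (nat_lit 0x7f003f803f0001c00c00008000000000000000000000000000000000000000) := Q_23 (nat_lit 192) (C_23 L11587 (C_23 L11598 (C_23 L11585 N_23))) (by decide +kernel)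
theorem L11636 : W_23 (nat_lit 2) (nat_lit 0x24001f000300000001000080000000000000000000000000000000) (nat_lit 0x0) (nat_lit 0x800c00000000000000000000000000000000000000000000) := D_23 (nat_lit 178) (nat_lit 179) (nat_lit 191) (nat_lit 2) (nat_lit 5) (nat_lit 11) (nat_lit 2) (nat_lit 4) (nat_lit 11) (by decide +kernel)
theorem L11637 : W_23 (nat_lit 3) (nat_lit 0x24001e000300000001000080000000000000000000000000000000) (nat_lit 0x0) (nat_lit 0x100001800c00000000000000000000000000000000000000000000) := T_23 (nat_lit 192) (nat_lit 212) (nat_lit 3) (nat_lit 5) (nat_lit 11) L11636 (by decide +kernel)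
theorem L11638 : W_23 (nat_lit 4) (nat_lit 0x4001e000300000001000080000000000000000000000000000000) (nat_lit 0x0) (nat_lit 0x700001800c00000000000000000000000000000000000000000000) := T_23 (nat_lit 213) (nat_lit 214) (nat_lit 3) (nat_lit 6) (nat_lit 11) L11637 (by decide +kernel)
theorem L11639 : W_23 (nat_lit 5) (nat_lit 0x1e000300000001000080000000000000000000000000000000) (nat_lit 0x0) (nat_lit 0x760001800c00000000000000000000000000000000000000000000) := T_23 (nat_lit 210) (nat_lit 209) (nat_lit 1) (nat_lit 9) (nat_lit 11) L11638 (by decide +kernel)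
theorem L11640 : W_23 (nat_lit 6) (nat_lit 0xe000300000001000080000000000000000000000000000000) (nat_lit 0x0) (nat_lit 0x760031800c00000000000000000000000000000000000000000000) := T_23 (nat_lit 196) (nat_lit 197) (nat_lit 0) (nat_lit 10) (nat_lit 11) L11639 (by decide +kernel)
theorem L11641 : W_23 (nat_lit 2) (nat_lit 0x34001e000b00000001000080000000000000000000000000000000) (nat_lit 0x0) (nat_lit 0x40002000000000000000040000000000000000000000000000000000000000) := D_23 (nat_lit 229) (nat_lit 246) (nat_lit 162) (nat_lit 6) (nat_lit 8) (nat_lit 14) (nat_lit 5) (nat_lit 9) (nat_lit 9) (by decide +kernel)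
theorem L11642 : W_23 (nat_lit 3) (nat_lit 0x34001e000300000001000080000000000000000000000000000000) (nat_lit 0x0) (nat_lit 0x40002000000000001800040000000000000000000000000000000000000000) := T_23 (nat_lit 179) (nat_lit 180) (nat_lit 2) (nat_lit 6) (nat_lit 11) L11641 (by decide +kernel)
theorem L11643 : W_23 (nat_lit 4) (nat_lit 0x24001e000300000001000080000000000000000000000000000000) (nat_lit 0x0) (nat_lit 0x40002000100001001800040000000000000000000000000000000000000000) := T_23 (nat_lit 212) (nat_lit 192) (nat_lit 3) (nat_lit 5) (nat_lit 11) L11642 (by decide +kernel)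
theorem L11644 : W_23 (nat_lit 5) (nat_lit 0x4001e000300000001000080000000000000000000000000000000) (nat_lit 0x0) (nat_lit 0x40002000700001001800040000000000000000000000000000000000000000) := T_23 (nat_lit 213) (nat_lit 214) (nat_lit 3) (nat_lit 6) (nat_lit 11) L11643 (by decide +kernel)
theorem L11645 : W_23 (nat_lit 6) (nat_lit 0x1e000300000001000080000000000000000000000000000000) (nat_lit 0x0) (nat_lit 0x40002000760001001800040000000000000000000000000000000000000000) := T_23 (nat_lit 210) (nat_lit 209) (nat_lit 1) (nat_lit 9) (nat_lit 11) L11644 (by decide +kernel)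
theorem L11646 : W_23 (nat_lit 7) (nat_lit 0xe000300000001000080000000000000000000000000000000) (nat_lit 0x0) (nat_lit 0x40002000760031001800040000000000000000000000000000000000000000) := T_23 (nat_lit 196) (nat_lit 197) (nat_lit 0) (nat_lit 10) (nat_lit 11) L11645 (by decide +kernel)
theorem L11652 : W_23 (nat_lit 2) (nat_lit 0x180024001e000b00008001000080000000000000000000000000000000) (nat_lit 0x0) (nat_lit 0x400004000200000000000000000000000000000000000) := D_23 (nat_lit 158) (nat_lit 178) (nat_lit 141) (nat_lit 0) (nat_lit 9) (nat_lit 10) (nat_lit 4) (nat_lit 6) (nat_lit 12) (by decide +kernel)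
theorem L11653 : W_23 (nat_lit 3) (nat_lit 0x180024001e000b00000001000080000000000000000000000000000000) (nat_lit 0x0) (nat_lit 0x8000000040000c000200000000000000000000000000000000000) := T_23 (nat_lit 159) (nat_lit 211) (nat_lit 7) (nat_lit 6) (nat_lit 9) L11652 (by decide +kernel)
theorem L11654 : W_23 (nat_lit 4) (nat_lit 0x80024001e000b00000001000080000000000000000000000000000000) (nat_lit 0x0) (nat_lit 0x2000100008000000040000c000200000000000000000000000000000000000) := T_23 (nat_lit 228) (nat_lit 245) (nat_lit 7) (nat_lit 6) (nat_lit 10) L11653 (by decide +kernel)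
theorem L11655 : W_23 (nat_lit 5) (nat_lit 0x80024001e000300000001000080000000000000000000000000000000) (nat_lit 0x0) (nat_lit 0x20001000080000001c0000c000200000000000000000000000000000000000) := T_23 (nat_lit 179) (nat_lit 180) (nat_lit 2) (nat_lit 6) (nat_lit 11) L11654 (by decide +kernel)
theorem L11656 : W_23 (nat_lit 6) (nat_lit 0x24001e000300000001000080000000000000000000000000000000) (nat_lit 0x0) (nat_lit 0x30001800080000001c0000c000200000000000000000000000000000000000) := T_23 (nat_lit 227) (nat_lit 244) (nat_lit 6) (nat_lit 6) (nat_lit 14) L11655 (by decide +kernel)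
theorem L11657 : W_23 (nat_lit 7) (nat_lit 0x4001e000300000001000080000000000000000000000000000000) (nat_lit 0x0) (nat_lit 0x30001800680000001c0000c000200000000000000000000000000000000000) := T_23 (nat_lit 213) (nat_lit 214) (nat_lit 3) (nat_lit 6) (nat_lit 11) L11656 (by decide +kernel)
theorem L11658 : W_23 (nat_lit 8) (nat_lit 0x1e000300000001000080000000000000000000000000000000) (nat_lit 0x0) (nat_lit 0x300018006e0000001c0000c000200000000000000000000000000000000000) := T_23 (nat_lit 210) (nat_lit 209) (nat_lit 1) (nat_lit 9) (nat_lit 11) L11657 (by decide +kernel)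
theorem L11659 : W_23 (nat_lit 9) (nat_lit 0xe000300000001000080000000000000000000000000000000) (nat_lit 0x0) (nat_lit 0x300018006e0030001c0000c000200000000000000000000000000000000000) := T_23 (nat_lit 196) (nat_lit 197) (nat_lit 0) (nat_lit 10) (nat_lit 11) L11658 (by decide +kernel)
theorem L11674 : W_23 (nat_lit 14) (nat_lit 0xc000300000001000080000000000000000000000000000000) (nat_lit 0x0) (nat_lit 0x7f003f807f0033c01c0004c000200000000000000000000000000000000000) := Q_23 (nat_lit 193) (C_23 L11635 (C_23 L11640 (C_23 L11646 (C_23 L11651 (C_23 L11659 (C_23 L11663 (C_23 L11673 N_23))))))) (by decide +kernel)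
theorem L11675 : W_23 (nat_lit 15) (nat_lit 0x4000300000001000080000000000000000000000000000000) (nat_lit 0x0) (nat_lit 0xff007f807f003bc03ce01ce000200010000000000000000000000000000000) := Q_23 (nat_lit 195) (C_23 L11634 (C_23 L5316 (C_23 L11674 (C_23 L10838 N_23)))) (by decide +kernel)
theorem L11679 : W_23 (nat_lit 2) (nat_lit 0x80000000f000700010001000080000000000000000000000000000000) (nat_lit 0x0) (nat_lit 0x2000300000000000000000000000000000000000000000000000000000) := D_23 (nat_lit 212) (nat_lit 229) (nat_lit 213) (nat_lit 4) (nat_lit 8) (nat_lit 13) (nat_lit 3) (nat_lit 5) (nat_lit 11) (by decide +kernel)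
theorem L11680 : W_23 (nat_lit 3) (nat_lit 0x80000000f000300010001000080000000000000000000000000000000) (nat_lit 0x0) (nat_lit 0x2000300000000c00000000000000000000000000000000000000000000) := T_23 (nat_lit 178) (nat_lit 179) (nat_lit 2) (nat_lit 5) (nat_lit 11) L11679 (by decide +kernel)
theorem L11681 : W_23 (nat_lit 4) (nat_lit 0xf000300010001000080000000000000000000000000000000) (nat_lit 0x0) (nat_lit 0x2800340000000c00000000000000000000000000000000000000000000) := T_23 (nat_lit 227) (nat_lit 210) (nat_lit 6) (nat_lit 6) (nat_lit 13) L11680 (by decide +kernel)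
theorem L11682 : W_23 (nat_lit 5) (nat_lit 0xf000300000001000080000000000000000000000000000000) (nat_lit 0x0) (nat_lit 0x2800340000000c00010000800000000000000000000000000000000000) := T_23 (nat_lit 160) (nat_lit 143) (nat_lit 6) (nat_lit 7) (nat_lit 11) L11681 (by decide +kernel)
theorem L11683 : W_23 (nat_lit 6) (nat_lit 0xe000300000001000080000000000000000000000000000000) (nat_lit 0x0) (nat_lit 0x28003c0001c00c00010000800000000000000000000000000000000000) := Q_23 (nat_lit 192) (C_23 L11587 (C_23 L11585 (C_23 L11682 N_23))) (by decide +kernel)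
theorem L11684 : W_23 (nat_lit 8) (nat_lit 0xc000300000001000080000000000000000000000000000000) (nat_lit 0x0) (nat_lit 0x400028007e0033c01c00050000800000000000000000000000000000000000) := Q_23 (nat_lit 193) (C_23 L11663 (C_23 L11646 (C_23 L11651 (C_23 L11678 (C_23 L11683 N_23))))) (by decide +kernel)
theorem L11690 : W_23 (nat_lit 7) (nat_lit 0xd000300000001000080000000000000000000000000000000) (nat_lit 0x0) (nat_lit 0x18000c003f0002c000e0010000800000000000000000000000000000000000) := Q_23 (nat_lit 193) (C_23 L11603 (C_23 L11587 (C_23 L11689 N_23))) (by decide +kernel)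
theorem L11691 : W_23 (nat_lit 2) (nat_lit 0xe000d000300010001000080000000000000000000000000000000) (nat_lit 0x0) (nat_lit 0x2000100000800000000000000000000000000000000000000000000000) := D_23 (nat_lit 212) (nat_lit 229) (nat_lit 191) (nat_lit 7) (nat_lit 7) (nat_lit 9) (nat_lit 0) (nat_lit 8) (nat_lit 12) (by decide +kernel)
theorem L11692 : W_23 (nat_lit 3) (nat_lit 0xc000d000300010001000080000000000000000000000000000000) (nat_lit 0x0) (nat_lit 0x2000130000800000000000000000000000000000000000000000000000) := T_23 (nat_lit 209) (nat_lit 208) (nat_lit 2) (nat_lit 4) (nat_lit 12) L11691 (by decide +kernel)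
theorem L11693 : W_23 (nat_lit 4) (nat_lit 0x8000d000300010001000080000000000000000000000000000000) (nat_lit 0x0) (nat_lit 0x2800170000800000000000000000000000000000000000000000000000) := T_23 (nat_lit 210) (nat_lit 227) (nat_lit 5) (nat_lit 7) (nat_lit 9) L11692 (by decide +kernel)
theorem L11694 : W_23 (nat_lit 5) (nat_lit 0x8000d000300000001000080000000000000000000000000000000) (nat_lit 0x0) (nat_lit 0x2800170000800000010000800000000000000000000000000000000000) := T_23 (nat_lit 160) (nat_lit 143) (nat_lit 6) (nat_lit 7) (nat_lit 11) L11693 (by decide +kernel)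
theorem L11695 : W_23 (nat_lit 2) (nat_lit 0x2000180008000d000340010001000080000000000000000000000000000000) (nat_lit 0x0) (nat_lit 0x800040002000000000000000000000000000000000000000000000000000000000) := D_23 (nat_lit 246) (nat_lit 229) (nat_lit 263) (nat_lit 7) (nat_lit 7) (nat_lit 10) (nat_lit 7) (nat_lit 7) (nat_lit 11) (by decide +kernel)
theorem L11696 : W_23 (nat_lit 3) (nat_lit 0x180008000d000340010001000080000000000000000000000000000000) (nat_lit 0x0) (nat_lit 0x800060002000000000000400000000000000000000000000000000000000000000) := T_23 (nat_lit 245) (nat_lit 178) (nat_lit 6) (nat_lit 7) (nat_lit 14) L11695 (by decide +kernel)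
theorem L11697 : W_23 (nat_lit 4) (nat_lit 0x80008000d000340010001000080000000000000000000000000000000) (nat_lit 0x0) (nat_lit 0x800070003000000000000400000000000000000000000000000000000000000000) := T_23 (nat_lit 228) (nat_lit 244) (nat_lit 5) (nat_lit 7) (nat_lit 10) L11696 (by decide +kernel)
theorem L11698 : W_23 (nat_lit 5) (nat_lit 0x80008000d000300010001000080000000000000000000000000000000) (nat_lit 0x0) (nat_lit 0x8000700030000000000004c0000000000000000000000000000000000000000000) := T_23 (nat_lit 174) (nat_lit 175) (nat_lit 3) (nat_lit 4) (nat_lit 10) L11697 (by decide +kernel)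
theorem L11699 : W_23 (nat_lit 6) (nat_lit 0x8000d000300010001000080000000000000000000000000000000) (nat_lit 0x0) (nat_lit 0x8000700038000400000004c0000000000000000000000000000000000000000000) := T_23 (nat_lit 227) (nat_lit 210) (nat_lit 5) (nat_lit 7) (nat_lit 9) L11698 (by decide +kernel)
theorem L11700 : W_23 (nat_lit 7) (nat_lit 0x8000d000300000001000080000000000000000000000000000000) (nat_lit 0x0) (nat_lit 0x8000700038000400000004c0010000800000000000000000000000000000000000) := T_23 (nat_lit 160) (nat_lit 143) (nat_lit 6) (nat_lit 7) (nat_lit 11) L11699 (by decide +kernel)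
theorem L11701 : W_23 (nat_lit 2) (nat_lit 0x180008000d000780004001000080000000000000000000000000000000) (nat_lit 0x0) (nat_lit 0x60000000000010000000000000000000000000000000000000000) := D_23 (nat_lit 210) (nat_lit 160) (nat_lit 209) (nat_lit 5) (nat_lit 7) (nat_lit 9) (nat_lit 7) (nat_lit 5) (nat_lit 9) (by decide +kernel)
theorem L11702 : W_23 (nat_lit 3) (nat_lit 0x100008000d000780004001000080000000000000000000000000000000) (nat_lit 0x0) (nat_lit 0x10000800060000000000010000000000000000000000000000000000000000) := T_23 (nat_lit 227) (nat_lit 244) (nat_lit 5) (nat_lit 7) (nat_lit 10) L11701 (by decide +kernel)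
theorem L11703 : W_23 (nat_lit 4) (nat_lit 0x8000d000780004001000080000000000000000000000000000000) (nat_lit 0x0) (nat_lit 0x30001800060000000000010000000000000000000000000000000000000000) := T_23 (nat_lit 228) (nat_lit 245) (nat_lit 6) (nat_lit 7) (nat_lit 14) L11702 (by decide +kernel)
theorem L11704 : W_23 (nat_lit 5) (nat_lit 0x8000d000780000001000080000000000000000000000000000000) (nat_lit 0x0) (nat_lit 0x30001800060000000000016000000000000000000000000000000000000000) := T_23 (nat_lit 158) (nat_lit 157) (nat_lit 0) (nat_lit 8) (nat_lit 10) L11703 (by decide +kernel)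
theorem L11705 : W_23 (nat_lit 6) (nat_lit 0x8000d000380000001000080000000000000000000000000000000) (nat_lit 0x0) (nat_lit 0x30001800060000800400016000000000000000000000000000000000000000) := T_23 (nat_lit 178) (nat_lit 191) (nat_lit 1) (nat_lit 8) (nat_lit 10) L11704 (by decide +kernel)
theorem L11706 : W_23 (nat_lit 7) (nat_lit 0x8000d000300000001000080000000000000000000000000000000) (nat_lit 0x0) (nat_lit 0x300018000600008004c0016000000000000000000000000000000000000000) := T_23 (nat_lit 175) (nat_lit 174) (nat_lit 3) (nat_lit 4) (nat_lit 10) L11705 (by decide +kernel)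
theorem L11707 : W_23 (nat_lit 4) (nat_lit 0x180008000d000780004001000080000000000000000000000000000000) (nat_lit 0x0) (nat_lit 0x40002600070000000000000000000000000000000000000000000000000000) := T_23 (nat_lit 229) (nat_lit 246) (nat_lit 7) (nat_lit 7) (nat_lit 10) L6207 (by decide +kernel)
theorem L11708 : W_23 (nat_lit 5) (nat_lit 0x100008000d000780004001000080000000000000000000000000000000) (nat_lit 0x0) (nat_lit 0x50002e00070000000000000000000000000000000000000000000000000000) := T_23 (nat_lit 227) (nat_lit 244) (nat_lit 5) (nat_lit 7) (nat_lit 10) L11707 (by decide +kernel)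
theorem L11709 : W_23 (nat_lit 6) (nat_lit 0x8000d000780004001000080000000000000000000000000000000) (nat_lit 0x0) (nat_lit 0x70003e00070000000000000000000000000000000000000000000000000000) := T_23 (nat_lit 228) (nat_lit 245) (nat_lit 6) (nat_lit 7) (nat_lit 14) L11708 (by decide +kernel)
theorem L11710 : W_23 (nat_lit 7) (nat_lit 0x8000d000780000001000080000000000000000000000000000000) (nat_lit 0x0) (nat_lit 0x70003e00070000000000006000000000000000000000000000000000000000) := T_23 (nat_lit 158) (nat_lit 157) (nat_lit 0) (nat_lit 8) (nat_lit 10) L11709 (by decide +kernel)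
theorem L11711 : W_23 (nat_lit 8) (nat_lit 0x8000d000380000001000080000000000000000000000000000000) (nat_lit 0x0) (nat_lit 0x70003e00070000800400006000000000000000000000000000000000000000) := T_23 (nat_lit 178) (nat_lit 191) (nat_lit 1) (nat_lit 8) (nat_lit 10) L11710 (by decide +kernel)
theorem L11712 : W_23 (nat_lit 9) (nat_lit 0x8000d000300000001000080000000000000000000000000000000) (nat_lit 0x0) (nat_lit 0x70003e000700008004c0006000000000000000000000000000000000000000) := T_23 (nat_lit 175) (nat_lit 174) (nat_lit 3) (nat_lit 4) (nat_lit 10) L11711 (by decide +kernel)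
theorem L11713 : W_23 (nat_lit 2) (nat_lit 0x100008000d000780014001000080000000000000000000000000000000) (nat_lit 0x0) (nat_lit 0x40002000100000000000000000000000000000000000000000000000000000) := D_23 (nat_lit 229) (nat_lit 212) (nat_lit 246) (nat_lit 7) (nat_lit 7) (nat_lit 9) (nat_lit 7) (nat_lit 7) (nat_lit 10) (by decide +kernel)
theorem L11714 : W_23 (nat_lit 3) (nat_lit 0x8000d000780014001000080000000000000000000000000000000) (nat_lit 0x0) (nat_lit 0x60003000100000000000000000000000000000000000000000000000000000) := T_23 (nat_lit 228) (nat_lit 245) (nat_lit 6) (nat_lit 7) (nat_lit 14) L11713 (by decide +kernel)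
theorem L11715 : W_23 (nat_lit 4) (nat_lit 0x8000d000780010001000080000000000000000000000000000000) (nat_lit 0x0) (nat_lit 0x60003000100000000000006000000000000000000000000000000000000000) := T_23 (nat_lit 158) (nat_lit 157) (nat_lit 0) (nat_lit 8) (nat_lit 10) L11714 (by decide +kernel)
theorem L11716 : W_23 (nat_lit 5) (nat_lit 0x8000d000380010001000080000000000000000000000000000000) (nat_lit 0x0) (nat_lit 0x60003000100000800400006000000000000000000000000000000000000000) := T_23 (nat_lit 178) (nat_lit 191) (nat_lit 1) (nat_lit 8) (nat_lit 10) L11715 (by decide +kernel)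
theorem L11717 : W_23 (nat_lit 6) (nat_lit 0x8000d000380000001000080000000000000000000000000000000) (nat_lit 0x0) (nat_lit 0x60003000100000800400016000800000000000000000000000000000000000) := T_23 (nat_lit 160) (nat_lit 143) (nat_lit 6) (nat_lit 7) (nat_lit 11) L11716 (by decide +kernel)
theorem L11718 : W_23 (nat_lit 7) (nat_lit 0x8000d000300000001000080000000000000000000000000000000) (nat_lit 0x0) (nat_lit 0x600030001000008004c0016000800000000000000000000000000000000000) := T_23 (nat_lit 175) (nat_lit 174) (nat_lit 3) (nat_lit 4) (nat_lit 10) L11717 (by decide +kernel)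
theorem L11719 : W_23 (nat_lit 10) (nat_lit 0xd000300000001000080000000000000000000000000000000) (nat_lit 0x0) (nat_lit 0x800070003e001f00008004c0016000800000000000000000000000000000000000) := Q_23 (nat_lit 211) (C_23 L11694 (C_23 L11700 (C_23 L11706 (C_23 L11712 (C_23 L11718 N_23))))) (by decide +kernel)
theorem L11720 : W_23 (nat_lit 6) (nat_lit 0xd000300000001000080000000000000000000000000000000) (nat_lit 0x0) (nat_lit 0x28003c0002c00c00010000800000000000000000000000000000000000) := Q_23 (nat_lit 193) (C_23 L11585 (C_23 L11682 (C_23 L11587 N_23))) (by decide +kernel)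
theorem L11721 : W_23 (nat_lit 2) (nat_lit 0xf000780014001000080000000000000000000000000000000) (nat_lit 0x0) (nat_lit 0x2000300000000000000000000000000000000000000000000000000000) := D_23 (nat_lit 212) (nat_lit 229) (nat_lit 213) (nat_lit 4) (nat_lit 8) (nat_lit 13) (nat_lit 3) (nat_lit 5) (nat_lit 11) (by decide +kernel)
theorem L11722 : W_23 (nat_lit 3) (nat_lit 0xd000780014001000080000000000000000000000000000000) (nat_lit 0x0) (nat_lit 0x2000300002000800000000000000000000000000000000000000000000) := T_23 (nat_lit 193) (nat_lit 179) (nat_lit 2) (nat_lit 5) (nat_lit 11) L11721 (by decide +kernel)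
theorem L11723 : W_23 (nat_lit 4) (nat_lit 0xd000780010001000080000000000000000000000000000000) (nat_lit 0x0) (nat_lit 0x2000300002000800006000000000000000000000000000000000000000) := T_23 (nat_lit 158) (nat_lit 157) (nat_lit 0) (nat_lit 8) (nat_lit 10) L11722 (by decide +kernel)
theorem L11724 : W_23 (nat_lit 5) (nat_lit 0xd000380010001000080000000000000000000000000000000) (nat_lit 0x0) (nat_lit 0x2000300002800c00006000000000000000000000000000000000000000) := T_23 (nat_lit 178) (nat_lit 191) (nat_lit 1) (nat_lit 8) (nat_lit 10) L11723 (by decide +kernel)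
theorem L11725 : W_23 (nat_lit 6) (nat_lit 0xd000300010001000080000000000000000000000000000000) (nat_lit 0x0) (nat_lit 0x2000300002800cc0006000000000000000000000000000000000000000) := T_23 (nat_lit 175) (nat_lit 174) (nat_lit 3) (nat_lit 4) (nat_lit 10) L11724 (by decide +kernel)
theorem L11726 : W_23 (nat_lit 7) (nat_lit 0xd000300000001000080000000000000000000000000000000) (nat_lit 0x0) (nat_lit 0x2000300002800cc0016000800000000000000000000000000000000000) := T_23 (nat_lit 160) (nat_lit 143) (nat_lit 6) (nat_lit 7) (nat_lit 11) L11725 (by decide +kernel)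
theorem L11727 : W_23 (nat_lit 3) (nat_lit 0xf000780000001000080000000000000000000000000000000) (nat_lit 0x0) (nat_lit 0x40000000000006000200010000000000000000000000000000000) := T_23 (nat_lit 158) (nat_lit 157) (nat_lit 0) (nat_lit 8) (nat_lit 10) L11050 (by decide +kernel)
theorem L11728 : W_23 (nat_lit 4) (nat_lit 0xf000700000001000080000000000000000000000000000000) (nat_lit 0x0) (nat_lit 0x400000000c0006000200010000000000000000000000000000000) := T_23 (nat_lit 175) (nat_lit 174) (nat_lit 3) (nat_lit 4) (nat_lit 10) L11727 (by decide +kernel)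
theorem L11729 : W_23 (nat_lit 5) (nat_lit 0xf000300000001000080000000000000000000000000000000) (nat_lit 0x0) (nat_lit 0x40000000cc0006000200010000000000000000000000000000000) := T_23 (nat_lit 178) (nat_lit 179) (nat_lit 2) (nat_lit 5) (nat_lit 11) L11728 (by decide +kernel)
theorem L11733 : W_23 (nat_lit 8) (nat_lit 0xd000300000001000080000000000000000000000000000000) (nat_lit 0x0) (nat_lit 0x58002c00370002000cc0016000a00010000000000000000000000000000000) := Q_23 (nat_lit 193) (C_23 L11682 (C_23 L11689 (C_23 L11629 (C_23 L11729 (C_23 L11732 N_23))))) (by decide +kernel)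
theorem L11734 : W_23 (nat_lit 11) (nat_lit 0xc000300000001000080000000000000000000000000000000) (nat_lit 0x0) (nat_lit 0x800078003e003f0003c00ce0016000a00010000000000000000000000000000000) := Q_23 (nat_lit 192) (C_23 L11601 (C_23 L11690 (C_23 L11719 (C_23 L11720 (C_23 L11726 (C_23 L11733 N_23)))))) (by decide +kernel)
theorem L11735 : W_23 (nat_lit 12) (nat_lit 0x4000300000001000080000000000000000000000000000000) (nat_lit 0x0) (nat_lit 0x800078003e007f003bc01ce0056000a00010000000000000000000000000000000) := Q_23 (nat_lit 195) (C_23 L10838 (C_23 L11684 (C_23 L5316 (C_23 L11734 N_23)))) (by decide +kernel)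
theorem L11736 : W_23 (nat_lit 2) (nat_lit 0x10000c000300010001000080000000000000000000000000000000) (nat_lit 0x0) (nat_lit 0x40002000080000000000000000000000000000000000000000000000000000) := D_23 (nat_lit 229) (nat_lit 246) (nat_lit 211) (nat_lit 4) (nat_lit 8) (nat_lit 14) (nat_lit 7) (nat_lit 7) (nat_lit 9) (by decide +kernel)
theorem L11737 : W_23 (nat_lit 3) (nat_lit 0x10000c000300000001000080000000000000000000000000000000) (nat_lit 0x0) (nat_lit 0x40002000080000000000010000800000000000000000000000000000000000) := T_23 (nat_lit 160) (nat_lit 143) (nat_lit 7) (nat_lit 7) (nat_lit 8) L11736 (by decide +kernel)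
theorem L11738 : W_23 (nat_lit 2) (nat_lit 0x10000f000300010001000080000000000000000000000000000000) (nat_lit 0x0) (nat_lit 0x80000c00000000000000000000000000000000000000000000000) := D_23 (nat_lit 191) (nat_lit 211) (nat_lit 190) (nat_lit 3) (nat_lit 4) (nat_lit 11) (nat_lit 2) (nat_lit 3) (nat_lit 11) (by decide +kernel)
theorem L11739 : W_23 (nat_lit 3) (nat_lit 0x10000e000300010001000080000000000000000000000000000000) (nat_lit 0x0) (nat_lit 0x280001c00000000000000000000000000000000000000000000000) := T_23 (nat_lit 192) (nat_lit 213) (nat_lit 3) (nat_lit 5) (nat_lit 11) L11738 (by decide +kernel)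
theorem L11740 : W_23 (nat_lit 4) (nat_lit 0x10000e000300000001000080000000000000000000000000000000) (nat_lit 0x0) (nat_lit 0x280001c00000010000800000000000000000000000000000000000) := T_23 (nat_lit 160) (nat_lit 143) (nat_lit 7) (nat_lit 7) (nat_lit 8) L11739 (by decide +kernel)
theorem L11741 : W_23 (nat_lit 2) (nat_lit 0x10002f800300000001800080000000000000000000000000000000) (nat_lit 0x0) (nat_lit 0x38000000000000000000000000000000000000000000000000000) := D_23 (nat_lit 208) (nat_lit 209) (nat_lit 207) (nat_lit 1) (nat_lit 8) (nat_lit 11) (nat_lit 1) (nat_lit 7) (nat_lit 11) (by decide +kernel)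
theorem L11742 : W_23 (nat_lit 3) (nat_lit 0x10002f000300000001800080000000000000000000000000000000) (nat_lit 0x0) (nat_lit 0x38000c00000000000000000000000000000000000000000000000) := T_23 (nat_lit 191) (nat_lit 190) (nat_lit 2) (nat_lit 3) (nat_lit 11) L11741 (by decide +kernel)
theorem L11743 : W_23 (nat_lit 4) (nat_lit 0x10002e000300000001800080000000000000000000000000000000) (nat_lit 0x0) (nat_lit 0x238001c00000000000000000000000000000000000000000000000) := T_23 (nat_lit 192) (nat_lit 213) (nat_lit 3) (nat_lit 5) (nat_lit 11) L11742 (by decide +kernel)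
theorem L11744 : W_23 (nat_lit 5) (nat_lit 0x10002e000300000001000080000000000000000000000000000000) (nat_lit 0x0) (nat_lit 0x238001c00000010000800000000000000000000000000000000000) := T_23 (nat_lit 143) (nat_lit 160) (nat_lit 7) (nat_lit 7) (nat_lit 8) L11743 (by decide +kernel)
theorem L11745 : W_23 (nat_lit 6) (nat_lit 0x10000e000300000001000080000000000000000000000000000000) (nat_lit 0x0) (nat_lit 0x238031c00000010000800000000000000000000000000000000000) := T_23 (nat_lit 197) (nat_lit 196) (nat_lit 0) (nat_lit 10) (nat_lit 11) L11744 (by decide +kernel)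
theorem L11746 : W_23 (nat_lit 3) (nat_lit 0x10000e000300000001000080000000000000000000000000000000) (nat_lit 0x0) (nat_lit 0x280001c00000000000000000000000000000000000000000000000) := T_23 (nat_lit 192) (nat_lit 213) (nat_lit 3) (nat_lit 5) (nat_lit 11) L11586 (by decide +kernel)
theorem L11747 : W_23 (nat_lit 2) (nat_lit 0x10001e000300010001000080000000000000000000000000000000) (nat_lit 0x0) (nat_lit 0x800060000000000000000000000000000000000000000000000000000) := D_23 (nat_lit 210) (nat_lit 227) (nat_lit 209) (nat_lit 6) (nat_lit 6) (nat_lit 13) (nat_lit 1) (nat_lit 9) (nat_lit 11) (by decide +kernel)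
theorem L11748 : W_23 (nat_lit 3) (nat_lit 0x10001e000300000001000080000000000000000000000000000000) (nat_lit 0x0) (nat_lit 0x800060000000000010000800000000000000000000000000000000000) := T_23 (nat_lit 160) (nat_lit 143) (nat_lit 7) (nat_lit 7) (nat_lit 8) L11747 (by decide +kernel)
theorem L11749 : W_23 (nat_lit 4) (nat_lit 0x10000e000300000001000080000000000000000000000000000000) (nat_lit 0x0) (nat_lit 0x800060030000000010000800000000000000000000000000000000000) := T_23 (nat_lit 196) (nat_lit 197) (nat_lit 0) (nat_lit 10) (nat_lit 11) L11748 (by decide +kernel)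
theorem L11750 : W_23 (nat_lit 7) (nat_lit 0x10000c000300000001000080000000000000000000000000000000) (nat_lit 0x0) (nat_lit 0x8002f8033c00000010000800000000000000000000000000000000000) := Q_23 (nat_lit 193) (C_23 L11740 (C_23 L11745 (C_23 L11746 (C_23 L11749 N_23)))) (by decide +kernel)
theorem L11751 : W_23 (nat_lit 2) (nat_lit 0x4000040016002f400300000001000080000000000000000000000000000000) (nat_lit 0x0) (nat_lit 0x10000800000000000000010000000000000000000000000000000000000000) := D_23 (nat_lit 227) (nat_lit 160) (nat_lit 244) (nat_lit 6) (nat_lit 6) (nat_lit 13) (nat_lit 6) (nat_lit 6) (nat_lit 14) (by decide +kernel)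
theorem L11752 : W_23 (nat_lit 3) (nat_lit 0x4000040012002f400300000001000080000000000000000000000000000000) (nat_lit 0x0) (nat_lit 0x10000800040000000000018000000000000000000000000000000000000000) := T_23 (nat_lit 210) (nat_lit 159) (nat_lit 5) (nat_lit 6) (nat_lit 9) L11751 (by decide +kernel)
theorem L11753 : W_23 (nat_lit 4) (nat_lit 0x4000000012002f400300000001000080000000000000000000000000000000) (nat_lit 0x0) (nat_lit 0x18000c00040000000000018000000000000000000000000000000000000000) := T_23 (nat_lit 226) (nat_lit 243) (nat_lit 6) (nat_lit 5) (nat_lit 14) L11752 (by decide +kernel)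
theorem L11754 : W_23 (nat_lit 5) (nat_lit 0x4000000010002f400300000001000080000000000000000000000000000000) (nat_lit 0x0) (nat_lit 0x18000c00070000000000018000000000000000000000000000000000000000) := T_23 (nat_lit 209) (nat_lit 208) (nat_lit 1) (nat_lit 8) (nat_lit 11) L11753 (by decide +kernel)
theorem L11755 : W_23 (nat_lit 6) (nat_lit 0x4000000010002f000300000001000080000000000000000000000000000000) (nat_lit 0x0) (nat_lit 0x18000c00070000c00000018000000000000000000000000000000000000000) := T_23 (nat_lit 190) (nat_lit 191) (nat_lit 2) (nat_lit 3) (nat_lit 11) L11754 (by decide +kernel)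
theorem L11756 : W_23 (nat_lit 7) (nat_lit 0x4000000010002e000300000001000080000000000000000000000000000000) (nat_lit 0x0) (nat_lit 0x18000c00270001c00000018000000000000000000000000000000000000000) := T_23 (nat_lit 192) (nat_lit 213) (nat_lit 3) (nat_lit 5) (nat_lit 11) L11755 (by decide +kernel)
theorem L11757 : W_23 (nat_lit 8) (nat_lit 0x4000000010000e000300000001000080000000000000000000000000000000) (nat_lit 0x0) (nat_lit 0x18000c00270031c00000018000000000000000000000000000000000000000) := T_23 (nat_lit 197) (nat_lit 196) (nat_lit 0) (nat_lit 10) (nat_lit 11) L11756 (by decide +kernel)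
theorem L11758 : W_23 (nat_lit 9) (nat_lit 0x10000e000300000001000080000000000000000000000000000000) (nat_lit 0x0) (nat_lit 0x58002c00270031c00000018000000000000000000000000000000000000000) := T_23 (nat_lit 246) (nat_lit 229) (nat_lit 4) (nat_lit 8) (nat_lit 14) L11757 (by decide +kernel)
theorem L11759 : W_23 (nat_lit 2) (nat_lit 0x12000f400300000001000080000000000000000000000000000000) (nat_lit 0x0) (nat_lit 0x40030000000000000000000000000000000000000000000000000) := D_23 (nat_lit 196) (nat_lit 197) (nat_lit 210) (nat_lit 0) (nat_lit 10) (nat_lit 11) (nat_lit 1) (nat_lit 9) (nat_lit 11) (by decide +kernel)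
theorem L11760 : W_23 (nat_lit 3) (nat_lit 0x10000f400300000001000080000000000000000000000000000000) (nat_lit 0x0) (nat_lit 0x70030000000000000000000000000000000000000000000000000) := T_23 (nat_lit 209) (nat_lit 208) (nat_lit 1) (nat_lit 8) (nat_lit 11) L11759 (by decide +kernel)
theorem L11761 : W_23 (nat_lit 4) (nat_lit 0x10000f000300000001000080000000000000000000000000000000) (nat_lit 0x0) (nat_lit 0x70030c00000000000000000000000000000000000000000000000) := T_23 (nat_lit 190) (nat_lit 191) (nat_lit 2) (nat_lit 3) (nat_lit 11) L11760 (by decide +kernel)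
theorem L11762 : W_23 (nat_lit 5) (nat_lit 0x10000e000300000001000080000000000000000000000000000000) (nat_lit 0x0) (nat_lit 0x270031c00000000000000000000000000000000000000000000000) := T_23 (nat_lit 192) (nat_lit 213) (nat_lit 3) (nat_lit 5) (nat_lit 11) L11761 (by decide +kernel)
theorem L11763 : W_23 (nat_lit 2) (nat_lit 0x4000000016000f400300010001000080000000000000000000000000000000) (nat_lit 0x0) (nat_lit 0x8000400000000000000008000000000000000000000000000000000000000) := D_23 (nat_lit 226) (nat_lit 243) (nat_lit 159) (nat_lit 6) (nat_lit 5) (nat_lit 14) (nat_lit 5) (nat_lit 6) (nat_lit 9) (by decide +kernel)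
theorem L11764 : W_23 (nat_lit 3) (nat_lit 0x4000000012000f400300010001000080000000000000000000000000000000) (nat_lit 0x0) (nat_lit 0x8000c00040000000000008000000000000000000000000000000000000000) := T_23 (nat_lit 210) (nat_lit 227) (nat_lit 6) (nat_lit 6) (nat_lit 13) L11763 (by decide +kernel)
theorem L11765 : W_23 (nat_lit 4) (nat_lit 0x4000000010000f400300010001000080000000000000000000000000000000) (nat_lit 0x0) (nat_lit 0x8000c00070000000000008000000000000000000000000000000000000000) := T_23 (nat_lit 209) (nat_lit 208) (nat_lit 1) (nat_lit 8) (nat_lit 11) L11764 (by decide +kernel)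
theorem L11766 : W_23 (nat_lit 5) (nat_lit 0x4000000010000f000300010001000080000000000000000000000000000000) (nat_lit 0x0) (nat_lit 0x8000c00070000c00000008000000000000000000000000000000000000000) := T_23 (nat_lit 190) (nat_lit 191) (nat_lit 2) (nat_lit 3) (nat_lit 11) L11765 (by decide +kernel)
theorem L11767 : W_23 (nat_lit 6) (nat_lit 0x4000000010000e000300010001000080000000000000000000000000000000) (nat_lit 0x0) (nat_lit 0x8000c00270001c00000008000000000000000000000000000000000000000) := T_23 (nat_lit 192) (nat_lit 213) (nat_lit 3) (nat_lit 5) (nat_lit 11) L11766 (by decide +kernel)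
theorem L11768 : W_23 (nat_lit 7) (nat_lit 0x4000000010000e000300000001000080000000000000000000000000000000) (nat_lit 0x0) (nat_lit 0x8000c00270001c00000018000800000000000000000000000000000000000) := T_23 (nat_lit 160) (nat_lit 143) (nat_lit 7) (nat_lit 7) (nat_lit 8) L11767 (by decide +kernel)
theorem L11769 : W_23 (nat_lit 8) (nat_lit 0x10000e000300000001000080000000000000000000000000000000) (nat_lit 0x0) (nat_lit 0x48002c00270001c00000018000800000000000000000000000000000000000) := T_23 (nat_lit 246) (nat_lit 229) (nat_lit 4) (nat_lit 8) (nat_lit 14) L11768 (by decide +kernel)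
theorem L11770 : W_23 (nat_lit 2) (nat_lit 0x380030002e000300010001000080000000000000000000000000000000) (nat_lit 0x0) (nat_lit 0x4000c00000000000000000000000000000000000000000000000000000) := D_23 (nat_lit 214) (nat_lit 215) (nat_lit 230) (nat_lit 1) (nat_lit 11) (nat_lit 12) (nat_lit 2) (nat_lit 6) (nat_lit 13) (by decide +kernel)
theorem L11771 : W_23 (nat_lit 3) (nat_lit 0x280030002e000300010001000080000000000000000000000000000000) (nat_lit 0x0) (nat_lit 0x5400c00000000000000000000000000000000000000000000000000000) := T_23 (nat_lit 228) (nat_lit 226) (nat_lit 2) (nat_lit 5) (nat_lit 13) L11770 (by decide +kernel)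
theorem L11772 : W_23 (nat_lit 4) (nat_lit 0x280010002e000300010001000080000000000000000000000000000000) (nat_lit 0x0) (nat_lit 0x5400e00001000000000000000000000000000000000000000000000000) := T_23 (nat_lit 213) (nat_lit 192) (nat_lit 3) (nat_lit 5) (nat_lit 11) L11771 (by decide +kernel)
theorem L11773 : W_23 (nat_lit 5) (nat_lit 0x200010002e000300010001000080000000000000000000000000000000) (nat_lit 0x0) (nat_lit 0x5c00e40001000000000000000000000000000000000000000000000000) := T_23 (nat_lit 227) (nat_lit 210) (nat_lit 6) (nat_lit 6) (nat_lit 13) L11772 (by decide +kernel)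
theorem L11774 : W_23 (nat_lit 6) (nat_lit 0x10002e000300010001000080000000000000000000000000000000) (nat_lit 0x0) (nat_lit 0x40007c00e40001000000000000000000000000000000000000000000000000) := T_23 (nat_lit 229) (nat_lit 246) (nat_lit 4) (nat_lit 8) (nat_lit 14) L11773 (by decide +kernel)
theorem L11775 : W_23 (nat_lit 7) (nat_lit 0x10000e000300010001000080000000000000000000000000000000) (nat_lit 0x0) (nat_lit 0x40007c00e40031000000000000000000000000000000000000000000000000) := T_23 (nat_lit 197) (nat_lit 196) (nat_lit 0) (nat_lit 10) (nat_lit 11) L11774 (by decide +kernel)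
theorem L11776 : W_23 (nat_lit 8) (nat_lit 0x10000e000300000001000080000000000000000000000000000000) (nat_lit 0x0) (nat_lit 0x40007c00e40031000000010000800000000000000000000000000000000000) := T_23 (nat_lit 160) (nat_lit 143) (nat_lit 7) (nat_lit 7) (nat_lit 8) L11775 (by decide +kernel)
theorem L11777 : W_23 (nat_lit 10) (nat_lit 0x10000c000300000001000080000000000000000000000000000000) (nat_lit 0x0) (nat_lit 0x58007c00e78033c00000018000800000000000000000000000000000000000) := Q_23 (nat_lit 193) (C_23 L11749 (C_23 L11758 (C_23 L11762 (C_23 L11769 (C_23 L11745 (C_23 L11776 N_23)))))) (by decide +kernel)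
theorem L11778 : W_23 (nat_lit 2) (nat_lit 0x300018002c000300000001000080000000000000000000000000000000) (nat_lit 0x0) (nat_lit 0x400020000000000002000000000000000000000000000000000000000000000000) := D_23 (nat_lit 245) (nat_lit 193) (nat_lit 262) (nat_lit 4) (nat_lit 7) (nat_lit 14) (nat_lit 6) (nat_lit 7) (nat_lit 15) (by decide +kernel)
theorem L11779 : W_23 (nat_lit 3) (nat_lit 0x200018002c000300000001000080000000000000000000000000000000) (nat_lit 0x0) (nat_lit 0x400020001000000002000000008000000000000000000000000000000000000000) := T_23 (nat_lit 228) (nat_lit 159) (nat_lit 4) (nat_lit 7) (nat_lit 13) L11778 (by decide +kernel)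
theorem L11780 : W_23 (nat_lit 4) (nat_lit 0x200010002c000300000001000080000000000000000000000000000000) (nat_lit 0x0) (nat_lit 0x400020001000080002000000018000000000000000000000000000000000000000) := T_23 (nat_lit 211) (nat_lit 160) (nat_lit 7) (nat_lit 7) (nat_lit 9) L11779 (by decide +kernel)
theorem L11781 : W_23 (nat_lit 5) (nat_lit 0x200010000c000300000001000080000000000000000000000000000000) (nat_lit 0x0) (nat_lit 0x400020001000080032000000018000000000000000000000000000000000000000) := T_23 (nat_lit 197) (nat_lit 196) (nat_lit 0) (nat_lit 10) (nat_lit 11) L11780 (by decide +kernel)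
theorem L11782 : W_23 (nat_lit 6) (nat_lit 0x10000c000300000001000080000000000000000000000000000000) (nat_lit 0x0) (nat_lit 0x400060003000080032000000018000000000000000000000000000000000000000) := T_23 (nat_lit 229) (nat_lit 246) (nat_lit 4) (nat_lit 8) (nat_lit 14) L11781 (by decide +kernel)
theorem L11783 : W_23 (nat_lit 2) (nat_lit 0x4000100078002d000300000001000080000000000000000000000000000000) (nat_lit 0x0) (nat_lit 0xc00020000000000000000000000000000000000000000000000000000000000000) := D_23 (nat_lit 245) (nat_lit 263) (nat_lit 262) (nat_lit 7) (nat_lit 7) (nat_lit 11) (nat_lit 6) (nat_lit 7) (nat_lit 15) (by decide +kernel)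
theorem L11784 : W_23 (nat_lit 3) (nat_lit 0x4000000078002d000300000001000080000000000000000000000000000000) (nat_lit 0x0) (nat_lit 0xc00020001800000000000000000000000000000000000000000000000000000000) := T_23 (nat_lit 228) (nat_lit 227) (nat_lit 1) (nat_lit 10) (nat_lit 12) L11783 (by decide +kernel)
theorem L11785 : W_23 (nat_lit 4) (nat_lit 0x4000000070002d000300000001000080000000000000000000000000000000) (nat_lit 0x0) (nat_lit 0xc00020001800080040000000000000000000000000000000000000000000000000) := T_23 (nat_lit 211) (nat_lit 198) (nat_lit 2) (nat_lit 7) (nat_lit 12) L11784 (by decide +kernel)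
theorem L11786 : W_23 (nat_lit 5) (nat_lit 0x70002d000300000001000080000000000000000000000000000000) (nat_lit 0x0) (nat_lit 0xc00060003800080040000000000000000000000000000000000000000000000000) := T_23 (nat_lit 246) (nat_lit 229) (nat_lit 4) (nat_lit 8) (nat_lit 14) L11785 (by decide +kernel)
theorem L11787 : W_23 (nat_lit 6) (nat_lit 0x30002d000300000001000080000000000000000000000000000000) (nat_lit 0x0) (nat_lit 0xc00060003800c80040000000000000000000000000000000000000000000000000) := T_23 (nat_lit 214) (nat_lit 215) (nat_lit 0) (nat_lit 11) (nat_lit 12) L11786 (by decide +kernel)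
theorem L11788 : W_23 (nat_lit 7) (nat_lit 0x30002c000300000001000080000000000000000000000000000000) (nat_lit 0x0) (nat_lit 0xc00060003800c80043000000000000000000000000000000000000000000000000) := T_23 (nat_lit 192) (nat_lit 193) (nat_lit 3) (nat_lit 5) (nat_lit 11) L11787 (by decide +kernel)
theorem L11789 : W_23 (nat_lit 8) (nat_lit 0x30000c000300000001000080000000000000000000000000000000) (nat_lit 0x0) (nat_lit 0xc00060003800c80073000000000000000000000000000000000000000000000000) := T_23 (nat_lit 197) (nat_lit 196) (nat_lit 0) (nat_lit 10) (nat_lit 11) L11788 (by decide +kernel)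
theorem L11790 : W_23 (nat_lit 2) (nat_lit 0x4000000078002c000300000001000080000000000000000000000000000000) (nat_lit 0x0) (nat_lit 0x1800000000000000008000000000000000000000000000000000000000) := D_23 (nat_lit 228) (nat_lit 227) (nat_lit 159) (nat_lit 1) (nat_lit 10) (nat_lit 12) (nat_lit 4) (nat_lit 7) (nat_lit 13) (by decide +kernel)
theorem L11791 : W_23 (nat_lit 3) (nat_lit 0x4000000070002c000300000001000080000000000000000000000000000000) (nat_lit 0x0) (nat_lit 0x1800080040000000008000000000000000000000000000000000000000) := T_23 (nat_lit 211) (nat_lit 198) (nat_lit 2) (nat_lit 7) (nat_lit 12) L11790 (by decide +kernel)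
theorem L11792 : W_23 (nat_lit 4) (nat_lit 0x70002c000300000001000080000000000000000000000000000000) (nat_lit 0x0) (nat_lit 0x40003800080040000000008000000000000000000000000000000000000000) := T_23 (nat_lit 246) (nat_lit 229) (nat_lit 4) (nat_lit 8) (nat_lit 14) L11791 (by decide +kernel)
theorem L11793 : W_23 (nat_lit 5) (nat_lit 0x70000c000300000001000080000000000000000000000000000000) (nat_lit 0x0) (nat_lit 0x40003800080070000000008000000000000000000000000000000000000000) := T_23 (nat_lit 197) (nat_lit 196) (nat_lit 0) (nat_lit 10) (nat_lit 11) L11792 (by decide +kernel)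
theorem L11794 : W_23 (nat_lit 6) (nat_lit 0x30000c000300000001000080000000000000000000000000000000) (nat_lit 0x0) (nat_lit 0x40003800c80070000000008000000000000000000000000000000000000000) := T_23 (nat_lit 214) (nat_lit 215) (nat_lit 0) (nat_lit 11) (nat_lit 12) L11793 (by decide +kernel)
theorem L11795 : W_23 (nat_lit 2) (nat_lit 0x30001c000300000001000080000000000000000000000000000000) (nat_lit 0x0) (nat_lit 0x400003000000000000000000000000000000000000000000000000) := D_23 (nat_lit 193) (nat_lit 192) (nat_lit 214) (nat_lit 3) (nat_lit 5) (nat_lit 11) (nat_lit 3) (nat_lit 6) (nat_lit 11) (by decide +kernel)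
theorem L11796 : W_23 (nat_lit 3) (nat_lit 0x30000c000300000001000080000000000000000000000000000000) (nat_lit 0x0) (nat_lit 0x400033000000000000000000000000000000000000000000000000) := T_23 (nat_lit 196) (nat_lit 197) (nat_lit 0) (nat_lit 10) (nat_lit 11) L11795 (by decide +kernel)
theorem L11797 : W_23 (nat_lit 2) (nat_lit 0x4000000070000c000300000001000080000000000000000000000000000000) (nat_lit 0x0) (nat_lit 0x80003000000000000000000000000000000000000000000000000) := D_23 (nat_lit 193) (nat_lit 192) (nat_lit 211) (nat_lit 3) (nat_lit 5) (nat_lit 11) (nat_lit 0) (nat_lit 10) (nat_lit 12) (by decide +kernel)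
theorem L11798 : W_23 (nat_lit 3) (nat_lit 0x4000000030000c000300000001000080000000000000000000000000000000) (nat_lit 0x0) (nat_lit 0xc80003000000000000000000000000000000000000000000000000) := T_23 (nat_lit 214) (nat_lit 215) (nat_lit 0) (nat_lit 11) (nat_lit 12) L11797 (by decide +kernel)
theorem L11799 : W_23 (nat_lit 4) (nat_lit 0x30000c000300000001000080000000000000000000000000000000) (nat_lit 0x0) (nat_lit 0x40002000c80003000000000000000000000000000000000000000000000000) := T_23 (nat_lit 246) (nat_lit 229) (nat_lit 4) (nat_lit 8) (nat_lit 14) L11798 (by decide +kernel)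
theorem L11800 : W_23 (nat_lit 2) (nat_lit 0x4000080034001e000b00000001000080000000000000000000000000000000) (nat_lit 0x0) (nat_lit 0x8000400080000000000000000000000000000000000000000000000000000) := D_23 (nat_lit 226) (nat_lit 243) (nat_lit 211) (nat_lit 5) (nat_lit 6) (nat_lit 10) (nat_lit 1) (nat_lit 9) (nat_lit 12) (by decide +kernel)
theorem L11801 : W_23 (nat_lit 3) (nat_lit 0x4000000034001e000b00000001000080000000000000000000000000000000) (nat_lit 0x0) (nat_lit 0x18000c00080000000000000000000000000000000000000000000000000000) := T_23 (nat_lit 227) (nat_lit 244) (nat_lit 6) (nat_lit 6) (nat_lit 14) L11800 (by decide +kernel)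
theorem L11802 : W_23 (nat_lit 4) (nat_lit 0x4000000034001e000300000001000080000000000000000000000000000000) (nat_lit 0x0) (nat_lit 0x18000c00080000001800000000000000000000000000000000000000000000) := T_23 (nat_lit 179) (nat_lit 180) (nat_lit 2) (nat_lit 6) (nat_lit 11) L11801 (by decide +kernel)
theorem L11803 : W_23 (nat_lit 5) (nat_lit 0x4000000030001e000300000001000080000000000000000000000000000000) (nat_lit 0x0) (nat_lit 0x18000c000e0000001800000000000000000000000000000000000000000000) := T_23 (nat_lit 210) (nat_lit 209) (nat_lit 1) (nat_lit 9) (nat_lit 11) L11802 (by decide +kernel)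
theorem L11804 : W_23 (nat_lit 6) (nat_lit 0x4000000030000e000300000001000080000000000000000000000000000000) (nat_lit 0x0) (nat_lit 0x18000c000e0030001800000000000000000000000000000000000000000000) := T_23 (nat_lit 196) (nat_lit 197) (nat_lit 0) (nat_lit 10) (nat_lit 11) L11803 (by decide +kernel)
theorem L11805 : W_23 (nat_lit 7) (nat_lit 0x30000e000300000001000080000000000000000000000000000000) (nat_lit 0x0) (nat_lit 0x58002c000e0030001800000000000000000000000000000000000000000000) := T_23 (nat_lit 246) (nat_lit 229) (nat_lit 4) (nat_lit 8) (nat_lit 14) L11804 (by decide +kernel)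
theorem L11806 : W_23 (nat_lit 8) (nat_lit 0x30000c000300000001000080000000000000000000000000000000) (nat_lit 0x0) (nat_lit 0x58002c000e0033001800000000000000000000000000000000000000000000) := T_23 (nat_lit 193) (nat_lit 192) (nat_lit 3) (nat_lit 5) (nat_lit 11) L11805 (by decide +kernel)
theorem L11807 : W_23 (nat_lit 9) (nat_lit 0x10000c000300000001000080000000000000000000000000000000) (nat_lit 0x0) (nat_lit 0xc00078003c00ee0073001800008000000000000000000000000000000000000000) := Q_23 (nat_lit 213) (C_23 L11789 (C_23 L11794 (C_23 L11796 (C_23 L11799 (C_23 L11806 N_23))))) (by decide +kernel)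
theorem L11808 : W_23 (nat_lit 11) (nat_lit 0xc000300000001000080000000000000000000000000000000) (nat_lit 0x0) (nat_lit 0xc00078007c00ff8073c01800018000800000000000000000000000000000000000) := Q_23 (nat_lit 212) (C_23 L11737 (C_23 L11750 (C_23 L11777 (C_23 L11782 (C_23 L11807 N_23))))) (by decide +kernel)
theorem L11809 : W_23 (nat_lit 6) (nat_lit 0x180008002c000340000001000080000000000000000000000000000000) (nat_lit 0x0) (nat_lit 0xc00060002600740000000000000000000000000000000000000000000000000000) := T_23 (nat_lit 246) (nat_lit 229) (nat_lit 7) (nat_lit 7) (nat_lit 10) L7927 (by decide +kernel)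
theorem L11810 : W_23 (nat_lit 7) (nat_lit 0x100008002c000340000001000080000000000000000000000000000000) (nat_lit 0x0) (nat_lit 0xc00070002e00740000000000000000000000000000000000000000000000000000) := T_23 (nat_lit 227) (nat_lit 244) (nat_lit 5) (nat_lit 7) (nat_lit 10) L11809 (by decide +kernel)
theorem L11811 : W_23 (nat_lit 8) (nat_lit 0x8002c000340000001000080000000000000000000000000000000) (nat_lit 0x0) (nat_lit 0xc00070003e00740000000000008000000000000000000000000000000000000000) := T_23 (nat_lit 228) (nat_lit 159) (nat_lit 4) (nat_lit 7) (nat_lit 13) L11810 (by decide +kernel)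
theorem L11812 : W_23 (nat_lit 9) (nat_lit 0x8002c000300000001000080000000000000000000000000000000) (nat_lit 0x0) (nat_lit 0xc00070003e007400000000c0008000000000000000000000000000000000000000) := T_23 (nat_lit 174) (nat_lit 175) (nat_lit 3) (nat_lit 4) (nat_lit 10) L11811 (by decide +kernel)
theorem L11813 : W_23 (nat_lit 10) (nat_lit 0x8000c000300000001000080000000000000000000000000000000) (nat_lit 0x0) (nat_lit 0xc00070003e007400300000c0008000000000000000000000000000000000000000) := T_23 (nat_lit 197) (nat_lit 196) (nat_lit 0) (nat_lit 10) (nat_lit 11) L11812 (by decide +kernel)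
theorem L11814 : W_23 (nat_lit 2) (nat_lit 0x20000d000c000300010001000080000000000000000000000000000000) (nat_lit 0x0) (nat_lit 0x40001000000000000000008000000000000000000000000000000000000000) := D_23 (nat_lit 228) (nat_lit 159) (nat_lit 246) (nat_lit 4) (nat_lit 7) (nat_lit 13) (nat_lit 7) (nat_lit 7) (nat_lit 10) (by decide +kernel)
theorem L11815 : W_23 (nat_lit 3) (nat_lit 0xd000c000300010001000080000000000000000000000000000000) (nat_lit 0x0) (nat_lit 0x40003000100000000000008000000000000000000000000000000000000000) := T_23 (nat_lit 229) (nat_lit 212) (nat_lit 7) (nat_lit 7) (nat_lit 9) L11814 (by decide +kernel)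
theorem L11816 : W_23 (nat_lit 4) (nat_lit 0xc000c000300010001000080000000000000000000000000000000) (nat_lit 0x0) (nat_lit 0x40003000130000000000008000000000000000000000000000000000000000) := T_23 (nat_lit 208) (nat_lit 209) (nat_lit 2) (nat_lit 4) (nat_lit 12) L11815 (by decide +kernel)
theorem L11817 : W_23 (nat_lit 5) (nat_lit 0x8000c000300010001000080000000000000000000000000000000) (nat_lit 0x0) (nat_lit 0x40003800170000000000008000000000000000000000000000000000000000) := T_23 (nat_lit 210) (nat_lit 227) (nat_lit 5) (nat_lit 7) (nat_lit 9) L11816 (by decide +kernel)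
theorem L11818 : W_23 (nat_lit 6) (nat_lit 0x8000c000300000001000080000000000000000000000000000000) (nat_lit 0x0) (nat_lit 0x40003800170000000000018000800000000000000000000000000000000000) := T_23 (nat_lit 160) (nat_lit 143) (nat_lit 6) (nat_lit 7) (nat_lit 11) L11817 (by decide +kernel)
theorem L11824 : W_23 (nat_lit 2) (nat_lit 0x200008002c000300010001000080000000000000000000000000000000) (nat_lit 0x0) (nat_lit 0x40001000000000000000008000000000000000000000000000000000000000) := D_23 (nat_lit 228) (nat_lit 159) (nat_lit 246) (nat_lit 4) (nat_lit 7) (nat_lit 13) (nat_lit 7) (nat_lit 7) (nat_lit 10) (by decide +kernel)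
theorem L11825 : W_23 (nat_lit 3) (nat_lit 0x8002c000300010001000080000000000000000000000000000000) (nat_lit 0x0) (nat_lit 0x40003000100000000000008000000000000000000000000000000000000000) := T_23 (nat_lit 229) (nat_lit 212) (nat_lit 7) (nat_lit 7) (nat_lit 9) L11824 (by decide +kernel)
theorem L11826 : W_23 (nat_lit 4) (nat_lit 0x8000c000300010001000080000000000000000000000000000000) (nat_lit 0x0) (nat_lit 0x40003000100030000000008000000000000000000000000000000000000000) := T_23 (nat_lit 197) (nat_lit 196) (nat_lit 0) (nat_lit 10) (nat_lit 11) L11825 (by decide +kernel)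
theorem L11827 : W_23 (nat_lit 5) (nat_lit 0x8000c000300000001000080000000000000000000000000000000) (nat_lit 0x0) (nat_lit 0x40003000100030000000018000800000000000000000000000000000000000) := T_23 (nat_lit 160) (nat_lit 143) (nat_lit 6) (nat_lit 7) (nat_lit 11) L11826 (by decide +kernel)
theorem L11828 : W_23 (nat_lit 11) (nat_lit 0xc000300000001000080000000000000000000000000000000) (nat_lit 0x0) (nat_lit 0xc00070003e007f00300000c0018000800000000000000000000000000000000000) := Q_23 (nat_lit 211) (C_23 L11813 (C_23 L5382 (C_23 L11818 (C_23 L11823 (C_23 L11827 N_23))))) (by decide +kernel)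
theorem L11829 : W_23 (nat_lit 5) (nat_lit 0xe000300000001000080000000000000000000000000000000) (nat_lit 0x0) (nat_lit 0x80004003b0001c000e0008000000000000000000000000000000000000000) := Q_23 (nat_lit 192) (C_23 L11603 (C_23 L11587 (C_23 L11632 N_23))) (by decide +kernel)
theorem L11831 : W_23 (nat_lit 2) (nat_lit 0x100008000e000340010001000080000000000000000000000000000000) (nat_lit 0x0) (nat_lit 0x10000800040000000000000000000000000000000000000000000000000000) := D_23 (nat_lit 227) (nat_lit 210) (nat_lit 244) (nat_lit 6) (nat_lit 6) (nat_lit 13) (nat_lit 5) (nat_lit 7) (nat_lit 10) (by decide +kernel)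
theorem L11832 : W_23 (nat_lit 3) (nat_lit 0x100008000e000340000001000080000000000000000000000000000000) (nat_lit 0x0) (nat_lit 0x10000800040000000000010000800000000000000000000000000000000000) := T_23 (nat_lit 160) (nat_lit 143) (nat_lit 6) (nat_lit 7) (nat_lit 11) L11831 (by decide +kernel)
theorem L11833 : W_23 (nat_lit 4) (nat_lit 0x8000e000340000001000080000000000000000000000000000000) (nat_lit 0x0) (nat_lit 0x30001800040000000000010000800000000000000000000000000000000000) := T_23 (nat_lit 228) (nat_lit 245) (nat_lit 4) (nat_lit 7) (nat_lit 14) L11832 (by decide +kernel)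
theorem L11834 : W_23 (nat_lit 5) (nat_lit 0x8000e000300000001000080000000000000000000000000000000) (nat_lit 0x0) (nat_lit 0x300018000400000000c0010000800000000000000000000000000000000000) := T_23 (nat_lit 174) (nat_lit 175) (nat_lit 3) (nat_lit 4) (nat_lit 10) L11833 (by decide +kernel)
theorem L11835 : W_23 (nat_lit 2) (nat_lit 0x1e000e000300010001000080000000000000000000000000000000) (nat_lit 0x0) (nat_lit 0x600000000000000008000000000000000000000000000000000000000) := D_23 (nat_lit 226) (nat_lit 225) (nat_lit 159) (nat_lit 1) (nat_lit 8) (nat_lit 12) (nat_lit 5) (nat_lit 6) (nat_lit 9) (by decide +kernel)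
theorem L11836 : W_23 (nat_lit 3) (nat_lit 0xe000e000300010001000080000000000000000000000000000000) (nat_lit 0x0) (nat_lit 0x2600100000000000008000000000000000000000000000000000000000) := T_23 (nat_lit 212) (nat_lit 229) (nat_lit 7) (nat_lit 7) (nat_lit 9) L11835 (by decide +kernel)
theorem L11837 : W_23 (nat_lit 4) (nat_lit 0xc000e000300010001000080000000000000000000000000000000) (nat_lit 0x0) (nat_lit 0x2600130000000000008000000000000000000000000000000000000000) := T_23 (nat_lit 209) (nat_lit 208) (nat_lit 2) (nat_lit 4) (nat_lit 12) L11836 (by decide +kernel)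
theorem L11838 : W_23 (nat_lit 5) (nat_lit 0x8000e000300010001000080000000000000000000000000000000) (nat_lit 0x0) (nat_lit 0x2e00170000000000008000000000000000000000000000000000000000) := T_23 (nat_lit 210) (nat_lit 227) (nat_lit 6) (nat_lit 6) (nat_lit 13) L11837 (by decide +kernel)
theorem L11839 : W_23 (nat_lit 6) (nat_lit 0x8000e000300000001000080000000000000000000000000000000) (nat_lit 0x0) (nat_lit 0x2e00170000000000018000800000000000000000000000000000000000) := T_23 (nat_lit 160) (nat_lit 143) (nat_lit 6) (nat_lit 7) (nat_lit 11) L11838 (by decide +kernel)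
theorem L11840 : W_23 (nat_lit 7) (nat_lit 0xe000300000001000080000000000000000000000000000000) (nat_lit 0x0) (nat_lit 0x30003e001f00000000c0018000800000000000000000000000000000000000) := Q_23 (nat_lit 211) (C_23 L11830 (C_23 L11834 (C_23 L11839 N_23))) (by decide +kernel)
theorem L11841 : W_23 (nat_lit 2) (nat_lit 0x4000080012000f400380010001000080000000000000000000000000000000) (nat_lit 0x0) (nat_lit 0x18000400000000000000000000000000000000000000000000000000000000) := D_23 (nat_lit 226) (nat_lit 243) (nat_lit 244) (nat_lit 6) (nat_lit 5) (nat_lit 14) (nat_lit 7) (nat_lit 5) (nat_lit 10) (by decide +kernel)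
theorem L11842 : W_23 (nat_lit 3) (nat_lit 0x4000080012000f400300010001000080000000000000000000000000000000) (nat_lit 0x0) (nat_lit 0x180004000000000000c0000000000000000000000000000000000000000000) := T_23 (nat_lit 175) (nat_lit 174) (nat_lit 3) (nat_lit 4) (nat_lit 10) L11841 (by decide +kernel)
theorem L11843 : W_23 (nat_lit 4) (nat_lit 0x4000080010000f400300010001000080000000000000000000000000000000) (nat_lit 0x0) (nat_lit 0x180004000300000000c0000000000000000000000000000000000000000000) := T_23 (nat_lit 209) (nat_lit 208) (nat_lit 1) (nat_lit 8) (nat_lit 11) L11842 (by decide +kernel)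
theorem L11844 : W_23 (nat_lit 5) (nat_lit 0x4000080010000f000300010001000080000000000000000000000000000000) (nat_lit 0x0) (nat_lit 0x18000400030000c000c0000000000000000000000000000000000000000000) := T_23 (nat_lit 190) (nat_lit 191) (nat_lit 2) (nat_lit 3) (nat_lit 11) L11843 (by decide +kernel)
theorem L11845 : W_23 (nat_lit 6) (nat_lit 0x4000080010000e000300010001000080000000000000000000000000000000) (nat_lit 0x0) (nat_lit 0x18000400230001c000c0000000000000000000000000000000000000000000) := T_23 (nat_lit 192) (nat_lit 213) (nat_lit 3) (nat_lit 5) (nat_lit 11) L11844 (by decide +kernel)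
theorem L11846 : W_23 (nat_lit 7) (nat_lit 0x80010000e000300010001000080000000000000000000000000000000) (nat_lit 0x0) (nat_lit 0x58002400230001c000c0000000000000000000000000000000000000000000) := T_23 (nat_lit 246) (nat_lit 229) (nat_lit 4) (nat_lit 8) (nat_lit 14) L11845 (by decide +kernel)
theorem L11847 : W_23 (nat_lit 8) (nat_lit 0x10000e000300010001000080000000000000000000000000000000) (nat_lit 0x0) (nat_lit 0x58002c00270001c000c0000000000000000000000000000000000000000000) := T_23 (nat_lit 227) (nat_lit 210) (nat_lit 6) (nat_lit 6) (nat_lit 13) L11846 (by decide +kernel)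
theorem L11848 : W_23 (nat_lit 9) (nat_lit 0x10000e000300000001000080000000000000000000000000000000) (nat_lit 0x0) (nat_lit 0x58002c00270001c000c0010000800000000000000000000000000000000000) := T_23 (nat_lit 160) (nat_lit 143) (nat_lit 7) (nat_lit 7) (nat_lit 8) L11847 (by decide +kernel)
theorem L11849 : W_23 (nat_lit 2) (nat_lit 0x10000e000340010001000080000000000000000000000000000000) (nat_lit 0x0) (nat_lit 0x40002000080000000000000000000000000000000000000000000000000000) := D_23 (nat_lit 229) (nat_lit 211) (nat_lit 246) (nat_lit 7) (nat_lit 7) (nat_lit 9) (nat_lit 4) (nat_lit 8) (nat_lit 14) (by decide +kernel)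
theorem L11850 : W_23 (nat_lit 3) (nat_lit 0x10000e000340000001000080000000000000000000000000000000) (nat_lit 0x0) (nat_lit 0x40002000080000000000010000800000000000000000000000000000000000) := T_23 (nat_lit 160) (nat_lit 143) (nat_lit 7) (nat_lit 7) (nat_lit 8) L11849 (by decide +kernel)
theorem L11851 : W_23 (nat_lit 4) (nat_lit 0x10000e000300000001000080000000000000000000000000000000) (nat_lit 0x0) (nat_lit 0x400020000800000000c0010000800000000000000000000000000000000000) := T_23 (nat_lit 174) (nat_lit 175) (nat_lit 3) (nat_lit 4) (nat_lit 10) L11850 (by decide +kernel)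
theorem L11852 : W_23 (nat_lit 10) (nat_lit 0xe000300000001000080000000000000000000000000000000) (nat_lit 0x0) (nat_lit 0x58002c003f0001c000c0010000800000000000000000000000000000000000) := Q_23 (nat_lit 212) (C_23 L11746 (C_23 L11848 (C_23 L11851 N_23))) (by decide +kernel)
theorem L11853 : W_23 (nat_lit 2) (nat_lit 0x40012000f400300010001000080000000000000000000000000000000) (nat_lit 0x0) (nat_lit 0x800040000000000008000000000000000000000000000000000000000) := D_23 (nat_lit 210) (nat_lit 159) (nat_lit 227) (nat_lit 5) (nat_lit 6) (nat_lit 9) (nat_lit 6) (nat_lit 6) (nat_lit 13) (by decide +kernel)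
theorem L11854 : W_23 (nat_lit 3) (nat_lit 0x40012000f400300000001000080000000000000000000000000000000) (nat_lit 0x0) (nat_lit 0x800040000000000018000800000000000000000000000000000000000) := T_23 (nat_lit 160) (nat_lit 143) (nat_lit 7) (nat_lit 7) (nat_lit 8) L11853 (by decide +kernel)
theorem L11855 : W_23 (nat_lit 4) (nat_lit 0x12000f400300000001000080000000000000000000000000000000) (nat_lit 0x0) (nat_lit 0x8000c00040000000000018000800000000000000000000000000000000000) := T_23 (nat_lit 226) (nat_lit 243) (nat_lit 6) (nat_lit 5) (nat_lit 14) L11854 (by decide +kernel)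
theorem L11856 : W_23 (nat_lit 5) (nat_lit 0x2000f400300000001000080000000000000000000000000000000) (nat_lit 0x0) (nat_lit 0x8000c00340000000000018000800000000000000000000000000000000000) := T_23 (nat_lit 212) (nat_lit 213) (nat_lit 3) (nat_lit 5) (nat_lit 11) L11855 (by decide +kernel)
theorem L11857 : W_23 (nat_lit 6) (nat_lit 0xf400300000001000080000000000000000000000000000000) (nat_lit 0x0) (nat_lit 0x8000c00370000000000018000800000000000000000000000000000000000) := T_23 (nat_lit 209) (nat_lit 208) (nat_lit 1) (nat_lit 8) (nat_lit 11) L11856 (by decide +kernel)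
theorem L11858 : W_23 (nat_lit 7) (nat_lit 0xf000300000001000080000000000000000000000000000000) (nat_lit 0x0) (nat_lit 0x8000c00370000c00000018000800000000000000000000000000000000000) := T_23 (nat_lit 190) (nat_lit 191) (nat_lit 2) (nat_lit 3) (nat_lit 11) L11857 (by decide +kernel)
theorem L11859 : W_23 (nat_lit 8) (nat_lit 0xe000300000001000080000000000000000000000000000000) (nat_lit 0x0) (nat_lit 0x18000c00370001c000e0018000800000000000000000000000000000000000) := Q_23 (nat_lit 192) (C_23 L11632 (C_23 L11689 (C_23 L11858 (C_23 L11603 N_23)))) (by decide +kernel)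
theorem L11860 : W_23 (nat_lit 2) (nat_lit 0x1d000e000300010001000080000000000000000000000000000000) (nat_lit 0x0) (nat_lit 0x200001800000000000000000000000000000000000000000000000) := D_23 (nat_lit 192) (nat_lit 213) (nat_lit 191) (nat_lit 3) (nat_lit 5) (nat_lit 11) (nat_lit 3) (nat_lit 4) (nat_lit 11) (by decide +kernel)
theorem L11861 : W_23 (nat_lit 3) (nat_lit 0xd000e000300010001000080000000000000000000000000000000) (nat_lit 0x0) (nat_lit 0x2000300001800000000000000000000000000000000000000000000000) := T_23 (nat_lit 212) (nat_lit 229) (nat_lit 7) (nat_lit 7) (nat_lit 9) L11860 (by decide +kernel)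
theorem L11862 : W_23 (nat_lit 4) (nat_lit 0xc000e000300010001000080000000000000000000000000000000) (nat_lit 0x0) (nat_lit 0x2000330001800000000000000000000000000000000000000000000000) := T_23 (nat_lit 208) (nat_lit 209) (nat_lit 2) (nat_lit 4) (nat_lit 12) L11861 (by decide +kernel)
theorem L11863 : W_23 (nat_lit 5) (nat_lit 0x8000e000300010001000080000000000000000000000000000000) (nat_lit 0x0) (nat_lit 0x2800370001800000000000000000000000000000000000000000000000) := T_23 (nat_lit 210) (nat_lit 227) (nat_lit 6) (nat_lit 6) (nat_lit 13) L11862 (by decide +kernel)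
theorem L11864 : W_23 (nat_lit 6) (nat_lit 0x8000e000300000001000080000000000000000000000000000000) (nat_lit 0x0) (nat_lit 0x2800370001800000010000800000000000000000000000000000000000) := T_23 (nat_lit 160) (nat_lit 143) (nat_lit 6) (nat_lit 7) (nat_lit 11) L11863 (by decide +kernel)
theorem L11865 : W_23 (nat_lit 7) (nat_lit 0xe000300000001000080000000000000000000000000000000) (nat_lit 0x0) (nat_lit 0x200038003f0001800000018000800000000000000000000000000000000000) := Q_23 (nat_lit 211) (C_23 L11830 (C_23 L11864 N_23)) (by decide +kernel)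
theorem L11866 : W_23 (nat_lit 2) (nat_lit 0x80000000f800300010001000080000000000000000000000000000000) (nat_lit 0x0) (nat_lit 0x38000000000000000000000000000000000000000000000000000) := D_23 (nat_lit 208) (nat_lit 209) (nat_lit 207) (nat_lit 1) (nat_lit 8) (nat_lit 11) (nat_lit 1) (nat_lit 7) (nat_lit 11) (by decide +kernel)
theorem L11867 : W_23 (nat_lit 3) (nat_lit 0x80000000f000300010001000080000000000000000000000000000000) (nat_lit 0x0) (nat_lit 0x38000c00000000000000000000000000000000000000000000000) := T_23 (nat_lit 191) (nat_lit 190) (nat_lit 2) (nat_lit 3) (nat_lit 11) L11866 (by decide +kernel)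
theorem L11868 : W_23 (nat_lit 4) (nat_lit 0xf000300010001000080000000000000000000000000000000) (nat_lit 0x0) (nat_lit 0x800078000c00000000000000000000000000000000000000000000000) := T_23 (nat_lit 227) (nat_lit 210) (nat_lit 6) (nat_lit 6) (nat_lit 13) L11867 (by decide +kernel)
theorem L11869 : W_23 (nat_lit 5) (nat_lit 0xf000300000001000080000000000000000000000000000000) (nat_lit 0x0) (nat_lit 0x800078000c00000010000800000000000000000000000000000000000) := T_23 (nat_lit 160) (nat_lit 143) (nat_lit 6) (nat_lit 7) (nat_lit 11) L11868 (by decide +kernel)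
theorem L11870 : W_23 (nat_lit 7) (nat_lit 0xe000300000001000080000000000000000000000000000000) (nat_lit 0x0) (nat_lit 0x18000c00078001c000e0018000800000000000000000000000000000000000) := Q_23 (nat_lit 192) (C_23 L11632 (C_23 L11689 (C_23 L11869 (C_23 L11603 N_23)))) (by decide +kernel)
theorem L11871 : W_23 (nat_lit 2) (nat_lit 0x4000000010000f000340000001800080000000000000000000000000000000) (nat_lit 0x0) (nat_lit 0xc00020000000000000000000000000000000000000000000) := D_23 (nat_lit 191) (nat_lit 190) (nat_lit 173) (nat_lit 2) (nat_lit 3) (nat_lit 11) (nat_lit 0) (nat_lit 7) (nat_lit 11) (by decide +kernel)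
theorem L11872 : W_23 (nat_lit 3) (nat_lit 0x4000000010000e000340000001800080000000000000000000000000000000) (nat_lit 0x0) (nat_lit 0x200001c00020000000000000000000000000000000000000000000) := T_23 (nat_lit 192) (nat_lit 213) (nat_lit 3) (nat_lit 5) (nat_lit 11) L11871 (by decide +kernel)
theorem L11873 : W_23 (nat_lit 4) (nat_lit 0x10000e000340000001800080000000000000000000000000000000) (nat_lit 0x0) (nat_lit 0x40002000200001c00020000000000000000000000000000000000000000000) := T_23 (nat_lit 246) (nat_lit 229) (nat_lit 4) (nat_lit 8) (nat_lit 14) L11872 (by decide +kernel)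
theorem L11874 : W_23 (nat_lit 5) (nat_lit 0x10000e000340000001000080000000000000000000000000000000) (nat_lit 0x0) (nat_lit 0x40002000200001c00020010000800000000000000000000000000000000000) := T_23 (nat_lit 143) (nat_lit 160) (nat_lit 7) (nat_lit 7) (nat_lit 8) L11873 (by decide +kernel)
theorem L11875 : W_23 (nat_lit 6) (nat_lit 0x10000e000300000001000080000000000000000000000000000000) (nat_lit 0x0) (nat_lit 0x40002000200001c000e0010000800000000000000000000000000000000000) := T_23 (nat_lit 174) (nat_lit 175) (nat_lit 3) (nat_lit 4) (nat_lit 10) L11874 (by decide +kernel)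
theorem L11876 : W_23 (nat_lit 7) (nat_lit 0xe000300000001000080000000000000000000000000000000) (nat_lit 0x0) (nat_lit 0x40002000380001c000e0010000800000000000000000000000000000000000) := Q_23 (nat_lit 212) (C_23 L11851 (C_23 L11875 (C_23 L11746 N_23))) (by decide +kernel)
theorem L11877 : W_23 (nat_lit 11) (nat_lit 0xc000300000001000080000000000000000000000000000000) (nat_lit 0x0) (nat_lit 0x78003e003f8003c000e0018000800000000000000000000000000000000000) := Q_23 (nat_lit 193) (C_23 L11829 (C_23 L11840 (C_23 L11852 (C_23 L11859 (C_23 L11865 (C_23 L11870 (C_23 L11876 N_23))))))) (by decide +kernel)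
theorem L11878 : W_23 (nat_lit 12) (nat_lit 0x4000300000001000080000000000000000000000000000000) (nat_lit 0x0) (nat_lit 0xc00078007e00ff807bc018e0018000800000000000000000000000000000000000) := Q_23 (nat_lit 195) (C_23 L5316 (C_23 L11808 (C_23 L11828 (C_23 L11877 N_23)))) (by decide +kernel)
theorem L11879 : W_23 (nat_lit 2) (nat_lit 0xa000200010001c0004000300010001000080000000000000000000000000000000) (nat_lit 0x0) (nat_lit 0x14000400000000000000000000000000000000000000000000000000000000000000000) := D_23 (nat_lit 262) (nat_lit 280) (nat_lit 278) (nat_lit 7) (nat_lit 7) (nat_lit 12) (nat_lit 5) (nat_lit 7) (nat_lit 12) (by decide +kernel)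
theorem L11880 : W_23 (nat_lit 3) (nat_lit 0x8000200010001c0004000300010001000080000000000000000000000000000000) (nat_lit 0x0) (nat_lit 0x14000600010000000000000000000000000000000000000000000000000000000000000) := T_23 (nat_lit 261) (nat_lit 244) (nat_lit 5) (nat_lit 7) (nat_lit 11) L11879 (by decide +kernel)
theorem L11881 : W_23 (nat_lit 4) (nat_lit 0x200010001c0004000300010001000080000000000000000000000000000000) (nat_lit 0x0) (nat_lit 0x14000e00050000000000000000000000000000000000000000000000000000000000000) := T_23 (nat_lit 263) (nat_lit 246) (nat_lit 7) (nat_lit 7) (nat_lit 11) L11880 (by decide +kernel)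
theorem L11882 : W_23 (nat_lit 5) (nat_lit 0x10001c0004000300010001000080000000000000000000000000000000) (nat_lit 0x0) (nat_lit 0x14000e00070000000000002000000000000000000000000000000000000000000000000) := T_23 (nat_lit 245) (nat_lit 193) (nat_lit 4) (nat_lit 7) (nat_lit 14) L11881 (by decide +kernel)
theorem L11883 : W_23 (nat_lit 6) (nat_lit 0x1c0004000300010001000080000000000000000000000000000000) (nat_lit 0x0) (nat_lit 0x14000e00070001000000002000000008000000000000000000000000000000000000000) := T_23 (nat_lit 228) (nat_lit 159) (nat_lit 4) (nat_lit 7) (nat_lit 13) L11882 (by decide +kernel)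
theorem L11884 : W_23 (nat_lit 7) (nat_lit 0xc0004000300010001000080000000000000000000000000000000) (nat_lit 0x0) (nat_lit 0x14000e00070003000100002000000008000000000000000000000000000000000000000) := T_23 (nat_lit 212) (nat_lit 229) (nat_lit 7) (nat_lit 7) (nat_lit 9) L11883 (by decide +kernel)
theorem L11885 : W_23 (nat_lit 8) (nat_lit 0x80004000300010001000080000000000000000000000000000000) (nat_lit 0x0) (nat_lit 0x14000e00070003800140002000000008000000000000000000000000000000000000000) := T_23 (nat_lit 210) (nat_lit 227) (nat_lit 5) (nat_lit 7) (nat_lit 9) L11884 (by decide +kernel)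
theorem L11886 : W_23 (nat_lit 9) (nat_lit 0x80004000300000001000080000000000000000000000000000000) (nat_lit 0x0) (nat_lit 0x14000e00070003800140002000000018000800000000000000000000000000000000000) := T_23 (nat_lit 160) (nat_lit 143) (nat_lit 6) (nat_lit 7) (nat_lit 11) L11885 (by decide +kernel)
theorem L11891 : W_23 (nat_lit 2) (nat_lit 0x80005800300000001000080000000000000000000000000000000) (nat_lit 0x0) (nat_lit 0x2000480000000000000000000000000000000000000000000) := D_23 (nat_lit 178) (nat_lit 175) (nat_lit 193) (nat_lit 1) (nat_lit 8) (nat_lit 10) (nat_lit 2) (nat_lit 4) (nat_lit 11) (by decide +kernel)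
theorem L11892 : W_23 (nat_lit 2) (nat_lit 0x80005800300000001000080000000000000000000000000000000) (nat_lit 0x0) (nat_lit 0x100002400000000000000000000000000000000000000000000000) := D_23 (nat_lit 193) (nat_lit 212) (nat_lit 190) (nat_lit 3) (nat_lit 4) (nat_lit 11) (nat_lit 2) (nat_lit 3) (nat_lit 11) (by decide +kernel)
theorem L11893 : W_23 (nat_lit 2) (nat_lit 0x80005800380000001000080000000000000000000000000000000) (nat_lit 0x0) (nat_lit 0x600040000000000000000000000000000000000000000000) := D_23 (nat_lit 190) (nat_lit 174) (nat_lit 189) (nat_lit 1) (nat_lit 7) (nat_lit 10) (nat_lit 2) (nat_lit 2) (nat_lit 11) (by decide +kernel)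
theorem L11894 : W_23 (nat_lit 3) (nat_lit 0x80005800300000001000080000000000000000000000000000000) (nat_lit 0x0) (nat_lit 0x6004c0000000000000000000000000000000000000000000) := T_23 (nat_lit 175) (nat_lit 178) (nat_lit 1) (nat_lit 8) (nat_lit 10) L11893 (by decide +kernel)
theorem L11895 : W_23 (nat_lit 4) (nat_lit 0x80005000300000001000080000000000000000000000000000000) (nat_lit 0x0) (nat_lit 0x100002e004c0000000000000000000000000000000000000000000) := Q_23 (nat_lit 191) (C_23 L11891 (C_23 L11892 (C_23 L11894 N_23))) (by decide +kernel)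
theorem L11896 : W_23 (nat_lit 2) (nat_lit 0x1c0005000300010001000080000000000000000000000000000000) (nat_lit 0x0) (nat_lit 0x20002800000000000000000000000000000000000000000000000) := D_23 (nat_lit 191) (nat_lit 193) (nat_lit 209) (nat_lit 3) (nat_lit 4) (nat_lit 11) (nat_lit 0) (nat_lit 8) (nat_lit 12) (by decide +kernel)
theorem L11897 : W_23 (nat_lit 3) (nat_lit 0xc0005000300010001000080000000000000000000000000000000) (nat_lit 0x0) (nat_lit 0x2000120002800000000000000000000000000000000000000000000000) := T_23 (nat_lit 212) (nat_lit 229) (nat_lit 7) (nat_lit 7) (nat_lit 9) L11896 (by decide +kernel)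
theorem L11898 : W_23 (nat_lit 4) (nat_lit 0x80005000300010001000080000000000000000000000000000000) (nat_lit 0x0) (nat_lit 0x2800160002800000000000000000000000000000000000000000000000) := T_23 (nat_lit 210) (nat_lit 227) (nat_lit 5) (nat_lit 7) (nat_lit 9) L11897 (by decide +kernel)
theorem L11899 : W_23 (nat_lit 5) (nat_lit 0x80005000300000001000080000000000000000000000000000000) (nat_lit 0x0) (nat_lit 0x2800160002800000010000800000000000000000000000000000000000) := T_23 (nat_lit 160) (nat_lit 143) (nat_lit 6) (nat_lit 7) (nat_lit 11) L11898 (by decide +kernel)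
theorem L11900 : W_23 (nat_lit 2) (nat_lit 0x4001e0005000380012001000080000000000000000000000000000000) (nat_lit 0x0) (nat_lit 0x400004000100000000000000000000000000000000000) := D_23 (nat_lit 158) (nat_lit 140) (nat_lit 178) (nat_lit 4) (nat_lit 5) (nat_lit 12) (nat_lit 0) (nat_lit 8) (nat_lit 10) (by decide +kernel)
theorem L11901 : W_23 (nat_lit 3) (nat_lit 0x4001e0005000380010001000080000000000000000000000000000000) (nat_lit 0x0) (nat_lit 0x440006000100000000000000000000000000000000000) := T_23 (nat_lit 157) (nat_lit 174) (nat_lit 4) (nat_lit 5) (nat_lit 13) L11900 (by decide +kernel)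
theorem L11902 : W_23 (nat_lit 4) (nat_lit 0x4001e0005000300010001000080000000000000000000000000000000) (nat_lit 0x0) (nat_lit 0x4c000e000100000000000000000000000000000000000) := T_23 (nat_lit 175) (nat_lit 159) (nat_lit 6) (nat_lit 5) (nat_lit 13) L11901 (by decide +kernel)
theorem L11903 : W_23 (nat_lit 5) (nat_lit 0x1e0005000300010001000080000000000000000000000000000000) (nat_lit 0x0) (nat_lit 0x6000000000004c000e000100000000000000000000000000000000000) := T_23 (nat_lit 226) (nat_lit 225) (nat_lit 1) (nat_lit 8) (nat_lit 12) L11902 (by decide +kernel)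
theorem L11904 : W_23 (nat_lit 6) (nat_lit 0x1c0005000300010001000080000000000000000000000000000000) (nat_lit 0x0) (nat_lit 0x6000200008004c000e000100000000000000000000000000000000000) := T_23 (nat_lit 209) (nat_lit 191) (nat_lit 0) (nat_lit 8) (nat_lit 12) L11903 (by decide +kernel)
theorem L11905 : W_23 (nat_lit 7) (nat_lit 0xc0005000300010001000080000000000000000000000000000000) (nat_lit 0x0) (nat_lit 0x26001200008004c000e000100000000000000000000000000000000000) := T_23 (nat_lit 212) (nat_lit 229) (nat_lit 7) (nat_lit 7) (nat_lit 9) L11904 (by decide +kernel)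
theorem L11906 : W_23 (nat_lit 8) (nat_lit 0x80005000300010001000080000000000000000000000000000000) (nat_lit 0x0) (nat_lit 0x2e001600008004c000e000100000000000000000000000000000000000) := T_23 (nat_lit 210) (nat_lit 227) (nat_lit 5) (nat_lit 7) (nat_lit 9) L11905 (by decide +kernel)
theorem L11907 : W_23 (nat_lit 9) (nat_lit 0x80005000300000001000080000000000000000000000000000000) (nat_lit 0x0) (nat_lit 0x2e001600008004c001e000900000000000000000000000000000000000) := T_23 (nat_lit 160) (nat_lit 143) (nat_lit 6) (nat_lit 7) (nat_lit 11) L11906 (by decide +kernel)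
theorem L11908 : W_23 (nat_lit 2) (nat_lit 0xc0005c00300010001000080000000000000000000000000000000) (nat_lit 0x0) (nat_lit 0x20000200080000000000000000000000000000000000000000000) := D_23 (nat_lit 189) (nat_lit 209) (nat_lit 175) (nat_lit 3) (nat_lit 2) (nat_lit 11) (nat_lit 2) (nat_lit 2) (nat_lit 11) (by decide +kernel)
theorem L11909 : W_23 (nat_lit 3) (nat_lit 0xc0005800300010001000080000000000000000000000000000000) (nat_lit 0x0) (nat_lit 0x20002600080000000000000000000000000000000000000000000) := T_23 (nat_lit 190) (nat_lit 193) (nat_lit 3) (nat_lit 3) (nat_lit 11) L11908 (by decide +kernel)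
theorem L11910 : W_23 (nat_lit 4) (nat_lit 0x80005800300010001000080000000000000000000000000000000) (nat_lit 0x0) (nat_lit 0x800060002600080000000000000000000000000000000000000000000) := T_23 (nat_lit 210) (nat_lit 227) (nat_lit 5) (nat_lit 7) (nat_lit 9) L11909 (by decide +kernel)
theorem L11911 : W_23 (nat_lit 5) (nat_lit 0x80005800300000001000080000000000000000000000000000000) (nat_lit 0x0) (nat_lit 0x800060002600080010000800000000000000000000000000000000000) := T_23 (nat_lit 160) (nat_lit 143) (nat_lit 6) (nat_lit 7) (nat_lit 11) L11910 (by decide +kernel)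
theorem L11912 : W_23 (nat_lit 2) (nat_lit 0x80005800300000001000080000000000000000000000000000000) (nat_lit 0x0) (nat_lit 0x2400400000000000000000000000000000000000000000000) := D_23 (nat_lit 193) (nat_lit 190) (nat_lit 178) (nat_lit 2) (nat_lit 3) (nat_lit 11) (nat_lit 2) (nat_lit 4) (nat_lit 11) (by decide +kernel)
theorem L11913 : W_23 (nat_lit 6) (nat_lit 0x80005000300000001000080000000000000000000000000000000) (nat_lit 0x0) (nat_lit 0x800060002e004c0010000800000000000000000000000000000000000) := Q_23 (nat_lit 191) (C_23 L11894 (C_23 L11911 (C_23 L11912 (C_23 L11891 N_23)))) (by decide +kernel)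
theorem L11914 : W_23 (nat_lit 2) (nat_lit 0x80003c0025000300010001000080000000000000000000000000000000) (nat_lit 0x0) (nat_lit 0x10000400040000000000000000000000000000000000000000000000000) := D_23 (nat_lit 214) (nat_lit 232) (nat_lit 198) (nat_lit 3) (nat_lit 7) (nat_lit 12) (nat_lit 2) (nat_lit 7) (nat_lit 12) (by decide +kernel)
theorem L11915 : W_23 (nat_lit 3) (nat_lit 0x80003c0005000300010001000080000000000000000000000000000000) (nat_lit 0x0) (nat_lit 0x10000400070000000000000000000000000000000000000000000000000) := T_23 (nat_lit 197) (nat_lit 196) (nat_lit 2) (nat_lit 6) (nat_lit 12) L11914 (by decide +kernel)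
theorem L11916 : W_23 (nat_lit 4) (nat_lit 0x3c0005000300010001000080000000000000000000000000000000) (nat_lit 0x0) (nat_lit 0x1c000400070000000000000000000000000000000000000000000000000) := T_23 (nat_lit 231) (nat_lit 230) (nat_lit 3) (nat_lit 6) (nat_lit 12) L11915 (by decide +kernel)
theorem L11917 : W_23 (nat_lit 5) (nat_lit 0x1c0005000300010001000080000000000000000000000000000000) (nat_lit 0x0) (nat_lit 0x1c000600072000000000000000000000000000000000000000000000000) := T_23 (nat_lit 213) (nat_lit 193) (nat_lit 0) (nat_lit 9) (nat_lit 12) L11916 (by decide +kernel)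
theorem L11918 : W_23 (nat_lit 6) (nat_lit 0xc0005000300010001000080000000000000000000000000000000) (nat_lit 0x0) (nat_lit 0x1e000700072000000000000000000000000000000000000000000000000) := T_23 (nat_lit 212) (nat_lit 229) (nat_lit 7) (nat_lit 7) (nat_lit 9) L11917 (by decide +kernel)
theorem L11919 : W_23 (nat_lit 7) (nat_lit 0x80005000300010001000080000000000000000000000000000000) (nat_lit 0x0) (nat_lit 0x1e800740072000000000000000000000000000000000000000000000000) := T_23 (nat_lit 210) (nat_lit 227) (nat_lit 5) (nat_lit 7) (nat_lit 9) L11918 (by decide +kernel)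
theorem L11920 : W_23 (nat_lit 8) (nat_lit 0x80005000300000001000080000000000000000000000000000000) (nat_lit 0x0) (nat_lit 0x1e800740072000000010000800000000000000000000000000000000000) := T_23 (nat_lit 160) (nat_lit 143) (nat_lit 6) (nat_lit 7) (nat_lit 11) L11919 (by decide +kernel)
theorem L11921 : W_23 (nat_lit 10) (nat_lit 0x80004000300000001000080000000000000000000000000000000) (nat_lit 0x0) (nat_lit 0x1ee00760073e004c001e000900000000000000000000000000000000000) := Q_23 (nat_lit 192) (C_23 L11895 (C_23 L11899 (C_23 L11907 (C_23 L11913 (C_23 L11920 N_23))))) (by decide +kernel)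
theorem L11925 : W_23 (nat_lit 2) (nat_lit 0x1000080004000300010001000080000000000000000000000000000000) (nat_lit 0x0) (nat_lit 0x10000800040000000000000000000000000000000000000000000000000000) := D_23 (nat_lit 227) (nat_lit 210) (nat_lit 244) (nat_lit 5) (nat_lit 7) (nat_lit 9) (nat_lit 5) (nat_lit 7) (nat_lit 10) (by decide +kernel)
theorem L11926 : W_23 (nat_lit 3) (nat_lit 0x1000080004000300000001000080000000000000000000000000000000) (nat_lit 0x0) (nat_lit 0x10000800040000000000010000800000000000000000000000000000000000) := T_23 (nat_lit 160) (nat_lit 143) (nat_lit 6) (nat_lit 7) (nat_lit 11) L11925 (by decide +kernel)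
theorem L11927 : W_23 (nat_lit 4) (nat_lit 0x80004000300000001000080000000000000000000000000000000) (nat_lit 0x0) (nat_lit 0x10001800040000000000018000800000000000000000000000000000000000) := T_23 (nat_lit 228) (nat_lit 159) (nat_lit 4) (nat_lit 7) (nat_lit 13) L11926 (by decide +kernel)
theorem L11928 : W_23 (nat_lit 11) (nat_lit 0x4000300000001000080000000000000000000000000000000) (nat_lit 0x0) (nat_lit 0x14000e0007001fe007e0073e004c001e000900000000000000000000000000000000000) := Q_23 (nat_lit 211) (C_23 L11886 (C_23 L11890 (C_23 L11921 (C_23 L11924 (C_23 L11927 N_23))))) (by decide +kernel)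
theorem L11933 : W_23 (nat_lit 6) (nat_lit 0x100010000c000300000001000080000000000000000000000000000000) (nat_lit 0x0) (nat_lit 0x60002000000070003c00040000000000000000000000000000000000000000) := T_23 (nat_lit 229) (nat_lit 246) (nat_lit 4) (nat_lit 8) (nat_lit 14) L11932 (by decide +kernel)
theorem L11934 : W_23 (nat_lit 2) (nat_lit 0x4000100018000c000300000001000080000000000000000000000000000000) (nat_lit 0x0) (nat_lit 0xc00020000000000000000000000000000000000000000000000000000000000000) := D_23 (nat_lit 245) (nat_lit 262) (nat_lit 263) (nat_lit 6) (nat_lit 7) (nat_lit 15) (nat_lit 7) (nat_lit 7) (nat_lit 11) (by decide +kernel)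
theorem L11935 : W_23 (nat_lit 3) (nat_lit 0x4000100010000c000300000001000080000000000000000000000000000000) (nat_lit 0x0) (nat_lit 0xc00020000000080000000000008000000000000000000000000000000000000000) := T_23 (nat_lit 211) (nat_lit 159) (nat_lit 4) (nat_lit 7) (nat_lit 13) L11934 (by decide +kernel)
theorem L11936 : W_23 (nat_lit 4) (nat_lit 0x100010000c000300000001000080000000000000000000000000000000) (nat_lit 0x0) (nat_lit 0xc00060002000080000000000008000000000000000000000000000000000000000) := T_23 (nat_lit 246) (nat_lit 229) (nat_lit 4) (nat_lit 8) (nat_lit 14) L11935 (by decide +kernel)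
theorem L11938 : W_23 (nat_lit 3) (nat_lit 0x100010002c000300000001000080000000000000000000000000000000) (nat_lit 0x0) (nat_lit 0x400020000000080000000400008000000000000000000000000000000000000000) := T_23 (nat_lit 211) (nat_lit 159) (nat_lit 4) (nat_lit 7) (nat_lit 13) L11937 (by decide +kernel)
theorem L11939 : W_23 (nat_lit 4) (nat_lit 0x100010000c000300000001000080000000000000000000000000000000) (nat_lit 0x0) (nat_lit 0x400020000000080030000400008000000000000000000000000000000000000000) := T_23 (nat_lit 197) (nat_lit 196) (nat_lit 0) (nat_lit 10) (nat_lit 11) L11938 (by decide +kernel)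
theorem L11940 : W_23 (nat_lit 2) (nat_lit 0x40005a003c001c000300000001000080000000000000000000000000000000) (nat_lit 0x0) (nat_lit 0x1000080000000000000000400000000000000000000000000000000000000000000) := D_23 (nat_lit 247) (nat_lit 178) (nat_lit 264) (nat_lit 4) (nat_lit 9) (nat_lit 14) (nat_lit 4) (nat_lit 9) (nat_lit 15) (by decide +kernel)
theorem L11941 : W_23 (nat_lit 3) (nat_lit 0x40001a003c001c000300000001000080000000000000000000000000000000) (nat_lit 0x0) (nat_lit 0x100008000c000000000000400000000000000000000000000000000000000000000) := T_23 (nat_lit 230) (nat_lit 231) (nat_lit 3) (nat_lit 6) (nat_lit 12) L11940 (by decide +kernel)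
theorem L11942 : W_23 (nat_lit 4) (nat_lit 0x40001a0038001c000300000001000080000000000000000000000000000000) (nat_lit 0x0) (nat_lit 0x100008000c000060000000400000000000000000000000000000000000000000000) := T_23 (nat_lit 210) (nat_lit 209) (nat_lit 2) (nat_lit 5) (nat_lit 12) L11941 (by decide +kernel)
theorem L11943 : W_23 (nat_lit 5) (nat_lit 0x40001a0038000c000300000001000080000000000000000000000000000000) (nat_lit 0x0) (nat_lit 0x100008000c000060030000400000000000000000000000000000000000000000000) := T_23 (nat_lit 196) (nat_lit 197) (nat_lit 0) (nat_lit 10) (nat_lit 11) L11942 (by decide +kernel)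
theorem L11944 : W_23 (nat_lit 6) (nat_lit 0x40001a0018000c000300000001000080000000000000000000000000000000) (nat_lit 0x0) (nat_lit 0x100008000c000660030000400000000000000000000000000000000000000000000) := T_23 (nat_lit 213) (nat_lit 214) (nat_lit 1) (nat_lit 10) (nat_lit 12) L11943 (by decide +kernel)
theorem L11945 : W_23 (nat_lit 7) (nat_lit 0x4000180018000c000300000001000080000000000000000000000000000000) (nat_lit 0x0) (nat_lit 0x100008000c600660030000400000000000000000000000000000000000000000000) := T_23 (nat_lit 225) (nat_lit 226) (nat_lit 2) (nat_lit 4) (nat_lit 13) L11944 (by decide +kernel)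
theorem L11946 : W_23 (nat_lit 8) (nat_lit 0x4000100018000c000300000001000080000000000000000000000000000000) (nat_lit 0x0) (nat_lit 0x100009000ce00660030000400000000000000000000000000000000000000000000) := T_23 (nat_lit 227) (nat_lit 244) (nat_lit 5) (nat_lit 7) (nat_lit 10) L11945 (by decide +kernel)
theorem L11947 : W_23 (nat_lit 9) (nat_lit 0x100018000c000300000001000080000000000000000000000000000000) (nat_lit 0x0) (nat_lit 0x10000d000ee00660030000400000000000000000000000000000000000000000000) := T_23 (nat_lit 246) (nat_lit 229) (nat_lit 7) (nat_lit 7) (nat_lit 10) L11946 (by decide +kernel)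
theorem L11948 : W_23 (nat_lit 10) (nat_lit 0x100010000c000300000001000080000000000000000000000000000000) (nat_lit 0x0) (nat_lit 0x10000d000ee006e0030000400008000000000000000000000000000000000000000) := T_23 (nat_lit 211) (nat_lit 159) (nat_lit 4) (nat_lit 7) (nat_lit 13) L11947 (by decide +kernel)
theorem L11949 : W_23 (nat_lit 11) (nat_lit 0x10000c000300000001000080000000000000000000000000000000) (nat_lit 0x0) (nat_lit 0x1c000f000fe006e0070003c00048000000000000000000000000000000000000000) := Q_23 (nat_lit 228) (C_23 L11933 (C_23 L11936 (C_23 L11939 (C_23 L11948 N_23)))) (by decide +kernel)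
theorem L11950 : W_23 (nat_lit 2) (nat_lit 0x10002c000300010001000080000000000000000000000000000000) (nat_lit 0x0) (nat_lit 0x40002000000000000400000000000000000000000000000000000000000000) := D_23 (nat_lit 229) (nat_lit 246) (nat_lit 178) (nat_lit 4) (nat_lit 8) (nat_lit 14) (nat_lit 4) (nat_lit 8) (nat_lit 13) (by decide +kernel)
theorem L11951 : W_23 (nat_lit 3) (nat_lit 0x10002c000300000001000080000000000000000000000000000000) (nat_lit 0x0) (nat_lit 0x40002000000000000400010000800000000000000000000000000000000000) := T_23 (nat_lit 160) (nat_lit 143) (nat_lit 7) (nat_lit 7) (nat_lit 8) L11950 (by decide +kernel)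
theorem L11952 : W_23 (nat_lit 4) (nat_lit 0x10000c000300000001000080000000000000000000000000000000) (nat_lit 0x0) (nat_lit 0x40002000000030000400010000800000000000000000000000000000000000) := T_23 (nat_lit 197) (nat_lit 196) (nat_lit 0) (nat_lit 10) (nat_lit 11) L11951 (by decide +kernel)
theorem L11955 : W_23 (nat_lit 4) (nat_lit 0x18002c000300010001000080000000000000000000000000000000) (nat_lit 0x0) (nat_lit 0x400030001800040000000400000000000000000000000000000000000000000000) := T_23 (nat_lit 227) (nat_lit 210) (nat_lit 5) (nat_lit 7) (nat_lit 9) L11954 (by decide +kernel)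
theorem L11956 : W_23 (nat_lit 5) (nat_lit 0x18002c000300000001000080000000000000000000000000000000) (nat_lit 0x0) (nat_lit 0x400030001800040000000400010000800000000000000000000000000000000000) := T_23 (nat_lit 160) (nat_lit 143) (nat_lit 7) (nat_lit 7) (nat_lit 8) L11955 (by decide +kernel)
theorem L11957 : W_23 (nat_lit 6) (nat_lit 0x18000c000300000001000080000000000000000000000000000000) (nat_lit 0x0) (nat_lit 0x400030001800040030000400010000800000000000000000000000000000000000) := T_23 (nat_lit 197) (nat_lit 196) (nat_lit 0) (nat_lit 10) (nat_lit 11) L11956 (by decide +kernel)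
theorem L11958 : W_23 (nat_lit 2) (nat_lit 0x100018000c000300010001000080000000000000000000000000000000) (nat_lit 0x0) (nat_lit 0x400020000000000000000400000000000000000000000000000000000000000000) := D_23 (nat_lit 245) (nat_lit 178) (nat_lit 262) (nat_lit 6) (nat_lit 7) (nat_lit 14) (nat_lit 6) (nat_lit 7) (nat_lit 15) (by decide +kernel)
theorem L11959 : W_23 (nat_lit 3) (nat_lit 0x18000c000300010001000080000000000000000000000000000000) (nat_lit 0x0) (nat_lit 0x400020001000000000000400008000000000000000000000000000000000000000) := T_23 (nat_lit 228) (nat_lit 159) (nat_lit 4) (nat_lit 7) (nat_lit 13) L11958 (by decide +kernel)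
theorem L11960 : W_23 (nat_lit 4) (nat_lit 0x18000c000300000001000080000000000000000000000000000000) (nat_lit 0x0) (nat_lit 0x400020001000000000000400018000800000000000000000000000000000000000) := T_23 (nat_lit 160) (nat_lit 143) (nat_lit 7) (nat_lit 7) (nat_lit 8) L11959 (by decide +kernel)
theorem L11961 : W_23 (nat_lit 2) (nat_lit 0x1c0018002c000300000001800080000000000000000000000000000000) (nat_lit 0x0) (nat_lit 0x640000000000000000000000000000000000000000000000000000) := D_23 (nat_lit 213) (nat_lit 214) (nat_lit 210) (nat_lit 1) (nat_lit 10) (nat_lit 12) (nat_lit 1) (nat_lit 9) (nat_lit 12) (by decide +kernel)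
theorem L11962 : W_23 (nat_lit 3) (nat_lit 0x180018002c000300000001800080000000000000000000000000000000) (nat_lit 0x0) (nat_lit 0x600640000000000000000000000000000000000000000000000000000) := T_23 (nat_lit 226) (nat_lit 225) (nat_lit 2) (nat_lit 4) (nat_lit 13) L11961 (by decide +kernel)
theorem L11963 : W_23 (nat_lit 4) (nat_lit 0x100018002c000300000001800080000000000000000000000000000000) (nat_lit 0x0) (nat_lit 0x10000e00640000000000000000000000000000000000000000000000000000) := T_23 (nat_lit 227) (nat_lit 244) (nat_lit 5) (nat_lit 7) (nat_lit 10) L11962 (by decide +kernel)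
theorem L11964 : W_23 (nat_lit 5) (nat_lit 0x18002c000300000001800080000000000000000000000000000000) (nat_lit 0x0) (nat_lit 0x10001e00640000000000008000000000000000000000000000000000000000) := T_23 (nat_lit 228) (nat_lit 159) (nat_lit 4) (nat_lit 7) (nat_lit 13) L11963 (by decide +kernel)
theorem L11965 : W_23 (nat_lit 6) (nat_lit 0x18002c000300000001000080000000000000000000000000000000) (nat_lit 0x0) (nat_lit 0x10001e00640000000000018000800000000000000000000000000000000000) := T_23 (nat_lit 143) (nat_lit 160) (nat_lit 7) (nat_lit 7) (nat_lit 8) L11964 (by decide +kernel)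
theorem L11966 : W_23 (nat_lit 7) (nat_lit 0x18000c000300000001000080000000000000000000000000000000) (nat_lit 0x0) (nat_lit 0x10001e00640030000000018000800000000000000000000000000000000000) := T_23 (nat_lit 197) (nat_lit 196) (nat_lit 0) (nat_lit 10) (nat_lit 11) L11965 (by decide +kernel)
theorem L11967 : W_23 (nat_lit 2) (nat_lit 0x18001c000300010001000080000000000000000000000000000000) (nat_lit 0x0) (nat_lit 0x800060000000000000000000000000000000000000000000000000000) := D_23 (nat_lit 210) (nat_lit 227) (nat_lit 209) (nat_lit 5) (nat_lit 7) (nat_lit 9) (nat_lit 2) (nat_lit 5) (nat_lit 12) (by decide +kernel)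
theorem L11968 : W_23 (nat_lit 3) (nat_lit 0x18001c000300000001000080000000000000000000000000000000) (nat_lit 0x0) (nat_lit 0x800060000000000010000800000000000000000000000000000000000) := T_23 (nat_lit 160) (nat_lit 143) (nat_lit 7) (nat_lit 7) (nat_lit 8) L11967 (by decide +kernel)
theorem L11969 : W_23 (nat_lit 4) (nat_lit 0x18000c000300000001000080000000000000000000000000000000) (nat_lit 0x0) (nat_lit 0x800060030000000010000800000000000000000000000000000000000) := T_23 (nat_lit 196) (nat_lit 197) (nat_lit 0) (nat_lit 10) (nat_lit 11) L11968 (by decide +kernel)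
theorem L11972 : W_23 (nat_lit 8) (nat_lit 0x10000c000300000001000080000000000000000000000000000000) (nat_lit 0x0) (nat_lit 0x400030001e006e0030000400018000800000000000000000000000000000000000) := Q_23 (nat_lit 211) (C_23 L11957 (C_23 L11960 (C_23 L11966 (C_23 L11969 (C_23 L11971 N_23))))) (by decide +kernel)
theorem L11973 : W_23 (nat_lit 12) (nat_lit 0xc000300000001000080000000000000000000000000000000) (nat_lit 0x0) (nat_lit 0x1c000f000fe007e0070003c00058000800000000000000000000000000000000000) := Q_23 (nat_lit 212) (C_23 L11949 (C_23 L11737 (C_23 L11952 (C_23 L11972 N_23)))) (by decide +kernel)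
theorem L11974 : W_23 (nat_lit 2) (nat_lit 0x700050002c001f40080001000080000000000000000000000000000000) (nat_lit 0x0) (nat_lit 0x18000800000000000000000000000000000000000000000000000000000) := D_23 (nat_lit 215) (nat_lit 231) (nat_lit 232) (nat_lit 2) (nat_lit 7) (nat_lit 13) (nat_lit 7) (nat_lit 10) (nat_lit 9) (by decide +kernel)
theorem L11975 : W_23 (nat_lit 3) (nat_lit 0x700010002c001f40080001000080000000000000000000000000000000) (nat_lit 0x0) (nat_lit 0x18000e00000000000000000000000000000000000000000000000000000) := T_23 (nat_lit 214) (nat_lit 213) (nat_lit 5) (nat_lit 10) (nat_lit 9) L11974 (by decide +kernel)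
theorem L11976 : W_23 (nat_lit 4) (nat_lit 0x700010002c001f40000001000080000000000000000000000000000000) (nat_lit 0x0) (nat_lit 0x18000e00000000000180000000000000000000000000000000000000000) := T_23 (nat_lit 163) (nat_lit 164) (nat_lit 2) (nat_lit 7) (nat_lit 10) L11975 (by decide +kernel)
theorem L11977 : W_23 (nat_lit 5) (nat_lit 0x700010000c001f40000001000080000000000000000000000000000000) (nat_lit 0x0) (nat_lit 0x18000e00060000000180000000000000000000000000000000000000000) := T_23 (nat_lit 197) (nat_lit 198) (nat_lit 3) (nat_lit 7) (nat_lit 10) L11976 (by decide +kernel)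
theorem L11978 : W_23 (nat_lit 6) (nat_lit 0x300010000c001f40000001000080000000000000000000000000000000) (nat_lit 0x0) (nat_lit 0x8001c000e00060000000180000000000000000000000000000000000000000) := T_23 (nat_lit 230) (nat_lit 247) (nat_lit 7) (nat_lit 8) (nat_lit 10) L11977 (by decide +kernel)
theorem L11979 : W_23 (nat_lit 7) (nat_lit 0x300010000c000f40000001000080000000000000000000000000000000) (nat_lit 0x0) (nat_lit 0x8001c000e00060003000180000000000000000000000000000000000000000) := T_23 (nat_lit 180) (nat_lit 181) (nat_lit 1) (nat_lit 11) (nat_lit 10) L11978 (by decide +kernel)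
theorem L11980 : W_23 (nat_lit 8) (nat_lit 0x300010000c000740000001000080000000000000000000000000000000) (nat_lit 0x0) (nat_lit 0x8001c000e000600038001c0000000000000000000000000000000000000000) := T_23 (nat_lit 179) (nat_lit 162) (nat_lit 6) (nat_lit 8) (nat_lit 13) L11979 (by decide +kernel)
theorem L11981 : W_23 (nat_lit 9) (nat_lit 0x300010000c000340000001000080000000000000000000000000000000) (nat_lit 0x0) (nat_lit 0xa001c000e00060003c001c0000000000000000000000000000000000000000) := T_23 (nat_lit 178) (nat_lit 245) (nat_lit 5) (nat_lit 8) (nat_lit 10) L11980 (by decide +kernel)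
theorem L11982 : W_23 (nat_lit 10) (nat_lit 0x300010000c000300000001000080000000000000000000000000000000) (nat_lit 0x0) (nat_lit 0xa001c000e00060003cc01c0000000000000000000000000000000000000000) := T_23 (nat_lit 174) (nat_lit 175) (nat_lit 3) (nat_lit 4) (nat_lit 10) L11981 (by decide +kernel)
theorem L11983 : W_23 (nat_lit 11) (nat_lit 0x100010000c000300000001000080000000000000000000000000000000) (nat_lit 0x0) (nat_lit 0xe001e000e00060003cc01c0000000000000000000000000000000000000000) := T_23 (nat_lit 229) (nat_lit 246) (nat_lit 4) (nat_lit 8) (nat_lit 14) L11982 (by decide +kernel)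
theorem L11984 : W_23 (nat_lit 2) (nat_lit 0x100018000c000300000001000080000000000000000000000000000000) (nat_lit 0x0) (nat_lit 0x400020000000000000000400000000000000000000000000000000000000000000) := D_23 (nat_lit 245) (nat_lit 178) (nat_lit 262) (nat_lit 6) (nat_lit 7) (nat_lit 14) (nat_lit 6) (nat_lit 7) (nat_lit 15) (by decide +kernel)
theorem L11985 : W_23 (nat_lit 3) (nat_lit 0x100010000c000300000001000080000000000000000000000000000000) (nat_lit 0x0) (nat_lit 0x400020000000080000000400008000000000000000000000000000000000000000) := T_23 (nat_lit 211) (nat_lit 159) (nat_lit 4) (nat_lit 7) (nat_lit 13) L11984 (by decide +kernel)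
theorem L11986 : W_23 (nat_lit 2) (nat_lit 0x40001c0018000c000340000001000080000000000000000000000000000000) (nat_lit 0x0) (nat_lit 0x640000000000000000000000000000000000000000000000000000) := D_23 (nat_lit 213) (nat_lit 214) (nat_lit 210) (nat_lit 1) (nat_lit 10) (nat_lit 12) (nat_lit 1) (nat_lit 9) (nat_lit 12) (by decide +kernel)
theorem L11987 : W_23 (nat_lit 3) (nat_lit 0x4000180018000c000340000001000080000000000000000000000000000000) (nat_lit 0x0) (nat_lit 0x600640000000000000000000000000000000000000000000000000000) := T_23 (nat_lit 226) (nat_lit 225) (nat_lit 2) (nat_lit 4) (nat_lit 13) L11986 (by decide +kernel)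
theorem L11988 : W_23 (nat_lit 4) (nat_lit 0x4000100018000c000340000001000080000000000000000000000000000000) (nat_lit 0x0) (nat_lit 0x10000e00640000000000000000000000000000000000000000000000000000) := T_23 (nat_lit 227) (nat_lit 244) (nat_lit 5) (nat_lit 7) (nat_lit 10) L11987 (by decide +kernel)
theorem L11989 : W_23 (nat_lit 5) (nat_lit 0x4000100010000c000340000001000080000000000000000000000000000000) (nat_lit 0x0) (nat_lit 0x10000e006c0000000000008000000000000000000000000000000000000000) := T_23 (nat_lit 211) (nat_lit 159) (nat_lit 4) (nat_lit 7) (nat_lit 13) L11988 (by decide +kernel)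
theorem L11990 : W_23 (nat_lit 6) (nat_lit 0x100010000c000340000001000080000000000000000000000000000000) (nat_lit 0x0) (nat_lit 0x50002e006c0000000000008000000000000000000000000000000000000000) := T_23 (nat_lit 246) (nat_lit 229) (nat_lit 4) (nat_lit 8) (nat_lit 14) L11989 (by decide +kernel)
theorem L11991 : W_23 (nat_lit 7) (nat_lit 0x100010000c000300000001000080000000000000000000000000000000) (nat_lit 0x0) (nat_lit 0x50002e006c00000000c0008000000000000000000000000000000000000000) := T_23 (nat_lit 174) (nat_lit 175) (nat_lit 3) (nat_lit 4) (nat_lit 10) L11990 (by decide +kernel)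
theorem L11992 : W_23 (nat_lit 12) (nat_lit 0x10000c000300000001000080000000000000000000000000000000) (nat_lit 0x0) (nat_lit 0xc000f001fe00ec0060003cc01c8000000000000000000000000000000000000000) := Q_23 (nat_lit 228) (C_23 L11983 (C_23 L11936 (C_23 L11985 (C_23 L11991 N_23)))) (by decide +kernel)
theorem L11993 : W_23 (nat_lit 2) (nat_lit 0x10000c000340010001000080000000000000000000000000000000) (nat_lit 0x0) (nat_lit 0x40002000000000000400000000000000000000000000000000000000000000) := D_23 (nat_lit 229) (nat_lit 246) (nat_lit 178) (nat_lit 4) (nat_lit 8) (nat_lit 14) (nat_lit 4) (nat_lit 8) (nat_lit 13) (by decide +kernel)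
theorem L11994 : W_23 (nat_lit 3) (nat_lit 0x10000c000340000001000080000000000000000000000000000000) (nat_lit 0x0) (nat_lit 0x40002000000000000400010000800000000000000000000000000000000000) := T_23 (nat_lit 160) (nat_lit 143) (nat_lit 7) (nat_lit 7) (nat_lit 8) L11993 (by decide +kernel)
theorem L11995 : W_23 (nat_lit 4) (nat_lit 0x10000c000300000001000080000000000000000000000000000000) (nat_lit 0x0) (nat_lit 0x400020000000000004c0010000800000000000000000000000000000000000) := T_23 (nat_lit 174) (nat_lit 175) (nat_lit 3) (nat_lit 4) (nat_lit 10) L11994 (by decide +kernel)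
theorem L11998 : W_23 (nat_lit 4) (nat_lit 0x18000c000340010001000080000000000000000000000000000000) (nat_lit 0x0) (nat_lit 0x400030001800040000000400000000000000000000000000000000000000000000) := T_23 (nat_lit 227) (nat_lit 210) (nat_lit 5) (nat_lit 7) (nat_lit 9) L11997 (by decide +kernel)
theorem L11999 : W_23 (nat_lit 5) (nat_lit 0x18000c000340000001000080000000000000000000000000000000) (nat_lit 0x0) (nat_lit 0x400030001800040000000400010000800000000000000000000000000000000000) := T_23 (nat_lit 160) (nat_lit 143) (nat_lit 7) (nat_lit 7) (nat_lit 8) L11998 (by decide +kernel)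
theorem L12000 : W_23 (nat_lit 6) (nat_lit 0x18000c000300000001000080000000000000000000000000000000) (nat_lit 0x0) (nat_lit 0x4000300018000400000004c0010000800000000000000000000000000000000000) := T_23 (nat_lit 174) (nat_lit 175) (nat_lit 3) (nat_lit 4) (nat_lit 10) L11999 (by decide +kernel)
theorem L12001 : W_23 (nat_lit 3) (nat_lit 0x1e000c000380010001000080000000000000000000000000000000) (nat_lit 0x0) (nat_lit 0x1600000001000000008000000000000000000000000000000000000000) := T_23 (nat_lit 159) (nat_lit 228) (nat_lit 4) (nat_lit 7) (nat_lit 13) L7963 (by decide +kernel)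
theorem L12002 : W_23 (nat_lit 4) (nat_lit 0x1e000c000300010001000080000000000000000000000000000000) (nat_lit 0x0) (nat_lit 0x16000000010000c0008000000000000000000000000000000000000000) := T_23 (nat_lit 175) (nat_lit 174) (nat_lit 3) (nat_lit 4) (nat_lit 10) L12001 (by decide +kernel)
theorem L12003 : W_23 (nat_lit 5) (nat_lit 0x1c000c000300010001000080000000000000000000000000000000) (nat_lit 0x0) (nat_lit 0x16000300010000c0008000000000000000000000000000000000000000) := T_23 (nat_lit 209) (nat_lit 208) (nat_lit 2) (nat_lit 4) (nat_lit 12) L12002 (by decide +kernel)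
theorem L12004 : W_23 (nat_lit 6) (nat_lit 0x18000c000300010001000080000000000000000000000000000000) (nat_lit 0x0) (nat_lit 0x1e000700010000c0008000000000000000000000000000000000000000) := T_23 (nat_lit 210) (nat_lit 227) (nat_lit 5) (nat_lit 7) (nat_lit 9) L12003 (by decide +kernel)
theorem L12005 : W_23 (nat_lit 7) (nat_lit 0x18000c000300000001000080000000000000000000000000000000) (nat_lit 0x0) (nat_lit 0x1e000700010000c0018000800000000000000000000000000000000000) := T_23 (nat_lit 160) (nat_lit 143) (nat_lit 7) (nat_lit 7) (nat_lit 8) L12004 (by decide +kernel)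
theorem L12006 : W_23 (nat_lit 2) (nat_lit 0x4001e000c000380010001000080000000000000000000000000000000) (nat_lit 0x0) (nat_lit 0x1800000008000000000000000000000000000000000000000) := D_23 (nat_lit 192) (nat_lit 191) (nat_lit 159) (nat_lit 0) (nat_lit 8) (nat_lit 12) (nat_lit 6) (nat_lit 5) (nat_lit 13) (by decide +kernel)
theorem L12007 : W_23 (nat_lit 3) (nat_lit 0x1e000c000380010001000080000000000000000000000000000000) (nat_lit 0x0) (nat_lit 0x600000001800000008000000000000000000000000000000000000000) := T_23 (nat_lit 226) (nat_lit 225) (nat_lit 1) (nat_lit 8) (nat_lit 12) L12006 (by decide +kernel)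
theorem L12008 : W_23 (nat_lit 4) (nat_lit 0x1c000c000380010001000080000000000000000000000000000000) (nat_lit 0x0) (nat_lit 0x600030001800000008000000000000000000000000000000000000000) := T_23 (nat_lit 209) (nat_lit 208) (nat_lit 2) (nat_lit 4) (nat_lit 12) L12007 (by decide +kernel)
theorem L12009 : W_23 (nat_lit 5) (nat_lit 0x18000c000380010001000080000000000000000000000000000000) (nat_lit 0x0) (nat_lit 0xe00070001800000008000000000000000000000000000000000000000) := T_23 (nat_lit 210) (nat_lit 227) (nat_lit 5) (nat_lit 7) (nat_lit 9) L12008 (by decide +kernel)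
theorem L12010 : W_23 (nat_lit 6) (nat_lit 0x18000c000300010001000080000000000000000000000000000000) (nat_lit 0x0) (nat_lit 0xe000700018000c0008000000000000000000000000000000000000000) := T_23 (nat_lit 175) (nat_lit 174) (nat_lit 3) (nat_lit 4) (nat_lit 10) L12009 (by decide +kernel)
theorem L12011 : W_23 (nat_lit 7) (nat_lit 0x18000c000300000001000080000000000000000000000000000000) (nat_lit 0x0) (nat_lit 0xe000700018000c0018000800000000000000000000000000000000000) := T_23 (nat_lit 160) (nat_lit 143) (nat_lit 7) (nat_lit 7) (nat_lit 8) L12010 (by decide +kernel)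
theorem L12012 : W_23 (nat_lit 2) (nat_lit 0x100018000c000340000001000080000000000000000000000000000000) (nat_lit 0x0) (nat_lit 0x400020000000000000000400000000000000000000000000000000000000000000) := D_23 (nat_lit 245) (nat_lit 178) (nat_lit 262) (nat_lit 6) (nat_lit 7) (nat_lit 14) (nat_lit 6) (nat_lit 7) (nat_lit 15) (by decide +kernel)
theorem L12013 : W_23 (nat_lit 3) (nat_lit 0x18000c000340000001000080000000000000000000000000000000) (nat_lit 0x0) (nat_lit 0x400020001000000000000400008000000000000000000000000000000000000000) := T_23 (nat_lit 228) (nat_lit 159) (nat_lit 4) (nat_lit 7) (nat_lit 13) L12012 (by decide +kernel)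
theorem L12014 : W_23 (nat_lit 4) (nat_lit 0x18000c000300000001000080000000000000000000000000000000) (nat_lit 0x0) (nat_lit 0x4000200010000000000004c0008000000000000000000000000000000000000000) := T_23 (nat_lit 174) (nat_lit 175) (nat_lit 3) (nat_lit 4) (nat_lit 10) L12013 (by decide +kernel)
theorem L12015 : W_23 (nat_lit 8) (nat_lit 0x10000c000300000001000080000000000000000000000000000000) (nat_lit 0x0) (nat_lit 0x400030001e000f00018004c0018000800000000000000000000000000000000000) := Q_23 (nat_lit 211) (C_23 L12000 (C_23 L11960 (C_23 L12005 (C_23 L12011 (C_23 L12014 N_23))))) (by decide +kernel)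
theorem L12016 : W_23 (nat_lit 13) (nat_lit 0xc000300000001000080000000000000000000000000000000) (nat_lit 0x0) (nat_lit 0xc000f001fe00ff0061803cc01d8000800000000000000000000000000000000000) := Q_23 (nat_lit 212) (C_23 L11992 (C_23 L11737 (C_23 L11995 (C_23 L12015 N_23)))) (by decide +kernel)
theorem L12017 : W_23 (nat_lit 2) (nat_lit 0x200000000d000f80094001000080000000000000000000000000000000) (nat_lit 0x0) (nat_lit 0x3000100000000000000000000000000000000000000000) := D_23 (nat_lit 180) (nat_lit 181) (nat_lit 164) (nat_lit 1) (nat_lit 11) (nat_lit 10) (nat_lit 2) (nat_lit 7) (nat_lit 10) (by decide +kernel)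
theorem L12018 : W_23 (nat_lit 3) (nat_lit 0x200000000d000f80014001000080000000000000000000000000000000) (nat_lit 0x0) (nat_lit 0x30001c0000000000000000000000000000000000000000) := T_23 (nat_lit 163) (nat_lit 162) (nat_lit 2) (nat_lit 6) (nat_lit 10) L12017 (by decide +kernel)
theorem L12019 : W_23 (nat_lit 4) (nat_lit 0x200000000d000780014001000080000000000000000000000000000000) (nat_lit 0x0) (nat_lit 0x38001c8000000000000000000000000000000000000000) := T_23 (nat_lit 179) (nat_lit 159) (nat_lit 0) (nat_lit 9) (nat_lit 10) L12018 (by decide +kernel)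
theorem L12020 : W_23 (nat_lit 5) (nat_lit 0x200000000d000780010001000080000000000000000000000000000000) (nat_lit 0x0) (nat_lit 0x38001ce000000000000000000000000000000000000000) := T_23 (nat_lit 158) (nat_lit 157) (nat_lit 0) (nat_lit 8) (nat_lit 10) L12019 (by decide +kernel)
theorem L12021 : W_23 (nat_lit 6) (nat_lit 0xd000780010001000080000000000000000000000000000000) (nat_lit 0x0) (nat_lit 0x20001000000038001ce000000000000000000000000000000000000000) := T_23 (nat_lit 229) (nat_lit 212) (nat_lit 4) (nat_lit 8) (nat_lit 13) L12020 (by decide +kernel)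
theorem L12022 : W_23 (nat_lit 7) (nat_lit 0xc000780010001000080000000000000000000000000000000) (nat_lit 0x0) (nat_lit 0x20001000018038001ce000000000000000000000000000000000000000) := T_23 (nat_lit 192) (nat_lit 191) (nat_lit 1) (nat_lit 8) (nat_lit 10) L12021 (by decide +kernel)
theorem L12023 : W_23 (nat_lit 8) (nat_lit 0xc000380010001000080000000000000000000000000000000) (nat_lit 0x0) (nat_lit 0x2000100011803c001ce000000000000000000000000000000000000000) := T_23 (nat_lit 178) (nat_lit 196) (nat_lit 3) (nat_lit 5) (nat_lit 10) L12022 (by decide +kernel)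
theorem L12024 : W_23 (nat_lit 9) (nat_lit 0xc000300010001000080000000000000000000000000000000) (nat_lit 0x0) (nat_lit 0x2000100011803cc01ce000000000000000000000000000000000000000) := T_23 (nat_lit 175) (nat_lit 174) (nat_lit 3) (nat_lit 4) (nat_lit 10) L12023 (by decide +kernel)
theorem L12025 : W_23 (nat_lit 10) (nat_lit 0xc000300000001000080000000000000000000000000000000) (nat_lit 0x0) (nat_lit 0x2000100011803cc01de000800000000000000000000000000000000000) := T_23 (nat_lit 160) (nat_lit 143) (nat_lit 6) (nat_lit 7) (nat_lit 11) L12024 (by decide +kernel)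
theorem L12026 : W_23 (nat_lit 14) (nat_lit 0x4000300000001000080000000000000000000000000000000) (nat_lit 0x0) (nat_lit 0x1c000f001fe00ff0079803cc01de000800000000000000000000000000000000000) := Q_23 (nat_lit 195) (C_23 L11828 (C_23 L10838 (C_23 L11973 (C_23 L12016 (C_23 L12025 N_23))))) (by decide +kernel)
theorem L12027 : W_23 (nat_lit 6) (nat_lit 0xe000300000001000080000000000000000000000000000000) (nat_lit 0x0) (nat_lit 0x2800378001c00c00010000800000000000000000000000000000000000) := Q_23 (nat_lit 192) (C_23 L11869 (C_23 L11732 (C_23 L11585 N_23))) (by decide +kernel)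
theorem L12028 : W_23 (nat_lit 7) (nat_lit 0xc000300000001000080000000000000000000000000000000) (nat_lit 0x0) (nat_lit 0x2800778033c01c00010000800000000000000000000000000000000000) := Q_23 (nat_lit 193) (C_23 L11663 (C_23 L11678 (C_23 L12027 N_23))) (by decide +kernel)
theorem L12029 : W_23 (nat_lit 6) (nat_lit 0xd000300000001000080000000000000000000000000000000) (nat_lit 0x0) (nat_lit 0x2800378002c00c00010000800000000000000000000000000000000000) := Q_23 (nat_lit 193) (C_23 L11869 (C_23 L11732 (C_23 L11585 N_23))) (by decide +kernel)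
theorem L12030 : W_23 (nat_lit 6) (nat_lit 0xd000300000001000080000000000000000000000000000000) (nat_lit 0x0) (nat_lit 0x8000c00078002c000e0018000800000000000000000000000000000000000) := Q_23 (nat_lit 193) (C_23 L11869 (C_23 L11632 (C_23 L11603 N_23))) (by decide +kernel)
theorem L12031 : W_23 (nat_lit 9) (nat_lit 0xc000300000001000080000000000000000000000000000000) (nat_lit 0x0) (nat_lit 0x58002c00378003c03ce01de000a00010000000000000000000000000000000) := Q_23 (nat_lit 192) (C_23 L12029 (C_23 L12030 (C_23 L11617 (C_23 L11733 N_23)))) (by decide +kernel)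
theorem L12032 : W_23 (nat_lit 11) (nat_lit 0x4000300000001000080000000000000000000000000000000) (nat_lit 0x0) (nat_lit 0x58002c0077803bc03ce01de000a00010000000000000000000000000000000) := Q_23 (nat_lit 195) (C_23 L10838 (C_23 L12025 (C_23 L5316 (C_23 L12028 (C_23 L12031 N_23))))) (by decide +kernel)
theorem L12039 : W_23 (nat_lit 2) (nat_lit 0x5c000600030001c001000080000000000000000000000000000000) (nat_lit 0x0) (nat_lit 0x400003000000000000000000000000000000000000000) := D_23 (nat_lit 157) (nat_lit 178) (nat_lit 156) (nat_lit 3) (nat_lit 4) (nat_lit 9) (nat_lit 3) (nat_lit 3) (nat_lit 9) (by decide +kernel)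
theorem L12040 : W_23 (nat_lit 3) (nat_lit 0x5c0006000300018001000080000000000000000000000000000000) (nat_lit 0x0) (nat_lit 0x400007000200000000000000000000000000000000000) := T_23 (nat_lit 158) (nat_lit 141) (nat_lit 4) (nat_lit 6) (nat_lit 12) L12039 (by decide +kernel)
theorem L12041 : W_23 (nat_lit 4) (nat_lit 0x1c0006000300018001000080000000000000000000000000000000) (nat_lit 0x0) (nat_lit 0x600000000400007000200000000000000000000000000000000000) := T_23 (nat_lit 214) (nat_lit 213) (nat_lit 0) (nat_lit 10) (nat_lit 12) L12040 (by decide +kernel)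
theorem L12042 : W_23 (nat_lit 5) (nat_lit 0xc0006000300018001000080000000000000000000000000000000) (nat_lit 0x0) (nat_lit 0x2000700000000400007000200000000000000000000000000000000000) := T_23 (nat_lit 212) (nat_lit 229) (nat_lit 7) (nat_lit 7) (nat_lit 9) L12041 (by decide +kernel)
theorem L12043 : W_23 (nat_lit 6) (nat_lit 0x40006000300018001000080000000000000000000000000000000) (nat_lit 0x0) (nat_lit 0x3000780000000400007000200000000000000000000000000000000000) := T_23 (nat_lit 211) (nat_lit 228) (nat_lit 7) (nat_lit 6) (nat_lit 9) L12042 (by decide +kernel)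
theorem L12044 : W_23 (nat_lit 7) (nat_lit 0x40006000300008001000080000000000000000000000000000000) (nat_lit 0x0) (nat_lit 0x3000780000000400017000a00000000000000000000000000000000000) := T_23 (nat_lit 160) (nat_lit 143) (nat_lit 6) (nat_lit 7) (nat_lit 11) L12043 (by decide +kernel)
theorem L12045 : W_23 (nat_lit 2) (nat_lit 0x1e801600030001d001000080000000000000000000000000000000) (nat_lit 0x0) (nat_lit 0x600020000000000000000000000000000000000000000000000000) := D_23 (nat_lit 213) (nat_lit 197) (nat_lit 214) (nat_lit 2) (nat_lit 6) (nat_lit 12) (nat_lit 0) (nat_lit 10) (nat_lit 12) (by decide +kernel)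
theorem L12046 : W_23 (nat_lit 3) (nat_lit 0xe801600030001d001000080000000000000000000000000000000) (nat_lit 0x0) (nat_lit 0x2000700020000000000000000000000000000000000000000000000000) := T_23 (nat_lit 212) (nat_lit 229) (nat_lit 7) (nat_lit 7) (nat_lit 9) L12045 (by decide +kernel)
theorem L12047 : W_23 (nat_lit 4) (nat_lit 0xe801600030001c001000080000000000000000000000000000000) (nat_lit 0x0) (nat_lit 0x2000700020000000003000000000000000000000000000000000000000) := T_23 (nat_lit 156) (nat_lit 157) (nat_lit 3) (nat_lit 3) (nat_lit 9) L12046 (by decide +kernel)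
theorem L12048 : W_23 (nat_lit 5) (nat_lit 0xe8016000300018001000080000000000000000000000000000000) (nat_lit 0x0) (nat_lit 0x2000700020000000007000200000000000000000000000000000000000) := T_23 (nat_lit 158) (nat_lit 141) (nat_lit 4) (nat_lit 6) (nat_lit 12) L12047 (by decide +kernel)
theorem L12049 : W_23 (nat_lit 6) (nat_lit 0x68016000300018001000080000000000000000000000000000000) (nat_lit 0x0) (nat_lit 0x3000780020000000007000200000000000000000000000000000000000) := T_23 (nat_lit 211) (nat_lit 228) (nat_lit 7) (nat_lit 6) (nat_lit 9) L12048 (by decide +kernel)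
theorem L12050 : W_23 (nat_lit 7) (nat_lit 0x68016000300008001000080000000000000000000000000000000) (nat_lit 0x0) (nat_lit 0x3000780020000000017000a00000000000000000000000000000000000) := T_23 (nat_lit 160) (nat_lit 143) (nat_lit 6) (nat_lit 7) (nat_lit 11) L12049 (by decide +kernel)
theorem L12051 : W_23 (nat_lit 8) (nat_lit 0x68006000300008001000080000000000000000000000000000000) (nat_lit 0x0) (nat_lit 0x3000780038000000017000a00000000000000000000000000000000000) := T_23 (nat_lit 196) (nat_lit 195) (nat_lit 1) (nat_lit 9) (nat_lit 11) L12050 (by decide +kernel)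
theorem L12052 : W_23 (nat_lit 9) (nat_lit 0x60006000300008001000080000000000000000000000000000000) (nat_lit 0x0) (nat_lit 0x3000798038000000017000a00000000000000000000000000000000000) := T_23 (nat_lit 207) (nat_lit 208) (nat_lit 2) (nat_lit 3) (nat_lit 12) L12051 (by decide +kernel)
theorem L12053 : W_23 (nat_lit 10) (nat_lit 0x40006000300008001000080000000000000000000000000000000) (nat_lit 0x0) (nat_lit 0x34007b8038000000017000a00000000000000000000000000000000000) := T_23 (nat_lit 209) (nat_lit 226) (nat_lit 5) (nat_lit 6) (nat_lit 9) L12052 (by decide +kernel)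
theorem L12054 : W_23 (nat_lit 2) (nat_lit 0x6801600030001c001000080000000000000000000000000000000) (nat_lit 0x0) (nat_lit 0x400003000000000000000000000000000000000000000) := D_23 (nat_lit 157) (nat_lit 178) (nat_lit 156) (nat_lit 3) (nat_lit 4) (nat_lit 9) (nat_lit 3) (nat_lit 3) (nat_lit 9) (by decide +kernel)
theorem L12055 : W_23 (nat_lit 3) (nat_lit 0x68016000300018001000080000000000000000000000000000000) (nat_lit 0x0) (nat_lit 0x400007000200000000000000000000000000000000000) := T_23 (nat_lit 158) (nat_lit 141) (nat_lit 4) (nat_lit 6) (nat_lit 12) L12054 (by decide +kernel)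
theorem L12056 : W_23 (nat_lit 4) (nat_lit 0x68006000300018001000080000000000000000000000000000000) (nat_lit 0x0) (nat_lit 0x18000400007000200000000000000000000000000000000000) := T_23 (nat_lit 196) (nat_lit 195) (nat_lit 1) (nat_lit 9) (nat_lit 11) L12055 (by decide +kernel)
theorem L12057 : W_23 (nat_lit 5) (nat_lit 0x60006000300018001000080000000000000000000000000000000) (nat_lit 0x0) (nat_lit 0x18018000400007000200000000000000000000000000000000000) := T_23 (nat_lit 207) (nat_lit 208) (nat_lit 2) (nat_lit 3) (nat_lit 12) L12056 (by decide +kernel)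
theorem L12058 : W_23 (nat_lit 6) (nat_lit 0x40006000300018001000080000000000000000000000000000000) (nat_lit 0x0) (nat_lit 0x400038018000400007000200000000000000000000000000000000000) := T_23 (nat_lit 209) (nat_lit 226) (nat_lit 5) (nat_lit 6) (nat_lit 9) L12057 (by decide +kernel)
theorem L12059 : W_23 (nat_lit 7) (nat_lit 0x40006000300008001000080000000000000000000000000000000) (nat_lit 0x0) (nat_lit 0x400038018000400017000a00000000000000000000000000000000000) := T_23 (nat_lit 160) (nat_lit 143) (nat_lit 6) (nat_lit 7) (nat_lit 11) L12058 (by decide +kernel)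
theorem L12060 : W_23 (nat_lit 2) (nat_lit 0xe0006000b0000d001000080000000000000000000000000000000) (nat_lit 0x0) (nat_lit 0x18008000000000000000000000000000000000000000000000000) := D_23 (nat_lit 208) (nat_lit 195) (nat_lit 207) (nat_lit 2) (nat_lit 4) (nat_lit 12) (nat_lit 2) (nat_lit 3) (nat_lit 12) (by decide +kernel)
theorem L12061 : W_23 (nat_lit 3) (nat_lit 0xc0006000b0000d001000080000000000000000000000000000000) (nat_lit 0x0) (nat_lit 0x400038008000000000000000000000000000000000000000000000000) := T_23 (nat_lit 209) (nat_lit 226) (nat_lit 5) (nat_lit 6) (nat_lit 9) L12060 (by decide +kernel)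
theorem L12062 : W_23 (nat_lit 4) (nat_lit 0x40006000b0000d001000080000000000000000000000000000000) (nat_lit 0x0) (nat_lit 0x14000b8008000000000000000000000000000000000000000000000000) := T_23 (nat_lit 211) (nat_lit 228) (nat_lit 7) (nat_lit 6) (nat_lit 9) L12061 (by decide +kernel)
theorem L12063 : W_23 (nat_lit 5) (nat_lit 0x4000600030000d001000080000000000000000000000000000000) (nat_lit 0x0) (nat_lit 0x14000b8008000c00000000000000000000000000000000000000000000) := T_23 (nat_lit 179) (nat_lit 178) (nat_lit 0) (nat_lit 9) (nat_lit 10) L12062 (by decide +kernel)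
theorem L12064 : W_23 (nat_lit 6) (nat_lit 0x4000600030000c001000080000000000000000000000000000000) (nat_lit 0x0) (nat_lit 0x14000b8008000c00003000000000000000000000000000000000000000) := T_23 (nat_lit 156) (nat_lit 157) (nat_lit 3) (nat_lit 3) (nat_lit 9) L12063 (by decide +kernel)
theorem L12065 : W_23 (nat_lit 7) (nat_lit 0x40006000300008001000080000000000000000000000000000000) (nat_lit 0x0) (nat_lit 0x14000b8008000c00007000200000000000000000000000000000000000) := T_23 (nat_lit 158) (nat_lit 141) (nat_lit 4) (nat_lit 6) (nat_lit 12) L12064 (by decide +kernel)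
theorem L12066 : W_23 (nat_lit 2) (nat_lit 0x1e8016000300018001000080000000000000000000000000000000) (nat_lit 0x0) (nat_lit 0x600020000000000000000000000000000000000000000000000000) := D_23 (nat_lit 213) (nat_lit 197) (nat_lit 214) (nat_lit 2) (nat_lit 6) (nat_lit 12) (nat_lit 0) (nat_lit 10) (nat_lit 12) (by decide +kernel)
theorem L12067 : W_23 (nat_lit 3) (nat_lit 0xe8016000300018001000080000000000000000000000000000000) (nat_lit 0x0) (nat_lit 0x2000700020000000000000000000000000000000000000000000000000) := T_23 (nat_lit 212) (nat_lit 229) (nat_lit 7) (nat_lit 7) (nat_lit 9) L12066 (by decide +kernel)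
theorem L12068 : W_23 (nat_lit 4) (nat_lit 0x68016000300018001000080000000000000000000000000000000) (nat_lit 0x0) (nat_lit 0x3000780020000000000000000000000000000000000000000000000000) := T_23 (nat_lit 211) (nat_lit 228) (nat_lit 7) (nat_lit 6) (nat_lit 9) L12067 (by decide +kernel)
theorem L12069 : W_23 (nat_lit 5) (nat_lit 0x68016000300008001000080000000000000000000000000000000) (nat_lit 0x0) (nat_lit 0x3000780020000000010000800000000000000000000000000000000000) := T_23 (nat_lit 160) (nat_lit 143) (nat_lit 6) (nat_lit 7) (nat_lit 11) L12068 (by decide +kernel)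
theorem L12070 : W_23 (nat_lit 6) (nat_lit 0x68006000300008001000080000000000000000000000000000000) (nat_lit 0x0) (nat_lit 0x3000780038000000010000800000000000000000000000000000000000) := T_23 (nat_lit 196) (nat_lit 195) (nat_lit 1) (nat_lit 9) (nat_lit 11) L12069 (by decide +kernel)
theorem L12071 : W_23 (nat_lit 7) (nat_lit 0x60006000300008001000080000000000000000000000000000000) (nat_lit 0x0) (nat_lit 0x3000798038000000010000800000000000000000000000000000000000) := T_23 (nat_lit 207) (nat_lit 208) (nat_lit 2) (nat_lit 3) (nat_lit 12) L12070 (by decide +kernel)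
theorem L12072 : W_23 (nat_lit 8) (nat_lit 0x40006000300008001000080000000000000000000000000000000) (nat_lit 0x0) (nat_lit 0x34007b8038000000010000800000000000000000000000000000000000) := T_23 (nat_lit 209) (nat_lit 226) (nat_lit 5) (nat_lit 6) (nat_lit 9) L12071 (by decide +kernel)
theorem L12073 : W_23 (nat_lit 11) (nat_lit 0x40006000300000001000080000000000000000000000000000000) (nat_lit 0x0) (nat_lit 0x34007b8038000c0001f000a00000000000000000000000000000000000) := Q_23 (nat_lit 159) (C_23 L12044 (C_23 L12053 (C_23 L12059 (C_23 L12065 (C_23 L12072 N_23))))) (by decide +kernel)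
theorem L12074 : W_23 (nat_lit 12) (nat_lit 0x6000300000001000080000000000000000000000000000000) (nat_lit 0x0) (nat_lit 0x38003c007f8038000c0001f000a00000000000000000000000000000000000) := Q_23 (nat_lit 210) (C_23 L12033 (C_23 L12034 (C_23 L12038 (C_23 L12073 N_23)))) (by decide +kernel)
theorem L12082 : W_23 (nat_lit 4) (nat_lit 0x68006000300010001000080000000000000000000000000000000) (nat_lit 0x0) (nat_lit 0x40000000000040000f000200000000000000000000000000000000000) := T_23 (nat_lit 159) (nat_lit 226) (nat_lit 5) (nat_lit 6) (nat_lit 9) L12081 (by decide +kernel)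
theorem L12083 : W_23 (nat_lit 5) (nat_lit 0x60006000300010001000080000000000000000000000000000000) (nat_lit 0x0) (nat_lit 0x40001800000040000f000200000000000000000000000000000000000) := T_23 (nat_lit 207) (nat_lit 208) (nat_lit 2) (nat_lit 3) (nat_lit 12) L12082 (by decide +kernel)
theorem L12084 : W_23 (nat_lit 6) (nat_lit 0x60006000300000001000080000000000000000000000000000000) (nat_lit 0x0) (nat_lit 0x40001800000040001f000a00000000000000000000000000000000000) := T_23 (nat_lit 160) (nat_lit 143) (nat_lit 6) (nat_lit 7) (nat_lit 11) L12083 (by decide +kernel)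
theorem L12085 : W_23 (nat_lit 2) (nat_lit 0x6000e00030001d001000080000000000000000000000000000000) (nat_lit 0x0) (nat_lit 0x18001000000000000000000000000000000000000000000000000) := D_23 (nat_lit 208) (nat_lit 207) (nat_lit 192) (nat_lit 2) (nat_lit 3) (nat_lit 12) (nat_lit 1) (nat_lit 8) (nat_lit 11) (by decide +kernel)
theorem L12086 : W_23 (nat_lit 3) (nat_lit 0x6000600030001d001000080000000000000000000000000000000) (nat_lit 0x0) (nat_lit 0x18019000000000000000000000000000000000000000000000000) := T_23 (nat_lit 195) (nat_lit 196) (nat_lit 1) (nat_lit 9) (nat_lit 11) L12085 (by decide +kernel)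
theorem L12087 : W_23 (nat_lit 4) (nat_lit 0x6000600030000d001000080000000000000000000000000000000) (nat_lit 0x0) (nat_lit 0x18019000000010000800000000000000000000000000000000000) := T_23 (nat_lit 160) (nat_lit 143) (nat_lit 6) (nat_lit 7) (nat_lit 11) L12086 (by decide +kernel)
theorem L12088 : W_23 (nat_lit 5) (nat_lit 0x6000600030000c001000080000000000000000000000000000000) (nat_lit 0x0) (nat_lit 0x18019000000013000800000000000000000000000000000000000) := T_23 (nat_lit 156) (nat_lit 157) (nat_lit 3) (nat_lit 3) (nat_lit 9) L12087 (by decide +kernel)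
theorem L12089 : W_23 (nat_lit 6) (nat_lit 0x60006000300008001000080000000000000000000000000000000) (nat_lit 0x0) (nat_lit 0x18019000000017000a00000000000000000000000000000000000) := T_23 (nat_lit 158) (nat_lit 141) (nat_lit 4) (nat_lit 6) (nat_lit 12) L12088 (by decide +kernel)
theorem L12090 : W_23 (nat_lit 7) (nat_lit 0x60006000300000001000080000000000000000000000000000000) (nat_lit 0x0) (nat_lit 0x40001801900000001f000a00000000000000000000000000000000000) := T_23 (nat_lit 159) (nat_lit 226) (nat_lit 5) (nat_lit 6) (nat_lit 9) L12089 (by decide +kernel)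
theorem L12091 : W_23 (nat_lit 2) (nat_lit 0x70006000300000001000080000000000000000000000000000000) (nat_lit 0x0) (nat_lit 0x19000000000000000000000000000000000000000000000000) := D_23 (nat_lit 195) (nat_lit 196) (nat_lit 192) (nat_lit 1) (nat_lit 9) (nat_lit 11) (nat_lit 1) (nat_lit 8) (nat_lit 11) (by decide +kernel)
theorem L12092 : W_23 (nat_lit 3) (nat_lit 0x60006000300000001000080000000000000000000000000000000) (nat_lit 0x0) (nat_lit 0x18019000000000000000000000000000000000000000000000000) := T_23 (nat_lit 208) (nat_lit 207) (nat_lit 2) (nat_lit 3) (nat_lit 12) L12091 (by decide +kernel)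
theorem L12093 : W_23 (nat_lit 2) (nat_lit 0x6000600030001c001000080000000000000000000000000000000) (nat_lit 0x0) (nat_lit 0x400003000000000000000000000000000000000000000) := D_23 (nat_lit 157) (nat_lit 178) (nat_lit 156) (nat_lit 3) (nat_lit 4) (nat_lit 9) (nat_lit 3) (nat_lit 3) (nat_lit 9) (by decide +kernel)
theorem L12094 : W_23 (nat_lit 3) (nat_lit 0x60006000300018001000080000000000000000000000000000000) (nat_lit 0x0) (nat_lit 0x400007000200000000000000000000000000000000000) := T_23 (nat_lit 158) (nat_lit 141) (nat_lit 4) (nat_lit 6) (nat_lit 12) L12093 (by decide +kernel)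
theorem L12095 : W_23 (nat_lit 4) (nat_lit 0x60006000300010001000080000000000000000000000000000000) (nat_lit 0x0) (nat_lit 0x40000000000040000f000200000000000000000000000000000000000) := T_23 (nat_lit 159) (nat_lit 226) (nat_lit 5) (nat_lit 6) (nat_lit 9) L12094 (by decide +kernel)
theorem L12096 : W_23 (nat_lit 5) (nat_lit 0x60006000300000001000080000000000000000000000000000000) (nat_lit 0x0) (nat_lit 0x40000000000040001f000a00000000000000000000000000000000000) := T_23 (nat_lit 160) (nat_lit 143) (nat_lit 6) (nat_lit 7) (nat_lit 11) L12095 (by decide +kernel)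
theorem L12097 : W_23 (nat_lit 8) (nat_lit 0x40006000300000001000080000000000000000000000000000000) (nat_lit 0x0) (nat_lit 0x40003801900040001f000a00000000000000000000000000000000000) := Q_23 (nat_lit 209) (C_23 L12084 (C_23 L12090 (C_23 L12092 (C_23 L12096 N_23)))) (by decide +kernel)
theorem L12098 : W_23 (nat_lit 9) (nat_lit 0x6000300000001000080000000000000000000000000000000) (nat_lit 0x0) (nat_lit 0x38003c0007801900040001f000a00000000000000000000000000000000000) := Q_23 (nat_lit 210) (C_23 L12034 (C_23 L12079 (C_23 L12097 N_23))) (by decide +kernel)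
theorem L12099 : W_23 (nat_lit 2) (nat_lit 0x100006800600034001e001100080000000000000000000000000000000) (nat_lit 0x0) (nat_lit 0x1c00000000000000000000000000000000000000000000000) := D_23 (nat_lit 191) (nat_lit 190) (nat_lit 192) (nat_lit 5) (nat_lit 4) (nat_lit 8) (nat_lit 7) (nat_lit 4) (nat_lit 8) (by decide +kernel)
theorem L12100 : W_23 (nat_lit 3) (nat_lit 0x100006800600034001e001000080000000000000000000000000000000) (nat_lit 0x0) (nat_lit 0x1c00000000000180000000000000000000000000000000000) := T_23 (nat_lit 140) (nat_lit 139) (nat_lit 0) (nat_lit 7) (nat_lit 9) L12099 (by decide +kernel)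
theorem L12101 : W_23 (nat_lit 4) (nat_lit 0x100006800600030001e001000080000000000000000000000000000000) (nat_lit 0x0) (nat_lit 0x1c00060000000180000000000000000000000000000000000) := T_23 (nat_lit 174) (nat_lit 173) (nat_lit 1) (nat_lit 7) (nat_lit 9) L12100 (by decide +kernel)
theorem L12102 : W_23 (nat_lit 5) (nat_lit 0x100006800600030001c001000080000000000000000000000000000000) (nat_lit 0x0) (nat_lit 0x1c00060003000180000000000000000000000000000000000) := T_23 (nat_lit 157) (nat_lit 156) (nat_lit 3) (nat_lit 3) (nat_lit 9) L12101 (by decide +kernel)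
theorem L12103 : W_23 (nat_lit 6) (nat_lit 0x1000068006000300018001000080000000000000000000000000000000) (nat_lit 0x0) (nat_lit 0x1c00060007000380000000000000000000000000000000000) := T_23 (nat_lit 158) (nat_lit 141) (nat_lit 4) (nat_lit 6) (nat_lit 12) L12102 (by decide +kernel)
theorem L12104 : W_23 (nat_lit 7) (nat_lit 0x68006000300018001000080000000000000000000000000000000) (nat_lit 0x0) (nat_lit 0x1000080001c00060007000380000000000000000000000000000000000) := T_23 (nat_lit 228) (nat_lit 211) (nat_lit 7) (nat_lit 6) (nat_lit 9) L12103 (by decide +kernel)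
theorem L12105 : W_23 (nat_lit 8) (nat_lit 0x68006000300010001000080000000000000000000000000000000) (nat_lit 0x0) (nat_lit 0x1400080001c0006000f000380000000000000000000000000000000000) := T_23 (nat_lit 159) (nat_lit 226) (nat_lit 5) (nat_lit 6) (nat_lit 9) L12104 (by decide +kernel)
theorem L12106 : W_23 (nat_lit 9) (nat_lit 0x60006000300010001000080000000000000000000000000000000) (nat_lit 0x0) (nat_lit 0x1400098001c0006000f000380000000000000000000000000000000000) := T_23 (nat_lit 207) (nat_lit 208) (nat_lit 2) (nat_lit 3) (nat_lit 12) L12105 (by decide +kernel)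
theorem L12107 : W_23 (nat_lit 10) (nat_lit 0x60006000300000001000080000000000000000000000000000000) (nat_lit 0x0) (nat_lit 0x1400098001c0006001f000b80000000000000000000000000000000000) := T_23 (nat_lit 160) (nat_lit 143) (nat_lit 6) (nat_lit 7) (nat_lit 11) L12106 (by decide +kernel)
theorem L12108 : W_23 (nat_lit 4) (nat_lit 0xe0016000300018001000080000000000000000000000000000000) (nat_lit 0x0) (nat_lit 0x2000718020000000000000000000000000000000000000000000000000) := T_23 (nat_lit 207) (nat_lit 208) (nat_lit 2) (nat_lit 3) (nat_lit 12) L12067 (by decide +kernel)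
theorem L12109 : W_23 (nat_lit 5) (nat_lit 0xe0016000300008001000080000000000000000000000000000000) (nat_lit 0x0) (nat_lit 0x2000718020000000010000800000000000000000000000000000000000) := T_23 (nat_lit 160) (nat_lit 143) (nat_lit 6) (nat_lit 7) (nat_lit 11) L12108 (by decide +kernel)
theorem L12110 : W_23 (nat_lit 6) (nat_lit 0x60016000300008001000080000000000000000000000000000000) (nat_lit 0x0) (nat_lit 0x3000798020000000010000800000000000000000000000000000000000) := T_23 (nat_lit 211) (nat_lit 228) (nat_lit 7) (nat_lit 6) (nat_lit 9) L12109 (by decide +kernel)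
theorem L12111 : W_23 (nat_lit 7) (nat_lit 0x60016000300000001000080000000000000000000000000000000) (nat_lit 0x0) (nat_lit 0x3400798020000000018000800000000000000000000000000000000000) := T_23 (nat_lit 159) (nat_lit 226) (nat_lit 5) (nat_lit 6) (nat_lit 9) L12110 (by decide +kernel)
theorem L12112 : W_23 (nat_lit 8) (nat_lit 0x60006000300000001000080000000000000000000000000000000) (nat_lit 0x0) (nat_lit 0x3400798038000000018000800000000000000000000000000000000000) := T_23 (nat_lit 196) (nat_lit 195) (nat_lit 1) (nat_lit 9) (nat_lit 11) L12111 (by decide +kernel)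
theorem L12113 : W_23 (nat_lit 2) (nat_lit 0x1e001600030001d001000080000000000000000000000000000000) (nat_lit 0x0) (nat_lit 0x200001800000000000000000000000000000000000000000000000) := D_23 (nat_lit 192) (nat_lit 191) (nat_lit 213) (nat_lit 3) (nat_lit 4) (nat_lit 11) (nat_lit 0) (nat_lit 9) (nat_lit 12) (by decide +kernel)
theorem L12114 : W_23 (nat_lit 3) (nat_lit 0xe001600030001d001000080000000000000000000000000000000) (nat_lit 0x0) (nat_lit 0x2000300001800000000000000000000000000000000000000000000000) := T_23 (nat_lit 212) (nat_lit 229) (nat_lit 7) (nat_lit 7) (nat_lit 9) L12113 (by decide +kernel)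
theorem L12115 : W_23 (nat_lit 4) (nat_lit 0xe001600030001c001000080000000000000000000000000000000) (nat_lit 0x0) (nat_lit 0x2000300001800000003000000000000000000000000000000000000000) := T_23 (nat_lit 156) (nat_lit 157) (nat_lit 3) (nat_lit 3) (nat_lit 9) L12114 (by decide +kernel)
theorem L12116 : W_23 (nat_lit 5) (nat_lit 0xe0016000300018001000080000000000000000000000000000000) (nat_lit 0x0) (nat_lit 0x2000300001800000007000200000000000000000000000000000000000) := T_23 (nat_lit 158) (nat_lit 141) (nat_lit 4) (nat_lit 6) (nat_lit 12) L12115 (by decide +kernel)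
theorem L12117 : W_23 (nat_lit 6) (nat_lit 0x60016000300018001000080000000000000000000000000000000) (nat_lit 0x0) (nat_lit 0x3000380001800000007000200000000000000000000000000000000000) := T_23 (nat_lit 211) (nat_lit 228) (nat_lit 7) (nat_lit 6) (nat_lit 9) L12116 (by decide +kernel)
theorem L12118 : W_23 (nat_lit 7) (nat_lit 0x60016000300010001000080000000000000000000000000000000) (nat_lit 0x0) (nat_lit 0x340038000180000000f000200000000000000000000000000000000000) := T_23 (nat_lit 159) (nat_lit 226) (nat_lit 5) (nat_lit 6) (nat_lit 9) L12117 (by decide +kernel)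
theorem L12119 : W_23 (nat_lit 8) (nat_lit 0x60006000300010001000080000000000000000000000000000000) (nat_lit 0x0) (nat_lit 0x340038001980000000f000200000000000000000000000000000000000) := T_23 (nat_lit 196) (nat_lit 195) (nat_lit 1) (nat_lit 9) (nat_lit 11) L12118 (by decide +kernel)
theorem L12120 : W_23 (nat_lit 9) (nat_lit 0x60006000300000001000080000000000000000000000000000000) (nat_lit 0x0) (nat_lit 0x340038001980000001f000a00000000000000000000000000000000000) := T_23 (nat_lit 160) (nat_lit 143) (nat_lit 6) (nat_lit 7) (nat_lit 11) L12119 (by decide +kernel)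
theorem L12121 : W_23 (nat_lit 11) (nat_lit 0x40006000300000001000080000000000000000000000000000000) (nat_lit 0x0) (nat_lit 0x34007b8039c0006001f000b80000000000000000000000000000000000) := Q_23 (nat_lit 209) (C_23 L12107 (C_23 L12092 (C_23 L12112 (C_23 L12120 N_23)))) (by decide +kernel)
theorem L12122 : W_23 (nat_lit 12) (nat_lit 0x6000300000001000080000000000000000000000000000000) (nat_lit 0x0) (nat_lit 0x38003c007f8039c0006001f000b80000000000000000000000000000000000) := Q_23 (nat_lit 210) (C_23 L12079 (C_23 L12034 (C_23 L12121 N_23))) (by decide +kernel)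
theorem L12123 : W_23 (nat_lit 2) (nat_lit 0x1c0006000300018001000080000000000000000000000000000000) (nat_lit 0x0) (nat_lit 0x200001800000000000000000000000000000000000000000000000) := D_23 (nat_lit 192) (nat_lit 191) (nat_lit 213) (nat_lit 3) (nat_lit 4) (nat_lit 11) (nat_lit 0) (nat_lit 9) (nat_lit 12) (by decide +kernel)
theorem L12124 : W_23 (nat_lit 3) (nat_lit 0xc0006000300018001000080000000000000000000000000000000) (nat_lit 0x0) (nat_lit 0x2000300001800000000000000000000000000000000000000000000000) := T_23 (nat_lit 212) (nat_lit 229) (nat_lit 7) (nat_lit 7) (nat_lit 9) L12123 (by decide +kernel)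
theorem L12125 : W_23 (nat_lit 4) (nat_lit 0x40006000300018001000080000000000000000000000000000000) (nat_lit 0x0) (nat_lit 0x3000380001800000000000000000000000000000000000000000000000) := T_23 (nat_lit 211) (nat_lit 228) (nat_lit 7) (nat_lit 6) (nat_lit 9) L12124 (by decide +kernel)
theorem L12126 : W_23 (nat_lit 5) (nat_lit 0x40006000300008001000080000000000000000000000000000000) (nat_lit 0x0) (nat_lit 0x3000380001800000010000800000000000000000000000000000000000) := T_23 (nat_lit 160) (nat_lit 143) (nat_lit 6) (nat_lit 7) (nat_lit 11) L12125 (by decide +kernel)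
theorem L12127 : W_23 (nat_lit 2) (nat_lit 0x4000600030000e001000080000000000000000000000000000000) (nat_lit 0x0) (nat_lit 0xc00010000000000000000000000000000000000000000) := D_23 (nat_lit 178) (nat_lit 179) (nat_lit 160) (nat_lit 0) (nat_lit 9) (nat_lit 10) (nat_lit 3) (nat_lit 4) (nat_lit 9) (by decide +kernel)
theorem L12128 : W_23 (nat_lit 3) (nat_lit 0x4000600030000c001000080000000000000000000000000000000) (nat_lit 0x0) (nat_lit 0xc00013000000000000000000000000000000000000000) := T_23 (nat_lit 157) (nat_lit 156) (nat_lit 3) (nat_lit 3) (nat_lit 9) L12127 (by decide +kernel)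
theorem L12129 : W_23 (nat_lit 4) (nat_lit 0x40006000300008001000080000000000000000000000000000000) (nat_lit 0x0) (nat_lit 0xc00017000200000000000000000000000000000000000) := T_23 (nat_lit 158) (nat_lit 141) (nat_lit 4) (nat_lit 6) (nat_lit 12) L12128 (by decide +kernel)
theorem L12130 : W_23 (nat_lit 2) (nat_lit 0x2003f0006800b0000d001000080000000000000000000000000000000) (nat_lit 0x0) (nat_lit 0xe000000000000000000000000000000000000000000000000000000000) := D_23 (nat_lit 230) (nat_lit 229) (nat_lit 231) (nat_lit 3) (nat_lit 5) (nat_lit 12) (nat_lit 3) (nat_lit 6) (nat_lit 12) (by decide +kernel)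
theorem L12131 : W_23 (nat_lit 3) (nat_lit 0x2001f0006800b0000d001000080000000000000000000000000000000) (nat_lit 0x0) (nat_lit 0xe000600000000000000000000000000000000000000000000000000000) := T_23 (nat_lit 213) (nat_lit 214) (nat_lit 0) (nat_lit 10) (nat_lit 12) L12130 (by decide +kernel)
theorem L12132 : W_23 (nat_lit 4) (nat_lit 0x2000f0006800b0000d001000080000000000000000000000000000000) (nat_lit 0x0) (nat_lit 0xe000700001000000000000000000000000000000000000000000000000) := T_23 (nat_lit 212) (nat_lit 192) (nat_lit 3) (nat_lit 4) (nat_lit 11) L12131 (by decide +kernel)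
theorem L12133 : W_23 (nat_lit 5) (nat_lit 0x2000f0006000b0000d001000080000000000000000000000000000000) (nat_lit 0x0) (nat_lit 0xe000700001c00000000000000000000000000000000000000000000000) := T_23 (nat_lit 191) (nat_lit 190) (nat_lit 0) (nat_lit 7) (nat_lit 12) L12132 (by decide +kernel)
theorem L12134 : W_23 (nat_lit 6) (nat_lit 0xf0006000b0000d001000080000000000000000000000000000000) (nat_lit 0x0) (nat_lit 0xe300700001c00000000000000000000000000000000000000000000000) := T_23 (nat_lit 225) (nat_lit 224) (nat_lit 1) (nat_lit 7) (nat_lit 12) L12133 (by decide +kernel)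
theorem L12135 : W_23 (nat_lit 7) (nat_lit 0xe0006000b0000d001000080000000000000000000000000000000) (nat_lit 0x0) (nat_lit 0xe300718001c00000000000000000000000000000000000000000000000) := T_23 (nat_lit 208) (nat_lit 207) (nat_lit 2) (nat_lit 3) (nat_lit 12) L12134 (by decide +kernel)
theorem L12136 : W_23 (nat_lit 8) (nat_lit 0xc0006000b0000d001000080000000000000000000000000000000) (nat_lit 0x0) (nat_lit 0xe700738001c00000000000000000000000000000000000000000000000) := T_23 (nat_lit 209) (nat_lit 226) (nat_lit 5) (nat_lit 6) (nat_lit 9) L12135 (by decide +kernel)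
theorem L12137 : W_23 (nat_lit 9) (nat_lit 0x40006000b0000d001000080000000000000000000000000000000) (nat_lit 0x0) (nat_lit 0xf7007b8001c00000000000000000000000000000000000000000000000) := T_23 (nat_lit 211) (nat_lit 228) (nat_lit 7) (nat_lit 6) (nat_lit 9) L12136 (by decide +kernel)
theorem L12138 : W_23 (nat_lit 10) (nat_lit 0x4000600030000d001000080000000000000000000000000000000) (nat_lit 0x0) (nat_lit 0xf7007b8001c00c00000000000000000000000000000000000000000000) := T_23 (nat_lit 179) (nat_lit 178) (nat_lit 0) (nat_lit 9) (nat_lit 10) L12137 (by decide +kernel)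
theorem L12139 : W_23 (nat_lit 11) (nat_lit 0x4000600030000c001000080000000000000000000000000000000) (nat_lit 0x0) (nat_lit 0xf7007b8001c00c00003000000000000000000000000000000000000000) := T_23 (nat_lit 156) (nat_lit 157) (nat_lit 3) (nat_lit 3) (nat_lit 9) L12138 (by decide +kernel)
theorem L12140 : W_23 (nat_lit 12) (nat_lit 0x40006000300008001000080000000000000000000000000000000) (nat_lit 0x0) (nat_lit 0xf7007b8001c00c00007000200000000000000000000000000000000000) := T_23 (nat_lit 158) (nat_lit 141) (nat_lit 4) (nat_lit 6) (nat_lit 12) L12139 (by decide +kernel)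
theorem L12141 : W_23 (nat_lit 13) (nat_lit 0x40006000300000001000080000000000000000000000000000000) (nat_lit 0x0) (nat_lit 0xf7007b8001c00c0001f000a00000000000000000000000000000000000) := Q_23 (nat_lit 159) (C_23 L12044 (C_23 L12126 (C_23 L12129 (C_23 L12140 N_23)))) (by decide +kernel)
theorem L12142 : W_23 (nat_lit 14) (nat_lit 0x6000300000001000080000000000000000000000000000000) (nat_lit 0x0) (nat_lit 0x3800ff007f8001c00c0001f000a00000000000000000000000000000000000) := Q_23 (nat_lit 210) (C_23 L12079 (C_23 L12034 (C_23 L12141 N_23))) (by decide +kernel)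
theorem L12143 : W_23 (nat_lit 2) (nat_lit 0x800090007800300010001000080000000000000000000000000000000) (nat_lit 0x0) (nat_lit 0x30001000000000000000000000000000000000000000000000000000000000) := D_23 (nat_lit 228) (nat_lit 245) (nat_lit 244) (nat_lit 4) (nat_lit 7) (nat_lit 14) (nat_lit 5) (nat_lit 7) (nat_lit 10) (by decide +kernel)
theorem L12144 : W_23 (nat_lit 3) (nat_lit 0x800010007800300010001000080000000000000000000000000000000) (nat_lit 0x0) (nat_lit 0x30001000180000000000000000000000000000000000000000000000000000) := T_23 (nat_lit 211) (nat_lit 212) (nat_lit 3) (nat_lit 4) (nat_lit 11) L12143 (by decide +kernel)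
theorem L12145 : W_23 (nat_lit 4) (nat_lit 0x800000007800300010001000080000000000000000000000000000000) (nat_lit 0x0) (nat_lit 0x30001000198000000000000000000000000000000000000000000000000000) := T_23 (nat_lit 208) (nat_lit 207) (nat_lit 1) (nat_lit 7) (nat_lit 11) L12144 (by decide +kernel)
theorem L12146 : W_23 (nat_lit 5) (nat_lit 0x800000007000300010001000080000000000000000000000000000000) (nat_lit 0x0) (nat_lit 0x30001000198000c00000000000000000000000000000000000000000000000) := T_23 (nat_lit 191) (nat_lit 190) (nat_lit 2) (nat_lit 3) (nat_lit 11) L12145 (by decide +kernel)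
theorem L12147 : W_23 (nat_lit 6) (nat_lit 0x7000300010001000080000000000000000000000000000000) (nat_lit 0x0) (nat_lit 0x300018001d8000c00000000000000000000000000000000000000000000000) := T_23 (nat_lit 227) (nat_lit 210) (nat_lit 6) (nat_lit 6) (nat_lit 13) L12146 (by decide +kernel)
theorem L12148 : W_23 (nat_lit 7) (nat_lit 0x7000300000001000080000000000000000000000000000000) (nat_lit 0x0) (nat_lit 0x300018001d8000c00000010000800000000000000000000000000000000000) := T_23 (nat_lit 160) (nat_lit 143) (nat_lit 6) (nat_lit 7) (nat_lit 11) L12147 (by decide +kernel)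
theorem L12150 : W_23 (nat_lit 2) (nat_lit 0x800000012002f000300010001000080000000000000000000000000000000) (nat_lit 0x0) (nat_lit 0x40002000080000000000000000000000000000000000000000000000000000) := D_23 (nat_lit 229) (nat_lit 246) (nat_lit 211) (nat_lit 4) (nat_lit 8) (nat_lit 14) (nat_lit 7) (nat_lit 7) (nat_lit 9) (by decide +kernel)
theorem L12151 : W_23 (nat_lit 3) (nat_lit 0x800000012002f000300000001000080000000000000000000000000000000) (nat_lit 0x0) (nat_lit 0x40002000080000000000010000800000000000000000000000000000000000) := T_23 (nat_lit 160) (nat_lit 143) (nat_lit 7) (nat_lit 7) (nat_lit 8) L12150 (by decide +kernel)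
theorem L12152 : W_23 (nat_lit 4) (nat_lit 0x12002f000300000001000080000000000000000000000000000000) (nat_lit 0x0) (nat_lit 0x48002400080000000000010000800000000000000000000000000000000000) := T_23 (nat_lit 243) (nat_lit 226) (nat_lit 6) (nat_lit 5) (nat_lit 14) L12151 (by decide +kernel)
theorem L12153 : W_23 (nat_lit 5) (nat_lit 0x2002f000300000001000080000000000000000000000000000000) (nat_lit 0x0) (nat_lit 0x48002400380000000000010000800000000000000000000000000000000000) := T_23 (nat_lit 212) (nat_lit 213) (nat_lit 3) (nat_lit 5) (nat_lit 11) L12152 (by decide +kernel)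
theorem L12154 : W_23 (nat_lit 6) (nat_lit 0x2f000300000001000080000000000000000000000000000000) (nat_lit 0x0) (nat_lit 0x480024003b0000000000010000800000000000000000000000000000000000) := T_23 (nat_lit 209) (nat_lit 208) (nat_lit 1) (nat_lit 8) (nat_lit 11) L12153 (by decide +kernel)
theorem L12155 : W_23 (nat_lit 7) (nat_lit 0xf000300000001000080000000000000000000000000000000) (nat_lit 0x0) (nat_lit 0x480024003b0030000000010000800000000000000000000000000000000000) := T_23 (nat_lit 197) (nat_lit 196) (nat_lit 0) (nat_lit 10) (nat_lit 11) L12154 (by decide +kernel)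
theorem L12156 : W_23 (nat_lit 2) (nat_lit 0x10000f000b00000001000080000000000000000000000000000000) (nat_lit 0x0) (nat_lit 0x30001000000000000000000000000000000000000000000000) := D_23 (nat_lit 196) (nat_lit 180) (nat_lit 197) (nat_lit 2) (nat_lit 6) (nat_lit 11) (nat_lit 0) (nat_lit 10) (nat_lit 11) (by decide +kernel)
theorem L12157 : W_23 (nat_lit 3) (nat_lit 0x10000f000300000001000080000000000000000000000000000000) (nat_lit 0x0) (nat_lit 0x30001c00000000000000000000000000000000000000000000) := T_23 (nat_lit 179) (nat_lit 178) (nat_lit 2) (nat_lit 5) (nat_lit 11) L12156 (by decide +kernel)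
theorem L12158 : W_23 (nat_lit 4) (nat_lit 0xf000300000001000080000000000000000000000000000000) (nat_lit 0x0) (nat_lit 0x300030001c00000000000000000000000000000000000000000000) := T_23 (nat_lit 212) (nat_lit 213) (nat_lit 3) (nat_lit 5) (nat_lit 11) L12157 (by decide +kernel)
theorem L12159 : W_23 (nat_lit 2) (nat_lit 0x80000000f000b00010001000080000000000000000000000000000000) (nat_lit 0x0) (nat_lit 0x30001000000000000000000000000000000000000000000000) := D_23 (nat_lit 196) (nat_lit 197) (nat_lit 180) (nat_lit 0) (nat_lit 10) (nat_lit 11) (nat_lit 2) (nat_lit 6) (nat_lit 11) (by decide +kernel)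
theorem L12160 : W_23 (nat_lit 3) (nat_lit 0x80000000f000300010001000080000000000000000000000000000000) (nat_lit 0x0) (nat_lit 0x30001c00000000000000000000000000000000000000000000) := T_23 (nat_lit 179) (nat_lit 178) (nat_lit 2) (nat_lit 5) (nat_lit 11) L12159 (by decide +kernel)
theorem L12161 : W_23 (nat_lit 4) (nat_lit 0xf000300010001000080000000000000000000000000000000) (nat_lit 0x0) (nat_lit 0x800040030001c00000000000000000000000000000000000000000000) := T_23 (nat_lit 227) (nat_lit 210) (nat_lit 6) (nat_lit 6) (nat_lit 13) L12160 (by decide +kernel)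
theorem L12162 : W_23 (nat_lit 5) (nat_lit 0xf000300000001000080000000000000000000000000000000) (nat_lit 0x0) (nat_lit 0x800040030001c00010000800000000000000000000000000000000000) := T_23 (nat_lit 160) (nat_lit 143) (nat_lit 6) (nat_lit 7) (nat_lit 11) L12161 (by decide +kernel)
theorem L12163 : W_23 (nat_lit 8) (nat_lit 0x7000300000001000080000000000000000000000000000000) (nat_lit 0x0) (nat_lit 0x48002c003f0038001c00010000800000000000000000000000000000000000) := Q_23 (nat_lit 195) (C_23 L11732 (C_23 L12155 (C_23 L12158 (C_23 L12162 N_23)))) (by decide +kernel)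
theorem L12164 : W_23 (nat_lit 9) (nat_lit 0x6000300000001000080000000000000000000000000000000) (nat_lit 0x0) (nat_lit 0x78003c003f8039c01c00010000800000000000000000000000000000000000) := Q_23 (nat_lit 192) (C_23 L12148 (C_23 L12149 (C_23 L12163 N_23))) (by decide +kernel)
theorem L12165 : W_23 (nat_lit 2) (nat_lit 0xc00070006000300000001000080000000000000000000000000000000) (nat_lit 0x0) (nat_lit 0x19000000000000000000000000000000000000000000000000) := D_23 (nat_lit 195) (nat_lit 196) (nat_lit 192) (nat_lit 1) (nat_lit 9) (nat_lit 11) (nat_lit 1) (nat_lit 8) (nat_lit 11) (by decide +kernel)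
theorem L12166 : W_23 (nat_lit 3) (nat_lit 0xc00060006000300000001000080000000000000000000000000000000) (nat_lit 0x0) (nat_lit 0x18019000000000000000000000000000000000000000000000000) := T_23 (nat_lit 208) (nat_lit 207) (nat_lit 2) (nat_lit 3) (nat_lit 12) L12165 (by decide +kernel)
theorem L12167 : W_23 (nat_lit 4) (nat_lit 0xc00040006000300000001000080000000000000000000000000000000) (nat_lit 0x0) (nat_lit 0x38019000000008000000000000000000000000000000000000000) := T_23 (nat_lit 209) (nat_lit 159) (nat_lit 5) (nat_lit 6) (nat_lit 9) L12166 (by decide +kernel)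
theorem L12168 : W_23 (nat_lit 5) (nat_lit 0x800040006000300000001000080000000000000000000000000000000) (nat_lit 0x0) (nat_lit 0x8000400038019000000008000000000000000000000000000000000000000) := T_23 (nat_lit 226) (nat_lit 243) (nat_lit 5) (nat_lit 6) (nat_lit 10) L12167 (by decide +kernel)
theorem L12169 : W_23 (nat_lit 6) (nat_lit 0x40006000300000001000080000000000000000000000000000000) (nat_lit 0x0) (nat_lit 0x18000c00038019000000008000000000000000000000000000000000000000) := T_23 (nat_lit 227) (nat_lit 244) (nat_lit 6) (nat_lit 6) (nat_lit 14) L12168 (by decide +kernel)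
theorem L12170 : W_23 (nat_lit 9) (nat_lit 0x6000300000001000080000000000000000000000000000000) (nat_lit 0x0) (nat_lit 0x18000c0007801900040001f000a00000000000000000000000000000000000) := Q_23 (nat_lit 210) (C_23 L12034 (C_23 L12097 (C_23 L12169 N_23))) (by decide +kernel)
theorem L12175 : W_23 (nat_lit 2) (nat_lit 0x800200012002f000300000001000080000000000000000000000000000000) (nat_lit 0x0) (nat_lit 0x80000000400010000000000000000000000000000000000000000) := D_23 (nat_lit 160) (nat_lit 178) (nat_lit 211) (nat_lit 4) (nat_lit 8) (nat_lit 13) (nat_lit 7) (nat_lit 7) (nat_lit 9) (by decide +kernel)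
theorem L12176 : W_23 (nat_lit 3) (nat_lit 0x800000012002f000300000001000080000000000000000000000000000000) (nat_lit 0x0) (nat_lit 0x40002000080000000400010000000000000000000000000000000000000000) := T_23 (nat_lit 229) (nat_lit 246) (nat_lit 4) (nat_lit 8) (nat_lit 14) L12175 (by decide +kernel)
theorem L12177 : W_23 (nat_lit 4) (nat_lit 0x12002f000300000001000080000000000000000000000000000000) (nat_lit 0x0) (nat_lit 0x48002400080000000400010000000000000000000000000000000000000000) := T_23 (nat_lit 243) (nat_lit 226) (nat_lit 6) (nat_lit 5) (nat_lit 14) L12176 (by decide +kernel)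
theorem L12178 : W_23 (nat_lit 5) (nat_lit 0x2002f000300000001000080000000000000000000000000000000) (nat_lit 0x0) (nat_lit 0x48002400380000000400010000000000000000000000000000000000000000) := T_23 (nat_lit 212) (nat_lit 213) (nat_lit 3) (nat_lit 5) (nat_lit 11) L12177 (by decide +kernel)
theorem L12179 : W_23 (nat_lit 6) (nat_lit 0x2f000300000001000080000000000000000000000000000000) (nat_lit 0x0) (nat_lit 0x480024003b0000000400010000000000000000000000000000000000000000) := T_23 (nat_lit 209) (nat_lit 208) (nat_lit 1) (nat_lit 8) (nat_lit 11) L12178 (by decide +kernel)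
theorem L12180 : W_23 (nat_lit 7) (nat_lit 0xf000300000001000080000000000000000000000000000000) (nat_lit 0x0) (nat_lit 0x480024003b0030000400010000000000000000000000000000000000000000) := T_23 (nat_lit 197) (nat_lit 196) (nat_lit 0) (nat_lit 10) (nat_lit 11) L12179 (by decide +kernel)
theorem L12181 : W_23 (nat_lit 2) (nat_lit 0x4000040016002f000300000001000080000000000000000000000000000000) (nat_lit 0x0) (nat_lit 0x10000800000000000000010000000000000000000000000000000000000000) := D_23 (nat_lit 227) (nat_lit 160) (nat_lit 244) (nat_lit 6) (nat_lit 6) (nat_lit 13) (nat_lit 6) (nat_lit 6) (nat_lit 14) (by decide +kernel)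
theorem L12182 : W_23 (nat_lit 3) (nat_lit 0x4000040012002f000300000001000080000000000000000000000000000000) (nat_lit 0x0) (nat_lit 0x10000800040000000000018000000000000000000000000000000000000000) := T_23 (nat_lit 210) (nat_lit 159) (nat_lit 5) (nat_lit 6) (nat_lit 9) L12181 (by decide +kernel)
theorem L12183 : W_23 (nat_lit 4) (nat_lit 0x4000000012002f000300000001000080000000000000000000000000000000) (nat_lit 0x0) (nat_lit 0x18000c00040000000000018000000000000000000000000000000000000000) := T_23 (nat_lit 226) (nat_lit 243) (nat_lit 6) (nat_lit 5) (nat_lit 14) L12182 (by decide +kernel)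
theorem L12184 : W_23 (nat_lit 5) (nat_lit 0x4000000010002f000300000001000080000000000000000000000000000000) (nat_lit 0x0) (nat_lit 0x18000c00070000000000018000000000000000000000000000000000000000) := T_23 (nat_lit 209) (nat_lit 208) (nat_lit 1) (nat_lit 8) (nat_lit 11) L12183 (by decide +kernel)
theorem L12185 : W_23 (nat_lit 6) (nat_lit 0x10002f000300000001000080000000000000000000000000000000) (nat_lit 0x0) (nat_lit 0x58002c00070000000000018000000000000000000000000000000000000000) := T_23 (nat_lit 246) (nat_lit 229) (nat_lit 4) (nat_lit 8) (nat_lit 14) L12184 (by decide +kernel)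
theorem L12186 : W_23 (nat_lit 7) (nat_lit 0x10000f000300000001000080000000000000000000000000000000) (nat_lit 0x0) (nat_lit 0x58002c00070030000000018000000000000000000000000000000000000000) := T_23 (nat_lit 197) (nat_lit 196) (nat_lit 0) (nat_lit 10) (nat_lit 11) L12185 (by decide +kernel)
theorem L12187 : W_23 (nat_lit 8) (nat_lit 0xf000300000001000080000000000000000000000000000000) (nat_lit 0x0) (nat_lit 0x58002c00370030000000018000000000000000000000000000000000000000) := T_23 (nat_lit 212) (nat_lit 213) (nat_lit 3) (nat_lit 5) (nat_lit 11) L12186 (by decide +kernel)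
theorem L12188 : W_23 (nat_lit 2) (nat_lit 0x2000f000300000001000080000000000000000000000000000000) (nat_lit 0x0) (nat_lit 0x40030000000000000000000000000000000000000000000000000) := D_23 (nat_lit 196) (nat_lit 197) (nat_lit 210) (nat_lit 0) (nat_lit 10) (nat_lit 11) (nat_lit 1) (nat_lit 9) (nat_lit 11) (by decide +kernel)
theorem L12189 : W_23 (nat_lit 3) (nat_lit 0xf000300000001000080000000000000000000000000000000) (nat_lit 0x0) (nat_lit 0x70030000000000000000000000000000000000000000000000000) := T_23 (nat_lit 209) (nat_lit 208) (nat_lit 1) (nat_lit 8) (nat_lit 11) L12188 (by decide +kernel)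
theorem L12190 : W_23 (nat_lit 13) (nat_lit 0x7000300000001000080000000000000000000000000000000) (nat_lit 0x0) (nat_lit 0x7f003f803f0038001c00018000000000000000000000000000000000000000) := Q_23 (nat_lit 195) (C_23 L11598 (C_23 L12180 (C_23 L12187 (C_23 L12189 (C_23 L12158 N_23))))) (by decide +kernel)
theorem L12191 : W_23 (nat_lit 14) (nat_lit 0x6000300000001000080000000000000000000000000000000) (nat_lit 0x0) (nat_lit 0x7f003f803f8039c01c00018000000000000000000000000000000000000000) := Q_23 (nat_lit 192) (C_23 L12174 (C_23 L12149 (C_23 L12190 N_23))) (by decide +kernel)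
theorem L12192 : W_23 (nat_lit 13) (nat_lit 0x7000300000001000080000000000000000000000000000000) (nat_lit 0x0) (nat_lit 0x7f003f803f0038001c00008000000000000000000000000000000000000000) := Q_23 (nat_lit 195) (C_23 L11598 (C_23 L12189 (C_23 L12158 N_23))) (by decide +kernel)
theorem L12193 : W_23 (nat_lit 14) (nat_lit 0x6000300000001000080000000000000000000000000000000) (nat_lit 0x0) (nat_lit 0x7f003f803f8039c01c00008000000000000000000000000000000000000000) := Q_23 (nat_lit 192) (C_23 L12192 (C_23 L12174 (C_23 L12149 N_23))) (by decide +kernel)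
theorem L12194 : W_23 (nat_lit 5) (nat_lit 0x7000300000001000080000000000000000000000000000000) (nat_lit 0x0) (nat_lit 0x2000370038000c00010000800000000000000000000000000000000000) := Q_23 (nat_lit 195) (C_23 L11732 (C_23 L12189 N_23)) (by decide +kernel)
theorem L12195 : W_23 (nat_lit 6) (nat_lit 0x6000300000001000080000000000000000000000000000000) (nat_lit 0x0) (nat_lit 0x200030003f8039c00c00018000800000000000000000000000000000000000) := Q_23 (nat_lit 192) (C_23 L12174 (C_23 L12149 (C_23 L12194 N_23))) (by decide +kernel)
theorem L12196 : W_23 (nat_lit 2) (nat_lit 0xf000b00000001000080000000000000000000000000000000) (nat_lit 0x0) (nat_lit 0x30001000000000000000000000000000000000000000000000) := D_23 (nat_lit 196) (nat_lit 197) (nat_lit 180) (nat_lit 0) (nat_lit 10) (nat_lit 11) (nat_lit 2) (nat_lit 6) (nat_lit 11) (by decide +kernel)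
theorem L12197 : W_23 (nat_lit 3) (nat_lit 0xf000300000001000080000000000000000000000000000000) (nat_lit 0x0) (nat_lit 0x30001c00000000000000000000000000000000000000000000) := T_23 (nat_lit 179) (nat_lit 178) (nat_lit 2) (nat_lit 5) (nat_lit 11) L12196 (by decide +kernel)
theorem L12198 : W_23 (nat_lit 8) (nat_lit 0x7000300000001000080000000000000000000000000000000) (nat_lit 0x0) (nat_lit 0x480024003b0038001c00010000800000000000000000000000000000000000) := Q_23 (nat_lit 195) (C_23 L11732 (C_23 L12180 (C_23 L12155 (C_23 L12158 (C_23 L12197 N_23))))) (by decide +kernel)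
theorem L12199 : W_23 (nat_lit 9) (nat_lit 0x6000300000001000080000000000000000000000000000000) (nat_lit 0x0) (nat_lit 0x680034003b8039c01c00018000800000000000000000000000000000000000) := Q_23 (nat_lit 192) (C_23 L12174 (C_23 L12149 (C_23 L12198 N_23))) (by decide +kernel)
theorem L12206 : W_23 (nat_lit 8) (nat_lit 0x6000e000300008001000080000000000000000000000000000000) (nat_lit 0x0) (nat_lit 0x60003000380001800c00007000200000000000000000000000000000000000) := T_23 (nat_lit 228) (nat_lit 211) (nat_lit 7) (nat_lit 6) (nat_lit 9) L12205 (by decide +kernel)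
theorem L12207 : W_23 (nat_lit 9) (nat_lit 0x60006000300008001000080000000000000000000000000000000) (nat_lit 0x0) (nat_lit 0x60003000380019800c00007000200000000000000000000000000000000000) := T_23 (nat_lit 195) (nat_lit 196) (nat_lit 1) (nat_lit 9) (nat_lit 11) L12206 (by decide +kernel)
theorem L12208 : W_23 (nat_lit 10) (nat_lit 0x40006000300008001000080000000000000000000000000000000) (nat_lit 0x0) (nat_lit 0x600034003a0019800c00007000200000000000000000000000000000000000) := T_23 (nat_lit 209) (nat_lit 226) (nat_lit 5) (nat_lit 6) (nat_lit 9) L12207 (by decide +kernel)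
theorem L12209 : W_23 (nat_lit 11) (nat_lit 0x40006000300000001000080000000000000000000000000000000) (nat_lit 0x0) (nat_lit 0x600034003a0019800c0001f000a00000000000000000000000000000000000) := Q_23 (nat_lit 159) (C_23 L12129 (C_23 L12126 (C_23 L12208 N_23))) (by decide +kernel)
theorem L12210 : W_23 (nat_lit 12) (nat_lit 0x6000300000001000080000000000000000000000000000000) (nat_lit 0x0) (nat_lit 0x78003c003e0019800c0001f000a00000000000000000000000000000000000) := Q_23 (nat_lit 210) (C_23 L12038 (C_23 L12034 (C_23 L12209 N_23))) (by decide +kernel)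
theorem L12211 : W_23 (nat_lit 3) (nat_lit 0x1c00040006000300000001000080000000000000000000000000000000) (nat_lit 0x0) (nat_lit 0x300180000000000008000000000000000000000000000000000000000) := T_23 (nat_lit 211) (nat_lit 159) (nat_lit 7) (nat_lit 6) (nat_lit 9) L6327 (by decide +kernel)
theorem L12212 : W_23 (nat_lit 4) (nat_lit 0xc00040006000300000001000080000000000000000000000000000000) (nat_lit 0x0) (nat_lit 0x20001300180000000000008000000000000000000000000000000000000000) := T_23 (nat_lit 228) (nat_lit 245) (nat_lit 7) (nat_lit 6) (nat_lit 10) L12211 (by decide +kernel)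
theorem L12213 : W_23 (nat_lit 5) (nat_lit 0x800040006000300000001000080000000000000000000000000000000) (nat_lit 0x0) (nat_lit 0x28001700180000000000008000000000000000000000000000000000000000) := T_23 (nat_lit 226) (nat_lit 243) (nat_lit 5) (nat_lit 6) (nat_lit 10) L12212 (by decide +kernel)
theorem L12214 : W_23 (nat_lit 6) (nat_lit 0x40006000300000001000080000000000000000000000000000000) (nat_lit 0x0) (nat_lit 0x38001f00180000000000008000000000000000000000000000000000000000) := T_23 (nat_lit 227) (nat_lit 244) (nat_lit 6) (nat_lit 6) (nat_lit 14) L12213 (by decide +kernel)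
theorem L12216 : W_23 (nat_lit 2) (nat_lit 0x200000001c0006000300010001000080000000000000000000000000000000) (nat_lit 0x0) (nat_lit 0x200001800000000000000000000000000000000000000000000000) := D_23 (nat_lit 192) (nat_lit 191) (nat_lit 213) (nat_lit 3) (nat_lit 4) (nat_lit 11) (nat_lit 0) (nat_lit 9) (nat_lit 12) (by decide +kernel)
theorem L12217 : W_23 (nat_lit 3) (nat_lit 0x200000000c0006000300010001000080000000000000000000000000000000) (nat_lit 0x0) (nat_lit 0x2000300001800000000000000000000000000000000000000000000000) := T_23 (nat_lit 212) (nat_lit 229) (nat_lit 7) (nat_lit 7) (nat_lit 9) L12216 (by decide +kernel)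
theorem L12218 : W_23 (nat_lit 4) (nat_lit 0xc0006000300010001000080000000000000000000000000000000) (nat_lit 0x0) (nat_lit 0x20003000300001800000000000000000000000000000000000000000000000) := T_23 (nat_lit 245) (nat_lit 228) (nat_lit 4) (nat_lit 7) (nat_lit 14) L12217 (by decide +kernel)
theorem L12219 : W_23 (nat_lit 5) (nat_lit 0xc0006000300000001000080000000000000000000000000000000) (nat_lit 0x0) (nat_lit 0x20003000300001800000010000800000000000000000000000000000000000) := T_23 (nat_lit 160) (nat_lit 143) (nat_lit 6) (nat_lit 7) (nat_lit 11) L12218 (by decide +kernel)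
theorem L12220 : W_23 (nat_lit 2) (nat_lit 0x1c0006000300010001000080000000000000000000000000000000) (nat_lit 0x0) (nat_lit 0x200001800000000000000000000000000000000000000000000000) := D_23 (nat_lit 192) (nat_lit 191) (nat_lit 213) (nat_lit 3) (nat_lit 4) (nat_lit 11) (nat_lit 0) (nat_lit 9) (nat_lit 12) (by decide +kernel)
theorem L12221 : W_23 (nat_lit 3) (nat_lit 0xc0006000300010001000080000000000000000000000000000000) (nat_lit 0x0) (nat_lit 0x2000300001800000000000000000000000000000000000000000000000) := T_23 (nat_lit 212) (nat_lit 229) (nat_lit 7) (nat_lit 7) (nat_lit 9) L12220 (by decide +kernel)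
theorem L12222 : W_23 (nat_lit 4) (nat_lit 0xc0006000300000001000080000000000000000000000000000000) (nat_lit 0x0) (nat_lit 0x2000300001800000010000800000000000000000000000000000000000) := T_23 (nat_lit 160) (nat_lit 143) (nat_lit 6) (nat_lit 7) (nat_lit 11) L12221 (by decide +kernel)
theorem L12223 : W_23 (nat_lit 6) (nat_lit 0x40006000300000001000080000000000000000000000000000000) (nat_lit 0x0) (nat_lit 0x20003000380001800000018000800000000000000000000000000000000000) := Q_23 (nat_lit 211) (C_23 L12215 (C_23 L12219 (C_23 L12222 N_23))) (by decide +kernel)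
theorem L12224 : W_23 (nat_lit 7) (nat_lit 0x6000300000001000080000000000000000000000000000000) (nat_lit 0x0) (nat_lit 0x38003f003c0001800000018000800000000000000000000000000000000000) := Q_23 (nat_lit 210) (C_23 L12034 (C_23 L12214 (C_23 L12223 N_23))) (by decide +kernel)
theorem L12225 : W_23 (nat_lit 15) (nat_lit 0x4000300000001000080000000000000000000000000000000) (nat_lit 0x0) (nat_lit 0x7f00ff807f803bc01c6001f000b80000000000000000000000000000000000) := Q_23 (nat_lit 193) (C_23 L12074 (C_23 L12098 (C_23 L12122 (C_23 L12142 (C_23 L12164 (C_23 L12170 (C_23 L12191 (C_23 L12193 (C_23 L12195 (C_23 L12199 (C_23 L12210 (C_23 L12224 N_23)))))))))))) (by decide +kernel)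
theorem L12226 : W_23 (nat_lit 2) (nat_lit 0x1c00040003c0010001000080000000000000000000000000000000) (nat_lit 0x0) (nat_lit 0x2000020008000000000000000000000000000000000000000) := D_23 (nat_lit 173) (nat_lit 193) (nat_lit 159) (nat_lit 3) (nat_lit 3) (nat_lit 10) (nat_lit 2) (nat_lit 3) (nat_lit 10) (by decide +kernel)
theorem L12227 : W_23 (nat_lit 3) (nat_lit 0x1c0004000380010001000080000000000000000000000000000000) (nat_lit 0x0) (nat_lit 0xa000060008000000000000000000000000000000000000000) := T_23 (nat_lit 174) (nat_lit 195) (nat_lit 3) (nat_lit 4) (nat_lit 10) L12226 (by decide +kernel)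
theorem L12228 : W_23 (nat_lit 4) (nat_lit 0xc0004000380010001000080000000000000000000000000000000) (nat_lit 0x0) (nat_lit 0x200010000a000060008000000000000000000000000000000000000000) := T_23 (nat_lit 212) (nat_lit 229) (nat_lit 7) (nat_lit 7) (nat_lit 9) L12227 (by decide +kernel)
theorem L12229 : W_23 (nat_lit 5) (nat_lit 0x80004000380010001000080000000000000000000000000000000) (nat_lit 0x0) (nat_lit 0x280014000a000060008000000000000000000000000000000000000000) := T_23 (nat_lit 210) (nat_lit 227) (nat_lit 5) (nat_lit 7) (nat_lit 9) L12228 (by decide +kernel)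
theorem L12230 : W_23 (nat_lit 6) (nat_lit 0x80004000380000001000080000000000000000000000000000000) (nat_lit 0x0) (nat_lit 0x280014000a000060018000800000000000000000000000000000000000) := T_23 (nat_lit 160) (nat_lit 143) (nat_lit 6) (nat_lit 7) (nat_lit 11) L12229 (by decide +kernel)
theorem L12231 : W_23 (nat_lit 2) (nat_lit 0x800040003c0010001000080000000000000000000000000000000) (nat_lit 0x0) (nat_lit 0x2000020008000000000000000000000000000000000000000) := D_23 (nat_lit 173) (nat_lit 193) (nat_lit 159) (nat_lit 3) (nat_lit 3) (nat_lit 10) (nat_lit 2) (nat_lit 3) (nat_lit 10) (by decide +kernel)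
theorem L12232 : W_23 (nat_lit 3) (nat_lit 0x800040003c0000001000080000000000000000000000000000000) (nat_lit 0x0) (nat_lit 0x2000020018000800000000000000000000000000000000000) := T_23 (nat_lit 160) (nat_lit 143) (nat_lit 6) (nat_lit 7) (nat_lit 11) L12231 (by decide +kernel)
theorem L12233 : W_23 (nat_lit 2) (nat_lit 0x1c00040003e0010001000080000000000000000000000000000000) (nat_lit 0x0) (nat_lit 0xe00000000000000000000000000000000000000000000000) := D_23 (nat_lit 190) (nat_lit 189) (nat_lit 191) (nat_lit 1) (nat_lit 6) (nat_lit 10) (nat_lit 1) (nat_lit 7) (nat_lit 10) (by decide +kernel)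
theorem L12234 : W_23 (nat_lit 3) (nat_lit 0x1c00040003c0010001000080000000000000000000000000000000) (nat_lit 0x0) (nat_lit 0x2e00020000000000000000000000000000000000000000000) := T_23 (nat_lit 173) (nat_lit 193) (nat_lit 3) (nat_lit 3) (nat_lit 10) L12233 (by decide +kernel)
theorem L12235 : W_23 (nat_lit 4) (nat_lit 0xc00040003c0010001000080000000000000000000000000000000) (nat_lit 0x0) (nat_lit 0x2000100002e00020000000000000000000000000000000000000000000) := T_23 (nat_lit 212) (nat_lit 229) (nat_lit 7) (nat_lit 7) (nat_lit 9) L12234 (by decide +kernel)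
theorem L12236 : W_23 (nat_lit 5) (nat_lit 0x800040003c0010001000080000000000000000000000000000000) (nat_lit 0x0) (nat_lit 0x2800140002e00020000000000000000000000000000000000000000000) := T_23 (nat_lit 210) (nat_lit 227) (nat_lit 5) (nat_lit 7) (nat_lit 9) L12235 (by decide +kernel)
theorem L12237 : W_23 (nat_lit 6) (nat_lit 0x800040003c0000001000080000000000000000000000000000000) (nat_lit 0x0) (nat_lit 0x2800140002e00020010000800000000000000000000000000000000000) := T_23 (nat_lit 160) (nat_lit 143) (nat_lit 6) (nat_lit 7) (nat_lit 11) L12236 (by decide +kernel)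
theorem L12238 : W_23 (nat_lit 2) (nat_lit 0x1c00048003e0010001000080000000000000000000000000000000) (nat_lit 0x0) (nat_lit 0x3800000000000000000000000000000000000000) := D_23 (nat_lit 156) (nat_lit 155) (nat_lit 157) (nat_lit 0) (nat_lit 6) (nat_lit 10) (nat_lit 0) (nat_lit 7) (nat_lit 10) (by decide +kernel)
theorem L12239 : W_23 (nat_lit 3) (nat_lit 0x1c00048003c0010001000080000000000000000000000000000000) (nat_lit 0x0) (nat_lit 0x2000b800000000000000000000000000000000000000) := T_23 (nat_lit 173) (nat_lit 159) (nat_lit 2) (nat_lit 3) (nat_lit 10) L12238 (by decide +kernel)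
theorem L12240 : W_23 (nat_lit 4) (nat_lit 0xc00048003c0010001000080000000000000000000000000000000) (nat_lit 0x0) (nat_lit 0x200010000000002000b800000000000000000000000000000000000000) := T_23 (nat_lit 212) (nat_lit 229) (nat_lit 7) (nat_lit 7) (nat_lit 9) L12239 (by decide +kernel)
theorem L12241 : W_23 (nat_lit 5) (nat_lit 0x800048003c0010001000080000000000000000000000000000000) (nat_lit 0x0) (nat_lit 0x280014000000002000b800000000000000000000000000000000000000) := T_23 (nat_lit 210) (nat_lit 227) (nat_lit 5) (nat_lit 7) (nat_lit 9) L12240 (by decide +kernel)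
theorem L12242 : W_23 (nat_lit 6) (nat_lit 0x800048003c0000001000080000000000000000000000000000000) (nat_lit 0x0) (nat_lit 0x280014000000002001b800800000000000000000000000000000000000) := T_23 (nat_lit 160) (nat_lit 143) (nat_lit 6) (nat_lit 7) (nat_lit 11) L12241 (by decide +kernel)
theorem L12243 : W_23 (nat_lit 7) (nat_lit 0x800040003c0000001000080000000000000000000000000000000) (nat_lit 0x0) (nat_lit 0x2800140000c0002001b800800000000000000000000000000000000000) := T_23 (nat_lit 191) (nat_lit 190) (nat_lit 1) (nat_lit 7) (nat_lit 10) L12242 (by decide +kernel)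
theorem L12244 : W_23 (nat_lit 2) (nat_lit 0x800048003c0006001000080000000000000000000000000000000) (nat_lit 0x0) (nat_lit 0x10000000000000000200010000000000000000000000000000000) := D_23 (nat_lit 141) (nat_lit 124) (nat_lit 208) (nat_lit 5) (nat_lit 5) (nat_lit 7) (nat_lit 6) (nat_lit 4) (nat_lit 12) (by decide +kernel)
theorem L12245 : W_23 (nat_lit 3) (nat_lit 0x800048003c0002001000080000000000000000000000000000000) (nat_lit 0x0) (nat_lit 0x10000000400004000200010000000000000000000000000000000) := T_23 (nat_lit 158) (nat_lit 178) (nat_lit 0) (nat_lit 8) (nat_lit 10) L12244 (by decide +kernel)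
theorem L12246 : W_23 (nat_lit 4) (nat_lit 0x800040003c0002001000080000000000000000000000000000000) (nat_lit 0x0) (nat_lit 0x10000c00400004000200010000000000000000000000000000000) := T_23 (nat_lit 191) (nat_lit 190) (nat_lit 1) (nat_lit 7) (nat_lit 10) L12245 (by decide +kernel)
theorem L12247 : W_23 (nat_lit 5) (nat_lit 0x800040003c0000001000080000000000000000000000000000000) (nat_lit 0x0) (nat_lit 0x10000c00400007000200010000000000000000000000000000000) := T_23 (nat_lit 157) (nat_lit 156) (nat_lit 0) (nat_lit 7) (nat_lit 10) L12246 (by decide +kernel)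
theorem L12248 : W_23 (nat_lit 8) (nat_lit 0x80004000380000001000080000000000000000000000000000000) (nat_lit 0x0) (nat_lit 0x2800150002e0046001f800a00010000000000000000000000000000000) := Q_23 (nat_lit 174) (C_23 L12232 (C_23 L12237 (C_23 L12243 (C_23 L12247 N_23)))) (by decide +kernel)
theorem L12249 : W_23 (nat_lit 4) (nat_lit 0x1c0004000380010001000080000000000000000000000000000000) (nat_lit 0x0) (nat_lit 0xae00060000000000000000000000000000000000000000000) := T_23 (nat_lit 174) (nat_lit 195) (nat_lit 3) (nat_lit 4) (nat_lit 10) L12234 (by decide +kernel)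
theorem L12250 : W_23 (nat_lit 5) (nat_lit 0xc0004000380010001000080000000000000000000000000000000) (nat_lit 0x0) (nat_lit 0x200010000ae00060000000000000000000000000000000000000000000) := T_23 (nat_lit 212) (nat_lit 229) (nat_lit 7) (nat_lit 7) (nat_lit 9) L12249 (by decide +kernel)
theorem L12251 : W_23 (nat_lit 6) (nat_lit 0x80004000380010001000080000000000000000000000000000000) (nat_lit 0x0) (nat_lit 0x280014000ae00060000000000000000000000000000000000000000000) := T_23 (nat_lit 210) (nat_lit 227) (nat_lit 5) (nat_lit 7) (nat_lit 9) L12250 (by decide +kernel)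
theorem L12252 : W_23 (nat_lit 7) (nat_lit 0x80004000380000001000080000000000000000000000000000000) (nat_lit 0x0) (nat_lit 0x280014000ae00060010000800000000000000000000000000000000000) := T_23 (nat_lit 160) (nat_lit 143) (nat_lit 6) (nat_lit 7) (nat_lit 11) L12251 (by decide +kernel)
theorem L12253 : W_23 (nat_lit 6) (nat_lit 0x80004000380000001000080000000000000000000000000000000) (nat_lit 0x0) (nat_lit 0x10008c00440007000200010000000000000000000000000000000) := T_23 (nat_lit 174) (nat_lit 195) (nat_lit 3) (nat_lit 4) (nat_lit 10) L12247 (by decide +kernel)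
theorem L12254 : W_23 (nat_lit 2) (nat_lit 0x80014000380000001000080000000000000000000000000000000) (nat_lit 0x0) (nat_lit 0x2a000000000000000000000000000000000000000000000000) := D_23 (nat_lit 195) (nat_lit 193) (nat_lit 197) (nat_lit 0) (nat_lit 9) (nat_lit 11) (nat_lit 0) (nat_lit 10) (nat_lit 11) (by decide +kernel)
theorem L12255 : W_23 (nat_lit 2) (nat_lit 0x7c0014000380010001000080000000000000000000000000000000) (nat_lit 0x0) (nat_lit 0x1c000000000000000000000000000000000000000000000000000000000) := D_23 (nat_lit 231) (nat_lit 230) (nat_lit 232) (nat_lit 3) (nat_lit 6) (nat_lit 12) (nat_lit 3) (nat_lit 7) (nat_lit 12) (by decide +kernel)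
theorem L12256 : W_23 (nat_lit 3) (nat_lit 0x3c0014000380010001000080000000000000000000000000000000) (nat_lit 0x0) (nat_lit 0x1c000400002000000000000000000000000000000000000000000000000) := T_23 (nat_lit 214) (nat_lit 193) (nat_lit 0) (nat_lit 10) (nat_lit 12) L12255 (by decide +kernel)
theorem L12257 : W_23 (nat_lit 4) (nat_lit 0x1c0014000380010001000080000000000000000000000000000000) (nat_lit 0x0) (nat_lit 0x1c000600022000000000000000000000000000000000000000000000000) := T_23 (nat_lit 213) (nat_lit 197) (nat_lit 2) (nat_lit 6) (nat_lit 12) L12256 (by decide +kernel)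
theorem L12258 : W_23 (nat_lit 5) (nat_lit 0xc0014000380010001000080000000000000000000000000000000) (nat_lit 0x0) (nat_lit 0x1e000700022000000000000000000000000000000000000000000000000) := T_23 (nat_lit 212) (nat_lit 229) (nat_lit 7) (nat_lit 7) (nat_lit 9) L12257 (by decide +kernel)
theorem L12259 : W_23 (nat_lit 6) (nat_lit 0x80014000380010001000080000000000000000000000000000000) (nat_lit 0x0) (nat_lit 0x1e800740022000000000000000000000000000000000000000000000000) := T_23 (nat_lit 210) (nat_lit 227) (nat_lit 5) (nat_lit 7) (nat_lit 9) L12258 (by decide +kernel)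
theorem L12260 : W_23 (nat_lit 7) (nat_lit 0x80014000380000001000080000000000000000000000000000000) (nat_lit 0x0) (nat_lit 0x1e800740022000000010000800000000000000000000000000000000000) := T_23 (nat_lit 160) (nat_lit 143) (nat_lit 6) (nat_lit 7) (nat_lit 11) L12259 (by decide +kernel)
theorem L12261 : W_23 (nat_lit 2) (nat_lit 0x80014000380000001000080000000000000000000000000000000) (nat_lit 0x0) (nat_lit 0x28000400000000000000000000000000000000000000000000) := D_23 (nat_lit 195) (nat_lit 178) (nat_lit 197) (nat_lit 3) (nat_lit 5) (nat_lit 10) (nat_lit 0) (nat_lit 10) (nat_lit 11) (by decide +kernel)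
theorem L12262 : W_23 (nat_lit 2) (nat_lit 0x80014000380000001000080000000000000000000000000000000) (nat_lit 0x0) (nat_lit 0xa000400000000000000000000000000000000000000000000) := D_23 (nat_lit 195) (nat_lit 178) (nat_lit 193) (nat_lit 3) (nat_lit 5) (nat_lit 10) (nat_lit 0) (nat_lit 9) (nat_lit 11) (by decide +kernel)
theorem L12263 : W_23 (nat_lit 8) (nat_lit 0x80004000380000001000080000000000000000000000000000000) (nat_lit 0x0) (nat_lit 0x1e80074003a000400010000800000000000000000000000000000000000) := Q_23 (nat_lit 196) (C_23 L12254 (C_23 L12260 (C_23 L12261 (C_23 L12262 N_23)))) (by decide +kernel)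
theorem L12264 : W_23 (nat_lit 9) (nat_lit 0x80004000300000001000080000000000000000000000000000000) (nat_lit 0x0) (nat_lit 0x1e80075003ae004e001f800a00010000000000000000000000000000000) := Q_23 (nat_lit 175) (C_23 L12230 (C_23 L12248 (C_23 L12252 (C_23 L12253 (C_23 L12263 N_23))))) (by decide +kernel)
theorem L12265 : W_23 (nat_lit 10) (nat_lit 0x4000300000001000080000000000000000000000000000000) (nat_lit 0x0) (nat_lit 0x80007001f8007d003ae004e001f800a00010000000000000000000000000000000) := Q_23 (nat_lit 211) (C_23 L11927 (C_23 L11890 (C_23 L12264 (C_23 L11924 N_23)))) (by decide +kernel)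
theorem L12268 : W_23 (nat_lit 4) (nat_lit 0x5c000600030001c001000080000000000000000000000000000000) (nat_lit 0x0) (nat_lit 0x400038008000000003000000000000000000000000000000000000000) := T_23 (nat_lit 156) (nat_lit 157) (nat_lit 3) (nat_lit 3) (nat_lit 9) L12267 (by decide +kernel)
theorem L12269 : W_23 (nat_lit 5) (nat_lit 0x5c0006000300018001000080000000000000000000000000000000) (nat_lit 0x0) (nat_lit 0x400038008000000007000200000000000000000000000000000000000) := T_23 (nat_lit 158) (nat_lit 141) (nat_lit 4) (nat_lit 6) (nat_lit 12) L12268 (by decide +kernel)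
theorem L12270 : W_23 (nat_lit 6) (nat_lit 0x1c0006000300018001000080000000000000000000000000000000) (nat_lit 0x0) (nat_lit 0x400638008000000007000200000000000000000000000000000000000) := T_23 (nat_lit 214) (nat_lit 213) (nat_lit 0) (nat_lit 10) (nat_lit 12) L12269 (by decide +kernel)
theorem L12271 : W_23 (nat_lit 7) (nat_lit 0xc0006000300018001000080000000000000000000000000000000) (nat_lit 0x0) (nat_lit 0x2400738008000000007000200000000000000000000000000000000000) := T_23 (nat_lit 212) (nat_lit 229) (nat_lit 7) (nat_lit 7) (nat_lit 9) L12270 (by decide +kernel)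
theorem L12272 : W_23 (nat_lit 8) (nat_lit 0x40006000300018001000080000000000000000000000000000000) (nat_lit 0x0) (nat_lit 0x34007b8008000000007000200000000000000000000000000000000000) := T_23 (nat_lit 211) (nat_lit 228) (nat_lit 7) (nat_lit 6) (nat_lit 9) L12271 (by decide +kernel)
theorem L12273 : W_23 (nat_lit 9) (nat_lit 0x40006000300008001000080000000000000000000000000000000) (nat_lit 0x0) (nat_lit 0x34007b8008000000017000a00000000000000000000000000000000000) := T_23 (nat_lit 160) (nat_lit 143) (nat_lit 6) (nat_lit 7) (nat_lit 11) L12272 (by decide +kernel)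
theorem L12274 : W_23 (nat_lit 2) (nat_lit 0x70006000300008001000080000000000000000000000000000000) (nat_lit 0x0) (nat_lit 0x1000080008000000000000000000000000000000000000000000000000) := D_23 (nat_lit 211) (nat_lit 228) (nat_lit 195) (nat_lit 7) (nat_lit 6) (nat_lit 9) (nat_lit 2) (nat_lit 4) (nat_lit 12) (by decide +kernel)
theorem L12275 : W_23 (nat_lit 3) (nat_lit 0x60006000300008001000080000000000000000000000000000000) (nat_lit 0x0) (nat_lit 0x1000098008000000000000000000000000000000000000000000000000) := T_23 (nat_lit 208) (nat_lit 207) (nat_lit 2) (nat_lit 3) (nat_lit 12) L12274 (by decide +kernel)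
theorem L12276 : W_23 (nat_lit 4) (nat_lit 0x40006000300008001000080000000000000000000000000000000) (nat_lit 0x0) (nat_lit 0x14000b8008000000000000000000000000000000000000000000000000) := T_23 (nat_lit 209) (nat_lit 226) (nat_lit 5) (nat_lit 6) (nat_lit 9) L12275 (by decide +kernel)
theorem L12277 : W_23 (nat_lit 10) (nat_lit 0x40006000300000001000080000000000000000000000000000000) (nat_lit 0x0) (nat_lit 0x34007b8008000c0001f000a00000000000000000000000000000000000) := Q_23 (nat_lit 159) (C_23 L12044 (C_23 L12129 (C_23 L12273 (C_23 L12065 (C_23 L12276 N_23))))) (by decide +kernel)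
theorem L12278 : W_23 (nat_lit 11) (nat_lit 0x6000300000001000080000000000000000000000000000000) (nat_lit 0x0) (nat_lit 0x38003f007f8008000c0001f000a00000000000000000000000000000000000) := Q_23 (nat_lit 210) (C_23 L12214 (C_23 L12034 (C_23 L12277 N_23))) (by decide +kernel)
theorem L12279 : W_23 (nat_lit 7) (nat_lit 0x7000300000001000080000000000000000000000000000000) (nat_lit 0x0) (nat_lit 0x18002c00370008000cc0016000a00010000000000000000000000000000000) := Q_23 (nat_lit 195) (C_23 L11689 (C_23 L11732 (C_23 L11729 N_23))) (by decide +kernel)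
theorem L12280 : W_23 (nat_lit 8) (nat_lit 0x6000300000001000080000000000000000000000000000000) (nat_lit 0x0) (nat_lit 0x38003c003f8009c00cc0016000a00010000000000000000000000000000000) := Q_23 (nat_lit 192) (C_23 L12149 (C_23 L12148 (C_23 L12279 N_23))) (by decide +kernel)
theorem L12281 : W_23 (nat_lit 2) (nat_lit 0x800010007800340010001000080000000000000000000000000000000) (nat_lit 0x0) (nat_lit 0x20008000080000000000000000000000000000000000000000000) := D_23 (nat_lit 195) (nat_lit 209) (nat_lit 175) (nat_lit 1) (nat_lit 8) (nat_lit 11) (nat_lit 3) (nat_lit 4) (nat_lit 10) (by decide +kernel)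
theorem L12282 : W_23 (nat_lit 3) (nat_lit 0x800010007800300010001000080000000000000000000000000000000) (nat_lit 0x0) (nat_lit 0x200080000e0000000000000000000000000000000000000000000) := T_23 (nat_lit 174) (nat_lit 173) (nat_lit 0) (nat_lit 7) (nat_lit 11) L12281 (by decide +kernel)
theorem L12283 : W_23 (nat_lit 4) (nat_lit 0x800000007800300010001000080000000000000000000000000000000) (nat_lit 0x0) (nat_lit 0x380080000e0000000000000000000000000000000000000000000) := T_23 (nat_lit 208) (nat_lit 207) (nat_lit 1) (nat_lit 7) (nat_lit 11) L12282 (by decide +kernel)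
theorem L12284 : W_23 (nat_lit 5) (nat_lit 0x800000007000300010001000080000000000000000000000000000000) (nat_lit 0x0) (nat_lit 0x38008c000e0000000000000000000000000000000000000000000) := T_23 (nat_lit 191) (nat_lit 190) (nat_lit 2) (nat_lit 3) (nat_lit 11) L12283 (by decide +kernel)
theorem L12285 : W_23 (nat_lit 6) (nat_lit 0x7000300010001000080000000000000000000000000000000) (nat_lit 0x0) (nat_lit 0x800078008c000e0000000000000000000000000000000000000000000) := T_23 (nat_lit 227) (nat_lit 210) (nat_lit 6) (nat_lit 6) (nat_lit 13) L12284 (by decide +kernel)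
theorem L12286 : W_23 (nat_lit 7) (nat_lit 0x7000300000001000080000000000000000000000000000000) (nat_lit 0x0) (nat_lit 0x800078008c000e0010000800000000000000000000000000000000000) := T_23 (nat_lit 160) (nat_lit 143) (nat_lit 6) (nat_lit 7) (nat_lit 11) L12285 (by decide +kernel)
theorem L12287 : W_23 (nat_lit 8) (nat_lit 0x6000300000001000080000000000000000000000000000000) (nat_lit 0x0) (nat_lit 0x18002c00378009c00ce0016000a00010000000000000000000000000000000) := Q_23 (nat_lit 192) (C_23 L12149 (C_23 L12286 (C_23 L12279 N_23))) (by decide +kernel)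
theorem L12288 : W_23 (nat_lit 2) (nat_lit 0x7000380000001000080000000000000000000000000000000) (nat_lit 0x0) (nat_lit 0x8000060000000000000000000000000000000000000000000) := D_23 (nat_lit 174) (nat_lit 195) (nat_lit 173) (nat_lit 3) (nat_lit 4) (nat_lit 10) (nat_lit 3) (nat_lit 3) (nat_lit 10) (by decide +kernel)
theorem L12289 : W_23 (nat_lit 2) (nat_lit 0x70007a0004001000080000000000000000000000000000000) (nat_lit 0x0) (nat_lit 0x800040000000000000000200000000000000000000000000000000000) := D_23 (nat_lit 210) (nat_lit 227) (nat_lit 141) (nat_lit 4) (nat_lit 6) (nat_lit 13) (nat_lit 7) (nat_lit 5) (nat_lit 8) (by decide +kernel)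
theorem L12290 : W_23 (nat_lit 3) (nat_lit 0x70007a0000001000080000000000000000000000000000000) (nat_lit 0x0) (nat_lit 0x800040000000000006000200000000000000000000000000000000000) := T_23 (nat_lit 158) (nat_lit 157) (nat_lit 0) (nat_lit 8) (nat_lit 10) L12289 (by decide +kernel)
theorem L12291 : W_23 (nat_lit 4) (nat_lit 0x70003a0000001000080000000000000000000000000000000) (nat_lit 0x0) (nat_lit 0x800040000000c00006000200000000000000000000000000000000000) := T_23 (nat_lit 178) (nat_lit 179) (nat_lit 1) (nat_lit 9) (nat_lit 10) L12290 (by decide +kernel)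
theorem L12292 : W_23 (nat_lit 5) (nat_lit 0x7000380000001000080000000000000000000000000000000) (nat_lit 0x0) (nat_lit 0x800040000000c60006000200000000000000000000000000000000000) := T_23 (nat_lit 173) (nat_lit 174) (nat_lit 3) (nat_lit 3) (nat_lit 10) L12291 (by decide +kernel)
theorem L12293 : W_23 (nat_lit 4) (nat_lit 0x7000380000001000080000000000000000000000000000000) (nat_lit 0x0) (nat_lit 0x800040000000c00006000200000000000000000000000000000000000) := T_23 (nat_lit 178) (nat_lit 179) (nat_lit 1) (nat_lit 9) (nat_lit 10) L7680 (by decide +kernel)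
theorem L12294 : W_23 (nat_lit 6) (nat_lit 0x7000300000001000080000000000000000000000000000000) (nat_lit 0x0) (nat_lit 0x800040008000ce0006000200000000000000000000000000000000000) := Q_23 (nat_lit 175) (C_23 L12288 (C_23 L12292 (C_23 L12293 N_23))) (by decide +kernel)
theorem L12295 : W_23 (nat_lit 7) (nat_lit 0x6000300000001000080000000000000000000000000000000) (nat_lit 0x0) (nat_lit 0x200018001d8009c00ce000e000200000000000000000000000000000000000) := Q_23 (nat_lit 192) (C_23 L12174 (C_23 L12149 (C_23 L12294 N_23))) (by decide +kernel)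
theorem L12296 : W_23 (nat_lit 5) (nat_lit 0x40006000300000001000080000000000000000000000000000000) (nat_lit 0x0) (nat_lit 0x14000b8008000c0001f000200000000000000000000000000000000000) := Q_23 (nat_lit 159) (C_23 L12276 (C_23 L12129 N_23)) (by decide +kernel)
theorem L12297 : W_23 (nat_lit 7) (nat_lit 0x6000300000001000080000000000000000000000000000000) (nat_lit 0x0) (nat_lit 0x38003c000f8008000c0001f000200000000000000000000000000000000000) := Q_23 (nat_lit 210) (C_23 L12079 (C_23 L12034 (C_23 L12296 N_23))) (by decide +kernel)
theorem L12298 : W_23 (nat_lit 5) (nat_lit 0x7000300000001000080000000000000000000000000000000) (nat_lit 0x0) (nat_lit 0x8002400330008000cc0018000800000000000000000000000000000000000) := Q_23 (nat_lit 195) (C_23 L11632 (C_23 L11732 N_23)) (by decide +kernel)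
theorem L12299 : W_23 (nat_lit 6) (nat_lit 0x6000300000001000080000000000000000000000000000000) (nat_lit 0x0) (nat_lit 0x280034003b8009c00cc0018000800000000000000000000000000000000000) := Q_23 (nat_lit 192) (C_23 L12174 (C_23 L12149 (C_23 L12298 N_23))) (by decide +kernel)
theorem L12300 : W_23 (nat_lit 12) (nat_lit 0x4000300000001000080000000000000000000000000000000) (nat_lit 0x0) (nat_lit 0x38003f007f800bc00ce001f000a00010000000000000000000000000000000) := Q_23 (nat_lit 193) (C_23 L12278 (C_23 L12224 (C_23 L12280 (C_23 L12287 (C_23 L12295 (C_23 L12297 (C_23 L12299 N_23))))))) (by decide +kernel)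
theorem L12301 : W_23 (nat_lit 15) (nat_lit 0x4000300000001000080000000000000000000000000000000) (nat_lit 0x0) (nat_lit 0x7f003f803f803bc01c0001f000a00000000000000000000000000000000000) := Q_23 (nat_lit 193) (C_23 L12193 (C_23 L12297 (C_23 L12224 (C_23 L12164 (C_23 L12170 (C_23 L12199 (C_23 L12195 N_23))))))) (by decide +kernel)
theorem L12302 : W_23 (nat_lit 2) (nat_lit 0x6000780000001000080000000000000000000000000000000) (nat_lit 0x0) (nat_lit 0x1800800000000000000000000000000000000000000000000) := D_23 (nat_lit 192) (nat_lit 191) (nat_lit 179) (nat_lit 2) (nat_lit 4) (nat_lit 11) (nat_lit 1) (nat_lit 9) (nat_lit 10) (by decide +kernel)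
theorem L12303 : W_23 (nat_lit 2) (nat_lit 0x4000e800780004001000080000000000000000000000000000000) (nat_lit 0x0) (nat_lit 0x8000200010000000000000000000000000000000) := D_23 (nat_lit 141) (nat_lit 124) (nat_lit 159) (nat_lit 7) (nat_lit 5) (nat_lit 7) (nat_lit 4) (nat_lit 6) (nat_lit 12) (by decide +kernel)
theorem L12304 : W_23 (nat_lit 3) (nat_lit 0xe800780004001000080000000000000000000000000000000) (nat_lit 0x0) (nat_lit 0x800040000000000008000200010000000000000000000000000000000) := T_23 (nat_lit 210) (nat_lit 227) (nat_lit 4) (nat_lit 6) (nat_lit 13) L12303 (by decide +kernel)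
theorem L12305 : W_23 (nat_lit 4) (nat_lit 0xe800780000001000080000000000000000000000000000000) (nat_lit 0x0) (nat_lit 0x80004000000000000e000200010000000000000000000000000000000) := T_23 (nat_lit 158) (nat_lit 157) (nat_lit 0) (nat_lit 8) (nat_lit 10) L12304 (by decide +kernel)
theorem L12306 : W_23 (nat_lit 5) (nat_lit 0x6800780000001000080000000000000000000000000000000) (nat_lit 0x0) (nat_lit 0x80004001800000000e000200010000000000000000000000000000000) := T_23 (nat_lit 195) (nat_lit 196) (nat_lit 3) (nat_lit 5) (nat_lit 10) L12305 (by decide +kernel)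
theorem L12307 : W_23 (nat_lit 6) (nat_lit 0x6000780000001000080000000000000000000000000000000) (nat_lit 0x0) (nat_lit 0x80004001980000000e000200010000000000000000000000000000000) := T_23 (nat_lit 191) (nat_lit 192) (nat_lit 2) (nat_lit 4) (nat_lit 11) L12306 (by decide +kernel)
theorem L12308 : W_23 (nat_lit 2) (nat_lit 0x6000780004001000080000000000000000000000000000000) (nat_lit 0x0) (nat_lit 0x1800008000000000000000000000000000000000000000) := D_23 (nat_lit 179) (nat_lit 180) (nat_lit 159) (nat_lit 1) (nat_lit 10) (nat_lit 10) (nat_lit 0) (nat_lit 9) (nat_lit 10) (by decide +kernel)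
theorem L12309 : W_23 (nat_lit 3) (nat_lit 0x6000780000001000080000000000000000000000000000000) (nat_lit 0x0) (nat_lit 0x180000e000000000000000000000000000000000000000) := T_23 (nat_lit 158) (nat_lit 157) (nat_lit 0) (nat_lit 8) (nat_lit 10) L12308 (by decide +kernel)
theorem L12310 : W_23 (nat_lit 7) (nat_lit 0x6000380000001000080000000000000000000000000000000) (nat_lit 0x0) (nat_lit 0x800040019801c0000e000200010000000000000000000000000000000) := Q_23 (nat_lit 178) (C_23 L12302 (C_23 L12307 (C_23 L12309 N_23))) (by decide +kernel)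
theorem L12312 : W_23 (nat_lit 2) (nat_lit 0x68003c0002001000080000000000000000000000000000000) (nat_lit 0x0) (nat_lit 0x1000400004000000000000000000000000000000000000000) := D_23 (nat_lit 178) (nat_lit 192) (nat_lit 158) (nat_lit 2) (nat_lit 4) (nat_lit 11) (nat_lit 0) (nat_lit 8) (nat_lit 10) (by decide +kernel)
theorem L12313 : W_23 (nat_lit 3) (nat_lit 0x68003c0000001000080000000000000000000000000000000) (nat_lit 0x0) (nat_lit 0x1000400007000000000000000000000000000000000000000) := T_23 (nat_lit 157) (nat_lit 156) (nat_lit 0) (nat_lit 7) (nat_lit 10) L12312 (by decide +kernel)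
theorem L12314 : W_23 (nat_lit 4) (nat_lit 0x60003c0000001000080000000000000000000000000000000) (nat_lit 0x0) (nat_lit 0x1c00400007000000000000000000000000000000000000000) := T_23 (nat_lit 191) (nat_lit 190) (nat_lit 1) (nat_lit 7) (nat_lit 10) L12313 (by decide +kernel)
theorem L12315 : W_23 (nat_lit 5) (nat_lit 0x6000380000001000080000000000000000000000000000000) (nat_lit 0x0) (nat_lit 0x1c00460007000000000000000000000000000000000000000) := T_23 (nat_lit 174) (nat_lit 173) (nat_lit 3) (nat_lit 3) (nat_lit 10) L12314 (by decide +kernel)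
theorem L12316 : W_23 (nat_lit 8) (nat_lit 0x6000300000001000080000000000000000000000000000000) (nat_lit 0x0) (nat_lit 0x800040019c01ce000f000200010000000000000000000000000000000) := Q_23 (nat_lit 175) (C_23 L12310 (C_23 L12311 (C_23 L12315 N_23))) (by decide +kernel)
theorem L12317 : W_23 (nat_lit 2) (nat_lit 0x100006000e00030001e001000080000000000000000000000000000000) (nat_lit 0x0) (nat_lit 0xe0000000000000000000000000000000000000000000) := D_23 (nat_lit 174) (nat_lit 173) (nat_lit 175) (nat_lit 1) (nat_lit 7) (nat_lit 9) (nat_lit 3) (nat_lit 4) (nat_lit 10) (by decide +kernel)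
theorem L12318 : W_23 (nat_lit 3) (nat_lit 0x100006000600030001e001000080000000000000000000000000000000) (nat_lit 0x0) (nat_lit 0x180000e0000000000000000000000000000000000000000000) := T_23 (nat_lit 195) (nat_lit 196) (nat_lit 1) (nat_lit 9) (nat_lit 11) L12317 (by decide +kernel)
theorem L12319 : W_23 (nat_lit 4) (nat_lit 0x100006000600030001c001000080000000000000000000000000000000) (nat_lit 0x0) (nat_lit 0x180000e0003000000000000000000000000000000000000000) := T_23 (nat_lit 157) (nat_lit 156) (nat_lit 3) (nat_lit 3) (nat_lit 9) L12318 (by decide +kernel)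
theorem L12320 : W_23 (nat_lit 5) (nat_lit 0x1000060006000300018001000080000000000000000000000000000000) (nat_lit 0x0) (nat_lit 0x180000e0007000200000000000000000000000000000000000) := T_23 (nat_lit 158) (nat_lit 141) (nat_lit 4) (nat_lit 6) (nat_lit 12) L12319 (by decide +kernel)
theorem L12321 : W_23 (nat_lit 6) (nat_lit 0x60006000300018001000080000000000000000000000000000000) (nat_lit 0x0) (nat_lit 0x10000800180000e0007000200000000000000000000000000000000000) := T_23 (nat_lit 228) (nat_lit 211) (nat_lit 7) (nat_lit 6) (nat_lit 9) L12320 (by decide +kernel)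
theorem L12322 : W_23 (nat_lit 7) (nat_lit 0x60006000300010001000080000000000000000000000000000000) (nat_lit 0x0) (nat_lit 0x14000800180000e000f000200000000000000000000000000000000000) := T_23 (nat_lit 159) (nat_lit 226) (nat_lit 5) (nat_lit 6) (nat_lit 9) L12321 (by decide +kernel)
theorem L12323 : W_23 (nat_lit 8) (nat_lit 0x60006000300000001000080000000000000000000000000000000) (nat_lit 0x0) (nat_lit 0x14000800180000e001f000a00000000000000000000000000000000000) := T_23 (nat_lit 160) (nat_lit 143) (nat_lit 6) (nat_lit 7) (nat_lit 11) L12322 (by decide +kernel)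
theorem L12324 : W_23 (nat_lit 11) (nat_lit 0x40006000300000001000080000000000000000000000000000000) (nat_lit 0x0) (nat_lit 0x14000b8019c000e001f000b80000000000000000000000000000000000) := Q_23 (nat_lit 209) (C_23 L12107 (C_23 L12092 (C_23 L12323 N_23))) (by decide +kernel)
theorem L12325 : W_23 (nat_lit 12) (nat_lit 0x6000300000001000080000000000000000000000000000000) (nat_lit 0x0) (nat_lit 0x38003c000f8019c000e001f000b80000000000000000000000000000000000) := Q_23 (nat_lit 210) (C_23 L12169 (C_23 L12079 (C_23 L12034 (C_23 L12324 N_23)))) (by decide +kernel)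
theorem L12326 : W_23 (nat_lit 2) (nat_lit 0xc000600030001c001000080000000000000000000000000000000) (nat_lit 0x0) (nat_lit 0x400003000000000000000000000000000000000000000) := D_23 (nat_lit 157) (nat_lit 178) (nat_lit 156) (nat_lit 3) (nat_lit 4) (nat_lit 9) (nat_lit 3) (nat_lit 3) (nat_lit 9) (by decide +kernel)
theorem L12327 : W_23 (nat_lit 3) (nat_lit 0xc0006000300018001000080000000000000000000000000000000) (nat_lit 0x0) (nat_lit 0x400007000200000000000000000000000000000000000) := T_23 (nat_lit 158) (nat_lit 141) (nat_lit 4) (nat_lit 6) (nat_lit 12) L12326 (by decide +kernel)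
theorem L12328 : W_23 (nat_lit 4) (nat_lit 0x40006000300018001000080000000000000000000000000000000) (nat_lit 0x0) (nat_lit 0x1000080000000400007000200000000000000000000000000000000000) := T_23 (nat_lit 211) (nat_lit 228) (nat_lit 7) (nat_lit 6) (nat_lit 9) L12327 (by decide +kernel)
theorem L12329 : W_23 (nat_lit 5) (nat_lit 0x40006000300008001000080000000000000000000000000000000) (nat_lit 0x0) (nat_lit 0x1000080000000400017000a00000000000000000000000000000000000) := T_23 (nat_lit 160) (nat_lit 143) (nat_lit 6) (nat_lit 7) (nat_lit 11) L12328 (by decide +kernel)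
theorem L12330 : W_23 (nat_lit 8) (nat_lit 0x68006000300008001000080000000000000000000000000000000) (nat_lit 0x0) (nat_lit 0x1000080001c00060017000b80000000000000000000000000000000000) := T_23 (nat_lit 160) (nat_lit 143) (nat_lit 6) (nat_lit 7) (nat_lit 11) L12104 (by decide +kernel)
theorem L12331 : W_23 (nat_lit 9) (nat_lit 0x60006000300008001000080000000000000000000000000000000) (nat_lit 0x0) (nat_lit 0x1000098001c00060017000b80000000000000000000000000000000000) := T_23 (nat_lit 207) (nat_lit 208) (nat_lit 2) (nat_lit 3) (nat_lit 12) L12330 (by decide +kernel)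
theorem L12332 : W_23 (nat_lit 10) (nat_lit 0x40006000300008001000080000000000000000000000000000000) (nat_lit 0x0) (nat_lit 0x14000b8001c00060017000b80000000000000000000000000000000000) := T_23 (nat_lit 209) (nat_lit 226) (nat_lit 5) (nat_lit 6) (nat_lit 9) L12331 (by decide +kernel)
theorem L12333 : W_23 (nat_lit 2) (nat_lit 0xe800600030000e001000080000000000000000000000000000000) (nat_lit 0x0) (nat_lit 0xc80000000000000000000000000000000000000000000) := D_23 (nat_lit 178) (nat_lit 179) (nat_lit 175) (nat_lit 0) (nat_lit 9) (nat_lit 10) (nat_lit 0) (nat_lit 8) (nat_lit 10) (by decide +kernel)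
theorem L12334 : W_23 (nat_lit 3) (nat_lit 0xe800600030000c001000080000000000000000000000000000000) (nat_lit 0x0) (nat_lit 0xc80003000000000000000000000000000000000000000) := T_23 (nat_lit 157) (nat_lit 156) (nat_lit 3) (nat_lit 3) (nat_lit 9) L12333 (by decide +kernel)
theorem L12335 : W_23 (nat_lit 4) (nat_lit 0xe8006000300008001000080000000000000000000000000000000) (nat_lit 0x0) (nat_lit 0xc80007000200000000000000000000000000000000000) := T_23 (nat_lit 158) (nat_lit 141) (nat_lit 4) (nat_lit 6) (nat_lit 12) L12334 (by decide +kernel)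
theorem L12336 : W_23 (nat_lit 5) (nat_lit 0xe0006000300008001000080000000000000000000000000000000) (nat_lit 0x0) (nat_lit 0x18000000c80007000200000000000000000000000000000000000) := T_23 (nat_lit 207) (nat_lit 208) (nat_lit 2) (nat_lit 3) (nat_lit 12) L12335 (by decide +kernel)
theorem L12337 : W_23 (nat_lit 6) (nat_lit 0xc0006000300008001000080000000000000000000000000000000) (nat_lit 0x0) (nat_lit 0x400038000000c80007000200000000000000000000000000000000000) := T_23 (nat_lit 209) (nat_lit 226) (nat_lit 5) (nat_lit 6) (nat_lit 9) L12336 (by decide +kernel)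
theorem L12338 : W_23 (nat_lit 7) (nat_lit 0x40006000300008001000080000000000000000000000000000000) (nat_lit 0x0) (nat_lit 0x14000b8000000c80007000200000000000000000000000000000000000) := T_23 (nat_lit 211) (nat_lit 228) (nat_lit 7) (nat_lit 6) (nat_lit 9) L12337 (by decide +kernel)
theorem L12339 : W_23 (nat_lit 2) (nat_lit 0x2000f0007800300018001000080000000000000000000000000000000) (nat_lit 0x0) (nat_lit 0x80004000000000000000080000000000000000000000000000000000000000000) := D_23 (nat_lit 242) (nat_lit 175) (nat_lit 259) (nat_lit 6) (nat_lit 4) (nat_lit 14) (nat_lit 6) (nat_lit 4) (nat_lit 15) (by decide +kernel)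
theorem L12340 : W_23 (nat_lit 3) (nat_lit 0x2000f0006800300018001000080000000000000000000000000000000) (nat_lit 0x0) (nat_lit 0x80004000000000001000480000000000000000000000000000000000000000000) := T_23 (nat_lit 192) (nat_lit 178) (nat_lit 2) (nat_lit 4) (nat_lit 11) L12339 (by decide +kernel)
theorem L12341 : W_23 (nat_lit 4) (nat_lit 0x2000f0006000300018001000080000000000000000000000000000000) (nat_lit 0x0) (nat_lit 0x80004000000000001c00480000000000000000000000000000000000000000000) := T_23 (nat_lit 191) (nat_lit 190) (nat_lit 0) (nat_lit 7) (nat_lit 12) L12340 (by decide +kernel)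
theorem L12342 : W_23 (nat_lit 5) (nat_lit 0xf0006000300018001000080000000000000000000000000000000) (nat_lit 0x0) (nat_lit 0x80004000300000001c00480000000000000000000000000000000000000000000) := T_23 (nat_lit 225) (nat_lit 224) (nat_lit 1) (nat_lit 7) (nat_lit 12) L12341 (by decide +kernel)
theorem L12343 : W_23 (nat_lit 6) (nat_lit 0xe0006000300018001000080000000000000000000000000000000) (nat_lit 0x0) (nat_lit 0x80004000300018001c00480000000000000000000000000000000000000000000) := T_23 (nat_lit 208) (nat_lit 207) (nat_lit 2) (nat_lit 3) (nat_lit 12) L12342 (by decide +kernel)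
theorem L12344 : W_23 (nat_lit 7) (nat_lit 0xc0006000300018001000080000000000000000000000000000000) (nat_lit 0x0) (nat_lit 0x80004000700038001c00480000000000000000000000000000000000000000000) := T_23 (nat_lit 209) (nat_lit 226) (nat_lit 5) (nat_lit 6) (nat_lit 9) L12343 (by decide +kernel)
theorem L12345 : W_23 (nat_lit 8) (nat_lit 0x40006000300018001000080000000000000000000000000000000) (nat_lit 0x0) (nat_lit 0x800040017000b8001c00480000000000000000000000000000000000000000000) := T_23 (nat_lit 211) (nat_lit 228) (nat_lit 7) (nat_lit 6) (nat_lit 9) L12344 (by decide +kernel)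
theorem L12346 : W_23 (nat_lit 9) (nat_lit 0x40006000300008001000080000000000000000000000000000000) (nat_lit 0x0) (nat_lit 0x800040017000b8001c00480010000800000000000000000000000000000000000) := T_23 (nat_lit 160) (nat_lit 143) (nat_lit 6) (nat_lit 7) (nat_lit 11) L12345 (by decide +kernel)
theorem L12347 : W_23 (nat_lit 11) (nat_lit 0x40006000300000001000080000000000000000000000000000000) (nat_lit 0x0) (nat_lit 0x800040017000b8001c00ce001f000b80000000000000000000000000000000000) := Q_23 (nat_lit 159) (C_23 L12129 (C_23 L12329 (C_23 L12332 (C_23 L12338 (C_23 L12346 N_23))))) (by decide +kernel)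
theorem L12348 : W_23 (nat_lit 12) (nat_lit 0x6000300000001000080000000000000000000000000000000) (nat_lit 0x0) (nat_lit 0x8003c003f000f8001c00ce001f000b80000000000000000000000000000000000) := Q_23 (nat_lit 210) (C_23 L12079 (C_23 L12034 (C_23 L12347 N_23))) (by decide +kernel)
theorem L12349 : W_23 (nat_lit 8) (nat_lit 0x6000300000001000080000000000000000000000000000000) (nat_lit 0x0) (nat_lit 0x800078009c00ce0016000a00000000000000000000000000000000000) := Q_23 (nat_lit 192) (C_23 L12149 (C_23 L12286 (C_23 L12294 N_23))) (by decide +kernel)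
theorem L12350 : W_23 (nat_lit 7) (nat_lit 0x7000300000001000080000000000000000000000000000000) (nat_lit 0x0) (nat_lit 0x18000c00070038001cc0010000800000000000000000000000000000000000) := Q_23 (nat_lit 195) (C_23 L11689 (C_23 L12197 N_23)) (by decide +kernel)
theorem L12351 : W_23 (nat_lit 8) (nat_lit 0x6000300000001000080000000000000000000000000000000) (nat_lit 0x0) (nat_lit 0x18000c00078039c01ce0010000800000000000000000000000000000000000) := Q_23 (nat_lit 192) (C_23 L12149 (C_23 L12286 (C_23 L12350 N_23))) (by decide +kernel)
theorem L12352 : W_23 (nat_lit 2) (nat_lit 0x17000780014001000080000000000000000000000000000000) (nat_lit 0x0) (nat_lit 0x40000000000000000200010000000000000000000000000000000) := D_23 (nat_lit 141) (nat_lit 210) (nat_lit 124) (nat_lit 7) (nat_lit 5) (nat_lit 8) (nat_lit 7) (nat_lit 5) (nat_lit 7) (by decide +kernel)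
theorem L12353 : W_23 (nat_lit 3) (nat_lit 0x17000780010001000080000000000000000000000000000000) (nat_lit 0x0) (nat_lit 0x40000000000006000200010000000000000000000000000000000) := T_23 (nat_lit 158) (nat_lit 157) (nat_lit 0) (nat_lit 8) (nat_lit 10) L12352 (by decide +kernel)
theorem L12354 : W_23 (nat_lit 4) (nat_lit 0x16000780010001000080000000000000000000000000000000) (nat_lit 0x0) (nat_lit 0x40001800000006000200010000000000000000000000000000000) := T_23 (nat_lit 192) (nat_lit 191) (nat_lit 2) (nat_lit 4) (nat_lit 11) L12353 (by decide +kernel)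
theorem L12355 : W_23 (nat_lit 5) (nat_lit 0x6000780010001000080000000000000000000000000000000) (nat_lit 0x0) (nat_lit 0x40019800000006000200010000000000000000000000000000000) := T_23 (nat_lit 196) (nat_lit 195) (nat_lit 3) (nat_lit 5) (nat_lit 10) L12354 (by decide +kernel)
theorem L12356 : W_23 (nat_lit 6) (nat_lit 0x6000780000001000080000000000000000000000000000000) (nat_lit 0x0) (nat_lit 0x40019800000016000a00010000000000000000000000000000000) := T_23 (nat_lit 160) (nat_lit 143) (nat_lit 6) (nat_lit 7) (nat_lit 11) L12355 (by decide +kernel)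
theorem L12357 : W_23 (nat_lit 7) (nat_lit 0x6000380000001000080000000000000000000000000000000) (nat_lit 0x0) (nat_lit 0x40019801c0001e000a00010000000000000000000000000000000) := Q_23 (nat_lit 178) (C_23 L12309 (C_23 L12356 (C_23 L12302 N_23))) (by decide +kernel)
theorem L12358 : W_23 (nat_lit 8) (nat_lit 0x6000300000001000080000000000000000000000000000000) (nat_lit 0x0) (nat_lit 0x40019c01ce001f000a00010000000000000000000000000000000) := Q_23 (nat_lit 175) (C_23 L12311 (C_23 L12315 (C_23 L12357 N_23))) (by decide +kernel)
theorem L12359 : W_23 (nat_lit 2) (nat_lit 0x2000f000780014001000080000000000000000000000000000000) (nat_lit 0x0) (nat_lit 0x8000400000000000000008000000000000000000000000000000000000000) := D_23 (nat_lit 226) (nat_lit 243) (nat_lit 159) (nat_lit 6) (nat_lit 5) (nat_lit 14) (nat_lit 6) (nat_lit 5) (nat_lit 13) (by decide +kernel)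
theorem L12360 : W_23 (nat_lit 3) (nat_lit 0xf000780014001000080000000000000000000000000000000) (nat_lit 0x0) (nat_lit 0x8000400030000000000008000000000000000000000000000000000000000) := T_23 (nat_lit 209) (nat_lit 208) (nat_lit 1) (nat_lit 8) (nat_lit 11) L12359 (by decide +kernel)
theorem L12361 : W_23 (nat_lit 4) (nat_lit 0xf000780010001000080000000000000000000000000000000) (nat_lit 0x0) (nat_lit 0x800040003000000000000e000000000000000000000000000000000000000) := T_23 (nat_lit 158) (nat_lit 157) (nat_lit 0) (nat_lit 8) (nat_lit 10) L12360 (by decide +kernel)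
theorem L12362 : W_23 (nat_lit 5) (nat_lit 0xe000780010001000080000000000000000000000000000000) (nat_lit 0x0) (nat_lit 0x800040003000180000000e000000000000000000000000000000000000000) := T_23 (nat_lit 192) (nat_lit 191) (nat_lit 2) (nat_lit 4) (nat_lit 11) L12361 (by decide +kernel)
theorem L12363 : W_23 (nat_lit 6) (nat_lit 0x6000780010001000080000000000000000000000000000000) (nat_lit 0x0) (nat_lit 0x800040003001980000000e000000000000000000000000000000000000000) := T_23 (nat_lit 195) (nat_lit 196) (nat_lit 3) (nat_lit 5) (nat_lit 10) L12362 (by decide +kernel)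
theorem L12364 : W_23 (nat_lit 7) (nat_lit 0x6000780000001000080000000000000000000000000000000) (nat_lit 0x0) (nat_lit 0x800040003001980000001e000800000000000000000000000000000000000) := T_23 (nat_lit 160) (nat_lit 143) (nat_lit 6) (nat_lit 7) (nat_lit 11) L12363 (by decide +kernel)
theorem L12365 : W_23 (nat_lit 8) (nat_lit 0x6000380000001000080000000000000000000000000000000) (nat_lit 0x0) (nat_lit 0x8000400030019801c0001e000800000000000000000000000000000000000) := Q_23 (nat_lit 178) (C_23 L12309 (C_23 L12364 (C_23 L12302 N_23))) (by decide +kernel)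
theorem L12366 : W_23 (nat_lit 9) (nat_lit 0x6000300000001000080000000000000000000000000000000) (nat_lit 0x0) (nat_lit 0x8000400030019c01ce001f000800000000000000000000000000000000000) := Q_23 (nat_lit 175) (C_23 L12311 (C_23 L12315 (C_23 L12365 N_23))) (by decide +kernel)
theorem L12367 : W_23 (nat_lit 13) (nat_lit 0x4000300000001000080000000000000000000000000000000) (nat_lit 0x0) (nat_lit 0x8003c003f000f803bc01ce001f000b80010000000000000000000000000000000) := Q_23 (nat_lit 193) (C_23 L12316 (C_23 L12297 (C_23 L12325 (C_23 L12348 (C_23 L12349 (C_23 L12351 (C_23 L12358 (C_23 L12366 N_23)))))))) (by decide +kernel)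
theorem L12368 : W_23 (nat_lit 2) (nat_lit 0x200040003c001e000b00010001000080000000000000000000000000000000) (nat_lit 0x0) (nat_lit 0x1000080000000000000000400000000000000000000000000000000000000000000) := D_23 (nat_lit 247) (nat_lit 178) (nat_lit 264) (nat_lit 4) (nat_lit 9) (nat_lit 14) (nat_lit 4) (nat_lit 9) (nat_lit 15) (by decide +kernel)
theorem L12369 : W_23 (nat_lit 3) (nat_lit 0x200000003c001e000b00010001000080000000000000000000000000000000) (nat_lit 0x0) (nat_lit 0x100008000c000000000000400000000000000000000000000000000000000000000) := T_23 (nat_lit 230) (nat_lit 231) (nat_lit 3) (nat_lit 6) (nat_lit 12) L12368 (by decide +kernel)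
theorem L12370 : W_23 (nat_lit 4) (nat_lit 0x200000003c001e000300010001000080000000000000000000000000000000) (nat_lit 0x0) (nat_lit 0x100008000c000000000001c00000000000000000000000000000000000000000000) := T_23 (nat_lit 179) (nat_lit 180) (nat_lit 2) (nat_lit 6) (nat_lit 11) L12369 (by decide +kernel)
theorem L12371 : W_23 (nat_lit 5) (nat_lit 0x2000000038001e000300010001000080000000000000000000000000000000) (nat_lit 0x0) (nat_lit 0x100008000c000060000001c00000000000000000000000000000000000000000000) := T_23 (nat_lit 210) (nat_lit 209) (nat_lit 2) (nat_lit 5) (nat_lit 12) L12370 (by decide +kernel)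
theorem L12372 : W_23 (nat_lit 6) (nat_lit 0x38001e000300010001000080000000000000000000000000000000) (nat_lit 0x0) (nat_lit 0x10000a000d000060000001c00000000000000000000000000000000000000000000) := T_23 (nat_lit 245) (nat_lit 228) (nat_lit 4) (nat_lit 7) (nat_lit 14) L12371 (by decide +kernel)
theorem L12373 : W_23 (nat_lit 7) (nat_lit 0x38000e000300010001000080000000000000000000000000000000) (nat_lit 0x0) (nat_lit 0x10000a000d000060030001c00000000000000000000000000000000000000000000) := T_23 (nat_lit 196) (nat_lit 197) (nat_lit 0) (nat_lit 10) (nat_lit 11) L12372 (by decide +kernel)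
theorem L12374 : W_23 (nat_lit 8) (nat_lit 0x18000e000300010001000080000000000000000000000000000000) (nat_lit 0x0) (nat_lit 0x10000a000d000660030001c00000000000000000000000000000000000000000000) := T_23 (nat_lit 213) (nat_lit 214) (nat_lit 0) (nat_lit 10) (nat_lit 12) L12373 (by decide +kernel)
theorem L12375 : W_23 (nat_lit 9) (nat_lit 0x8000e000300010001000080000000000000000000000000000000) (nat_lit 0x0) (nat_lit 0x10000a000f000760030001c00000000000000000000000000000000000000000000) := T_23 (nat_lit 212) (nat_lit 229) (nat_lit 7) (nat_lit 7) (nat_lit 9) L12374 (by decide +kernel)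
theorem L12376 : W_23 (nat_lit 10) (nat_lit 0x8000e000300000001000080000000000000000000000000000000) (nat_lit 0x0) (nat_lit 0x10000a000f000760030001c00010000800000000000000000000000000000000000) := T_23 (nat_lit 160) (nat_lit 143) (nat_lit 6) (nat_lit 7) (nat_lit 11) L12375 (by decide +kernel)
theorem L12377 : W_23 (nat_lit 2) (nat_lit 0x40003c001e000300010001000080000000000000000000000000000000) (nat_lit 0x0) (nat_lit 0x1000080000000000000000400000000000000000000000000000000000000000000) := D_23 (nat_lit 247) (nat_lit 178) (nat_lit 264) (nat_lit 4) (nat_lit 9) (nat_lit 14) (nat_lit 4) (nat_lit 9) (nat_lit 15) (by decide +kernel)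
theorem L12378 : W_23 (nat_lit 3) (nat_lit 0x3c001e000300010001000080000000000000000000000000000000) (nat_lit 0x0) (nat_lit 0x100008000c000000000000400000000000000000000000000000000000000000000) := T_23 (nat_lit 230) (nat_lit 231) (nat_lit 3) (nat_lit 6) (nat_lit 12) L12377 (by decide +kernel)
theorem L12379 : W_23 (nat_lit 4) (nat_lit 0x38001e000300010001000080000000000000000000000000000000) (nat_lit 0x0) (nat_lit 0x100008000c000060000000400000000000000000000000000000000000000000000) := T_23 (nat_lit 210) (nat_lit 209) (nat_lit 2) (nat_lit 5) (nat_lit 12) L12378 (by decide +kernel)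
theorem L12380 : W_23 (nat_lit 5) (nat_lit 0x38000e000300010001000080000000000000000000000000000000) (nat_lit 0x0) (nat_lit 0x100008000c000060030000400000000000000000000000000000000000000000000) := T_23 (nat_lit 196) (nat_lit 197) (nat_lit 0) (nat_lit 10) (nat_lit 11) L12379 (by decide +kernel)
theorem L12381 : W_23 (nat_lit 6) (nat_lit 0x18000e000300010001000080000000000000000000000000000000) (nat_lit 0x0) (nat_lit 0x100008000c000660030000400000000000000000000000000000000000000000000) := T_23 (nat_lit 213) (nat_lit 214) (nat_lit 0) (nat_lit 10) (nat_lit 12) L12380 (by decide +kernel)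
theorem L12382 : W_23 (nat_lit 7) (nat_lit 0x8000e000300010001000080000000000000000000000000000000) (nat_lit 0x0) (nat_lit 0x100008000e000760030000400000000000000000000000000000000000000000000) := T_23 (nat_lit 212) (nat_lit 229) (nat_lit 7) (nat_lit 7) (nat_lit 9) L12381 (by decide +kernel)
theorem L12383 : W_23 (nat_lit 8) (nat_lit 0x8000e000300000001000080000000000000000000000000000000) (nat_lit 0x0) (nat_lit 0x100008000e000760030000400010000800000000000000000000000000000000000) := T_23 (nat_lit 160) (nat_lit 143) (nat_lit 6) (nat_lit 7) (nat_lit 11) L12382 (by decide +kernel)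
theorem L12384 : W_23 (nat_lit 11) (nat_lit 0xe000300000001000080000000000000000000000000000000) (nat_lit 0x0) (nat_lit 0x10000a000f0007e0030001c00018000800000000000000000000000000000000000) := Q_23 (nat_lit 211) (C_23 L11830 (C_23 L12376 (C_23 L12383 N_23))) (by decide +kernel)
theorem L12385 : W_23 (nat_lit 5) (nat_lit 0xe000300000001000080000000000000000000000000000000) (nat_lit 0x0) (nat_lit 0x2000380001c00c00010000800000000000000000000000000000000000) := Q_23 (nat_lit 192) (C_23 L11587 (C_23 L11732 (C_23 L11585 N_23))) (by decide +kernel)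
theorem L12386 : W_23 (nat_lit 2) (nat_lit 0x22001f000300010001000080000000000000000000000000000000) (nat_lit 0x0) (nat_lit 0x1c00000000000000000000000000000000000000000000) := D_23 (nat_lit 179) (nat_lit 178) (nat_lit 180) (nat_lit 2) (nat_lit 5) (nat_lit 11) (nat_lit 2) (nat_lit 6) (nat_lit 11) (by decide +kernel)
theorem L12387 : W_23 (nat_lit 3) (nat_lit 0x22001e000300010001000080000000000000000000000000000000) (nat_lit 0x0) (nat_lit 0x10001001c00000000000000000000000000000000000000000000) := T_23 (nat_lit 192) (nat_lit 208) (nat_lit 1) (nat_lit 8) (nat_lit 11) L12386 (by decide +kernel)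
theorem L12388 : W_23 (nat_lit 4) (nat_lit 0x2001e000300010001000080000000000000000000000000000000) (nat_lit 0x0) (nat_lit 0x610001001c00000000000000000000000000000000000000000000) := T_23 (nat_lit 213) (nat_lit 214) (nat_lit 3) (nat_lit 6) (nat_lit 11) L12387 (by decide +kernel)
theorem L12389 : W_23 (nat_lit 5) (nat_lit 0x1e000300010001000080000000000000000000000000000000) (nat_lit 0x0) (nat_lit 0x670001001c00000000000000000000000000000000000000000000) := T_23 (nat_lit 209) (nat_lit 210) (nat_lit 1) (nat_lit 9) (nat_lit 11) L12388 (by decide +kernel)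
theorem L12390 : W_23 (nat_lit 6) (nat_lit 0xe000300010001000080000000000000000000000000000000) (nat_lit 0x0) (nat_lit 0x670031001c00000000000000000000000000000000000000000000) := T_23 (nat_lit 196) (nat_lit 197) (nat_lit 0) (nat_lit 10) (nat_lit 11) L12389 (by decide +kernel)
theorem L12391 : W_23 (nat_lit 7) (nat_lit 0xe000300000001000080000000000000000000000000000000) (nat_lit 0x0) (nat_lit 0x670031001c00010000800000000000000000000000000000000000) := T_23 (nat_lit 160) (nat_lit 143) (nat_lit 6) (nat_lit 7) (nat_lit 11) L12390 (by decide +kernel)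
theorem L12392 : W_23 (nat_lit 2) (nat_lit 0x1f000b00010001000080000000000000000000000000000000) (nat_lit 0x0) (nat_lit 0x70000000000000000000000000000000000000000000000000000) := D_23 (nat_lit 209) (nat_lit 210) (nat_lit 208) (nat_lit 1) (nat_lit 9) (nat_lit 11) (nat_lit 1) (nat_lit 8) (nat_lit 11) (by decide +kernel)
theorem L12393 : W_23 (nat_lit 3) (nat_lit 0x1e000b00010001000080000000000000000000000000000000) (nat_lit 0x0) (nat_lit 0x70001000400000000000000000000000000000000000000000000) := T_23 (nat_lit 192) (nat_lit 178) (nat_lit 2) (nat_lit 5) (nat_lit 11) L12392 (by decide +kernel)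
theorem L12394 : W_23 (nat_lit 4) (nat_lit 0x1e000300010001000080000000000000000000000000000000) (nat_lit 0x0) (nat_lit 0x70001001c00000000000000000000000000000000000000000000) := T_23 (nat_lit 179) (nat_lit 180) (nat_lit 2) (nat_lit 6) (nat_lit 11) L12393 (by decide +kernel)
theorem L12395 : W_23 (nat_lit 5) (nat_lit 0x1e000300000001000080000000000000000000000000000000) (nat_lit 0x0) (nat_lit 0x70001001c00010000800000000000000000000000000000000000) := T_23 (nat_lit 160) (nat_lit 143) (nat_lit 6) (nat_lit 7) (nat_lit 11) L12394 (by decide +kernel)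
theorem L12396 : W_23 (nat_lit 6) (nat_lit 0xe000300000001000080000000000000000000000000000000) (nat_lit 0x0) (nat_lit 0x70031001c00010000800000000000000000000000000000000000) := T_23 (nat_lit 196) (nat_lit 197) (nat_lit 0) (nat_lit 10) (nat_lit 11) L12395 (by decide +kernel)
theorem L12397 : W_23 (nat_lit 12) (nat_lit 0xc000300000001000080000000000000000000000000000000) (nat_lit 0x0) (nat_lit 0x10000e000f0007f0033c01c00058000800000000000000000000000000000000000) := Q_23 (nat_lit 193) (C_23 L12384 (C_23 L11663 (C_23 L11646 (C_23 L11651 (C_23 L12385 (C_23 L12391 (C_23 L12396 N_23))))))) (by decide +kernel)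
theorem L12398 : W_23 (nat_lit 2) (nat_lit 0x10000f000340000001000080000000000000000000000000000000) (nat_lit 0x0) (nat_lit 0x80000800020000000000000000000000000000000000000000000) := D_23 (nat_lit 191) (nat_lit 211) (nat_lit 173) (nat_lit 3) (nat_lit 4) (nat_lit 11) (nat_lit 0) (nat_lit 7) (nat_lit 11) (by decide +kernel)
theorem L12399 : W_23 (nat_lit 3) (nat_lit 0x10000d000340000001000080000000000000000000000000000000) (nat_lit 0x0) (nat_lit 0x280002800020000000000000000000000000000000000000000000) := T_23 (nat_lit 193) (nat_lit 213) (nat_lit 3) (nat_lit 5) (nat_lit 11) L12398 (by decide +kernel)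
theorem L12400 : W_23 (nat_lit 4) (nat_lit 0x10000d000300000001000080000000000000000000000000000000) (nat_lit 0x0) (nat_lit 0x2800028000e0000000000000000000000000000000000000000000) := T_23 (nat_lit 174) (nat_lit 175) (nat_lit 3) (nat_lit 4) (nat_lit 10) L12399 (by decide +kernel)
theorem L12401 : W_23 (nat_lit 2) (nat_lit 0x10000d001f80004001800080000000000000000000000000000000) (nat_lit 0x0) (nat_lit 0x1c0000000000000000000000000000000000000000) := D_23 (nat_lit 163) (nat_lit 162) (nat_lit 164) (nat_lit 2) (nat_lit 6) (nat_lit 10) (nat_lit 2) (nat_lit 7) (nat_lit 10) (by decide +kernel)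
theorem L12402 : W_23 (nat_lit 3) (nat_lit 0x10000d000f80004001800080000000000000000000000000000000) (nat_lit 0x0) (nat_lit 0x30001c0000000000000000000000000000000000000000) := T_23 (nat_lit 180) (nat_lit 181) (nat_lit 1) (nat_lit 11) (nat_lit 10) L12401 (by decide +kernel)
theorem L12403 : W_23 (nat_lit 4) (nat_lit 0x10000d000780004001800080000000000000000000000000000000) (nat_lit 0x0) (nat_lit 0x38001c8000000000000000000000000000000000000000) := T_23 (nat_lit 179) (nat_lit 159) (nat_lit 0) (nat_lit 9) (nat_lit 10) L12402 (by decide +kernel)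
theorem L12404 : W_23 (nat_lit 5) (nat_lit 0x10000d000780000001800080000000000000000000000000000000) (nat_lit 0x0) (nat_lit 0x38001ce000000000000000000000000000000000000000) := T_23 (nat_lit 158) (nat_lit 157) (nat_lit 0) (nat_lit 8) (nat_lit 10) L12403 (by decide +kernel)
theorem L12405 : W_23 (nat_lit 6) (nat_lit 0x10000d000380000001800080000000000000000000000000000000) (nat_lit 0x0) (nat_lit 0x803c001ce000000000000000000000000000000000000000) := T_23 (nat_lit 178) (nat_lit 191) (nat_lit 1) (nat_lit 8) (nat_lit 10) L12404 (by decide +kernel)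
theorem L12406 : W_23 (nat_lit 7) (nat_lit 0x10000d000300000001800080000000000000000000000000000000) (nat_lit 0x0) (nat_lit 0x803cc01ce000000000000000000000000000000000000000) := T_23 (nat_lit 175) (nat_lit 174) (nat_lit 3) (nat_lit 4) (nat_lit 10) L12405 (by decide +kernel)
theorem L12407 : W_23 (nat_lit 8) (nat_lit 0x10000d000300000001000080000000000000000000000000000000) (nat_lit 0x0) (nat_lit 0x803cc01de000800000000000000000000000000000000000) := T_23 (nat_lit 143) (nat_lit 160) (nat_lit 7) (nat_lit 7) (nat_lit 8) L12406 (by decide +kernel)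
theorem L12408 : W_23 (nat_lit 3) (nat_lit 0x10000d000300000001000080000000000000000000000000000000) (nat_lit 0x0) (nat_lit 0x280002c00000000000000000000000000000000000000000000000) := T_23 (nat_lit 193) (nat_lit 213) (nat_lit 3) (nat_lit 5) (nat_lit 11) L11586 (by decide +kernel)
theorem L12409 : W_23 (nat_lit 2) (nat_lit 0x12000f000780000001800080000000000000000000000000000000) (nat_lit 0x0) (nat_lit 0x8000400000000000000008000000000000000000000000000000000000000) := D_23 (nat_lit 226) (nat_lit 159) (nat_lit 243) (nat_lit 6) (nat_lit 5) (nat_lit 13) (nat_lit 6) (nat_lit 5) (nat_lit 14) (by decide +kernel)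
theorem L12410 : W_23 (nat_lit 3) (nat_lit 0x12000f000700000001800080000000000000000000000000000000) (nat_lit 0x0) (nat_lit 0x80004000000000000c0008000000000000000000000000000000000000000) := T_23 (nat_lit 175) (nat_lit 174) (nat_lit 3) (nat_lit 4) (nat_lit 10) L12409 (by decide +kernel)
theorem L12411 : W_23 (nat_lit 4) (nat_lit 0x10000f000700000001800080000000000000000000000000000000) (nat_lit 0x0) (nat_lit 0x80004000300000000c0008000000000000000000000000000000000000000) := T_23 (nat_lit 209) (nat_lit 208) (nat_lit 1) (nat_lit 8) (nat_lit 11) L12410 (by decide +kernel)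
theorem L12412 : W_23 (nat_lit 5) (nat_lit 0x10000f000300000001800080000000000000000000000000000000) (nat_lit 0x0) (nat_lit 0x8000400030000000cc0008000000000000000000000000000000000000000) := T_23 (nat_lit 178) (nat_lit 179) (nat_lit 2) (nat_lit 5) (nat_lit 11) L12411 (by decide +kernel)
theorem L12413 : W_23 (nat_lit 6) (nat_lit 0x10000d000300000001800080000000000000000000000000000000) (nat_lit 0x0) (nat_lit 0x8000400230002000cc0008000000000000000000000000000000000000000) := T_23 (nat_lit 193) (nat_lit 213) (nat_lit 3) (nat_lit 5) (nat_lit 11) L12412 (by decide +kernel)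
theorem L12414 : W_23 (nat_lit 7) (nat_lit 0x10000d000300000001000080000000000000000000000000000000) (nat_lit 0x0) (nat_lit 0x8000400230002000cc0018000800000000000000000000000000000000000) := T_23 (nat_lit 143) (nat_lit 160) (nat_lit 7) (nat_lit 7) (nat_lit 8) L12413 (by decide +kernel)
theorem L12415 : W_23 (nat_lit 9) (nat_lit 0x10000c000300000001000080000000000000000000000000000000) (nat_lit 0x0) (nat_lit 0x80004002b0003c03ce01de000800000000000000000000000000000000000) := Q_23 (nat_lit 192) (C_23 L12400 (C_23 L12407 (C_23 L12408 (C_23 L12414 N_23)))) (by decide +kernel)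
theorem L12416 : W_23 (nat_lit 2) (nat_lit 0x200010000c000300000001000080000000000000000000000000000000) (nat_lit 0x0) (nat_lit 0x80000000400010000000000000000000000000000000000000000) := D_23 (nat_lit 160) (nat_lit 178) (nat_lit 211) (nat_lit 4) (nat_lit 8) (nat_lit 13) (nat_lit 7) (nat_lit 7) (nat_lit 9) (by decide +kernel)
theorem L12417 : W_23 (nat_lit 3) (nat_lit 0x10000c000300000001000080000000000000000000000000000000) (nat_lit 0x0) (nat_lit 0x40002000080000000400010000000000000000000000000000000000000000) := T_23 (nat_lit 229) (nat_lit 246) (nat_lit 4) (nat_lit 8) (nat_lit 14) L12416 (by decide +kernel)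
theorem L12418 : W_23 (nat_lit 2) (nat_lit 0x4000000010000d001f80004001000080000000000000000000000000000000) (nat_lit 0x0) (nat_lit 0x1c0000000000000000000000000000000000000000) := D_23 (nat_lit 163) (nat_lit 162) (nat_lit 164) (nat_lit 2) (nat_lit 6) (nat_lit 10) (nat_lit 2) (nat_lit 7) (nat_lit 10) (by decide +kernel)
theorem L12419 : W_23 (nat_lit 3) (nat_lit 0x4000000010000d000f80004001000080000000000000000000000000000000) (nat_lit 0x0) (nat_lit 0x30001c0000000000000000000000000000000000000000) := T_23 (nat_lit 180) (nat_lit 181) (nat_lit 1) (nat_lit 11) (nat_lit 10) L12418 (by decide +kernel)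
theorem L12420 : W_23 (nat_lit 4) (nat_lit 0x4000000010000d000780004001000080000000000000000000000000000000) (nat_lit 0x0) (nat_lit 0x38001c8000000000000000000000000000000000000000) := T_23 (nat_lit 179) (nat_lit 159) (nat_lit 0) (nat_lit 9) (nat_lit 10) L12419 (by decide +kernel)
theorem L12421 : W_23 (nat_lit 5) (nat_lit 0x4000000010000d000780000001000080000000000000000000000000000000) (nat_lit 0x0) (nat_lit 0x38001ce000000000000000000000000000000000000000) := T_23 (nat_lit 158) (nat_lit 157) (nat_lit 0) (nat_lit 8) (nat_lit 10) L12420 (by decide +kernel)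
theorem L12422 : W_23 (nat_lit 6) (nat_lit 0x4000000010000d000380000001000080000000000000000000000000000000) (nat_lit 0x0) (nat_lit 0x803c001ce000000000000000000000000000000000000000) := T_23 (nat_lit 178) (nat_lit 191) (nat_lit 1) (nat_lit 8) (nat_lit 10) L12421 (by decide +kernel)
theorem L12423 : W_23 (nat_lit 7) (nat_lit 0x10000d000380000001000080000000000000000000000000000000) (nat_lit 0x0) (nat_lit 0x40002000000000803c001ce000000000000000000000000000000000000000) := T_23 (nat_lit 246) (nat_lit 229) (nat_lit 4) (nat_lit 8) (nat_lit 14) L12422 (by decide +kernel)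
theorem L12424 : W_23 (nat_lit 8) (nat_lit 0x10000d000300000001000080000000000000000000000000000000) (nat_lit 0x0) (nat_lit 0x40002000000000803cc01ce000000000000000000000000000000000000000) := T_23 (nat_lit 175) (nat_lit 174) (nat_lit 3) (nat_lit 4) (nat_lit 10) L12423 (by decide +kernel)
theorem L12425 : W_23 (nat_lit 2) (nat_lit 0x4000000012000f000780000001000080000000000000000000000000000000) (nat_lit 0x0) (nat_lit 0x8000400000000000000008000000000000000000000000000000000000000) := D_23 (nat_lit 226) (nat_lit 159) (nat_lit 243) (nat_lit 6) (nat_lit 5) (nat_lit 13) (nat_lit 6) (nat_lit 5) (nat_lit 14) (by decide +kernel)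
theorem L12426 : W_23 (nat_lit 3) (nat_lit 0x4000000012000f000700000001000080000000000000000000000000000000) (nat_lit 0x0) (nat_lit 0x80004000000000000c0008000000000000000000000000000000000000000) := T_23 (nat_lit 175) (nat_lit 174) (nat_lit 3) (nat_lit 4) (nat_lit 10) L12425 (by decide +kernel)
theorem L12427 : W_23 (nat_lit 4) (nat_lit 0x4000000010000f000700000001000080000000000000000000000000000000) (nat_lit 0x0) (nat_lit 0x80004000300000000c0008000000000000000000000000000000000000000) := T_23 (nat_lit 209) (nat_lit 208) (nat_lit 1) (nat_lit 8) (nat_lit 11) L12426 (by decide +kernel)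
theorem L12428 : W_23 (nat_lit 5) (nat_lit 0x4000000010000f000300000001000080000000000000000000000000000000) (nat_lit 0x0) (nat_lit 0x8000400030000000cc0008000000000000000000000000000000000000000) := T_23 (nat_lit 178) (nat_lit 179) (nat_lit 2) (nat_lit 5) (nat_lit 11) L12427 (by decide +kernel)
theorem L12429 : W_23 (nat_lit 6) (nat_lit 0x4000000010000d000300000001000080000000000000000000000000000000) (nat_lit 0x0) (nat_lit 0x8000400230002000cc0008000000000000000000000000000000000000000) := T_23 (nat_lit 193) (nat_lit 213) (nat_lit 3) (nat_lit 5) (nat_lit 11) L12428 (by decide +kernel)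
theorem L12430 : W_23 (nat_lit 7) (nat_lit 0x10000d000300000001000080000000000000000000000000000000) (nat_lit 0x0) (nat_lit 0x48002400230002000cc0008000000000000000000000000000000000000000) := T_23 (nat_lit 246) (nat_lit 229) (nat_lit 4) (nat_lit 8) (nat_lit 14) L12429 (by decide +kernel)
theorem L12431 : W_23 (nat_lit 9) (nat_lit 0x10000c000300000001000080000000000000000000000000000000) (nat_lit 0x0) (nat_lit 0x480024002b0003c03cc01ce000000000000000000000000000000000000000) := Q_23 (nat_lit 192) (C_23 L12408 (C_23 L12424 (C_23 L12430 N_23))) (by decide +kernel)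
theorem L12432 : W_23 (nat_lit 10) (nat_lit 0xc000300000001000080000000000000000000000000000000) (nat_lit 0x0) (nat_lit 0x480024003b0003c03ce01de000800000000000000000000000000000000000) := Q_23 (nat_lit 212) (C_23 L12415 (C_23 L11737 (C_23 L11995 (C_23 L12417 (C_23 L12431 N_23))))) (by decide +kernel)
theorem L12433 : W_23 (nat_lit 13) (nat_lit 0x4000300000001000080000000000000000000000000000000) (nat_lit 0x0) (nat_lit 0x10000e800f4007f003bc03ce01de000800000000000000000000000000000000000) := Q_23 (nat_lit 195) (C_23 L12397 (C_23 L12432 (C_23 L10838 (C_23 L5316 N_23)))) (by decide +kernel)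
theorem L12434 : W_23 (nat_lit 2) (nat_lit 0x20001f800b00010001000080000000000000000000000000000000) (nat_lit 0x0) (nat_lit 0x38000000000000000000000000000000000000000000000000000) := D_23 (nat_lit 208) (nat_lit 209) (nat_lit 207) (nat_lit 1) (nat_lit 8) (nat_lit 11) (nat_lit 1) (nat_lit 7) (nat_lit 11) (by decide +kernel)
theorem L12435 : W_23 (nat_lit 3) (nat_lit 0x20001f000b00010001000080000000000000000000000000000000) (nat_lit 0x0) (nat_lit 0x38000c00000000000000000000000000000000000000000000000) := T_23 (nat_lit 191) (nat_lit 190) (nat_lit 2) (nat_lit 3) (nat_lit 11) L12434 (by decide +kernel)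
theorem L12436 : W_23 (nat_lit 4) (nat_lit 0x20001e000b00010001000080000000000000000000000000000000) (nat_lit 0x0) (nat_lit 0x138001c00000000000000000000000000000000000000000000000) := T_23 (nat_lit 192) (nat_lit 212) (nat_lit 3) (nat_lit 5) (nat_lit 11) L12435 (by decide +kernel)
theorem L12437 : W_23 (nat_lit 5) (nat_lit 0x1e000b00010001000080000000000000000000000000000000) (nat_lit 0x0) (nat_lit 0x738001c00000000000000000000000000000000000000000000000) := T_23 (nat_lit 213) (nat_lit 214) (nat_lit 3) (nat_lit 6) (nat_lit 11) L12436 (by decide +kernel)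
theorem L12438 : W_23 (nat_lit 6) (nat_lit 0x1e000300010001000080000000000000000000000000000000) (nat_lit 0x0) (nat_lit 0x738001c01800000000000000000000000000000000000000000000) := T_23 (nat_lit 179) (nat_lit 180) (nat_lit 2) (nat_lit 6) (nat_lit 11) L12437 (by decide +kernel)
theorem L12439 : W_23 (nat_lit 7) (nat_lit 0xe000300010001000080000000000000000000000000000000) (nat_lit 0x0) (nat_lit 0x738031c01800000000000000000000000000000000000000000000) := T_23 (nat_lit 196) (nat_lit 197) (nat_lit 0) (nat_lit 10) (nat_lit 11) L12438 (by decide +kernel)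
theorem L12440 : W_23 (nat_lit 8) (nat_lit 0xe000300000001000080000000000000000000000000000000) (nat_lit 0x0) (nat_lit 0x738031c01800010000800000000000000000000000000000000000) := T_23 (nat_lit 160) (nat_lit 143) (nat_lit 6) (nat_lit 7) (nat_lit 11) L12439 (by decide +kernel)
theorem L12444 : W_23 (nat_lit 5) (nat_lit 0x1e000300000001000080000000000000000000000000000000) (nat_lit 0x0) (nat_lit 0x700001c00400010000800000000000000000000000000000000000) := T_23 (nat_lit 160) (nat_lit 143) (nat_lit 6) (nat_lit 7) (nat_lit 11) L12443 (by decide +kernel)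
theorem L12445 : W_23 (nat_lit 6) (nat_lit 0xe000300000001000080000000000000000000000000000000) (nat_lit 0x0) (nat_lit 0x700031c00400010000800000000000000000000000000000000000) := T_23 (nat_lit 196) (nat_lit 197) (nat_lit 0) (nat_lit 10) (nat_lit 11) L12444 (by decide +kernel)
theorem L12446 : W_23 (nat_lit 2) (nat_lit 0x100008002e000300010001000080000000000000000000000000000000) (nat_lit 0x0) (nat_lit 0x40002000100000000000000000000000000000000000000000000000000000) := D_23 (nat_lit 229) (nat_lit 212) (nat_lit 246) (nat_lit 7) (nat_lit 7) (nat_lit 9) (nat_lit 7) (nat_lit 7) (nat_lit 10) (by decide +kernel)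
theorem L12447 : W_23 (nat_lit 3) (nat_lit 0x100008002e000300000001000080000000000000000000000000000000) (nat_lit 0x0) (nat_lit 0x40002000100000000000010000800000000000000000000000000000000000) := T_23 (nat_lit 160) (nat_lit 143) (nat_lit 6) (nat_lit 7) (nat_lit 11) L12446 (by decide +kernel)
theorem L12448 : W_23 (nat_lit 4) (nat_lit 0x8002e000300000001000080000000000000000000000000000000) (nat_lit 0x0) (nat_lit 0x60003000100000000000010000800000000000000000000000000000000000) := T_23 (nat_lit 228) (nat_lit 245) (nat_lit 4) (nat_lit 7) (nat_lit 14) L12447 (by decide +kernel)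
theorem L12449 : W_23 (nat_lit 5) (nat_lit 0x8000e000300000001000080000000000000000000000000000000) (nat_lit 0x0) (nat_lit 0x60003000100030000000010000800000000000000000000000000000000000) := T_23 (nat_lit 197) (nat_lit 196) (nat_lit 0) (nat_lit 10) (nat_lit 11) L12448 (by decide +kernel)
theorem L12450 : W_23 (nat_lit 2) (nat_lit 0x8000600028001e000b00010001000080000000000000000000000000000000) (nat_lit 0x0) (nat_lit 0x2000100008000000000000000000000000000000000000000000000000000000000) := D_23 (nat_lit 248) (nat_lit 231) (nat_lit 265) (nat_lit 7) (nat_lit 9) (nat_lit 10) (nat_lit 7) (nat_lit 9) (nat_lit 11) (by decide +kernel)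
theorem L12451 : W_23 (nat_lit 3) (nat_lit 0x600028001e000b00010001000080000000000000000000000000000000) (nat_lit 0x0) (nat_lit 0x2000180008000000000000400000000000000000000000000000000000000000000) := T_23 (nat_lit 247) (nat_lit 178) (nat_lit 4) (nat_lit 9) (nat_lit 14) L12450 (by decide +kernel)
theorem L12452 : W_23 (nat_lit 4) (nat_lit 0x200028001e000b00010001000080000000000000000000000000000000) (nat_lit 0x0) (nat_lit 0x20001c000c000000000000400000000000000000000000000000000000000000000) := T_23 (nat_lit 230) (nat_lit 246) (nat_lit 5) (nat_lit 9) (nat_lit 10) L12451 (by decide +kernel)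
theorem L12453 : W_23 (nat_lit 5) (nat_lit 0x200008001e000b00010001000080000000000000000000000000000000) (nat_lit 0x0) (nat_lit 0x20001c000c000600000000400000000000000000000000000000000000000000000) := T_23 (nat_lit 213) (nat_lit 214) (nat_lit 3) (nat_lit 6) (nat_lit 11) L12452 (by decide +kernel)
theorem L12454 : W_23 (nat_lit 6) (nat_lit 0x200008001e000300010001000080000000000000000000000000000000) (nat_lit 0x0) (nat_lit 0x20001c000c000600000001c00000000000000000000000000000000000000000000) := T_23 (nat_lit 179) (nat_lit 180) (nat_lit 2) (nat_lit 6) (nat_lit 11) L12453 (by decide +kernel)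
theorem L12455 : W_23 (nat_lit 7) (nat_lit 0x200008000e000300010001000080000000000000000000000000000000) (nat_lit 0x0) (nat_lit 0x20001c000c000600030001c00000000000000000000000000000000000000000000) := T_23 (nat_lit 196) (nat_lit 197) (nat_lit 0) (nat_lit 10) (nat_lit 11) L12454 (by decide +kernel)
theorem L12456 : W_23 (nat_lit 8) (nat_lit 0x8000e000300010001000080000000000000000000000000000000) (nat_lit 0x0) (nat_lit 0x20001c000e000700030001c00000000000000000000000000000000000000000000) := T_23 (nat_lit 229) (nat_lit 212) (nat_lit 7) (nat_lit 7) (nat_lit 9) L12455 (by decide +kernel)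
theorem L12457 : W_23 (nat_lit 9) (nat_lit 0x8000e000300000001000080000000000000000000000000000000) (nat_lit 0x0) (nat_lit 0x20001c000e000700030001c00010000800000000000000000000000000000000000) := T_23 (nat_lit 160) (nat_lit 143) (nat_lit 6) (nat_lit 7) (nat_lit 11) L12456 (by decide +kernel)
theorem L12458 : W_23 (nat_lit 10) (nat_lit 0xe000300000001000080000000000000000000000000000000) (nat_lit 0x0) (nat_lit 0x20001e000f000780030001c00018000800000000000000000000000000000000000) := Q_23 (nat_lit 211) (C_23 L11830 (C_23 L12449 (C_23 L12457 N_23))) (by decide +kernel)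
theorem L12459 : W_23 (nat_lit 4) (nat_lit 0x20001e000b00010001000080000000000000000000000000000000) (nat_lit 0x0) (nat_lit 0x38001c00400000000000000000000000000000000000000000000) := T_23 (nat_lit 192) (nat_lit 178) (nat_lit 2) (nat_lit 5) (nat_lit 11) L12435 (by decide +kernel)
theorem L12460 : W_23 (nat_lit 5) (nat_lit 0x20001e000300010001000080000000000000000000000000000000) (nat_lit 0x0) (nat_lit 0x38001c01c00000000000000000000000000000000000000000000) := T_23 (nat_lit 179) (nat_lit 180) (nat_lit 2) (nat_lit 6) (nat_lit 11) L12459 (by decide +kernel)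
theorem L12461 : W_23 (nat_lit 6) (nat_lit 0x1e000300010001000080000000000000000000000000000000) (nat_lit 0x0) (nat_lit 0x638001c01c00000000000000000000000000000000000000000000) := T_23 (nat_lit 213) (nat_lit 214) (nat_lit 3) (nat_lit 6) (nat_lit 11) L12460 (by decide +kernel)
theorem L12462 : W_23 (nat_lit 7) (nat_lit 0x1e000300000001000080000000000000000000000000000000) (nat_lit 0x0) (nat_lit 0x638001c01c00010000800000000000000000000000000000000000) := T_23 (nat_lit 160) (nat_lit 143) (nat_lit 6) (nat_lit 7) (nat_lit 11) L12461 (by decide +kernel)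
theorem L12463 : W_23 (nat_lit 8) (nat_lit 0xe000300000001000080000000000000000000000000000000) (nat_lit 0x0) (nat_lit 0x638031c01c00010000800000000000000000000000000000000000) := T_23 (nat_lit 196) (nat_lit 197) (nat_lit 0) (nat_lit 10) (nat_lit 11) L12462 (by decide +kernel)
theorem L12464 : W_23 (nat_lit 2) (nat_lit 0x1f800b00010001000080000000000000000000000000000000) (nat_lit 0x0) (nat_lit 0x38000000000000000000000000000000000000000000000000000) := D_23 (nat_lit 208) (nat_lit 209) (nat_lit 207) (nat_lit 1) (nat_lit 8) (nat_lit 11) (nat_lit 1) (nat_lit 7) (nat_lit 11) (by decide +kernel)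
theorem L12465 : W_23 (nat_lit 3) (nat_lit 0x1f000b00010001000080000000000000000000000000000000) (nat_lit 0x0) (nat_lit 0x38000c00000000000000000000000000000000000000000000000) := T_23 (nat_lit 191) (nat_lit 190) (nat_lit 2) (nat_lit 3) (nat_lit 11) L12464 (by decide +kernel)
theorem L12466 : W_23 (nat_lit 4) (nat_lit 0x1e000b00010001000080000000000000000000000000000000) (nat_lit 0x0) (nat_lit 0x38001c00400000000000000000000000000000000000000000000) := T_23 (nat_lit 192) (nat_lit 178) (nat_lit 2) (nat_lit 5) (nat_lit 11) L12465 (by decide +kernel)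
theorem L12467 : W_23 (nat_lit 5) (nat_lit 0x1e000300010001000080000000000000000000000000000000) (nat_lit 0x0) (nat_lit 0x38001c01c00000000000000000000000000000000000000000000) := T_23 (nat_lit 179) (nat_lit 180) (nat_lit 2) (nat_lit 6) (nat_lit 11) L12466 (by decide +kernel)
theorem L12468 : W_23 (nat_lit 6) (nat_lit 0x1e000300000001000080000000000000000000000000000000) (nat_lit 0x0) (nat_lit 0x38001c01c00010000800000000000000000000000000000000000) := T_23 (nat_lit 160) (nat_lit 143) (nat_lit 6) (nat_lit 7) (nat_lit 11) L12467 (by decide +kernel)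
theorem L12469 : W_23 (nat_lit 7) (nat_lit 0xe000300000001000080000000000000000000000000000000) (nat_lit 0x0) (nat_lit 0x38031c01c00010000800000000000000000000000000000000000) := T_23 (nat_lit 196) (nat_lit 197) (nat_lit 0) (nat_lit 10) (nat_lit 11) L12468 (by decide +kernel)
theorem L12470 : W_23 (nat_lit 11) (nat_lit 0xc000300000001000080000000000000000000000000000000) (nat_lit 0x0) (nat_lit 0x20001e000f0007b8033c01c00018000800000000000000000000000000000000000) := Q_23 (nat_lit 193) (C_23 L11663 (C_23 L12385 (C_23 L12440 (C_23 L12445 (C_23 L12458 (C_23 L12463 (C_23 L12469 N_23))))))) (by decide +kernel)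
theorem L12471 : W_23 (nat_lit 12) (nat_lit 0x4000300000001000080000000000000000000000000000000) (nat_lit 0x0) (nat_lit 0x20001e800f4007b803bc03ce01de000800000000000000000000000000000000000) := Q_23 (nat_lit 195) (C_23 L12432 (C_23 L10838 (C_23 L5316 (C_23 L12470 N_23)))) (by decide +kernel)
theorem L12472 : W_23 (nat_lit 7) (nat_lit 0x6000300000001000080000000000000000000000000000000) (nat_lit 0x0) (nat_lit 0x38001f001f8008000c0001f000200000000000000000000000000000000000) := Q_23 (nat_lit 210) (C_23 L12296 (C_23 L12214 (C_23 L12034 N_23))) (by decide +kernel)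
theorem L12473 : W_23 (nat_lit 12) (nat_lit 0x6000300000001000080000000000000000000000000000000) (nat_lit 0x0) (nat_lit 0x38001f001f8019c000e001f000b80000000000000000000000000000000000) := Q_23 (nat_lit 210) (C_23 L12214 (C_23 L12324 (C_23 L12034 N_23))) (by decide +kernel)
theorem L12474 : W_23 (nat_lit 12) (nat_lit 0x6000300000001000080000000000000000000000000000000) (nat_lit 0x0) (nat_lit 0x8003c001f001f8001c00ce001f000b80000000000000000000000000000000000) := Q_23 (nat_lit 210) (C_23 L12214 (C_23 L12347 (C_23 L12034 N_23))) (by decide +kernel)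
theorem L12475 : W_23 (nat_lit 13) (nat_lit 0x4000300000001000080000000000000000000000000000000) (nat_lit 0x0) (nat_lit 0x8003c001f001f803bc01ce001f000b80010000000000000000000000000000000) := Q_23 (nat_lit 193) (C_23 L12349 (C_23 L12472 (C_23 L12473 (C_23 L12474 (C_23 L12316 (C_23 L12351 (C_23 L12366 N_23))))))) (by decide +kernel)
theorem L12476 : W_23 (nat_lit 2) (nat_lit 0x4001e000e000340010001000080000000000000000000000000000000) (nat_lit 0x0) (nat_lit 0x8000000200001000000000000000000000000000000000000000000000000) := D_23 (nat_lit 192) (nat_lit 213) (nat_lit 243) (nat_lit 3) (nat_lit 5) (nat_lit 11) (nat_lit 6) (nat_lit 5) (nat_lit 14) (by decide +kernel)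
theorem L12477 : W_23 (nat_lit 3) (nat_lit 0x4001e000c000340010001000080000000000000000000000000000000) (nat_lit 0x0) (nat_lit 0x8000000200003000000008000000000000000000000000000000000000000) := T_23 (nat_lit 193) (nat_lit 159) (nat_lit 5) (nat_lit 6) (nat_lit 9) L12476 (by decide +kernel)
theorem L12478 : W_23 (nat_lit 4) (nat_lit 0x1e000c000340010001000080000000000000000000000000000000) (nat_lit 0x0) (nat_lit 0x8000600200003000000008000000000000000000000000000000000000000) := T_23 (nat_lit 226) (nat_lit 225) (nat_lit 1) (nat_lit 8) (nat_lit 12) L12477 (by decide +kernel)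
theorem L12479 : W_23 (nat_lit 5) (nat_lit 0x1e000c000300010001000080000000000000000000000000000000) (nat_lit 0x0) (nat_lit 0x80006002000030000c0008000000000000000000000000000000000000000) := T_23 (nat_lit 174) (nat_lit 175) (nat_lit 3) (nat_lit 4) (nat_lit 10) L12478 (by decide +kernel)
theorem L12480 : W_23 (nat_lit 6) (nat_lit 0x1c000c000300010001000080000000000000000000000000000000) (nat_lit 0x0) (nat_lit 0x80006002300030000c0008000000000000000000000000000000000000000) := T_23 (nat_lit 209) (nat_lit 208) (nat_lit 2) (nat_lit 4) (nat_lit 12) L12479 (by decide +kernel)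
theorem L12481 : W_23 (nat_lit 7) (nat_lit 0x18000c000300010001000080000000000000000000000000000000) (nat_lit 0x0) (nat_lit 0x8000e002700030000c0008000000000000000000000000000000000000000) := T_23 (nat_lit 210) (nat_lit 227) (nat_lit 5) (nat_lit 7) (nat_lit 9) L12480 (by decide +kernel)
theorem L12482 : W_23 (nat_lit 8) (nat_lit 0x18000c000300000001000080000000000000000000000000000000) (nat_lit 0x0) (nat_lit 0x8000e002700030000c0018000800000000000000000000000000000000000) := T_23 (nat_lit 160) (nat_lit 143) (nat_lit 7) (nat_lit 7) (nat_lit 8) L12481 (by decide +kernel)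
theorem L12483 : W_23 (nat_lit 9) (nat_lit 0x10000c000300000001000080000000000000000000000000000000) (nat_lit 0x0) (nat_lit 0x400038001e002f00030004c0018000800000000000000000000000000000000000) := Q_23 (nat_lit 211) (C_23 L12014 (C_23 L12005 (C_23 L12000 (C_23 L11960 (C_23 L12482 N_23))))) (by decide +kernel)
theorem L12484 : W_23 (nat_lit 13) (nat_lit 0xc000300000001000080000000000000000000000000000000) (nat_lit 0x0) (nat_lit 0xc000f801fe00ff0063003cc01d8000800000000000000000000000000000000000) := Q_23 (nat_lit 212) (C_23 L12483 (C_23 L12417 (C_23 L11737 (C_23 L11995 (C_23 L11992 N_23))))) (by decide +kernel)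
theorem L12485 : W_23 (nat_lit 2) (nat_lit 0xc000380010001000080000000000000000000000000000000) (nat_lit 0x0) (nat_lit 0x12000400000000000000000000000000000000000000000000) := D_23 (nat_lit 196) (nat_lit 193) (nat_lit 178) (nat_lit 0) (nat_lit 9) (nat_lit 11) (nat_lit 3) (nat_lit 5) (nat_lit 10) (by decide +kernel)
theorem L12486 : W_23 (nat_lit 3) (nat_lit 0xc000300010001000080000000000000000000000000000000) (nat_lit 0x0) (nat_lit 0x120004c0000000000000000000000000000000000000000000) := T_23 (nat_lit 175) (nat_lit 174) (nat_lit 3) (nat_lit 4) (nat_lit 10) L12485 (by decide +kernel)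
theorem L12487 : W_23 (nat_lit 4) (nat_lit 0xc000300000001000080000000000000000000000000000000) (nat_lit 0x0) (nat_lit 0x120004c0010000800000000000000000000000000000000000) := T_23 (nat_lit 160) (nat_lit 143) (nat_lit 6) (nat_lit 7) (nat_lit 11) L12486 (by decide +kernel)
theorem L12488 : W_23 (nat_lit 14) (nat_lit 0x4000300000001000080000000000000000000000000000000) (nat_lit 0x0) (nat_lit 0x1c000f801fe00ff007b003cc01d8000800000000000000000000000000000000000) := Q_23 (nat_lit 195) (C_23 L12484 (C_23 L11973 (C_23 L11828 (C_23 L10838 (C_23 L12487 N_23))))) (by decide +kernel)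
theorem L12489 : W_23 (nat_lit 16) (nat_lit 0x300000001000080000000000000000000000000000000) (nat_lit 0x0) (nat_lit 0x14003e801ff01ff80ff807fe03ce01df800b80010000000000000000000000000000000) := Q_23 (nat_lit 194) (C_23 L11675 (C_23 L11735 (C_23 L11878 (C_23 L11928 (C_23 L12026 (C_23 L12032 (C_23 L12225 (C_23 L12265 (C_23 L12300 (C_23 L12301 (C_23 L12367 (C_23 L12433 (C_23 L12471 (C_23 L12475 (C_23 L12488 N_23))))))))))))))) (by decide +kernel)
theorem L12506 : W_23 (nat_lit 2) (nat_lit 0x7400300008001e00080000000000000000000000000000000) (nat_lit 0x0) (nat_lit 0x40000000000006000000000000000000000000000000000000000) := D_23 (nat_lit 158) (nat_lit 157) (nat_lit 210) (nat_lit 1) (nat_lit 8) (nat_lit 8) (nat_lit 4) (nat_lit 6) (nat_lit 12) (by decide +kernel)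
theorem L12507 : W_23 (nat_lit 3) (nat_lit 0x7400300008001c00080000000000000000000000000000000) (nat_lit 0x0) (nat_lit 0x40000000000006000200010000000000000000000000000000000) := T_23 (nat_lit 141) (nat_lit 124) (nat_lit 4) (nat_lit 6) (nat_lit 11) L12506 (by decide +kernel)
theorem L12508 : W_23 (nat_lit 4) (nat_lit 0x3400300008001c00080000000000000000000000000000000) (nat_lit 0x0) (nat_lit 0xc0004000000006000200010000000000000000000000000000000) := T_23 (nat_lit 194) (nat_lit 211) (nat_lit 7) (nat_lit 6) (nat_lit 8) L12507 (by decide +kernel)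
theorem L12509 : W_23 (nat_lit 5) (nat_lit 0x3000300008001c00080000000000000000000000000000000) (nat_lit 0x0) (nat_lit 0xc0004c00000006000200010000000000000000000000000000000) := T_23 (nat_lit 190) (nat_lit 191) (nat_lit 2) (nat_lit 3) (nat_lit 11) L12508 (by decide +kernel)
theorem L12510 : W_23 (nat_lit 6) (nat_lit 0x2000300008001c00080000000000000000000000000000000) (nat_lit 0x0) (nat_lit 0xe0005c00000006000200010000000000000000000000000000000) := T_23 (nat_lit 192) (nat_lit 209) (nat_lit 5) (nat_lit 6) (nat_lit 8) L12509 (by decide +kernel)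
theorem L12511 : W_23 (nat_lit 7) (nat_lit 0x300008001c00080000000000000000000000000000000) (nat_lit 0x0) (nat_lit 0xe0007c00000006000200050000000000000000000000000000000) := T_23 (nat_lit 193) (nat_lit 126) (nat_lit 6) (nat_lit 6) (nat_lit 11) L12510 (by decide +kernel)
theorem L12516 : W_23 (nat_lit 8) (nat_lit 0x300000001c00080000000000000000000000000000000) (nat_lit 0x0) (nat_lit 0xe0007c0008000e000200078003800040000000000000000000000) := Q_23 (nat_lit 159) (C_23 L12498 (C_23 L12502 (C_23 L12505 (C_23 L12511 (C_23 L12515 N_23))))) (by decide +kernel)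
theorem L12526 : W_23 (nat_lit 11) (nat_lit 0x300000001c00080000000000000000000000000000000) (nat_lit 0x0) (nat_lit 0x7b803fc000e000c000000078003800140000000000000000000000) := Q_23 (nat_lit 159) (C_23 L12515 (C_23 L12505 (C_23 L12521 (C_23 L12525 N_23)))) (by decide +kernel)
theorem L12527 : W_23 (nat_lit 12) (nat_lit 0x300000001800080000000000000000000000000000000) (nat_lit 0x0) (nat_lit 0x7f803fc000e000f00070017c003800140000000000000000000000) := Q_23 (nat_lit 142) (C_23 L12492 (C_23 L12496 (C_23 L12516 (C_23 L12519 (C_23 L12526 N_23))))) (by decide +kernel)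
theorem L12540 : W_23 (nat_lit 4) (nat_lit 0x3000000018000c0000000000000000000000000000000) (nat_lit 0x0) (nat_lit 0x2000000018000000020003000080000000000000000000000) := T_23 (nat_lit 160) (nat_lit 193) (nat_lit 5) (nat_lit 7) (nat_lit 7) L12539 (by decide +kernel)
theorem L12541 : W_23 (nat_lit 2) (nat_lit 0x3000000018001c0000000000000000000000000000000) (nat_lit 0x0) (nat_lit 0x400600000000000000000000000000000000) := D_23 (nat_lit 129) (nat_lit 142) (nat_lit 130) (nat_lit 1) (nat_lit 10) (nat_lit 7) (nat_lit 1) (nat_lit 11) (nat_lit 7) (by decide +kernel)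
theorem L12542 : W_23 (nat_lit 2) (nat_lit 0x3000000018001e0000000000000000000000000000000) (nat_lit 0x0) (nat_lit 0x10000000000001800000000000000000000000000) := D_23 (nat_lit 108) (nat_lit 107) (nat_lit 160) (nat_lit 0) (nat_lit 9) (nat_lit 7) (nat_lit 4) (nat_lit 7) (nat_lit 10) (by decide +kernel)
theorem L12543 : W_23 (nat_lit 2) (nat_lit 0x300000001a001e0000000000000000000000000000000) (nat_lit 0x0) (nat_lit 0x100018000000000000000000000000000000) := D_23 (nat_lit 124) (nat_lit 123) (nat_lit 140) (nat_lit 3) (nat_lit 4) (nat_lit 7) (nat_lit 1) (nat_lit 8) (nat_lit 7) (by decide +kernel)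
theorem L12544 : W_23 (nat_lit 3) (nat_lit 0x3000000018001e0000000000000000000000000000000) (nat_lit 0x0) (nat_lit 0x700018000000000000000000000000000000) := T_23 (nat_lit 141) (nat_lit 142) (nat_lit 2) (nat_lit 5) (nat_lit 8) L12543 (by decide +kernel)
theorem L12545 : W_23 (nat_lit 4) (nat_lit 0x3000000018001c0000000000000000000000000000000) (nat_lit 0x0) (nat_lit 0x10000700038001800000000000000000000000000) := Q_23 (nat_lit 125) (C_23 L12542 (C_23 L12544 N_23)) (by decide +kernel)
theorem L12546 : W_23 (nat_lit 2) (nat_lit 0x3000100058003c001a000000008000000000000000000) (nat_lit 0x0) (nat_lit 0x1000080000000000000000400000000000000000000000) := D_23 (nat_lit 163) (nat_lit 94) (nat_lit 180) (nat_lit 4) (nat_lit 10) (nat_lit 9) (nat_lit 4) (nat_lit 10) (nat_lit 10) (by decide +kernel)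
theorem L12547 : W_23 (nat_lit 3) (nat_lit 0x3000100058003c0012000000008000000000000000000) (nat_lit 0x0) (nat_lit 0x1000080000000020008000400000000000000000000000) := T_23 (nat_lit 111) (nat_lit 125) (nat_lit 2) (nat_lit 6) (nat_lit 7) L12546 (by decide +kernel)
theorem L12548 : W_23 (nat_lit 4) (nat_lit 0x3000100058003c0002000000008000000000000000000) (nat_lit 0x0) (nat_lit 0x1000080000000020038000400000000000000000000000) := T_23 (nat_lit 112) (nat_lit 113) (nat_lit 2) (nat_lit 7) (nat_lit 7) L12547 (by decide +kernel)
theorem L12549 : W_23 (nat_lit 5) (nat_lit 0x3000000058003c0002000000008000000000000000000) (nat_lit 0x0) (nat_lit 0x1000098000000020038000400000000000000000000000) := T_23 (nat_lit 160) (nat_lit 159) (nat_lit 5) (nat_lit 7) (nat_lit 6) L12548 (by decide +kernel)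
theorem L12550 : W_23 (nat_lit 6) (nat_lit 0x3000000058003c0002000000000000000000000000000) (nat_lit 0x0) (nat_lit 0x1000098000000020038000500008000000000000000000) := T_23 (nat_lit 75) (nat_lit 92) (nat_lit 7) (nat_lit 7) (nat_lit 4) L12549 (by decide +kernel)
theorem L12551 : W_23 (nat_lit 7) (nat_lit 0x3000000018003c0002000000000000000000000000000) (nat_lit 0x0) (nat_lit 0x100009800c000020038000500008000000000000000000) := T_23 (nat_lit 146) (nat_lit 147) (nat_lit 3) (nat_lit 7) (nat_lit 7) L12550 (by decide +kernel)
theorem L12552 : W_23 (nat_lit 8) (nat_lit 0x3000000018003c0000000000000000000000000000000) (nat_lit 0x0) (nat_lit 0x100009800c00002003b000500008000000000000000000) := T_23 (nat_lit 109) (nat_lit 108) (nat_lit 0) (nat_lit 10) (nat_lit 7) L12551 (by decide +kernel)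
theorem L12553 : W_23 (nat_lit 9) (nat_lit 0x3000000018001c0000000000000000000000000000000) (nat_lit 0x0) (nat_lit 0x100009800c00062003b000500008000000000000000000) := T_23 (nat_lit 129) (nat_lit 130) (nat_lit 1) (nat_lit 11) (nat_lit 7) L12552 (by decide +kernel)
theorem L12554 : W_23 (nat_lit 10) (nat_lit 0x3000000018000c0000000000000000000000000000000) (nat_lit 0x0) (nat_lit 0x100009800c70073803b800500008000000000000000000) := Q_23 (nat_lit 128) (C_23 L12541 (C_23 L12545 (C_23 L12553 N_23))) (by decide +kernel)
theorem L12567 : W_23 (nat_lit 6) (nat_lit 0x3000000018000c0000000000000000000000000000000) (nat_lit 0x0) (nat_lit 0x200008000e000700338002000100000000000000000000000) := Q_23 (nat_lit 142) (C_23 L12559 (C_23 L12563 (C_23 L12566 N_23))) (by decide +kernel)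
theorem L12568 : W_23 (nat_lit 11) (nat_lit 0x300000001800080000000000000000000000000000000) (nat_lit 0x0) (nat_lit 0x200108009e00c70077803bc0058000c000000000000000000) := Q_23 (nat_lit 126) (C_23 L12537 (C_23 L12540 (C_23 L12554 (C_23 L12558 (C_23 L12567 N_23))))) (by decide +kernel)
theorem L12575 : W_23 (nat_lit 2) (nat_lit 0x300000001c000a0000000000000000000000000000000) (nat_lit 0x0) (nat_lit 0x4000000018000000000000000000000000000000000000000) := D_23 (nat_lit 194) (nat_lit 160) (nat_lit 159) (nat_lit 6) (nat_lit 7) (nat_lit 11) (nat_lit 7) (nat_lit 6) (nat_lit 7) (by decide +kernel)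
theorem L12576 : W_23 (nat_lit 2) (nat_lit 0x300010001c000a0000000000000000000000000000000) (nat_lit 0x0) (nat_lit 0x40001000080000000000000000000000) := D_23 (nat_lit 108) (nat_lit 126) (nat_lit 91) (nat_lit 4) (nat_lit 7) (nat_lit 10) (nat_lit 7) (nat_lit 6) (nat_lit 5) (by decide +kernel)
theorem L12577 : W_23 (nat_lit 3) (nat_lit 0x300000001c000a0000000000000000000000000000000) (nat_lit 0x0) (nat_lit 0x4000000010000000040001000080000000000000000000000) := T_23 (nat_lit 160) (nat_lit 194) (nat_lit 6) (nat_lit 7) (nat_lit 11) L12576 (by decide +kernel)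
theorem L12578 : W_23 (nat_lit 2) (nat_lit 0x300000001f000b0000000000000000000000000000000) (nat_lit 0x0) (nat_lit 0x7000000000000000000000000000000000000000) := D_23 (nat_lit 157) (nat_lit 158) (nat_lit 156) (nat_lit 1) (nat_lit 8) (nat_lit 8) (nat_lit 1) (nat_lit 7) (nat_lit 8) (by decide +kernel)
theorem L12579 : W_23 (nat_lit 3) (nat_lit 0x300000001e000b0000000000000000000000000000000) (nat_lit 0x0) (nat_lit 0x7000100040000000000000000000000000000000) := T_23 (nat_lit 140) (nat_lit 126) (nat_lit 2) (nat_lit 4) (nat_lit 8) L12578 (by decide +kernel)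
theorem L12580 : W_23 (nat_lit 4) (nat_lit 0x300000001e000a0000000000000000000000000000000) (nat_lit 0x0) (nat_lit 0x7000100058000000000000000000000000000000) := T_23 (nat_lit 124) (nat_lit 123) (nat_lit 0) (nat_lit 8) (nat_lit 8) L12579 (by decide +kernel)
theorem L12581 : W_23 (nat_lit 2) (nat_lit 0x300004001e000b0000000000000000000000000000000) (nat_lit 0x0) (nat_lit 0x80000000000000001000080000000000000000000000) := D_23 (nat_lit 108) (nat_lit 91) (nat_lit 175) (nat_lit 5) (nat_lit 6) (nat_lit 5) (nat_lit 6) (nat_lit 5) (nat_lit 10) (by decide +kernel)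
theorem L12582 : W_23 (nat_lit 3) (nat_lit 0x300000001e000b0000000000000000000000000000000) (nat_lit 0x0) (nat_lit 0x80006000000000001000080000000000000000000000) := T_23 (nat_lit 158) (nat_lit 157) (nat_lit 1) (nat_lit 8) (nat_lit 8) L12581 (by decide +kernel)
theorem L12583 : W_23 (nat_lit 4) (nat_lit 0x300000001e000a0000000000000000000000000000000) (nat_lit 0x0) (nat_lit 0x80006000000018001000080000000000000000000000) := T_23 (nat_lit 124) (nat_lit 123) (nat_lit 0) (nat_lit 8) (nat_lit 8) L12582 (by decide +kernel)
theorem L12584 : W_23 (nat_lit 2) (nat_lit 0x300002001f400b0000000000000000000000000000000) (nat_lit 0x0) (nat_lit 0x8000000000000800040000000000000000000000) := D_23 (nat_lit 107) (nat_lit 159) (nat_lit 90) (nat_lit 4) (nat_lit 6) (nat_lit 10) (nat_lit 5) (nat_lit 5) (nat_lit 5) (by decide +kernel)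
theorem L12585 : W_23 (nat_lit 3) (nat_lit 0x300000001f400b0000000000000000000000000000000) (nat_lit 0x0) (nat_lit 0xb000000000000800040000000000000000000000) := T_23 (nat_lit 157) (nat_lit 156) (nat_lit 1) (nat_lit 7) (nat_lit 8) L12584 (by decide +kernel)
theorem L12586 : W_23 (nat_lit 4) (nat_lit 0x300000001f000b0000000000000000000000000000000) (nat_lit 0x0) (nat_lit 0xb0000c0000000800040000000000000000000000) := T_23 (nat_lit 138) (nat_lit 139) (nat_lit 2) (nat_lit 2) (nat_lit 8) L12585 (by decide +kernel)
theorem L12587 : W_23 (nat_lit 5) (nat_lit 0x300000001e000b0000000000000000000000000000000) (nat_lit 0x0) (nat_lit 0xb0001c0040000800040000000000000000000000) := T_23 (nat_lit 140) (nat_lit 126) (nat_lit 2) (nat_lit 4) (nat_lit 8) L12586 (by decide +kernel)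
theorem L12588 : W_23 (nat_lit 6) (nat_lit 0x300000001e000a0000000000000000000000000000000) (nat_lit 0x0) (nat_lit 0xb0001c0058000800040000000000000000000000) := T_23 (nat_lit 124) (nat_lit 123) (nat_lit 0) (nat_lit 8) (nat_lit 8) L12587 (by decide +kernel)
theorem L12591 : W_23 (nat_lit 2) (nat_lit 0x380008001f400b0000000000000000000000000000000) (nat_lit 0x0) (nat_lit 0x14000000000001000000000000000000000000000) := D_23 (nat_lit 108) (nat_lit 158) (nat_lit 160) (nat_lit 6) (nat_lit 5) (nat_lit 10) (nat_lit 7) (nat_lit 6) (nat_lit 6) (by decide +kernel)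
theorem L12592 : W_23 (nat_lit 3) (nat_lit 0x300008001f400b0000000000000000000000000000000) (nat_lit 0x0) (nat_lit 0x1000080014000000000001000000000000000000000000000) := T_23 (nat_lit 175) (nat_lit 192) (nat_lit 5) (nat_lit 6) (nat_lit 7) L12591 (by decide +kernel)
theorem L12593 : W_23 (nat_lit 4) (nat_lit 0x300000001f400b0000000000000000000000000000000) (nat_lit 0x0) (nat_lit 0x100008001c000000000001800000000000000000000000000) := T_23 (nat_lit 159) (nat_lit 107) (nat_lit 4) (nat_lit 6) (nat_lit 10) L12592 (by decide +kernel)
theorem L12594 : W_23 (nat_lit 5) (nat_lit 0x300000001f000b0000000000000000000000000000000) (nat_lit 0x0) (nat_lit 0x100008001c0000c0000001800000000000000000000000000) := T_23 (nat_lit 138) (nat_lit 139) (nat_lit 2) (nat_lit 2) (nat_lit 8) L12593 (by decide +kernel)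
theorem L12595 : W_23 (nat_lit 6) (nat_lit 0x300000001e000b0000000000000000000000000000000) (nat_lit 0x0) (nat_lit 0x100008001c0001c0040001800000000000000000000000000) := T_23 (nat_lit 140) (nat_lit 126) (nat_lit 2) (nat_lit 4) (nat_lit 8) L12594 (by decide +kernel)
theorem L12596 : W_23 (nat_lit 7) (nat_lit 0x300000001e000a0000000000000000000000000000000) (nat_lit 0x0) (nat_lit 0x100008001c0001c0058001800000000000000000000000000) := T_23 (nat_lit 124) (nat_lit 123) (nat_lit 0) (nat_lit 8) (nat_lit 8) L12595 (by decide +kernel)
theorem L12597 : W_23 (nat_lit 8) (nat_lit 0x300000001c000a0000000000000000000000000000000) (nat_lit 0x0) (nat_lit 0x100008001f0003c00580018000c0000000000000000000000) := Q_23 (nat_lit 141) (C_23 L12580 (C_23 L12583 (C_23 L12588 (C_23 L12590 (C_23 L12596 N_23))))) (by decide +kernel)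
theorem L12599 : W_23 (nat_lit 9) (nat_lit 0x300000001c00080000000000000000000000000000000) (nat_lit 0x0) (nat_lit 0x500008001f0003c00780018000c0000000000000000000000) := Q_23 (nat_lit 125) (C_23 L12575 (C_23 L12577 (C_23 L12597 (C_23 L12598 N_23)))) (by decide +kernel)
theorem L12600 : W_23 (nat_lit 2) (nat_lit 0x300008001c002e0000000000000000000000000000000) (nat_lit 0x0) (nat_lit 0x18000800000000000000000000000000) := D_23 (nat_lit 124) (nat_lit 123) (nat_lit 107) (nat_lit 3) (nat_lit 4) (nat_lit 7) (nat_lit 4) (nat_lit 6) (nat_lit 10) (by decide +kernel)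
theorem L12601 : W_23 (nat_lit 3) (nat_lit 0x300000001c002e0000000000000000000000000000000) (nat_lit 0x0) (nat_lit 0x8000000018002800000000000000000000000000) := T_23 (nat_lit 159) (nat_lit 109) (nat_lit 6) (nat_lit 6) (nat_lit 10) L12600 (by decide +kernel)
theorem L12602 : W_23 (nat_lit 4) (nat_lit 0x300000001c000e0000000000000000000000000000000) (nat_lit 0x0) (nat_lit 0x8000000318002800000000000000000000000000) := T_23 (nat_lit 129) (nat_lit 128) (nat_lit 1) (nat_lit 10) (nat_lit 7) L12601 (by decide +kernel)
theorem L12603 : W_23 (nat_lit 2) (nat_lit 0x300000001c002f00018003c0000000000000000000000) (nat_lit 0x0) (nat_lit 0x2000000030000000000000000000) := D_23 (nat_lit 76) (nat_lit 77) (nat_lit 109) (nat_lit 2) (nat_lit 5) (nat_lit 5) (nat_lit 6) (nat_lit 7) (nat_lit 8) (by decide +kernel)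
theorem L12604 : W_23 (nat_lit 3) (nat_lit 0x300000001c002f00018001c0000000000000000000000) (nat_lit 0x0) (nat_lit 0x2000600030000000000000000000) := T_23 (nat_lit 93) (nat_lit 94) (nat_lit 1) (nat_lit 9) (nat_lit 5) L12603 (by decide +kernel)
theorem L12605 : W_23 (nat_lit 4) (nat_lit 0x300000001c002f00018000c0000000000000000000000) (nat_lit 0x0) (nat_lit 0x2000700038000000000000000000) := T_23 (nat_lit 92) (nat_lit 75) (nat_lit 6) (nat_lit 6) (nat_lit 8) L12604 (by decide +kernel)
theorem L12606 : W_23 (nat_lit 5) (nat_lit 0x300000001c002f0001800080000000000000000000000) (nat_lit 0x0) (nat_lit 0x200074003a000000000000000000) := T_23 (nat_lit 90) (nat_lit 73) (nat_lit 7) (nat_lit 5) (nat_lit 4) L12605 (by decide +kernel)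
theorem L12607 : W_23 (nat_lit 6) (nat_lit 0x300000001c002f0001000080000000000000000000000) (nat_lit 0x0) (nat_lit 0x2c0074003a000000000000000000) := T_23 (nat_lit 107) (nat_lit 106) (nat_lit 0) (nat_lit 8) (nat_lit 7) L12606 (by decide +kernel)
theorem L12608 : W_23 (nat_lit 7) (nat_lit 0x300000001c002f0001000000000000000000000000000) (nat_lit 0x0) (nat_lit 0x2c007c003e000000000000000000) := T_23 (nat_lit 91) (nat_lit 74) (nat_lit 7) (nat_lit 6) (nat_lit 4) L12607 (by decide +kernel)
theorem L12609 : W_23 (nat_lit 8) (nat_lit 0x300000001c002e0001000000000000000000000000000) (nat_lit 0x0) (nat_lit 0x18002c007c003e000000000000000000) := T_23 (nat_lit 124) (nat_lit 123) (nat_lit 3) (nat_lit 4) (nat_lit 7) L12608 (by decide +kernel)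
theorem L12610 : W_23 (nat_lit 9) (nat_lit 0x300000001c002e0000000000000000000000000000000) (nat_lit 0x0) (nat_lit 0x10000000018003c007c003e000000000000000000) := T_23 (nat_lit 108) (nat_lit 160) (nat_lit 4) (nat_lit 7) (nat_lit 10) L12609 (by decide +kernel)
theorem L12611 : W_23 (nat_lit 10) (nat_lit 0x300000001c000e0000000000000000000000000000000) (nat_lit 0x0) (nat_lit 0x10000000318003c007c003e000000000000000000) := T_23 (nat_lit 129) (nat_lit 128) (nat_lit 1) (nat_lit 10) (nat_lit 7) L12610 (by decide +kernel)
theorem L12612 : W_23 (nat_lit 2) (nat_lit 0x300018001c000e0000000000000000000000000000000) (nat_lit 0x0) (nat_lit 0x18000800000000000000000000000000) := D_23 (nat_lit 124) (nat_lit 123) (nat_lit 107) (nat_lit 3) (nat_lit 4) (nat_lit 7) (nat_lit 4) (nat_lit 6) (nat_lit 10) (by decide +kernel)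
theorem L12613 : W_23 (nat_lit 3) (nat_lit 0x300010001c000e0000000000000000000000000000000) (nat_lit 0x0) (nat_lit 0x8000000018002800000000000000000000000000) := T_23 (nat_lit 159) (nat_lit 109) (nat_lit 6) (nat_lit 6) (nat_lit 10) L12612 (by decide +kernel)
theorem L12614 : W_23 (nat_lit 4) (nat_lit 0x300000001c000e0000000000000000000000000000000) (nat_lit 0x0) (nat_lit 0x18000000018003800000000000000000000000000) := T_23 (nat_lit 160) (nat_lit 108) (nat_lit 4) (nat_lit 7) (nat_lit 10) L12613 (by decide +kernel)
theorem L12615 : W_23 (nat_lit 2) (nat_lit 0x300010001c002f0000000000000000000000000000000) (nat_lit 0x0) (nat_lit 0x8000000000000c00000000000000000000000000) := D_23 (nat_lit 107) (nat_lit 159) (nat_lit 106) (nat_lit 4) (nat_lit 6) (nat_lit 10) (nat_lit 0) (nat_lit 8) (nat_lit 7) (by decide +kernel)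
theorem L12616 : W_23 (nat_lit 3) (nat_lit 0x300010001c002e0000000000000000000000000000000) (nat_lit 0x0) (nat_lit 0x8000000018000c00000000000000000000000000) := T_23 (nat_lit 124) (nat_lit 123) (nat_lit 3) (nat_lit 4) (nat_lit 7) L12615 (by decide +kernel)
theorem L12617 : W_23 (nat_lit 4) (nat_lit 0x300010001c000e0000000000000000000000000000000) (nat_lit 0x0) (nat_lit 0x8000000318000c00000000000000000000000000) := T_23 (nat_lit 129) (nat_lit 128) (nat_lit 1) (nat_lit 10) (nat_lit 7) L12616 (by decide +kernel)
theorem L12618 : W_23 (nat_lit 5) (nat_lit 0x300000001c000e0000000000000000000000000000000) (nat_lit 0x0) (nat_lit 0x18000000318001c00000000000000000000000000) := T_23 (nat_lit 160) (nat_lit 108) (nat_lit 4) (nat_lit 7) (nat_lit 10) L12617 (by decide +kernel)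
theorem L12619 : W_23 (nat_lit 2) (nat_lit 0x380008001c000e8000000000000000000000000000000) (nat_lit 0x0) (nat_lit 0x14000000000001000000000000000000000000000) := D_23 (nat_lit 108) (nat_lit 158) (nat_lit 160) (nat_lit 5) (nat_lit 6) (nat_lit 6) (nat_lit 7) (nat_lit 6) (nat_lit 6) (by decide +kernel)
theorem L12620 : W_23 (nat_lit 3) (nat_lit 0x300008001c000e8000000000000000000000000000000) (nat_lit 0x0) (nat_lit 0x1000080014000000000001000000000000000000000000000) := T_23 (nat_lit 175) (nat_lit 192) (nat_lit 5) (nat_lit 6) (nat_lit 7) L12619 (by decide +kernel)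
theorem L12621 : W_23 (nat_lit 4) (nat_lit 0x300000001c000e8000000000000000000000000000000) (nat_lit 0x0) (nat_lit 0x100008001c000000000003000000000000000000000000000) := T_23 (nat_lit 159) (nat_lit 109) (nat_lit 6) (nat_lit 6) (nat_lit 10) L12620 (by decide +kernel)
theorem L12622 : W_23 (nat_lit 5) (nat_lit 0x300000001c000e0000000000000000000000000000000) (nat_lit 0x0) (nat_lit 0x100008001c000000018003000000000000000000000000000) := T_23 (nat_lit 123) (nat_lit 124) (nat_lit 3) (nat_lit 4) (nat_lit 7) L12621 (by decide +kernel)
theorem L12623 : W_23 (nat_lit 2) (nat_lit 0x380008001c000e0000000000000000000000000000000) (nat_lit 0x0) (nat_lit 0x14000000000001000000000000000000000000000) := D_23 (nat_lit 108) (nat_lit 158) (nat_lit 160) (nat_lit 5) (nat_lit 6) (nat_lit 6) (nat_lit 7) (nat_lit 6) (nat_lit 6) (by decide +kernel)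
theorem L12624 : W_23 (nat_lit 3) (nat_lit 0x300008001c000e0000000000000000000000000000000) (nat_lit 0x0) (nat_lit 0x1000080014000000000001000000000000000000000000000) := T_23 (nat_lit 175) (nat_lit 192) (nat_lit 5) (nat_lit 6) (nat_lit 7) L12623 (by decide +kernel)
theorem L12625 : W_23 (nat_lit 4) (nat_lit 0x300000001c000e0000000000000000000000000000000) (nat_lit 0x0) (nat_lit 0x100008001c000000000003000000000000000000000000000) := T_23 (nat_lit 159) (nat_lit 109) (nat_lit 6) (nat_lit 6) (nat_lit 10) L12624 (by decide +kernel)
theorem L12626 : W_23 (nat_lit 11) (nat_lit 0x300000001c000a0000000000000000000000000000000) (nat_lit 0x0) (nat_lit 0x100008001c000000358003c007c003e000000000000000000) := Q_23 (nat_lit 126) (C_23 L12602 (C_23 L12611 (C_23 L12614 (C_23 L12618 (C_23 L12622 (C_23 L12625 N_23)))))) (by decide +kernel)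
theorem L12627 : W_23 (nat_lit 12) (nat_lit 0x300000001c00080000000000000000000000000000000) (nat_lit 0x0) (nat_lit 0x500008001c000000378003c007c003e000000000000000000) := Q_23 (nat_lit 125) (C_23 L12598 (C_23 L12577 (C_23 L12626 (C_23 L12575 N_23)))) (by decide +kernel)
theorem L12628 : W_23 (nat_lit 13) (nat_lit 0x300000001800080000000000000000000000000000000) (nat_lit 0x0) (nat_lit 0x500008001f0007c037c003c007c003e000000000000000000) := Q_23 (nat_lit 142) (C_23 L12519 (C_23 L12574 (C_23 L12599 (C_23 L12627 (C_23 L12492 N_23))))) (by decide +kernel)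
theorem L12637 : W_23 (nat_lit 2) (nat_lit 0x300004001e00090000000000000000000000000000000) (nat_lit 0x0) (nat_lit 0x2000000008000000000000800000000000000000000000000) := D_23 (nat_lit 159) (nat_lit 193) (nat_lit 107) (nat_lit 4) (nat_lit 6) (nat_lit 11) (nat_lit 7) (nat_lit 5) (nat_lit 6) (by decide +kernel)
theorem L12638 : W_23 (nat_lit 3) (nat_lit 0x300004001e00080000000000000000000000000000000) (nat_lit 0x0) (nat_lit 0x2000000008000000018000800000000000000000000000000) := T_23 (nat_lit 124) (nat_lit 123) (nat_lit 0) (nat_lit 8) (nat_lit 8) L12637 (by decide +kernel)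
theorem L12639 : W_23 (nat_lit 4) (nat_lit 0x300000001e00080000000000000000000000000000000) (nat_lit 0x0) (nat_lit 0x200000000e000000018000800000000000000000000000000) := T_23 (nat_lit 158) (nat_lit 157) (nat_lit 1) (nat_lit 8) (nat_lit 8) L12638 (by decide +kernel)
theorem L12640 : W_23 (nat_lit 5) (nat_lit 0x300000001c00080000000000000000000000000000000) (nat_lit 0x0) (nat_lit 0x200000000e000200118000800000000000000000000000000) := T_23 (nat_lit 141) (nat_lit 128) (nat_lit 2) (nat_lit 5) (nat_lit 8) L12639 (by decide +kernel)
theorem L12644 : W_23 (nat_lit 8) (nat_lit 0x300000001800080000000000000000000000000000000) (nat_lit 0x0) (nat_lit 0x100008000700008001e000600138001800000000000000000000000000) := Q_23 (nat_lit 142) (C_23 L12574 (C_23 L12496 (C_23 L12636 (C_23 L12640 (C_23 L12643 N_23))))) (by decide +kernel)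
theorem L12648 : W_23 (nat_lit 14) (nat_lit 0x300000001000080000000000000000000000000000000) (nat_lit 0x0) (nat_lit 0x18007f803fc010e009f00cfc077c03bc007c003e000000000000000000) := Q_23 (nat_lit 143) (C_23 L12527 (C_23 L12536 (C_23 L12568 (C_23 L12628 (C_23 L12630 (C_23 L12644 (C_23 L12647 N_23))))))) (by decide +kernel)
theorem L12653 : W_23 (nat_lit 6) (nat_lit 0x300000001c00080000000000000000000000000000000) (nat_lit 0x0) (nat_lit 0x20007c00c8000c000000070003800140000000000000000000000) := Q_23 (nat_lit 159) (C_23 L12521 (C_23 L12515 (C_23 L12652 N_23))) (by decide +kernel)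
theorem L12654 : W_23 (nat_lit 9) (nat_lit 0x300000001800080000000000000000000000000000000) (nat_lit 0x0) (nat_lit 0xe0007c00c8000f00070017c003800140000000000000000000000) := Q_23 (nat_lit 142) (C_23 L12640 (C_23 L12519 (C_23 L12516 (C_23 L12653 (C_23 L12492 N_23))))) (by decide +kernel)
theorem L12655 : W_23 (nat_lit 14) (nat_lit 0x300000001000080000000000000000000000000000000) (nat_lit 0x0) (nat_lit 0x18000e0007c01c8009f00cfc077c03bc007c003e000000000000000000) := Q_23 (nat_lit 143) (C_23 L12654 (C_23 L12536 (C_23 L12568 (C_23 L12628 (C_23 L12647 (C_23 L12644 N_23)))))) (by decide +kernel)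
theorem L12659 : W_23 (nat_lit 5) (nat_lit 0x800380000001000080000000000000000000000000000000) (nat_lit 0x0) (nat_lit 0x10000400440007000200010000000000000000000000000000000) := T_23 (nat_lit 174) (nat_lit 190) (nat_lit 1) (nat_lit 7) (nat_lit 10) L12658 (by decide +kernel)
theorem L12664 : W_23 (nat_lit 2) (nat_lit 0x800380004001000080000000000000000000000000000000) (nat_lit 0x0) (nat_lit 0x1000400002000000000000000000000000000000000000000) := D_23 (nat_lit 178) (nat_lit 192) (nat_lit 157) (nat_lit 1) (nat_lit 8) (nat_lit 10) (nat_lit 0) (nat_lit 8) (nat_lit 10) (by decide +kernel)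
theorem L12666 : W_23 (nat_lit 2) (nat_lit 0x800380004001200098000000000000000000000000000000) (nat_lit 0x0) (nat_lit 0x10001000000000000100000000000000000000000000000000000) := D_23 (nat_lit 192) (nat_lit 208) (nat_lit 140) (nat_lit 5) (nat_lit 5) (nat_lit 8) (nat_lit 4) (nat_lit 5) (nat_lit 11) (by decide +kernel)
theorem L12667 : W_23 (nat_lit 3) (nat_lit 0x800380004001200090000000000000000000000000000000) (nat_lit 0x0) (nat_lit 0x10001000000000000100008000400000000000000000000000000) := T_23 (nat_lit 123) (nat_lit 106) (nat_lit 4) (nat_lit 5) (nat_lit 10) L12666 (by decide +kernel)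
theorem L12668 : W_23 (nat_lit 4) (nat_lit 0x800380004001200080000000000000000000000000000000) (nat_lit 0x0) (nat_lit 0x10001000040000000100018000400000000000000000000000000) := T_23 (nat_lit 124) (nat_lit 174) (nat_lit 5) (nat_lit 5) (nat_lit 7) L12667 (by decide +kernel)
theorem L12669 : W_23 (nat_lit 4) (nat_lit 0x800380004001200080000000000000000000000000000000) (nat_lit 0x0) (nat_lit 0x10003000000000000100018000400000000000000000000000000) := T_23 (nat_lit 124) (nat_lit 193) (nat_lit 7) (nat_lit 5) (nat_lit 7) L12667 (by decide +kernel)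
theorem L12676 : W_23 (nat_lit 8) (nat_lit 0x800380004001000080000000000000000000000000000000) (nat_lit 0x0) (nat_lit 0x70003000040002000f00178000400000000000000000000000000) := Q_23 (nat_lit 141) (C_23 L12665 (C_23 L12668 (C_23 L12669 (C_23 L12675 N_23)))) (by decide +kernel)
theorem L12682 : W_23 (nat_lit 9) (nat_lit 0x800380000001000080000000000000000000000000000000) (nat_lit 0x0) (nat_lit 0x70003000440007800f00178000400000000000000000000000000) := Q_23 (nat_lit 158) (C_23 L12664 (C_23 L12676 (C_23 L12678 (C_23 L12681 N_23)))) (by decide +kernel)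
theorem L12683 : W_23 (nat_lit 10) (nat_lit 0x380000001000080000000000000000000000000000000) (nat_lit 0x0) (nat_lit 0x70003e00440007800f00178000400000000000000000000000000) := Q_23 (nat_lit 191) (C_23 L12659 (C_23 L12661 (C_23 L12663 (C_23 L12682 N_23)))) (by decide +kernel)
theorem L12684 : W_23 (nat_lit 2) (nat_lit 0x42003f0012401000080000000000000000000000000000000) (nat_lit 0x0) (nat_lit 0x8004200000000000000000000000000000000000000) := D_23 (nat_lit 171) (nat_lit 158) (nat_lit 153) (nat_lit 2) (nat_lit 1) (nat_lit 10) (nat_lit 0) (nat_lit 4) (nat_lit 10) (by decide +kernel)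
theorem L12685 : W_23 (nat_lit 3) (nat_lit 0x42003f0012001000080000000000000000000000000000000) (nat_lit 0x0) (nat_lit 0x8004e00000000000000000000000000000000000000) := T_23 (nat_lit 154) (nat_lit 155) (nat_lit 0) (nat_lit 5) (nat_lit 10) L12684 (by decide +kernel)
theorem L12686 : W_23 (nat_lit 4) (nat_lit 0x42003e0012001000080000000000000000000000000000000) (nat_lit 0x0) (nat_lit 0x100018004e00000000000000000000000000000000000000) := T_23 (nat_lit 172) (nat_lit 188) (nat_lit 1) (nat_lit 5) (nat_lit 10) L12685 (by decide +kernel)
theorem L12687 : W_23 (nat_lit 5) (nat_lit 0x42003e0002001000080000000000000000000000000000000) (nat_lit 0x0) (nat_lit 0x100018014e00800000000000000000000000000000000000) := T_23 (nat_lit 160) (nat_lit 143) (nat_lit 6) (nat_lit 7) (nat_lit 11) L12686 (by decide +kernel)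
theorem L12688 : W_23 (nat_lit 6) (nat_lit 0x40003e0002001000080000000000000000000000000000000) (nat_lit 0x0) (nat_lit 0x700018014e00800000000000000000000000000000000000) := T_23 (nat_lit 189) (nat_lit 190) (nat_lit 1) (nat_lit 6) (nat_lit 10) L12687 (by decide +kernel)
theorem L12689 : W_23 (nat_lit 7) (nat_lit 0x40003c0002001000080000000000000000000000000000000) (nat_lit 0x0) (nat_lit 0x2700038014e00800000000000000000000000000000000000) := T_23 (nat_lit 173) (nat_lit 193) (nat_lit 3) (nat_lit 3) (nat_lit 10) L12688 (by decide +kernel)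
theorem L12690 : W_23 (nat_lit 8) (nat_lit 0x3c0002001000080000000000000000000000000000000) (nat_lit 0x0) (nat_lit 0xe700038014e00800000000000000000000000000000000000) := T_23 (nat_lit 194) (nat_lit 195) (nat_lit 3) (nat_lit 4) (nat_lit 10) L12689 (by decide +kernel)
theorem L12691 : W_23 (nat_lit 9) (nat_lit 0x3c0000001000080000000000000000000000000000000) (nat_lit 0x0) (nat_lit 0xe700038017e00800000000000000000000000000000000000) := T_23 (nat_lit 157) (nat_lit 156) (nat_lit 0) (nat_lit 7) (nat_lit 10) L12690 (by decide +kernel)
theorem L12697 : W_23 (nat_lit 7) (nat_lit 0x4003c0000001000080000000000000000000000000000000) (nat_lit 0x0) (nat_lit 0x7200038007e00000000000000000000000000000000000000) := T_23 (nat_lit 157) (nat_lit 156) (nat_lit 0) (nat_lit 7) (nat_lit 10) L12696 (by decide +kernel)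
theorem L12698 : W_23 (nat_lit 8) (nat_lit 0x3c0000001000080000000000000000000000000000000) (nat_lit 0x0) (nat_lit 0x7e00038007e00000000000000000000000000000000000000) := T_23 (nat_lit 190) (nat_lit 191) (nat_lit 1) (nat_lit 7) (nat_lit 10) L12697 (by decide +kernel)
theorem L12699 : W_23 (nat_lit 2) (nat_lit 0x4003c0001001000080000000000000000000000000000000) (nat_lit 0x0) (nat_lit 0x200020000800000000000000000000000000000000000000) := D_23 (nat_lit 173) (nat_lit 155) (nat_lit 189) (nat_lit 0) (nat_lit 6) (nat_lit 10) (nat_lit 1) (nat_lit 6) (nat_lit 10) (by decide +kernel)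
theorem L12700 : W_23 (nat_lit 3) (nat_lit 0x3c0001001000080000000000000000000000000000000) (nat_lit 0x0) (nat_lit 0xe00020000800000000000000000000000000000000000000) := T_23 (nat_lit 190) (nat_lit 191) (nat_lit 1) (nat_lit 7) (nat_lit 10) L12699 (by decide +kernel)
theorem L12701 : W_23 (nat_lit 4) (nat_lit 0x3c0000001000080000000000000000000000000000000) (nat_lit 0x0) (nat_lit 0xe00020003800000000000000000000000000000000000000) := T_23 (nat_lit 156) (nat_lit 157) (nat_lit 0) (nat_lit 7) (nat_lit 10) L12700 (by decide +kernel)
theorem L12702 : W_23 (nat_lit 2) (nat_lit 0x3c0000001800080000000000000000000000000000000) (nat_lit 0x0) (nat_lit 0xc000000010000000000000000000000000000000000000000) := D_23 (nat_lit 194) (nat_lit 195) (nat_lit 160) (nat_lit 3) (nat_lit 4) (nat_lit 10) (nat_lit 6) (nat_lit 7) (nat_lit 11) (by decide +kernel)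
theorem L12708 : W_23 (nat_lit 7) (nat_lit 0x8003c0010001800080000000000000000000000000000000) (nat_lit 0x0) (nat_lit 0x300000000300018007c001200000000000000000000000000) := T_23 (nat_lit 157) (nat_lit 156) (nat_lit 0) (nat_lit 7) (nat_lit 10) L12707 (by decide +kernel)
theorem L12709 : W_23 (nat_lit 8) (nat_lit 0x8003c0000001800080000000000000000000000000000000) (nat_lit 0x0) (nat_lit 0x700000001300018007c001200000000000000000000000000) := T_23 (nat_lit 160) (nat_lit 194) (nat_lit 6) (nat_lit 7) (nat_lit 11) L12708 (by decide +kernel)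
theorem L12710 : W_23 (nat_lit 9) (nat_lit 0x3c0000001800080000000000000000000000000000000) (nat_lit 0x0) (nat_lit 0x7c0000001300018007c001200000000000000000000000000) := T_23 (nat_lit 191) (nat_lit 190) (nat_lit 1) (nat_lit 7) (nat_lit 10) L12709 (by decide +kernel)
theorem L12713 : W_23 (nat_lit 2) (nat_lit 0x8003c0002001a00080000000000000000000000000000000) (nat_lit 0x0) (nat_lit 0x4000400010000000000000000000000000000000) := D_23 (nat_lit 158) (nat_lit 142) (nat_lit 124) (nat_lit 1) (nat_lit 8) (nat_lit 8) (nat_lit 5) (nat_lit 5) (nat_lit 7) (by decide +kernel)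
theorem L12714 : W_23 (nat_lit 3) (nat_lit 0x3c0002001a00080000000000000000000000000000000) (nat_lit 0x0) (nat_lit 0xc00000004000400010000000000000000000000000000000) := T_23 (nat_lit 191) (nat_lit 190) (nat_lit 1) (nat_lit 7) (nat_lit 10) L12713 (by decide +kernel)
theorem L12715 : W_23 (nat_lit 4) (nat_lit 0x3c0000001a00080000000000000000000000000000000) (nat_lit 0x0) (nat_lit 0xc00000007000400010000000000000000000000000000000) := T_23 (nat_lit 157) (nat_lit 156) (nat_lit 0) (nat_lit 7) (nat_lit 10) L12714 (by decide +kernel)
theorem L12716 : W_23 (nat_lit 2) (nat_lit 0x3c0002001f00080000000000000000000000000000000) (nat_lit 0x0) (nat_lit 0x1c000000000000000000000000000000) := D_23 (nat_lit 123) (nat_lit 122) (nat_lit 124) (nat_lit 0) (nat_lit 7) (nat_lit 8) (nat_lit 0) (nat_lit 8) (nat_lit 8) (by decide +kernel)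
theorem L12717 : W_23 (nat_lit 3) (nat_lit 0x3c0002001e00080000000000000000000000000000000) (nat_lit 0x0) (nat_lit 0x10005c000000000000000000000000000000) := T_23 (nat_lit 140) (nat_lit 126) (nat_lit 2) (nat_lit 4) (nat_lit 8) L12716 (by decide +kernel)
theorem L12718 : W_23 (nat_lit 4) (nat_lit 0x3c0002001a00080000000000000000000000000000000) (nat_lit 0x0) (nat_lit 0x50015c000000000000000000000000000000) := T_23 (nat_lit 142) (nat_lit 128) (nat_lit 2) (nat_lit 5) (nat_lit 8) L12717 (by decide +kernel)
theorem L12719 : W_23 (nat_lit 5) (nat_lit 0x3c0000001a00080000000000000000000000000000000) (nat_lit 0x0) (nat_lit 0x300050015c000000000000000000000000000000) := T_23 (nat_lit 157) (nat_lit 156) (nat_lit 0) (nat_lit 7) (nat_lit 10) L12718 (by decide +kernel)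
theorem L12723 : W_23 (nat_lit 2) (nat_lit 0x8003c0000001e00080000000000000000000000000000000) (nat_lit 0x0) (nat_lit 0x4000000018000000000000000000000000000000) := D_23 (nat_lit 124) (nat_lit 158) (nat_lit 123) (nat_lit 5) (nat_lit 5) (nat_lit 7) (nat_lit 0) (nat_lit 8) (nat_lit 8) (by decide +kernel)
theorem L12724 : W_23 (nat_lit 3) (nat_lit 0x8003c0000001a00080000000000000000000000000000000) (nat_lit 0x0) (nat_lit 0x4000400118000000000000000000000000000000) := T_23 (nat_lit 142) (nat_lit 128) (nat_lit 2) (nat_lit 5) (nat_lit 8) L12723 (by decide +kernel)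
theorem L12725 : W_23 (nat_lit 4) (nat_lit 0x3c0000001a00080000000000000000000000000000000) (nat_lit 0x0) (nat_lit 0xc00000004000400118000000000000000000000000000000) := T_23 (nat_lit 191) (nat_lit 190) (nat_lit 1) (nat_lit 7) (nat_lit 10) L12724 (by decide +kernel)
theorem L12726 : W_23 (nat_lit 6) (nat_lit 0x3c0000001800080000000000000000000000000000000) (nat_lit 0x0) (nat_lit 0xc0000000700070015c000000000000000000000000000000) := Q_23 (nat_lit 141) (C_23 L12712 (C_23 L12715 (C_23 L12719 (C_23 L12722 (C_23 L12725 N_23))))) (by decide +kernel)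
theorem L12727 : W_23 (nat_lit 10) (nat_lit 0x3c0000001000080000000000000000000000000000000) (nat_lit 0x0) (nat_lit 0xfc00000017000f8017c001200000000000000000000000000) := Q_23 (nat_lit 143) (C_23 L12702 (C_23 L12710 (C_23 L12726 N_23))) (by decide +kernel)
theorem L12731 : W_23 (nat_lit 5) (nat_lit 0x48003e0000801000080000000000000000000000000000000) (nat_lit 0x0) (nat_lit 0x1380018010400800000000000000000000000000000000000) := T_23 (nat_lit 160) (nat_lit 143) (nat_lit 6) (nat_lit 7) (nat_lit 11) L12730 (by decide +kernel)
theorem L12732 : W_23 (nat_lit 6) (nat_lit 0x48003e0000001000080000000000000000000000000000000) (nat_lit 0x0) (nat_lit 0x1380018011c00800000000000000000000000000000000000) := T_23 (nat_lit 155) (nat_lit 156) (nat_lit 0) (nat_lit 6) (nat_lit 10) L12731 (by decide +kernel)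
theorem L12733 : W_23 (nat_lit 7) (nat_lit 0x48003c0000001000080000000000000000000000000000000) (nat_lit 0x0) (nat_lit 0x3380038011c00800000000000000000000000000000000000) := T_23 (nat_lit 173) (nat_lit 193) (nat_lit 3) (nat_lit 3) (nat_lit 10) L12732 (by decide +kernel)
theorem L12734 : W_23 (nat_lit 8) (nat_lit 0x8003c0000001000080000000000000000000000000000000) (nat_lit 0x0) (nat_lit 0xf380038011c00800000000000000000000000000000000000) := T_23 (nat_lit 194) (nat_lit 195) (nat_lit 3) (nat_lit 4) (nat_lit 10) L12733 (by decide +kernel)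
theorem L12735 : W_23 (nat_lit 9) (nat_lit 0x3c0000001000080000000000000000000000000000000) (nat_lit 0x0) (nat_lit 0xff80038011c00800000000000000000000000000000000000) := T_23 (nat_lit 191) (nat_lit 190) (nat_lit 1) (nat_lit 7) (nat_lit 10) L12734 (by decide +kernel)
theorem L12736 : W_23 (nat_lit 2) (nat_lit 0x40003e0000001000080000000000000000000000000000000) (nat_lit 0x0) (nat_lit 0x3800000000000000000000000000000000000000) := D_23 (nat_lit 156) (nat_lit 155) (nat_lit 157) (nat_lit 0) (nat_lit 6) (nat_lit 10) (nat_lit 0) (nat_lit 7) (nat_lit 10) (by decide +kernel)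
theorem L12737 : W_23 (nat_lit 3) (nat_lit 0x40003c0000001000080000000000000000000000000000000) (nat_lit 0x0) (nat_lit 0x2000020003800000000000000000000000000000000000000) := T_23 (nat_lit 173) (nat_lit 193) (nat_lit 3) (nat_lit 3) (nat_lit 10) L12736 (by decide +kernel)
theorem L12738 : W_23 (nat_lit 4) (nat_lit 0x3c0000001000080000000000000000000000000000000) (nat_lit 0x0) (nat_lit 0xe000020003800000000000000000000000000000000000000) := T_23 (nat_lit 194) (nat_lit 195) (nat_lit 3) (nat_lit 4) (nat_lit 10) L12737 (by decide +kernel)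
theorem L12741 : W_23 (nat_lit 4) (nat_lit 0x3c0000001000080000000000000000000000000000000) (nat_lit 0x0) (nat_lit 0xee00020000000000000000000000000000000000000000000) := T_23 (nat_lit 194) (nat_lit 195) (nat_lit 3) (nat_lit 4) (nat_lit 10) L12740 (by decide +kernel)
theorem L12742 : W_23 (nat_lit 11) (nat_lit 0x380000001000080000000000000000000000000000000) (nat_lit 0x0) (nat_lit 0xff80078017e00f8017c001200000000000000000000000000) := Q_23 (nat_lit 174) (C_23 L12691 (C_23 L12698 (C_23 L12701 (C_23 L12727 (C_23 L12735 (C_23 L12738 (C_23 L12741 N_23))))))) (by decide +kernel)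
theorem L12743 : W_23 (nat_lit 2) (nat_lit 0x40003c0006001a00098000000000000000000000000000000) (nat_lit 0x0) (nat_lit 0x60001000000000000000000000000000) := D_23 (nat_lit 125) (nat_lit 126) (nat_lit 108) (nat_lit 3) (nat_lit 4) (nat_lit 7) (nat_lit 6) (nat_lit 5) (nat_lit 10) (by decide +kernel)
theorem L12744 : W_23 (nat_lit 3) (nat_lit 0x40003c0006001a00090000000000000000000000000000000) (nat_lit 0x0) (nat_lit 0x68001400000000000000000000000000) := T_23 (nat_lit 123) (nat_lit 106) (nat_lit 4) (nat_lit 5) (nat_lit 10) L12743 (by decide +kernel)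
theorem L12745 : W_23 (nat_lit 4) (nat_lit 0x40003c0006001a00080000000000000000000000000000000) (nat_lit 0x0) (nat_lit 0x78001c00000000000000000000000000) := T_23 (nat_lit 124) (nat_lit 107) (nat_lit 5) (nat_lit 5) (nat_lit 6) L12744 (by decide +kernel)
theorem L12746 : W_23 (nat_lit 5) (nat_lit 0x40003c0006001800080000000000000000000000000000000) (nat_lit 0x0) (nat_lit 0x600078001c00000000000000000000000000) := T_23 (nat_lit 141) (nat_lit 142) (nat_lit 1) (nat_lit 8) (nat_lit 8) L12745 (by decide +kernel)
theorem L12747 : W_23 (nat_lit 6) (nat_lit 0x40003c0006001000080000000000000000000000000000000) (nat_lit 0x0) (nat_lit 0x10000e00078001c00000000000000000000000000) := T_23 (nat_lit 143) (nat_lit 160) (nat_lit 6) (nat_lit 7) (nat_lit 11) L12746 (by decide +kernel)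
theorem L12748 : W_23 (nat_lit 7) (nat_lit 0x40003c0002001000080000000000000000000000000000000) (nat_lit 0x0) (nat_lit 0x400014000e00078001c00000000000000000000000000) := T_23 (nat_lit 158) (nat_lit 178) (nat_lit 0) (nat_lit 8) (nat_lit 10) L12747 (by decide +kernel)
theorem L12749 : W_23 (nat_lit 8) (nat_lit 0x3c0002001000080000000000000000000000000000000) (nat_lit 0x0) (nat_lit 0xc000400014000e00078001c00000000000000000000000000) := T_23 (nat_lit 194) (nat_lit 195) (nat_lit 3) (nat_lit 4) (nat_lit 10) L12748 (by decide +kernel)
theorem L12750 : W_23 (nat_lit 9) (nat_lit 0x3c0000001000080000000000000000000000000000000) (nat_lit 0x0) (nat_lit 0xc000400017000e00078001c00000000000000000000000000) := T_23 (nat_lit 157) (nat_lit 156) (nat_lit 0) (nat_lit 7) (nat_lit 10) L12749 (by decide +kernel)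
theorem L12751 : W_23 (nat_lit 2) (nat_lit 0x88003c0000001000080000000000000000000000000000000) (nat_lit 0x0) (nat_lit 0x11000400000000000000000000000000000000000000000000) := D_23 (nat_lit 178) (nat_lit 196) (nat_lit 192) (nat_lit 3) (nat_lit 5) (nat_lit 10) (nat_lit 1) (nat_lit 8) (nat_lit 10) (by decide +kernel)
theorem L12752 : W_23 (nat_lit 3) (nat_lit 0x80003c0000001000080000000000000000000000000000000) (nat_lit 0x0) (nat_lit 0x11c00400000000000000000000000000000000000000000000) := T_23 (nat_lit 191) (nat_lit 190) (nat_lit 1) (nat_lit 7) (nat_lit 10) L12751 (by decide +kernel)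
theorem L12753 : W_23 (nat_lit 4) (nat_lit 0x3c0000001000080000000000000000000000000000000) (nat_lit 0x0) (nat_lit 0x1dc00400000000000000000000000000000000000000000000) := T_23 (nat_lit 195) (nat_lit 194) (nat_lit 3) (nat_lit 4) (nat_lit 10) L12752 (by decide +kernel)
theorem L12754 : W_23 (nat_lit 10) (nat_lit 0x380000001000080000000000000000000000000000000) (nat_lit 0x0) (nat_lit 0x1de00460017800e00078001c00000000000000000000000000) := Q_23 (nat_lit 174) (C_23 L12750 (C_23 L12701 (C_23 L12753 N_23))) (by decide +kernel)
theorem L12755 : W_23 (nat_lit 5) (nat_lit 0x380000001000080000000000000000000000000000000) (nat_lit 0x0) (nat_lit 0x1fe00460003800000000000000000000000000000000000000) := Q_23 (nat_lit 174) (C_23 L12738 (C_23 L12753 (C_23 L12701 N_23))) (by decide +kernel)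
theorem L12756 : W_23 (nat_lit 10) (nat_lit 0x380000001000080000000000000000000000000000000) (nat_lit 0x0) (nat_lit 0xee00460017800e00078001c00000000000000000000000000) := Q_23 (nat_lit 174) (C_23 L12750 (C_23 L12741 (C_23 L12701 N_23))) (by decide +kernel)
theorem L12757 : W_23 (nat_lit 2) (nat_lit 0x12000f80084001000080000000000000000000000000000000) (nat_lit 0x0) (nat_lit 0x4001000100000000000000000000000000000000000000000) := D_23 (nat_lit 180) (nat_lit 164) (nat_lit 194) (nat_lit 2) (nat_lit 7) (nat_lit 10) (nat_lit 1) (nat_lit 10) (nat_lit 10) (by decide +kernel)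
theorem L12758 : W_23 (nat_lit 3) (nat_lit 0x10000f80084001000080000000000000000000000000000000) (nat_lit 0x0) (nat_lit 0x7001000100000000000000000000000000000000000000000) := T_23 (nat_lit 193) (nat_lit 192) (nat_lit 1) (nat_lit 9) (nat_lit 10) L12757 (by decide +kernel)
theorem L12759 : W_23 (nat_lit 4) (nat_lit 0x10000f80004001000080000000000000000000000000000000) (nat_lit 0x0) (nat_lit 0x70010001c0000000000000000000000000000000000000000) := T_23 (nat_lit 163) (nat_lit 162) (nat_lit 2) (nat_lit 6) (nat_lit 10) L12758 (by decide +kernel)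
theorem L12760 : W_23 (nat_lit 5) (nat_lit 0x10000780004001000080000000000000000000000000000000) (nat_lit 0x0) (nat_lit 0x270018001c0000000000000000000000000000000000000000) := T_23 (nat_lit 179) (nat_lit 197) (nat_lit 3) (nat_lit 6) (nat_lit 10) L12759 (by decide +kernel)
theorem L12761 : W_23 (nat_lit 6) (nat_lit 0x780004001000080000000000000000000000000000000) (nat_lit 0x0) (nat_lit 0x3f0018001c0000000000000000000000000000000000000000) := T_23 (nat_lit 196) (nat_lit 195) (nat_lit 3) (nat_lit 5) (nat_lit 10) L12760 (by decide +kernel)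
theorem L12762 : W_23 (nat_lit 7) (nat_lit 0x780000001000080000000000000000000000000000000) (nat_lit 0x0) (nat_lit 0x3f0018001c6000000000000000000000000000000000000000) := T_23 (nat_lit 158) (nat_lit 157) (nat_lit 0) (nat_lit 8) (nat_lit 10) L12761 (by decide +kernel)
theorem L12763 : W_23 (nat_lit 2) (nat_lit 0x4000000014001f80084001800380000000000000000000000000000000) (nat_lit 0x0) (nat_lit 0x600040000000000000000000000000000000) := D_23 (nat_lit 142) (nat_lit 126) (nat_lit 141) (nat_lit 1) (nat_lit 10) (nat_lit 7) (nat_lit 2) (nat_lit 5) (nat_lit 8) (by decide +kernel)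
theorem L12764 : W_23 (nat_lit 3) (nat_lit 0x4000000014001f80084001800280000000000000000000000000000000) (nat_lit 0x0) (nat_lit 0x600540000000000000000000000000000000) := T_23 (nat_lit 128) (nat_lit 130) (nat_lit 1) (nat_lit 11) (nat_lit 7) L12763 (by decide +kernel)
theorem L12765 : W_23 (nat_lit 4) (nat_lit 0x4000000014001f80084001800080000000000000000000000000000000) (nat_lit 0x0) (nat_lit 0x4600740000000000000000000000000000000) := T_23 (nat_lit 129) (nat_lit 146) (nat_lit 5) (nat_lit 10) (nat_lit 7) L12764 (by decide +kernel)
theorem L12766 : W_23 (nat_lit 5) (nat_lit 0x4000000014001f80084001000080000000000000000000000000000000) (nat_lit 0x0) (nat_lit 0x10004e00740000000000000000000000000000000) := T_23 (nat_lit 143) (nat_lit 160) (nat_lit 6) (nat_lit 7) (nat_lit 11) L12765 (by decide +kernel)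
theorem L12767 : W_23 (nat_lit 6) (nat_lit 0x14001f80084001000080000000000000000000000000000000) (nat_lit 0x0) (nat_lit 0x4000200000000000010004e00740000000000000000000000000000000) := T_23 (nat_lit 230) (nat_lit 213) (nat_lit 6) (nat_lit 9) (nat_lit 13) L12766 (by decide +kernel)
theorem L12768 : W_23 (nat_lit 7) (nat_lit 0x10001f80084001000080000000000000000000000000000000) (nat_lit 0x0) (nat_lit 0x4000200006000000010004e00740000000000000000000000000000000) := T_23 (nat_lit 194) (nat_lit 193) (nat_lit 1) (nat_lit 10) (nat_lit 10) L12767 (by decide +kernel)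
theorem L12769 : W_23 (nat_lit 8) (nat_lit 0x10000f80084001000080000000000000000000000000000000) (nat_lit 0x0) (nat_lit 0x4000200006001000110004e00740000000000000000000000000000000) := T_23 (nat_lit 180) (nat_lit 164) (nat_lit 2) (nat_lit 7) (nat_lit 10) L12768 (by decide +kernel)
theorem L12770 : W_23 (nat_lit 9) (nat_lit 0x10000f80004001000080000000000000000000000000000000) (nat_lit 0x0) (nat_lit 0x40002000060010001d0004e00740000000000000000000000000000000) := T_23 (nat_lit 163) (nat_lit 162) (nat_lit 2) (nat_lit 6) (nat_lit 10) L12769 (by decide +kernel)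
theorem L12771 : W_23 (nat_lit 10) (nat_lit 0x10000780004001000080000000000000000000000000000000) (nat_lit 0x0) (nat_lit 0x40002000260018001d0004e00740000000000000000000000000000000) := T_23 (nat_lit 179) (nat_lit 197) (nat_lit 3) (nat_lit 6) (nat_lit 10) L12770 (by decide +kernel)
theorem L12772 : W_23 (nat_lit 11) (nat_lit 0x10000780000001000080000000000000000000000000000000) (nat_lit 0x0) (nat_lit 0x40002000260018001d6004e00740000000000000000000000000000000) := T_23 (nat_lit 158) (nat_lit 157) (nat_lit 0) (nat_lit 8) (nat_lit 10) L12771 (by decide +kernel)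
theorem L12773 : W_23 (nat_lit 12) (nat_lit 0x780000001000080000000000000000000000000000000) (nat_lit 0x0) (nat_lit 0x400020003e0018001d6004e00740000000000000000000000000000000) := T_23 (nat_lit 196) (nat_lit 195) (nat_lit 3) (nat_lit 5) (nat_lit 10) L12772 (by decide +kernel)
theorem L12778 : W_23 (nat_lit 6) (nat_lit 0x1000780000001000080000000000000000000000000000000) (nat_lit 0x0) (nat_lit 0x720018001c6000000000000000000000000000000000000000) := T_23 (nat_lit 158) (nat_lit 157) (nat_lit 0) (nat_lit 8) (nat_lit 10) L12777 (by decide +kernel)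
theorem L12779 : W_23 (nat_lit 7) (nat_lit 0x780000001000080000000000000000000000000000000) (nat_lit 0x0) (nat_lit 0x738018001c6000000000000000000000000000000000000000) := T_23 (nat_lit 192) (nat_lit 191) (nat_lit 1) (nat_lit 8) (nat_lit 10) L12778 (by decide +kernel)
theorem L12780 : W_23 (nat_lit 2) (nat_lit 0xf80000001000080000000000000000000000000000000) (nat_lit 0x0) (nat_lit 0x38000000000000000000000000000000000000000000000000) := D_23 (nat_lit 196) (nat_lit 195) (nat_lit 197) (nat_lit 3) (nat_lit 5) (nat_lit 10) (nat_lit 3) (nat_lit 6) (nat_lit 10) (by decide +kernel)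
theorem L12784 : W_23 (nat_lit 5) (nat_lit 0xf80000001000080000000000000000000000000000000) (nat_lit 0x0) (nat_lit 0x718010001c0000000000000000000000000000000000000000) := T_23 (nat_lit 192) (nat_lit 191) (nat_lit 1) (nat_lit 8) (nat_lit 10) L12783 (by decide +kernel)
theorem L12785 : W_23 (nat_lit 2) (nat_lit 0x10000000045003f80084001800380000000000000000000000000000000) (nat_lit 0x0) (nat_lit 0x600040000000000000000000000000000000) := D_23 (nat_lit 142) (nat_lit 126) (nat_lit 141) (nat_lit 1) (nat_lit 10) (nat_lit 7) (nat_lit 2) (nat_lit 5) (nat_lit 8) (by decide +kernel)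
theorem L12786 : W_23 (nat_lit 3) (nat_lit 0x10000000045003f80084001800280000000000000000000000000000000) (nat_lit 0x0) (nat_lit 0x600540000000000000000000000000000000) := T_23 (nat_lit 128) (nat_lit 130) (nat_lit 1) (nat_lit 11) (nat_lit 7) L12785 (by decide +kernel)
theorem L12787 : W_23 (nat_lit 4) (nat_lit 0x45003f80084001800280000000000000000000000000000000) (nat_lit 0x0) (nat_lit 0x10000800000000000000000600540000000000000000000000000000000) := T_23 (nat_lit 232) (nat_lit 215) (nat_lit 4) (nat_lit 11) (nat_lit 13) L12786 (by decide +kernel)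
theorem L12788 : W_23 (nat_lit 5) (nat_lit 0x45003f80084001000280000000000000000000000000000000) (nat_lit 0x0) (nat_lit 0x10000800000000000010000e00540000000000000000000000000000000) := T_23 (nat_lit 143) (nat_lit 160) (nat_lit 6) (nat_lit 7) (nat_lit 11) L12787 (by decide +kernel)
theorem L12789 : W_23 (nat_lit 6) (nat_lit 0x45003f80084001000080000000000000000000000000000000) (nat_lit 0x0) (nat_lit 0x10000800000000000010004e00740000000000000000000000000000000) := T_23 (nat_lit 129) (nat_lit 146) (nat_lit 7) (nat_lit 10) (nat_lit 7) L12788 (by decide +kernel)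
theorem L12790 : W_23 (nat_lit 7) (nat_lit 0x41003f80084001000080000000000000000000000000000000) (nat_lit 0x0) (nat_lit 0x1000080000c000000010004e00740000000000000000000000000000000) := T_23 (nat_lit 194) (nat_lit 195) (nat_lit 1) (nat_lit 11) (nat_lit 10) L12789 (by decide +kernel)
theorem L12791 : W_23 (nat_lit 8) (nat_lit 0x41001f80084001000080000000000000000000000000000000) (nat_lit 0x0) (nat_lit 0x1000080008c002000010004e00740000000000000000000000000000000) := T_23 (nat_lit 181) (nat_lit 199) (nat_lit 3) (nat_lit 8) (nat_lit 10) L12790 (by decide +kernel)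
theorem L12792 : W_23 (nat_lit 9) (nat_lit 0x1001f80084001000080000000000000000000000000000000) (nat_lit 0x0) (nat_lit 0x100008000ec002000010004e00740000000000000000000000000000000) := T_23 (nat_lit 198) (nat_lit 197) (nat_lit 3) (nat_lit 7) (nat_lit 10) L12791 (by decide +kernel)
theorem L12793 : W_23 (nat_lit 10) (nat_lit 0x1001f80080001000080000000000000000000000000000000) (nat_lit 0x0) (nat_lit 0x100008000ec002000016004e00740000000000000000000000000000000) := T_23 (nat_lit 158) (nat_lit 157) (nat_lit 0) (nat_lit 8) (nat_lit 10) L12792 (by decide +kernel)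
theorem L12794 : W_23 (nat_lit 11) (nat_lit 0x1000f80080001000080000000000000000000000000000000) (nat_lit 0x0) (nat_lit 0x100008000ec003000116004e00740000000000000000000000000000000) := T_23 (nat_lit 180) (nat_lit 164) (nat_lit 2) (nat_lit 7) (nat_lit 10) L12793 (by decide +kernel)
theorem L12795 : W_23 (nat_lit 12) (nat_lit 0xf80080001000080000000000000000000000000000000) (nat_lit 0x0) (nat_lit 0x100008000ed803000116004e00740000000000000000000000000000000) := T_23 (nat_lit 192) (nat_lit 191) (nat_lit 1) (nat_lit 8) (nat_lit 10) L12794 (by decide +kernel)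
theorem L12796 : W_23 (nat_lit 13) (nat_lit 0xf80000001000080000000000000000000000000000000) (nat_lit 0x0) (nat_lit 0x100008000ed8030001d6004e00740000000000000000000000000000000) := T_23 (nat_lit 163) (nat_lit 162) (nat_lit 2) (nat_lit 6) (nat_lit 10) L12795 (by decide +kernel)
theorem L12797 : W_23 (nat_lit 2) (nat_lit 0xc001f80084001f00080000000000000000000000000000000) (nat_lit 0x0) (nat_lit 0x1c000000000000000000000000000000) := D_23 (nat_lit 123) (nat_lit 122) (nat_lit 124) (nat_lit 0) (nat_lit 7) (nat_lit 8) (nat_lit 0) (nat_lit 8) (nat_lit 8) (by decide +kernel)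
theorem L12798 : W_23 (nat_lit 3) (nat_lit 0xc001f80084001e00080000000000000000000000000000000) (nat_lit 0x0) (nat_lit 0x10005c000000000000000000000000000000) := T_23 (nat_lit 140) (nat_lit 126) (nat_lit 2) (nat_lit 4) (nat_lit 8) L12797 (by decide +kernel)
theorem L12799 : W_23 (nat_lit 4) (nat_lit 0xc001f80084001a00080000000000000000000000000000000) (nat_lit 0x0) (nat_lit 0x50015c000000000000000000000000000000) := T_23 (nat_lit 142) (nat_lit 128) (nat_lit 2) (nat_lit 5) (nat_lit 8) L12798 (by decide +kernel)
theorem L12800 : W_23 (nat_lit 5) (nat_lit 0xc001f80084001200080000000000000000000000000000000) (nat_lit 0x0) (nat_lit 0x10000d0015c000000000000000000000000000000) := T_23 (nat_lit 143) (nat_lit 160) (nat_lit 6) (nat_lit 7) (nat_lit 11) L12799 (by decide +kernel)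
theorem L12801 : W_23 (nat_lit 6) (nat_lit 0xc001f80080001200080000000000000000000000000000000) (nat_lit 0x0) (nat_lit 0x16000d0015c000000000000000000000000000000) := T_23 (nat_lit 158) (nat_lit 157) (nat_lit 0) (nat_lit 8) (nat_lit 10) L12800 (by decide +kernel)
theorem L12802 : W_23 (nat_lit 7) (nat_lit 0x8001f80080001200080000000000000000000000000000000) (nat_lit 0x0) (nat_lit 0x4002000016000d0015c000000000000000000000000000000) := T_23 (nat_lit 194) (nat_lit 181) (nat_lit 1) (nat_lit 11) (nat_lit 10) L12801 (by decide +kernel)
theorem L12803 : W_23 (nat_lit 8) (nat_lit 0x8000f80080001200080000000000000000000000000000000) (nat_lit 0x0) (nat_lit 0x4003000116000d0015c000000000000000000000000000000) := T_23 (nat_lit 180) (nat_lit 164) (nat_lit 2) (nat_lit 7) (nat_lit 10) L12802 (by decide +kernel)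
theorem L12804 : W_23 (nat_lit 9) (nat_lit 0xf80080001200080000000000000000000000000000000) (nat_lit 0x0) (nat_lit 0x1c003000116000d0015c000000000000000000000000000000) := T_23 (nat_lit 195) (nat_lit 196) (nat_lit 3) (nat_lit 5) (nat_lit 10) L12803 (by decide +kernel)
theorem L12805 : W_23 (nat_lit 10) (nat_lit 0xf80000001200080000000000000000000000000000000) (nat_lit 0x0) (nat_lit 0x1c0030001d6000d0015c000000000000000000000000000000) := T_23 (nat_lit 163) (nat_lit 162) (nat_lit 2) (nat_lit 6) (nat_lit 10) L12804 (by decide +kernel)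
theorem L12806 : W_23 (nat_lit 2) (nat_lit 0x1000f80044001e00080000000000000000000000000000000) (nat_lit 0x0) (nat_lit 0x100048000000000000000000000000000000) := D_23 (nat_lit 140) (nat_lit 126) (nat_lit 123) (nat_lit 2) (nat_lit 4) (nat_lit 8) (nat_lit 4) (nat_lit 5) (nat_lit 11) (by decide +kernel)
theorem L12807 : W_23 (nat_lit 3) (nat_lit 0x1000f80044001600080000000000000000000000000000000) (nat_lit 0x0) (nat_lit 0x900148000000000000000000000000000000) := T_23 (nat_lit 143) (nat_lit 128) (nat_lit 2) (nat_lit 5) (nat_lit 8) L12806 (by decide +kernel)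
theorem L12808 : W_23 (nat_lit 4) (nat_lit 0x1000f80044001200080000000000000000000000000000000) (nat_lit 0x0) (nat_lit 0xd00168000000000000000000000000000000) := T_23 (nat_lit 142) (nat_lit 125) (nat_lit 6) (nat_lit 5) (nat_lit 11) L12807 (by decide +kernel)
theorem L12809 : W_23 (nat_lit 5) (nat_lit 0x1000f80004001200080000000000000000000000000000000) (nat_lit 0x0) (nat_lit 0xc0000d00168000000000000000000000000000000) := T_23 (nat_lit 162) (nat_lit 163) (nat_lit 2) (nat_lit 6) (nat_lit 10) L12808 (by decide +kernel)
theorem L12810 : W_23 (nat_lit 6) (nat_lit 0xf80004001200080000000000000000000000000000000) (nat_lit 0x0) (nat_lit 0x18000000c0000d00168000000000000000000000000000000) := T_23 (nat_lit 192) (nat_lit 191) (nat_lit 1) (nat_lit 8) (nat_lit 10) L12809 (by decide +kernel)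
theorem L12811 : W_23 (nat_lit 7) (nat_lit 0xf80000001200080000000000000000000000000000000) (nat_lit 0x0) (nat_lit 0x18000000c6000d00168000000000000000000000000000000) := T_23 (nat_lit 158) (nat_lit 157) (nat_lit 0) (nat_lit 8) (nat_lit 10) L12810 (by decide +kernel)
theorem L12812 : W_23 (nat_lit 2) (nat_lit 0x9000f80044001e00080000000000000000000000000000000) (nat_lit 0x0) (nat_lit 0x100018000000000000000000000000000000) := D_23 (nat_lit 123) (nat_lit 124) (nat_lit 140) (nat_lit 0) (nat_lit 8) (nat_lit 8) (nat_lit 4) (nat_lit 5) (nat_lit 11) (by decide +kernel)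
theorem L12813 : W_23 (nat_lit 3) (nat_lit 0x9000f80044001600080000000000000000000000000000000) (nat_lit 0x0) (nat_lit 0x900118000000000000000000000000000000) := T_23 (nat_lit 143) (nat_lit 128) (nat_lit 2) (nat_lit 5) (nat_lit 8) L12812 (by decide +kernel)
theorem L12814 : W_23 (nat_lit 4) (nat_lit 0x9000f80044001200080000000000000000000000000000000) (nat_lit 0x0) (nat_lit 0xd00138000000000000000000000000000000) := T_23 (nat_lit 142) (nat_lit 125) (nat_lit 6) (nat_lit 5) (nat_lit 11) L12813 (by decide +kernel)
theorem L12815 : W_23 (nat_lit 5) (nat_lit 0x9000f80004001200080000000000000000000000000000000) (nat_lit 0x0) (nat_lit 0xc0000d00138000000000000000000000000000000) := T_23 (nat_lit 162) (nat_lit 163) (nat_lit 2) (nat_lit 6) (nat_lit 10) L12814 (by decide +kernel)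
theorem L12816 : W_23 (nat_lit 6) (nat_lit 0x9000f80000001200080000000000000000000000000000000) (nat_lit 0x0) (nat_lit 0xc6000d00138000000000000000000000000000000) := T_23 (nat_lit 158) (nat_lit 157) (nat_lit 0) (nat_lit 8) (nat_lit 10) L12815 (by decide +kernel)
theorem L12817 : W_23 (nat_lit 7) (nat_lit 0x1000f80000001200080000000000000000000000000000000) (nat_lit 0x0) (nat_lit 0x180000000c6000d00138000000000000000000000000000000) := T_23 (nat_lit 195) (nat_lit 196) (nat_lit 3) (nat_lit 5) (nat_lit 10) L12816 (by decide +kernel)
theorem L12818 : W_23 (nat_lit 8) (nat_lit 0xf80000001200080000000000000000000000000000000) (nat_lit 0x0) (nat_lit 0x198000000c6000d00138000000000000000000000000000000) := T_23 (nat_lit 192) (nat_lit 191) (nat_lit 1) (nat_lit 8) (nat_lit 10) L12817 (by decide +kernel)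
theorem L12819 : W_23 (nat_lit 2) (nat_lit 0x2000000009000f80044001600088000000000000000000000000000000) (nat_lit 0x0) (nat_lit 0x800010000400000000000000000000000000) := D_23 (nat_lit 124) (nat_lit 106) (nat_lit 143) (nat_lit 4) (nat_lit 5) (nat_lit 10) (nat_lit 0) (nat_lit 8) (nat_lit 8) (by decide +kernel)
theorem L12820 : W_23 (nat_lit 3) (nat_lit 0x2000000009000f80044001600080000000000000000000000000000000) (nat_lit 0x0) (nat_lit 0x900018000400000000000000000000000000) := T_23 (nat_lit 123) (nat_lit 140) (nat_lit 4) (nat_lit 5) (nat_lit 11) L12819 (by decide +kernel)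
theorem L12821 : W_23 (nat_lit 4) (nat_lit 0x2000000009000f80044001200080000000000000000000000000000000) (nat_lit 0x0) (nat_lit 0xd00038000400000000000000000000000000) := T_23 (nat_lit 142) (nat_lit 125) (nat_lit 6) (nat_lit 5) (nat_lit 11) L12820 (by decide +kernel)
theorem L12822 : W_23 (nat_lit 5) (nat_lit 0x9000f80044001200080000000000000000000000000000000) (nat_lit 0x0) (nat_lit 0x2000100000000000000000d00038000400000000000000000000000000) := T_23 (nat_lit 229) (nat_lit 212) (nat_lit 6) (nat_lit 8) (nat_lit 13) L12821 (by decide +kernel)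
theorem L12823 : W_23 (nat_lit 6) (nat_lit 0x9000f80040001200080000000000000000000000000000000) (nat_lit 0x0) (nat_lit 0x2000100000000000006000d00038000400000000000000000000000000) := T_23 (nat_lit 158) (nat_lit 157) (nat_lit 0) (nat_lit 8) (nat_lit 10) L12822 (by decide +kernel)
theorem L12824 : W_23 (nat_lit 7) (nat_lit 0x1000f80040001200080000000000000000000000000000000) (nat_lit 0x0) (nat_lit 0x2000100018000000006000d00038000400000000000000000000000000) := T_23 (nat_lit 195) (nat_lit 196) (nat_lit 3) (nat_lit 5) (nat_lit 10) L12823 (by decide +kernel)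
theorem L12825 : W_23 (nat_lit 8) (nat_lit 0xf80040001200080000000000000000000000000000000) (nat_lit 0x0) (nat_lit 0x2000100019800000006000d00038000400000000000000000000000000) := T_23 (nat_lit 192) (nat_lit 191) (nat_lit 1) (nat_lit 8) (nat_lit 10) L12824 (by decide +kernel)
theorem L12826 : W_23 (nat_lit 9) (nat_lit 0xf80000001200080000000000000000000000000000000) (nat_lit 0x0) (nat_lit 0x20001000198000000c6000d00038000400000000000000000000000000) := T_23 (nat_lit 162) (nat_lit 163) (nat_lit 2) (nat_lit 6) (nat_lit 10) L12825 (by decide +kernel)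
theorem L12827 : W_23 (nat_lit 2) (nat_lit 0x2000000009000f800440012000b0000000000000000000000000000000) (nat_lit 0x0) (nat_lit 0x100008000400000000000000000000000000) := D_23 (nat_lit 123) (nat_lit 106) (nat_lit 140) (nat_lit 4) (nat_lit 5) (nat_lit 10) (nat_lit 4) (nat_lit 5) (nat_lit 11) (by decide +kernel)
theorem L12828 : W_23 (nat_lit 3) (nat_lit 0x2000000009000f800440012000a0000000000000000000000000000000) (nat_lit 0x0) (nat_lit 0x100018001400000000000000000000000000) := T_23 (nat_lit 124) (nat_lit 108) (nat_lit 6) (nat_lit 5) (nat_lit 10) L12827 (by decide +kernel)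
theorem L12829 : W_23 (nat_lit 4) (nat_lit 0x9000f800440012000a0000000000000000000000000000000) (nat_lit 0x0) (nat_lit 0x2000100000000000000000100018001400000000000000000000000000) := T_23 (nat_lit 229) (nat_lit 212) (nat_lit 6) (nat_lit 8) (nat_lit 13) L12828 (by decide +kernel)
theorem L12830 : W_23 (nat_lit 5) (nat_lit 0x9000f80044001200080000000000000000000000000000000) (nat_lit 0x0) (nat_lit 0x2000100000000000000000500038001400000000000000000000000000) := T_23 (nat_lit 125) (nat_lit 142) (nat_lit 6) (nat_lit 5) (nat_lit 11) L12829 (by decide +kernel)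
theorem L12831 : W_23 (nat_lit 6) (nat_lit 0x1000f80044001200080000000000000000000000000000000) (nat_lit 0x0) (nat_lit 0x2000100018000000000000500038001400000000000000000000000000) := T_23 (nat_lit 195) (nat_lit 196) (nat_lit 3) (nat_lit 5) (nat_lit 10) L12830 (by decide +kernel)
theorem L12832 : W_23 (nat_lit 7) (nat_lit 0xf80044001200080000000000000000000000000000000) (nat_lit 0x0) (nat_lit 0x2000100019800000000000500038001400000000000000000000000000) := T_23 (nat_lit 192) (nat_lit 191) (nat_lit 1) (nat_lit 8) (nat_lit 10) L12831 (by decide +kernel)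
theorem L12833 : W_23 (nat_lit 8) (nat_lit 0xf80004001200080000000000000000000000000000000) (nat_lit 0x0) (nat_lit 0x20001000198000000c0000500038001400000000000000000000000000) := T_23 (nat_lit 162) (nat_lit 163) (nat_lit 2) (nat_lit 6) (nat_lit 10) L12832 (by decide +kernel)
theorem L12834 : W_23 (nat_lit 9) (nat_lit 0xf80000001200080000000000000000000000000000000) (nat_lit 0x0) (nat_lit 0x20001000198000000c6000500038001400000000000000000000000000) := T_23 (nat_lit 158) (nat_lit 157) (nat_lit 0) (nat_lit 8) (nat_lit 10) L12833 (by decide +kernel)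
theorem L12835 : W_23 (nat_lit 2) (nat_lit 0xd001f80080001f00080000000000000000000000000000000) (nat_lit 0x0) (nat_lit 0x1c000000000000000000000000000000) := D_23 (nat_lit 123) (nat_lit 124) (nat_lit 122) (nat_lit 0) (nat_lit 8) (nat_lit 8) (nat_lit 0) (nat_lit 7) (nat_lit 8) (by decide +kernel)
theorem L12836 : W_23 (nat_lit 3) (nat_lit 0xd001f80080001e00080000000000000000000000000000000) (nat_lit 0x0) (nat_lit 0x10005c000000000000000000000000000000) := T_23 (nat_lit 140) (nat_lit 126) (nat_lit 2) (nat_lit 4) (nat_lit 8) L12835 (by decide +kernel)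
theorem L12837 : W_23 (nat_lit 4) (nat_lit 0xd001f80080001a00080000000000000000000000000000000) (nat_lit 0x0) (nat_lit 0x50015c000000000000000000000000000000) := T_23 (nat_lit 142) (nat_lit 128) (nat_lit 2) (nat_lit 5) (nat_lit 8) L12836 (by decide +kernel)
theorem L12838 : W_23 (nat_lit 5) (nat_lit 0xd001f80080001200080000000000000000000000000000000) (nat_lit 0x0) (nat_lit 0x10000d0015c000000000000000000000000000000) := T_23 (nat_lit 143) (nat_lit 160) (nat_lit 6) (nat_lit 7) (nat_lit 11) L12837 (by decide +kernel)
theorem L12839 : W_23 (nat_lit 6) (nat_lit 0x9001f80080001200080000000000000000000000000000000) (nat_lit 0x0) (nat_lit 0x4002000010000d0015c000000000000000000000000000000) := T_23 (nat_lit 194) (nat_lit 181) (nat_lit 1) (nat_lit 11) (nat_lit 10) L12838 (by decide +kernel)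
theorem L12840 : W_23 (nat_lit 7) (nat_lit 0x9000f80080001200080000000000000000000000000000000) (nat_lit 0x0) (nat_lit 0x4003000110000d0015c000000000000000000000000000000) := T_23 (nat_lit 180) (nat_lit 164) (nat_lit 2) (nat_lit 7) (nat_lit 10) L12839 (by decide +kernel)
theorem L12841 : W_23 (nat_lit 8) (nat_lit 0x1000f80080001200080000000000000000000000000000000) (nat_lit 0x0) (nat_lit 0x1c003000110000d0015c000000000000000000000000000000) := T_23 (nat_lit 195) (nat_lit 196) (nat_lit 3) (nat_lit 5) (nat_lit 10) L12840 (by decide +kernel)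
theorem L12842 : W_23 (nat_lit 9) (nat_lit 0x1000f80000001200080000000000000000000000000000000) (nat_lit 0x0) (nat_lit 0x1c0030001d0000d0015c000000000000000000000000000000) := T_23 (nat_lit 163) (nat_lit 162) (nat_lit 2) (nat_lit 6) (nat_lit 10) L12841 (by decide +kernel)
theorem L12843 : W_23 (nat_lit 10) (nat_lit 0xf80000001200080000000000000000000000000000000) (nat_lit 0x0) (nat_lit 0x1d8030001d0000d0015c000000000000000000000000000000) := T_23 (nat_lit 192) (nat_lit 191) (nat_lit 1) (nat_lit 8) (nat_lit 10) L12842 (by decide +kernel)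
theorem L12844 : W_23 (nat_lit 2) (nat_lit 0x9000f80044001e00080000000000000000000000000000000) (nat_lit 0x0) (nat_lit 0x4000000010000000040000000000000000000000000000000) := D_23 (nat_lit 160) (nat_lit 194) (nat_lit 126) (nat_lit 6) (nat_lit 7) (nat_lit 11) (nat_lit 7) (nat_lit 7) (nat_lit 7) (by decide +kernel)
theorem L12845 : W_23 (nat_lit 3) (nat_lit 0x9000f80044001600080000000000000000000000000000000) (nat_lit 0x0) (nat_lit 0x4000000010000800140000000000000000000000000000000) := T_23 (nat_lit 143) (nat_lit 128) (nat_lit 2) (nat_lit 5) (nat_lit 8) L12844 (by decide +kernel)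
theorem L12846 : W_23 (nat_lit 4) (nat_lit 0x9000f80044001200080000000000000000000000000000000) (nat_lit 0x0) (nat_lit 0x4000000010000c00160000000000000000000000000000000) := T_23 (nat_lit 142) (nat_lit 125) (nat_lit 6) (nat_lit 5) (nat_lit 11) L12845 (by decide +kernel)
theorem L12847 : W_23 (nat_lit 5) (nat_lit 0x1000f80044001200080000000000000000000000000000000) (nat_lit 0x0) (nat_lit 0x1c000000010000c00160000000000000000000000000000000) := T_23 (nat_lit 195) (nat_lit 196) (nat_lit 3) (nat_lit 5) (nat_lit 10) L12846 (by decide +kernel)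
theorem L12848 : W_23 (nat_lit 6) (nat_lit 0xf80044001200080000000000000000000000000000000) (nat_lit 0x0) (nat_lit 0x1d800000010000c00160000000000000000000000000000000) := T_23 (nat_lit 192) (nat_lit 191) (nat_lit 1) (nat_lit 8) (nat_lit 10) L12847 (by decide +kernel)
theorem L12849 : W_23 (nat_lit 7) (nat_lit 0xf80040001200080000000000000000000000000000000) (nat_lit 0x0) (nat_lit 0x1d800000016000c00160000000000000000000000000000000) := T_23 (nat_lit 158) (nat_lit 157) (nat_lit 0) (nat_lit 8) (nat_lit 10) L12848 (by decide +kernel)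
theorem L12850 : W_23 (nat_lit 8) (nat_lit 0xf80000001200080000000000000000000000000000000) (nat_lit 0x0) (nat_lit 0x1d8000000d6000c00160000000000000000000000000000000) := T_23 (nat_lit 162) (nat_lit 163) (nat_lit 2) (nat_lit 6) (nat_lit 10) L12849 (by decide +kernel)
theorem L12851 : W_23 (nat_lit 2) (nat_lit 0xd001f80084001a00098000000000000000000000000000000) (nat_lit 0x0) (nat_lit 0x60001000000000000000000000000000) := D_23 (nat_lit 125) (nat_lit 126) (nat_lit 108) (nat_lit 3) (nat_lit 4) (nat_lit 7) (nat_lit 6) (nat_lit 5) (nat_lit 10) (by decide +kernel)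
theorem L12852 : W_23 (nat_lit 3) (nat_lit 0xd001f80084001a00088000000000000000000000000000000) (nat_lit 0x0) (nat_lit 0x70001400000000000000000000000000) := T_23 (nat_lit 124) (nat_lit 106) (nat_lit 4) (nat_lit 5) (nat_lit 10) L12851 (by decide +kernel)
theorem L12853 : W_23 (nat_lit 4) (nat_lit 0xd001f80084001a00080000000000000000000000000000000) (nat_lit 0x0) (nat_lit 0x100078001400000000000000000000000000) := T_23 (nat_lit 123) (nat_lit 140) (nat_lit 4) (nat_lit 5) (nat_lit 11) L12852 (by decide +kernel)
theorem L12854 : W_23 (nat_lit 5) (nat_lit 0xd001f80084001200080000000000000000000000000000000) (nat_lit 0x0) (nat_lit 0x10000900078001400000000000000000000000000) := T_23 (nat_lit 143) (nat_lit 160) (nat_lit 6) (nat_lit 7) (nat_lit 11) L12853 (by decide +kernel)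
theorem L12855 : W_23 (nat_lit 6) (nat_lit 0xc001f80084001200080000000000000000000000000000000) (nat_lit 0x0) (nat_lit 0x1800000010000900078001400000000000000000000000000) := T_23 (nat_lit 192) (nat_lit 191) (nat_lit 1) (nat_lit 8) (nat_lit 10) L12854 (by decide +kernel)
theorem L12856 : W_23 (nat_lit 7) (nat_lit 0x8001f80084001200080000000000000000000000000000000) (nat_lit 0x0) (nat_lit 0x5802000010000900078001400000000000000000000000000) := T_23 (nat_lit 194) (nat_lit 181) (nat_lit 1) (nat_lit 11) (nat_lit 10) L12855 (by decide +kernel)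
theorem L12857 : W_23 (nat_lit 8) (nat_lit 0x8000f80084001200080000000000000000000000000000000) (nat_lit 0x0) (nat_lit 0x5803000110000900078001400000000000000000000000000) := T_23 (nat_lit 180) (nat_lit 164) (nat_lit 2) (nat_lit 7) (nat_lit 10) L12856 (by decide +kernel)
theorem L12858 : W_23 (nat_lit 9) (nat_lit 0x8000f80080001200080000000000000000000000000000000) (nat_lit 0x0) (nat_lit 0x5803000116000900078001400000000000000000000000000) := T_23 (nat_lit 158) (nat_lit 157) (nat_lit 0) (nat_lit 8) (nat_lit 10) L12857 (by decide +kernel)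
theorem L12859 : W_23 (nat_lit 10) (nat_lit 0x8000f80000001200080000000000000000000000000000000) (nat_lit 0x0) (nat_lit 0x58030001d6000900078001400000000000000000000000000) := T_23 (nat_lit 163) (nat_lit 162) (nat_lit 2) (nat_lit 6) (nat_lit 10) L12858 (by decide +kernel)
theorem L12860 : W_23 (nat_lit 11) (nat_lit 0xf80000001200080000000000000000000000000000000) (nat_lit 0x0) (nat_lit 0x1d8030001d6000900078001400000000000000000000000000) := T_23 (nat_lit 195) (nat_lit 196) (nat_lit 3) (nat_lit 5) (nat_lit 10) L12859 (by decide +kernel)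
theorem L12861 : W_23 (nat_lit 2) (nat_lit 0x9000f80004001e00080000000000000000000000000000000) (nat_lit 0x0) (nat_lit 0x100048000000000000000000000000000000) := D_23 (nat_lit 140) (nat_lit 126) (nat_lit 123) (nat_lit 2) (nat_lit 4) (nat_lit 8) (nat_lit 4) (nat_lit 5) (nat_lit 11) (by decide +kernel)
theorem L12862 : W_23 (nat_lit 3) (nat_lit 0x9000f80004001600080000000000000000000000000000000) (nat_lit 0x0) (nat_lit 0x900148000000000000000000000000000000) := T_23 (nat_lit 143) (nat_lit 128) (nat_lit 2) (nat_lit 5) (nat_lit 8) L12861 (by decide +kernel)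
theorem L12863 : W_23 (nat_lit 4) (nat_lit 0x9000f80004001200080000000000000000000000000000000) (nat_lit 0x0) (nat_lit 0xd00168000000000000000000000000000000) := T_23 (nat_lit 142) (nat_lit 125) (nat_lit 6) (nat_lit 5) (nat_lit 11) L12862 (by decide +kernel)
theorem L12864 : W_23 (nat_lit 5) (nat_lit 0x1000f80004001200080000000000000000000000000000000) (nat_lit 0x0) (nat_lit 0x18000000000000d00168000000000000000000000000000000) := T_23 (nat_lit 195) (nat_lit 196) (nat_lit 3) (nat_lit 5) (nat_lit 10) L12863 (by decide +kernel)
theorem L12865 : W_23 (nat_lit 6) (nat_lit 0x1000f80000001200080000000000000000000000000000000) (nat_lit 0x0) (nat_lit 0x18000000006000d00168000000000000000000000000000000) := T_23 (nat_lit 158) (nat_lit 157) (nat_lit 0) (nat_lit 8) (nat_lit 10) L12864 (by decide +kernel)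
theorem L12866 : W_23 (nat_lit 7) (nat_lit 0xf80000001200080000000000000000000000000000000) (nat_lit 0x0) (nat_lit 0x19800000006000d00168000000000000000000000000000000) := T_23 (nat_lit 192) (nat_lit 191) (nat_lit 1) (nat_lit 8) (nat_lit 10) L12865 (by decide +kernel)
theorem L12867 : W_23 (nat_lit 12) (nat_lit 0xf80000001000080000000000000000000000000000000) (nat_lit 0x0) (nat_lit 0x200010001d8030001d6000f0017c001400000000000000000000000000) := Q_23 (nat_lit 141) (C_23 L12805 (C_23 L12811 (C_23 L12818 (C_23 L12826 (C_23 L12834 (C_23 L12843 (C_23 L12850 (C_23 L12860 (C_23 L12866 N_23))))))))) (by decide +kernel)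
theorem L12868 : W_23 (nat_lit 14) (nat_lit 0x780000001000080000000000000000000000000000000) (nat_lit 0x0) (nat_lit 0x120009000fd8038001d6004f0077c001400000000000000000000000000) := Q_23 (nat_lit 179) (C_23 L12780 (C_23 L12784 (C_23 L12796 (C_23 L12867 N_23)))) (by decide +kernel)
theorem L12869 : W_23 (nat_lit 2) (nat_lit 0x7800040012000f0000000000000000000000000000000) (nat_lit 0x0) (nat_lit 0x8000c00000000000000000000000000) := D_23 (nat_lit 106) (nat_lit 107) (nat_lit 123) (nat_lit 0) (nat_lit 8) (nat_lit 7) (nat_lit 4) (nat_lit 5) (nat_lit 10) (by decide +kernel)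
theorem L12870 : W_23 (nat_lit 3) (nat_lit 0x7800040012000b0000000000000000000000000000000) (nat_lit 0x0) (nat_lit 0x100048000c00000000000000000000000000) := T_23 (nat_lit 126) (nat_lit 140) (nat_lit 1) (nat_lit 8) (nat_lit 7) L12869 (by decide +kernel)
theorem L12871 : W_23 (nat_lit 4) (nat_lit 0x780004001200090000000000000000000000000000000) (nat_lit 0x0) (nat_lit 0x100068001c00000000000000000000000000) := T_23 (nat_lit 125) (nat_lit 108) (nat_lit 6) (nat_lit 5) (nat_lit 10) L12870 (by decide +kernel)
theorem L12872 : W_23 (nat_lit 5) (nat_lit 0x780004001200080000000000000000000000000000000) (nat_lit 0x0) (nat_lit 0x2000000000000100078001c00000000000000000000000000) := T_23 (nat_lit 124) (nat_lit 193) (nat_lit 7) (nat_lit 5) (nat_lit 7) L12871 (by decide +kernel)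
theorem L12873 : W_23 (nat_lit 2) (nat_lit 0x9000780004001700080000000000000000000000000000000) (nat_lit 0x0) (nat_lit 0x800140000000000000000000000000000000) := D_23 (nat_lit 143) (nat_lit 128) (nat_lit 126) (nat_lit 2) (nat_lit 5) (nat_lit 8) (nat_lit 2) (nat_lit 4) (nat_lit 8) (by decide +kernel)
theorem L12874 : W_23 (nat_lit 3) (nat_lit 0x9000780004001300080000000000000000000000000000000) (nat_lit 0x0) (nat_lit 0xc00160000000000000000000000000000000) := T_23 (nat_lit 142) (nat_lit 125) (nat_lit 6) (nat_lit 5) (nat_lit 11) L12873 (by decide +kernel)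
theorem L12875 : W_23 (nat_lit 4) (nat_lit 0x9000780004001200080000000000000000000000000000000) (nat_lit 0x0) (nat_lit 0xd00168000000000000000000000000000000) := T_23 (nat_lit 140) (nat_lit 123) (nat_lit 4) (nat_lit 5) (nat_lit 11) L12874 (by decide +kernel)
theorem L12876 : W_23 (nat_lit 5) (nat_lit 0x8000780004001200080000000000000000000000000000000) (nat_lit 0x0) (nat_lit 0x1800000000000d00168000000000000000000000000000000) := T_23 (nat_lit 192) (nat_lit 191) (nat_lit 1) (nat_lit 8) (nat_lit 10) L12875 (by decide +kernel)
theorem L12877 : W_23 (nat_lit 6) (nat_lit 0x780004001200080000000000000000000000000000000) (nat_lit 0x0) (nat_lit 0x19800000000000d00168000000000000000000000000000000) := T_23 (nat_lit 195) (nat_lit 196) (nat_lit 3) (nat_lit 5) (nat_lit 10) L12876 (by decide +kernel)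
theorem L12880 : W_23 (nat_lit 7) (nat_lit 0x780004001000080000000000000000000000000000000) (nat_lit 0x0) (nat_lit 0x4001b800000000000f00178001c00000000000000000000000000) := Q_23 (nat_lit 141) (C_23 L12872 (C_23 L12877 (C_23 L12879 N_23))) (by decide +kernel)
theorem L12881 : W_23 (nat_lit 8) (nat_lit 0x780000001000080000000000000000000000000000000) (nat_lit 0x0) (nat_lit 0x4001b800000006000f00178001c00000000000000000000000000) := T_23 (nat_lit 158) (nat_lit 157) (nat_lit 0) (nat_lit 8) (nat_lit 10) L12880 (by decide +kernel)
theorem L12882 : W_23 (nat_lit 10) (nat_lit 0x1000f80084001000080000000000000000000000000000000) (nat_lit 0x0) (nat_lit 0x100008000ec003000110004e00740000000000000000000000000000000) := T_23 (nat_lit 180) (nat_lit 164) (nat_lit 2) (nat_lit 7) (nat_lit 10) L12792 (by decide +kernel)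
theorem L12883 : W_23 (nat_lit 11) (nat_lit 0x1000f80004001000080000000000000000000000000000000) (nat_lit 0x0) (nat_lit 0x100008000ec0030001d0004e00740000000000000000000000000000000) := T_23 (nat_lit 163) (nat_lit 162) (nat_lit 2) (nat_lit 6) (nat_lit 10) L12882 (by decide +kernel)
theorem L12884 : W_23 (nat_lit 12) (nat_lit 0x1000780004001000080000000000000000000000000000000) (nat_lit 0x0) (nat_lit 0x100008000ee0038001d0004e00740000000000000000000000000000000) := T_23 (nat_lit 179) (nat_lit 193) (nat_lit 1) (nat_lit 9) (nat_lit 10) L12883 (by decide +kernel)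
theorem L12885 : W_23 (nat_lit 13) (nat_lit 0x1000780000001000080000000000000000000000000000000) (nat_lit 0x0) (nat_lit 0x100008000ee0038001d6004e00740000000000000000000000000000000) := T_23 (nat_lit 158) (nat_lit 157) (nat_lit 0) (nat_lit 8) (nat_lit 10) L12884 (by decide +kernel)
theorem L12886 : W_23 (nat_lit 14) (nat_lit 0x780000001000080000000000000000000000000000000) (nat_lit 0x0) (nat_lit 0x100008000ef8038001d6004e00740000000000000000000000000000000) := T_23 (nat_lit 192) (nat_lit 191) (nat_lit 1) (nat_lit 8) (nat_lit 10) L12885 (by decide +kernel)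
theorem L12887 : W_23 (nat_lit 2) (nat_lit 0x9003f80080001000080000000000000000000000000000000) (nat_lit 0x0) (nat_lit 0xe0000000000000000000000000000000000000000000000000) := D_23 (nat_lit 198) (nat_lit 197) (nat_lit 199) (nat_lit 3) (nat_lit 7) (nat_lit 10) (nat_lit 3) (nat_lit 8) (nat_lit 10) (by decide +kernel)
theorem L12888 : W_23 (nat_lit 3) (nat_lit 0x9001f80080001000080000000000000000000000000000000) (nat_lit 0x0) (nat_lit 0xe4002000000000000000000000000000000000000000000000) := T_23 (nat_lit 181) (nat_lit 194) (nat_lit 1) (nat_lit 11) (nat_lit 10) L12887 (by decide +kernel)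
theorem L12889 : W_23 (nat_lit 4) (nat_lit 0x9000f80080001000080000000000000000000000000000000) (nat_lit 0x0) (nat_lit 0xe4003000100000000000000000000000000000000000000000) := T_23 (nat_lit 180) (nat_lit 164) (nat_lit 2) (nat_lit 7) (nat_lit 10) L12888 (by decide +kernel)
theorem L12890 : W_23 (nat_lit 5) (nat_lit 0x9000f80000001000080000000000000000000000000000000) (nat_lit 0x0) (nat_lit 0xe40030001c0000000000000000000000000000000000000000) := T_23 (nat_lit 163) (nat_lit 162) (nat_lit 2) (nat_lit 6) (nat_lit 10) L12889 (by decide +kernel)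
theorem L12891 : W_23 (nat_lit 6) (nat_lit 0x9000780000001000080000000000000000000000000000000) (nat_lit 0x0) (nat_lit 0xe60038001c0000000000000000000000000000000000000000) := T_23 (nat_lit 179) (nat_lit 193) (nat_lit 1) (nat_lit 9) (nat_lit 10) L12890 (by decide +kernel)
theorem L12892 : W_23 (nat_lit 7) (nat_lit 0x1000780000001000080000000000000000000000000000000) (nat_lit 0x0) (nat_lit 0xfe0038001c0000000000000000000000000000000000000000) := T_23 (nat_lit 195) (nat_lit 196) (nat_lit 3) (nat_lit 5) (nat_lit 10) L12891 (by decide +kernel)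
theorem L12893 : W_23 (nat_lit 8) (nat_lit 0x780000001000080000000000000000000000000000000) (nat_lit 0x0) (nat_lit 0xff8038001c0000000000000000000000000000000000000000) := T_23 (nat_lit 192) (nat_lit 191) (nat_lit 1) (nat_lit 8) (nat_lit 10) L12892 (by decide +kernel)
theorem L12894 : W_23 (nat_lit 15) (nat_lit 0x380000001000080000000000000000000000000000000) (nat_lit 0x0) (nat_lit 0x16000b400ff803c001d6004f0077c001c00000000000000000000000000) := Q_23 (nat_lit 178) (C_23 L12762 (C_23 L12773 (C_23 L12779 (C_23 L12868 (C_23 L12881 (C_23 L12886 (C_23 L12893 N_23))))))) (by decide +kernel)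
theorem L12895 : W_23 (nat_lit 4) (nat_lit 0x4000380000001000080000000000000000000000000000000) (nat_lit 0x0) (nat_lit 0xa000060003800000000000000000000000000000000000000) := T_23 (nat_lit 174) (nat_lit 195) (nat_lit 3) (nat_lit 4) (nat_lit 10) L12737 (by decide +kernel)
theorem L12896 : W_23 (nat_lit 6) (nat_lit 0x40003c0002001800080000000000000000000000000000000) (nat_lit 0x0) (nat_lit 0x400004000600078001c00000000000000000000000000) := T_23 (nat_lit 158) (nat_lit 178) (nat_lit 0) (nat_lit 8) (nat_lit 10) L12746 (by decide +kernel)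
theorem L12897 : W_23 (nat_lit 7) (nat_lit 0x40003c0000001800080000000000000000000000000000000) (nat_lit 0x0) (nat_lit 0x400007000600078001c00000000000000000000000000) := T_23 (nat_lit 157) (nat_lit 156) (nat_lit 0) (nat_lit 7) (nat_lit 10) L12896 (by decide +kernel)
theorem L12898 : W_23 (nat_lit 8) (nat_lit 0x40003c0000001000080000000000000000000000000000000) (nat_lit 0x0) (nat_lit 0x400017000e00078001c00000000000000000000000000) := T_23 (nat_lit 143) (nat_lit 160) (nat_lit 6) (nat_lit 7) (nat_lit 11) L12897 (by decide +kernel)
theorem L12899 : W_23 (nat_lit 2) (nat_lit 0x42003e0000801000080000000000000000000000000000000) (nat_lit 0x0) (nat_lit 0x100010000400000000000000000000000000000000000000) := D_23 (nat_lit 172) (nat_lit 188) (nat_lit 154) (nat_lit 1) (nat_lit 5) (nat_lit 10) (nat_lit 0) (nat_lit 5) (nat_lit 10) (by decide +kernel)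
theorem L12900 : W_23 (nat_lit 3) (nat_lit 0x42003e0000001000080000000000000000000000000000000) (nat_lit 0x0) (nat_lit 0x100010001c00000000000000000000000000000000000000) := T_23 (nat_lit 155) (nat_lit 156) (nat_lit 0) (nat_lit 6) (nat_lit 10) L12899 (by decide +kernel)
theorem L12901 : W_23 (nat_lit 4) (nat_lit 0x40003e0000001000080000000000000000000000000000000) (nat_lit 0x0) (nat_lit 0x700010001c00000000000000000000000000000000000000) := T_23 (nat_lit 189) (nat_lit 190) (nat_lit 1) (nat_lit 6) (nat_lit 10) L12900 (by decide +kernel)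
theorem L12902 : W_23 (nat_lit 5) (nat_lit 0x40003c0000001000080000000000000000000000000000000) (nat_lit 0x0) (nat_lit 0x2700030001c00000000000000000000000000000000000000) := T_23 (nat_lit 173) (nat_lit 193) (nat_lit 3) (nat_lit 3) (nat_lit 10) L12901 (by decide +kernel)
theorem L12906 : W_23 (nat_lit 5) (nat_lit 0x40003c0014001000080000000000000000000000000000000) (nat_lit 0x0) (nat_lit 0x2700438002000000000000000000000000000000000000000) := T_23 (nat_lit 157) (nat_lit 178) (nat_lit 0) (nat_lit 8) (nat_lit 10) L12905 (by decide +kernel)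
theorem L12907 : W_23 (nat_lit 6) (nat_lit 0x40003c0004001000080000000000000000000000000000000) (nat_lit 0x0) (nat_lit 0x2700438012000800000000000000000000000000000000000) := T_23 (nat_lit 160) (nat_lit 143) (nat_lit 6) (nat_lit 7) (nat_lit 11) L12906 (by decide +kernel)
theorem L12908 : W_23 (nat_lit 2) (nat_lit 0x42003f0014401000080000000000000000000000000000000) (nat_lit 0x0) (nat_lit 0x8002200000000000000000000000000000000000000) := D_23 (nat_lit 171) (nat_lit 157) (nat_lit 153) (nat_lit 2) (nat_lit 1) (nat_lit 10) (nat_lit 0) (nat_lit 4) (nat_lit 10) (by decide +kernel)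
theorem L12909 : W_23 (nat_lit 3) (nat_lit 0x42003f0014001000080000000000000000000000000000000) (nat_lit 0x0) (nat_lit 0x8002e00000000000000000000000000000000000000) := T_23 (nat_lit 154) (nat_lit 155) (nat_lit 0) (nat_lit 5) (nat_lit 10) L12908 (by decide +kernel)
theorem L12910 : W_23 (nat_lit 4) (nat_lit 0x42003e0014001000080000000000000000000000000000000) (nat_lit 0x0) (nat_lit 0x100018002e00000000000000000000000000000000000000) := T_23 (nat_lit 172) (nat_lit 188) (nat_lit 1) (nat_lit 5) (nat_lit 10) L12909 (by decide +kernel)
theorem L12911 : W_23 (nat_lit 5) (nat_lit 0x42003e0004001000080000000000000000000000000000000) (nat_lit 0x0) (nat_lit 0x100018012e00800000000000000000000000000000000000) := T_23 (nat_lit 160) (nat_lit 143) (nat_lit 6) (nat_lit 7) (nat_lit 11) L12910 (by decide +kernel)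
theorem L12912 : W_23 (nat_lit 6) (nat_lit 0x40003e0004001000080000000000000000000000000000000) (nat_lit 0x0) (nat_lit 0x700018012e00800000000000000000000000000000000000) := T_23 (nat_lit 189) (nat_lit 190) (nat_lit 1) (nat_lit 6) (nat_lit 10) L12911 (by decide +kernel)
theorem L12913 : W_23 (nat_lit 7) (nat_lit 0x40003c0004001000080000000000000000000000000000000) (nat_lit 0x0) (nat_lit 0x2700038012e00800000000000000000000000000000000000) := T_23 (nat_lit 173) (nat_lit 193) (nat_lit 3) (nat_lit 3) (nat_lit 10) L12912 (by decide +kernel)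
theorem L12914 : W_23 (nat_lit 6) (nat_lit 0x40003c0004001800080000000000000000000000000000000) (nat_lit 0x0) (nat_lit 0x400002000600078001c00000000000000000000000000) := T_23 (nat_lit 157) (nat_lit 178) (nat_lit 0) (nat_lit 8) (nat_lit 10) L12746 (by decide +kernel)
theorem L12915 : W_23 (nat_lit 7) (nat_lit 0x40003c0004001000080000000000000000000000000000000) (nat_lit 0x0) (nat_lit 0x400012000e00078001c00000000000000000000000000) := T_23 (nat_lit 143) (nat_lit 160) (nat_lit 6) (nat_lit 7) (nat_lit 11) L12914 (by decide +kernel)
theorem L12916 : W_23 (nat_lit 2) (nat_lit 0x60007c0004001000080000000000000000000000000000000) (nat_lit 0x0) (nat_lit 0x1001800000000000000000000000000000000000000000000) := D_23 (nat_lit 179) (nat_lit 180) (nat_lit 192) (nat_lit 1) (nat_lit 10) (nat_lit 10) (nat_lit 1) (nat_lit 9) (nat_lit 10) (by decide +kernel)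
theorem L12917 : W_23 (nat_lit 3) (nat_lit 0x40007c0004001000080000000000000000000000000000000) (nat_lit 0x0) (nat_lit 0x3001820000000000000000000000000000000000000000000) := T_23 (nat_lit 193) (nat_lit 173) (nat_lit 3) (nat_lit 3) (nat_lit 10) L12916 (by decide +kernel)
theorem L12918 : W_23 (nat_lit 4) (nat_lit 0x40003c0004001000080000000000000000000000000000000) (nat_lit 0x0) (nat_lit 0x3001c20002000000000000000000000000000000000000000) := T_23 (nat_lit 178) (nat_lit 157) (nat_lit 0) (nat_lit 8) (nat_lit 10) L12917 (by decide +kernel)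
theorem L12921 : W_23 (nat_lit 4) (nat_lit 0x60003c0004001000080000000000000000000000000000000) (nat_lit 0x0) (nat_lit 0x800040001000000010000a00010000000000000000000000000000000) := T_23 (nat_lit 160) (nat_lit 143) (nat_lit 6) (nat_lit 7) (nat_lit 11) L12920 (by decide +kernel)
theorem L12922 : W_23 (nat_lit 5) (nat_lit 0x40003c0004001000080000000000000000000000000000000) (nat_lit 0x0) (nat_lit 0x800040003000020010000a00010000000000000000000000000000000) := T_23 (nat_lit 193) (nat_lit 173) (nat_lit 3) (nat_lit 3) (nat_lit 10) L12921 (by decide +kernel)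
theorem L12923 : W_23 (nat_lit 8) (nat_lit 0x40003c0000001000080000000000000000000000000000000) (nat_lit 0x0) (nat_lit 0x800040003701c38016e00e00078001c00000000000000000000000000) := Q_23 (nat_lit 158) (C_23 L12907 (C_23 L12913 (C_23 L12915 (C_23 L12918 (C_23 L12922 N_23))))) (by decide +kernel)
theorem L12924 : W_23 (nat_lit 9) (nat_lit 0x4000380000001000080000000000000000000000000000000) (nat_lit 0x0) (nat_lit 0x800040003701c78017e00e00078001c00000000000000000000000000) := Q_23 (nat_lit 174) (C_23 L12737 (C_23 L12898 (C_23 L12902 (C_23 L12923 N_23)))) (by decide +kernel)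
theorem L12926 : W_23 (nat_lit 3) (nat_lit 0x4000380010001000080000000000000000000000000000000) (nat_lit 0x0) (nat_lit 0x38000440000000000000000000000000000000000000000000) := T_23 (nat_lit 195) (nat_lit 174) (nat_lit 3) (nat_lit 4) (nat_lit 10) L12925 (by decide +kernel)
theorem L12927 : W_23 (nat_lit 4) (nat_lit 0x4000380000001000080000000000000000000000000000000) (nat_lit 0x0) (nat_lit 0x38000440010000800000000000000000000000000000000000) := T_23 (nat_lit 160) (nat_lit 143) (nat_lit 6) (nat_lit 7) (nat_lit 11) L12926 (by decide +kernel)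
theorem L12928 : W_23 (nat_lit 2) (nat_lit 0x14000f80010001000080000000000000000000000000000000) (nat_lit 0x0) (nat_lit 0x3001000000000000000000000000000000000000000000000) := D_23 (nat_lit 193) (nat_lit 192) (nat_lit 180) (nat_lit 1) (nat_lit 9) (nat_lit 10) (nat_lit 1) (nat_lit 10) (nat_lit 10) (by decide +kernel)
theorem L12929 : W_23 (nat_lit 3) (nat_lit 0x14000780010001000080000000000000000000000000000000) (nat_lit 0x0) (nat_lit 0x23001800000000000000000000000000000000000000000000) := T_23 (nat_lit 179) (nat_lit 197) (nat_lit 3) (nat_lit 6) (nat_lit 10) L12928 (by decide +kernel)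
theorem L12930 : W_23 (nat_lit 4) (nat_lit 0x4000780010001000080000000000000000000000000000000) (nat_lit 0x0) (nat_lit 0x3b001800000000000000000000000000000000000000000000) := T_23 (nat_lit 196) (nat_lit 195) (nat_lit 3) (nat_lit 5) (nat_lit 10) L12929 (by decide +kernel)
theorem L12931 : W_23 (nat_lit 5) (nat_lit 0x4000780000001000080000000000000000000000000000000) (nat_lit 0x0) (nat_lit 0x3b001800010000800000000000000000000000000000000000) := T_23 (nat_lit 160) (nat_lit 143) (nat_lit 6) (nat_lit 7) (nat_lit 11) L12930 (by decide +kernel)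
theorem L12932 : W_23 (nat_lit 2) (nat_lit 0x40007800140012000f0000000000000000000000000000000) (nat_lit 0x0) (nat_lit 0x8000c00000000000000000000000000) := D_23 (nat_lit 106) (nat_lit 107) (nat_lit 123) (nat_lit 0) (nat_lit 8) (nat_lit 7) (nat_lit 4) (nat_lit 5) (nat_lit 10) (by decide +kernel)
theorem L12933 : W_23 (nat_lit 3) (nat_lit 0x40007800140012000b0000000000000000000000000000000) (nat_lit 0x0) (nat_lit 0x100048000c00000000000000000000000000) := T_23 (nat_lit 126) (nat_lit 140) (nat_lit 1) (nat_lit 8) (nat_lit 7) L12932 (by decide +kernel)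
theorem L12934 : W_23 (nat_lit 4) (nat_lit 0x4000780014001200090000000000000000000000000000000) (nat_lit 0x0) (nat_lit 0x100068001c00000000000000000000000000) := T_23 (nat_lit 125) (nat_lit 108) (nat_lit 6) (nat_lit 5) (nat_lit 10) L12933 (by decide +kernel)
theorem L12935 : W_23 (nat_lit 5) (nat_lit 0x4000780014001200080000000000000000000000000000000) (nat_lit 0x0) (nat_lit 0x2000000000000100078001c00000000000000000000000000) := T_23 (nat_lit 124) (nat_lit 193) (nat_lit 7) (nat_lit 5) (nat_lit 7) L12934 (by decide +kernel)
theorem L12936 : W_23 (nat_lit 6) (nat_lit 0x4000780004001200080000000000000000000000000000000) (nat_lit 0x0) (nat_lit 0x2000000010000900078001c00000000000000000000000000) := T_23 (nat_lit 160) (nat_lit 143) (nat_lit 6) (nat_lit 7) (nat_lit 11) L12935 (by decide +kernel)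
theorem L12937 : W_23 (nat_lit 7) (nat_lit 0x4000780000001200080000000000000000000000000000000) (nat_lit 0x0) (nat_lit 0x2000000016000900078001c00000000000000000000000000) := T_23 (nat_lit 158) (nat_lit 157) (nat_lit 0) (nat_lit 8) (nat_lit 10) L12936 (by decide +kernel)
theorem L12938 : W_23 (nat_lit 2) (nat_lit 0x4000780004001f00080000000000000000000000000000000) (nat_lit 0x0) (nat_lit 0x1c000000000000000000000000000000) := D_23 (nat_lit 123) (nat_lit 122) (nat_lit 124) (nat_lit 0) (nat_lit 7) (nat_lit 8) (nat_lit 0) (nat_lit 8) (nat_lit 8) (by decide +kernel)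
theorem L12939 : W_23 (nat_lit 3) (nat_lit 0x4000780004001e00080000000000000000000000000000000) (nat_lit 0x0) (nat_lit 0x10005c000000000000000000000000000000) := T_23 (nat_lit 140) (nat_lit 126) (nat_lit 2) (nat_lit 4) (nat_lit 8) L12938 (by decide +kernel)
theorem L12940 : W_23 (nat_lit 4) (nat_lit 0x4000780004001a00080000000000000000000000000000000) (nat_lit 0x0) (nat_lit 0x50015c000000000000000000000000000000) := T_23 (nat_lit 142) (nat_lit 128) (nat_lit 2) (nat_lit 5) (nat_lit 8) L12939 (by decide +kernel)
theorem L12941 : W_23 (nat_lit 5) (nat_lit 0x4000780004001200080000000000000000000000000000000) (nat_lit 0x0) (nat_lit 0x10000d0015c000000000000000000000000000000) := T_23 (nat_lit 143) (nat_lit 160) (nat_lit 6) (nat_lit 7) (nat_lit 11) L12940 (by decide +kernel)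
theorem L12942 : W_23 (nat_lit 6) (nat_lit 0x4000780000001200080000000000000000000000000000000) (nat_lit 0x0) (nat_lit 0x16000d0015c000000000000000000000000000000) := T_23 (nat_lit 158) (nat_lit 157) (nat_lit 0) (nat_lit 8) (nat_lit 10) L12941 (by decide +kernel)
theorem L12943 : W_23 (nat_lit 2) (nat_lit 0x40007800140012000b8000000000000000000000000000000) (nat_lit 0x0) (nat_lit 0x1000000000000500000000000000000000000000000000000) := D_23 (nat_lit 192) (nat_lit 142) (nat_lit 140) (nat_lit 6) (nat_lit 5) (nat_lit 11) (nat_lit 4) (nat_lit 5) (nat_lit 11) (by decide +kernel)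
theorem L12944 : W_23 (nat_lit 3) (nat_lit 0x40007800140012000b0000000000000000000000000000000) (nat_lit 0x0) (nat_lit 0x1000000000000500008000400000000000000000000000000) := T_23 (nat_lit 123) (nat_lit 106) (nat_lit 4) (nat_lit 5) (nat_lit 10) L12943 (by decide +kernel)
theorem L12945 : W_23 (nat_lit 4) (nat_lit 0x4000780014001200090000000000000000000000000000000) (nat_lit 0x0) (nat_lit 0x1000000000000500028001400000000000000000000000000) := T_23 (nat_lit 125) (nat_lit 108) (nat_lit 6) (nat_lit 5) (nat_lit 10) L12944 (by decide +kernel)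
theorem L12946 : W_23 (nat_lit 5) (nat_lit 0x4000780014001200080000000000000000000000000000000) (nat_lit 0x0) (nat_lit 0x3000000000000500038001400000000000000000000000000) := T_23 (nat_lit 124) (nat_lit 193) (nat_lit 7) (nat_lit 5) (nat_lit 7) L12945 (by decide +kernel)
theorem L12947 : W_23 (nat_lit 6) (nat_lit 0x4000780010001200080000000000000000000000000000000) (nat_lit 0x0) (nat_lit 0x3000000006000500038001400000000000000000000000000) := T_23 (nat_lit 158) (nat_lit 157) (nat_lit 0) (nat_lit 8) (nat_lit 10) L12946 (by decide +kernel)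
theorem L12948 : W_23 (nat_lit 7) (nat_lit 0x4000780000001200080000000000000000000000000000000) (nat_lit 0x0) (nat_lit 0x3000000016000d00038001400000000000000000000000000) := T_23 (nat_lit 160) (nat_lit 143) (nat_lit 6) (nat_lit 7) (nat_lit 11) L12947 (by decide +kernel)
theorem L12949 : W_23 (nat_lit 2) (nat_lit 0x40007800040012000f0000000000000000000000000000000) (nat_lit 0x0) (nat_lit 0x8000c00000000000000000000000000) := D_23 (nat_lit 106) (nat_lit 107) (nat_lit 123) (nat_lit 0) (nat_lit 8) (nat_lit 7) (nat_lit 4) (nat_lit 5) (nat_lit 10) (by decide +kernel)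
theorem L12950 : W_23 (nat_lit 3) (nat_lit 0x40007800040012000b0000000000000000000000000000000) (nat_lit 0x0) (nat_lit 0x100048000c00000000000000000000000000) := T_23 (nat_lit 126) (nat_lit 140) (nat_lit 1) (nat_lit 8) (nat_lit 7) L12949 (by decide +kernel)
theorem L12951 : W_23 (nat_lit 4) (nat_lit 0x4000780004001200090000000000000000000000000000000) (nat_lit 0x0) (nat_lit 0x100068001c00000000000000000000000000) := T_23 (nat_lit 125) (nat_lit 108) (nat_lit 6) (nat_lit 5) (nat_lit 10) L12950 (by decide +kernel)
theorem L12952 : W_23 (nat_lit 5) (nat_lit 0x4000780004001200080000000000000000000000000000000) (nat_lit 0x0) (nat_lit 0x2000000000000100078001c00000000000000000000000000) := T_23 (nat_lit 124) (nat_lit 193) (nat_lit 7) (nat_lit 5) (nat_lit 7) L12951 (by decide +kernel)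
theorem L12953 : W_23 (nat_lit 6) (nat_lit 0x4000780000001200080000000000000000000000000000000) (nat_lit 0x0) (nat_lit 0x2000000006000100078001c00000000000000000000000000) := T_23 (nat_lit 158) (nat_lit 157) (nat_lit 0) (nat_lit 8) (nat_lit 10) L12952 (by decide +kernel)
theorem L12954 : W_23 (nat_lit 4) (nat_lit 0x4000780000001a00080000000000000000000000000000000) (nat_lit 0x0) (nat_lit 0x50015c000000000000000000000000000000) := T_23 (nat_lit 142) (nat_lit 128) (nat_lit 2) (nat_lit 5) (nat_lit 8) L8652 (by decide +kernel)
theorem L12955 : W_23 (nat_lit 5) (nat_lit 0x4000780000001200080000000000000000000000000000000) (nat_lit 0x0) (nat_lit 0x10000d0015c000000000000000000000000000000) := T_23 (nat_lit 143) (nat_lit 160) (nat_lit 6) (nat_lit 7) (nat_lit 11) L12954 (by decide +kernel)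
theorem L12956 : W_23 (nat_lit 2) (nat_lit 0x4000780004001f00080000000000000000000000000000000) (nat_lit 0x0) (nat_lit 0x100000000000000000c000000000000000000000000000000) := D_23 (nat_lit 123) (nat_lit 122) (nat_lit 192) (nat_lit 0) (nat_lit 7) (nat_lit 8) (nat_lit 4) (nat_lit 5) (nat_lit 11) (by decide +kernel)
theorem L12957 : W_23 (nat_lit 3) (nat_lit 0x4000780004001e00080000000000000000000000000000000) (nat_lit 0x0) (nat_lit 0x100000000000010004c000000000000000000000000000000) := T_23 (nat_lit 140) (nat_lit 126) (nat_lit 2) (nat_lit 4) (nat_lit 8) L12956 (by decide +kernel)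
theorem L12958 : W_23 (nat_lit 4) (nat_lit 0x4000780004001a00080000000000000000000000000000000) (nat_lit 0x0) (nat_lit 0x100000000000050014c000000000000000000000000000000) := T_23 (nat_lit 142) (nat_lit 128) (nat_lit 2) (nat_lit 5) (nat_lit 8) L12957 (by decide +kernel)
theorem L12959 : W_23 (nat_lit 5) (nat_lit 0x4000780000001a00080000000000000000000000000000000) (nat_lit 0x0) (nat_lit 0x100000000600050014c000000000000000000000000000000) := T_23 (nat_lit 158) (nat_lit 157) (nat_lit 0) (nat_lit 8) (nat_lit 10) L12958 (by decide +kernel)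
theorem L12960 : W_23 (nat_lit 6) (nat_lit 0x4000780000001200080000000000000000000000000000000) (nat_lit 0x0) (nat_lit 0x1000000016000d0014c000000000000000000000000000000) := T_23 (nat_lit 143) (nat_lit 160) (nat_lit 6) (nat_lit 7) (nat_lit 11) L12959 (by decide +kernel)
theorem L12961 : W_23 (nat_lit 2) (nat_lit 0x40007800140012000b0000400000000000000000000000000) (nat_lit 0x0) (nat_lit 0x40000800020000000000000000000000) := D_23 (nat_lit 107) (nat_lit 89) (nat_lit 126) (nat_lit 4) (nat_lit 5) (nat_lit 9) (nat_lit 0) (nat_lit 8) (nat_lit 7) (by decide +kernel)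
theorem L12962 : W_23 (nat_lit 3) (nat_lit 0x40007800140012000b0000000000000000000000000000000) (nat_lit 0x0) (nat_lit 0x48000c00020000000000000000000000) := T_23 (nat_lit 106) (nat_lit 123) (nat_lit 4) (nat_lit 5) (nat_lit 10) L12961 (by decide +kernel)
theorem L12963 : W_23 (nat_lit 4) (nat_lit 0x4000780014001200090000000000000000000000000000000) (nat_lit 0x0) (nat_lit 0x68001c00020000000000000000000000) := T_23 (nat_lit 125) (nat_lit 108) (nat_lit 6) (nat_lit 5) (nat_lit 10) L12962 (by decide +kernel)
theorem L12964 : W_23 (nat_lit 5) (nat_lit 0x4000780014001200080000000000000000000000000000000) (nat_lit 0x0) (nat_lit 0x2000000000000000078001c00020000000000000000000000) := T_23 (nat_lit 124) (nat_lit 193) (nat_lit 7) (nat_lit 5) (nat_lit 7) L12963 (by decide +kernel)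
theorem L12965 : W_23 (nat_lit 6) (nat_lit 0x4000780004001200080000000000000000000000000000000) (nat_lit 0x0) (nat_lit 0x2000000010000800078001c00020000000000000000000000) := T_23 (nat_lit 160) (nat_lit 143) (nat_lit 6) (nat_lit 7) (nat_lit 11) L12964 (by decide +kernel)
theorem L12966 : W_23 (nat_lit 7) (nat_lit 0x4000780000001200080000000000000000000000000000000) (nat_lit 0x0) (nat_lit 0x2000000016000800078001c00020000000000000000000000) := T_23 (nat_lit 158) (nat_lit 157) (nat_lit 0) (nat_lit 8) (nat_lit 10) L12965 (by decide +kernel)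
theorem L12967 : W_23 (nat_lit 2) (nat_lit 0x40007800140012000f0000000000000000000000000000000) (nat_lit 0x0) (nat_lit 0x1000000000000400100000000000000000000000000000000) := D_23 (nat_lit 142) (nat_lit 192) (nat_lit 128) (nat_lit 6) (nat_lit 5) (nat_lit 11) (nat_lit 1) (nat_lit 9) (nat_lit 7) (by decide +kernel)
theorem L12968 : W_23 (nat_lit 3) (nat_lit 0x40007800140012000b0000000000000000000000000000000) (nat_lit 0x0) (nat_lit 0x1000000000000500140000000000000000000000000000000) := T_23 (nat_lit 126) (nat_lit 140) (nat_lit 1) (nat_lit 8) (nat_lit 7) L12967 (by decide +kernel)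
theorem L12969 : W_23 (nat_lit 4) (nat_lit 0x4000780014001200090000000000000000000000000000000) (nat_lit 0x0) (nat_lit 0x1000000000000500160001000000000000000000000000000) := T_23 (nat_lit 125) (nat_lit 108) (nat_lit 6) (nat_lit 5) (nat_lit 10) L12968 (by decide +kernel)
theorem L12970 : W_23 (nat_lit 5) (nat_lit 0x4000780014001200080000000000000000000000000000000) (nat_lit 0x0) (nat_lit 0x3000000000000500170001000000000000000000000000000) := T_23 (nat_lit 124) (nat_lit 193) (nat_lit 7) (nat_lit 5) (nat_lit 7) L12969 (by decide +kernel)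
theorem L12971 : W_23 (nat_lit 6) (nat_lit 0x4000780004001200080000000000000000000000000000000) (nat_lit 0x0) (nat_lit 0x3000000010000d00170001000000000000000000000000000) := T_23 (nat_lit 160) (nat_lit 143) (nat_lit 6) (nat_lit 7) (nat_lit 11) L12970 (by decide +kernel)
theorem L12972 : W_23 (nat_lit 7) (nat_lit 0x4000780000001200080000000000000000000000000000000) (nat_lit 0x0) (nat_lit 0x3000000016000d00170001000000000000000000000000000) := T_23 (nat_lit 158) (nat_lit 157) (nat_lit 0) (nat_lit 8) (nat_lit 10) L12971 (by decide +kernel)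
theorem L12973 : W_23 (nat_lit 8) (nat_lit 0x4000780000001000080000000000000000000000000000000) (nat_lit 0x0) (nat_lit 0x3000000016000f0017c001c00020000000000000000000000) := Q_23 (nat_lit 141) (C_23 L12937 (C_23 L12942 (C_23 L12948 (C_23 L12953 (C_23 L12955 (C_23 L12960 (C_23 L12966 (C_23 L12972 N_23)))))))) (by decide +kernel)
theorem L12974 : W_23 (nat_lit 2) (nat_lit 0x14001f80084001800380000000000000000000000000000000) (nat_lit 0x0) (nat_lit 0x600040000000000000000000000000000000) := D_23 (nat_lit 142) (nat_lit 126) (nat_lit 141) (nat_lit 1) (nat_lit 10) (nat_lit 7) (nat_lit 2) (nat_lit 5) (nat_lit 8) (by decide +kernel)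
theorem L12975 : W_23 (nat_lit 3) (nat_lit 0x14001f80084001800280000000000000000000000000000000) (nat_lit 0x0) (nat_lit 0x600540000000000000000000000000000000) := T_23 (nat_lit 128) (nat_lit 130) (nat_lit 1) (nat_lit 11) (nat_lit 7) L12974 (by decide +kernel)
theorem L12976 : W_23 (nat_lit 4) (nat_lit 0x14001f80084001800080000000000000000000000000000000) (nat_lit 0x0) (nat_lit 0x4600740000000000000000000000000000000) := T_23 (nat_lit 129) (nat_lit 146) (nat_lit 5) (nat_lit 10) (nat_lit 7) L12975 (by decide +kernel)
theorem L12977 : W_23 (nat_lit 5) (nat_lit 0x14000f80084001800080000000000000000000000000000000) (nat_lit 0x0) (nat_lit 0x1000100004600740000000000000000000000000000000) := T_23 (nat_lit 180) (nat_lit 164) (nat_lit 2) (nat_lit 7) (nat_lit 10) L12976 (by decide +kernel)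
theorem L12978 : W_23 (nat_lit 6) (nat_lit 0x14000f80004001800080000000000000000000000000000000) (nat_lit 0x0) (nat_lit 0x10001c0004600740000000000000000000000000000000) := T_23 (nat_lit 163) (nat_lit 162) (nat_lit 2) (nat_lit 6) (nat_lit 10) L12977 (by decide +kernel)
theorem L12979 : W_23 (nat_lit 7) (nat_lit 0x14000780004001800080000000000000000000000000000000) (nat_lit 0x0) (nat_lit 0x200018001c0004600740000000000000000000000000000000) := T_23 (nat_lit 179) (nat_lit 197) (nat_lit 3) (nat_lit 6) (nat_lit 10) L12978 (by decide +kernel)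
theorem L12980 : W_23 (nat_lit 8) (nat_lit 0x14000780004001000080000000000000000000000000000000) (nat_lit 0x0) (nat_lit 0x200018001d0004e00740000000000000000000000000000000) := T_23 (nat_lit 143) (nat_lit 160) (nat_lit 6) (nat_lit 7) (nat_lit 11) L12979 (by decide +kernel)
theorem L12981 : W_23 (nat_lit 9) (nat_lit 0x4000780004001000080000000000000000000000000000000) (nat_lit 0x0) (nat_lit 0x380018001d0004e00740000000000000000000000000000000) := T_23 (nat_lit 196) (nat_lit 195) (nat_lit 3) (nat_lit 5) (nat_lit 10) L12980 (by decide +kernel)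
theorem L12982 : W_23 (nat_lit 10) (nat_lit 0x4000780000001000080000000000000000000000000000000) (nat_lit 0x0) (nat_lit 0x380018001d6004e00740000000000000000000000000000000) := T_23 (nat_lit 158) (nat_lit 157) (nat_lit 0) (nat_lit 8) (nat_lit 10) L12981 (by decide +kernel)
theorem L12983 : W_23 (nat_lit 2) (nat_lit 0x14000f80004001000080000000000000000000000000000000) (nat_lit 0x0) (nat_lit 0x3001000000000000000000000000000000000000000000000) := D_23 (nat_lit 193) (nat_lit 192) (nat_lit 180) (nat_lit 1) (nat_lit 9) (nat_lit 10) (nat_lit 1) (nat_lit 10) (nat_lit 10) (by decide +kernel)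
theorem L12984 : W_23 (nat_lit 3) (nat_lit 0x14000780004001000080000000000000000000000000000000) (nat_lit 0x0) (nat_lit 0x23001800000000000000000000000000000000000000000000) := T_23 (nat_lit 179) (nat_lit 197) (nat_lit 3) (nat_lit 6) (nat_lit 10) L12983 (by decide +kernel)
theorem L12985 : W_23 (nat_lit 4) (nat_lit 0x14000780000001000080000000000000000000000000000000) (nat_lit 0x0) (nat_lit 0x23001800006000000000000000000000000000000000000000) := T_23 (nat_lit 158) (nat_lit 157) (nat_lit 0) (nat_lit 8) (nat_lit 10) L12984 (by decide +kernel)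
theorem L12986 : W_23 (nat_lit 5) (nat_lit 0x4000780000001000080000000000000000000000000000000) (nat_lit 0x0) (nat_lit 0x3b001800006000000000000000000000000000000000000000) := T_23 (nat_lit 196) (nat_lit 195) (nat_lit 3) (nat_lit 5) (nat_lit 10) L12985 (by decide +kernel)
theorem L12987 : W_23 (nat_lit 11) (nat_lit 0x4000380000001000080000000000000000000000000000000) (nat_lit 0x0) (nat_lit 0x3b001c001d6004f0077c001c00020000000000000000000000) := Q_23 (nat_lit 178) (C_23 L12931 (C_23 L12973 (C_23 L12982 (C_23 L12986 N_23)))) (by decide +kernel)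
theorem L12988 : W_23 (nat_lit 12) (nat_lit 0x380000001000080000000000000000000000000000000) (nat_lit 0x0) (nat_lit 0x80004003f701c781d7e04f0077c001c00020000000000000000000000) := Q_23 (nat_lit 194) (C_23 L12895 (C_23 L12924 (C_23 L12927 (C_23 L12987 N_23)))) (by decide +kernel)
theorem L12989 : W_23 (nat_lit 6) (nat_lit 0x4000380000001000080000000000000000000000000000000) (nat_lit 0x0) (nat_lit 0xa700070001c00000000000000000000000000000000000000) := T_23 (nat_lit 174) (nat_lit 195) (nat_lit 3) (nat_lit 4) (nat_lit 10) L12902 (by decide +kernel)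
theorem L12990 : W_23 (nat_lit 2) (nat_lit 0x48003c0000001e00080000000000000000000000000000000) (nat_lit 0x0) (nat_lit 0x4000000018000000000000000000000000000000) := D_23 (nat_lit 124) (nat_lit 158) (nat_lit 123) (nat_lit 5) (nat_lit 5) (nat_lit 7) (nat_lit 0) (nat_lit 8) (nat_lit 8) (by decide +kernel)
theorem L12991 : W_23 (nat_lit 3) (nat_lit 0x48003c0000001a00080000000000000000000000000000000) (nat_lit 0x0) (nat_lit 0x4000400118000000000000000000000000000000) := T_23 (nat_lit 142) (nat_lit 128) (nat_lit 2) (nat_lit 5) (nat_lit 8) L12990 (by decide +kernel)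
theorem L12992 : W_23 (nat_lit 4) (nat_lit 0x40003c0000001a00080000000000000000000000000000000) (nat_lit 0x0) (nat_lit 0xc00000004000400118000000000000000000000000000000) := T_23 (nat_lit 191) (nat_lit 190) (nat_lit 1) (nat_lit 7) (nat_lit 10) L12991 (by decide +kernel)
theorem L12993 : W_23 (nat_lit 5) (nat_lit 0x40003c0000001200080000000000000000000000000000000) (nat_lit 0x0) (nat_lit 0xc00000014000c00118000000000000000000000000000000) := T_23 (nat_lit 143) (nat_lit 160) (nat_lit 6) (nat_lit 7) (nat_lit 11) L12992 (by decide +kernel)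
theorem L12994 : W_23 (nat_lit 2) (nat_lit 0x48003c0014001200080000000000000000000000000000000) (nat_lit 0x0) (nat_lit 0x10001000400000000000000000000000000000000000000000000) := D_23 (nat_lit 192) (nat_lit 178) (nat_lit 208) (nat_lit 1) (nat_lit 8) (nat_lit 10) (nat_lit 5) (nat_lit 5) (nat_lit 8) (by decide +kernel)
theorem L12995 : W_23 (nat_lit 3) (nat_lit 0x48003c0010001200080000000000000000000000000000000) (nat_lit 0x0) (nat_lit 0x10001000400004000000010000000000000000000000000000000) := T_23 (nat_lit 158) (nat_lit 124) (nat_lit 5) (nat_lit 5) (nat_lit 7) L12994 (by decide +kernel)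
theorem L12996 : W_23 (nat_lit 4) (nat_lit 0x48003c0000001200080000000000000000000000000000000) (nat_lit 0x0) (nat_lit 0x10001000400014000800010000000000000000000000000000000) := T_23 (nat_lit 160) (nat_lit 143) (nat_lit 6) (nat_lit 7) (nat_lit 11) L12995 (by decide +kernel)
theorem L12997 : W_23 (nat_lit 5) (nat_lit 0x40003c0000001200080000000000000000000000000000000) (nat_lit 0x0) (nat_lit 0x10001c00400014000800010000000000000000000000000000000) := T_23 (nat_lit 191) (nat_lit 190) (nat_lit 1) (nat_lit 7) (nat_lit 10) L12996 (by decide +kernel)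
theorem L12998 : W_23 (nat_lit 2) (nat_lit 0x58003c0000001200080000000000000000000000000000000) (nat_lit 0x0) (nat_lit 0x10000000000004000000010000000000000000000000000000000) := D_23 (nat_lit 158) (nat_lit 124) (nat_lit 208) (nat_lit 5) (nat_lit 5) (nat_lit 7) (nat_lit 5) (nat_lit 5) (nat_lit 8) (by decide +kernel)
theorem L12999 : W_23 (nat_lit 3) (nat_lit 0x48003c0000001200080000000000000000000000000000000) (nat_lit 0x0) (nat_lit 0x10001000400004000000010000000000000000000000000000000) := T_23 (nat_lit 192) (nat_lit 178) (nat_lit 1) (nat_lit 8) (nat_lit 10) L12998 (by decide +kernel)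
theorem L13000 : W_23 (nat_lit 4) (nat_lit 0x40003c0000001200080000000000000000000000000000000) (nat_lit 0x0) (nat_lit 0x10001c00400004000000010000000000000000000000000000000) := T_23 (nat_lit 191) (nat_lit 190) (nat_lit 1) (nat_lit 7) (nat_lit 10) L12999 (by decide +kernel)
theorem L13001 : W_23 (nat_lit 2) (nat_lit 0x48007c0000001f00080000000000000000000000000000000) (nat_lit 0x0) (nat_lit 0x1c000000000000000000000000000000) := D_23 (nat_lit 123) (nat_lit 122) (nat_lit 124) (nat_lit 0) (nat_lit 7) (nat_lit 8) (nat_lit 0) (nat_lit 8) (nat_lit 8) (by decide +kernel)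
theorem L13002 : W_23 (nat_lit 3) (nat_lit 0x48007c0000001e00080000000000000000000000000000000) (nat_lit 0x0) (nat_lit 0x10005c000000000000000000000000000000) := T_23 (nat_lit 140) (nat_lit 126) (nat_lit 2) (nat_lit 4) (nat_lit 8) L13001 (by decide +kernel)
theorem L13003 : W_23 (nat_lit 4) (nat_lit 0x48007c0000001a00080000000000000000000000000000000) (nat_lit 0x0) (nat_lit 0x50015c000000000000000000000000000000) := T_23 (nat_lit 142) (nat_lit 128) (nat_lit 2) (nat_lit 5) (nat_lit 8) L13002 (by decide +kernel)
theorem L13004 : W_23 (nat_lit 5) (nat_lit 0x48003c0000001a00080000000000000000000000000000000) (nat_lit 0x0) (nat_lit 0x100040000000050015c000000000000000000000000000000) := T_23 (nat_lit 178) (nat_lit 192) (nat_lit 1) (nat_lit 8) (nat_lit 10) L13003 (by decide +kernel)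
theorem L13005 : W_23 (nat_lit 6) (nat_lit 0x48003c0000001200080000000000000000000000000000000) (nat_lit 0x0) (nat_lit 0x1000400010000d0015c000000000000000000000000000000) := T_23 (nat_lit 143) (nat_lit 160) (nat_lit 6) (nat_lit 7) (nat_lit 11) L13004 (by decide +kernel)
theorem L13006 : W_23 (nat_lit 7) (nat_lit 0x40003c0000001200080000000000000000000000000000000) (nat_lit 0x0) (nat_lit 0x1c00400010000d0015c000000000000000000000000000000) := T_23 (nat_lit 191) (nat_lit 190) (nat_lit 1) (nat_lit 7) (nat_lit 10) L13005 (by decide +kernel)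
theorem L13007 : W_23 (nat_lit 2) (nat_lit 0x48007c0000001f80084000000000000000000000000000000) (nat_lit 0x0) (nat_lit 0x20001800000000000000000000000000000000000000) := D_23 (nat_lit 156) (nat_lit 155) (nat_lit 173) (nat_lit 1) (nat_lit 6) (nat_lit 8) (nat_lit 7) (nat_lit 3) (nat_lit 7) (by decide +kernel)
theorem L13008 : W_23 (nat_lit 3) (nat_lit 0x48007c0000001f00084000000000000000000000000000000) (nat_lit 0x0) (nat_lit 0x20001800080002000000000000000000000000000000) := T_23 (nat_lit 139) (nat_lit 121) (nat_lit 0) (nat_lit 6) (nat_lit 8) L13007 (by decide +kernel)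
theorem L13009 : W_23 (nat_lit 4) (nat_lit 0x48007c0000001f00080000000000000000000000000000000) (nat_lit 0x0) (nat_lit 0x2000180008000e000000000000000000000000000000) := T_23 (nat_lit 122) (nat_lit 123) (nat_lit 0) (nat_lit 7) (nat_lit 8) L13008 (by decide +kernel)
theorem L13010 : W_23 (nat_lit 5) (nat_lit 0x48007c0000001e00080000000000000000000000000000000) (nat_lit 0x0) (nat_lit 0x2000180018004e000000000000000000000000000000) := T_23 (nat_lit 140) (nat_lit 126) (nat_lit 2) (nat_lit 4) (nat_lit 8) L13009 (by decide +kernel)
theorem L13011 : W_23 (nat_lit 6) (nat_lit 0x48007c0000001a00080000000000000000000000000000000) (nat_lit 0x0) (nat_lit 0x2000180058014e000000000000000000000000000000) := T_23 (nat_lit 142) (nat_lit 128) (nat_lit 2) (nat_lit 5) (nat_lit 8) L13010 (by decide +kernel)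
theorem L13012 : W_23 (nat_lit 7) (nat_lit 0x48003c0000001a00080000000000000000000000000000000) (nat_lit 0x0) (nat_lit 0x100042000180058014e000000000000000000000000000000) := T_23 (nat_lit 178) (nat_lit 192) (nat_lit 1) (nat_lit 8) (nat_lit 10) L13011 (by decide +kernel)
theorem L13013 : W_23 (nat_lit 8) (nat_lit 0x48003c0000001200080000000000000000000000000000000) (nat_lit 0x0) (nat_lit 0x1000420011800d8014e000000000000000000000000000000) := T_23 (nat_lit 143) (nat_lit 160) (nat_lit 6) (nat_lit 7) (nat_lit 11) L13012 (by decide +kernel)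
theorem L13014 : W_23 (nat_lit 9) (nat_lit 0x40003c0000001200080000000000000000000000000000000) (nat_lit 0x0) (nat_lit 0x1c00420011800d8014e000000000000000000000000000000) := T_23 (nat_lit 191) (nat_lit 190) (nat_lit 1) (nat_lit 7) (nat_lit 10) L13013 (by decide +kernel)
theorem L13015 : W_23 (nat_lit 2) (nat_lit 0x40003c0000001f00080000000000000000000000000000000) (nat_lit 0x0) (nat_lit 0x1c000000000000000000000000000000) := D_23 (nat_lit 123) (nat_lit 122) (nat_lit 124) (nat_lit 0) (nat_lit 7) (nat_lit 8) (nat_lit 0) (nat_lit 8) (nat_lit 8) (by decide +kernel)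
theorem L13016 : W_23 (nat_lit 3) (nat_lit 0x40003c0000001e00080000000000000000000000000000000) (nat_lit 0x0) (nat_lit 0x10005c000000000000000000000000000000) := T_23 (nat_lit 140) (nat_lit 126) (nat_lit 2) (nat_lit 4) (nat_lit 8) L13015 (by decide +kernel)
theorem L13017 : W_23 (nat_lit 4) (nat_lit 0x40003c0000001a00080000000000000000000000000000000) (nat_lit 0x0) (nat_lit 0x50015c000000000000000000000000000000) := T_23 (nat_lit 142) (nat_lit 128) (nat_lit 2) (nat_lit 5) (nat_lit 8) L13016 (by decide +kernel)
theorem L13018 : W_23 (nat_lit 5) (nat_lit 0x40003c0000001200080000000000000000000000000000000) (nat_lit 0x0) (nat_lit 0x10000d0015c000000000000000000000000000000) := T_23 (nat_lit 143) (nat_lit 160) (nat_lit 6) (nat_lit 7) (nat_lit 11) L13017 (by decide +kernel)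
theorem L13019 : W_23 (nat_lit 10) (nat_lit 0x40003c0000001000080000000000000000000000000000000) (nat_lit 0x0) (nat_lit 0x10001c00420015800f8015e000000000000000000000000000000) := Q_23 (nat_lit 141) (C_23 L12993 (C_23 L12997 (C_23 L13000 (C_23 L13006 (C_23 L13014 (C_23 L13018 N_23)))))) (by decide +kernel)
theorem L13020 : W_23 (nat_lit 2) (nat_lit 0x3400b2000d00048003c0010001000080000000000000000000000000000000) (nat_lit 0x0) (nat_lit 0x40002000100000000000000000000000000000000000000000000000000000000) := D_23 (nat_lit 241) (nat_lit 258) (nat_lit 224) (nat_lit 5) (nat_lit 4) (nat_lit 11) (nat_lit 5) (nat_lit 4) (nat_lit 10) (by decide +kernel)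
theorem L13021 : W_23 (nat_lit 3) (nat_lit 0x3400b0000d00048003c0010001000080000000000000000000000000000000) (nat_lit 0x0) (nat_lit 0x40002000300000000000000004000000000000000000000000000000000000000) := T_23 (nat_lit 225) (nat_lit 158) (nat_lit 6) (nat_lit 4) (nat_lit 13) L13020 (by decide +kernel)
theorem L13022 : W_23 (nat_lit 4) (nat_lit 0x340030000d00048003c0010001000080000000000000000000000000000000) (nat_lit 0x0) (nat_lit 0x4000200c300000000000000004000000000000000000000000000000000000000) := T_23 (nat_lit 231) (nat_lit 230) (nat_lit 1) (nat_lit 10) (nat_lit 13) L13021 (by decide +kernel)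
theorem L13023 : W_23 (nat_lit 5) (nat_lit 0x300030000d00048003c0010001000080000000000000000000000000000000) (nat_lit 0x0) (nat_lit 0x4000e00c300000000000000004000000000000000000000000000000000000000) := T_23 (nat_lit 242) (nat_lit 243) (nat_lit 2) (nat_lit 4) (nat_lit 14) L13022 (by decide +kernel)
theorem L13024 : W_23 (nat_lit 6) (nat_lit 0x200030000d00048003c0010001000080000000000000000000000000000000) (nat_lit 0x0) (nat_lit 0x24001e00c300000000000000004000000000000000000000000000000000000000) := T_23 (nat_lit 244) (nat_lit 261) (nat_lit 5) (nat_lit 7) (nat_lit 11) L13023 (by decide +kernel)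
theorem L13025 : W_23 (nat_lit 7) (nat_lit 0x200030000c00048003c0010001000080000000000000000000000000000000) (nat_lit 0x0) (nat_lit 0x24001e00c300030000000000004000000000000000000000000000000000000000) := T_23 (nat_lit 208) (nat_lit 209) (nat_lit 3) (nat_lit 4) (nat_lit 12) L13024 (by decide +kernel)
theorem L13026 : W_23 (nat_lit 8) (nat_lit 0x30000c00048003c0010001000080000000000000000000000000000000) (nat_lit 0x0) (nat_lit 0x24003e00c300030002000000004000000000000000000000000000000000000000) := T_23 (nat_lit 245) (nat_lit 193) (nat_lit 4) (nat_lit 7) (nat_lit 14) L13025 (by decide +kernel)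
theorem L13027 : W_23 (nat_lit 9) (nat_lit 0x20000c00048003c0010001000080000000000000000000000000000000) (nat_lit 0x0) (nat_lit 0x24007e00d300030002000000004000000000000000000000000000000000000000) := T_23 (nat_lit 228) (nat_lit 246) (nat_lit 7) (nat_lit 7) (nat_lit 10) L13026 (by decide +kernel)
theorem L13028 : W_23 (nat_lit 10) (nat_lit 0x20000c00040003c0010001000080000000000000000000000000000000) (nat_lit 0x0) (nat_lit 0x24007e00d300030002c00000004000000000000000000000000000000000000000) := T_23 (nat_lit 191) (nat_lit 190) (nat_lit 1) (nat_lit 7) (nat_lit 10) L13027 (by decide +kernel)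
theorem L13029 : W_23 (nat_lit 11) (nat_lit 0xc00040003c0010001000080000000000000000000000000000000) (nat_lit 0x0) (nat_lit 0x24007e00f300130002c00000004000000000000000000000000000000000000000) := T_23 (nat_lit 229) (nat_lit 212) (nat_lit 7) (nat_lit 7) (nat_lit 9) L13028 (by decide +kernel)
theorem L13030 : W_23 (nat_lit 12) (nat_lit 0x800040003c0010001000080000000000000000000000000000000) (nat_lit 0x0) (nat_lit 0x24007e00fb00170002c00000004000000000000000000000000000000000000000) := T_23 (nat_lit 210) (nat_lit 227) (nat_lit 5) (nat_lit 7) (nat_lit 9) L13029 (by decide +kernel)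
theorem L13031 : W_23 (nat_lit 13) (nat_lit 0x800040003c0000001000080000000000000000000000000000000) (nat_lit 0x0) (nat_lit 0x24007e00fb00170002c00000014000800000000000000000000000000000000000) := T_23 (nat_lit 160) (nat_lit 143) (nat_lit 6) (nat_lit 7) (nat_lit 11) L13030 (by decide +kernel)
theorem L13032 : W_23 (nat_lit 2) (nat_lit 0xc00058003c0010001000080000000000000000000000000000000) (nat_lit 0x0) (nat_lit 0x120002000000000000000000000000000000000000000000000000) := D_23 (nat_lit 212) (nat_lit 209) (nat_lit 193) (nat_lit 0) (nat_lit 8) (nat_lit 12) (nat_lit 3) (nat_lit 4) (nat_lit 11) (by decide +kernel)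
theorem L13033 : W_23 (nat_lit 3) (nat_lit 0xc00048003c0010001000080000000000000000000000000000000) (nat_lit 0x0) (nat_lit 0x120003000400000000000000000000000000000000000000000000) := T_23 (nat_lit 192) (nat_lit 178) (nat_lit 1) (nat_lit 8) (nat_lit 10) L13032 (by decide +kernel)
theorem L13034 : W_23 (nat_lit 4) (nat_lit 0xc00040003c0010001000080000000000000000000000000000000) (nat_lit 0x0) (nat_lit 0x120003c00400000000000000000000000000000000000000000000) := T_23 (nat_lit 191) (nat_lit 190) (nat_lit 1) (nat_lit 7) (nat_lit 10) L13033 (by decide +kernel)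
theorem L13035 : W_23 (nat_lit 5) (nat_lit 0x800040003c0010001000080000000000000000000000000000000) (nat_lit 0x0) (nat_lit 0x800160003c00400000000000000000000000000000000000000000000) := T_23 (nat_lit 210) (nat_lit 227) (nat_lit 5) (nat_lit 7) (nat_lit 9) L13034 (by decide +kernel)
theorem L13036 : W_23 (nat_lit 6) (nat_lit 0x800040003c0000001000080000000000000000000000000000000) (nat_lit 0x0) (nat_lit 0x800160003c00400010000800000000000000000000000000000000000) := T_23 (nat_lit 160) (nat_lit 143) (nat_lit 6) (nat_lit 7) (nat_lit 11) L13035 (by decide +kernel)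
theorem L13037 : W_23 (nat_lit 2) (nat_lit 0x1c00048003c0010001000080000000000000000000000000000000) (nat_lit 0x0) (nat_lit 0x20001000400000000000000000000000000000000000000000000) := D_23 (nat_lit 192) (nat_lit 209) (nat_lit 178) (nat_lit 0) (nat_lit 8) (nat_lit 12) (nat_lit 1) (nat_lit 8) (nat_lit 10) (by decide +kernel)
theorem L13038 : W_23 (nat_lit 3) (nat_lit 0xc00048003c0010001000080000000000000000000000000000000) (nat_lit 0x0) (nat_lit 0x2000120001000400000000000000000000000000000000000000000000) := T_23 (nat_lit 212) (nat_lit 229) (nat_lit 7) (nat_lit 7) (nat_lit 9) L13037 (by decide +kernel)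
theorem L13039 : W_23 (nat_lit 4) (nat_lit 0x800048003c0010001000080000000000000000000000000000000) (nat_lit 0x0) (nat_lit 0x2800160001000400000000000000000000000000000000000000000000) := T_23 (nat_lit 210) (nat_lit 227) (nat_lit 5) (nat_lit 7) (nat_lit 9) L13038 (by decide +kernel)
theorem L13040 : W_23 (nat_lit 5) (nat_lit 0x800048003c0000001000080000000000000000000000000000000) (nat_lit 0x0) (nat_lit 0x2800160001000400010000800000000000000000000000000000000000) := T_23 (nat_lit 160) (nat_lit 143) (nat_lit 6) (nat_lit 7) (nat_lit 11) L13039 (by decide +kernel)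
theorem L13041 : W_23 (nat_lit 6) (nat_lit 0x800040003c0000001000080000000000000000000000000000000) (nat_lit 0x0) (nat_lit 0x2800160001c00400010000800000000000000000000000000000000000) := T_23 (nat_lit 191) (nat_lit 190) (nat_lit 1) (nat_lit 7) (nat_lit 10) L13040 (by decide +kernel)
theorem L13042 : W_23 (nat_lit 2) (nat_lit 0x900078003c0000001000080000000000000000000000000000000) (nat_lit 0x0) (nat_lit 0x200000000000000004000200000000000000000000000000000000000) := D_23 (nat_lit 158) (nat_lit 141) (nat_lit 225) (nat_lit 5) (nat_lit 5) (nat_lit 8) (nat_lit 6) (nat_lit 4) (nat_lit 13) (by decide +kernel)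
theorem L13043 : W_23 (nat_lit 3) (nat_lit 0x800078003c0000001000080000000000000000000000000000000) (nat_lit 0x0) (nat_lit 0x200018000000000004000200000000000000000000000000000000000) := T_23 (nat_lit 208) (nat_lit 207) (nat_lit 1) (nat_lit 7) (nat_lit 11) L13042 (by decide +kernel)
theorem L13044 : W_23 (nat_lit 4) (nat_lit 0x800058003c0000001000080000000000000000000000000000000) (nat_lit 0x0) (nat_lit 0x200118002000000004000200000000000000000000000000000000000) := T_23 (nat_lit 193) (nat_lit 212) (nat_lit 3) (nat_lit 4) (nat_lit 11) L13043 (by decide +kernel)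
theorem L13045 : W_23 (nat_lit 5) (nat_lit 0x800048003c0000001000080000000000000000000000000000000) (nat_lit 0x0) (nat_lit 0x200118003000400004000200000000000000000000000000000000000) := T_23 (nat_lit 192) (nat_lit 178) (nat_lit 1) (nat_lit 8) (nat_lit 10) L13044 (by decide +kernel)
theorem L13046 : W_23 (nat_lit 6) (nat_lit 0x800040003c0000001000080000000000000000000000000000000) (nat_lit 0x0) (nat_lit 0x200118003c00400004000200000000000000000000000000000000000) := T_23 (nat_lit 191) (nat_lit 190) (nat_lit 1) (nat_lit 7) (nat_lit 10) L13045 (by decide +kernel)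
theorem L13047 : W_23 (nat_lit 2) (nat_lit 0x200018000800048007c0010001000080000000000000000000000000000000) (nat_lit 0x0) (nat_lit 0x800040002000000000000000000000000000000000000000000000000000000000) := D_23 (nat_lit 246) (nat_lit 229) (nat_lit 263) (nat_lit 7) (nat_lit 7) (nat_lit 10) (nat_lit 7) (nat_lit 7) (nat_lit 11) (by decide +kernel)
theorem L13048 : W_23 (nat_lit 3) (nat_lit 0x18000800048007c0010001000080000000000000000000000000000000) (nat_lit 0x0) (nat_lit 0x800060002000000002000000000000000000000000000000000000000000000000) := T_23 (nat_lit 245) (nat_lit 193) (nat_lit 4) (nat_lit 7) (nat_lit 14) L13047 (by decide +kernel)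
theorem L13049 : W_23 (nat_lit 4) (nat_lit 0x8000800048007c0010001000080000000000000000000000000000000) (nat_lit 0x0) (nat_lit 0x800070003000000002000000000000000000000000000000000000000000000000) := T_23 (nat_lit 228) (nat_lit 244) (nat_lit 5) (nat_lit 7) (nat_lit 10) L13048 (by decide +kernel)
theorem L13050 : W_23 (nat_lit 5) (nat_lit 0x8000800048003c0010001000080000000000000000000000000000000) (nat_lit 0x0) (nat_lit 0x800070003000000003000400000000000000000000000000000000000000000000) := T_23 (nat_lit 178) (nat_lit 192) (nat_lit 1) (nat_lit 8) (nat_lit 10) L13049 (by decide +kernel)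
theorem L13051 : W_23 (nat_lit 6) (nat_lit 0x800048003c0010001000080000000000000000000000000000000) (nat_lit 0x0) (nat_lit 0x800070003800040003000400000000000000000000000000000000000000000000) := T_23 (nat_lit 227) (nat_lit 210) (nat_lit 5) (nat_lit 7) (nat_lit 9) L13050 (by decide +kernel)
theorem L13052 : W_23 (nat_lit 7) (nat_lit 0x800048003c0000001000080000000000000000000000000000000) (nat_lit 0x0) (nat_lit 0x800070003800040003000400010000800000000000000000000000000000000000) := T_23 (nat_lit 160) (nat_lit 143) (nat_lit 6) (nat_lit 7) (nat_lit 11) L13051 (by decide +kernel)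
theorem L13053 : W_23 (nat_lit 8) (nat_lit 0x800040003c0000001000080000000000000000000000000000000) (nat_lit 0x0) (nat_lit 0x800070003800040003c00400010000800000000000000000000000000000000000) := T_23 (nat_lit 191) (nat_lit 190) (nat_lit 1) (nat_lit 7) (nat_lit 10) L13052 (by decide +kernel)
theorem L13054 : W_23 (nat_lit 2) (nat_lit 0x28000800040003c0010001000080000000000000000000000000000000) (nat_lit 0x0) (nat_lit 0x50001000000000000000000000000000000000000000000000000000000000) := D_23 (nat_lit 228) (nat_lit 244) (nat_lit 246) (nat_lit 5) (nat_lit 7) (nat_lit 10) (nat_lit 7) (nat_lit 7) (nat_lit 10) (by decide +kernel)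
theorem L13055 : W_23 (nat_lit 3) (nat_lit 0x8000800040003c0010001000080000000000000000000000000000000) (nat_lit 0x0) (nat_lit 0x50003000100000000000000000000000000000000000000000000000000000) := T_23 (nat_lit 229) (nat_lit 212) (nat_lit 7) (nat_lit 7) (nat_lit 9) L13054 (by decide +kernel)
theorem L13056 : W_23 (nat_lit 4) (nat_lit 0x800040003c0010001000080000000000000000000000000000000) (nat_lit 0x0) (nat_lit 0x50003800140000000000000000000000000000000000000000000000000000) := T_23 (nat_lit 227) (nat_lit 210) (nat_lit 5) (nat_lit 7) (nat_lit 9) L13055 (by decide +kernel)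
theorem L13057 : W_23 (nat_lit 5) (nat_lit 0x800040003c0000001000080000000000000000000000000000000) (nat_lit 0x0) (nat_lit 0x50003800140000000000010000800000000000000000000000000000000000) := T_23 (nat_lit 160) (nat_lit 143) (nat_lit 6) (nat_lit 7) (nat_lit 11) L13056 (by decide +kernel)
theorem L13058 : W_23 (nat_lit 14) (nat_lit 0x40003c0000001000080000000000000000000000000000000) (nat_lit 0x0) (nat_lit 0xa4007e00fb001f8003c00400014000a00000000000000000000000000000000000) := Q_23 (nat_lit 211) (C_23 L13031 (C_23 L13036 (C_23 L13041 (C_23 L13046 (C_23 L13053 (C_23 L13057 N_23)))))) (by decide +kernel)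
theorem L13059 : W_23 (nat_lit 2) (nat_lit 0x8000800060003c0010001000080000000000000000000000000000000) (nat_lit 0x0) (nat_lit 0x30001000000000000000000000000000000000000000000000000000000000) := D_23 (nat_lit 228) (nat_lit 244) (nat_lit 245) (nat_lit 5) (nat_lit 7) (nat_lit 10) (nat_lit 4) (nat_lit 7) (nat_lit 14) (by decide +kernel)
theorem L13060 : W_23 (nat_lit 3) (nat_lit 0x8000800040003c0010001000080000000000000000000000000000000) (nat_lit 0x0) (nat_lit 0x30001000000002000020000000000000000000000000000000000000000000) := T_23 (nat_lit 193) (nat_lit 173) (nat_lit 3) (nat_lit 3) (nat_lit 10) L13059 (by decide +kernel)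
theorem L13061 : W_23 (nat_lit 4) (nat_lit 0x800040003c0010001000080000000000000000000000000000000) (nat_lit 0x0) (nat_lit 0x30001800040002000020000000000000000000000000000000000000000000) := T_23 (nat_lit 227) (nat_lit 210) (nat_lit 5) (nat_lit 7) (nat_lit 9) L13060 (by decide +kernel)
theorem L13062 : W_23 (nat_lit 5) (nat_lit 0x800040003c0000001000080000000000000000000000000000000) (nat_lit 0x0) (nat_lit 0x30001800040002000020010000800000000000000000000000000000000000) := T_23 (nat_lit 160) (nat_lit 143) (nat_lit 6) (nat_lit 7) (nat_lit 11) L13061 (by decide +kernel)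
theorem L13063 : W_23 (nat_lit 2) (nat_lit 0x1c00060003c0010001000080000000000000000000000000000000) (nat_lit 0x0) (nat_lit 0x200001800000000000000000000000000000000000000000000000) := D_23 (nat_lit 192) (nat_lit 191) (nat_lit 213) (nat_lit 3) (nat_lit 4) (nat_lit 11) (nat_lit 0) (nat_lit 9) (nat_lit 12) (by decide +kernel)
theorem L13064 : W_23 (nat_lit 3) (nat_lit 0xc00060003c0010001000080000000000000000000000000000000) (nat_lit 0x0) (nat_lit 0x2000300001800000000000000000000000000000000000000000000000) := T_23 (nat_lit 212) (nat_lit 229) (nat_lit 7) (nat_lit 7) (nat_lit 9) L13063 (by decide +kernel)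
theorem L13065 : W_23 (nat_lit 4) (nat_lit 0x800060003c0010001000080000000000000000000000000000000) (nat_lit 0x0) (nat_lit 0x2800340001800000000000000000000000000000000000000000000000) := T_23 (nat_lit 210) (nat_lit 227) (nat_lit 6) (nat_lit 6) (nat_lit 13) L13064 (by decide +kernel)
theorem L13066 : W_23 (nat_lit 5) (nat_lit 0x800060003c0000001000080000000000000000000000000000000) (nat_lit 0x0) (nat_lit 0x2800340001800000010000800000000000000000000000000000000000) := T_23 (nat_lit 160) (nat_lit 143) (nat_lit 6) (nat_lit 7) (nat_lit 11) L13065 (by decide +kernel)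
theorem L13067 : W_23 (nat_lit 6) (nat_lit 0x800040003c0000001000080000000000000000000000000000000) (nat_lit 0x0) (nat_lit 0x2800340003800020010000800000000000000000000000000000000000) := T_23 (nat_lit 193) (nat_lit 173) (nat_lit 3) (nat_lit 3) (nat_lit 10) L13066 (by decide +kernel)
theorem L13068 : W_23 (nat_lit 2) (nat_lit 0x18000800060003c0000001000080000000000000000000000000000000) (nat_lit 0x0) (nat_lit 0x40000000000014000000000000000000000000000000000000000) := D_23 (nat_lit 210) (nat_lit 160) (nat_lit 158) (nat_lit 6) (nat_lit 6) (nat_lit 13) (nat_lit 4) (nat_lit 6) (nat_lit 13) (by decide +kernel)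
theorem L13069 : W_23 (nat_lit 3) (nat_lit 0x10000800060003c0000001000080000000000000000000000000000000) (nat_lit 0x0) (nat_lit 0x10000800040000000000014000000000000000000000000000000000000000) := T_23 (nat_lit 227) (nat_lit 244) (nat_lit 5) (nat_lit 7) (nat_lit 10) L13068 (by decide +kernel)
theorem L13070 : W_23 (nat_lit 4) (nat_lit 0x800060003c0000001000080000000000000000000000000000000) (nat_lit 0x0) (nat_lit 0x30001800040000000000014000000000000000000000000000000000000000) := T_23 (nat_lit 228) (nat_lit 245) (nat_lit 4) (nat_lit 7) (nat_lit 14) L13069 (by decide +kernel)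
theorem L13071 : W_23 (nat_lit 5) (nat_lit 0x800040003c0000001000080000000000000000000000000000000) (nat_lit 0x0) (nat_lit 0x30001800040002000020014000000000000000000000000000000000000000) := T_23 (nat_lit 193) (nat_lit 173) (nat_lit 3) (nat_lit 3) (nat_lit 10) L13070 (by decide +kernel)
theorem L13072 : W_23 (nat_lit 2) (nat_lit 0x38000c00060003c0000001000080000000000000000000000000000000) (nat_lit 0x0) (nat_lit 0x4000030000000000000000000000000000000000000000000000000000) := D_23 (nat_lit 209) (nat_lit 208) (nat_lit 230) (nat_lit 3) (nat_lit 4) (nat_lit 12) (nat_lit 0) (nat_lit 9) (nat_lit 13) (by decide +kernel)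
theorem L13073 : W_23 (nat_lit 3) (nat_lit 0x18000c00060003c0000001000080000000000000000000000000000000) (nat_lit 0x0) (nat_lit 0x40006000030000000000000000000000000000000000000000000000000000) := T_23 (nat_lit 229) (nat_lit 246) (nat_lit 7) (nat_lit 7) (nat_lit 10) L13072 (by decide +kernel)
theorem L13074 : W_23 (nat_lit 4) (nat_lit 0x18000800060003c0000001000080000000000000000000000000000000) (nat_lit 0x0) (nat_lit 0x40006000070000000000004000000000000000000000000000000000000000) := T_23 (nat_lit 210) (nat_lit 158) (nat_lit 4) (nat_lit 6) (nat_lit 13) L13073 (by decide +kernel)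
theorem L13075 : W_23 (nat_lit 5) (nat_lit 0x10000800060003c0000001000080000000000000000000000000000000) (nat_lit 0x0) (nat_lit 0x50006800070000000000004000000000000000000000000000000000000000) := T_23 (nat_lit 227) (nat_lit 244) (nat_lit 5) (nat_lit 7) (nat_lit 10) L13074 (by decide +kernel)
theorem L13076 : W_23 (nat_lit 6) (nat_lit 0x800060003c0000001000080000000000000000000000000000000) (nat_lit 0x0) (nat_lit 0x70007800070000000000004000000000000000000000000000000000000000) := T_23 (nat_lit 228) (nat_lit 245) (nat_lit 4) (nat_lit 7) (nat_lit 14) L13075 (by decide +kernel)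
theorem L13077 : W_23 (nat_lit 7) (nat_lit 0x800040003c0000001000080000000000000000000000000000000) (nat_lit 0x0) (nat_lit 0x70007800070002000020004000000000000000000000000000000000000000) := T_23 (nat_lit 193) (nat_lit 173) (nat_lit 3) (nat_lit 3) (nat_lit 10) L13076 (by decide +kernel)
theorem L13078 : W_23 (nat_lit 2) (nat_lit 0x1800070003c0010001000080000000000000000000000000000000) (nat_lit 0x0) (nat_lit 0x640000000000000000000000000000000000000000000000000000) := D_23 (nat_lit 213) (nat_lit 214) (nat_lit 210) (nat_lit 0) (nat_lit 10) (nat_lit 12) (nat_lit 0) (nat_lit 9) (nat_lit 12) (by decide +kernel)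
theorem L13079 : W_23 (nat_lit 3) (nat_lit 0x1800060003c0010001000080000000000000000000000000000000) (nat_lit 0x0) (nat_lit 0x640001800000000000000000000000000000000000000000000000) := T_23 (nat_lit 192) (nat_lit 191) (nat_lit 3) (nat_lit 4) (nat_lit 11) L13078 (by decide +kernel)
theorem L13080 : W_23 (nat_lit 4) (nat_lit 0x800060003c0010001000080000000000000000000000000000000) (nat_lit 0x0) (nat_lit 0x2000740001800000000000000000000000000000000000000000000000) := T_23 (nat_lit 212) (nat_lit 229) (nat_lit 7) (nat_lit 7) (nat_lit 9) L13079 (by decide +kernel)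
theorem L13081 : W_23 (nat_lit 5) (nat_lit 0x800060003c0000001000080000000000000000000000000000000) (nat_lit 0x0) (nat_lit 0x2000740001800000010000800000000000000000000000000000000000) := T_23 (nat_lit 160) (nat_lit 143) (nat_lit 6) (nat_lit 7) (nat_lit 11) L13080 (by decide +kernel)
theorem L13082 : W_23 (nat_lit 6) (nat_lit 0x800040003c0000001000080000000000000000000000000000000) (nat_lit 0x0) (nat_lit 0x2000740003800020010000800000000000000000000000000000000000) := T_23 (nat_lit 193) (nat_lit 173) (nat_lit 3) (nat_lit 3) (nat_lit 10) L13081 (by decide +kernel)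
theorem L13083 : W_23 (nat_lit 2) (nat_lit 0x20000800060003c0010001000080000000000000000000000000000000) (nat_lit 0x0) (nat_lit 0x60001000000000000000000000000000000000000000000000000000000000) := D_23 (nat_lit 228) (nat_lit 245) (nat_lit 246) (nat_lit 4) (nat_lit 7) (nat_lit 14) (nat_lit 7) (nat_lit 7) (nat_lit 10) (by decide +kernel)
theorem L13084 : W_23 (nat_lit 3) (nat_lit 0x800060003c0010001000080000000000000000000000000000000) (nat_lit 0x0) (nat_lit 0x60003000100000000000000000000000000000000000000000000000000000) := T_23 (nat_lit 229) (nat_lit 212) (nat_lit 7) (nat_lit 7) (nat_lit 9) L13083 (by decide +kernel)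
theorem L13085 : W_23 (nat_lit 4) (nat_lit 0x800060003c0000001000080000000000000000000000000000000) (nat_lit 0x0) (nat_lit 0x60003000100000000000010000800000000000000000000000000000000000) := T_23 (nat_lit 160) (nat_lit 143) (nat_lit 6) (nat_lit 7) (nat_lit 11) L13084 (by decide +kernel)
theorem L13086 : W_23 (nat_lit 5) (nat_lit 0x800040003c0000001000080000000000000000000000000000000) (nat_lit 0x0) (nat_lit 0x60003000100002000020010000800000000000000000000000000000000000) := T_23 (nat_lit 193) (nat_lit 173) (nat_lit 3) (nat_lit 3) (nat_lit 10) L13085 (by decide +kernel)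
theorem L13087 : W_23 (nat_lit 8) (nat_lit 0x40003c0000001000080000000000000000000000000000000) (nat_lit 0x0) (nat_lit 0x700078007f0003800020014000800000000000000000000000000000000000) := Q_23 (nat_lit 211) (C_23 L13057 (C_23 L13062 (C_23 L13067 (C_23 L13071 (C_23 L13077 (C_23 L13082 (C_23 L13086 N_23))))))) (by decide +kernel)
theorem L13088 : W_23 (nat_lit 15) (nat_lit 0x4000380000001000080000000000000000000000000000000) (nat_lit 0x0) (nat_lit 0xa4007e00fb007f8003f00470015c00f8015e000000000000000000000000000000) := Q_23 (nat_lit 174) (C_23 L12902 (C_23 L13019 (C_23 L13058 (C_23 L13087 N_23)))) (by decide +kernel)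
theorem L13089 : W_23 (nat_lit 2) (nat_lit 0x3c0006000380010001000080000000000000000000000000000000) (nat_lit 0x0) (nat_lit 0x38000000000000000000000000000000000000000000000000) := D_23 (nat_lit 196) (nat_lit 195) (nat_lit 197) (nat_lit 0) (nat_lit 9) (nat_lit 11) (nat_lit 2) (nat_lit 6) (nat_lit 12) (by decide +kernel)
theorem L13090 : W_23 (nat_lit 3) (nat_lit 0x1c0006000380010001000080000000000000000000000000000000) (nat_lit 0x0) (nat_lit 0x600038000000000000000000000000000000000000000000000000) := T_23 (nat_lit 213) (nat_lit 214) (nat_lit 0) (nat_lit 10) (nat_lit 12) L13089 (by decide +kernel)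
theorem L13091 : W_23 (nat_lit 4) (nat_lit 0xc0006000380010001000080000000000000000000000000000000) (nat_lit 0x0) (nat_lit 0x2000700038000000000000000000000000000000000000000000000000) := T_23 (nat_lit 212) (nat_lit 229) (nat_lit 7) (nat_lit 7) (nat_lit 9) L13090 (by decide +kernel)
theorem L13092 : W_23 (nat_lit 5) (nat_lit 0x80006000380010001000080000000000000000000000000000000) (nat_lit 0x0) (nat_lit 0x2800740038000000000000000000000000000000000000000000000000) := T_23 (nat_lit 210) (nat_lit 227) (nat_lit 6) (nat_lit 6) (nat_lit 13) L13091 (by decide +kernel)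
theorem L13093 : W_23 (nat_lit 6) (nat_lit 0x80006000380000001000080000000000000000000000000000000) (nat_lit 0x0) (nat_lit 0x2800740038000000010000800000000000000000000000000000000000) := T_23 (nat_lit 160) (nat_lit 143) (nat_lit 6) (nat_lit 7) (nat_lit 11) L13092 (by decide +kernel)
theorem L13094 : W_23 (nat_lit 2) (nat_lit 0x1000080006000380010001000080000000000000000000000000000000) (nat_lit 0x0) (nat_lit 0x10000800040000000000000000000000000000000000000000000000000000) := D_23 (nat_lit 227) (nat_lit 210) (nat_lit 244) (nat_lit 6) (nat_lit 6) (nat_lit 13) (nat_lit 5) (nat_lit 7) (nat_lit 10) (by decide +kernel)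
theorem L13095 : W_23 (nat_lit 3) (nat_lit 0x1000080006000380000001000080000000000000000000000000000000) (nat_lit 0x0) (nat_lit 0x10000800040000000000010000800000000000000000000000000000000000) := T_23 (nat_lit 160) (nat_lit 143) (nat_lit 6) (nat_lit 7) (nat_lit 11) L13094 (by decide +kernel)
theorem L13096 : W_23 (nat_lit 4) (nat_lit 0x80006000380000001000080000000000000000000000000000000) (nat_lit 0x0) (nat_lit 0x30001800040000000000010000800000000000000000000000000000000000) := T_23 (nat_lit 228) (nat_lit 245) (nat_lit 4) (nat_lit 7) (nat_lit 14) L13095 (by decide +kernel)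
theorem L13097 : W_23 (nat_lit 2) (nat_lit 0x3000080016000380010001000080000000000000000000000000000000) (nat_lit 0x0) (nat_lit 0x10000800040000000000000000000000000000000000000000000000000000) := D_23 (nat_lit 227) (nat_lit 210) (nat_lit 244) (nat_lit 6) (nat_lit 6) (nat_lit 13) (nat_lit 5) (nat_lit 7) (nat_lit 10) (by decide +kernel)
theorem L13098 : W_23 (nat_lit 3) (nat_lit 0x3000080016000380000001000080000000000000000000000000000000) (nat_lit 0x0) (nat_lit 0x10000800140000000000010000000000000000000000000000000000000000) := T_23 (nat_lit 160) (nat_lit 212) (nat_lit 7) (nat_lit 7) (nat_lit 9) L13097 (by decide +kernel)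
theorem L13099 : W_23 (nat_lit 4) (nat_lit 0x1000080016000380000001000080000000000000000000000000000000) (nat_lit 0x0) (nat_lit 0x50002800140000000000010000000000000000000000000000000000000000) := T_23 (nat_lit 229) (nat_lit 246) (nat_lit 7) (nat_lit 7) (nat_lit 10) L13098 (by decide +kernel)
theorem L13100 : W_23 (nat_lit 5) (nat_lit 0x1000080006000380000001000080000000000000000000000000000000) (nat_lit 0x0) (nat_lit 0x50002800140018000000010000000000000000000000000000000000000000) := T_23 (nat_lit 196) (nat_lit 195) (nat_lit 0) (nat_lit 9) (nat_lit 11) L13099 (by decide +kernel)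
theorem L13101 : W_23 (nat_lit 6) (nat_lit 0x80006000380000001000080000000000000000000000000000000) (nat_lit 0x0) (nat_lit 0x70003800140018000000010000000000000000000000000000000000000000) := T_23 (nat_lit 228) (nat_lit 245) (nat_lit 4) (nat_lit 7) (nat_lit 14) L13100 (by decide +kernel)
theorem L13102 : W_23 (nat_lit 2) (nat_lit 0x38000c0016000380000001000080000000000000000000000000000000) (nat_lit 0x0) (nat_lit 0x4000030000000000000000000000000000000000000000000000000000) := D_23 (nat_lit 209) (nat_lit 208) (nat_lit 230) (nat_lit 3) (nat_lit 4) (nat_lit 12) (nat_lit 0) (nat_lit 9) (nat_lit 13) (by decide +kernel)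
theorem L13103 : W_23 (nat_lit 3) (nat_lit 0x3800080016000380000001000080000000000000000000000000000000) (nat_lit 0x0) (nat_lit 0x4000070000000000004000000000000000000000000000000000000000) := T_23 (nat_lit 210) (nat_lit 158) (nat_lit 4) (nat_lit 6) (nat_lit 13) L13102 (by decide +kernel)
theorem L13104 : W_23 (nat_lit 4) (nat_lit 0x3000080016000380000001000080000000000000000000000000000000) (nat_lit 0x0) (nat_lit 0x10004800070000000000004000000000000000000000000000000000000000) := T_23 (nat_lit 227) (nat_lit 244) (nat_lit 5) (nat_lit 7) (nat_lit 10) L13103 (by decide +kernel)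
theorem L13105 : W_23 (nat_lit 5) (nat_lit 0x1000080016000380000001000080000000000000000000000000000000) (nat_lit 0x0) (nat_lit 0x50006800070000000000004000000000000000000000000000000000000000) := T_23 (nat_lit 229) (nat_lit 246) (nat_lit 7) (nat_lit 7) (nat_lit 10) L13104 (by decide +kernel)
theorem L13106 : W_23 (nat_lit 6) (nat_lit 0x1000080006000380000001000080000000000000000000000000000000) (nat_lit 0x0) (nat_lit 0x50006800070018000000004000000000000000000000000000000000000000) := T_23 (nat_lit 196) (nat_lit 195) (nat_lit 0) (nat_lit 9) (nat_lit 11) L13105 (by decide +kernel)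
theorem L13107 : W_23 (nat_lit 7) (nat_lit 0x80006000380000001000080000000000000000000000000000000) (nat_lit 0x0) (nat_lit 0x70007800070018000000004000000000000000000000000000000000000000) := T_23 (nat_lit 228) (nat_lit 245) (nat_lit 4) (nat_lit 7) (nat_lit 14) L13106 (by decide +kernel)
theorem L13108 : W_23 (nat_lit 2) (nat_lit 0x20000000180007000380010001000080000000000000000000000000000000) (nat_lit 0x0) (nat_lit 0x600008000000000000000000000000000000000000000000000000) := D_23 (nat_lit 213) (nat_lit 214) (nat_lit 195) (nat_lit 0) (nat_lit 10) (nat_lit 12) (nat_lit 3) (nat_lit 5) (nat_lit 11) (by decide +kernel)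
theorem L13109 : W_23 (nat_lit 3) (nat_lit 0x20000000180006000380010001000080000000000000000000000000000000) (nat_lit 0x0) (nat_lit 0x600009800000000000000000000000000000000000000000000000) := T_23 (nat_lit 192) (nat_lit 191) (nat_lit 3) (nat_lit 4) (nat_lit 11) L13108 (by decide +kernel)
theorem L13110 : W_23 (nat_lit 4) (nat_lit 0x20000000080006000380010001000080000000000000000000000000000000) (nat_lit 0x0) (nat_lit 0x2000700009800000000000000000000000000000000000000000000000) := T_23 (nat_lit 212) (nat_lit 229) (nat_lit 7) (nat_lit 7) (nat_lit 9) L13109 (by decide +kernel)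
theorem L13111 : W_23 (nat_lit 5) (nat_lit 0x20000000080006000380000001000080000000000000000000000000000000) (nat_lit 0x0) (nat_lit 0x2000700009800000010000800000000000000000000000000000000000) := T_23 (nat_lit 160) (nat_lit 143) (nat_lit 6) (nat_lit 7) (nat_lit 11) L13110 (by decide +kernel)
theorem L13112 : W_23 (nat_lit 6) (nat_lit 0x80006000380000001000080000000000000000000000000000000) (nat_lit 0x0) (nat_lit 0x20003000700009800000010000800000000000000000000000000000000000) := T_23 (nat_lit 245) (nat_lit 228) (nat_lit 4) (nat_lit 7) (nat_lit 14) L13111 (by decide +kernel)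
theorem L13113 : W_23 (nat_lit 8) (nat_lit 0x6000380000001000080000000000000000000000000000000) (nat_lit 0x0) (nat_lit 0x700078007f0039800000014000800000000000000000000000000000000000) := Q_23 (nat_lit 211) (C_23 L13093 (C_23 L13096 (C_23 L13101 (C_23 L13107 (C_23 L13112 N_23))))) (by decide +kernel)
theorem L13114 : W_23 (nat_lit 2) (nat_lit 0x1000080016000380010001000080000000000000000000000000000000) (nat_lit 0x0) (nat_lit 0x40002000100000000000000000000000000000000000000000000000000000) := D_23 (nat_lit 229) (nat_lit 212) (nat_lit 246) (nat_lit 7) (nat_lit 7) (nat_lit 9) (nat_lit 7) (nat_lit 7) (nat_lit 10) (by decide +kernel)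
theorem L13115 : W_23 (nat_lit 3) (nat_lit 0x1000080016000380000001000080000000000000000000000000000000) (nat_lit 0x0) (nat_lit 0x40002000100000000000010000800000000000000000000000000000000000) := T_23 (nat_lit 160) (nat_lit 143) (nat_lit 6) (nat_lit 7) (nat_lit 11) L13114 (by decide +kernel)
theorem L13116 : W_23 (nat_lit 4) (nat_lit 0x80016000380000001000080000000000000000000000000000000) (nat_lit 0x0) (nat_lit 0x60003000100000000000010000800000000000000000000000000000000000) := T_23 (nat_lit 228) (nat_lit 245) (nat_lit 4) (nat_lit 7) (nat_lit 14) L13115 (by decide +kernel)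
theorem L13117 : W_23 (nat_lit 5) (nat_lit 0x80006000380000001000080000000000000000000000000000000) (nat_lit 0x0) (nat_lit 0x60003000100018000000010000800000000000000000000000000000000000) := T_23 (nat_lit 196) (nat_lit 195) (nat_lit 0) (nat_lit 9) (nat_lit 11) L13116 (by decide +kernel)
theorem L13118 : W_23 (nat_lit 8) (nat_lit 0x6000380000001000080000000000000000000000000000000) (nat_lit 0x0) (nat_lit 0x700078007f0038000000014000800000000000000000000000000000000000) := Q_23 (nat_lit 211) (C_23 L13096 (C_23 L13107 (C_23 L13093 (C_23 L13117 N_23)))) (by decide +kernel)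
theorem L13119 : W_23 (nat_lit 2) (nat_lit 0x1c0006000380010001000080000000000000000000000000000000) (nat_lit 0x0) (nat_lit 0x200001800000000000000000000000000000000000000000000000) := D_23 (nat_lit 192) (nat_lit 191) (nat_lit 213) (nat_lit 3) (nat_lit 4) (nat_lit 11) (nat_lit 0) (nat_lit 9) (nat_lit 12) (by decide +kernel)
theorem L13120 : W_23 (nat_lit 3) (nat_lit 0xc0006000380010001000080000000000000000000000000000000) (nat_lit 0x0) (nat_lit 0x2000300001800000000000000000000000000000000000000000000000) := T_23 (nat_lit 212) (nat_lit 229) (nat_lit 7) (nat_lit 7) (nat_lit 9) L13119 (by decide +kernel)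
theorem L13121 : W_23 (nat_lit 4) (nat_lit 0x80006000380010001000080000000000000000000000000000000) (nat_lit 0x0) (nat_lit 0x2800340001800000000000000000000000000000000000000000000000) := T_23 (nat_lit 210) (nat_lit 227) (nat_lit 6) (nat_lit 6) (nat_lit 13) L13120 (by decide +kernel)
theorem L13122 : W_23 (nat_lit 5) (nat_lit 0x80006000380000001000080000000000000000000000000000000) (nat_lit 0x0) (nat_lit 0x2800340001800000010000800000000000000000000000000000000000) := T_23 (nat_lit 160) (nat_lit 143) (nat_lit 6) (nat_lit 7) (nat_lit 11) L13121 (by decide +kernel)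
theorem L13123 : W_23 (nat_lit 2) (nat_lit 0x1800080006000380000001000080000000000000000000000000000000) (nat_lit 0x0) (nat_lit 0x40000000000014000000000000000000000000000000000000000) := D_23 (nat_lit 210) (nat_lit 160) (nat_lit 158) (nat_lit 6) (nat_lit 6) (nat_lit 13) (nat_lit 4) (nat_lit 6) (nat_lit 13) (by decide +kernel)
theorem L13124 : W_23 (nat_lit 3) (nat_lit 0x1000080006000380000001000080000000000000000000000000000000) (nat_lit 0x0) (nat_lit 0x10000800040000000000014000000000000000000000000000000000000000) := T_23 (nat_lit 227) (nat_lit 244) (nat_lit 5) (nat_lit 7) (nat_lit 10) L13123 (by decide +kernel)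
theorem L13125 : W_23 (nat_lit 4) (nat_lit 0x80006000380000001000080000000000000000000000000000000) (nat_lit 0x0) (nat_lit 0x30001800040000000000014000000000000000000000000000000000000000) := T_23 (nat_lit 228) (nat_lit 245) (nat_lit 4) (nat_lit 7) (nat_lit 14) L13124 (by decide +kernel)
theorem L13126 : W_23 (nat_lit 2) (nat_lit 0x38000c0006000380000001000080000000000000000000000000000000) (nat_lit 0x0) (nat_lit 0x4000030000000000000000000000000000000000000000000000000000) := D_23 (nat_lit 209) (nat_lit 208) (nat_lit 230) (nat_lit 3) (nat_lit 4) (nat_lit 12) (nat_lit 0) (nat_lit 9) (nat_lit 13) (by decide +kernel)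
theorem L13127 : W_23 (nat_lit 3) (nat_lit 0x18000c0006000380000001000080000000000000000000000000000000) (nat_lit 0x0) (nat_lit 0x40006000030000000000000000000000000000000000000000000000000000) := T_23 (nat_lit 229) (nat_lit 246) (nat_lit 7) (nat_lit 7) (nat_lit 10) L13126 (by decide +kernel)
theorem L13128 : W_23 (nat_lit 4) (nat_lit 0x1800080006000380000001000080000000000000000000000000000000) (nat_lit 0x0) (nat_lit 0x40006000070000000000004000000000000000000000000000000000000000) := T_23 (nat_lit 210) (nat_lit 158) (nat_lit 4) (nat_lit 6) (nat_lit 13) L13127 (by decide +kernel)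
theorem L13129 : W_23 (nat_lit 5) (nat_lit 0x1000080006000380000001000080000000000000000000000000000000) (nat_lit 0x0) (nat_lit 0x50006800070000000000004000000000000000000000000000000000000000) := T_23 (nat_lit 227) (nat_lit 244) (nat_lit 5) (nat_lit 7) (nat_lit 10) L13128 (by decide +kernel)
theorem L13130 : W_23 (nat_lit 6) (nat_lit 0x80006000380000001000080000000000000000000000000000000) (nat_lit 0x0) (nat_lit 0x70007800070000000000004000000000000000000000000000000000000000) := T_23 (nat_lit 228) (nat_lit 245) (nat_lit 4) (nat_lit 7) (nat_lit 14) L13129 (by decide +kernel)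
theorem L13131 : W_23 (nat_lit 2) (nat_lit 0x20000000180007000380010001000080000000000000000000000000000000) (nat_lit 0x0) (nat_lit 0x640000000000000000000000000000000000000000000000000000) := D_23 (nat_lit 213) (nat_lit 214) (nat_lit 210) (nat_lit 0) (nat_lit 10) (nat_lit 12) (nat_lit 0) (nat_lit 9) (nat_lit 12) (by decide +kernel)
theorem L13132 : W_23 (nat_lit 3) (nat_lit 0x20000000180006000380010001000080000000000000000000000000000000) (nat_lit 0x0) (nat_lit 0x640001800000000000000000000000000000000000000000000000) := T_23 (nat_lit 192) (nat_lit 191) (nat_lit 3) (nat_lit 4) (nat_lit 11) L13131 (by decide +kernel)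
theorem L13133 : W_23 (nat_lit 4) (nat_lit 0x20000000080006000380010001000080000000000000000000000000000000) (nat_lit 0x0) (nat_lit 0x2000740001800000000000000000000000000000000000000000000000) := T_23 (nat_lit 212) (nat_lit 229) (nat_lit 7) (nat_lit 7) (nat_lit 9) L13132 (by decide +kernel)
theorem L13134 : W_23 (nat_lit 5) (nat_lit 0x20000000080006000380000001000080000000000000000000000000000000) (nat_lit 0x0) (nat_lit 0x2000740001800000010000800000000000000000000000000000000000) := T_23 (nat_lit 160) (nat_lit 143) (nat_lit 6) (nat_lit 7) (nat_lit 11) L13133 (by decide +kernel)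
theorem L13135 : W_23 (nat_lit 6) (nat_lit 0x80006000380000001000080000000000000000000000000000000) (nat_lit 0x0) (nat_lit 0x20003000740001800000010000800000000000000000000000000000000000) := T_23 (nat_lit 245) (nat_lit 228) (nat_lit 4) (nat_lit 7) (nat_lit 14) L13134 (by decide +kernel)
theorem L13136 : W_23 (nat_lit 2) (nat_lit 0x2000080006000380010001000080000000000000000000000000000000) (nat_lit 0x0) (nat_lit 0x60001000000000000000000000000000000000000000000000000000000000) := D_23 (nat_lit 228) (nat_lit 245) (nat_lit 246) (nat_lit 4) (nat_lit 7) (nat_lit 14) (nat_lit 7) (nat_lit 7) (nat_lit 10) (by decide +kernel)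
theorem L13137 : W_23 (nat_lit 3) (nat_lit 0x80006000380010001000080000000000000000000000000000000) (nat_lit 0x0) (nat_lit 0x60003000100000000000000000000000000000000000000000000000000000) := T_23 (nat_lit 229) (nat_lit 212) (nat_lit 7) (nat_lit 7) (nat_lit 9) L13136 (by decide +kernel)
theorem L13138 : W_23 (nat_lit 4) (nat_lit 0x80006000380000001000080000000000000000000000000000000) (nat_lit 0x0) (nat_lit 0x60003000100000000000010000800000000000000000000000000000000000) := T_23 (nat_lit 160) (nat_lit 143) (nat_lit 6) (nat_lit 7) (nat_lit 11) L13137 (by decide +kernel)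
theorem L13139 : W_23 (nat_lit 7) (nat_lit 0x6000380000001000080000000000000000000000000000000) (nat_lit 0x0) (nat_lit 0x700078007f0001800000014000800000000000000000000000000000000000) := Q_23 (nat_lit 211) (C_23 L13096 (C_23 L13122 (C_23 L13125 (C_23 L13130 (C_23 L13135 (C_23 L13138 N_23)))))) (by decide +kernel)
theorem L13140 : W_23 (nat_lit 2) (nat_lit 0x7000380000001000080000000000000000000000000000000) (nat_lit 0x0) (nat_lit 0xc00400000000000000000000000000000000000000000000) := D_23 (nat_lit 191) (nat_lit 178) (nat_lit 190) (nat_lit 2) (nat_lit 4) (nat_lit 11) (nat_lit 2) (nat_lit 3) (nat_lit 11) (by decide +kernel)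
theorem L13141 : W_23 (nat_lit 2) (nat_lit 0x80012000f400380010001000080000000000000000000000000000000) (nat_lit 0x0) (nat_lit 0x18000400000000000000000000000000000000000000000000000000000000) := D_23 (nat_lit 226) (nat_lit 243) (nat_lit 244) (nat_lit 6) (nat_lit 5) (nat_lit 14) (nat_lit 7) (nat_lit 5) (nat_lit 10) (by decide +kernel)
theorem L13142 : W_23 (nat_lit 3) (nat_lit 0x80010000f400380010001000080000000000000000000000000000000) (nat_lit 0x0) (nat_lit 0x18000400030000000000000000000000000000000000000000000000000000) := T_23 (nat_lit 209) (nat_lit 208) (nat_lit 1) (nat_lit 8) (nat_lit 11) L13141 (by decide +kernel)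
theorem L13143 : W_23 (nat_lit 4) (nat_lit 0x80000000f400380010001000080000000000000000000000000000000) (nat_lit 0x0) (nat_lit 0x18000400330000000000000000000000000000000000000000000000000000) := T_23 (nat_lit 212) (nat_lit 213) (nat_lit 3) (nat_lit 5) (nat_lit 11) L13142 (by decide +kernel)
theorem L13144 : W_23 (nat_lit 5) (nat_lit 0x800000007400380010001000080000000000000000000000000000000) (nat_lit 0x0) (nat_lit 0x18000400330018000000000000000000000000000000000000000000000000) := T_23 (nat_lit 195) (nat_lit 196) (nat_lit 0) (nat_lit 9) (nat_lit 11) L13143 (by decide +kernel)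
theorem L13145 : W_23 (nat_lit 6) (nat_lit 0x800000007000380010001000080000000000000000000000000000000) (nat_lit 0x0) (nat_lit 0x18000400330018c00000000000000000000000000000000000000000000000) := T_23 (nat_lit 190) (nat_lit 191) (nat_lit 2) (nat_lit 3) (nat_lit 11) L13144 (by decide +kernel)
theorem L13146 : W_23 (nat_lit 7) (nat_lit 0x7000380010001000080000000000000000000000000000000) (nat_lit 0x0) (nat_lit 0x18000c00370018c00000000000000000000000000000000000000000000000) := T_23 (nat_lit 227) (nat_lit 210) (nat_lit 6) (nat_lit 6) (nat_lit 13) L13145 (by decide +kernel)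
theorem L13147 : W_23 (nat_lit 8) (nat_lit 0x7000380000001000080000000000000000000000000000000) (nat_lit 0x0) (nat_lit 0x18000c00370018c00000010000800000000000000000000000000000000000) := T_23 (nat_lit 160) (nat_lit 143) (nat_lit 6) (nat_lit 7) (nat_lit 11) L13146 (by decide +kernel)
theorem L13148 : W_23 (nat_lit 4) (nat_lit 0xf000380010001000080000000000000000000000000000000) (nat_lit 0x0) (nat_lit 0x18000c00070000000000000000000000000000000000000000000000000000) := T_23 (nat_lit 227) (nat_lit 210) (nat_lit 6) (nat_lit 6) (nat_lit 13) L11686 (by decide +kernel)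
theorem L13149 : W_23 (nat_lit 5) (nat_lit 0xf000380000001000080000000000000000000000000000000) (nat_lit 0x0) (nat_lit 0x18000c00070000000000010000800000000000000000000000000000000000) := T_23 (nat_lit 160) (nat_lit 143) (nat_lit 6) (nat_lit 7) (nat_lit 11) L13148 (by decide +kernel)
theorem L13150 : W_23 (nat_lit 6) (nat_lit 0x7000380000001000080000000000000000000000000000000) (nat_lit 0x0) (nat_lit 0x18000c00070018000000010000800000000000000000000000000000000000) := T_23 (nat_lit 195) (nat_lit 196) (nat_lit 0) (nat_lit 9) (nat_lit 11) L13149 (by decide +kernel)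
theorem L13151 : W_23 (nat_lit 9) (nat_lit 0x6000380000001000080000000000000000000000000000000) (nat_lit 0x0) (nat_lit 0x18000c00370019c00400010000800000000000000000000000000000000000) := Q_23 (nat_lit 192) (C_23 L13140 (C_23 L13147 (C_23 L13150 N_23))) (by decide +kernel)
theorem L13152 : W_23 (nat_lit 2) (nat_lit 0x20000200090017800380000001000080000000000000000000000000000000) (nat_lit 0x0) (nat_lit 0x20000000000004000200000000000000000000000000000000000) := D_23 (nat_lit 158) (nat_lit 141) (nat_lit 209) (nat_lit 5) (nat_lit 5) (nat_lit 8) (nat_lit 5) (nat_lit 5) (nat_lit 9) (by decide +kernel)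
theorem L13153 : W_23 (nat_lit 3) (nat_lit 0x20000000090017800380000001000080000000000000000000000000000000) (nat_lit 0x0) (nat_lit 0x4000200020000000000004000200000000000000000000000000000000000) := T_23 (nat_lit 225) (nat_lit 242) (nat_lit 6) (nat_lit 4) (nat_lit 14) L13152 (by decide +kernel)
theorem L13154 : W_23 (nat_lit 4) (nat_lit 0x90017800380000001000080000000000000000000000000000000) (nat_lit 0x0) (nat_lit 0x24001200020000000000004000200000000000000000000000000000000000) := T_23 (nat_lit 245) (nat_lit 228) (nat_lit 4) (nat_lit 7) (nat_lit 14) L13153 (by decide +kernel)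
theorem L13155 : W_23 (nat_lit 5) (nat_lit 0x80017800380000001000080000000000000000000000000000000) (nat_lit 0x0) (nat_lit 0x24001200038000000000004000200000000000000000000000000000000000) := T_23 (nat_lit 208) (nat_lit 207) (nat_lit 1) (nat_lit 7) (nat_lit 11) L13154 (by decide +kernel)
theorem L13156 : W_23 (nat_lit 6) (nat_lit 0x17800380000001000080000000000000000000000000000000) (nat_lit 0x0) (nat_lit 0x240012001b8000000000004000200000000000000000000000000000000000) := T_23 (nat_lit 211) (nat_lit 212) (nat_lit 3) (nat_lit 4) (nat_lit 11) L13155 (by decide +kernel)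
theorem L13157 : W_23 (nat_lit 7) (nat_lit 0x17000380000001000080000000000000000000000000000000) (nat_lit 0x0) (nat_lit 0x240012001b8000c00000004000200000000000000000000000000000000000) := T_23 (nat_lit 191) (nat_lit 190) (nat_lit 2) (nat_lit 3) (nat_lit 11) L13156 (by decide +kernel)
theorem L13158 : W_23 (nat_lit 8) (nat_lit 0x7000380000001000080000000000000000000000000000000) (nat_lit 0x0) (nat_lit 0x240012001b8018c00000004000200000000000000000000000000000000000) := T_23 (nat_lit 196) (nat_lit 195) (nat_lit 0) (nat_lit 9) (nat_lit 11) L13157 (by decide +kernel)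
theorem L13159 : W_23 (nat_lit 2) (nat_lit 0x400006001a000f000b80000001000080000000000000000000000000000000) (nat_lit 0x0) (nat_lit 0x10001800000000000000000000000000000000000000000000000000000000) := D_23 (nat_lit 227) (nat_lit 244) (nat_lit 228) (nat_lit 7) (nat_lit 5) (nat_lit 10) (nat_lit 2) (nat_lit 4) (nat_lit 13) (by decide +kernel)
theorem L13160 : W_23 (nat_lit 3) (nat_lit 0x4000060012000f000b80000001000080000000000000000000000000000000) (nat_lit 0x0) (nat_lit 0x100018000c0000000000000000000000000000000000000000000000000000) := T_23 (nat_lit 211) (nat_lit 210) (nat_lit 1) (nat_lit 8) (nat_lit 12) L13159 (by decide +kernel)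
theorem L13161 : W_23 (nat_lit 4) (nat_lit 0x4000040012000f000b80000001000080000000000000000000000000000000) (nat_lit 0x0) (nat_lit 0x14001a000c0000000000000000000000000000000000000000000000000000) := T_23 (nat_lit 225) (nat_lit 242) (nat_lit 5) (nat_lit 5) (nat_lit 10) L13160 (by decide +kernel)
theorem L13162 : W_23 (nat_lit 5) (nat_lit 0x4000000012000f000b80000001000080000000000000000000000000000000) (nat_lit 0x0) (nat_lit 0x1c001e000c0000000000000000000000000000000000000000000000000000) := T_23 (nat_lit 226) (nat_lit 243) (nat_lit 6) (nat_lit 5) (nat_lit 14) L13161 (by decide +kernel)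
theorem L13163 : W_23 (nat_lit 6) (nat_lit 0x12000f000b80000001000080000000000000000000000000000000) (nat_lit 0x0) (nat_lit 0x5c003e000c0000000000000000000000000000000000000000000000000000) := T_23 (nat_lit 246) (nat_lit 229) (nat_lit 4) (nat_lit 8) (nat_lit 14) L13162 (by decide +kernel)
theorem L13164 : W_23 (nat_lit 7) (nat_lit 0x10000f000b80000001000080000000000000000000000000000000) (nat_lit 0x0) (nat_lit 0x5c003e000f0000000000000000000000000000000000000000000000000000) := T_23 (nat_lit 209) (nat_lit 208) (nat_lit 1) (nat_lit 8) (nat_lit 11) L13163 (by decide +kernel)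
theorem L13165 : W_23 (nat_lit 8) (nat_lit 0xf000b80000001000080000000000000000000000000000000) (nat_lit 0x0) (nat_lit 0x5c003e003f0000000000000000000000000000000000000000000000000000) := T_23 (nat_lit 212) (nat_lit 213) (nat_lit 3) (nat_lit 5) (nat_lit 11) L13164 (by decide +kernel)
theorem L13166 : W_23 (nat_lit 9) (nat_lit 0x7000b80000001000080000000000000000000000000000000) (nat_lit 0x0) (nat_lit 0x5c003e003f0018000000000000000000000000000000000000000000000000) := T_23 (nat_lit 195) (nat_lit 196) (nat_lit 0) (nat_lit 9) (nat_lit 11) L13165 (by decide +kernel)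
theorem L13167 : W_23 (nat_lit 10) (nat_lit 0x7000380000001000080000000000000000000000000000000) (nat_lit 0x0) (nat_lit 0x5c003e003f0018000c00000000000000000000000000000000000000000000) := T_23 (nat_lit 179) (nat_lit 178) (nat_lit 1) (nat_lit 9) (nat_lit 10) L13166 (by decide +kernel)
theorem L13168 : W_23 (nat_lit 11) (nat_lit 0x6000380000001000080000000000000000000000000000000) (nat_lit 0x0) (nat_lit 0x7c003e003f8019c00c00004000200000000000000000000000000000000000) := Q_23 (nat_lit 192) (C_23 L13140 (C_23 L13158 (C_23 L13167 N_23))) (by decide +kernel)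
theorem L13169 : W_23 (nat_lit 7) (nat_lit 0x6000380000001000080000000000000000000000000000000) (nat_lit 0x0) (nat_lit 0x18000c00070019c00400010000800000000000000000000000000000000000) := Q_23 (nat_lit 192) (C_23 L13150 (C_23 L13140 N_23)) (by decide +kernel)
theorem L13170 : W_23 (nat_lit 2) (nat_lit 0x12000f000b80010001000080000000000000000000000000000000) (nat_lit 0x0) (nat_lit 0x40002000080000000000000000000000000000000000000000000000000000) := D_23 (nat_lit 229) (nat_lit 246) (nat_lit 211) (nat_lit 4) (nat_lit 8) (nat_lit 14) (nat_lit 7) (nat_lit 7) (nat_lit 9) (by decide +kernel)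
theorem L13171 : W_23 (nat_lit 3) (nat_lit 0x2000f000b80010001000080000000000000000000000000000000) (nat_lit 0x0) (nat_lit 0x40002000380000000000000000000000000000000000000000000000000000) := T_23 (nat_lit 212) (nat_lit 213) (nat_lit 3) (nat_lit 5) (nat_lit 11) L13170 (by decide +kernel)
theorem L13172 : W_23 (nat_lit 4) (nat_lit 0xf000b80010001000080000000000000000000000000000000) (nat_lit 0x0) (nat_lit 0x400020003b0000000000000000000000000000000000000000000000000000) := T_23 (nat_lit 209) (nat_lit 208) (nat_lit 1) (nat_lit 8) (nat_lit 11) L13171 (by decide +kernel)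
theorem L13173 : W_23 (nat_lit 5) (nat_lit 0xf000b80000001000080000000000000000000000000000000) (nat_lit 0x0) (nat_lit 0x400020003b0000000000010000800000000000000000000000000000000000) := T_23 (nat_lit 160) (nat_lit 143) (nat_lit 6) (nat_lit 7) (nat_lit 11) L13172 (by decide +kernel)
theorem L13174 : W_23 (nat_lit 6) (nat_lit 0x7000b80000001000080000000000000000000000000000000) (nat_lit 0x0) (nat_lit 0x400020003b0018000000010000800000000000000000000000000000000000) := T_23 (nat_lit 195) (nat_lit 196) (nat_lit 0) (nat_lit 9) (nat_lit 11) L13173 (by decide +kernel)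
theorem L13175 : W_23 (nat_lit 7) (nat_lit 0x7000380000001000080000000000000000000000000000000) (nat_lit 0x0) (nat_lit 0x400020003b0018000c00010000800000000000000000000000000000000000) := T_23 (nat_lit 179) (nat_lit 178) (nat_lit 1) (nat_lit 9) (nat_lit 10) L13174 (by decide +kernel)
theorem L13176 : W_23 (nat_lit 9) (nat_lit 0x6000380000001000080000000000000000000000000000000) (nat_lit 0x0) (nat_lit 0x640032003b8019c00c00014000a00000000000000000000000000000000000) := Q_23 (nat_lit 192) (C_23 L13158 (C_23 L13140 (C_23 L13175 N_23))) (by decide +kernel)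
theorem L13177 : W_23 (nat_lit 2) (nat_lit 0x800080017800380010001000080000000000000000000000000000000) (nat_lit 0x0) (nat_lit 0x30001000000000000000000000000000000000000000000000000000000000) := D_23 (nat_lit 228) (nat_lit 245) (nat_lit 244) (nat_lit 4) (nat_lit 7) (nat_lit 14) (nat_lit 5) (nat_lit 7) (nat_lit 10) (by decide +kernel)
theorem L13178 : W_23 (nat_lit 3) (nat_lit 0x800000017800380010001000080000000000000000000000000000000) (nat_lit 0x0) (nat_lit 0x30001000180000000000000000000000000000000000000000000000000000) := T_23 (nat_lit 211) (nat_lit 212) (nat_lit 3) (nat_lit 4) (nat_lit 11) L13177 (by decide +kernel)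
theorem L13179 : W_23 (nat_lit 4) (nat_lit 0x17800380010001000080000000000000000000000000000000) (nat_lit 0x0) (nat_lit 0x300018001c0000000000000000000000000000000000000000000000000000) := T_23 (nat_lit 227) (nat_lit 210) (nat_lit 6) (nat_lit 6) (nat_lit 13) L13178 (by decide +kernel)
theorem L13180 : W_23 (nat_lit 5) (nat_lit 0x17800380000001000080000000000000000000000000000000) (nat_lit 0x0) (nat_lit 0x300018001c0000000000010000800000000000000000000000000000000000) := T_23 (nat_lit 160) (nat_lit 143) (nat_lit 6) (nat_lit 7) (nat_lit 11) L13179 (by decide +kernel)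
theorem L13181 : W_23 (nat_lit 6) (nat_lit 0x17000380000001000080000000000000000000000000000000) (nat_lit 0x0) (nat_lit 0x300018001c0000c00000010000800000000000000000000000000000000000) := T_23 (nat_lit 191) (nat_lit 190) (nat_lit 2) (nat_lit 3) (nat_lit 11) L13180 (by decide +kernel)
theorem L13182 : W_23 (nat_lit 7) (nat_lit 0x7000380000001000080000000000000000000000000000000) (nat_lit 0x0) (nat_lit 0x300018001c0018c00000010000800000000000000000000000000000000000) := T_23 (nat_lit 196) (nat_lit 195) (nat_lit 0) (nat_lit 9) (nat_lit 11) L13181 (by decide +kernel)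
theorem L13183 : W_23 (nat_lit 2) (nat_lit 0x80010000f000b80010001000080000000000000000000000000000000) (nat_lit 0x0) (nat_lit 0x40002000080000000000000000000000000000000000000000000000000000) := D_23 (nat_lit 229) (nat_lit 246) (nat_lit 211) (nat_lit 4) (nat_lit 8) (nat_lit 14) (nat_lit 7) (nat_lit 7) (nat_lit 9) (by decide +kernel)
theorem L13184 : W_23 (nat_lit 3) (nat_lit 0x80000000f000b80010001000080000000000000000000000000000000) (nat_lit 0x0) (nat_lit 0x40002000380000000000000000000000000000000000000000000000000000) := T_23 (nat_lit 212) (nat_lit 213) (nat_lit 3) (nat_lit 5) (nat_lit 11) L13183 (by decide +kernel)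
theorem L13185 : W_23 (nat_lit 4) (nat_lit 0xf000b80010001000080000000000000000000000000000000) (nat_lit 0x0) (nat_lit 0x400028003c0000000000000000000000000000000000000000000000000000) := T_23 (nat_lit 227) (nat_lit 210) (nat_lit 6) (nat_lit 6) (nat_lit 13) L13184 (by decide +kernel)
theorem L13186 : W_23 (nat_lit 5) (nat_lit 0xf000b80000001000080000000000000000000000000000000) (nat_lit 0x0) (nat_lit 0x400028003c0000000000010000800000000000000000000000000000000000) := T_23 (nat_lit 160) (nat_lit 143) (nat_lit 6) (nat_lit 7) (nat_lit 11) L13185 (by decide +kernel)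
theorem L13187 : W_23 (nat_lit 6) (nat_lit 0x7000b80000001000080000000000000000000000000000000) (nat_lit 0x0) (nat_lit 0x400028003c0018000000010000800000000000000000000000000000000000) := T_23 (nat_lit 195) (nat_lit 196) (nat_lit 0) (nat_lit 9) (nat_lit 11) L13186 (by decide +kernel)
theorem L13188 : W_23 (nat_lit 7) (nat_lit 0x7000380000001000080000000000000000000000000000000) (nat_lit 0x0) (nat_lit 0x400028003c0018000c00010000800000000000000000000000000000000000) := T_23 (nat_lit 179) (nat_lit 178) (nat_lit 1) (nat_lit 9) (nat_lit 10) L13187 (by decide +kernel)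
theorem L13189 : W_23 (nat_lit 8) (nat_lit 0x6000380000001000080000000000000000000000000000000) (nat_lit 0x0) (nat_lit 0x700038003c0019c00c00010000800000000000000000000000000000000000) := Q_23 (nat_lit 192) (C_23 L13140 (C_23 L13182 (C_23 L13188 N_23))) (by decide +kernel)
theorem L13190 : W_23 (nat_lit 12) (nat_lit 0x4000380000001000080000000000000000000000000000000) (nat_lit 0x0) (nat_lit 0x7c007e007f803bc00c00014000a00000000000000000000000000000000000) := Q_23 (nat_lit 193) (C_23 L13113 (C_23 L13118 (C_23 L13139 (C_23 L13151 (C_23 L13168 (C_23 L13169 (C_23 L13176 (C_23 L13189 N_23)))))))) (by decide +kernel)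
theorem L13191 : W_23 (nat_lit 16) (nat_lit 0x380000001000080000000000000000000000000000000) (nat_lit 0x0) (nat_lit 0xa4007e00ff007f803ff00c70015c00f8015e000000000000000000000000000000) := Q_23 (nat_lit 194) (C_23 L12927 (C_23 L12989 (C_23 L13088 (C_23 L13190 N_23)))) (by decide +kernel)
theorem L13192 : W_23 (nat_lit 17) (nat_lit 0x300000001000080000000000000000000000000000000) (nat_lit 0x0) (nat_lit 0xa4007e01ff00ff80fff83cf81d7e04f8077e001e00020000000000000000000000) := Q_23 (nat_lit 175) (C_23 L12683 (C_23 L12742 (C_23 L12754 (C_23 L12755 (C_23 L12756 (C_23 L12894 (C_23 L12988 (C_23 L13191 N_23)))))))) (by decide +kernel)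
theorem L13216 : W_23 (nat_lit 2) (nat_lit 0x3c00060012000b0000000000000000000000000000000) (nat_lit 0x0) (nat_lit 0x1000000000000c00000000000000000000000000000000000) := D_23 (nat_lit 142) (nat_lit 143) (nat_lit 192) (nat_lit 1) (nat_lit 8) (nat_lit 8) (nat_lit 6) (nat_lit 5) (nat_lit 11) (by decide +kernel)
theorem L13217 : W_23 (nat_lit 3) (nat_lit 0x3c0006001200090000000000000000000000000000000) (nat_lit 0x0) (nat_lit 0x1000000000000c00020001000000000000000000000000000) := T_23 (nat_lit 125) (nat_lit 108) (nat_lit 6) (nat_lit 5) (nat_lit 10) L13216 (by decide +kernel)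
theorem L13218 : W_23 (nat_lit 4) (nat_lit 0x3c0006001200080000000000000000000000000000000) (nat_lit 0x0) (nat_lit 0x3000000000000c00030001000000000000000000000000000) := T_23 (nat_lit 124) (nat_lit 193) (nat_lit 7) (nat_lit 5) (nat_lit 7) L13217 (by decide +kernel)
theorem L13219 : W_23 (nat_lit 5) (nat_lit 0x3c0004001200080000000000000000000000000000000) (nat_lit 0x0) (nat_lit 0x3000000003000c00030001000000000000000000000000000) := T_23 (nat_lit 157) (nat_lit 156) (nat_lit 0) (nat_lit 7) (nat_lit 10) L13218 (by decide +kernel)
theorem L13225 : W_23 (nat_lit 2) (nat_lit 0x3c0004001200090000800000000000000000000000000) (nat_lit 0x0) (nat_lit 0x20001000080000000000000000000000) := D_23 (nat_lit 108) (nat_lit 91) (nat_lit 125) (nat_lit 6) (nat_lit 5) (nat_lit 9) (nat_lit 6) (nat_lit 5) (nat_lit 10) (by decide +kernel)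
theorem L13226 : W_23 (nat_lit 3) (nat_lit 0x3c0004001200090000000000000000000000000000000) (nat_lit 0x0) (nat_lit 0x8000000020001800080000000000000000000000) := T_23 (nat_lit 107) (nat_lit 159) (nat_lit 7) (nat_lit 5) (nat_lit 6) L13225 (by decide +kernel)
theorem L13227 : W_23 (nat_lit 4) (nat_lit 0x3c0004001200080000000000000000000000000000000) (nat_lit 0x0) (nat_lit 0x2000000008000000030001800080000000000000000000000) := T_23 (nat_lit 124) (nat_lit 193) (nat_lit 7) (nat_lit 5) (nat_lit 7) L13226 (by decide +kernel)
theorem L13228 : W_23 (nat_lit 8) (nat_lit 0x3c0004001000080000000000000000000000000000000) (nat_lit 0x0) (nat_lit 0x80004000300000001b000e00078001c00080000000000000000000000) := Q_23 (nat_lit 141) (C_23 L13209 (C_23 L13215 (C_23 L13219 (C_23 L13224 (C_23 L13227 N_23))))) (by decide +kernel)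
theorem L13232 : W_23 (nat_lit 10) (nat_lit 0x3c0000001000080000000000000000000000000000000) (nat_lit 0x0) (nat_lit 0xf00078003c0000001f000f8007c001e00080000000000000000000000) := Q_23 (nat_lit 158) (C_23 L13199 (C_23 L13207 (C_23 L13228 (C_23 L13231 N_23)))) (by decide +kernel)
theorem L13245 : W_23 (nat_lit 2) (nat_lit 0x3e0000001000080000000000000000000000000000000) (nat_lit 0x0) (nat_lit 0xe00000000000000000000000000000000000000000000000) := D_23 (nat_lit 190) (nat_lit 191) (nat_lit 189) (nat_lit 1) (nat_lit 7) (nat_lit 10) (nat_lit 1) (nat_lit 6) (nat_lit 10) (by decide +kernel)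
theorem L13260 : W_23 (nat_lit 8) (nat_lit 0x3c0000001000080000000000000000000000000000000) (nat_lit 0x0) (nat_lit 0x3f0003801ce00000000000000000000000000000000000000) := Q_23 (nat_lit 173) (C_23 L13245 (C_23 L13248 (C_23 L13254 (C_23 L13259 N_23)))) (by decide +kernel)
theorem L13261 : W_23 (nat_lit 11) (nat_lit 0x380000001000080000000000000000000000000000000) (nat_lit 0x0) (nat_lit 0xf00078003f8007801fe00f8007c001e00080000000000000000000000) := Q_23 (nat_lit 174) (C_23 L13197 (C_23 L12701 (C_23 L13232 (C_23 L13237 (C_23 L13244 (C_23 L13260 N_23)))))) (by decide +kernel)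
theorem L13264 : W_23 (nat_lit 2) (nat_lit 0x10007e000d001000080000000000000000000000000000000) (nat_lit 0x0) (nat_lit 0x20000000000000000400020000000000000000000000000000000) := D_23 (nat_lit 142) (nat_lit 125) (nat_lit 209) (nat_lit 5) (nat_lit 6) (nat_lit 7) (nat_lit 6) (nat_lit 5) (nat_lit 12) (by decide +kernel)
theorem L13265 : W_23 (nat_lit 3) (nat_lit 0x7e000d001000080000000000000000000000000000000) (nat_lit 0x0) (nat_lit 0x20001800000000000400020000000000000000000000000000000) := T_23 (nat_lit 192) (nat_lit 191) (nat_lit 1) (nat_lit 8) (nat_lit 10) L13264 (by decide +kernel)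
theorem L13266 : W_23 (nat_lit 4) (nat_lit 0x3e000d001000080000000000000000000000000000000) (nat_lit 0x0) (nat_lit 0x20001800c00000000400020000000000000000000000000000000) := T_23 (nat_lit 178) (nat_lit 179) (nat_lit 0) (nat_lit 9) (nat_lit 10) L13265 (by decide +kernel)
theorem L13267 : W_23 (nat_lit 5) (nat_lit 0x3e0009001000080000000000000000000000000000000) (nat_lit 0x0) (nat_lit 0x20001800c10004000400020000000000000000000000000000000) := T_23 (nat_lit 158) (nat_lit 172) (nat_lit 2) (nat_lit 2) (nat_lit 10) L13266 (by decide +kernel)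
theorem L13268 : W_23 (nat_lit 6) (nat_lit 0x3e0001001000080000000000000000000000000000000) (nat_lit 0x0) (nat_lit 0x20001800c1001c000400020000000000000000000000000000000) := T_23 (nat_lit 159) (nat_lit 160) (nat_lit 2) (nat_lit 3) (nat_lit 10) L13267 (by decide +kernel)
theorem L13269 : W_23 (nat_lit 7) (nat_lit 0x3c0001001000080000000000000000000000000000000) (nat_lit 0x0) (nat_lit 0x20001800c3001c800400020000000000000000000000000000000) := T_23 (nat_lit 173) (nat_lit 155) (nat_lit 0) (nat_lit 6) (nat_lit 10) L13268 (by decide +kernel)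
theorem L13270 : W_23 (nat_lit 8) (nat_lit 0x3c0000001000080000000000000000000000000000000) (nat_lit 0x0) (nat_lit 0x20001800c3001f800400020000000000000000000000000000000) := T_23 (nat_lit 156) (nat_lit 157) (nat_lit 0) (nat_lit 7) (nat_lit 10) L13269 (by decide +kernel)
theorem L13271 : W_23 (nat_lit 2) (nat_lit 0x2000000088007c000c001000090000000000000000000000000000000) (nat_lit 0x0) (nat_lit 0x30010000000000000000000000000000000000000000) := D_23 (nat_lit 173) (nat_lit 172) (nat_lit 160) (nat_lit 2) (nat_lit 2) (nat_lit 10) (nat_lit 2) (nat_lit 3) (nat_lit 10) (by decide +kernel)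
theorem L13272 : W_23 (nat_lit 3) (nat_lit 0x2000000088007c0004001000090000000000000000000000000000000) (nat_lit 0x0) (nat_lit 0x830018000000000000000000000000000000000000000) := T_23 (nat_lit 159) (nat_lit 179) (nat_lit 0) (nat_lit 9) (nat_lit 10) L13271 (by decide +kernel)
theorem L13273 : W_23 (nat_lit 4) (nat_lit 0x2000000088007c0004001000080000000000000000000000000000000) (nat_lit 0x0) (nat_lit 0x830018000200010000000000000000000000000000000) := T_23 (nat_lit 124) (nat_lit 141) (nat_lit 5) (nat_lit 5) (nat_lit 7) L13272 (by decide +kernel)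
theorem L13274 : W_23 (nat_lit 5) (nat_lit 0x88007c0004001000080000000000000000000000000000000) (nat_lit 0x0) (nat_lit 0x200010000000830018000200010000000000000000000000000000000) := T_23 (nat_lit 225) (nat_lit 208) (nat_lit 6) (nat_lit 4) (nat_lit 13) L13273 (by decide +kernel)
theorem L13275 : W_23 (nat_lit 6) (nat_lit 0x8007c0004001000080000000000000000000000000000000) (nat_lit 0x0) (nat_lit 0x200010018000830018000200010000000000000000000000000000000) := T_23 (nat_lit 195) (nat_lit 196) (nat_lit 3) (nat_lit 5) (nat_lit 10) L13274 (by decide +kernel)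
theorem L13276 : W_23 (nat_lit 7) (nat_lit 0x8007c0000001000080000000000000000000000000000000) (nat_lit 0x0) (nat_lit 0x20001001800083001e000200010000000000000000000000000000000) := T_23 (nat_lit 158) (nat_lit 157) (nat_lit 0) (nat_lit 8) (nat_lit 10) L13275 (by decide +kernel)
theorem L13277 : W_23 (nat_lit 8) (nat_lit 0x8003c0000001000080000000000000000000000000000000) (nat_lit 0x0) (nat_lit 0x200010019000c3001e000200010000000000000000000000000000000) := T_23 (nat_lit 178) (nat_lit 192) (nat_lit 1) (nat_lit 8) (nat_lit 10) L13276 (by decide +kernel)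
theorem L13278 : W_23 (nat_lit 9) (nat_lit 0x3c0000001000080000000000000000000000000000000) (nat_lit 0x0) (nat_lit 0x200010019c00c3001e000200010000000000000000000000000000000) := T_23 (nat_lit 191) (nat_lit 190) (nat_lit 1) (nat_lit 7) (nat_lit 10) L13277 (by decide +kernel)
theorem L13279 : W_23 (nat_lit 10) (nat_lit 0x380000001000080000000000000000000000000000000) (nat_lit 0x0) (nat_lit 0x200030019f00c7001fc00600030000000000000000000000000000000) := Q_23 (nat_lit 174) (C_23 L12701 (C_23 L13197 (C_23 L13237 (C_23 L13263 (C_23 L13270 (C_23 L13278 N_23)))))) (by decide +kernel)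
theorem L13283 : W_23 (nat_lit 2) (nat_lit 0x10000780004001000080000000000000000000000000000000) (nat_lit 0x0) (nat_lit 0x20000800008000000000000000000000000000000000000000) := D_23 (nat_lit 179) (nat_lit 197) (nat_lit 159) (nat_lit 3) (nat_lit 6) (nat_lit 10) (nat_lit 0) (nat_lit 9) (nat_lit 10) (by decide +kernel)
theorem L13284 : W_23 (nat_lit 3) (nat_lit 0x10000780000001000080000000000000000000000000000000) (nat_lit 0x0) (nat_lit 0x2000080000e000000000000000000000000000000000000000) := T_23 (nat_lit 158) (nat_lit 157) (nat_lit 0) (nat_lit 8) (nat_lit 10) L13283 (by decide +kernel)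
theorem L13285 : W_23 (nat_lit 4) (nat_lit 0x780000001000080000000000000000000000000000000) (nat_lit 0x0) (nat_lit 0x3800080000e000000000000000000000000000000000000000) := T_23 (nat_lit 196) (nat_lit 195) (nat_lit 3) (nat_lit 5) (nat_lit 10) L13284 (by decide +kernel)
theorem L13286 : W_23 (nat_lit 2) (nat_lit 0x88007c0000001000080000000000000000000000000000000) (nat_lit 0x0) (nat_lit 0x7000000000000000000000000000000000000000) := D_23 (nat_lit 157) (nat_lit 156) (nat_lit 158) (nat_lit 0) (nat_lit 7) (nat_lit 10) (nat_lit 0) (nat_lit 8) (nat_lit 10) (by decide +kernel)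
theorem L13287 : W_23 (nat_lit 3) (nat_lit 0x8800780000001000080000000000000000000000000000000) (nat_lit 0x0) (nat_lit 0x400040007000000000000000000000000000000000000000) := T_23 (nat_lit 174) (nat_lit 190) (nat_lit 1) (nat_lit 7) (nat_lit 10) L13286 (by decide +kernel)
theorem L13288 : W_23 (nat_lit 4) (nat_lit 0x800780000001000080000000000000000000000000000000) (nat_lit 0x0) (nat_lit 0x18400040007000000000000000000000000000000000000000) := T_23 (nat_lit 195) (nat_lit 196) (nat_lit 3) (nat_lit 5) (nat_lit 10) L13287 (by decide +kernel)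
theorem L13289 : W_23 (nat_lit 5) (nat_lit 0x780000001000080000000000000000000000000000000) (nat_lit 0x0) (nat_lit 0x19c00040007000000000000000000000000000000000000000) := T_23 (nat_lit 191) (nat_lit 192) (nat_lit 1) (nat_lit 8) (nat_lit 10) L13288 (by decide +kernel)
theorem L13290 : W_23 (nat_lit 8) (nat_lit 0x380000001000080000000000000000000000000000000) (nat_lit 0x0) (nat_lit 0x7bc01c401cf000000000000000000000000000000000000000) := Q_23 (nat_lit 178) (C_23 L13282 (C_23 L13285 (C_23 L12779 (C_23 L13289 (C_23 L11395 N_23))))) (by decide +kernel)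
theorem L13291 : W_23 (nat_lit 2) (nat_lit 0x3f0008001000080000000000000000000000000000000) (nat_lit 0x0) (nat_lit 0x1c00000000000000000000000000000000000000) := D_23 (nat_lit 155) (nat_lit 156) (nat_lit 154) (nat_lit 0) (nat_lit 6) (nat_lit 10) (nat_lit 0) (nat_lit 5) (nat_lit 10) (by decide +kernel)
theorem L13292 : W_23 (nat_lit 3) (nat_lit 0x3e0008001000080000000000000000000000000000000) (nat_lit 0x0) (nat_lit 0x10005c00000000000000000000000000000000000000) := T_23 (nat_lit 172) (nat_lit 158) (nat_lit 2) (nat_lit 2) (nat_lit 10) L13291 (by decide +kernel)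
theorem L13293 : W_23 (nat_lit 4) (nat_lit 0x3e0000001000080000000000000000000000000000000) (nat_lit 0x0) (nat_lit 0x1001dc00000000000000000000000000000000000000) := T_23 (nat_lit 159) (nat_lit 160) (nat_lit 2) (nat_lit 3) (nat_lit 10) L13292 (by decide +kernel)
theorem L13294 : W_23 (nat_lit 2) (nat_lit 0x3e0000001000080000000000000000000000000000000) (nat_lit 0x0) (nat_lit 0x3800000000000000000000000000000000000000) := D_23 (nat_lit 156) (nat_lit 155) (nat_lit 157) (nat_lit 0) (nat_lit 6) (nat_lit 10) (nat_lit 0) (nat_lit 7) (nat_lit 10) (by decide +kernel)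
theorem L13303 : W_23 (nat_lit 7) (nat_lit 0x3c0000001000080000000000000000000000000000000) (nat_lit 0x0) (nat_lit 0x38043801fe00000000000000000000000000000000000000) := Q_23 (nat_lit 173) (C_23 L13293 (C_23 L13294 (C_23 L13299 (C_23 L13302 N_23)))) (by decide +kernel)
theorem L13309 : W_23 (nat_lit 8) (nat_lit 0x380000001000080000000000000000000000000000000) (nat_lit 0x0) (nat_lit 0x10000f80c7801fe00200010000000000000000000000000000000) := Q_23 (nat_lit 174) (C_23 L12701 (C_23 L13197 (C_23 L13263 (C_23 L13237 (C_23 L13303 (C_23 L13308 N_23)))))) (by decide +kernel)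
theorem L13310 : W_23 (nat_lit 9) (nat_lit 0x380000001000080000000000000000000000000000000) (nat_lit 0x0) (nat_lit 0x4003b800c0000e000f00178001c00000000000000000000000000) := Q_23 (nat_lit 178) (C_23 L13282 (C_23 L13285 (C_23 L11395 (C_23 L12881 N_23)))) (by decide +kernel)
theorem L13323 : W_23 (nat_lit 2) (nat_lit 0x3800100018000f0000800000000000000000000000000) (nat_lit 0x0) (nat_lit 0x8000400000002000000000000000000000000000) := D_23 (nat_lit 159) (nat_lit 109) (nat_lit 142) (nat_lit 5) (nat_lit 7) (nat_lit 6) (nat_lit 4) (nat_lit 6) (nat_lit 10) (by decide +kernel)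
theorem L13324 : W_23 (nat_lit 3) (nat_lit 0x3800100018000f0000000000000000000000000000000) (nat_lit 0x0) (nat_lit 0x8000400000002c00000000000000000000000000) := T_23 (nat_lit 107) (nat_lit 106) (nat_lit 0) (nat_lit 8) (nat_lit 7) L13323 (by decide +kernel)
theorem L13325 : W_23 (nat_lit 4) (nat_lit 0x3800000018000f0000000000000000000000000000000) (nat_lit 0x0) (nat_lit 0x18000400000003c00000000000000000000000000) := T_23 (nat_lit 160) (nat_lit 108) (nat_lit 4) (nat_lit 7) (nat_lit 10) L13324 (by decide +kernel)
theorem L13326 : W_23 (nat_lit 5) (nat_lit 0x3800000018000e0000000000000000000000000000000) (nat_lit 0x0) (nat_lit 0x18000400018003c00000000000000000000000000) := T_23 (nat_lit 124) (nat_lit 123) (nat_lit 3) (nat_lit 4) (nat_lit 7) L13325 (by decide +kernel)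
theorem L13327 : W_23 (nat_lit 9) (nat_lit 0x3800000018000e0000000000000000000000000000000) (nat_lit 0x0) (nat_lit 0x8000400010000700718039c00000000000000000000000000) := T_23 (nat_lit 160) (nat_lit 108) (nat_lit 4) (nat_lit 7) (nat_lit 10) L13320 (by decide +kernel)
theorem L13328 : W_23 (nat_lit 2) (nat_lit 0x380000001a000f0000800000000000000000000000000) (nat_lit 0x0) (nat_lit 0x8000400100000000000000000000000000000000) := D_23 (nat_lit 142) (nat_lit 128) (nat_lit 159) (nat_lit 2) (nat_lit 5) (nat_lit 8) (nat_lit 4) (nat_lit 6) (nat_lit 10) (by decide +kernel)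
theorem L13329 : W_23 (nat_lit 3) (nat_lit 0x380000001a000f0000000000000000000000000000000) (nat_lit 0x0) (nat_lit 0x8000400100000c00000000000000000000000000) := T_23 (nat_lit 107) (nat_lit 106) (nat_lit 0) (nat_lit 8) (nat_lit 7) L13328 (by decide +kernel)
theorem L13330 : W_23 (nat_lit 4) (nat_lit 0x3800000018000f0000000000000000000000000000000) (nat_lit 0x0) (nat_lit 0x8000700100000c00000000000000000000000000) := T_23 (nat_lit 141) (nat_lit 140) (nat_lit 1) (nat_lit 8) (nat_lit 7) L13329 (by decide +kernel)
theorem L13331 : W_23 (nat_lit 5) (nat_lit 0x3800000018000e0000000000000000000000000000000) (nat_lit 0x0) (nat_lit 0x8000700118000c00000000000000000000000000) := T_23 (nat_lit 124) (nat_lit 123) (nat_lit 3) (nat_lit 4) (nat_lit 7) L13330 (by decide +kernel)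
theorem L13332 : W_23 (nat_lit 2) (nat_lit 0x780018005a003f0008000000020000000000000000000) (nat_lit 0x0) (nat_lit 0x1800080000000000000000000000000000000000000000) := D_23 (nat_lit 180) (nat_lit 163) (nat_lit 179) (nat_lit 4) (nat_lit 10) (nat_lit 10) (nat_lit 0) (nat_lit 10) (nat_lit 10) (by decide +kernel)
theorem L13333 : W_23 (nat_lit 3) (nat_lit 0x780010005a003f0008000000020000000000000000000) (nat_lit 0x0) (nat_lit 0x1800088000000000002000000000000000000000000000) := T_23 (nat_lit 159) (nat_lit 109) (nat_lit 5) (nat_lit 7) (nat_lit 6) L13332 (by decide +kernel)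
theorem L13334 : W_23 (nat_lit 4) (nat_lit 0x780010001a003f0008000000020000000000000000000) (nat_lit 0x0) (nat_lit 0x180008800c000000002000000000000000000000000000) := T_23 (nat_lit 146) (nat_lit 147) (nat_lit 3) (nat_lit 7) (nat_lit 7) L13333 (by decide +kernel)
theorem L13335 : W_23 (nat_lit 5) (nat_lit 0x780010001a003f0008000000000000000000000000000) (nat_lit 0x0) (nat_lit 0x180008800c000000002000400020000000000000000000) := T_23 (nat_lit 77) (nat_lit 94) (nat_lit 5) (nat_lit 9) (nat_lit 4) L13334 (by decide +kernel)
theorem L13336 : W_23 (nat_lit 6) (nat_lit 0x780010001a001f0008000000000000000000000000000) (nat_lit 0x0) (nat_lit 0x180008800c000600002000400020000000000000000000) := T_23 (nat_lit 129) (nat_lit 130) (nat_lit 1) (nat_lit 11) (nat_lit 7) L13335 (by decide +kernel)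
theorem L13337 : W_23 (nat_lit 7) (nat_lit 0x780010001a001f0000000000000000000000000000000) (nat_lit 0x0) (nat_lit 0x180008800c00060001a000400020000000000000000000) := T_23 (nat_lit 111) (nat_lit 112) (nat_lit 2) (nat_lit 6) (nat_lit 7) L13336 (by decide +kernel)
theorem L13338 : W_23 (nat_lit 8) (nat_lit 0x780010001a000f0000000000000000000000000000000) (nat_lit 0x0) (nat_lit 0x180008800c40070001a000400020000000000000000000) := T_23 (nat_lit 128) (nat_lit 142) (nat_lit 2) (nat_lit 5) (nat_lit 8) L13337 (by decide +kernel)
theorem L13339 : W_23 (nat_lit 9) (nat_lit 0x380010001a000f0000000000000000000000000000000) (nat_lit 0x0) (nat_lit 0x8001c0008800c40070001a000400020000000000000000000) := T_23 (nat_lit 178) (nat_lit 195) (nat_lit 7) (nat_lit 7) (nat_lit 7) L13338 (by decide +kernel)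
theorem L13340 : W_23 (nat_lit 10) (nat_lit 0x3800100018000f0000000000000000000000000000000) (nat_lit 0x0) (nat_lit 0x8001c0008800c70070001a000400020000000000000000000) := T_23 (nat_lit 141) (nat_lit 140) (nat_lit 1) (nat_lit 8) (nat_lit 7) L13339 (by decide +kernel)
theorem L13341 : W_23 (nat_lit 11) (nat_lit 0x3800000018000f0000000000000000000000000000000) (nat_lit 0x0) (nat_lit 0x8001c0009800c70070001b000400020000000000000000000) := T_23 (nat_lit 160) (nat_lit 108) (nat_lit 4) (nat_lit 7) (nat_lit 10) L13340 (by decide +kernel)
theorem L13342 : W_23 (nat_lit 12) (nat_lit 0x3800000018000e0000000000000000000000000000000) (nat_lit 0x0) (nat_lit 0x8001c0009800c70071801b000400020000000000000000000) := T_23 (nat_lit 124) (nat_lit 123) (nat_lit 3) (nat_lit 4) (nat_lit 7) L13341 (by decide +kernel)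
theorem L13343 : W_23 (nat_lit 2) (nat_lit 0x3800000018001e0001000000000000000000000000000) (nat_lit 0x0) (nat_lit 0x400200002000000000000000000000000000) := D_23 (nat_lit 129) (nat_lit 109) (nat_lit 142) (nat_lit 0) (nat_lit 10) (nat_lit 7) (nat_lit 1) (nat_lit 10) (nat_lit 7) (by decide +kernel)
theorem L13344 : W_23 (nat_lit 3) (nat_lit 0x3800000018000e0001000000000000000000000000000) (nat_lit 0x0) (nat_lit 0x400300002800000000000000000000000000) := T_23 (nat_lit 128) (nat_lit 107) (nat_lit 0) (nat_lit 9) (nat_lit 7) L13343 (by decide +kernel)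
theorem L13345 : W_23 (nat_lit 4) (nat_lit 0x3800000018000e0000000000000000000000000000000) (nat_lit 0x0) (nat_lit 0x10000400300003800000000000000000000000000) := T_23 (nat_lit 108) (nat_lit 160) (nat_lit 4) (nat_lit 7) (nat_lit 10) L13344 (by decide +kernel)
theorem L13346 : W_23 (nat_lit 2) (nat_lit 0x3800000018001e8001000000004000000000000000000) (nat_lit 0x0) (nat_lit 0x600002000000000000000000000000000) := D_23 (nat_lit 129) (nat_lit 109) (nat_lit 130) (nat_lit 0) (nat_lit 10) (nat_lit 7) (nat_lit 1) (nat_lit 11) (nat_lit 7) (by decide +kernel)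
theorem L13347 : W_23 (nat_lit 3) (nat_lit 0x3800000018000e8001000000004000000000000000000) (nat_lit 0x0) (nat_lit 0x700002800000000000000000000000000) := T_23 (nat_lit 128) (nat_lit 107) (nat_lit 0) (nat_lit 9) (nat_lit 7) L13346 (by decide +kernel)
theorem L13348 : W_23 (nat_lit 4) (nat_lit 0x3800000018000e8001000000000000000000000000000) (nat_lit 0x0) (nat_lit 0x700002800080004000000000000000000) := T_23 (nat_lit 74) (nat_lit 91) (nat_lit 7) (nat_lit 6) (nat_lit 4) L13347 (by decide +kernel)
theorem L13349 : W_23 (nat_lit 5) (nat_lit 0x3800000018000e0001000000000000000000000000000) (nat_lit 0x0) (nat_lit 0x718002800080004000000000000000000) := T_23 (nat_lit 123) (nat_lit 124) (nat_lit 3) (nat_lit 4) (nat_lit 7) L13348 (by decide +kernel)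
theorem L13350 : W_23 (nat_lit 6) (nat_lit 0x3800000018000e0000000000000000000000000000000) (nat_lit 0x0) (nat_lit 0x10000000718003800080004000000000000000000) := T_23 (nat_lit 108) (nat_lit 160) (nat_lit 4) (nat_lit 7) (nat_lit 10) L13349 (by decide +kernel)
theorem L13351 : W_23 (nat_lit 13) (nat_lit 0x3800000018000c0000000000000000000000000000000) (nat_lit 0x0) (nat_lit 0x8001c0009800c70073803bc00480024000000000000000000) := Q_23 (nat_lit 125) (C_23 L13326 (C_23 L13327 (C_23 L13331 (C_23 L13342 (C_23 L13345 (C_23 L13350 N_23)))))) (by decide +kernel)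
theorem L13358 : W_23 (nat_lit 2) (nat_lit 0x380000001c000c0000000000000000000000000000000) (nat_lit 0x0) (nat_lit 0x300100000000000000000000000000000000) := D_23 (nat_lit 141) (nat_lit 140) (nat_lit 128) (nat_lit 2) (nat_lit 4) (nat_lit 8) (nat_lit 2) (nat_lit 5) (nat_lit 8) (by decide +kernel)
theorem L13359 : W_23 (nat_lit 4) (nat_lit 0x3800000018000c0000000000000000000000000000000) (nat_lit 0x0) (nat_lit 0x2000000008000700120002000100000000000000000000000) := Q_23 (nat_lit 142) (C_23 L13357 (C_23 L13358 N_23)) (by decide +kernel)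
theorem L13360 : W_23 (nat_lit 14) (nat_lit 0x380000001800080000000000000000000000000000000) (nat_lit 0x0) (nat_lit 0xa001c0009800c70077803bc0058002c000000000000000000) := Q_23 (nat_lit 126) (C_23 L13313 (C_23 L13322 (C_23 L13351 (C_23 L13355 (C_23 L13359 N_23))))) (by decide +kernel)
theorem L13361 : W_23 (nat_lit 5) (nat_lit 0x11000f80080001800080000000000000000000000000000000) (nat_lit 0x0) (nat_lit 0x1000100004600740000000000000000000000000000000) := T_23 (nat_lit 180) (nat_lit 164) (nat_lit 2) (nat_lit 7) (nat_lit 10) L8508 (by decide +kernel)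
theorem L13362 : W_23 (nat_lit 6) (nat_lit 0x11000f80000001800080000000000000000000000000000000) (nat_lit 0x0) (nat_lit 0x10001c0004600740000000000000000000000000000000) := T_23 (nat_lit 163) (nat_lit 162) (nat_lit 2) (nat_lit 6) (nat_lit 10) L13361 (by decide +kernel)
theorem L13363 : W_23 (nat_lit 7) (nat_lit 0x11000780000001800080000000000000000000000000000000) (nat_lit 0x0) (nat_lit 0x200018001c0004600740000000000000000000000000000000) := T_23 (nat_lit 179) (nat_lit 197) (nat_lit 3) (nat_lit 6) (nat_lit 10) L13362 (by decide +kernel)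
theorem L13364 : W_23 (nat_lit 8) (nat_lit 0x1000780000001800080000000000000000000000000000000) (nat_lit 0x0) (nat_lit 0x380018001c0004600740000000000000000000000000000000) := T_23 (nat_lit 196) (nat_lit 195) (nat_lit 3) (nat_lit 5) (nat_lit 10) L13363 (by decide +kernel)
theorem L13365 : W_23 (nat_lit 9) (nat_lit 0x780000001800080000000000000000000000000000000) (nat_lit 0x0) (nat_lit 0x398018001c0004600740000000000000000000000000000000) := T_23 (nat_lit 192) (nat_lit 191) (nat_lit 1) (nat_lit 8) (nat_lit 10) L13364 (by decide +kernel)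
theorem L13366 : W_23 (nat_lit 6) (nat_lit 0x1000f80080001800080000000000000000000000000000000) (nat_lit 0x0) (nat_lit 0x30001000100004600740000000000000000000000000000000) := T_23 (nat_lit 196) (nat_lit 197) (nat_lit 3) (nat_lit 6) (nat_lit 10) L13361 (by decide +kernel)
theorem L13367 : W_23 (nat_lit 7) (nat_lit 0x1000f80000001800080000000000000000000000000000000) (nat_lit 0x0) (nat_lit 0x300010001c0004600740000000000000000000000000000000) := T_23 (nat_lit 163) (nat_lit 162) (nat_lit 2) (nat_lit 6) (nat_lit 10) L13366 (by decide +kernel)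
theorem L13368 : W_23 (nat_lit 8) (nat_lit 0x1000780000001800080000000000000000000000000000000) (nat_lit 0x0) (nat_lit 0x320018001c0004600740000000000000000000000000000000) := T_23 (nat_lit 179) (nat_lit 193) (nat_lit 1) (nat_lit 9) (nat_lit 10) L13367 (by decide +kernel)
theorem L13369 : W_23 (nat_lit 9) (nat_lit 0x780000001800080000000000000000000000000000000) (nat_lit 0x0) (nat_lit 0x338018001c0004600740000000000000000000000000000000) := T_23 (nat_lit 192) (nat_lit 191) (nat_lit 1) (nat_lit 8) (nat_lit 10) L13368 (by decide +kernel)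
theorem L13383 : W_23 (nat_lit 2) (nat_lit 0x8800780000001b000d0000000000000000000000000000000) (nat_lit 0x0) (nat_lit 0x400040002000000000000000000000000000000000000000) := D_23 (nat_lit 174) (nat_lit 190) (nat_lit 157) (nat_lit 1) (nat_lit 7) (nat_lit 10) (nat_lit 6) (nat_lit 4) (nat_lit 11) (by decide +kernel)
theorem L13384 : W_23 (nat_lit 3) (nat_lit 0x8800780000001b000c0000000000000000000000000000000) (nat_lit 0x0) (nat_lit 0x400040002000000030000000000000000000000000000000) := T_23 (nat_lit 124) (nat_lit 125) (nat_lit 1) (nat_lit 8) (nat_lit 7) L13383 (by decide +kernel)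
theorem L13385 : W_23 (nat_lit 4) (nat_lit 0x8800780000001a000c0000000000000000000000000000000) (nat_lit 0x0) (nat_lit 0x400040002000500030000000000000000000000000000000) := T_23 (nat_lit 140) (nat_lit 142) (nat_lit 2) (nat_lit 4) (nat_lit 8) L13384 (by decide +kernel)
theorem L13386 : W_23 (nat_lit 5) (nat_lit 0x8800780000001a00080000000000000000000000000000000) (nat_lit 0x0) (nat_lit 0x400040012000500070000000000000000000000000000000) := T_23 (nat_lit 126) (nat_lit 160) (nat_lit 7) (nat_lit 7) (nat_lit 7) L13385 (by decide +kernel)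
theorem L13387 : W_23 (nat_lit 6) (nat_lit 0x8000780000001a00080000000000000000000000000000000) (nat_lit 0x0) (nat_lit 0x1c00040012000500070000000000000000000000000000000) := T_23 (nat_lit 191) (nat_lit 192) (nat_lit 1) (nat_lit 8) (nat_lit 10) L13386 (by decide +kernel)
theorem L13388 : W_23 (nat_lit 7) (nat_lit 0x780000001a00080000000000000000000000000000000) (nat_lit 0x0) (nat_lit 0x19c00040012000500070000000000000000000000000000000) := T_23 (nat_lit 195) (nat_lit 196) (nat_lit 3) (nat_lit 5) (nat_lit 10) L13387 (by decide +kernel)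
theorem L13389 : W_23 (nat_lit 2) (nat_lit 0x9000780000005a003c001a000000008000000000000000000) (nat_lit 0x0) (nat_lit 0x1000080000000000000000400000000000000000000000) := D_23 (nat_lit 163) (nat_lit 94) (nat_lit 180) (nat_lit 4) (nat_lit 10) (nat_lit 9) (nat_lit 4) (nat_lit 10) (nat_lit 10) (by decide +kernel)
theorem L13390 : W_23 (nat_lit 3) (nat_lit 0x9000780000005a003c0012000000008000000000000000000) (nat_lit 0x0) (nat_lit 0x1000080000000020008000400000000000000000000000) := T_23 (nat_lit 111) (nat_lit 125) (nat_lit 2) (nat_lit 6) (nat_lit 7) L13389 (by decide +kernel)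
theorem L13391 : W_23 (nat_lit 4) (nat_lit 0x9000780000005a003c0002000000008000000000000000000) (nat_lit 0x0) (nat_lit 0x1000080000000020038000400000000000000000000000) := T_23 (nat_lit 112) (nat_lit 113) (nat_lit 2) (nat_lit 7) (nat_lit 7) L13390 (by decide +kernel)
theorem L13392 : W_23 (nat_lit 5) (nat_lit 0x9000780000005a003c0002000000000000000000000000000) (nat_lit 0x0) (nat_lit 0x1000080000000020038000500008000000000000000000) := T_23 (nat_lit 75) (nat_lit 92) (nat_lit 7) (nat_lit 7) (nat_lit 4) L13391 (by decide +kernel)
theorem L13393 : W_23 (nat_lit 6) (nat_lit 0x9000780000001a003c0002000000000000000000000000000) (nat_lit 0x0) (nat_lit 0x100008000c000020038000500008000000000000000000) := T_23 (nat_lit 146) (nat_lit 147) (nat_lit 3) (nat_lit 7) (nat_lit 7) L13392 (by decide +kernel)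
theorem L13394 : W_23 (nat_lit 7) (nat_lit 0x9000780000001a003c0000000000000000000000000000000) (nat_lit 0x0) (nat_lit 0x100008000c00002003b000500008000000000000000000) := T_23 (nat_lit 109) (nat_lit 108) (nat_lit 0) (nat_lit 10) (nat_lit 7) L13393 (by decide +kernel)
theorem L13395 : W_23 (nat_lit 8) (nat_lit 0x9000780000001a001c0000000000000000000000000000000) (nat_lit 0x0) (nat_lit 0x100008000c00062003b000500008000000000000000000) := T_23 (nat_lit 129) (nat_lit 130) (nat_lit 1) (nat_lit 11) (nat_lit 7) L13394 (by decide +kernel)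
theorem L13396 : W_23 (nat_lit 9) (nat_lit 0x9000780000001a000c0000000000000000000000000000000) (nat_lit 0x0) (nat_lit 0x100008000c40072003b000500008000000000000000000) := T_23 (nat_lit 128) (nat_lit 142) (nat_lit 2) (nat_lit 5) (nat_lit 8) L13395 (by decide +kernel)
theorem L13397 : W_23 (nat_lit 10) (nat_lit 0x9000780000001a00080000000000000000000000000000000) (nat_lit 0x0) (nat_lit 0x100009000c40076003b000500008000000000000000000) := T_23 (nat_lit 126) (nat_lit 160) (nat_lit 7) (nat_lit 7) (nat_lit 7) L13396 (by decide +kernel)
theorem L13398 : W_23 (nat_lit 11) (nat_lit 0x8000780000001a00080000000000000000000000000000000) (nat_lit 0x0) (nat_lit 0x180100009000c40076003b000500008000000000000000000) := T_23 (nat_lit 192) (nat_lit 191) (nat_lit 1) (nat_lit 8) (nat_lit 10) L13397 (by decide +kernel)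
theorem L13399 : W_23 (nat_lit 12) (nat_lit 0x780000001a00080000000000000000000000000000000) (nat_lit 0x0) (nat_lit 0x1980100009000c40076003b000500008000000000000000000) := T_23 (nat_lit 195) (nat_lit 196) (nat_lit 3) (nat_lit 5) (nat_lit 10) L13398 (by decide +kernel)
theorem L13400 : W_23 (nat_lit 11) (nat_lit 0x800780000001a00080000000000000000000000000000000) (nat_lit 0x0) (nat_lit 0x18400040013000100778039c00000000000000000000000000) := T_23 (nat_lit 195) (nat_lit 196) (nat_lit 3) (nat_lit 5) (nat_lit 10) L8570 (by decide +kernel)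
theorem L13401 : W_23 (nat_lit 12) (nat_lit 0x780000001a00080000000000000000000000000000000) (nat_lit 0x0) (nat_lit 0x19c00040013000100778039c00000000000000000000000000) := T_23 (nat_lit 191) (nat_lit 192) (nat_lit 1) (nat_lit 8) (nat_lit 10) L13400 (by decide +kernel)
theorem L13402 : W_23 (nat_lit 13) (nat_lit 0x780000001800080000000000000000000000000000000) (nat_lit 0x0) (nat_lit 0x19c0104009300c70077c03bc00500008000000000000000000) := Q_23 (nat_lit 141) (C_23 L13378 (C_23 L13382 (C_23 L13388 (C_23 L8575 (C_23 L13399 (C_23 L13401 N_23)))))) (by decide +kernel)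
theorem L13420 : W_23 (nat_lit 14) (nat_lit 0x380000001800080000000000000000000000000000000) (nat_lit 0x0) (nat_lit 0x100008000fbc03c401d300c70077c03bc00500008000000000000000000) := Q_23 (nat_lit 178) (C_23 L13365 (C_23 L13369 (C_23 L13372 (C_23 L13402 (C_23 L13409 (C_23 L13419 N_23)))))) (by decide +kernel)
theorem L13421 : W_23 (nat_lit 2) (nat_lit 0x3a0018001c000e8000000000000000000000000000000) (nat_lit 0x0) (nat_lit 0x300100000000000000000000000000000000) := D_23 (nat_lit 141) (nat_lit 128) (nat_lit 140) (nat_lit 2) (nat_lit 5) (nat_lit 8) (nat_lit 2) (nat_lit 4) (nat_lit 8) (by decide +kernel)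
theorem L13422 : W_23 (nat_lit 3) (nat_lit 0x3a00180018000e8000000000000000000000000000000) (nat_lit 0x0) (nat_lit 0x1000000000000700100000000000000000000000000000000) := T_23 (nat_lit 142) (nat_lit 192) (nat_lit 5) (nat_lit 6) (nat_lit 7) L13421 (by decide +kernel)
theorem L13423 : W_23 (nat_lit 4) (nat_lit 0x3800180018000e8000000000000000000000000000000) (nat_lit 0x0) (nat_lit 0x1000060000000700100000000000000000000000000000000) := T_23 (nat_lit 173) (nat_lit 174) (nat_lit 2) (nat_lit 3) (nat_lit 10) L13422 (by decide +kernel)
theorem L13424 : W_23 (nat_lit 5) (nat_lit 0x3800100018000e8000000000000000000000000000000) (nat_lit 0x0) (nat_lit 0x1000060008000700100002000000000000000000000000000) := T_23 (nat_lit 159) (nat_lit 109) (nat_lit 5) (nat_lit 7) (nat_lit 6) L13423 (by decide +kernel)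
theorem L13425 : W_23 (nat_lit 6) (nat_lit 0x3800000018000e8000000000000000000000000000000) (nat_lit 0x0) (nat_lit 0x1000060018000700100003000000000000000000000000000) := T_23 (nat_lit 160) (nat_lit 108) (nat_lit 4) (nat_lit 7) (nat_lit 10) L13424 (by decide +kernel)
theorem L13426 : W_23 (nat_lit 7) (nat_lit 0x3800000018000e0000000000000000000000000000000) (nat_lit 0x0) (nat_lit 0x1000060018000700118003000000000000000000000000000) := T_23 (nat_lit 123) (nat_lit 124) (nat_lit 3) (nat_lit 4) (nat_lit 7) L13425 (by decide +kernel)
theorem L13427 : W_23 (nat_lit 8) (nat_lit 0x3800000018000c0000000000000000000000000000000) (nat_lit 0x0) (nat_lit 0x1000060018000700738003c00080004000000000000000000) := Q_23 (nat_lit 125) (C_23 L13326 (C_23 L13350 (C_23 L13331 (C_23 L13426 (C_23 L13345 N_23))))) (by decide +kernel)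
theorem L13436 : W_23 (nat_lit 10) (nat_lit 0x380000001800080000000000000000000000000000000) (nat_lit 0x0) (nat_lit 0x300006001800070077803bc0018000c000000000000000000) := Q_23 (nat_lit 126) (C_23 L13427 (C_23 L13435 (C_23 L13355 (C_23 L13359 N_23)))) (by decide +kernel)
theorem L13437 : W_23 (nat_lit 2) (nat_lit 0x3800100018001f0000000000000000000000000000000) (nat_lit 0x0) (nat_lit 0x700000000000000000000000000000000000) := D_23 (nat_lit 141) (nat_lit 142) (nat_lit 140) (nat_lit 2) (nat_lit 5) (nat_lit 8) (nat_lit 1) (nat_lit 8) (nat_lit 7) (by decide +kernel)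
theorem L13438 : W_23 (nat_lit 3) (nat_lit 0x3800100018001e0000000000000000000000000000000) (nat_lit 0x0) (nat_lit 0x700018000000000000000000000000000000) := T_23 (nat_lit 124) (nat_lit 123) (nat_lit 3) (nat_lit 4) (nat_lit 7) L13437 (by decide +kernel)
theorem L13439 : W_23 (nat_lit 4) (nat_lit 0x3800100018001c0000000000000000000000000000000) (nat_lit 0x0) (nat_lit 0x700038001000000000000000000000000000) := T_23 (nat_lit 125) (nat_lit 108) (nat_lit 4) (nat_lit 7) (nat_lit 10) L13438 (by decide +kernel)
theorem L13440 : W_23 (nat_lit 5) (nat_lit 0x3800000018001c0000000000000000000000000000000) (nat_lit 0x0) (nat_lit 0x2000000010000700038001000000000000000000000000000) := T_23 (nat_lit 160) (nat_lit 193) (nat_lit 5) (nat_lit 7) (nat_lit 7) L13439 (by decide +kernel)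
theorem L13441 : W_23 (nat_lit 2) (nat_lit 0x3800000018001c0000000000000000000000000000000) (nat_lit 0x0) (nat_lit 0x400600000000000000000000000000000000) := D_23 (nat_lit 129) (nat_lit 130) (nat_lit 142) (nat_lit 1) (nat_lit 11) (nat_lit 7) (nat_lit 1) (nat_lit 10) (nat_lit 7) (by decide +kernel)
theorem L13442 : W_23 (nat_lit 2) (nat_lit 0x3800100018003c0000000000000000000000000000000) (nat_lit 0x0) (nat_lit 0x20003000000000000000000000000000) := D_23 (nat_lit 108) (nat_lit 125) (nat_lit 109) (nat_lit 4) (nat_lit 7) (nat_lit 10) (nat_lit 0) (nat_lit 10) (nat_lit 7) (by decide +kernel)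
theorem L13443 : W_23 (nat_lit 3) (nat_lit 0x3800000018003c0000000000000000000000000000000) (nat_lit 0x0) (nat_lit 0x2000000010000000020003000000000000000000000000000) := T_23 (nat_lit 160) (nat_lit 193) (nat_lit 5) (nat_lit 7) (nat_lit 7) L13442 (by decide +kernel)
theorem L13444 : W_23 (nat_lit 4) (nat_lit 0x3800000018001c0000000000000000000000000000000) (nat_lit 0x0) (nat_lit 0x2000000010000000620003000000000000000000000000000) := T_23 (nat_lit 129) (nat_lit 130) (nat_lit 1) (nat_lit 11) (nat_lit 7) L13443 (by decide +kernel)
theorem L13445 : W_23 (nat_lit 6) (nat_lit 0x3800000018000c0000000000000000000000000000000) (nat_lit 0x0) (nat_lit 0x2000000010000700738003000000000000000000000000000) := Q_23 (nat_lit 128) (C_23 L13440 (C_23 L13441 (C_23 L13444 N_23))) (by decide +kernel)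
theorem L13446 : W_23 (nat_lit 2) (nat_lit 0x1000780010001c000e8000000000000000000000000000000) (nat_lit 0x0) (nat_lit 0x300100000000000000000000000000000000) := D_23 (nat_lit 141) (nat_lit 128) (nat_lit 140) (nat_lit 2) (nat_lit 5) (nat_lit 8) (nat_lit 2) (nat_lit 4) (nat_lit 8) (by decide +kernel)
theorem L13447 : W_23 (nat_lit 3) (nat_lit 0x10007800100018000e8000000000000000000000000000000) (nat_lit 0x0) (nat_lit 0x8000700100000000000000000000000000000000) := T_23 (nat_lit 142) (nat_lit 159) (nat_lit 5) (nat_lit 6) (nat_lit 7) L13446 (by decide +kernel)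
theorem L13448 : W_23 (nat_lit 4) (nat_lit 0x7800100018000e8000000000000000000000000000000) (nat_lit 0x0) (nat_lit 0x1800000008000700100000000000000000000000000000000) := T_23 (nat_lit 192) (nat_lit 191) (nat_lit 1) (nat_lit 8) (nat_lit 10) L13447 (by decide +kernel)
theorem L13449 : W_23 (nat_lit 5) (nat_lit 0x3800100018000e8000000000000000000000000000000) (nat_lit 0x0) (nat_lit 0x9800400008000700100000000000000000000000000000000) := T_23 (nat_lit 178) (nat_lit 195) (nat_lit 7) (nat_lit 7) (nat_lit 7) L13448 (by decide +kernel)
theorem L13450 : W_23 (nat_lit 6) (nat_lit 0x3800100018000e0000000000000000000000000000000) (nat_lit 0x0) (nat_lit 0x9800400008000700118000000000000000000000000000000) := T_23 (nat_lit 123) (nat_lit 124) (nat_lit 3) (nat_lit 4) (nat_lit 7) L13449 (by decide +kernel)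
theorem L13451 : W_23 (nat_lit 7) (nat_lit 0x3800100018000c0000000000000000000000000000000) (nat_lit 0x0) (nat_lit 0x9800400008000700138001000000000000000000000000000) := T_23 (nat_lit 125) (nat_lit 108) (nat_lit 4) (nat_lit 7) (nat_lit 10) L13450 (by decide +kernel)
theorem L13452 : W_23 (nat_lit 8) (nat_lit 0x3800000018000c0000000000000000000000000000000) (nat_lit 0x0) (nat_lit 0xb800400018000700138001000000000000000000000000000) := T_23 (nat_lit 160) (nat_lit 193) (nat_lit 5) (nat_lit 7) (nat_lit 7) L13451 (by decide +kernel)
theorem L13453 : W_23 (nat_lit 9) (nat_lit 0x380000001800080000000000000000000000000000000) (nat_lit 0x0) (nat_lit 0xb800460018000700778003c0018000c000000000000000000) := Q_23 (nat_lit 126) (C_23 L13427 (C_23 L13445 (C_23 L13355 (C_23 L13359 (C_23 L13452 N_23))))) (by decide +kernel)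
theorem L13465 : W_23 (nat_lit 2) (nat_lit 0x4003c0001001800080000000000000000000000000000000) (nat_lit 0x0) (nat_lit 0x200020000800000000000000000000000000000000000000) := D_23 (nat_lit 173) (nat_lit 189) (nat_lit 155) (nat_lit 1) (nat_lit 6) (nat_lit 10) (nat_lit 0) (nat_lit 6) (nat_lit 10) (by decide +kernel)
theorem L13466 : W_23 (nat_lit 3) (nat_lit 0x4003c0000001800080000000000000000000000000000000) (nat_lit 0x0) (nat_lit 0x200020003800000000000000000000000000000000000000) := T_23 (nat_lit 156) (nat_lit 157) (nat_lit 0) (nat_lit 7) (nat_lit 10) L13465 (by decide +kernel)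
theorem L13467 : W_23 (nat_lit 4) (nat_lit 0x3c0000001800080000000000000000000000000000000) (nat_lit 0x0) (nat_lit 0xe00020003800000000000000000000000000000000000000) := T_23 (nat_lit 190) (nat_lit 191) (nat_lit 1) (nat_lit 7) (nat_lit 10) L13466 (by decide +kernel)
theorem L13471 : W_23 (nat_lit 2) (nat_lit 0x4003e0009001e00090000000000000000000000000000000) (nat_lit 0x0) (nat_lit 0x1000000000000000020000800000000000000000000000000) := D_23 (nat_lit 125) (nat_lit 107) (nat_lit 192) (nat_lit 4) (nat_lit 6) (nat_lit 10) (nat_lit 5) (nat_lit 6) (nat_lit 7) (by decide +kernel)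
theorem L13472 : W_23 (nat_lit 3) (nat_lit 0x4003e0001001e00090000000000000000000000000000000) (nat_lit 0x0) (nat_lit 0x1000000018000000020000800000000000000000000000000) := T_23 (nat_lit 159) (nat_lit 160) (nat_lit 2) (nat_lit 3) (nat_lit 10) L13471 (by decide +kernel)
theorem L13473 : W_23 (nat_lit 4) (nat_lit 0x3e0001001e00090000000000000000000000000000000) (nat_lit 0x0) (nat_lit 0x1600000018000000020000800000000000000000000000000) := T_23 (nat_lit 190) (nat_lit 189) (nat_lit 1) (nat_lit 6) (nat_lit 10) L13472 (by decide +kernel)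
theorem L13474 : W_23 (nat_lit 5) (nat_lit 0x3c0001001e00090000000000000000000000000000000) (nat_lit 0x0) (nat_lit 0x1600020018800000020000800000000000000000000000000) := T_23 (nat_lit 173) (nat_lit 155) (nat_lit 0) (nat_lit 6) (nat_lit 10) L13473 (by decide +kernel)
theorem L13475 : W_23 (nat_lit 6) (nat_lit 0x3c0000001e00090000000000000000000000000000000) (nat_lit 0x0) (nat_lit 0x160002001b800000020000800000000000000000000000000) := T_23 (nat_lit 156) (nat_lit 157) (nat_lit 0) (nat_lit 7) (nat_lit 10) L13474 (by decide +kernel)
theorem L13476 : W_23 (nat_lit 7) (nat_lit 0x3c0000001e00080000000000000000000000000000000) (nat_lit 0x0) (nat_lit 0x160002001b800000038000800000000000000000000000000) := T_23 (nat_lit 124) (nat_lit 123) (nat_lit 0) (nat_lit 8) (nat_lit 8) L13475 (by decide +kernel)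
theorem L13477 : W_23 (nat_lit 8) (nat_lit 0x3c0000001c00080000000000000000000000000000000) (nat_lit 0x0) (nat_lit 0x160002001b800200138000800000000000000000000000000) := T_23 (nat_lit 141) (nat_lit 128) (nat_lit 2) (nat_lit 5) (nat_lit 8) L13476 (by decide +kernel)
theorem L13478 : W_23 (nat_lit 2) (nat_lit 0x4003e0009001c000b0000000000000000000000000000000) (nat_lit 0x0) (nat_lit 0x200048000000000000000000000000000000) := D_23 (nat_lit 123) (nat_lit 126) (nat_lit 141) (nat_lit 3) (nat_lit 4) (nat_lit 7) (nat_lit 0) (nat_lit 8) (nat_lit 8) (by decide +kernel)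
theorem L13479 : W_23 (nat_lit 3) (nat_lit 0x4003e0009001c000a0000000000000000000000000000000) (nat_lit 0x0) (nat_lit 0x200058000800000000000000000000000000) := T_23 (nat_lit 124) (nat_lit 107) (nat_lit 4) (nat_lit 6) (nat_lit 10) L13478 (by decide +kernel)
theorem L13480 : W_23 (nat_lit 4) (nat_lit 0x4003e0009001c00080000000000000000000000000000000) (nat_lit 0x0) (nat_lit 0x1000000000000200078000800000000000000000000000000) := T_23 (nat_lit 125) (nat_lit 192) (nat_lit 5) (nat_lit 6) (nat_lit 7) L13479 (by decide +kernel)
theorem L13481 : W_23 (nat_lit 5) (nat_lit 0x4003e0001001c00080000000000000000000000000000000) (nat_lit 0x0) (nat_lit 0x1000000018000200078000800000000000000000000000000) := T_23 (nat_lit 159) (nat_lit 160) (nat_lit 2) (nat_lit 3) (nat_lit 10) L13480 (by decide +kernel)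
theorem L13482 : W_23 (nat_lit 6) (nat_lit 0x3e0001001c00080000000000000000000000000000000) (nat_lit 0x0) (nat_lit 0x1600000018000200078000800000000000000000000000000) := T_23 (nat_lit 190) (nat_lit 189) (nat_lit 1) (nat_lit 6) (nat_lit 10) L13481 (by decide +kernel)
theorem L13483 : W_23 (nat_lit 7) (nat_lit 0x3c0001001c00080000000000000000000000000000000) (nat_lit 0x0) (nat_lit 0x1600020018800200078000800000000000000000000000000) := T_23 (nat_lit 173) (nat_lit 155) (nat_lit 0) (nat_lit 6) (nat_lit 10) L13482 (by decide +kernel)
theorem L13484 : W_23 (nat_lit 8) (nat_lit 0x3c0000001c00080000000000000000000000000000000) (nat_lit 0x0) (nat_lit 0x160002001b800200078000800000000000000000000000000) := T_23 (nat_lit 156) (nat_lit 157) (nat_lit 0) (nat_lit 7) (nat_lit 10) L13483 (by decide +kernel)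
theorem L13500 : W_23 (nat_lit 9) (nat_lit 0x3c0000001800080000000000000000000000000000000) (nat_lit 0x0) (nat_lit 0x160002001b80078017c000800000000000000000000000000) := Q_23 (nat_lit 142) (C_23 L13470 (C_23 L13477 (C_23 L13484 (C_23 L13491 (C_23 L13495 (C_23 L13499 N_23)))))) (by decide +kernel)
theorem L13501 : W_23 (nat_lit 2) (nat_lit 0x80007e0001001800080000000000000000000000000000000) (nat_lit 0x0) (nat_lit 0x18000000040000000000000000000000000000000) := D_23 (nat_lit 160) (nat_lit 126) (nat_lit 159) (nat_lit 7) (nat_lit 7) (nat_lit 7) (nat_lit 2) (nat_lit 3) (nat_lit 10) (by decide +kernel)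
theorem L13502 : W_23 (nat_lit 3) (nat_lit 0x80007c0001001800080000000000000000000000000000000) (nat_lit 0x0) (nat_lit 0x20018800000040000000000000000000000000000000) := T_23 (nat_lit 173) (nat_lit 155) (nat_lit 0) (nat_lit 6) (nat_lit 10) L13501 (by decide +kernel)
theorem L13503 : W_23 (nat_lit 4) (nat_lit 0x7c0001001800080000000000000000000000000000000) (nat_lit 0x0) (nat_lit 0x18000020018800000040000000000000000000000000000000) := T_23 (nat_lit 195) (nat_lit 196) (nat_lit 3) (nat_lit 5) (nat_lit 10) L13502 (by decide +kernel)
theorem L13504 : W_23 (nat_lit 5) (nat_lit 0x7c0000001800080000000000000000000000000000000) (nat_lit 0x0) (nat_lit 0x1800002001b800000040000000000000000000000000000000) := T_23 (nat_lit 156) (nat_lit 157) (nat_lit 0) (nat_lit 7) (nat_lit 10) L13503 (by decide +kernel)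
theorem L13523 : W_23 (nat_lit 9) (nat_lit 0x7c0001001800080000000000000000000000000000000) (nat_lit 0x0) (nat_lit 0x40002000180002001880070017c000000000000000000000000000000) := T_23 (nat_lit 192) (nat_lit 191) (nat_lit 1) (nat_lit 8) (nat_lit 10) L13522 (by decide +kernel)
theorem L13524 : W_23 (nat_lit 10) (nat_lit 0x7c0000001800080000000000000000000000000000000) (nat_lit 0x0) (nat_lit 0x40002000180002001b80070017c000000000000000000000000000000) := T_23 (nat_lit 156) (nat_lit 157) (nat_lit 0) (nat_lit 7) (nat_lit 10) L13523 (by decide +kernel)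
theorem L13525 : W_23 (nat_lit 2) (nat_lit 0x4400000011001fc0082001800388000000000000000000000000000000) (nat_lit 0x0) (nat_lit 0x600040000000000000000000000000000000) := D_23 (nat_lit 142) (nat_lit 126) (nat_lit 141) (nat_lit 1) (nat_lit 10) (nat_lit 7) (nat_lit 2) (nat_lit 5) (nat_lit 8) (by decide +kernel)
theorem L13526 : W_23 (nat_lit 3) (nat_lit 0x4400000011001fc0082001800288000000000000000000000000000000) (nat_lit 0x0) (nat_lit 0x600540000000000000000000000000000000) := T_23 (nat_lit 128) (nat_lit 130) (nat_lit 1) (nat_lit 11) (nat_lit 7) L13525 (by decide +kernel)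
theorem L13527 : W_23 (nat_lit 4) (nat_lit 0x4400000011001fc0082001800088000000000000000000000000000000) (nat_lit 0x0) (nat_lit 0x4600740000000000000000000000000000000) := T_23 (nat_lit 129) (nat_lit 146) (nat_lit 5) (nat_lit 10) (nat_lit 7) L13526 (by decide +kernel)
theorem L13528 : W_23 (nat_lit 5) (nat_lit 0x400000011001fc0082001800088000000000000000000000000000000) (nat_lit 0x0) (nat_lit 0x4000200000000000000004600740000000000000000000000000000000) := T_23 (nat_lit 230) (nat_lit 213) (nat_lit 6) (nat_lit 9) (nat_lit 13) L13527 (by decide +kernel)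
theorem L13529 : W_23 (nat_lit 6) (nat_lit 0x11001fc0082001800088000000000000000000000000000000) (nat_lit 0x0) (nat_lit 0x4400220000000000000004600740000000000000000000000000000000) := T_23 (nat_lit 226) (nat_lit 209) (nat_lit 4) (nat_lit 5) (nat_lit 13) L13528 (by decide +kernel)
theorem L13530 : W_23 (nat_lit 7) (nat_lit 0x11000fc0082001800088000000000000000000000000000000) (nat_lit 0x0) (nat_lit 0x4400220000001000100004600740000000000000000000000000000000) := T_23 (nat_lit 180) (nat_lit 164) (nat_lit 2) (nat_lit 7) (nat_lit 10) L13529 (by decide +kernel)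
theorem L13531 : W_23 (nat_lit 8) (nat_lit 0x11000fc0082001800080000000000000000000000000000000) (nat_lit 0x0) (nat_lit 0x4400220000001000100004700748000000000000000000000000000000) := T_23 (nat_lit 123) (nat_lit 140) (nat_lit 7) (nat_lit 4) (nat_lit 7) L13530 (by decide +kernel)
theorem L13532 : W_23 (nat_lit 9) (nat_lit 0x11000fc0002001800080000000000000000000000000000000) (nat_lit 0x0) (nat_lit 0x44002200000010001c0004700748000000000000000000000000000000) := T_23 (nat_lit 163) (nat_lit 162) (nat_lit 2) (nat_lit 6) (nat_lit 10) L13531 (by decide +kernel)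
theorem L13533 : W_23 (nat_lit 10) (nat_lit 0x110007c0002001800080000000000000000000000000000000) (nat_lit 0x0) (nat_lit 0x44002200200018001c0004700748000000000000000000000000000000) := T_23 (nat_lit 179) (nat_lit 197) (nat_lit 3) (nat_lit 6) (nat_lit 10) L13532 (by decide +kernel)
theorem L13534 : W_23 (nat_lit 11) (nat_lit 0x110007c0000001800080000000000000000000000000000000) (nat_lit 0x0) (nat_lit 0x44002200200018001c3004700748000000000000000000000000000000) := T_23 (nat_lit 157) (nat_lit 156) (nat_lit 0) (nat_lit 7) (nat_lit 10) L13533 (by decide +kernel)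
theorem L13535 : W_23 (nat_lit 12) (nat_lit 0x10007c0000001800080000000000000000000000000000000) (nat_lit 0x0) (nat_lit 0x44002200380018001c3004700748000000000000000000000000000000) := T_23 (nat_lit 196) (nat_lit 195) (nat_lit 3) (nat_lit 5) (nat_lit 10) L13534 (by decide +kernel)
theorem L13536 : W_23 (nat_lit 13) (nat_lit 0x7c0000001800080000000000000000000000000000000) (nat_lit 0x0) (nat_lit 0x44002200398018001c3004700748000000000000000000000000000000) := T_23 (nat_lit 192) (nat_lit 191) (nat_lit 1) (nat_lit 8) (nat_lit 10) L13535 (by decide +kernel)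
theorem L13537 : W_23 (nat_lit 2) (nat_lit 0x4400000011001fc008a001c00280000000000000000000000000000000) (nat_lit 0x0) (nat_lit 0x200500000000000000000000000000000000) := D_23 (nat_lit 128) (nat_lit 130) (nat_lit 141) (nat_lit 1) (nat_lit 11) (nat_lit 7) (nat_lit 2) (nat_lit 5) (nat_lit 8) (by decide +kernel)
theorem L13538 : W_23 (nat_lit 3) (nat_lit 0x4400000011001fc008a001c00080000000000000000000000000000000) (nat_lit 0x0) (nat_lit 0x4200700000000000000000000000000000000) := T_23 (nat_lit 129) (nat_lit 146) (nat_lit 5) (nat_lit 10) (nat_lit 7) L13537 (by decide +kernel)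
theorem L13539 : W_23 (nat_lit 4) (nat_lit 0x4000000011001fc008a001c00080000000000000000000000000000000) (nat_lit 0x0) (nat_lit 0x400020000000000000004200700000000000000000000000000000000) := T_23 (nat_lit 226) (nat_lit 209) (nat_lit 6) (nat_lit 5) (nat_lit 13) L13538 (by decide +kernel)
theorem L13540 : W_23 (nat_lit 5) (nat_lit 0x4000000011001fc008a001800080000000000000000000000000000000) (nat_lit 0x0) (nat_lit 0x400020000000000000004600720000000000000000000000000000000) := T_23 (nat_lit 142) (nat_lit 125) (nat_lit 5) (nat_lit 6) (nat_lit 7) L13539 (by decide +kernel)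
theorem L13541 : W_23 (nat_lit 6) (nat_lit 0x11001fc008a001800080000000000000000000000000000000) (nat_lit 0x0) (nat_lit 0x4400220000000000000004600720000000000000000000000000000000) := T_23 (nat_lit 230) (nat_lit 213) (nat_lit 6) (nat_lit 9) (nat_lit 13) L13540 (by decide +kernel)
theorem L13542 : W_23 (nat_lit 7) (nat_lit 0x11001fc0082001800080000000000000000000000000000000) (nat_lit 0x0) (nat_lit 0x4400220000000000018004600720000000000000000000000000000000) := T_23 (nat_lit 159) (nat_lit 160) (nat_lit 0) (nat_lit 10) (nat_lit 10) L13541 (by decide +kernel)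
theorem L13543 : W_23 (nat_lit 8) (nat_lit 0x11000fc0082001800080000000000000000000000000000000) (nat_lit 0x0) (nat_lit 0x4400220000001000118004600720000000000000000000000000000000) := T_23 (nat_lit 180) (nat_lit 164) (nat_lit 2) (nat_lit 7) (nat_lit 10) L13542 (by decide +kernel)
theorem L13544 : W_23 (nat_lit 9) (nat_lit 0x11000fc0080001800080000000000000000000000000000000) (nat_lit 0x0) (nat_lit 0x440022000000100011b004600720000000000000000000000000000000) := T_23 (nat_lit 157) (nat_lit 156) (nat_lit 0) (nat_lit 7) (nat_lit 10) L13543 (by decide +kernel)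
theorem L13545 : W_23 (nat_lit 10) (nat_lit 0x11000fc0000001800080000000000000000000000000000000) (nat_lit 0x0) (nat_lit 0x44002200000010001db004600720000000000000000000000000000000) := T_23 (nat_lit 163) (nat_lit 162) (nat_lit 2) (nat_lit 6) (nat_lit 10) L13544 (by decide +kernel)
theorem L13546 : W_23 (nat_lit 11) (nat_lit 0x110007c0000001800080000000000000000000000000000000) (nat_lit 0x0) (nat_lit 0x44002200200018001db004600720000000000000000000000000000000) := T_23 (nat_lit 179) (nat_lit 197) (nat_lit 3) (nat_lit 6) (nat_lit 10) L13545 (by decide +kernel)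
theorem L13547 : W_23 (nat_lit 12) (nat_lit 0x100007c0000001800080000000000000000000000000000000) (nat_lit 0x0) (nat_lit 0x44002200218018001db004600720000000000000000000000000000000) := T_23 (nat_lit 192) (nat_lit 191) (nat_lit 1) (nat_lit 8) (nat_lit 10) L13546 (by decide +kernel)
theorem L13548 : W_23 (nat_lit 13) (nat_lit 0x7c0000001800080000000000000000000000000000000) (nat_lit 0x0) (nat_lit 0x44002200398018001db004600720000000000000000000000000000000) := T_23 (nat_lit 196) (nat_lit 195) (nat_lit 3) (nat_lit 5) (nat_lit 10) L13547 (by decide +kernel)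
theorem L13549 : W_23 (nat_lit 14) (nat_lit 0x3c0000001800080000000000000000000000000000000) (nat_lit 0x0) (nat_lit 0x6400320039801c201db80478077c000000000000000000000000000000) := Q_23 (nat_lit 178) (C_23 L13504 (C_23 L13515 (C_23 L13524 (C_23 L13536 (C_23 L13548 N_23))))) (by decide +kernel)
theorem L13550 : W_23 (nat_lit 15) (nat_lit 0x380000001800080000000000000000000000000000000) (nat_lit 0x0) (nat_lit 0x6400320039e01c601db80478077c000800000000000000000000000000) := Q_23 (nat_lit 174) (C_23 L13464 (C_23 L13467 (C_23 L13500 (C_23 L13549 N_23)))) (by decide +kernel)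
theorem L13551 : W_23 (nat_lit 2) (nat_lit 0x3e0000001800080000000000000000000000000000000) (nat_lit 0x0) (nat_lit 0xe00000000000000000000000000000000000000000000000) := D_23 (nat_lit 190) (nat_lit 191) (nat_lit 189) (nat_lit 1) (nat_lit 7) (nat_lit 10) (nat_lit 1) (nat_lit 6) (nat_lit 10) (by decide +kernel)
theorem L13560 : W_23 (nat_lit 10) (nat_lit 0x2003e0008001800080000000000000000000000000000000) (nat_lit 0x0) (nat_lit 0x48002400310001000180078013c000000000000000000000000000000) := T_23 (nat_lit 156) (nat_lit 155) (nat_lit 0) (nat_lit 6) (nat_lit 10) L13559 (by decide +kernel)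
theorem L13561 : W_23 (nat_lit 11) (nat_lit 0x3e0008001800080000000000000000000000000000000) (nat_lit 0x0) (nat_lit 0x48002400370001000180078013c000000000000000000000000000000) := T_23 (nat_lit 189) (nat_lit 190) (nat_lit 1) (nat_lit 6) (nat_lit 10) L13560 (by decide +kernel)
theorem L13562 : W_23 (nat_lit 12) (nat_lit 0x3e0000001800080000000000000000000000000000000) (nat_lit 0x0) (nat_lit 0x48002400370001001980078013c000000000000000000000000000000) := T_23 (nat_lit 159) (nat_lit 160) (nat_lit 2) (nat_lit 3) (nat_lit 10) L13561 (by decide +kernel)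
theorem L13567 : W_23 (nat_lit 6) (nat_lit 0x3e0000801800080000000000000000000000000000000) (nat_lit 0x0) (nat_lit 0x3b00418018400000000000000000000000000000000000000) := T_23 (nat_lit 159) (nat_lit 160) (nat_lit 2) (nat_lit 3) (nat_lit 10) L13566 (by decide +kernel)
theorem L13568 : W_23 (nat_lit 7) (nat_lit 0x3e0000001800080000000000000000000000000000000) (nat_lit 0x0) (nat_lit 0x3b00418019c00000000000000000000000000000000000000) := T_23 (nat_lit 155) (nat_lit 156) (nat_lit 0) (nat_lit 6) (nat_lit 10) L13567 (by decide +kernel)
theorem L13569 : W_23 (nat_lit 2) (nat_lit 0x18003e0009001800080000000000000000000000000000000) (nat_lit 0x0) (nat_lit 0x2000018000000000000000000000000000000000000000000) := D_23 (nat_lit 172) (nat_lit 171) (nat_lit 193) (nat_lit 3) (nat_lit 1) (nat_lit 10) (nat_lit 3) (nat_lit 2) (nat_lit 10) (by decide +kernel)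
theorem L13570 : W_23 (nat_lit 3) (nat_lit 0x8003e0009001800080000000000000000000000000000000) (nat_lit 0x0) (nat_lit 0x3000418000000000000000000000000000000000000000000) := T_23 (nat_lit 192) (nat_lit 178) (nat_lit 1) (nat_lit 8) (nat_lit 10) L13569 (by decide +kernel)
theorem L13571 : W_23 (nat_lit 4) (nat_lit 0x8003e0008001800080000000000000000000000000000000) (nat_lit 0x0) (nat_lit 0x3000418001800000000000000000000000000000000000000) := T_23 (nat_lit 156) (nat_lit 155) (nat_lit 0) (nat_lit 6) (nat_lit 10) L13570 (by decide +kernel)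
theorem L13572 : W_23 (nat_lit 5) (nat_lit 0x3e0008001800080000000000000000000000000000000) (nat_lit 0x0) (nat_lit 0x3c00418001800000000000000000000000000000000000000) := T_23 (nat_lit 191) (nat_lit 190) (nat_lit 1) (nat_lit 7) (nat_lit 10) L13571 (by decide +kernel)
theorem L13573 : W_23 (nat_lit 6) (nat_lit 0x3e0000001800080000000000000000000000000000000) (nat_lit 0x0) (nat_lit 0x3c00418019800000000000000000000000000000000000000) := T_23 (nat_lit 159) (nat_lit 160) (nat_lit 2) (nat_lit 3) (nat_lit 10) L13572 (by decide +kernel)
theorem L13574 : W_23 (nat_lit 13) (nat_lit 0x3c0000001800080000000000000000000000000000000) (nat_lit 0x0) (nat_lit 0x480024003f00438019c0078013c000000000000000000000000000000) := Q_23 (nat_lit 173) (C_23 L13551 (C_23 L13562 (C_23 L13568 (C_23 L13573 N_23)))) (by decide +kernel)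
theorem L13581 : W_23 (nat_lit 4) (nat_lit 0x3c0002001800080000000000000000000000000000000) (nat_lit 0x0) (nat_lit 0x400020001c00400000000100000000000000000000000000000000000) := T_23 (nat_lit 191) (nat_lit 190) (nat_lit 1) (nat_lit 7) (nat_lit 10) L13580 (by decide +kernel)
theorem L13582 : W_23 (nat_lit 5) (nat_lit 0x3c0000001800080000000000000000000000000000000) (nat_lit 0x0) (nat_lit 0x400020001c00400003000100000000000000000000000000000000000) := T_23 (nat_lit 157) (nat_lit 156) (nat_lit 0) (nat_lit 7) (nat_lit 10) L13581 (by decide +kernel)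
theorem L13594 : W_23 (nat_lit 13) (nat_lit 0x3c0000001800080000000000000000000000000000000) (nat_lit 0x0) (nat_lit 0x48002403bb00c3001b80078013c000000000000000000000000000000) := Q_23 (nat_lit 192) (C_23 L13585 (C_23 L13588 (C_23 L13593 N_23))) (by decide +kernel)
theorem L13613 : W_23 (nat_lit 7) (nat_lit 0x3c0000001800080000000000000000000000000000000) (nat_lit 0x0) (nat_lit 0x400020003c0040000a00070013c000800040000000000000000000000) := Q_23 (nat_lit 142) (C_23 L13598 (C_23 L13603 (C_23 L13608 (C_23 L13612 N_23)))) (by decide +kernel)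
theorem L13614 : W_23 (nat_lit 14) (nat_lit 0x380000001800080000000000000000000000000000000) (nat_lit 0x0) (nat_lit 0x48002403bf00c7801bc0078013c000800040000000000000000000000) := Q_23 (nat_lit 174) (C_23 L13467 (C_23 L13574 (C_23 L13578 (C_23 L13582 (C_23 L13594 (C_23 L13613 N_23)))))) (by decide +kernel)
theorem L13630 : W_23 (nat_lit 13) (nat_lit 0x380000001800080000000000000000000000000000000) (nat_lit 0x0) (nat_lit 0x448022403bf01c701db804700750000000000000000000000000000000) := Q_23 (nat_lit 174) (C_23 L13582 (C_23 L13464 (C_23 L13467 (C_23 L13623 (C_23 L13629 N_23))))) (by decide +kernel)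
theorem L13639 : W_23 (nat_lit 10) (nat_lit 0x4003e0000001800080000000000000000000000000000000) (nat_lit 0x0) (nat_lit 0xa0004000198001c007e001500000000000000000000000000) := T_23 (nat_lit 156) (nat_lit 155) (nat_lit 0) (nat_lit 6) (nat_lit 10) L13638 (by decide +kernel)
theorem L13640 : W_23 (nat_lit 11) (nat_lit 0x4003c0000001800080000000000000000000000000000000) (nat_lit 0x0) (nat_lit 0xa2004200198001c007e001500000000000000000000000000) := T_23 (nat_lit 173) (nat_lit 189) (nat_lit 1) (nat_lit 6) (nat_lit 10) L13639 (by decide +kernel)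
theorem L13641 : W_23 (nat_lit 12) (nat_lit 0x3c0000001800080000000000000000000000000000000) (nat_lit 0x0) (nat_lit 0xae004200198001c007e001500000000000000000000000000) := T_23 (nat_lit 190) (nat_lit 191) (nat_lit 1) (nat_lit 7) (nat_lit 10) L13640 (by decide +kernel)
theorem L13647 : W_23 (nat_lit 2) (nat_lit 0x7c00100018000e8000000000000000000000000000000) (nat_lit 0x0) (nat_lit 0x1c00000000000000000000000000000000000000000000000) := D_23 (nat_lit 191) (nat_lit 192) (nat_lit 190) (nat_lit 1) (nat_lit 8) (nat_lit 10) (nat_lit 1) (nat_lit 7) (nat_lit 10) (by decide +kernel)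
theorem L13648 : W_23 (nat_lit 3) (nat_lit 0x3c00100018000e8000000000000000000000000000000) (nat_lit 0x0) (nat_lit 0x9c00400000000000000000000000000000000000000000000) := T_23 (nat_lit 178) (nat_lit 195) (nat_lit 7) (nat_lit 7) (nat_lit 7) L13647 (by decide +kernel)
theorem L13649 : W_23 (nat_lit 4) (nat_lit 0x3c00100018000e0000000000000000000000000000000) (nat_lit 0x0) (nat_lit 0x9c00400000000000018000000000000000000000000000000) := T_23 (nat_lit 123) (nat_lit 124) (nat_lit 3) (nat_lit 4) (nat_lit 7) L13648 (by decide +kernel)
theorem L13650 : W_23 (nat_lit 5) (nat_lit 0x3c00100018000c0000000000000000000000000000000) (nat_lit 0x0) (nat_lit 0x9c00400000000000038001000000000000000000000000000) := T_23 (nat_lit 125) (nat_lit 108) (nat_lit 4) (nat_lit 7) (nat_lit 10) L13649 (by decide +kernel)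
theorem L13651 : W_23 (nat_lit 6) (nat_lit 0x3c0010001800080000000000000000000000000000000) (nat_lit 0x0) (nat_lit 0xbc00400000000000078001000000000000000000000000000) := T_23 (nat_lit 126) (nat_lit 193) (nat_lit 5) (nat_lit 7) (nat_lit 7) L13650 (by decide +kernel)
theorem L13652 : W_23 (nat_lit 2) (nat_lit 0x8007e0010001800080000000000000000000000000000000) (nat_lit 0x0) (nat_lit 0x18000000000000000040000000000000000000000000000000) := D_23 (nat_lit 195) (nat_lit 196) (nat_lit 126) (nat_lit 3) (nat_lit 5) (nat_lit 10) (nat_lit 7) (nat_lit 7) (nat_lit 7) (by decide +kernel)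
theorem L13653 : W_23 (nat_lit 3) (nat_lit 0x8003e0010001800080000000000000000000000000000000) (nat_lit 0x0) (nat_lit 0x19000400000000000040000000000000000000000000000000) := T_23 (nat_lit 178) (nat_lit 192) (nat_lit 1) (nat_lit 8) (nat_lit 10) L13652 (by decide +kernel)
theorem L13654 : W_23 (nat_lit 4) (nat_lit 0x8003c0010001800080000000000000000000000000000000) (nat_lit 0x0) (nat_lit 0x19000420008000000040000000000000000000000000000000) := T_23 (nat_lit 173) (nat_lit 159) (nat_lit 2) (nat_lit 3) (nat_lit 10) L13653 (by decide +kernel)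
theorem L13655 : W_23 (nat_lit 5) (nat_lit 0x3c0010001800080000000000000000000000000000000) (nat_lit 0x0) (nat_lit 0x19c00420008000000040000000000000000000000000000000) := T_23 (nat_lit 191) (nat_lit 190) (nat_lit 1) (nat_lit 7) (nat_lit 10) L13654 (by decide +kernel)
theorem L13660 : W_23 (nat_lit 7) (nat_lit 0x3c0000001800080000000000000000000000000000000) (nat_lit 0x0) (nat_lit 0x1bc00438018000000078003000000000000000000000000000) := Q_23 (nat_lit 160) (C_23 L13646 (C_23 L13651 (C_23 L13655 (C_23 L13659 N_23)))) (by decide +kernel)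
theorem L13661 : W_23 (nat_lit 13) (nat_lit 0x380000001800080000000000000000000000000000000) (nat_lit 0x0) (nat_lit 0x40002001be00c7801b8001c007e003500000000000000000000000000) := Q_23 (nat_lit 174) (C_23 L13582 (C_23 L13641 (C_23 L13467 (C_23 L13644 (C_23 L13629 (C_23 L13660 N_23)))))) (by decide +kernel)
theorem L13662 : W_23 (nat_lit 4) (nat_lit 0x1000380000001800080000000000000000000000000000000) (nat_lit 0x0) (nat_lit 0x3a800c00000000000000000000000000000000000000000000) := T_23 (nat_lit 178) (nat_lit 191) (nat_lit 1) (nat_lit 8) (nat_lit 10) L13371 (by decide +kernel)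
theorem L13666 : W_23 (nat_lit 2) (nat_lit 0x1000380000001f000a8000000000000000000000000000000) (nat_lit 0x0) (nat_lit 0x40003000000000000000000000000000000000000000) := D_23 (nat_lit 157) (nat_lit 156) (nat_lit 174) (nat_lit 1) (nat_lit 7) (nat_lit 8) (nat_lit 7) (nat_lit 4) (nat_lit 7) (by decide +kernel)
theorem L13667 : W_23 (nat_lit 3) (nat_lit 0x1000380000001e000a8000000000000000000000000000000) (nat_lit 0x0) (nat_lit 0x40003000100004000000000000000000000000000000) := T_23 (nat_lit 140) (nat_lit 122) (nat_lit 0) (nat_lit 7) (nat_lit 8) L13666 (by decide +kernel)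
theorem L13668 : W_23 (nat_lit 4) (nat_lit 0x1000380000001e000a0000000000000000000000000000000) (nat_lit 0x0) (nat_lit 0x4000300010001c000000000000000000000000000000) := T_23 (nat_lit 123) (nat_lit 124) (nat_lit 0) (nat_lit 8) (nat_lit 8) L13667 (by decide +kernel)
theorem L13669 : W_23 (nat_lit 5) (nat_lit 0x1000380000001c000a0000000000000000000000000000000) (nat_lit 0x0) (nat_lit 0x4000300030011c000000000000000000000000000000) := T_23 (nat_lit 141) (nat_lit 128) (nat_lit 2) (nat_lit 5) (nat_lit 8) L13668 (by decide +kernel)
theorem L13670 : W_23 (nat_lit 6) (nat_lit 0x1000380000001c00080000000000000000000000000000000) (nat_lit 0x0) (nat_lit 0x4000b00030013c000000000000000000000000000000) := T_23 (nat_lit 125) (nat_lit 159) (nat_lit 5) (nat_lit 6) (nat_lit 7) L13669 (by decide +kernel)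
theorem L13673 : W_23 (nat_lit 7) (nat_lit 0x1000380000001800080000000000000000000000000000000) (nat_lit 0x0) (nat_lit 0x2000200004000b00070017c000000000000000000000000000000) := Q_23 (nat_lit 142) (C_23 L13665 (C_23 L13670 (C_23 L13672 N_23))) (by decide +kernel)
theorem L13674 : W_23 (nat_lit 9) (nat_lit 0x1000380000001800080000000000000000000000000000000) (nat_lit 0x0) (nat_lit 0x38801c001c0004600740000000000000000000000000000000) := T_23 (nat_lit 178) (nat_lit 191) (nat_lit 1) (nat_lit 8) (nat_lit 10) L13364 (by decide +kernel)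
theorem L13675 : W_23 (nat_lit 10) (nat_lit 0x380000001800080000000000000000000000000000000) (nat_lit 0x0) (nat_lit 0x2003b801c401cb00470077c000000000000000000000000000000) := Q_23 (nat_lit 192) (C_23 L13662 (C_23 L13673 (C_23 L13674 N_23))) (by decide +kernel)
theorem L13677 : W_23 (nat_lit 2) (nat_lit 0x20007800000018000c0000000000000000000000000000000) (nat_lit 0x0) (nat_lit 0x1800800000000000000000000000000000000000000000000) := D_23 (nat_lit 192) (nat_lit 191) (nat_lit 179) (nat_lit 1) (nat_lit 8) (nat_lit 10) (nat_lit 1) (nat_lit 9) (nat_lit 10) (by decide +kernel)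
theorem L13678 : W_23 (nat_lit 3) (nat_lit 0x7800000018000c0000000000000000000000000000000) (nat_lit 0x0) (nat_lit 0x3800800010000000000000000000000000000000000000000) := T_23 (nat_lit 193) (nat_lit 160) (nat_lit 5) (nat_lit 7) (nat_lit 7) L13677 (by decide +kernel)
theorem L13679 : W_23 (nat_lit 2) (nat_lit 0x7800000018000c0000000000000000000000000000000) (nat_lit 0x0) (nat_lit 0x18000000010000000000000000000000000000000000000000) := D_23 (nat_lit 195) (nat_lit 160) (nat_lit 196) (nat_lit 7) (nat_lit 7) (nat_lit 7) (nat_lit 3) (nat_lit 5) (nat_lit 10) (by decide +kernel)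
theorem L13688 : W_23 (nat_lit 10) (nat_lit 0x10007800000018000c0000000000000000000000000000000) (nat_lit 0x0) (nat_lit 0x100008000fa0038001c0004400700000000000000000000000000000000) := T_23 (nat_lit 195) (nat_lit 196) (nat_lit 3) (nat_lit 5) (nat_lit 10) L13687 (by decide +kernel)
theorem L13689 : W_23 (nat_lit 11) (nat_lit 0x7800000018000c0000000000000000000000000000000) (nat_lit 0x0) (nat_lit 0x100008000fb8038001c0004400700000000000000000000000000000000) := T_23 (nat_lit 192) (nat_lit 191) (nat_lit 1) (nat_lit 8) (nat_lit 10) L13688 (by decide +kernel)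
theorem L13690 : W_23 (nat_lit 12) (nat_lit 0x3800000018000c0000000000000000000000000000000) (nat_lit 0x0) (nat_lit 0x100008000fb803c001d0004400700000000000000000000000000000000) := Q_23 (nat_lit 178) (C_23 L13676 (C_23 L13678 (C_23 L13679 (C_23 L13689 N_23)))) (by decide +kernel)
theorem L13702 : W_23 (nat_lit 7) (nat_lit 0x3800000018000c0000000000000000000000000000000) (nat_lit 0x0) (nat_lit 0x18000700120003c0078001c000000000000000000) := Q_23 (nat_lit 109) (C_23 L13691 (C_23 L13696 (C_23 L13700 (C_23 L13701 N_23)))) (by decide +kernel)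
theorem L13703 : W_23 (nat_lit 13) (nat_lit 0x380000001800080000000000000000000000000000000) (nat_lit 0x0) (nat_lit 0x100008000fb803c001d8004700760003c0078001c000000000000000000) := Q_23 (nat_lit 126) (C_23 L13359 (C_23 L13355 (C_23 L13690 (C_23 L13702 N_23)))) (by decide +kernel)
theorem L13704 : W_23 (nat_lit 2) (nat_lit 0x3800000018001f0000800000000000000000000000000) (nat_lit 0x0) (nat_lit 0x8000600000000000000000000000000000000000) := D_23 (nat_lit 142) (nat_lit 159) (nat_lit 141) (nat_lit 4) (nat_lit 6) (nat_lit 10) (nat_lit 2) (nat_lit 5) (nat_lit 8) (by decide +kernel)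
theorem L13705 : W_23 (nat_lit 3) (nat_lit 0x3800000018000f0000800000000000000000000000000) (nat_lit 0x0) (nat_lit 0x8000600100001000000000000000000000000000) := T_23 (nat_lit 128) (nat_lit 108) (nat_lit 0) (nat_lit 9) (nat_lit 7) L13704 (by decide +kernel)
theorem L13706 : W_23 (nat_lit 4) (nat_lit 0x3800000018000f0000000000000000000000000000000) (nat_lit 0x0) (nat_lit 0x8000600100001c00000000000000000000000000) := T_23 (nat_lit 107) (nat_lit 106) (nat_lit 0) (nat_lit 8) (nat_lit 7) L13705 (by decide +kernel)
theorem L13707 : W_23 (nat_lit 5) (nat_lit 0x3800000018000e0000000000000000000000000000000) (nat_lit 0x0) (nat_lit 0x8000600118001c00000000000000000000000000) := T_23 (nat_lit 124) (nat_lit 123) (nat_lit 3) (nat_lit 4) (nat_lit 7) L13706 (by decide +kernel)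
theorem L13708 : W_23 (nat_lit 2) (nat_lit 0x7800180018000e8000000000000000000000000000000) (nat_lit 0x0) (nat_lit 0x1800000000000400000000000000000000000000000000000) := D_23 (nat_lit 192) (nat_lit 191) (nat_lit 142) (nat_lit 1) (nat_lit 8) (nat_lit 10) (nat_lit 5) (nat_lit 6) (nat_lit 7) (by decide +kernel)
theorem L13709 : W_23 (nat_lit 3) (nat_lit 0x3800180018000e8000000000000000000000000000000) (nat_lit 0x0) (nat_lit 0x9800400000000400000000000000000000000000000000000) := T_23 (nat_lit 178) (nat_lit 195) (nat_lit 7) (nat_lit 7) (nat_lit 7) L13708 (by decide +kernel)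
theorem L13710 : W_23 (nat_lit 4) (nat_lit 0x3800100018000e8000000000000000000000000000000) (nat_lit 0x0) (nat_lit 0x9800400008000400000002000000000000000000000000000) := T_23 (nat_lit 159) (nat_lit 109) (nat_lit 5) (nat_lit 7) (nat_lit 6) L13709 (by decide +kernel)
theorem L13711 : W_23 (nat_lit 5) (nat_lit 0x3800000018000e8000000000000000000000000000000) (nat_lit 0x0) (nat_lit 0x9800400018000400000003000000000000000000000000000) := T_23 (nat_lit 160) (nat_lit 108) (nat_lit 4) (nat_lit 7) (nat_lit 10) L13710 (by decide +kernel)
theorem L13712 : W_23 (nat_lit 6) (nat_lit 0x3800000018000e0000000000000000000000000000000) (nat_lit 0x0) (nat_lit 0x9800400018000400018003000000000000000000000000000) := T_23 (nat_lit 123) (nat_lit 124) (nat_lit 3) (nat_lit 4) (nat_lit 7) L13711 (by decide +kernel)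
theorem L13713 : W_23 (nat_lit 2) (nat_lit 0x7c00180018000f0000800000000000000000000000000) (nat_lit 0x0) (nat_lit 0x1c00000000000000000000000000000000000000000000000) := D_23 (nat_lit 191) (nat_lit 192) (nat_lit 190) (nat_lit 1) (nat_lit 8) (nat_lit 10) (nat_lit 1) (nat_lit 7) (nat_lit 10) (by decide +kernel)
theorem L13714 : W_23 (nat_lit 3) (nat_lit 0x3c00180018000f0000800000000000000000000000000) (nat_lit 0x0) (nat_lit 0x9c00400000000000000000000000000000000000000000000) := T_23 (nat_lit 178) (nat_lit 195) (nat_lit 7) (nat_lit 7) (nat_lit 7) L13713 (by decide +kernel)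
theorem L13715 : W_23 (nat_lit 4) (nat_lit 0x3800180018000f0000800000000000000000000000000) (nat_lit 0x0) (nat_lit 0x9c00460000000000000000000000000000000000000000000) := T_23 (nat_lit 174) (nat_lit 173) (nat_lit 2) (nat_lit 3) (nat_lit 10) L13714 (by decide +kernel)
theorem L13716 : W_23 (nat_lit 5) (nat_lit 0x3800080018000f0000800000000000000000000000000) (nat_lit 0x0) (nat_lit 0x9c00460010000000000002000000000000000000000000000) := T_23 (nat_lit 160) (nat_lit 109) (nat_lit 5) (nat_lit 7) (nat_lit 6) L13715 (by decide +kernel)
theorem L13717 : W_23 (nat_lit 6) (nat_lit 0x3800000018000f0000800000000000000000000000000) (nat_lit 0x0) (nat_lit 0x9c00460018000400000002000000000000000000000000000) := T_23 (nat_lit 159) (nat_lit 142) (nat_lit 4) (nat_lit 6) (nat_lit 10) L13716 (by decide +kernel)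
theorem L13718 : W_23 (nat_lit 7) (nat_lit 0x3800000018000f0000000000000000000000000000000) (nat_lit 0x0) (nat_lit 0x9c00460018000400000002c00000000000000000000000000) := T_23 (nat_lit 107) (nat_lit 106) (nat_lit 0) (nat_lit 8) (nat_lit 7) L13717 (by decide +kernel)
theorem L13719 : W_23 (nat_lit 8) (nat_lit 0x3800000018000e0000000000000000000000000000000) (nat_lit 0x0) (nat_lit 0x9c00460018000400018002c00000000000000000000000000) := T_23 (nat_lit 124) (nat_lit 123) (nat_lit 3) (nat_lit 4) (nat_lit 7) L13718 (by decide +kernel)
theorem L13720 : W_23 (nat_lit 9) (nat_lit 0x3800000018000c0000000000000000000000000000000) (nat_lit 0x0) (nat_lit 0x9c00460018000600738003c00080004000000000000000000) := Q_23 (nat_lit 125) (C_23 L13326 (C_23 L13350 (C_23 L13707 (C_23 L13712 (C_23 L13345 (C_23 L13719 N_23)))))) (by decide +kernel)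
theorem L13721 : W_23 (nat_lit 2) (nat_lit 0x380008001c001c0000000000000000000000000000000) (nat_lit 0x0) (nat_lit 0x1000000000000000020002000000000000000000000000000) := D_23 (nat_lit 125) (nat_lit 109) (nat_lit 192) (nat_lit 6) (nat_lit 6) (nat_lit 10) (nat_lit 5) (nat_lit 6) (nat_lit 7) (by decide +kernel)
theorem L13722 : W_23 (nat_lit 3) (nat_lit 0x380000001c001c0000000000000000000000000000000) (nat_lit 0x0) (nat_lit 0x3000000008000000020002000000000000000000000000000) := T_23 (nat_lit 159) (nat_lit 193) (nat_lit 6) (nat_lit 6) (nat_lit 11) L13721 (by decide +kernel)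
theorem L13723 : W_23 (nat_lit 4) (nat_lit 0x3800000018001c0000000000000000000000000000000) (nat_lit 0x0) (nat_lit 0x3000000008000600020002000000000000000000000000000) := T_23 (nat_lit 142) (nat_lit 141) (nat_lit 2) (nat_lit 5) (nat_lit 8) L13722 (by decide +kernel)
theorem L13724 : W_23 (nat_lit 2) (nat_lit 0x3800000058003c001a000000008000000000000000000) (nat_lit 0x0) (nat_lit 0x1000080000000000000000400000000000000000000000) := D_23 (nat_lit 163) (nat_lit 94) (nat_lit 180) (nat_lit 4) (nat_lit 10) (nat_lit 9) (nat_lit 4) (nat_lit 10) (nat_lit 10) (by decide +kernel)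
theorem L13725 : W_23 (nat_lit 3) (nat_lit 0x3800000058003c0012000000008000000000000000000) (nat_lit 0x0) (nat_lit 0x1000080000000020008000400000000000000000000000) := T_23 (nat_lit 111) (nat_lit 125) (nat_lit 2) (nat_lit 6) (nat_lit 7) L13724 (by decide +kernel)
theorem L13726 : W_23 (nat_lit 4) (nat_lit 0x3800000058003c0002000000008000000000000000000) (nat_lit 0x0) (nat_lit 0x1000080000000020038000400000000000000000000000) := T_23 (nat_lit 112) (nat_lit 113) (nat_lit 2) (nat_lit 7) (nat_lit 7) L13725 (by decide +kernel)
theorem L13727 : W_23 (nat_lit 5) (nat_lit 0x3800000058003c0002000000000000000000000000000) (nat_lit 0x0) (nat_lit 0x1000080000000020038000500008000000000000000000) := T_23 (nat_lit 75) (nat_lit 92) (nat_lit 7) (nat_lit 7) (nat_lit 4) L13726 (by decide +kernel)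
theorem L13728 : W_23 (nat_lit 6) (nat_lit 0x3800000018003c0002000000000000000000000000000) (nat_lit 0x0) (nat_lit 0x100008000c000020038000500008000000000000000000) := T_23 (nat_lit 146) (nat_lit 147) (nat_lit 3) (nat_lit 7) (nat_lit 7) L13727 (by decide +kernel)
theorem L13729 : W_23 (nat_lit 7) (nat_lit 0x3800000018003c0000000000000000000000000000000) (nat_lit 0x0) (nat_lit 0x100008000c00002003b000500008000000000000000000) := T_23 (nat_lit 109) (nat_lit 108) (nat_lit 0) (nat_lit 10) (nat_lit 7) L13728 (by decide +kernel)
theorem L13730 : W_23 (nat_lit 8) (nat_lit 0x3800000018001c0000000000000000000000000000000) (nat_lit 0x0) (nat_lit 0x100008000c00062003b000500008000000000000000000) := T_23 (nat_lit 129) (nat_lit 130) (nat_lit 1) (nat_lit 11) (nat_lit 7) L13729 (by decide +kernel)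
theorem L13731 : W_23 (nat_lit 9) (nat_lit 0x3800000018000c0000000000000000000000000000000) (nat_lit 0x0) (nat_lit 0x300100008800c60072003b000500008000000000000000000) := Q_23 (nat_lit 128) (C_23 L13723 (C_23 L13441 (C_23 L13730 N_23))) (by decide +kernel)
theorem L13732 : W_23 (nat_lit 13) (nat_lit 0x380000001800080000000000000000000000000000000) (nat_lit 0x0) (nat_lit 0x100008000fbc03c601d800c60077803bc0058000c000000000000000000) := Q_23 (nat_lit 126) (C_23 L13355 (C_23 L13690 (C_23 L13720 (C_23 L13731 N_23)))) (by decide +kernel)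
theorem L13733 : W_23 (nat_lit 16) (nat_lit 0x380000001000080000000000000000000000000000000) (nat_lit 0x0) (nat_lit 0x16480b240fbf03c781dbc0cfc077e03bd007c003c000000000000000000) := Q_23 (nat_lit 143) (C_23 L13360 (C_23 L13420 (C_23 L13436 (C_23 L13453 (C_23 L13550 (C_23 L13614 (C_23 L13630 (C_23 L13661 (C_23 L13675 (C_23 L13703 (C_23 L13732 N_23))))))))))) (by decide +kernel)
theorem L13734 : W_23 (nat_lit 2) (nat_lit 0xf80004001000080000000000000000000000000000000) (nat_lit 0x0) (nat_lit 0x38000000000000000000000000000000000000000000000000) := D_23 (nat_lit 196) (nat_lit 195) (nat_lit 197) (nat_lit 3) (nat_lit 5) (nat_lit 10) (nat_lit 3) (nat_lit 6) (nat_lit 10) (by decide +kernel)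
theorem L13735 : W_23 (nat_lit 3) (nat_lit 0x780004001000080000000000000000000000000000000) (nat_lit 0x0) (nat_lit 0x38000800008000000000000000000000000000000000000000) := T_23 (nat_lit 179) (nat_lit 159) (nat_lit 0) (nat_lit 9) (nat_lit 10) L13734 (by decide +kernel)
theorem L13736 : W_23 (nat_lit 4) (nat_lit 0x380004001000080000000000000000000000000000000) (nat_lit 0x0) (nat_lit 0x38000c0000a000000000000000000000000000000000000000) := T_23 (nat_lit 178) (nat_lit 157) (nat_lit 0) (nat_lit 8) (nat_lit 10) L13735 (by decide +kernel)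
theorem L13738 : W_23 (nat_lit 3) (nat_lit 0x380004001000080000000000000000000000000000000) (nat_lit 0x0) (nat_lit 0x440003800000000000000000000000000000000000000) := T_23 (nat_lit 157) (nat_lit 178) (nat_lit 0) (nat_lit 8) (nat_lit 10) L13737 (by decide +kernel)
theorem L13743 : W_23 (nat_lit 2) (nat_lit 0x380006001a000b0000000000000000000000000000000) (nat_lit 0x0) (nat_lit 0x48000400000000000000000000000000) := D_23 (nat_lit 123) (nat_lit 126) (nat_lit 106) (nat_lit 3) (nat_lit 4) (nat_lit 7) (nat_lit 4) (nat_lit 5) (nat_lit 10) (by decide +kernel)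
theorem L13744 : W_23 (nat_lit 3) (nat_lit 0x380006001a00090000000000000000000000000000000) (nat_lit 0x0) (nat_lit 0x68001400000000000000000000000000) := T_23 (nat_lit 125) (nat_lit 108) (nat_lit 6) (nat_lit 5) (nat_lit 10) L13743 (by decide +kernel)
theorem L13745 : W_23 (nat_lit 4) (nat_lit 0x380006001a00080000000000000000000000000000000) (nat_lit 0x0) (nat_lit 0x2000000000000000078001400000000000000000000000000) := T_23 (nat_lit 124) (nat_lit 193) (nat_lit 7) (nat_lit 5) (nat_lit 7) L13744 (by decide +kernel)
theorem L13746 : W_23 (nat_lit 5) (nat_lit 0x380006001200080000000000000000000000000000000) (nat_lit 0x0) (nat_lit 0x2000000000000c00078001400000000000000000000000000) := T_23 (nat_lit 143) (nat_lit 142) (nat_lit 1) (nat_lit 8) (nat_lit 8) L13745 (by decide +kernel)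
theorem L13747 : W_23 (nat_lit 2) (nat_lit 0x38000e001a000b0000000000000000000000000000000) (nat_lit 0x0) (nat_lit 0x48000400000000000000000000000000) := D_23 (nat_lit 123) (nat_lit 126) (nat_lit 106) (nat_lit 3) (nat_lit 4) (nat_lit 7) (nat_lit 4) (nat_lit 5) (nat_lit 10) (by decide +kernel)
theorem L13748 : W_23 (nat_lit 3) (nat_lit 0x38000e001a00090000000000000000000000000000000) (nat_lit 0x0) (nat_lit 0x68001400000000000000000000000000) := T_23 (nat_lit 125) (nat_lit 108) (nat_lit 6) (nat_lit 5) (nat_lit 10) L13747 (by decide +kernel)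
theorem L13749 : W_23 (nat_lit 4) (nat_lit 0x38000e001a00080000000000000000000000000000000) (nat_lit 0x0) (nat_lit 0x78001c00000000000000000000000000) := T_23 (nat_lit 124) (nat_lit 107) (nat_lit 7) (nat_lit 5) (nat_lit 6) L13748 (by decide +kernel)
theorem L13750 : W_23 (nat_lit 5) (nat_lit 0x380006001a00080000000000000000000000000000000) (nat_lit 0x0) (nat_lit 0x18000000078001c00000000000000000000000000) := T_23 (nat_lit 159) (nat_lit 160) (nat_lit 2) (nat_lit 4) (nat_lit 9) L13749 (by decide +kernel)
theorem L13751 : W_23 (nat_lit 6) (nat_lit 0x380006001200080000000000000000000000000000000) (nat_lit 0x0) (nat_lit 0x18000c00078001c00000000000000000000000000) := T_23 (nat_lit 143) (nat_lit 142) (nat_lit 1) (nat_lit 8) (nat_lit 8) L13750 (by decide +kernel)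
theorem L13754 : W_23 (nat_lit 2) (nat_lit 0x2000380016001a00080000000000000000000000000000000) (nat_lit 0x0) (nat_lit 0x800040001000000000000000000000000000000000000000000000000) := D_23 (nat_lit 210) (nat_lit 227) (nat_lit 192) (nat_lit 6) (nat_lit 6) (nat_lit 13) (nat_lit 7) (nat_lit 5) (nat_lit 8) (by decide +kernel)
theorem L13755 : W_23 (nat_lit 3) (nat_lit 0x380016001a00080000000000000000000000000000000) (nat_lit 0x0) (nat_lit 0x800040003000000000000000040000000000000000000000000000000) := T_23 (nat_lit 193) (nat_lit 126) (nat_lit 5) (nat_lit 7) (nat_lit 7) L13754 (by decide +kernel)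
theorem L13756 : W_23 (nat_lit 4) (nat_lit 0x380006001a00080000000000000000000000000000000) (nat_lit 0x0) (nat_lit 0x800040003000000018000000040000000000000000000000000000000) := T_23 (nat_lit 160) (nat_lit 159) (nat_lit 2) (nat_lit 4) (nat_lit 9) L13755 (by decide +kernel)
theorem L13757 : W_23 (nat_lit 5) (nat_lit 0x380006001200080000000000000000000000000000000) (nat_lit 0x0) (nat_lit 0x800040003000000018000c00040000000000000000000000000000000) := T_23 (nat_lit 143) (nat_lit 142) (nat_lit 1) (nat_lit 8) (nat_lit 8) L13756 (by decide +kernel)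
theorem L13758 : W_23 (nat_lit 7) (nat_lit 0x380006001000080000000000000000000000000000000) (nat_lit 0x0) (nat_lit 0x800040003000040018000e00078001c00000000000000000000000000) := Q_23 (nat_lit 141) (C_23 L13742 (C_23 L13746 (C_23 L13751 (C_23 L13753 (C_23 L13757 N_23))))) (by decide +kernel)
theorem L13759 : W_23 (nat_lit 8) (nat_lit 0x380004001000080000000000000000000000000000000) (nat_lit 0x0) (nat_lit 0x80004000300004001b800e00078001c00000000000000000000000000) := Q_23 (nat_lit 157) (C_23 L13737 (C_23 L13739 (C_23 L13758 N_23))) (by decide +kernel)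
theorem L13767 : W_23 (nat_lit 2) (nat_lit 0x380004001b00098000800080000000000000000000000) (nat_lit 0x0) (nat_lit 0x40006000000000000000000) := D_23 (nat_lit 90) (nat_lit 73) (nat_lit 74) (nat_lit 5) (nat_lit 5) (nat_lit 4) (nat_lit 6) (nat_lit 5) (nat_lit 8) (by decide +kernel)
theorem L13768 : W_23 (nat_lit 3) (nat_lit 0x380004001b00098000800000000000000000000000000) (nat_lit 0x0) (nat_lit 0x10000c0006000000000000000000) := T_23 (nat_lit 91) (nat_lit 108) (nat_lit 6) (nat_lit 5) (nat_lit 9) L13767 (by decide +kernel)
theorem L13769 : W_23 (nat_lit 4) (nat_lit 0x380004001b00098000000000000000000000000000000) (nat_lit 0x0) (nat_lit 0x80000000000018000c0006000000000000000000) := T_23 (nat_lit 107) (nat_lit 159) (nat_lit 7) (nat_lit 5) (nat_lit 6) L13768 (by decide +kernel)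
theorem L13770 : W_23 (nat_lit 5) (nat_lit 0x380004001a00098000000000000000000000000000000) (nat_lit 0x0) (nat_lit 0x10000000080001000000018000c0006000000000000000000) := T_23 (nat_lit 140) (nat_lit 192) (nat_lit 4) (nat_lit 5) (nat_lit 11) L13769 (by decide +kernel)
theorem L13771 : W_23 (nat_lit 6) (nat_lit 0x380004001200098000000000000000000000000000000) (nat_lit 0x0) (nat_lit 0x1000000008000d000000018000c0006000000000000000000) := T_23 (nat_lit 143) (nat_lit 142) (nat_lit 0) (nat_lit 8) (nat_lit 8) L13770 (by decide +kernel)
theorem L13772 : W_23 (nat_lit 7) (nat_lit 0x380004001200090000000000000000000000000000000) (nat_lit 0x0) (nat_lit 0x1000000008000d00008001c000c0006000000000000000000) := T_23 (nat_lit 123) (nat_lit 106) (nat_lit 4) (nat_lit 5) (nat_lit 10) L13771 (by decide +kernel)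
theorem L13778 : W_23 (nat_lit 8) (nat_lit 0x380004001200080000000000000000000000000000000) (nat_lit 0x0) (nat_lit 0x1000000008000d00178001c000e0006000000000000000000) := Q_23 (nat_lit 124) (C_23 L13765 (C_23 L13761 (C_23 L13772 (C_23 L13775 (C_23 L13777 N_23))))) (by decide +kernel)
theorem L13779 : W_23 (nat_lit 4) (nat_lit 0x380004001200080000000000000000000000000000000) (nat_lit 0x0) (nat_lit 0x2000000008000000018000c00020000000000000000000000) := T_23 (nat_lit 124) (nat_lit 193) (nat_lit 7) (nat_lit 5) (nat_lit 7) L13777 (by decide +kernel)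
theorem L13780 : W_23 (nat_lit 5) (nat_lit 0x380004001200080000000000000000000000000000000) (nat_lit 0x0) (nat_lit 0x3000000000000500170001000000000000000000000000000) := T_23 (nat_lit 124) (nat_lit 193) (nat_lit 7) (nat_lit 5) (nat_lit 7) L13775 (by decide +kernel)
theorem L13781 : W_23 (nat_lit 2) (nat_lit 0x3000b80004001700080000000000000000000000000000000) (nat_lit 0x0) (nat_lit 0x800140000000000000000000000000000000) := D_23 (nat_lit 143) (nat_lit 126) (nat_lit 128) (nat_lit 2) (nat_lit 4) (nat_lit 8) (nat_lit 2) (nat_lit 5) (nat_lit 8) (by decide +kernel)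
theorem L13782 : W_23 (nat_lit 3) (nat_lit 0x3000b80004001300080000000000000000000000000000000) (nat_lit 0x0) (nat_lit 0xc00160000000000000000000000000000000) := T_23 (nat_lit 142) (nat_lit 125) (nat_lit 6) (nat_lit 5) (nat_lit 11) L13781 (by decide +kernel)
theorem L13783 : W_23 (nat_lit 4) (nat_lit 0x3000380004001300080000000000000000000000000000000) (nat_lit 0x0) (nat_lit 0xc00000000c00160000000000000000000000000000000) := T_23 (nat_lit 179) (nat_lit 178) (nat_lit 1) (nat_lit 9) (nat_lit 10) L13782 (by decide +kernel)
theorem L13784 : W_23 (nat_lit 5) (nat_lit 0x1000380004001300080000000000000000000000000000000) (nat_lit 0x0) (nat_lit 0x40002000c00000000c00160000000000000000000000000000000) := T_23 (nat_lit 193) (nat_lit 210) (nat_lit 7) (nat_lit 5) (nat_lit 8) L13783 (by decide +kernel)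
theorem L13785 : W_23 (nat_lit 6) (nat_lit 0x1000380004001200080000000000000000000000000000000) (nat_lit 0x0) (nat_lit 0x40002000c00000000d00168000000000000000000000000000000) := T_23 (nat_lit 140) (nat_lit 123) (nat_lit 4) (nat_lit 5) (nat_lit 11) L13784 (by decide +kernel)
theorem L13789 : W_23 (nat_lit 2) (nat_lit 0x70001000380004001e00080000000000000000000000000000000) (nat_lit 0x0) (nat_lit 0x100048000000000000000000000000000000) := D_23 (nat_lit 140) (nat_lit 126) (nat_lit 123) (nat_lit 2) (nat_lit 4) (nat_lit 8) (nat_lit 4) (nat_lit 5) (nat_lit 11) (by decide +kernel)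
theorem L13790 : W_23 (nat_lit 3) (nat_lit 0x70001000380004001600080000000000000000000000000000000) (nat_lit 0x0) (nat_lit 0x900148000000000000000000000000000000) := T_23 (nat_lit 143) (nat_lit 128) (nat_lit 2) (nat_lit 5) (nat_lit 8) L13789 (by decide +kernel)
theorem L13791 : W_23 (nat_lit 4) (nat_lit 0x30001000380004001600080000000000000000000000000000000) (nat_lit 0x0) (nat_lit 0x800040000000000000000900148000000000000000000000000000000) := T_23 (nat_lit 210) (nat_lit 227) (nat_lit 7) (nat_lit 5) (nat_lit 9) L13790 (by decide +kernel)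
theorem L13792 : W_23 (nat_lit 5) (nat_lit 0x20001000380004001600080000000000000000000000000000000) (nat_lit 0x0) (nat_lit 0xa00050000000000000000900148000000000000000000000000000000) := T_23 (nat_lit 208) (nat_lit 225) (nat_lit 5) (nat_lit 5) (nat_lit 9) L13791 (by decide +kernel)
theorem L13793 : W_23 (nat_lit 6) (nat_lit 0x1000380004001600080000000000000000000000000000000) (nat_lit 0x0) (nat_lit 0xa00070000000000008000900148000000000000000000000000000000) := T_23 (nat_lit 209) (nat_lit 159) (nat_lit 6) (nat_lit 5) (nat_lit 12) L13792 (by decide +kernel)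
theorem L13794 : W_23 (nat_lit 7) (nat_lit 0x1000380004001200080000000000000000000000000000000) (nat_lit 0x0) (nat_lit 0xa00070000000000008000d00168000000000000000000000000000000) := T_23 (nat_lit 142) (nat_lit 125) (nat_lit 6) (nat_lit 5) (nat_lit 11) L13793 (by decide +kernel)
theorem L13799 : W_23 (nat_lit 2) (nat_lit 0x30001000380004001e00080000000000000000000000000000000) (nat_lit 0x0) (nat_lit 0x100048000000000000000000000000000000) := D_23 (nat_lit 140) (nat_lit 126) (nat_lit 123) (nat_lit 2) (nat_lit 4) (nat_lit 8) (nat_lit 4) (nat_lit 5) (nat_lit 11) (by decide +kernel)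
theorem L13800 : W_23 (nat_lit 3) (nat_lit 0x30001000380004001600080000000000000000000000000000000) (nat_lit 0x0) (nat_lit 0x900148000000000000000000000000000000) := T_23 (nat_lit 143) (nat_lit 128) (nat_lit 2) (nat_lit 5) (nat_lit 8) L13799 (by decide +kernel)
theorem L13801 : W_23 (nat_lit 4) (nat_lit 0x20001000380004001600080000000000000000000000000000000) (nat_lit 0x0) (nat_lit 0x200010000000000000000900148000000000000000000000000000000) := T_23 (nat_lit 208) (nat_lit 225) (nat_lit 5) (nat_lit 5) (nat_lit 9) L13800 (by decide +kernel)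
theorem L13802 : W_23 (nat_lit 5) (nat_lit 0x1000380004001600080000000000000000000000000000000) (nat_lit 0x0) (nat_lit 0x200030000000000008000900148000000000000000000000000000000) := T_23 (nat_lit 209) (nat_lit 159) (nat_lit 6) (nat_lit 5) (nat_lit 12) L13801 (by decide +kernel)
theorem L13803 : W_23 (nat_lit 6) (nat_lit 0x1000380004001200080000000000000000000000000000000) (nat_lit 0x0) (nat_lit 0x200030000000000008000d00168000000000000000000000000000000) := T_23 (nat_lit 142) (nat_lit 125) (nat_lit 6) (nat_lit 5) (nat_lit 11) L13802 (by decide +kernel)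
theorem L13807 : W_23 (nat_lit 5) (nat_lit 0x1000380004001300080000000000000000000000000000000) (nat_lit 0x0) (nat_lit 0x4000e00070002000000008000000000000000000000000000000000000000) := T_23 (nat_lit 210) (nat_lit 193) (nat_lit 7) (nat_lit 5) (nat_lit 8) L13806 (by decide +kernel)
theorem L13808 : W_23 (nat_lit 6) (nat_lit 0x1000380004001200080000000000000000000000000000000) (nat_lit 0x0) (nat_lit 0x4000e00070002000000008000100008000000000000000000000000000000) := T_23 (nat_lit 140) (nat_lit 123) (nat_lit 4) (nat_lit 5) (nat_lit 11) L13807 (by decide +kernel)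
theorem L13809 : W_23 (nat_lit 8) (nat_lit 0x380004001200080000000000000000000000000000000) (nat_lit 0x0) (nat_lit 0x4000e00070003000c00008000d00168000000000000000000000000000000) := Q_23 (nat_lit 192) (C_23 L13785 (C_23 L13788 (C_23 L13794 (C_23 L13798 (C_23 L13803 (C_23 L13808 N_23)))))) (by decide +kernel)
theorem L13810 : W_23 (nat_lit 9) (nat_lit 0x380004001000080000000000000000000000000000000) (nat_lit 0x0) (nat_lit 0x4000e00070003000c00008000f00178001c000e0006000000000000000000) := Q_23 (nat_lit 141) (C_23 L13762 (C_23 L13766 (C_23 L13778 (C_23 L13779 (C_23 L13780 (C_23 L13809 N_23)))))) (by decide +kernel)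
theorem L13811 : W_23 (nat_lit 10) (nat_lit 0x380000001000080000000000000000000000000000000) (nat_lit 0x0) (nat_lit 0x4000e0007003b000c4001f800f00178001c000e0006000000000000000000) := Q_23 (nat_lit 158) (C_23 L13736 (C_23 L13738 (C_23 L13759 (C_23 L13810 N_23)))) (by decide +kernel)
theorem L13823 : W_23 (nat_lit 2) (nat_lit 0x780000001f00080000000000000000000000000000000) (nat_lit 0x0) (nat_lit 0x1c000000000000000000000000000000) := D_23 (nat_lit 123) (nat_lit 122) (nat_lit 124) (nat_lit 0) (nat_lit 7) (nat_lit 8) (nat_lit 0) (nat_lit 8) (nat_lit 8) (by decide +kernel)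
theorem L13824 : W_23 (nat_lit 3) (nat_lit 0x780000001e00080000000000000000000000000000000) (nat_lit 0x0) (nat_lit 0x10005c000000000000000000000000000000) := T_23 (nat_lit 140) (nat_lit 126) (nat_lit 2) (nat_lit 4) (nat_lit 8) L13823 (by decide +kernel)
theorem L13825 : W_23 (nat_lit 4) (nat_lit 0x780000001c00080000000000000000000000000000000) (nat_lit 0x0) (nat_lit 0x30015c000000000000000000000000000000) := T_23 (nat_lit 141) (nat_lit 128) (nat_lit 2) (nat_lit 5) (nat_lit 8) L13824 (by decide +kernel)
theorem L13831 : W_23 (nat_lit 7) (nat_lit 0x780000001800080000000000000000000000000000000) (nat_lit 0x0) (nat_lit 0x1b00000001c00070017c002000000000000000000000000000) := Q_23 (nat_lit 142) (C_23 L13822 (C_23 L13825 (C_23 L13830 (C_23 L8545 N_23)))) (by decide +kernel)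
theorem L13832 : W_23 (nat_lit 7) (nat_lit 0x780000001800080000000000000000000000000000000) (nat_lit 0x0) (nat_lit 0x1a00000001c00070017c002000100000000000000000000000) := Q_23 (nat_lit 142) (C_23 L13822 (C_23 L13830 (C_23 L13825 (C_23 L8646 N_23)))) (by decide +kernel)
theorem L13833 : W_23 (nat_lit 2) (nat_lit 0x1000780000001e00080000000000000000000000000000000) (nat_lit 0x0) (nat_lit 0xc000000020000000000000000000000000000000) := D_23 (nat_lit 125) (nat_lit 159) (nat_lit 158) (nat_lit 5) (nat_lit 6) (nat_lit 7) (nat_lit 6) (nat_lit 5) (nat_lit 11) (by decide +kernel)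
theorem L13834 : W_23 (nat_lit 3) (nat_lit 0x1000780000001c00080000000000000000000000000000000) (nat_lit 0x0) (nat_lit 0xc000200120000000000000000000000000000000) := T_23 (nat_lit 141) (nat_lit 128) (nat_lit 2) (nat_lit 5) (nat_lit 8) L13833 (by decide +kernel)
theorem L13835 : W_23 (nat_lit 4) (nat_lit 0x780000001c00080000000000000000000000000000000) (nat_lit 0x0) (nat_lit 0x180000000c000200120000000000000000000000000000000) := T_23 (nat_lit 192) (nat_lit 191) (nat_lit 1) (nat_lit 8) (nat_lit 10) L13834 (by decide +kernel)
theorem L13841 : W_23 (nat_lit 2) (nat_lit 0x1000780008001c00080000000000000000000000000000000) (nat_lit 0x0) (nat_lit 0x20002000000000000000040000000000000000000000000000000) := D_23 (nat_lit 193) (nat_lit 209) (nat_lit 126) (nat_lit 5) (nat_lit 6) (nat_lit 8) (nat_lit 6) (nat_lit 6) (nat_lit 11) (by decide +kernel)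
theorem L13842 : W_23 (nat_lit 3) (nat_lit 0x1000780000001c00080000000000000000000000000000000) (nat_lit 0x0) (nat_lit 0x20002000000008000000060000000000000000000000000000000) := T_23 (nat_lit 159) (nat_lit 125) (nat_lit 5) (nat_lit 6) (nat_lit 7) L13841 (by decide +kernel)
theorem L13843 : W_23 (nat_lit 4) (nat_lit 0x780000001c00080000000000000000000000000000000) (nat_lit 0x0) (nat_lit 0x20003800000008000000060000000000000000000000000000000) := T_23 (nat_lit 192) (nat_lit 191) (nat_lit 1) (nat_lit 8) (nat_lit 10) L13842 (by decide +kernel)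
theorem L13844 : W_23 (nat_lit 7) (nat_lit 0x780000001800080000000000000000000000000000000) (nat_lit 0x0) (nat_lit 0x2000380000000c00070017c000000000000000000000000000000) := Q_23 (nat_lit 142) (C_23 L13825 (C_23 L13835 (C_23 L13840 (C_23 L13843 N_23)))) (by decide +kernel)
theorem L13861 : W_23 (nat_lit 13) (nat_lit 0x780000001800080000000000000000000000000000000) (nat_lit 0x0) (nat_lit 0x1bc0104009400c70077803b000500008000000000000000000) := Q_23 (nat_lit 141) (C_23 L13848 (C_23 L13399 (C_23 L8575 (C_23 L13854 (C_23 L13860 N_23))))) (by decide +kernel)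
theorem L13864 : W_23 (nat_lit 4) (nat_lit 0x1000780000001800580000000000000000000000000000000) (nat_lit 0x0) (nat_lit 0x40002000000000000c000600020000000000000000000000000000000) := T_23 (nat_lit 142) (nat_lit 141) (nat_lit 2) (nat_lit 5) (nat_lit 8) L13863 (by decide +kernel)
theorem L13865 : W_23 (nat_lit 5) (nat_lit 0x1000780000001800180000000000000000000000000000000) (nat_lit 0x0) (nat_lit 0x40002000000000000c000600620000000000000000000000000000000) := T_23 (nat_lit 130) (nat_lit 129) (nat_lit 1) (nat_lit 11) (nat_lit 7) L13864 (by decide +kernel)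
theorem L13866 : W_23 (nat_lit 6) (nat_lit 0x780000001800180000000000000000000000000000000) (nat_lit 0x0) (nat_lit 0x40002000180000000c000600620000000000000000000000000000000) := T_23 (nat_lit 192) (nat_lit 191) (nat_lit 1) (nat_lit 8) (nat_lit 10) L13865 (by decide +kernel)
theorem L13867 : W_23 (nat_lit 9) (nat_lit 0x9000780000001a00180000000000000000000000000000000) (nat_lit 0x0) (nat_lit 0x100009000c00066003b000500008000000000000000000) := T_23 (nat_lit 126) (nat_lit 160) (nat_lit 7) (nat_lit 7) (nat_lit 7) L13395 (by decide +kernel)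
theorem L13868 : W_23 (nat_lit 10) (nat_lit 0x8000780000001a00180000000000000000000000000000000) (nat_lit 0x0) (nat_lit 0x180100009000c00066003b000500008000000000000000000) := T_23 (nat_lit 192) (nat_lit 191) (nat_lit 1) (nat_lit 8) (nat_lit 10) L13867 (by decide +kernel)
theorem L13869 : W_23 (nat_lit 11) (nat_lit 0x780000001a00180000000000000000000000000000000) (nat_lit 0x0) (nat_lit 0x1980100009000c00066003b000500008000000000000000000) := T_23 (nat_lit 195) (nat_lit 196) (nat_lit 3) (nat_lit 5) (nat_lit 10) L13868 (by decide +kernel)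
theorem L13870 : W_23 (nat_lit 12) (nat_lit 0x780000001800180000000000000000000000000000000) (nat_lit 0x0) (nat_lit 0x1980100009000c60066003b000500008000000000000000000) := T_23 (nat_lit 141) (nat_lit 142) (nat_lit 2) (nat_lit 5) (nat_lit 8) L13869 (by decide +kernel)
theorem L13871 : W_23 (nat_lit 2) (nat_lit 0x780000001800380000000000000000000000000000000) (nat_lit 0x0) (nat_lit 0x600040000000000000000000000000000000) := D_23 (nat_lit 142) (nat_lit 141) (nat_lit 126) (nat_lit 2) (nat_lit 5) (nat_lit 8) (nat_lit 1) (nat_lit 10) (nat_lit 7) (by decide +kernel)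
theorem L13872 : W_23 (nat_lit 3) (nat_lit 0x780000001800180000000000000000000000000000000) (nat_lit 0x0) (nat_lit 0x600640000000000000000000000000000000) := T_23 (nat_lit 129) (nat_lit 130) (nat_lit 1) (nat_lit 11) (nat_lit 7) L13871 (by decide +kernel)
theorem L13875 : W_23 (nat_lit 4) (nat_lit 0x9000780000001c001c0000000000000000000000000000000) (nat_lit 0x0) (nat_lit 0x8000000038001c00000000000000000000000000) := T_23 (nat_lit 125) (nat_lit 159) (nat_lit 5) (nat_lit 6) (nat_lit 7) L13874 (by decide +kernel)
theorem L13876 : W_23 (nat_lit 5) (nat_lit 0x90007800000018001c0000000000000000000000000000000) (nat_lit 0x0) (nat_lit 0x8000600038001c00000000000000000000000000) := T_23 (nat_lit 142) (nat_lit 141) (nat_lit 2) (nat_lit 5) (nat_lit 8) L13875 (by decide +kernel)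
theorem L13877 : W_23 (nat_lit 6) (nat_lit 0x9000780000001800180000000000000000000000000000000) (nat_lit 0x0) (nat_lit 0x18000600078001c00000000000000000000000000) := T_23 (nat_lit 126) (nat_lit 160) (nat_lit 7) (nat_lit 7) (nat_lit 7) L13876 (by decide +kernel)
theorem L13878 : W_23 (nat_lit 7) (nat_lit 0x8000780000001800180000000000000000000000000000000) (nat_lit 0x0) (nat_lit 0x1800000018000600078001c00000000000000000000000000) := T_23 (nat_lit 192) (nat_lit 191) (nat_lit 1) (nat_lit 8) (nat_lit 10) L13877 (by decide +kernel)
theorem L13879 : W_23 (nat_lit 8) (nat_lit 0x780000001800180000000000000000000000000000000) (nat_lit 0x0) (nat_lit 0x19800000018000600078001c00000000000000000000000000) := T_23 (nat_lit 195) (nat_lit 196) (nat_lit 3) (nat_lit 5) (nat_lit 10) L13878 (by decide +kernel)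
theorem L13880 : W_23 (nat_lit 2) (nat_lit 0x10007800000018003c0000000000000000000000000000000) (nat_lit 0x0) (nat_lit 0x18000000010000000000000000000000000000000000000000) := D_23 (nat_lit 195) (nat_lit 196) (nat_lit 160) (nat_lit 3) (nat_lit 5) (nat_lit 10) (nat_lit 7) (nat_lit 7) (nat_lit 7) (by decide +kernel)
theorem L13881 : W_23 (nat_lit 3) (nat_lit 0x1000780000001800380000000000000000000000000000000) (nat_lit 0x0) (nat_lit 0x18000000010000400040000000000000000000000000000000) := T_23 (nat_lit 126) (nat_lit 142) (nat_lit 1) (nat_lit 10) (nat_lit 7) L13880 (by decide +kernel)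
theorem L13882 : W_23 (nat_lit 4) (nat_lit 0x780000001800380000000000000000000000000000000) (nat_lit 0x0) (nat_lit 0x19800000010000400040000000000000000000000000000000) := T_23 (nat_lit 192) (nat_lit 191) (nat_lit 1) (nat_lit 8) (nat_lit 10) L13881 (by decide +kernel)
theorem L13883 : W_23 (nat_lit 5) (nat_lit 0x780000001800180000000000000000000000000000000) (nat_lit 0x0) (nat_lit 0x19800000010000400640000000000000000000000000000000) := T_23 (nat_lit 129) (nat_lit 130) (nat_lit 1) (nat_lit 11) (nat_lit 7) L13882 (by decide +kernel)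
theorem L13884 : W_23 (nat_lit 2) (nat_lit 0x90007800000058003e0010000000000000000000000000000) (nat_lit 0x0) (nat_lit 0x3800000000000000000000000000) := D_23 (nat_lit 108) (nat_lit 107) (nat_lit 109) (nat_lit 0) (nat_lit 9) (nat_lit 7) (nat_lit 0) (nat_lit 10) (nat_lit 7) (by decide +kernel)
theorem L13885 : W_23 (nat_lit 3) (nat_lit 0x90007800000058003c0010000000000000000000000000000) (nat_lit 0x0) (nat_lit 0x2000b800000000000000000000000000) := T_23 (nat_lit 125) (nat_lit 111) (nat_lit 2) (nat_lit 6) (nat_lit 7) L13884 (by decide +kernel)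
theorem L13886 : W_23 (nat_lit 4) (nat_lit 0x90007800000058003c0000000000000000000000000000000) (nat_lit 0x0) (nat_lit 0x2003b800000000000000000000000000) := T_23 (nat_lit 112) (nat_lit 113) (nat_lit 2) (nat_lit 7) (nat_lit 7) L13885 (by decide +kernel)
theorem L13887 : W_23 (nat_lit 5) (nat_lit 0x90007800000018003c0000000000000000000000000000000) (nat_lit 0x0) (nat_lit 0xc00002003b800000000000000000000000000) := T_23 (nat_lit 146) (nat_lit 147) (nat_lit 3) (nat_lit 7) (nat_lit 7) L13886 (by decide +kernel)
theorem L13888 : W_23 (nat_lit 6) (nat_lit 0x9000780000001800380000000000000000000000000000000) (nat_lit 0x0) (nat_lit 0x1000c00006003b800000000000000000000000000) := T_23 (nat_lit 126) (nat_lit 160) (nat_lit 7) (nat_lit 7) (nat_lit 7) L13887 (by decide +kernel)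
theorem L13889 : W_23 (nat_lit 7) (nat_lit 0x1000780000001800380000000000000000000000000000000) (nat_lit 0x0) (nat_lit 0x1800000001000c00006003b800000000000000000000000000) := T_23 (nat_lit 195) (nat_lit 196) (nat_lit 3) (nat_lit 5) (nat_lit 10) L13888 (by decide +kernel)
theorem L13890 : W_23 (nat_lit 8) (nat_lit 0x1000780000001800180000000000000000000000000000000) (nat_lit 0x0) (nat_lit 0x1800000001000c00066003b800000000000000000000000000) := T_23 (nat_lit 129) (nat_lit 130) (nat_lit 1) (nat_lit 11) (nat_lit 7) L13889 (by decide +kernel)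
theorem L13891 : W_23 (nat_lit 9) (nat_lit 0x780000001800180000000000000000000000000000000) (nat_lit 0x0) (nat_lit 0x1980000001000c00066003b800000000000000000000000000) := T_23 (nat_lit 192) (nat_lit 191) (nat_lit 1) (nat_lit 8) (nat_lit 10) L13890 (by decide +kernel)
theorem L13892 : W_23 (nat_lit 13) (nat_lit 0x780000001800080000000000000000000000000000000) (nat_lit 0x0) (nat_lit 0x40002001980100009c00c60077803bc00500008000000000000000000) := Q_23 (nat_lit 128) (C_23 L13866 (C_23 L13870 (C_23 L13872 (C_23 L13879 (C_23 L13883 (C_23 L13891 N_23)))))) (by decide +kernel)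
theorem L13893 : W_23 (nat_lit 2) (nat_lit 0x9000780000001e00090000000000000000000000000000000) (nat_lit 0x0) (nat_lit 0x2000000004000000020000000000000000000000000000000) := D_23 (nat_lit 158) (nat_lit 125) (nat_lit 193) (nat_lit 6) (nat_lit 5) (nat_lit 11) (nat_lit 7) (nat_lit 5) (nat_lit 7) (by decide +kernel)
theorem L13894 : W_23 (nat_lit 3) (nat_lit 0x9000780000001e00080000000000000000000000000000000) (nat_lit 0x0) (nat_lit 0x2000000004000000038000000000000000000000000000000) := T_23 (nat_lit 124) (nat_lit 123) (nat_lit 0) (nat_lit 8) (nat_lit 8) L13893 (by decide +kernel)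
theorem L13895 : W_23 (nat_lit 4) (nat_lit 0x9000780000001c00080000000000000000000000000000000) (nat_lit 0x0) (nat_lit 0x2000000004000200138000000000000000000000000000000) := T_23 (nat_lit 141) (nat_lit 128) (nat_lit 2) (nat_lit 5) (nat_lit 8) L13894 (by decide +kernel)
theorem L13896 : W_23 (nat_lit 5) (nat_lit 0x8000780000001c00080000000000000000000000000000000) (nat_lit 0x0) (nat_lit 0x3800000004000200138000000000000000000000000000000) := T_23 (nat_lit 192) (nat_lit 191) (nat_lit 1) (nat_lit 8) (nat_lit 10) L13895 (by decide +kernel)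
theorem L13897 : W_23 (nat_lit 6) (nat_lit 0x780000001c00080000000000000000000000000000000) (nat_lit 0x0) (nat_lit 0x1b800000004000200138000000000000000000000000000000) := T_23 (nat_lit 195) (nat_lit 196) (nat_lit 3) (nat_lit 5) (nat_lit 10) L13896 (by decide +kernel)
theorem L13902 : W_23 (nat_lit 2) (nat_lit 0x1000780000001e00090000000000000000000000000000000) (nat_lit 0x0) (nat_lit 0x2000000008000000020000000000000000000000000000000) := D_23 (nat_lit 159) (nat_lit 125) (nat_lit 193) (nat_lit 5) (nat_lit 6) (nat_lit 7) (nat_lit 4) (nat_lit 6) (nat_lit 11) (by decide +kernel)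
theorem L13903 : W_23 (nat_lit 3) (nat_lit 0x1000780000001e00080000000000000000000000000000000) (nat_lit 0x0) (nat_lit 0x2000000008000000038000000000000000000000000000000) := T_23 (nat_lit 124) (nat_lit 123) (nat_lit 0) (nat_lit 8) (nat_lit 8) L13902 (by decide +kernel)
theorem L13904 : W_23 (nat_lit 4) (nat_lit 0x1000780000001c00080000000000000000000000000000000) (nat_lit 0x0) (nat_lit 0x2000000008000200138000000000000000000000000000000) := T_23 (nat_lit 141) (nat_lit 128) (nat_lit 2) (nat_lit 5) (nat_lit 8) L13903 (by decide +kernel)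
theorem L13905 : W_23 (nat_lit 5) (nat_lit 0x780000001c00080000000000000000000000000000000) (nat_lit 0x0) (nat_lit 0x3800000008000200138000000000000000000000000000000) := T_23 (nat_lit 192) (nat_lit 191) (nat_lit 1) (nat_lit 8) (nat_lit 10) L13904 (by decide +kernel)
theorem L13906 : W_23 (nat_lit 7) (nat_lit 0x780000001800080000000000000000000000000000000) (nat_lit 0x0) (nat_lit 0x2001b80000000c000600138000000000000000000000000000000) := Q_23 (nat_lit 142) (C_23 L13822 (C_23 L13835 (C_23 L13897 (C_23 L13901 (C_23 L13905 N_23))))) (by decide +kernel)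
theorem L13910 : W_23 (nat_lit 5) (nat_lit 0x1000780000001c00080000000000000000000000000000000) (nat_lit 0x0) (nat_lit 0x40002001a00000001c000000040000000000000000000000000000000) := T_23 (nat_lit 195) (nat_lit 196) (nat_lit 3) (nat_lit 5) (nat_lit 10) L13909 (by decide +kernel)
theorem L13911 : W_23 (nat_lit 6) (nat_lit 0x780000001c00080000000000000000000000000000000) (nat_lit 0x0) (nat_lit 0x40002001b80000001c000000040000000000000000000000000000000) := T_23 (nat_lit 192) (nat_lit 191) (nat_lit 1) (nat_lit 8) (nat_lit 10) L13910 (by decide +kernel)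
theorem L13912 : W_23 (nat_lit 7) (nat_lit 0x780000001800080000000000000000000000000000000) (nat_lit 0x0) (nat_lit 0x40002001b80000001c00070015c000000000000000000000000000000) := Q_23 (nat_lit 142) (C_23 L13822 (C_23 L13830 (C_23 L13825 (C_23 L13911 N_23)))) (by decide +kernel)
theorem L13916 : W_23 (nat_lit 3) (nat_lit 0x1000780008001800080000000000000000000000000000000) (nat_lit 0x0) (nat_lit 0x20002000000000000400060000000000000000000000000000000) := T_23 (nat_lit 142) (nat_lit 125) (nat_lit 5) (nat_lit 6) (nat_lit 7) L13841 (by decide +kernel)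
theorem L13917 : W_23 (nat_lit 4) (nat_lit 0x780008001800080000000000000000000000000000000) (nat_lit 0x0) (nat_lit 0x20003800000000000400060000000000000000000000000000000) := T_23 (nat_lit 192) (nat_lit 191) (nat_lit 1) (nat_lit 8) (nat_lit 10) L13916 (by decide +kernel)
theorem L13922 : W_23 (nat_lit 6) (nat_lit 0x400000009000780008001800080000000000000000000000000000000) (nat_lit 0x0) (nat_lit 0x14000700078000c00000000000000000000000000) := T_23 (nat_lit 126) (nat_lit 160) (nat_lit 7) (nat_lit 7) (nat_lit 7) L13921 (by decide +kernel)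
theorem L13923 : W_23 (nat_lit 7) (nat_lit 0x9000780008001800080000000000000000000000000000000) (nat_lit 0x0) (nat_lit 0x400020000000000014000700078000c00000000000000000000000000) := T_23 (nat_lit 226) (nat_lit 209) (nat_lit 6) (nat_lit 5) (nat_lit 13) L13922 (by decide +kernel)
theorem L13924 : W_23 (nat_lit 8) (nat_lit 0x1000780008001800080000000000000000000000000000000) (nat_lit 0x0) (nat_lit 0x400020018000000014000700078000c00000000000000000000000000) := T_23 (nat_lit 195) (nat_lit 196) (nat_lit 3) (nat_lit 5) (nat_lit 10) L13923 (by decide +kernel)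
theorem L13925 : W_23 (nat_lit 9) (nat_lit 0x780008001800080000000000000000000000000000000) (nat_lit 0x0) (nat_lit 0x400020019800000014000700078000c00000000000000000000000000) := T_23 (nat_lit 192) (nat_lit 191) (nat_lit 1) (nat_lit 8) (nat_lit 10) L13924 (by decide +kernel)
theorem L13938 : W_23 (nat_lit 2) (nat_lit 0x2000000038000600090007a0018001800080000000000000000000000000000000) (nat_lit 0x0) (nat_lit 0x98000000000000000000000000000000000000000000000000000) := D_23 (nat_lit 208) (nat_lit 207) (nat_lit 211) (nat_lit 3) (nat_lit 3) (nat_lit 12) (nat_lit 3) (nat_lit 4) (nat_lit 12) (by decide +kernel)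
theorem L13939 : W_23 (nat_lit 3) (nat_lit 0x2000000028000600090007a0018001800080000000000000000000000000000000) (nat_lit 0x0) (nat_lit 0x5000098000000000000000000000000000000000000000000000000000) := T_23 (nat_lit 228) (nat_lit 230) (nat_lit 0) (nat_lit 9) (nat_lit 13) L13938 (by decide +kernel)
theorem L13940 : W_23 (nat_lit 4) (nat_lit 0x28000600090007a0018001800080000000000000000000000000000000) (nat_lit 0x0) (nat_lit 0x200010005000098000000000000000000000000000000000000000000000000000) := T_23 (nat_lit 261) (nat_lit 244) (nat_lit 4) (nat_lit 6) (nat_lit 15) L13939 (by decide +kernel)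
theorem L13941 : W_23 (nat_lit 5) (nat_lit 0x20000600090007a0018001800080000000000000000000000000000000) (nat_lit 0x0) (nat_lit 0x200010005800098000000000004000000000000000000000000000000000000000) := T_23 (nat_lit 227) (nat_lit 158) (nat_lit 7) (nat_lit 5) (nat_lit 9) L13940 (by decide +kernel)
theorem L13942 : W_23 (nat_lit 6) (nat_lit 0x20000200090007a0018001800080000000000000000000000000000000) (nat_lit 0x0) (nat_lit 0x2000100058000d8002000000004000000000000000000000000000000000000000) := T_23 (nat_lit 210) (nat_lit 193) (nat_lit 6) (nat_lit 6) (nat_lit 12) L13941 (by decide +kernel)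
theorem L13943 : W_23 (nat_lit 7) (nat_lit 0x2000020009000780018001800080000000000000000000000000000000) (nat_lit 0x0) (nat_lit 0x2000100058000d8002000060004000000000000000000000000000000000000000) := T_23 (nat_lit 173) (nat_lit 174) (nat_lit 2) (nat_lit 3) (nat_lit 10) L13942 (by decide +kernel)
theorem L13944 : W_23 (nat_lit 8) (nat_lit 0x20009000780018001800080000000000000000000000000000000) (nat_lit 0x0) (nat_lit 0x2000100078001d8002000060004000000000000000000000000000000000000000) := T_23 (nat_lit 229) (nat_lit 212) (nat_lit 4) (nat_lit 8) (nat_lit 13) L13943 (by decide +kernel)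
theorem L13945 : W_23 (nat_lit 9) (nat_lit 0x9000780018001800080000000000000000000000000000000) (nat_lit 0x0) (nat_lit 0x200010007c001f8002000060004000000000000000000000000000000000000000) := T_23 (nat_lit 209) (nat_lit 226) (nat_lit 6) (nat_lit 5) (nat_lit 13) L13944 (by decide +kernel)
theorem L13946 : W_23 (nat_lit 10) (nat_lit 0x9000780008001800080000000000000000000000000000000) (nat_lit 0x0) (nat_lit 0x200010007c001f8002000060014000000040000000000000000000000000000000) := T_23 (nat_lit 160) (nat_lit 126) (nat_lit 7) (nat_lit 7) (nat_lit 7) L13945 (by decide +kernel)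
theorem L13947 : W_23 (nat_lit 11) (nat_lit 0x8000780008001800080000000000000000000000000000000) (nat_lit 0x0) (nat_lit 0x200010007c001f8003800060014000000040000000000000000000000000000000) := T_23 (nat_lit 192) (nat_lit 191) (nat_lit 1) (nat_lit 8) (nat_lit 10) L13946 (by decide +kernel)
theorem L13948 : W_23 (nat_lit 12) (nat_lit 0x780008001800080000000000000000000000000000000) (nat_lit 0x0) (nat_lit 0x200010007c001f801b800060014000000040000000000000000000000000000000) := T_23 (nat_lit 195) (nat_lit 196) (nat_lit 3) (nat_lit 5) (nat_lit 10) L13947 (by decide +kernel)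
theorem L13949 : W_23 (nat_lit 13) (nat_lit 0x780000001800080000000000000000000000000000000) (nat_lit 0x0) (nat_lit 0x200010007c001f801b80006001c000700078002c00140000000000000000000000) := Q_23 (nat_lit 159) (C_23 L13915 (C_23 L13917 (C_23 L13925 (C_23 L13934 (C_23 L13937 (C_23 L13948 N_23)))))) (by decide +kernel)
theorem L13950 : W_23 (nat_lit 2) (nat_lit 0x1000780008001c00580000000000000000000000000000000) (nat_lit 0x0) (nat_lit 0x400020002000000000000000000000000000000000000000000000000) := D_23 (nat_lit 209) (nat_lit 193) (nat_lit 226) (nat_lit 5) (nat_lit 6) (nat_lit 8) (nat_lit 6) (nat_lit 5) (nat_lit 13) (by decide +kernel)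
theorem L13951 : W_23 (nat_lit 3) (nat_lit 0x1000780000001c00580000000000000000000000000000000) (nat_lit 0x0) (nat_lit 0x400020002000000008000000020000000000000000000000000000000) := T_23 (nat_lit 159) (nat_lit 125) (nat_lit 5) (nat_lit 6) (nat_lit 7) L13950 (by decide +kernel)
theorem L13952 : W_23 (nat_lit 4) (nat_lit 0x1000780000001c00180000000000000000000000000000000) (nat_lit 0x0) (nat_lit 0x400020002000000008000000620000000000000000000000000000000) := T_23 (nat_lit 130) (nat_lit 129) (nat_lit 1) (nat_lit 11) (nat_lit 7) L13951 (by decide +kernel)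
theorem L13953 : W_23 (nat_lit 5) (nat_lit 0x1000780000001800180000000000000000000000000000000) (nat_lit 0x0) (nat_lit 0x400020002000000008000600620000000000000000000000000000000) := T_23 (nat_lit 142) (nat_lit 141) (nat_lit 2) (nat_lit 5) (nat_lit 8) L13952 (by decide +kernel)
theorem L13954 : W_23 (nat_lit 6) (nat_lit 0x780000001800180000000000000000000000000000000) (nat_lit 0x0) (nat_lit 0x400020003800000008000600620000000000000000000000000000000) := T_23 (nat_lit 192) (nat_lit 191) (nat_lit 1) (nat_lit 8) (nat_lit 10) L13953 (by decide +kernel)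
theorem L13955 : W_23 (nat_lit 10) (nat_lit 0x780000001800080000000000000000000000000000000) (nat_lit 0x0) (nat_lit 0x40002001b80000001800c60077803bc00000000000000000000000000) := Q_23 (nat_lit 128) (C_23 L13954 (C_23 L13891 (C_23 L13883 (C_23 L13879 (C_23 L13872 N_23))))) (by decide +kernel)
theorem L13982 : W_23 (nat_lit 14) (nat_lit 0x780000001000080000000000000000000000000000000) (nat_lit 0x0) (nat_lit 0x200010007c001f801bf0107009dc0cf4077e03bc00540008000000000000000000) := Q_23 (nat_lit 143) (C_23 L13831 (C_23 L13832 (C_23 L13844 (C_23 L13861 (C_23 L13892 (C_23 L13906 (C_23 L13912 (C_23 L13949 (C_23 L13955 (C_23 L13980 (C_23 L13981 N_23))))))))))) (by decide +kernel)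
theorem L13988 : W_23 (nat_lit 15) (nat_lit 0x380000001000080000000000000000000000000000000) (nat_lit 0x0) (nat_lit 0x200010007c001f807bf01c701ddc0cf4077e03bc00540008000000000000000000) := Q_23 (nat_lit 178) (C_23 L13816 (C_23 L13282 (C_23 L13818 (C_23 L13982 (C_23 L13987 N_23))))) (by decide +kernel)
theorem L13989 : W_23 (nat_lit 17) (nat_lit 0x300000001000080000000000000000000000000000000) (nat_lit 0x0) (nat_lit 0x200014017f80bfc0fbf83cf81dfe0cfc077e03bf007e003e000000000000000000) := Q_23 (nat_lit 175) (C_23 L12683 (C_23 L13261 (C_23 L13279 (C_23 L13290 (C_23 L13309 (C_23 L13310 (C_23 L13733 (C_23 L13811 (C_23 L13988 N_23))))))))) (by decide +kernel)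
theorem L13990 : W_23 (nat_lit 2) (nat_lit 0x80003c0002001000080000000000000000000000000000000) (nat_lit 0x0) (nat_lit 0x10000400004000000000000000000000000000000000000000) := D_23 (nat_lit 178) (nat_lit 158) (nat_lit 196) (nat_lit 0) (nat_lit 8) (nat_lit 10) (nat_lit 3) (nat_lit 5) (nat_lit 10) (by decide +kernel)
theorem L13991 : W_23 (nat_lit 3) (nat_lit 0x3c0002001000080000000000000000000000000000000) (nat_lit 0x0) (nat_lit 0x1c000400004000000000000000000000000000000000000000) := T_23 (nat_lit 195) (nat_lit 194) (nat_lit 3) (nat_lit 4) (nat_lit 10) L13990 (by decide +kernel)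
theorem L13992 : W_23 (nat_lit 4) (nat_lit 0x3c0000001000080000000000000000000000000000000) (nat_lit 0x0) (nat_lit 0x1c000400007000000000000000000000000000000000000000) := T_23 (nat_lit 157) (nat_lit 156) (nat_lit 0) (nat_lit 7) (nat_lit 10) L13991 (by decide +kernel)
theorem L13993 : W_23 (nat_lit 6) (nat_lit 0x380000001000080000000000000000000000000000000) (nat_lit 0x0) (nat_lit 0x1001de00460007800200010000000000000000000000000000000) := Q_23 (nat_lit 174) (C_23 L13263 (C_23 L12701 (C_23 L13992 (C_23 L12753 N_23)))) (by decide +kernel)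
theorem L13994 : W_23 (nat_lit 7) (nat_lit 0x3c0000001000080000000000000000000000000000000) (nat_lit 0x0) (nat_lit 0xcc00000017000f0015c000000000000000000000000000000) := Q_23 (nat_lit 143) (C_23 L12702 (C_23 L12726 N_23)) (by decide +kernel)
theorem L13995 : W_23 (nat_lit 2) (nat_lit 0x40003c001a001000080000000000000000000000000000000) (nat_lit 0x0) (nat_lit 0x80000000000000000400020000000000000000000000000000000) := D_23 (nat_lit 142) (nat_lit 125) (nat_lit 211) (nat_lit 7) (nat_lit 6) (nat_lit 7) (nat_lit 4) (nat_lit 7) (nat_lit 12) (by decide +kernel)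
theorem L13996 : W_23 (nat_lit 3) (nat_lit 0x40003c0012001000080000000000000000000000000000000) (nat_lit 0x0) (nat_lit 0x80000000020008000400020000000000000000000000000000000) := T_23 (nat_lit 159) (nat_lit 173) (nat_lit 2) (nat_lit 3) (nat_lit 10) L13995 (by decide +kernel)
theorem L13997 : W_23 (nat_lit 4) (nat_lit 0x40003c0002001000080000000000000000000000000000000) (nat_lit 0x0) (nat_lit 0x80000000020018000c00020000000000000000000000000000000) := T_23 (nat_lit 160) (nat_lit 143) (nat_lit 6) (nat_lit 7) (nat_lit 11) L13996 (by decide +kernel)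
theorem L13998 : W_23 (nat_lit 5) (nat_lit 0x3c0002001000080000000000000000000000000000000) (nat_lit 0x0) (nat_lit 0x8000c000020018000c00020000000000000000000000000000000) := T_23 (nat_lit 194) (nat_lit 195) (nat_lit 3) (nat_lit 4) (nat_lit 10) L13997 (by decide +kernel)
theorem L13999 : W_23 (nat_lit 6) (nat_lit 0x3c0000001000080000000000000000000000000000000) (nat_lit 0x0) (nat_lit 0x8000c00002001b000c00020000000000000000000000000000000) := T_23 (nat_lit 157) (nat_lit 156) (nat_lit 0) (nat_lit 7) (nat_lit 10) L13998 (by decide +kernel)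
theorem L14000 : W_23 (nat_lit 2) (nat_lit 0x48003c0018001000080000000000000000000000000000000) (nat_lit 0x0) (nat_lit 0x1000080000000000000000400000000000000000000000000000000000) := D_23 (nat_lit 211) (nat_lit 142) (nat_lit 228) (nat_lit 4) (nat_lit 7) (nat_lit 12) (nat_lit 4) (nat_lit 7) (nat_lit 13) (by decide +kernel)
theorem L14001 : W_23 (nat_lit 3) (nat_lit 0x48003c0010001000080000000000000000000000000000000) (nat_lit 0x0) (nat_lit 0x1000080000000020008000400000000000000000000000000000000000) := T_23 (nat_lit 159) (nat_lit 173) (nat_lit 2) (nat_lit 3) (nat_lit 10) L14000 (by decide +kernel)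
theorem L14002 : W_23 (nat_lit 4) (nat_lit 0x48003c0000001000080000000000000000000000000000000) (nat_lit 0x0) (nat_lit 0x1000080000000020018000c00000000000000000000000000000000000) := T_23 (nat_lit 160) (nat_lit 143) (nat_lit 6) (nat_lit 7) (nat_lit 11) L14001 (by decide +kernel)
theorem L14003 : W_23 (nat_lit 5) (nat_lit 0x40003c0000001000080000000000000000000000000000000) (nat_lit 0x0) (nat_lit 0x1000080000c00020018000c00000000000000000000000000000000000) := T_23 (nat_lit 191) (nat_lit 190) (nat_lit 1) (nat_lit 7) (nat_lit 10) L14002 (by decide +kernel)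
theorem L14004 : W_23 (nat_lit 6) (nat_lit 0x3c0000001000080000000000000000000000000000000) (nat_lit 0x0) (nat_lit 0x100008000cc00020018000c00000000000000000000000000000000000) := T_23 (nat_lit 194) (nat_lit 195) (nat_lit 3) (nat_lit 4) (nat_lit 10) L14003 (by decide +kernel)
theorem L14005 : W_23 (nat_lit 8) (nat_lit 0x380000001000080000000000000000000000000000000) (nat_lit 0x0) (nat_lit 0x100008000cf0007001fc00f0017c000000000000000000000000000000) := Q_23 (nat_lit 174) (C_23 L13237 (C_23 L12701 (C_23 L13197 (C_23 L13994 (C_23 L13999 (C_23 L14004 N_23)))))) (by decide +kernel)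
theorem L14006 : W_23 (nat_lit 5) (nat_lit 0x1000780004001000080000000000000000000000000000000) (nat_lit 0x0) (nat_lit 0x700018001c8000000000000000000000000000000000000000) := T_23 (nat_lit 179) (nat_lit 159) (nat_lit 0) (nat_lit 9) (nat_lit 10) L12776 (by decide +kernel)
theorem L14007 : W_23 (nat_lit 6) (nat_lit 0x780004001000080000000000000000000000000000000) (nat_lit 0x0) (nat_lit 0x718018001c8000000000000000000000000000000000000000) := T_23 (nat_lit 192) (nat_lit 191) (nat_lit 1) (nat_lit 8) (nat_lit 10) L14006 (by decide +kernel)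
theorem L14008 : W_23 (nat_lit 7) (nat_lit 0x780000001000080000000000000000000000000000000) (nat_lit 0x0) (nat_lit 0x718018001ce000000000000000000000000000000000000000) := T_23 (nat_lit 158) (nat_lit 157) (nat_lit 0) (nat_lit 8) (nat_lit 10) L14007 (by decide +kernel)
theorem L14009 : W_23 (nat_lit 2) (nat_lit 0x8000780004001800080000000000000000000000000000000) (nat_lit 0x0) (nat_lit 0x4000000010000000040000000000000000000000000000000) := D_23 (nat_lit 160) (nat_lit 194) (nat_lit 126) (nat_lit 6) (nat_lit 7) (nat_lit 11) (nat_lit 7) (nat_lit 7) (nat_lit 7) (by decide +kernel)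
theorem L14010 : W_23 (nat_lit 3) (nat_lit 0x780004001800080000000000000000000000000000000) (nat_lit 0x0) (nat_lit 0x1c000000010000000040000000000000000000000000000000) := T_23 (nat_lit 195) (nat_lit 196) (nat_lit 3) (nat_lit 5) (nat_lit 10) L14009 (by decide +kernel)
theorem L14011 : W_23 (nat_lit 4) (nat_lit 0x780000001800080000000000000000000000000000000) (nat_lit 0x0) (nat_lit 0x1c000000016000000040000000000000000000000000000000) := T_23 (nat_lit 158) (nat_lit 157) (nat_lit 0) (nat_lit 8) (nat_lit 10) L14010 (by decide +kernel)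
theorem L14012 : W_23 (nat_lit 2) (nat_lit 0x400078000c001c00080000000000000000000000000000000) (nat_lit 0x0) (nat_lit 0x20001800000000000000000000000000000000000000000000000) := D_23 (nat_lit 192) (nat_lit 191) (nat_lit 209) (nat_lit 1) (nat_lit 8) (nat_lit 10) (nat_lit 6) (nat_lit 5) (nat_lit 12) (by decide +kernel)
theorem L14013 : W_23 (nat_lit 3) (nat_lit 0x4000780008001c00080000000000000000000000000000000) (nat_lit 0x0) (nat_lit 0x20001800000006000000000000000000000000000000000000000) := T_23 (nat_lit 158) (nat_lit 157) (nat_lit 0) (nat_lit 8) (nat_lit 10) L14012 (by decide +kernel)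
theorem L14014 : W_23 (nat_lit 4) (nat_lit 0x4000780000001c00080000000000000000000000000000000) (nat_lit 0x0) (nat_lit 0x2000180000000e000000020000000000000000000000000000000) := T_23 (nat_lit 159) (nat_lit 125) (nat_lit 7) (nat_lit 6) (nat_lit 7) L14013 (by decide +kernel)
theorem L14015 : W_23 (nat_lit 5) (nat_lit 0x780000001c00080000000000000000000000000000000) (nat_lit 0x0) (nat_lit 0x2000580000001e000000020000000000000000000000000000000) := T_23 (nat_lit 194) (nat_lit 160) (nat_lit 6) (nat_lit 7) (nat_lit 11) L14014 (by decide +kernel)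
theorem L14016 : W_23 (nat_lit 7) (nat_lit 0x780000001800080000000000000000000000000000000) (nat_lit 0x0) (nat_lit 0x2000580000001e00070017c000000000000000000000000000000) := Q_23 (nat_lit 142) (C_23 L13835 (C_23 L13840 (C_23 L13825 (C_23 L14015 N_23)))) (by decide +kernel)
theorem L14017 : W_23 (nat_lit 2) (nat_lit 0x4000780004001e00080000000000000000000000000000000) (nat_lit 0x0) (nat_lit 0x1800000000000000020000000000000000000000000000000) := D_23 (nat_lit 192) (nat_lit 191) (nat_lit 125) (nat_lit 1) (nat_lit 8) (nat_lit 10) (nat_lit 6) (nat_lit 5) (nat_lit 11) (by decide +kernel)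
theorem L14018 : W_23 (nat_lit 3) (nat_lit 0x4000780004001c00080000000000000000000000000000000) (nat_lit 0x0) (nat_lit 0x1800000000000200120000000000000000000000000000000) := T_23 (nat_lit 141) (nat_lit 128) (nat_lit 2) (nat_lit 5) (nat_lit 8) L14017 (by decide +kernel)
theorem L14019 : W_23 (nat_lit 4) (nat_lit 0x780004001c00080000000000000000000000000000000) (nat_lit 0x0) (nat_lit 0x5800000010000200120000000000000000000000000000000) := T_23 (nat_lit 194) (nat_lit 160) (nat_lit 6) (nat_lit 7) (nat_lit 11) L14018 (by decide +kernel)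
theorem L14020 : W_23 (nat_lit 5) (nat_lit 0x780000001c00080000000000000000000000000000000) (nat_lit 0x0) (nat_lit 0x5800000016000200120000000000000000000000000000000) := T_23 (nat_lit 158) (nat_lit 157) (nat_lit 0) (nat_lit 8) (nat_lit 10) L14019 (by decide +kernel)
theorem L14021 : W_23 (nat_lit 2) (nat_lit 0x5000780004001e000900008000c0000000000000000000000) (nat_lit 0x0) (nat_lit 0x400020001000000000000000000) := D_23 (nat_lit 89) (nat_lit 72) (nat_lit 106) (nat_lit 4) (nat_lit 5) (nat_lit 8) (nat_lit 4) (nat_lit 5) (nat_lit 9) (by decide +kernel)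
theorem L14022 : W_23 (nat_lit 3) (nat_lit 0x5000780004001e00090000800080000000000000000000000) (nat_lit 0x0) (nat_lit 0x400060005000000000000000000) := T_23 (nat_lit 90) (nat_lit 74) (nat_lit 6) (nat_lit 5) (nat_lit 8) L14021 (by decide +kernel)
theorem L14023 : W_23 (nat_lit 4) (nat_lit 0x4000780004001e00090000800080000000000000000000000) (nat_lit 0x0) (nat_lit 0x1800000000000000000000400060005000000000000000000) := T_23 (nat_lit 192) (nat_lit 191) (nat_lit 1) (nat_lit 8) (nat_lit 10) L14022 (by decide +kernel)
theorem L14024 : W_23 (nat_lit 5) (nat_lit 0x4000780004001e00090000800000000000000000000000000) (nat_lit 0x0) (nat_lit 0x18000000000000000000014000e0005000000000000000000) := T_23 (nat_lit 91) (nat_lit 108) (nat_lit 6) (nat_lit 5) (nat_lit 9) L14023 (by decide +kernel)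
theorem L14025 : W_23 (nat_lit 6) (nat_lit 0x4000780004001e00090000000000000000000000000000000) (nat_lit 0x0) (nat_lit 0x1800000008000000000001c000e0005000000000000000000) := T_23 (nat_lit 107) (nat_lit 159) (nat_lit 7) (nat_lit 5) (nat_lit 6) L14024 (by decide +kernel)
theorem L14026 : W_23 (nat_lit 7) (nat_lit 0x780004001e00090000000000000000000000000000000) (nat_lit 0x0) (nat_lit 0x5800000018000000000001c000e0005000000000000000000) := T_23 (nat_lit 194) (nat_lit 160) (nat_lit 6) (nat_lit 7) (nat_lit 11) L14025 (by decide +kernel)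
theorem L14027 : W_23 (nat_lit 8) (nat_lit 0x780004001e00080000000000000000000000000000000) (nat_lit 0x0) (nat_lit 0x5800000018000000018001c000e0005000000000000000000) := T_23 (nat_lit 124) (nat_lit 123) (nat_lit 0) (nat_lit 8) (nat_lit 8) L14026 (by decide +kernel)
theorem L14028 : W_23 (nat_lit 9) (nat_lit 0x780000001e00080000000000000000000000000000000) (nat_lit 0x0) (nat_lit 0x580000001e000000018001c000e0005000000000000000000) := T_23 (nat_lit 158) (nat_lit 157) (nat_lit 1) (nat_lit 8) (nat_lit 8) L14027 (by decide +kernel)
theorem L14029 : W_23 (nat_lit 10) (nat_lit 0x780000001c00080000000000000000000000000000000) (nat_lit 0x0) (nat_lit 0x580000001e000200118001c000e0005000000000000000000) := T_23 (nat_lit 141) (nat_lit 128) (nat_lit 2) (nat_lit 5) (nat_lit 8) L14028 (by decide +kernel)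
theorem L14030 : W_23 (nat_lit 2) (nat_lit 0xc000780004001e000a0000000000000000000000000000000) (nat_lit 0x0) (nat_lit 0x18001000000000000000000000000000) := D_23 (nat_lit 124) (nat_lit 123) (nat_lit 108) (nat_lit 0) (nat_lit 8) (nat_lit 8) (nat_lit 6) (nat_lit 5) (nat_lit 10) (by decide +kernel)
theorem L14031 : W_23 (nat_lit 3) (nat_lit 0xc000780004001c000a0000000000000000000000000000000) (nat_lit 0x0) (nat_lit 0x200118001000000000000000000000000000) := T_23 (nat_lit 141) (nat_lit 128) (nat_lit 2) (nat_lit 5) (nat_lit 8) L14030 (by decide +kernel)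
theorem L14032 : W_23 (nat_lit 4) (nat_lit 0xc000780000001c000a0000000000000000000000000000000) (nat_lit 0x0) (nat_lit 0x6000200118001000000000000000000000000000) := T_23 (nat_lit 158) (nat_lit 157) (nat_lit 0) (nat_lit 8) (nat_lit 10) L14031 (by decide +kernel)
theorem L14033 : W_23 (nat_lit 5) (nat_lit 0xc000780000001c00080000000000000000000000000000000) (nat_lit 0x0) (nat_lit 0xe000200138001000000000000000000000000000) := T_23 (nat_lit 125) (nat_lit 159) (nat_lit 7) (nat_lit 6) (nat_lit 7) L14032 (by decide +kernel)
theorem L14034 : W_23 (nat_lit 6) (nat_lit 0x8000780000001c00080000000000000000000000000000000) (nat_lit 0x0) (nat_lit 0x400000001e000200138001000000000000000000000000000) := T_23 (nat_lit 194) (nat_lit 160) (nat_lit 6) (nat_lit 7) (nat_lit 11) L14033 (by decide +kernel)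
theorem L14035 : W_23 (nat_lit 7) (nat_lit 0x780000001c00080000000000000000000000000000000) (nat_lit 0x0) (nat_lit 0x1c00000001e000200138001000000000000000000000000000) := T_23 (nat_lit 195) (nat_lit 196) (nat_lit 3) (nat_lit 5) (nat_lit 10) L14034 (by decide +kernel)
theorem L14036 : W_23 (nat_lit 2) (nat_lit 0x2000000008000780010001f80088000000000000000000000000000000) (nat_lit 0x0) (nat_lit 0x3800000000000000000000000000000000000000) := D_23 (nat_lit 156) (nat_lit 155) (nat_lit 157) (nat_lit 1) (nat_lit 6) (nat_lit 8) (nat_lit 1) (nat_lit 7) (nat_lit 8) (by decide +kernel)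
theorem L14037 : W_23 (nat_lit 3) (nat_lit 0x2000000008000780010001f00088000000000000000000000000000000) (nat_lit 0x0) (nat_lit 0xb800080000000000000000000000000000000000) := T_23 (nat_lit 139) (nat_lit 159) (nat_lit 3) (nat_lit 3) (nat_lit 8) L14036 (by decide +kernel)
theorem L14038 : W_23 (nat_lit 4) (nat_lit 0x8000780010001f00088000000000000000000000000000000) (nat_lit 0x0) (nat_lit 0x200010000000000000b800080000000000000000000000000000000000) := T_23 (nat_lit 229) (nat_lit 212) (nat_lit 4) (nat_lit 8) (nat_lit 13) L14037 (by decide +kernel)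
theorem L14039 : W_23 (nat_lit 5) (nat_lit 0x8000780000001f00088000000000000000000000000000000) (nat_lit 0x0) (nat_lit 0x200010000400000001b800080000000000000000000000000000000000) := T_23 (nat_lit 160) (nat_lit 194) (nat_lit 6) (nat_lit 7) (nat_lit 11) L14038 (by decide +kernel)
theorem L14040 : W_23 (nat_lit 6) (nat_lit 0x8000780000001e00088000000000000000000000000000000) (nat_lit 0x0) (nat_lit 0x200010000400000001b800180004000000000000000000000000000000) := T_23 (nat_lit 140) (nat_lit 122) (nat_lit 0) (nat_lit 7) (nat_lit 8) L14039 (by decide +kernel)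
theorem L14041 : W_23 (nat_lit 7) (nat_lit 0x780000001e00088000000000000000000000000000000) (nat_lit 0x0) (nat_lit 0x200010001c00000001b800180004000000000000000000000000000000) := T_23 (nat_lit 195) (nat_lit 196) (nat_lit 3) (nat_lit 5) (nat_lit 10) L14040 (by decide +kernel)
theorem L14042 : W_23 (nat_lit 8) (nat_lit 0x780000001e00080000000000000000000000000000000) (nat_lit 0x0) (nat_lit 0x200010001c00000001b80018001c000000000000000000000000000000) := T_23 (nat_lit 123) (nat_lit 124) (nat_lit 0) (nat_lit 8) (nat_lit 8) L14041 (by decide +kernel)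
theorem L14043 : W_23 (nat_lit 9) (nat_lit 0x780000001c00080000000000000000000000000000000) (nat_lit 0x0) (nat_lit 0x200010001c00000001b80038011c000000000000000000000000000000) := T_23 (nat_lit 141) (nat_lit 128) (nat_lit 2) (nat_lit 5) (nat_lit 8) L14042 (by decide +kernel)
theorem L14044 : W_23 (nat_lit 11) (nat_lit 0x780000001800080000000000000000000000000000000) (nat_lit 0x0) (nat_lit 0x200012001d80000001f80078013c001c000e0005000000000000000000) := Q_23 (nat_lit 142) (C_23 L13835 (C_23 L14015 (C_23 L14020 (C_23 L14029 (C_23 L14035 (C_23 L14043 N_23)))))) (by decide +kernel)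
theorem L14045 : W_23 (nat_lit 2) (nat_lit 0x9000780004001c00080000000000000000000000000000000) (nat_lit 0x0) (nat_lit 0x20000000000008000000020000000000000000000000000000000) := D_23 (nat_lit 159) (nat_lit 125) (nat_lit 209) (nat_lit 5) (nat_lit 6) (nat_lit 7) (nat_lit 6) (nat_lit 5) (nat_lit 12) (by decide +kernel)
theorem L14046 : W_23 (nat_lit 3) (nat_lit 0x8000780004001c00080000000000000000000000000000000) (nat_lit 0x0) (nat_lit 0x20001800000008000000020000000000000000000000000000000) := T_23 (nat_lit 192) (nat_lit 191) (nat_lit 1) (nat_lit 8) (nat_lit 10) L14045 (by decide +kernel)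
theorem L14047 : W_23 (nat_lit 4) (nat_lit 0x8000780000001c00080000000000000000000000000000000) (nat_lit 0x0) (nat_lit 0x2000180000000e000000020000000000000000000000000000000) := T_23 (nat_lit 158) (nat_lit 157) (nat_lit 0) (nat_lit 8) (nat_lit 10) L14046 (by decide +kernel)
theorem L14048 : W_23 (nat_lit 5) (nat_lit 0x780000001c00080000000000000000000000000000000) (nat_lit 0x0) (nat_lit 0x2001980000000e000000020000000000000000000000000000000) := T_23 (nat_lit 195) (nat_lit 196) (nat_lit 3) (nat_lit 5) (nat_lit 10) L14047 (by decide +kernel)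
theorem L14049 : W_23 (nat_lit 7) (nat_lit 0x780000001800080000000000000000000000000000000) (nat_lit 0x0) (nat_lit 0x2001980000000e00070017c000000000000000000000000000000) := Q_23 (nat_lit 142) (C_23 L13835 (C_23 L13840 (C_23 L13825 (C_23 L14048 N_23)))) (by decide +kernel)
theorem L14050 : W_23 (nat_lit 2) (nat_lit 0x9000780000001800080000000000000000000000000000000) (nat_lit 0x0) (nat_lit 0x4000000010000000040000000000000000000000000000000) := D_23 (nat_lit 160) (nat_lit 194) (nat_lit 126) (nat_lit 6) (nat_lit 7) (nat_lit 11) (nat_lit 7) (nat_lit 7) (nat_lit 7) (by decide +kernel)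
theorem L14051 : W_23 (nat_lit 3) (nat_lit 0x1000780000001800080000000000000000000000000000000) (nat_lit 0x0) (nat_lit 0x1c000000010000000040000000000000000000000000000000) := T_23 (nat_lit 195) (nat_lit 196) (nat_lit 3) (nat_lit 5) (nat_lit 10) L14050 (by decide +kernel)
theorem L14052 : W_23 (nat_lit 4) (nat_lit 0x780000001800080000000000000000000000000000000) (nat_lit 0x0) (nat_lit 0x1d800000010000000040000000000000000000000000000000) := T_23 (nat_lit 192) (nat_lit 191) (nat_lit 1) (nat_lit 8) (nat_lit 10) L14051 (by decide +kernel)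
theorem L14053 : W_23 (nat_lit 14) (nat_lit 0x780000001000080000000000000000000000000000000) (nat_lit 0x0) (nat_lit 0x240012001d80100009f80cf8077c03bc005e000d000000000000000000) := Q_23 (nat_lit 143) (C_23 L14011 (C_23 L14016 (C_23 L13892 (C_23 L14044 (C_23 L14049 (C_23 L14052 N_23)))))) (by decide +kernel)
theorem L14054 : W_23 (nat_lit 12) (nat_lit 0x1000780004001000080000000000000000000000000000000) (nat_lit 0x0) (nat_lit 0x100008000ec0038001d8004e00740000000000000000000000000000000) := T_23 (nat_lit 179) (nat_lit 159) (nat_lit 0) (nat_lit 9) (nat_lit 10) L12883 (by decide +kernel)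
theorem L14055 : W_23 (nat_lit 13) (nat_lit 0x780004001000080000000000000000000000000000000) (nat_lit 0x0) (nat_lit 0x100008000ed8038001d8004e00740000000000000000000000000000000) := T_23 (nat_lit 192) (nat_lit 191) (nat_lit 1) (nat_lit 8) (nat_lit 10) L14054 (by decide +kernel)
theorem L14056 : W_23 (nat_lit 14) (nat_lit 0x780000001000080000000000000000000000000000000) (nat_lit 0x0) (nat_lit 0x100008000ed8038001de004e00740000000000000000000000000000000) := T_23 (nat_lit 158) (nat_lit 157) (nat_lit 0) (nat_lit 8) (nat_lit 10) L14055 (by decide +kernel)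
theorem L14057 : W_23 (nat_lit 2) (nat_lit 0x4000000011001f80090001800380000000000000000000000000000000) (nat_lit 0x0) (nat_lit 0x600040000000000000000000000000000000) := D_23 (nat_lit 142) (nat_lit 126) (nat_lit 141) (nat_lit 1) (nat_lit 10) (nat_lit 7) (nat_lit 2) (nat_lit 5) (nat_lit 8) (by decide +kernel)
theorem L14058 : W_23 (nat_lit 3) (nat_lit 0x4000000011001f80090001800280000000000000000000000000000000) (nat_lit 0x0) (nat_lit 0x600540000000000000000000000000000000) := T_23 (nat_lit 128) (nat_lit 130) (nat_lit 1) (nat_lit 11) (nat_lit 7) L14057 (by decide +kernel)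
theorem L14059 : W_23 (nat_lit 4) (nat_lit 0x4000000011001f80090001800080000000000000000000000000000000) (nat_lit 0x0) (nat_lit 0x4600740000000000000000000000000000000) := T_23 (nat_lit 129) (nat_lit 146) (nat_lit 5) (nat_lit 10) (nat_lit 7) L14058 (by decide +kernel)
theorem L14060 : W_23 (nat_lit 5) (nat_lit 0x4000000011001f80090001000080000000000000000000000000000000) (nat_lit 0x0) (nat_lit 0x4000000000004e00740000000000000000000000000000000) := T_23 (nat_lit 143) (nat_lit 194) (nat_lit 6) (nat_lit 7) (nat_lit 11) L14059 (by decide +kernel)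
theorem L14061 : W_23 (nat_lit 6) (nat_lit 0x11001f80090001000080000000000000000000000000000000) (nat_lit 0x0) (nat_lit 0x4000200004000000000004e00740000000000000000000000000000000) := T_23 (nat_lit 230) (nat_lit 213) (nat_lit 6) (nat_lit 9) (nat_lit 13) L14060 (by decide +kernel)
theorem L14062 : W_23 (nat_lit 7) (nat_lit 0x11001f80080001000080000000000000000000000000000000) (nat_lit 0x0) (nat_lit 0x4000200004000000018004e00740000000000000000000000000000000) := T_23 (nat_lit 160) (nat_lit 159) (nat_lit 0) (nat_lit 10) (nat_lit 10) L14061 (by decide +kernel)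
theorem L14063 : W_23 (nat_lit 8) (nat_lit 0x11000f80080001000080000000000000000000000000000000) (nat_lit 0x0) (nat_lit 0x4000200004001000118004e00740000000000000000000000000000000) := T_23 (nat_lit 180) (nat_lit 164) (nat_lit 2) (nat_lit 7) (nat_lit 10) L14062 (by decide +kernel)
theorem L14064 : W_23 (nat_lit 9) (nat_lit 0x11000f80000001000080000000000000000000000000000000) (nat_lit 0x0) (nat_lit 0x40002000040010001d8004e00740000000000000000000000000000000) := T_23 (nat_lit 163) (nat_lit 162) (nat_lit 2) (nat_lit 6) (nat_lit 10) L14063 (by decide +kernel)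
theorem L14065 : W_23 (nat_lit 10) (nat_lit 0x11000780000001000080000000000000000000000000000000) (nat_lit 0x0) (nat_lit 0x40002000240018001d8004e00740000000000000000000000000000000) := T_23 (nat_lit 179) (nat_lit 197) (nat_lit 3) (nat_lit 6) (nat_lit 10) L14064 (by decide +kernel)
theorem L14066 : W_23 (nat_lit 11) (nat_lit 0x10000780000001000080000000000000000000000000000000) (nat_lit 0x0) (nat_lit 0x40002000258018001d8004e00740000000000000000000000000000000) := T_23 (nat_lit 192) (nat_lit 191) (nat_lit 1) (nat_lit 8) (nat_lit 10) L14065 (by decide +kernel)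
theorem L14067 : W_23 (nat_lit 12) (nat_lit 0x780000001000080000000000000000000000000000000) (nat_lit 0x0) (nat_lit 0x400020003d8018001d8004e00740000000000000000000000000000000) := T_23 (nat_lit 196) (nat_lit 195) (nat_lit 3) (nat_lit 5) (nat_lit 10) L14066 (by decide +kernel)
theorem L14068 : W_23 (nat_lit 15) (nat_lit 0x380000001000080000000000000000000000000000000) (nat_lit 0x0) (nat_lit 0x16400b200fd803c001df80cf8077c03bc005e000d000000000000000000) := Q_23 (nat_lit 178) (C_23 L13816 (C_23 L12868 (C_23 L14008 (C_23 L14053 (C_23 L14056 (C_23 L13285 (C_23 L14067 N_23))))))) (by decide +kernel)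
theorem L14069 : W_23 (nat_lit 7) (nat_lit 0x380000001000080000000000000000000000000000000) (nat_lit 0x0) (nat_lit 0x100008001de0046001b800c00020000000000000000000000000000000) := Q_23 (nat_lit 174) (C_23 L14004 (C_23 L12753 (C_23 L12701 (C_23 L13999 N_23)))) (by decide +kernel)
theorem L14070 : W_23 (nat_lit 6) (nat_lit 0x380002001000080000000000000000000000000000000) (nat_lit 0x0) (nat_lit 0x8000c000060019000c00020000000000000000000000000000000) := T_23 (nat_lit 174) (nat_lit 156) (nat_lit 0) (nat_lit 7) (nat_lit 10) L13998 (by decide +kernel)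
theorem L14071 : W_23 (nat_lit 2) (nat_lit 0x7c0002001000080000000000000000000000000000000) (nat_lit 0x0) (nat_lit 0x1c000000000000000000000000000000000000000000000000) := D_23 (nat_lit 195) (nat_lit 196) (nat_lit 194) (nat_lit 3) (nat_lit 5) (nat_lit 10) (nat_lit 3) (nat_lit 4) (nat_lit 10) (by decide +kernel)
theorem L14072 : W_23 (nat_lit 3) (nat_lit 0x780002001000080000000000000000000000000000000) (nat_lit 0x0) (nat_lit 0x1c000040001000000000000000000000000000000000000000) := T_23 (nat_lit 174) (nat_lit 156) (nat_lit 0) (nat_lit 7) (nat_lit 10) L14071 (by decide +kernel)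
theorem L14073 : W_23 (nat_lit 4) (nat_lit 0x380002001000080000000000000000000000000000000) (nat_lit 0x0) (nat_lit 0x1c000440005000000000000000000000000000000000000000) := T_23 (nat_lit 178) (nat_lit 158) (nat_lit 0) (nat_lit 8) (nat_lit 10) L14072 (by decide +kernel)
theorem L14074 : W_23 (nat_lit 3) (nat_lit 0x380002001000080000000000000000000000000000000) (nat_lit 0x0) (nat_lit 0x40000d800000000000000000000000000000000000000) := T_23 (nat_lit 158) (nat_lit 178) (nat_lit 0) (nat_lit 8) (nat_lit 10) L13739 (by decide +kernel)
theorem L14075 : W_23 (nat_lit 2) (nat_lit 0x4000000010001f80092001800380000000000000000000000000000000) (nat_lit 0x0) (nat_lit 0x600040000000000000000000000000000000) := D_23 (nat_lit 142) (nat_lit 126) (nat_lit 141) (nat_lit 1) (nat_lit 10) (nat_lit 7) (nat_lit 2) (nat_lit 5) (nat_lit 8) (by decide +kernel)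
theorem L14076 : W_23 (nat_lit 3) (nat_lit 0x4000000010001f80092001800280000000000000000000000000000000) (nat_lit 0x0) (nat_lit 0x600540000000000000000000000000000000) := T_23 (nat_lit 128) (nat_lit 130) (nat_lit 1) (nat_lit 11) (nat_lit 7) L14075 (by decide +kernel)
theorem L14077 : W_23 (nat_lit 4) (nat_lit 0x4000000010001f80092001800080000000000000000000000000000000) (nat_lit 0x0) (nat_lit 0x4600740000000000000000000000000000000) := T_23 (nat_lit 129) (nat_lit 146) (nat_lit 5) (nat_lit 10) (nat_lit 7) L14076 (by decide +kernel)
theorem L14078 : W_23 (nat_lit 5) (nat_lit 0x4000000010001f80092001000080000000000000000000000000000000) (nat_lit 0x0) (nat_lit 0x4000000000004e00740000000000000000000000000000000) := T_23 (nat_lit 143) (nat_lit 194) (nat_lit 6) (nat_lit 7) (nat_lit 11) L14077 (by decide +kernel)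
theorem L14079 : W_23 (nat_lit 6) (nat_lit 0x10001f80092001000080000000000000000000000000000000) (nat_lit 0x0) (nat_lit 0x4000200004000000000004e00740000000000000000000000000000000) := T_23 (nat_lit 230) (nat_lit 213) (nat_lit 6) (nat_lit 9) (nat_lit 13) L14078 (by decide +kernel)
theorem L14080 : W_23 (nat_lit 7) (nat_lit 0x10001f80082001000080000000000000000000000000000000) (nat_lit 0x0) (nat_lit 0x4000200004000000018004e00740000000000000000000000000000000) := T_23 (nat_lit 160) (nat_lit 159) (nat_lit 0) (nat_lit 10) (nat_lit 10) L14079 (by decide +kernel)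
theorem L14081 : W_23 (nat_lit 8) (nat_lit 0x10000f80082001000080000000000000000000000000000000) (nat_lit 0x0) (nat_lit 0x4000200004001000118004e00740000000000000000000000000000000) := T_23 (nat_lit 180) (nat_lit 164) (nat_lit 2) (nat_lit 7) (nat_lit 10) L14080 (by decide +kernel)
theorem L14082 : W_23 (nat_lit 9) (nat_lit 0x10000f80002001000080000000000000000000000000000000) (nat_lit 0x0) (nat_lit 0x40002000040010001d8004e00740000000000000000000000000000000) := T_23 (nat_lit 163) (nat_lit 162) (nat_lit 2) (nat_lit 6) (nat_lit 10) L14081 (by decide +kernel)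
theorem L14083 : W_23 (nat_lit 10) (nat_lit 0x10000780002001000080000000000000000000000000000000) (nat_lit 0x0) (nat_lit 0x40002000240018001d8004e00740000000000000000000000000000000) := T_23 (nat_lit 179) (nat_lit 197) (nat_lit 3) (nat_lit 6) (nat_lit 10) L14082 (by decide +kernel)
theorem L14084 : W_23 (nat_lit 11) (nat_lit 0x780002001000080000000000000000000000000000000) (nat_lit 0x0) (nat_lit 0x400020003c0018001d8004e00740000000000000000000000000000000) := T_23 (nat_lit 196) (nat_lit 195) (nat_lit 3) (nat_lit 5) (nat_lit 10) L14083 (by decide +kernel)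
theorem L14085 : W_23 (nat_lit 12) (nat_lit 0x380002001000080000000000000000000000000000000) (nat_lit 0x0) (nat_lit 0x400020003c001c001dc004e00740000000000000000000000000000000) := T_23 (nat_lit 178) (nat_lit 158) (nat_lit 0) (nat_lit 8) (nat_lit 10) L14084 (by decide +kernel)
theorem L14086 : W_23 (nat_lit 13) (nat_lit 0x380000001000080000000000000000000000000000000) (nat_lit 0x0) (nat_lit 0x400028003c001c601df804e00760000000000000000000000000000000) := Q_23 (nat_lit 157) (C_23 L14070 (C_23 L14073 (C_23 L14074 (C_23 L14085 N_23)))) (by decide +kernel)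
theorem L14087 : W_23 (nat_lit 6) (nat_lit 0x4000380000001000080000000000000000000000000000000) (nat_lit 0x0) (nat_lit 0x1000080008c00060018000c00000000000000000000000000000000000) := T_23 (nat_lit 174) (nat_lit 195) (nat_lit 3) (nat_lit 4) (nat_lit 10) L14003 (by decide +kernel)
theorem L14090 : W_23 (nat_lit 2) (nat_lit 0x48007c00180010000a0000000000000000000000000000000) (nat_lit 0x0) (nat_lit 0x1800004000000000000000000000000000000000000000) := D_23 (nat_lit 179) (nat_lit 180) (nat_lit 158) (nat_lit 0) (nat_lit 10) (nat_lit 10) (nat_lit 0) (nat_lit 9) (nat_lit 10) (by decide +kernel)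
theorem L14091 : W_23 (nat_lit 3) (nat_lit 0x48003c00180010000a0000000000000000000000000000000) (nat_lit 0x0) (nat_lit 0x1001c00004000000000000000000000000000000000000000) := T_23 (nat_lit 178) (nat_lit 192) (nat_lit 1) (nat_lit 8) (nat_lit 10) L14090 (by decide +kernel)
theorem L14092 : W_23 (nat_lit 4) (nat_lit 0x40003c00180010000a0000000000000000000000000000000) (nat_lit 0x0) (nat_lit 0x1c01c00004000000000000000000000000000000000000000) := T_23 (nat_lit 191) (nat_lit 190) (nat_lit 1) (nat_lit 7) (nat_lit 10) L14091 (by decide +kernel)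
theorem L14093 : W_23 (nat_lit 5) (nat_lit 0x40003800180010000a0000000000000000000000000000000) (nat_lit 0x0) (nat_lit 0x1c01c60004000000000000000000000000000000000000000) := T_23 (nat_lit 174) (nat_lit 173) (nat_lit 2) (nat_lit 3) (nat_lit 10) L14092 (by decide +kernel)
theorem L14094 : W_23 (nat_lit 6) (nat_lit 0x40003800080010000a0000000000000000000000000000000) (nat_lit 0x0) (nat_lit 0x1c01c60014000800000000000000000000000000000000000) := T_23 (nat_lit 160) (nat_lit 143) (nat_lit 6) (nat_lit 7) (nat_lit 11) L14093 (by decide +kernel)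
theorem L14095 : W_23 (nat_lit 7) (nat_lit 0x4000380008001000080000000000000000000000000000000) (nat_lit 0x0) (nat_lit 0x1c01c60014000c00020000000000000000000000000000000) := T_23 (nat_lit 125) (nat_lit 142) (nat_lit 7) (nat_lit 6) (nat_lit 7) L14094 (by decide +kernel)
theorem L14096 : W_23 (nat_lit 2) (nat_lit 0x80004000380008001000080000000000000000000000000000000) (nat_lit 0x0) (nat_lit 0x10000400020000000000000000000000000000000) := D_23 (nat_lit 142) (nat_lit 125) (nat_lit 160) (nat_lit 7) (nat_lit 6) (nat_lit 7) (nat_lit 4) (nat_lit 7) (nat_lit 12) (by decide +kernel)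
theorem L14097 : W_23 (nat_lit 3) (nat_lit 0x4000380008001000080000000000000000000000000000000) (nat_lit 0x0) (nat_lit 0x1000080000000000010000400020000000000000000000000000000000) := T_23 (nat_lit 211) (nat_lit 228) (nat_lit 4) (nat_lit 7) (nat_lit 13) L14096 (by decide +kernel)
theorem L14098 : W_23 (nat_lit 2) (nat_lit 0x1400000025000f800880010000a0000000000000000000000000000000) (nat_lit 0x0) (nat_lit 0x40001000100000000000000000000000000000000000000000) := D_23 (nat_lit 180) (nat_lit 198) (nat_lit 164) (nat_lit 3) (nat_lit 7) (nat_lit 10) (nat_lit 2) (nat_lit 7) (nat_lit 10) (by decide +kernel)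
theorem L14099 : W_23 (nat_lit 3) (nat_lit 0x1400000025000f800080010000a0000000000000000000000000000000) (nat_lit 0x0) (nat_lit 0x400010001c0000000000000000000000000000000000000000) := T_23 (nat_lit 163) (nat_lit 162) (nat_lit 2) (nat_lit 6) (nat_lit 10) L14098 (by decide +kernel)
theorem L14100 : W_23 (nat_lit 4) (nat_lit 0x1400000005000f800080010000a0000000000000000000000000000000) (nat_lit 0x0) (nat_lit 0x700010001c0000000000000000000000000000000000000000) := T_23 (nat_lit 197) (nat_lit 196) (nat_lit 3) (nat_lit 6) (nat_lit 10) L14099 (by decide +kernel)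
theorem L14101 : W_23 (nat_lit 5) (nat_lit 0x400000005000f800080010000a0000000000000000000000000000000) (nat_lit 0x0) (nat_lit 0x10000800700010001c0000000000000000000000000000000000000000) := T_23 (nat_lit 228) (nat_lit 211) (nat_lit 4) (nat_lit 7) (nat_lit 13) L14100 (by decide +kernel)
theorem L14102 : W_23 (nat_lit 6) (nat_lit 0x4000000050007800080010000a0000000000000000000000000000000) (nat_lit 0x0) (nat_lit 0x10000800700018001c4000000000000000000000000000000000000000) := T_23 (nat_lit 179) (nat_lit 158) (nat_lit 0) (nat_lit 9) (nat_lit 10) L14101 (by decide +kernel)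
theorem L14103 : W_23 (nat_lit 7) (nat_lit 0x4000000050003800080010000a0000000000000000000000000000000) (nat_lit 0x0) (nat_lit 0x1000080070801c001c4000000000000000000000000000000000000000) := T_23 (nat_lit 178) (nat_lit 191) (nat_lit 1) (nat_lit 8) (nat_lit 10) L14102 (by decide +kernel)
theorem L14104 : W_23 (nat_lit 8) (nat_lit 0x50003800080010000a0000000000000000000000000000000) (nat_lit 0x0) (nat_lit 0x14000a0070801c001c4000000000000000000000000000000000000000) := T_23 (nat_lit 226) (nat_lit 209) (nat_lit 6) (nat_lit 5) (nat_lit 13) L14103 (by decide +kernel)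
theorem L14105 : W_23 (nat_lit 9) (nat_lit 0x5000380008001000080000000000000000000000000000000) (nat_lit 0x0) (nat_lit 0x14000a0070801c001c4000400020000000000000000000000000000000) := T_23 (nat_lit 125) (nat_lit 142) (nat_lit 7) (nat_lit 6) (nat_lit 7) L14104 (by decide +kernel)
theorem L14106 : W_23 (nat_lit 2) (nat_lit 0x1000000005000380008001400080000000000000000000000000000000) (nat_lit 0x0) (nat_lit 0x400020000000000004000000000000000000000000000000000000000) := D_23 (nat_lit 209) (nat_lit 226) (nat_lit 158) (nat_lit 6) (nat_lit 5) (nat_lit 13) (nat_lit 6) (nat_lit 5) (nat_lit 12) (by decide +kernel)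
theorem L14107 : W_23 (nat_lit 3) (nat_lit 0x1000000005000380008001000080000000000000000000000000000000) (nat_lit 0x0) (nat_lit 0x400020000000000004000400020000000000000000000000000000000) := T_23 (nat_lit 142) (nat_lit 125) (nat_lit 7) (nat_lit 6) (nat_lit 7) L14106 (by decide +kernel)
theorem L14108 : W_23 (nat_lit 4) (nat_lit 0x5000380008001000080000000000000000000000000000000) (nat_lit 0x0) (nat_lit 0x14000a0000000000004000400020000000000000000000000000000000) := T_23 (nat_lit 228) (nat_lit 211) (nat_lit 4) (nat_lit 7) (nat_lit 13) L14107 (by decide +kernel)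
theorem L14109 : W_23 (nat_lit 2) (nat_lit 0x400000025000f800880010000a0000000000000000000000000000000) (nat_lit 0x0) (nat_lit 0x40001000100000000000000000000000000000000000000000) := D_23 (nat_lit 180) (nat_lit 164) (nat_lit 198) (nat_lit 2) (nat_lit 7) (nat_lit 10) (nat_lit 3) (nat_lit 7) (nat_lit 10) (by decide +kernel)
theorem L14110 : W_23 (nat_lit 3) (nat_lit 0x400000005000f800880010000a0000000000000000000000000000000) (nat_lit 0x0) (nat_lit 0x70001000100000000000000000000000000000000000000000) := T_23 (nat_lit 197) (nat_lit 196) (nat_lit 3) (nat_lit 6) (nat_lit 10) L14109 (by decide +kernel)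
theorem L14111 : W_23 (nat_lit 4) (nat_lit 0x400000005000f800080010000a0000000000000000000000000000000) (nat_lit 0x0) (nat_lit 0x700010001c0000000000000000000000000000000000000000) := T_23 (nat_lit 163) (nat_lit 162) (nat_lit 2) (nat_lit 6) (nat_lit 10) L14110 (by decide +kernel)
theorem L14112 : W_23 (nat_lit 5) (nat_lit 0x400000005000f80008001000080000000000000000000000000000000) (nat_lit 0x0) (nat_lit 0x700010001c0000400020000000000000000000000000000000) := T_23 (nat_lit 125) (nat_lit 142) (nat_lit 7) (nat_lit 6) (nat_lit 7) L14111 (by decide +kernel)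
theorem L14113 : W_23 (nat_lit 6) (nat_lit 0x400000005000780008001000080000000000000000000000000000000) (nat_lit 0x0) (nat_lit 0x700018001c4000400020000000000000000000000000000000) := T_23 (nat_lit 179) (nat_lit 158) (nat_lit 0) (nat_lit 9) (nat_lit 10) L14112 (by decide +kernel)
theorem L14114 : W_23 (nat_lit 7) (nat_lit 0x400000005000380008001000080000000000000000000000000000000) (nat_lit 0x0) (nat_lit 0x70801c001c4000400020000000000000000000000000000000) := T_23 (nat_lit 178) (nat_lit 191) (nat_lit 1) (nat_lit 8) (nat_lit 10) L14113 (by decide +kernel)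
theorem L14115 : W_23 (nat_lit 8) (nat_lit 0x5000380008001000080000000000000000000000000000000) (nat_lit 0x0) (nat_lit 0x400020070801c001c4000400020000000000000000000000000000000) := T_23 (nat_lit 226) (nat_lit 209) (nat_lit 6) (nat_lit 5) (nat_lit 13) L14114 (by decide +kernel)
theorem L14116 : W_23 (nat_lit 2) (nat_lit 0x1400000025000f80088001000080000000000000000000000000000000) (nat_lit 0x0) (nat_lit 0x40001000100000000000000000000000000000000000000000) := D_23 (nat_lit 180) (nat_lit 198) (nat_lit 164) (nat_lit 3) (nat_lit 7) (nat_lit 10) (nat_lit 2) (nat_lit 7) (nat_lit 10) (by decide +kernel)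
theorem L14117 : W_23 (nat_lit 3) (nat_lit 0x1400000025000f80008001000080000000000000000000000000000000) (nat_lit 0x0) (nat_lit 0x400010001c0000000000000000000000000000000000000000) := T_23 (nat_lit 163) (nat_lit 162) (nat_lit 2) (nat_lit 6) (nat_lit 10) L14116 (by decide +kernel)
theorem L14118 : W_23 (nat_lit 4) (nat_lit 0x1400000005000f80008001000080000000000000000000000000000000) (nat_lit 0x0) (nat_lit 0x700010001c0000000000000000000000000000000000000000) := T_23 (nat_lit 197) (nat_lit 196) (nat_lit 3) (nat_lit 6) (nat_lit 10) L14117 (by decide +kernel)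
theorem L14119 : W_23 (nat_lit 5) (nat_lit 0x1000000005000f80008001000080000000000000000000000000000000) (nat_lit 0x0) (nat_lit 0x4000200700010001c0000000000000000000000000000000000000000) := T_23 (nat_lit 226) (nat_lit 209) (nat_lit 6) (nat_lit 5) (nat_lit 13) L14118 (by decide +kernel)
theorem L14120 : W_23 (nat_lit 6) (nat_lit 0x1000000005000780008001000080000000000000000000000000000000) (nat_lit 0x0) (nat_lit 0x4000200700018001c4000000000000000000000000000000000000000) := T_23 (nat_lit 179) (nat_lit 158) (nat_lit 0) (nat_lit 9) (nat_lit 10) L14119 (by decide +kernel)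
theorem L14121 : W_23 (nat_lit 7) (nat_lit 0x1000000005000380008001000080000000000000000000000000000000) (nat_lit 0x0) (nat_lit 0x400020070801c001c4000000000000000000000000000000000000000) := T_23 (nat_lit 178) (nat_lit 191) (nat_lit 1) (nat_lit 8) (nat_lit 10) L14120 (by decide +kernel)
theorem L14122 : W_23 (nat_lit 8) (nat_lit 0x5000380008001000080000000000000000000000000000000) (nat_lit 0x0) (nat_lit 0x14000a0070801c001c4000000000000000000000000000000000000000) := T_23 (nat_lit 228) (nat_lit 211) (nat_lit 4) (nat_lit 7) (nat_lit 13) L14121 (by decide +kernel)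
theorem L14123 : W_23 (nat_lit 2) (nat_lit 0x14000000058003800080010000a0000000000000000000000000000000) (nat_lit 0x0) (nat_lit 0x600040000000000000000000000000000000000000000000) := D_23 (nat_lit 190) (nat_lit 174) (nat_lit 189) (nat_lit 1) (nat_lit 7) (nat_lit 10) (nat_lit 2) (nat_lit 2) (nat_lit 11) (by decide +kernel)
theorem L14124 : W_23 (nat_lit 3) (nat_lit 0x14000000050003800080010000a0000000000000000000000000000000) (nat_lit 0x0) (nat_lit 0xe00440000000000000000000000000000000000000000000) := T_23 (nat_lit 191) (nat_lit 178) (nat_lit 1) (nat_lit 8) (nat_lit 10) L14123 (by decide +kernel)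
theorem L14125 : W_23 (nat_lit 4) (nat_lit 0x4000000050003800080010000a0000000000000000000000000000000) (nat_lit 0x0) (nat_lit 0x1000080000e00440000000000000000000000000000000000000000000) := T_23 (nat_lit 228) (nat_lit 211) (nat_lit 4) (nat_lit 7) (nat_lit 13) L14124 (by decide +kernel)
theorem L14126 : W_23 (nat_lit 5) (nat_lit 0x400000005000380008001000080000000000000000000000000000000) (nat_lit 0x0) (nat_lit 0x1000080000e00440000000400020000000000000000000000000000000) := T_23 (nat_lit 125) (nat_lit 142) (nat_lit 7) (nat_lit 6) (nat_lit 7) L14125 (by decide +kernel)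
theorem L14127 : W_23 (nat_lit 6) (nat_lit 0x5000380008001000080000000000000000000000000000000) (nat_lit 0x0) (nat_lit 0x14000a0000e00440000000400020000000000000000000000000000000) := T_23 (nat_lit 226) (nat_lit 209) (nat_lit 6) (nat_lit 5) (nat_lit 13) L14126 (by decide +kernel)
theorem L14128 : W_23 (nat_lit 2) (nat_lit 0x25000f800880010000a0000000000000000000000000000000) (nat_lit 0x0) (nat_lit 0x40001000100000000000000000000000000000000000000000) := D_23 (nat_lit 180) (nat_lit 164) (nat_lit 198) (nat_lit 2) (nat_lit 7) (nat_lit 10) (nat_lit 3) (nat_lit 7) (nat_lit 10) (by decide +kernel)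
theorem L14129 : W_23 (nat_lit 3) (nat_lit 0x5000f800880010000a0000000000000000000000000000000) (nat_lit 0x0) (nat_lit 0x70001000100000000000000000000000000000000000000000) := T_23 (nat_lit 197) (nat_lit 196) (nat_lit 3) (nat_lit 6) (nat_lit 10) L14128 (by decide +kernel)
theorem L14130 : W_23 (nat_lit 4) (nat_lit 0x5000f800080010000a0000000000000000000000000000000) (nat_lit 0x0) (nat_lit 0x700010001c0000000000000000000000000000000000000000) := T_23 (nat_lit 163) (nat_lit 162) (nat_lit 2) (nat_lit 6) (nat_lit 10) L14129 (by decide +kernel)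
theorem L14131 : W_23 (nat_lit 5) (nat_lit 0x5000f80008001000080000000000000000000000000000000) (nat_lit 0x0) (nat_lit 0x700010001c0000400020000000000000000000000000000000) := T_23 (nat_lit 125) (nat_lit 142) (nat_lit 7) (nat_lit 6) (nat_lit 7) L14130 (by decide +kernel)
theorem L14132 : W_23 (nat_lit 6) (nat_lit 0x5000780008001000080000000000000000000000000000000) (nat_lit 0x0) (nat_lit 0x700018001c4000400020000000000000000000000000000000) := T_23 (nat_lit 179) (nat_lit 158) (nat_lit 0) (nat_lit 9) (nat_lit 10) L14131 (by decide +kernel)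
theorem L14133 : W_23 (nat_lit 7) (nat_lit 0x5000380008001000080000000000000000000000000000000) (nat_lit 0x0) (nat_lit 0x70801c001c4000400020000000000000000000000000000000) := T_23 (nat_lit 178) (nat_lit 191) (nat_lit 1) (nat_lit 8) (nat_lit 10) L14132 (by decide +kernel)
theorem L14134 : W_23 (nat_lit 10) (nat_lit 0x4000380008001000080000000000000000000000000000000) (nat_lit 0x0) (nat_lit 0x14000a0071e01c401c4000400020000000000000000000000000000000) := Q_23 (nat_lit 192) (C_23 L14105 (C_23 L14108 (C_23 L14115 (C_23 L14122 (C_23 L14127 (C_23 L14133 N_23)))))) (by decide +kernel)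
theorem L14135 : W_23 (nat_lit 2) (nat_lit 0x10000000048007c0018001000080000000000000000000000000000000) (nat_lit 0x0) (nat_lit 0x1800004000000000000000000000000000000000000000) := D_23 (nat_lit 179) (nat_lit 180) (nat_lit 158) (nat_lit 0) (nat_lit 10) (nat_lit 10) (nat_lit 0) (nat_lit 9) (nat_lit 10) (by decide +kernel)
theorem L14136 : W_23 (nat_lit 3) (nat_lit 0x10000000048003c0018001000080000000000000000000000000000000) (nat_lit 0x0) (nat_lit 0x1001c00004000000000000000000000000000000000000000) := T_23 (nat_lit 178) (nat_lit 192) (nat_lit 1) (nat_lit 8) (nat_lit 10) L14135 (by decide +kernel)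
theorem L14137 : W_23 (nat_lit 4) (nat_lit 0x10000000040003c0018001000080000000000000000000000000000000) (nat_lit 0x0) (nat_lit 0x1c01c00004000000000000000000000000000000000000000) := T_23 (nat_lit 191) (nat_lit 190) (nat_lit 1) (nat_lit 7) (nat_lit 10) L14136 (by decide +kernel)
theorem L14138 : W_23 (nat_lit 5) (nat_lit 0x40003c0018001000080000000000000000000000000000000) (nat_lit 0x0) (nat_lit 0x1000080001c01c00004000000000000000000000000000000000000000) := T_23 (nat_lit 228) (nat_lit 211) (nat_lit 4) (nat_lit 7) (nat_lit 13) L14137 (by decide +kernel)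
theorem L14139 : W_23 (nat_lit 6) (nat_lit 0x4000380018001000080000000000000000000000000000000) (nat_lit 0x0) (nat_lit 0x1000080001c01c60004000000000000000000000000000000000000000) := T_23 (nat_lit 174) (nat_lit 173) (nat_lit 2) (nat_lit 3) (nat_lit 10) L14138 (by decide +kernel)
theorem L14140 : W_23 (nat_lit 7) (nat_lit 0x4000380008001000080000000000000000000000000000000) (nat_lit 0x0) (nat_lit 0x1000080001c01c60014000800000000000000000000000000000000000) := T_23 (nat_lit 160) (nat_lit 143) (nat_lit 6) (nat_lit 7) (nat_lit 11) L14139 (by decide +kernel)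
theorem L14141 : W_23 (nat_lit 11) (nat_lit 0x4000380000001000080000000000000000000000000000000) (nat_lit 0x0) (nat_lit 0x14000a0071e01c601dc000c00020000000000000000000000000000000) := Q_23 (nat_lit 159) (C_23 L14089 (C_23 L14095 (C_23 L14097 (C_23 L14134 (C_23 L14140 N_23))))) (by decide +kernel)
theorem L14142 : W_23 (nat_lit 2) (nat_lit 0x44003e0008801000080000000000000000000000000000000) (nat_lit 0x0) (nat_lit 0x10004400000000000000000000000000000000000000) := D_23 (nat_lit 172) (nat_lit 158) (nat_lit 154) (nat_lit 2) (nat_lit 2) (nat_lit 10) (nat_lit 0) (nat_lit 5) (nat_lit 10) (by decide +kernel)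
theorem L14143 : W_23 (nat_lit 3) (nat_lit 0x44003e0000801000080000000000000000000000000000000) (nat_lit 0x0) (nat_lit 0x1001c400000000000000000000000000000000000000) := T_23 (nat_lit 159) (nat_lit 160) (nat_lit 2) (nat_lit 3) (nat_lit 10) L14142 (by decide +kernel)
theorem L14144 : W_23 (nat_lit 4) (nat_lit 0x44003e0000001000080000000000000000000000000000000) (nat_lit 0x0) (nat_lit 0x1001dc00000000000000000000000000000000000000) := T_23 (nat_lit 155) (nat_lit 156) (nat_lit 0) (nat_lit 6) (nat_lit 10) L14143 (by decide +kernel)
theorem L14145 : W_23 (nat_lit 5) (nat_lit 0x44003c0000001000080000000000000000000000000000000) (nat_lit 0x0) (nat_lit 0x20003001dc00000000000000000000000000000000000000) := T_23 (nat_lit 173) (nat_lit 189) (nat_lit 1) (nat_lit 6) (nat_lit 10) L14144 (by decide +kernel)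
theorem L14146 : W_23 (nat_lit 6) (nat_lit 0x40003c0000001000080000000000000000000000000000000) (nat_lit 0x0) (nat_lit 0xe0003001dc00000000000000000000000000000000000000) := T_23 (nat_lit 190) (nat_lit 191) (nat_lit 1) (nat_lit 7) (nat_lit 10) L14145 (by decide +kernel)
theorem L14147 : W_23 (nat_lit 7) (nat_lit 0x4000380000001000080000000000000000000000000000000) (nat_lit 0x0) (nat_lit 0x8e0007001dc00000000000000000000000000000000000000) := T_23 (nat_lit 174) (nat_lit 195) (nat_lit 3) (nat_lit 4) (nat_lit 10) L14146 (by decide +kernel)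
theorem L14149 : W_23 (nat_lit 2) (nat_lit 0x4000380008001f00080000000000000000000000000000000) (nat_lit 0x0) (nat_lit 0x1c000000000000000000000000000000) := D_23 (nat_lit 123) (nat_lit 122) (nat_lit 124) (nat_lit 0) (nat_lit 7) (nat_lit 8) (nat_lit 0) (nat_lit 8) (nat_lit 8) (by decide +kernel)
theorem L14150 : W_23 (nat_lit 3) (nat_lit 0x4000380008001e00080000000000000000000000000000000) (nat_lit 0x0) (nat_lit 0x10005c000000000000000000000000000000) := T_23 (nat_lit 140) (nat_lit 126) (nat_lit 2) (nat_lit 4) (nat_lit 8) L14149 (by decide +kernel)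
theorem L14151 : W_23 (nat_lit 4) (nat_lit 0x4000380008001c00080000000000000000000000000000000) (nat_lit 0x0) (nat_lit 0x30015c000000000000000000000000000000) := T_23 (nat_lit 141) (nat_lit 128) (nat_lit 2) (nat_lit 5) (nat_lit 8) L14150 (by decide +kernel)
theorem L14152 : W_23 (nat_lit 5) (nat_lit 0x4000380008001800080000000000000000000000000000000) (nat_lit 0x0) (nat_lit 0x70017c000000000000000000000000000000) := T_23 (nat_lit 142) (nat_lit 125) (nat_lit 7) (nat_lit 6) (nat_lit 7) L14151 (by decide +kernel)
theorem L14153 : W_23 (nat_lit 6) (nat_lit 0x4000380008001000080000000000000000000000000000000) (nat_lit 0x0) (nat_lit 0x10000f0017c000000000000000000000000000000) := T_23 (nat_lit 143) (nat_lit 160) (nat_lit 6) (nat_lit 7) (nat_lit 11) L14152 (by decide +kernel)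
theorem L14154 : W_23 (nat_lit 2) (nat_lit 0xf0005a003800080010000a0000000000000000000000000000000) (nat_lit 0x0) (nat_lit 0x4000300000000000000000000000000000000000000000000000000000000) := D_23 (nat_lit 225) (nat_lit 224) (nat_lit 242) (nat_lit 1) (nat_lit 7) (nat_lit 12) (nat_lit 6) (nat_lit 4) (nat_lit 14) (by decide +kernel)
theorem L14155 : W_23 (nat_lit 3) (nat_lit 0xe0005a003800080010000a0000000000000000000000000000000) (nat_lit 0x0) (nat_lit 0x4000300010008000000000000000000000000000000000000000000000000) := T_23 (nat_lit 208) (nat_lit 195) (nat_lit 2) (nat_lit 4) (nat_lit 12) L14154 (by decide +kernel)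
theorem L14156 : W_23 (nat_lit 4) (nat_lit 0xa0005a003800080010000a0000000000000000000000000000000) (nat_lit 0x0) (nat_lit 0x4000300150008000000000000000000000000000000000000000000000000) := T_23 (nat_lit 210) (nat_lit 212) (nat_lit 0) (nat_lit 8) (nat_lit 12) L14155 (by decide +kernel)
theorem L14157 : W_23 (nat_lit 5) (nat_lit 0xa00058003800080010000a0000000000000000000000000000000) (nat_lit 0x0) (nat_lit 0x4000300150008600000000000000000000000000000000000000000000000) := T_23 (nat_lit 189) (nat_lit 190) (nat_lit 2) (nat_lit 2) (nat_lit 11) L14156 (by decide +kernel)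
theorem L14158 : W_23 (nat_lit 6) (nat_lit 0x800058003800080010000a0000000000000000000000000000000) (nat_lit 0x0) (nat_lit 0x4000700170008600000000000000000000000000000000000000000000000) := T_23 (nat_lit 209) (nat_lit 226) (nat_lit 6) (nat_lit 5) (nat_lit 13) L14157 (by decide +kernel)
theorem L14159 : W_23 (nat_lit 7) (nat_lit 0x800050003800080010000a0000000000000000000000000000000) (nat_lit 0x0) (nat_lit 0x4000700170008e00400000000000000000000000000000000000000000000) := T_23 (nat_lit 191) (nat_lit 178) (nat_lit 1) (nat_lit 8) (nat_lit 10) L14158 (by decide +kernel)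
theorem L14160 : W_23 (nat_lit 8) (nat_lit 0x80005000380008001000080000000000000000000000000000000) (nat_lit 0x0) (nat_lit 0x4000700170008e00400000000400020000000000000000000000000000000) := T_23 (nat_lit 125) (nat_lit 142) (nat_lit 7) (nat_lit 6) (nat_lit 7) L14159 (by decide +kernel)
theorem L14161 : W_23 (nat_lit 9) (nat_lit 0x5000380008001000080000000000000000000000000000000) (nat_lit 0x0) (nat_lit 0x40017001f0008e00400000000400020000000000000000000000000000000) := T_23 (nat_lit 211) (nat_lit 228) (nat_lit 4) (nat_lit 7) (nat_lit 13) L14160 (by decide +kernel)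
theorem L14162 : W_23 (nat_lit 10) (nat_lit 0x4000380008001000080000000000000000000000000000000) (nat_lit 0x0) (nat_lit 0x40017001f0079e01c001c4000400020000000000000000000000000000000) := Q_23 (nat_lit 192) (C_23 L14133 (C_23 L14108 (C_23 L14122 (C_23 L14161 N_23)))) (by decide +kernel)
theorem L14163 : W_23 (nat_lit 2) (nat_lit 0x100000000d000f80008001000080000000000000000000000000000000) (nat_lit 0x0) (nat_lit 0x1000010000800000000000000000000000000000000000) := D_23 (nat_lit 160) (nat_lit 143) (nat_lit 180) (nat_lit 6) (nat_lit 7) (nat_lit 11) (nat_lit 0) (nat_lit 10) (nat_lit 10) (by decide +kernel)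
theorem L14164 : W_23 (nat_lit 3) (nat_lit 0x100000000d000780008001000080000000000000000000000000000000) (nat_lit 0x0) (nat_lit 0x1800014000800000000000000000000000000000000000) := T_23 (nat_lit 179) (nat_lit 158) (nat_lit 0) (nat_lit 9) (nat_lit 10) L14163 (by decide +kernel)
theorem L14165 : W_23 (nat_lit 4) (nat_lit 0x100000000c000780008001000080000000000000000000000000000000) (nat_lit 0x0) (nat_lit 0x1801800014000800000000000000000000000000000000000) := T_23 (nat_lit 192) (nat_lit 191) (nat_lit 1) (nat_lit 8) (nat_lit 10) L14164 (by decide +kernel)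
theorem L14166 : W_23 (nat_lit 5) (nat_lit 0x1000000004000780008001000080000000000000000000000000000000) (nat_lit 0x0) (nat_lit 0x19801800014000800000000000000000000000000000000000) := T_23 (nat_lit 195) (nat_lit 196) (nat_lit 3) (nat_lit 5) (nat_lit 10) L14165 (by decide +kernel)
theorem L14167 : W_23 (nat_lit 6) (nat_lit 0x4000780008001000080000000000000000000000000000000) (nat_lit 0x0) (nat_lit 0x1000080019801800014000800000000000000000000000000000000000) := T_23 (nat_lit 228) (nat_lit 211) (nat_lit 4) (nat_lit 7) (nat_lit 13) L14166 (by decide +kernel)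
theorem L14168 : W_23 (nat_lit 2) (nat_lit 0x140000000d000f80088001000080000000000000000000000000000000) (nat_lit 0x0) (nat_lit 0x3000100000000000000000000000000000000000000000) := D_23 (nat_lit 180) (nat_lit 181) (nat_lit 164) (nat_lit 1) (nat_lit 11) (nat_lit 10) (nat_lit 2) (nat_lit 7) (nat_lit 10) (by decide +kernel)
theorem L14169 : W_23 (nat_lit 3) (nat_lit 0x140000000d000f80008001000080000000000000000000000000000000) (nat_lit 0x0) (nat_lit 0x30001c0000000000000000000000000000000000000000) := T_23 (nat_lit 163) (nat_lit 162) (nat_lit 2) (nat_lit 6) (nat_lit 10) L14168 (by decide +kernel)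
theorem L14170 : W_23 (nat_lit 4) (nat_lit 0x40000000d000f80008001000080000000000000000000000000000000) (nat_lit 0x0) (nat_lit 0x10000800000030001c0000000000000000000000000000000000000000) := T_23 (nat_lit 228) (nat_lit 211) (nat_lit 4) (nat_lit 7) (nat_lit 13) L14169 (by decide +kernel)
theorem L14171 : W_23 (nat_lit 5) (nat_lit 0x40000000d000780008001000080000000000000000000000000000000) (nat_lit 0x0) (nat_lit 0x10000800000038001c4000000000000000000000000000000000000000) := T_23 (nat_lit 179) (nat_lit 158) (nat_lit 0) (nat_lit 9) (nat_lit 10) L14170 (by decide +kernel)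
theorem L14172 : W_23 (nat_lit 6) (nat_lit 0xd000780008001000080000000000000000000000000000000) (nat_lit 0x0) (nat_lit 0x14000a00000038001c4000000000000000000000000000000000000000) := T_23 (nat_lit 226) (nat_lit 209) (nat_lit 6) (nat_lit 5) (nat_lit 13) L14171 (by decide +kernel)
theorem L14173 : W_23 (nat_lit 7) (nat_lit 0x5000780008001000080000000000000000000000000000000) (nat_lit 0x0) (nat_lit 0x14000a00180038001c4000000000000000000000000000000000000000) := T_23 (nat_lit 195) (nat_lit 196) (nat_lit 3) (nat_lit 5) (nat_lit 10) L14172 (by decide +kernel)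
theorem L14174 : W_23 (nat_lit 8) (nat_lit 0x4000780008001000080000000000000000000000000000000) (nat_lit 0x0) (nat_lit 0x14000a00198038001c4000000000000000000000000000000000000000) := T_23 (nat_lit 192) (nat_lit 191) (nat_lit 1) (nat_lit 8) (nat_lit 10) L14173 (by decide +kernel)
theorem L14175 : W_23 (nat_lit 2) (nat_lit 0x4000f80008001000080000000000000000000000000000000) (nat_lit 0x0) (nat_lit 0x1000010000800000000000000000000000000000000000) := D_23 (nat_lit 160) (nat_lit 143) (nat_lit 180) (nat_lit 6) (nat_lit 7) (nat_lit 11) (nat_lit 0) (nat_lit 10) (nat_lit 10) (by decide +kernel)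
theorem L14176 : W_23 (nat_lit 3) (nat_lit 0x4000780008001000080000000000000000000000000000000) (nat_lit 0x0) (nat_lit 0x1800014000800000000000000000000000000000000000) := T_23 (nat_lit 179) (nat_lit 158) (nat_lit 0) (nat_lit 9) (nat_lit 10) L14175 (by decide +kernel)
theorem L14177 : W_23 (nat_lit 2) (nat_lit 0x20000a000d000780018001000080000000000000000000000000000000) (nat_lit 0x0) (nat_lit 0x800050000000000000000000000000000000000000000000000000000) := D_23 (nat_lit 210) (nat_lit 227) (nat_lit 208) (nat_lit 5) (nat_lit 7) (nat_lit 9) (nat_lit 2) (nat_lit 4) (nat_lit 12) (by decide +kernel)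
theorem L14178 : W_23 (nat_lit 3) (nat_lit 0x200008000d000780018001000080000000000000000000000000000000) (nat_lit 0x0) (nat_lit 0xc00070000000000000000000000000000000000000000000000000000) := T_23 (nat_lit 209) (nat_lit 226) (nat_lit 6) (nat_lit 5) (nat_lit 13) L14177 (by decide +kernel)
theorem L14179 : W_23 (nat_lit 4) (nat_lit 0x200000000d000780018001000080000000000000000000000000000000) (nat_lit 0x0) (nat_lit 0x1c000f0000000000000000000000000000000000000000000000000000) := T_23 (nat_lit 211) (nat_lit 228) (nat_lit 4) (nat_lit 7) (nat_lit 13) L14178 (by decide +kernel)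
theorem L14180 : W_23 (nat_lit 5) (nat_lit 0x200000000c000780018001000080000000000000000000000000000000) (nat_lit 0x0) (nat_lit 0x1c000f0001800000000000000000000000000000000000000000000000) := T_23 (nat_lit 192) (nat_lit 191) (nat_lit 1) (nat_lit 8) (nat_lit 10) L14179 (by decide +kernel)
theorem L14181 : W_23 (nat_lit 6) (nat_lit 0xc000780018001000080000000000000000000000000000000) (nat_lit 0x0) (nat_lit 0x3c001f0001800000000000000000000000000000000000000000000000) := T_23 (nat_lit 229) (nat_lit 212) (nat_lit 4) (nat_lit 8) (nat_lit 13) L14180 (by decide +kernel)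
theorem L14182 : W_23 (nat_lit 7) (nat_lit 0x4000780018001000080000000000000000000000000000000) (nat_lit 0x0) (nat_lit 0x3c001f0019800000000000000000000000000000000000000000000000) := T_23 (nat_lit 195) (nat_lit 196) (nat_lit 3) (nat_lit 5) (nat_lit 10) L14181 (by decide +kernel)
theorem L14183 : W_23 (nat_lit 8) (nat_lit 0x4000780008001000080000000000000000000000000000000) (nat_lit 0x0) (nat_lit 0x3c001f0019800000010000800000000000000000000000000000000000) := T_23 (nat_lit 160) (nat_lit 143) (nat_lit 6) (nat_lit 7) (nat_lit 11) L14182 (by decide +kernel)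
theorem L14184 : W_23 (nat_lit 9) (nat_lit 0x4000380008001000080000000000000000000000000000000) (nat_lit 0x0) (nat_lit 0x3c001f0019803c001d4000800000000000000000000000000000000000) := Q_23 (nat_lit 178) (C_23 L14167 (C_23 L14174 (C_23 L14176 (C_23 L14183 N_23)))) (by decide +kernel)
theorem L14185 : W_23 (nat_lit 11) (nat_lit 0x4000380000001000080000000000000000000000000000000) (nat_lit 0x0) (nat_lit 0x4003f001f0079e03c001dc000f0017c000000000000000000000000000000) := Q_23 (nat_lit 159) (C_23 L14097 (C_23 L14153 (C_23 L14089 (C_23 L14162 (C_23 L14184 N_23))))) (by decide +kernel)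
theorem L14186 : W_23 (nat_lit 12) (nat_lit 0x380000001000080000000000000000000000000000000) (nat_lit 0x0) (nat_lit 0x4003f001f007de03c701ddc00f0017c000000000000000000000000000000) := Q_23 (nat_lit 194) (C_23 L12927 (C_23 L14087 (C_23 L14141 (C_23 L14147 (C_23 L14148 (C_23 L14185 N_23)))))) (by decide +kernel)
theorem L14187 : W_23 (nat_lit 2) (nat_lit 0x80007c0004001000080000000000000000000000000000000) (nat_lit 0x0) (nat_lit 0x1c00000000000000000000000000000000000000000000000) := D_23 (nat_lit 191) (nat_lit 190) (nat_lit 192) (nat_lit 1) (nat_lit 7) (nat_lit 10) (nat_lit 1) (nat_lit 8) (nat_lit 10) (by decide +kernel)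
theorem L14188 : W_23 (nat_lit 3) (nat_lit 0x8000780004001000080000000000000000000000000000000) (nat_lit 0x0) (nat_lit 0x5c00040000000000000000000000000000000000000000000) := T_23 (nat_lit 174) (nat_lit 194) (nat_lit 3) (nat_lit 4) (nat_lit 10) L14187 (by decide +kernel)
theorem L14189 : W_23 (nat_lit 4) (nat_lit 0x780004001000080000000000000000000000000000000) (nat_lit 0x0) (nat_lit 0x1dc00040000000000000000000000000000000000000000000) := T_23 (nat_lit 195) (nat_lit 196) (nat_lit 3) (nat_lit 5) (nat_lit 10) L14188 (by decide +kernel)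
theorem L14190 : W_23 (nat_lit 5) (nat_lit 0x780000001000080000000000000000000000000000000) (nat_lit 0x0) (nat_lit 0x1dc00040006000000000000000000000000000000000000000) := T_23 (nat_lit 158) (nat_lit 157) (nat_lit 0) (nat_lit 8) (nat_lit 10) L14189 (by decide +kernel)
theorem L14191 : W_23 (nat_lit 15) (nat_lit 0x380000001000080000000000000000000000000000000) (nat_lit 0x0) (nat_lit 0x16000b000fdc03c401de004f0077c001400000000000000000000000000) := Q_23 (nat_lit 178) (C_23 L13816 (C_23 L12868 (C_23 L14067 (C_23 L14008 (C_23 L14190 (C_23 L14056 N_23)))))) (by decide +kernel)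
theorem L14192 : W_23 (nat_lit 16) (nat_lit 0x300000001000080000000000000000000000000000000) (nat_lit 0x0) (nat_lit 0x4017f00bf00fdf83cf81dfe0cf8077c03bc005e000d000000000000000000) := Q_23 (nat_lit 175) (C_23 L13993 (C_23 L14005 (C_23 L13309 (C_23 L14068 (C_23 L14069 (C_23 L14086 (C_23 L14186 (C_23 L14191 N_23)))))))) (by decide +kernel)
theorem L14193 : W_23 (nat_lit 7) (nat_lit 0x300000001800080000000000000000000000000000000) (nat_lit 0x0) (nat_lit 0x20007c00c8000f00070017c003800140000000000000000000000) := Q_23 (nat_lit 142) (C_23 L12640 (C_23 L12519 (C_23 L12653 (C_23 L12492 N_23)))) (by decide +kernel)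
theorem L14194 : W_23 (nat_lit 2) (nat_lit 0x300008001c00080000000000000000000000000000000) (nat_lit 0x0) (nat_lit 0x4000000010000000020000000000000000000000000000000) := D_23 (nat_lit 194) (nat_lit 160) (nat_lit 125) (nat_lit 6) (nat_lit 7) (nat_lit 11) (nat_lit 7) (nat_lit 6) (nat_lit 7) (by decide +kernel)
theorem L14196 : W_23 (nat_lit 2) (nat_lit 0x300008001e00090000000000000000000000000000000) (nat_lit 0x0) (nat_lit 0x6000000000000800000000000000000000000000) := D_23 (nat_lit 158) (nat_lit 157) (nat_lit 107) (nat_lit 1) (nat_lit 8) (nat_lit 8) (nat_lit 7) (nat_lit 5) (nat_lit 6) (by decide +kernel)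
theorem L14197 : W_23 (nat_lit 3) (nat_lit 0x300008001e00080000000000000000000000000000000) (nat_lit 0x0) (nat_lit 0x6000000018000800000000000000000000000000) := T_23 (nat_lit 124) (nat_lit 123) (nat_lit 0) (nat_lit 8) (nat_lit 8) L14196 (by decide +kernel)
theorem L14198 : W_23 (nat_lit 2) (nat_lit 0x3000b0000c001e000a0000000000000000000000000000000) (nat_lit 0x0) (nat_lit 0x10000000000001000080000000000000000000000) := D_23 (nat_lit 108) (nat_lit 160) (nat_lit 91) (nat_lit 7) (nat_lit 6) (nat_lit 6) (nat_lit 5) (nat_lit 6) (nat_lit 5) (by decide +kernel)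
theorem L14199 : W_23 (nat_lit 3) (nat_lit 0x3000b0000c001e00080000000000000000000000000000000) (nat_lit 0x0) (nat_lit 0x80010000000020001000080000000000000000000000) := T_23 (nat_lit 125) (nat_lit 175) (nat_lit 6) (nat_lit 5) (nat_lit 11) L14198 (by decide +kernel)
theorem L14200 : W_23 (nat_lit 4) (nat_lit 0x2000b0000c001e00080000000000000000000000000000000) (nat_lit 0x0) (nat_lit 0x20001000080010000000020001000080000000000000000000000) := T_23 (nat_lit 192) (nat_lit 209) (nat_lit 5) (nat_lit 6) (nat_lit 8) L14199 (by decide +kernel)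
theorem L14201 : W_23 (nat_lit 5) (nat_lit 0xb0000c001e00080000000000000000000000000000000) (nat_lit 0x0) (nat_lit 0x60003000080010000000020001000080000000000000000000000) := T_23 (nat_lit 193) (nat_lit 210) (nat_lit 4) (nat_lit 6) (nat_lit 12) L14200 (by decide +kernel)
theorem L14202 : W_23 (nat_lit 6) (nat_lit 0x30000c001e00080000000000000000000000000000000) (nat_lit 0x0) (nat_lit 0x60003000c80010000000020001000080000000000000000000000) := T_23 (nat_lit 179) (nat_lit 178) (nat_lit 0) (nat_lit 9) (nat_lit 10) L14201 (by decide +kernel)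
theorem L14203 : W_23 (nat_lit 7) (nat_lit 0x300008001e00080000000000000000000000000000000) (nat_lit 0x0) (nat_lit 0x60003000c80016000000020001000080000000000000000000000) := T_23 (nat_lit 158) (nat_lit 157) (nat_lit 1) (nat_lit 8) (nat_lit 8) L14202 (by decide +kernel)
theorem L14204 : W_23 (nat_lit 8) (nat_lit 0x300008001c00080000000000000000000000000000000) (nat_lit 0x0) (nat_lit 0x60003000c80016000200038001800080000000000000000000000) := Q_23 (nat_lit 141) (C_23 L14195 (C_23 L14197 (C_23 L14203 N_23))) (by decide +kernel)
theorem L14205 : W_23 (nat_lit 2) (nat_lit 0x3400b0001a001e00080000000000000000000000000000000) (nat_lit 0x0) (nat_lit 0x1000180000000000000000000000000000000000) := D_23 (nat_lit 140) (nat_lit 139) (nat_lit 156) (nat_lit 3) (nat_lit 3) (nat_lit 8) (nat_lit 1) (nat_lit 7) (nat_lit 8) (by decide +kernel)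
theorem L14206 : W_23 (nat_lit 3) (nat_lit 0x3400b0001a001c00080000000000000000000000000000000) (nat_lit 0x0) (nat_lit 0x1000380010000000000000000000000000000000) := T_23 (nat_lit 141) (nat_lit 124) (nat_lit 4) (nat_lit 6) (nat_lit 11) L14205 (by decide +kernel)
theorem L14207 : W_23 (nat_lit 4) (nat_lit 0x340030001a001c00080000000000000000000000000000000) (nat_lit 0x0) (nat_lit 0xc00001000380010000000000000000000000000000000) := T_23 (nat_lit 179) (nat_lit 178) (nat_lit 1) (nat_lit 9) (nat_lit 10) L14206 (by decide +kernel)
theorem L14208 : W_23 (nat_lit 5) (nat_lit 0x300030001a001c00080000000000000000000000000000000) (nat_lit 0x0) (nat_lit 0xc00c00001000380010000000000000000000000000000000) := T_23 (nat_lit 190) (nat_lit 191) (nat_lit 2) (nat_lit 3) (nat_lit 11) L14207 (by decide +kernel)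
theorem L14209 : W_23 (nat_lit 6) (nat_lit 0x200030001a001c00080000000000000000000000000000000) (nat_lit 0x0) (nat_lit 0x20001c00c00001000380010000000000000000000000000000000) := T_23 (nat_lit 192) (nat_lit 209) (nat_lit 5) (nat_lit 6) (nat_lit 8) L14208 (by decide +kernel)
theorem L14210 : W_23 (nat_lit 7) (nat_lit 0x30001a001c00080000000000000000000000000000000) (nat_lit 0x0) (nat_lit 0x60003c00c00001000380010000000000000000000000000000000) := T_23 (nat_lit 193) (nat_lit 210) (nat_lit 6) (nat_lit 6) (nat_lit 12) L14209 (by decide +kernel)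
theorem L14211 : W_23 (nat_lit 8) (nat_lit 0x300018001c00080000000000000000000000000000000) (nat_lit 0x0) (nat_lit 0x60003c00c00007000380010000000000000000000000000000000) := T_23 (nat_lit 157) (nat_lit 158) (nat_lit 2) (nat_lit 4) (nat_lit 9) L14210 (by decide +kernel)
theorem L14212 : W_23 (nat_lit 9) (nat_lit 0x300008001c00080000000000000000000000000000000) (nat_lit 0x0) (nat_lit 0x60007c00c00017000380010000000000000000000000000000000) := T_23 (nat_lit 160) (nat_lit 194) (nat_lit 6) (nat_lit 7) (nat_lit 11) L14211 (by decide +kernel)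
theorem L14213 : W_23 (nat_lit 10) (nat_lit 0x300000001c00080000000000000000000000000000000) (nat_lit 0x0) (nat_lit 0x60007c00c8001f0003800380018000c0000000000000000000000) := Q_23 (nat_lit 159) (C_23 L12515 (C_23 L14194 (C_23 L14204 (C_23 L14212 N_23)))) (by decide +kernel)
theorem L14214 : W_23 (nat_lit 5) (nat_lit 0x300000001c00080000000000000000000000000000000) (nat_lit 0x0) (nat_lit 0x6000000018000200138000000000000000000000000000000) := T_23 (nat_lit 194) (nat_lit 160) (nat_lit 6) (nat_lit 7) (nat_lit 11) L8129 (by decide +kernel)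
theorem L14215 : W_23 (nat_lit 2) (nat_lit 0x1000780004001c00080000000000000000000000000000000) (nat_lit 0x0) (nat_lit 0x2000800008000000000000000000000000000000000000000) := D_23 (nat_lit 179) (nat_lit 159) (nat_lit 193) (nat_lit 0) (nat_lit 9) (nat_lit 10) (nat_lit 1) (nat_lit 9) (nat_lit 10) (by decide +kernel)
theorem L14216 : W_23 (nat_lit 3) (nat_lit 0x780004001c00080000000000000000000000000000000) (nat_lit 0x0) (nat_lit 0x3800800008000000000000000000000000000000000000000) := T_23 (nat_lit 192) (nat_lit 191) (nat_lit 1) (nat_lit 8) (nat_lit 10) L14215 (by decide +kernel)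
theorem L14217 : W_23 (nat_lit 4) (nat_lit 0x780000001c00080000000000000000000000000000000) (nat_lit 0x0) (nat_lit 0x380080000e000000000000000000000000000000000000000) := T_23 (nat_lit 158) (nat_lit 157) (nat_lit 0) (nat_lit 8) (nat_lit 10) L14216 (by decide +kernel)
theorem L14218 : W_23 (nat_lit 2) (nat_lit 0x11000780004001c00080000000000000000000000000000000) (nat_lit 0x0) (nat_lit 0x22000800000000000000000000000000000000000000000000) := D_23 (nat_lit 179) (nat_lit 197) (nat_lit 193) (nat_lit 3) (nat_lit 6) (nat_lit 10) (nat_lit 1) (nat_lit 9) (nat_lit 10) (by decide +kernel)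
theorem L14219 : W_23 (nat_lit 3) (nat_lit 0x10000780004001c00080000000000000000000000000000000) (nat_lit 0x0) (nat_lit 0x23800800000000000000000000000000000000000000000000) := T_23 (nat_lit 192) (nat_lit 191) (nat_lit 1) (nat_lit 8) (nat_lit 10) L14218 (by decide +kernel)
theorem L14220 : W_23 (nat_lit 4) (nat_lit 0x780004001c00080000000000000000000000000000000) (nat_lit 0x0) (nat_lit 0x3b800800000000000000000000000000000000000000000000) := T_23 (nat_lit 196) (nat_lit 195) (nat_lit 3) (nat_lit 5) (nat_lit 10) L14219 (by decide +kernel)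
theorem L14221 : W_23 (nat_lit 5) (nat_lit 0x780000001c00080000000000000000000000000000000) (nat_lit 0x0) (nat_lit 0x3b800800006000000000000000000000000000000000000000) := T_23 (nat_lit 158) (nat_lit 157) (nat_lit 0) (nat_lit 8) (nat_lit 10) L14220 (by decide +kernel)
theorem L14222 : W_23 (nat_lit 2) (nat_lit 0x10000780004001c00080000000000000000000000000000000) (nat_lit 0x0) (nat_lit 0x20000800008000000000000000000000000000000000000000) := D_23 (nat_lit 179) (nat_lit 197) (nat_lit 159) (nat_lit 3) (nat_lit 6) (nat_lit 10) (nat_lit 0) (nat_lit 9) (nat_lit 10) (by decide +kernel)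
theorem L14223 : W_23 (nat_lit 3) (nat_lit 0x10000780000001c00080000000000000000000000000000000) (nat_lit 0x0) (nat_lit 0x2000080000e000000000000000000000000000000000000000) := T_23 (nat_lit 158) (nat_lit 157) (nat_lit 0) (nat_lit 8) (nat_lit 10) L14222 (by decide +kernel)
theorem L14224 : W_23 (nat_lit 4) (nat_lit 0x780000001c00080000000000000000000000000000000) (nat_lit 0x0) (nat_lit 0x3800080000e000000000000000000000000000000000000000) := T_23 (nat_lit 196) (nat_lit 195) (nat_lit 3) (nat_lit 5) (nat_lit 10) L14223 (by decide +kernel)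
theorem L14225 : W_23 (nat_lit 2) (nat_lit 0x9000f80088001c00080000000000000000000000000000000) (nat_lit 0x0) (nat_lit 0x1000110000000000000000000000000000000000000000) := D_23 (nat_lit 180) (nat_lit 160) (nat_lit 164) (nat_lit 0) (nat_lit 10) (nat_lit 10) (nat_lit 2) (nat_lit 7) (nat_lit 10) (by decide +kernel)
theorem L14226 : W_23 (nat_lit 3) (nat_lit 0x9000f80008001c00080000000000000000000000000000000) (nat_lit 0x0) (nat_lit 0x10001d0000000000000000000000000000000000000000) := T_23 (nat_lit 163) (nat_lit 162) (nat_lit 2) (nat_lit 6) (nat_lit 10) L14225 (by decide +kernel)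
theorem L14227 : W_23 (nat_lit 4) (nat_lit 0x9000f80000001c00080000000000000000000000000000000) (nat_lit 0x0) (nat_lit 0x10001d8000000020000000000000000000000000000000) := T_23 (nat_lit 159) (nat_lit 125) (nat_lit 5) (nat_lit 6) (nat_lit 7) L14226 (by decide +kernel)
theorem L14228 : W_23 (nat_lit 5) (nat_lit 0x9000780000001c00080000000000000000000000000000000) (nat_lit 0x0) (nat_lit 0x20018001d8000000020000000000000000000000000000000) := T_23 (nat_lit 179) (nat_lit 193) (nat_lit 1) (nat_lit 9) (nat_lit 10) L14227 (by decide +kernel)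
theorem L14229 : W_23 (nat_lit 6) (nat_lit 0x8000780000001c00080000000000000000000000000000000) (nat_lit 0x0) (nat_lit 0x38018001d8000000020000000000000000000000000000000) := T_23 (nat_lit 192) (nat_lit 191) (nat_lit 1) (nat_lit 8) (nat_lit 10) L14228 (by decide +kernel)
theorem L14230 : W_23 (nat_lit 7) (nat_lit 0x780000001c00080000000000000000000000000000000) (nat_lit 0x0) (nat_lit 0x1b8018001d8000000020000000000000000000000000000000) := T_23 (nat_lit 195) (nat_lit 196) (nat_lit 3) (nat_lit 5) (nat_lit 10) L14229 (by decide +kernel)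
theorem L14231 : W_23 (nat_lit 8) (nat_lit 0x380000001c00080000000000000000000000000000000) (nat_lit 0x0) (nat_lit 0x2003b801c001de000000020000000000000000000000000000000) := Q_23 (nat_lit 178) (C_23 L14048 (C_23 L14217 (C_23 L14221 (C_23 L14224 (C_23 L14230 N_23))))) (by decide +kernel)
theorem L14232 : W_23 (nat_lit 2) (nat_lit 0x40003e0000001c000a0000000000000000000000000000000) (nat_lit 0x0) (nat_lit 0x3800000000000000000000000000000000000000) := D_23 (nat_lit 156) (nat_lit 157) (nat_lit 155) (nat_lit 0) (nat_lit 7) (nat_lit 10) (nat_lit 0) (nat_lit 6) (nat_lit 10) (by decide +kernel)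
theorem L14233 : W_23 (nat_lit 3) (nat_lit 0x40003c0000001c000a0000000000000000000000000000000) (nat_lit 0x0) (nat_lit 0x2000020003800000000000000000000000000000000000000) := T_23 (nat_lit 173) (nat_lit 193) (nat_lit 3) (nat_lit 3) (nat_lit 10) L14232 (by decide +kernel)
theorem L14234 : W_23 (nat_lit 4) (nat_lit 0x4000380000001c000a0000000000000000000000000000000) (nat_lit 0x0) (nat_lit 0xa000060003800000000000000000000000000000000000000) := T_23 (nat_lit 174) (nat_lit 195) (nat_lit 3) (nat_lit 4) (nat_lit 10) L14233 (by decide +kernel)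
theorem L14235 : W_23 (nat_lit 5) (nat_lit 0x4000380000001c00080000000000000000000000000000000) (nat_lit 0x0) (nat_lit 0xa00006000b800000020000000000000000000000000000000) := T_23 (nat_lit 125) (nat_lit 159) (nat_lit 7) (nat_lit 6) (nat_lit 7) L14234 (by decide +kernel)
theorem L14236 : W_23 (nat_lit 6) (nat_lit 0x380000001c00080000000000000000000000000000000) (nat_lit 0x0) (nat_lit 0xe00006001b800000020000000000000000000000000000000) := T_23 (nat_lit 194) (nat_lit 160) (nat_lit 6) (nat_lit 7) (nat_lit 11) L14235 (by decide +kernel)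
theorem L14237 : W_23 (nat_lit 2) (nat_lit 0x380008001c00080000000000000000000000000000000) (nat_lit 0x0) (nat_lit 0x5000000000000000020000000000000000000000000000000) := D_23 (nat_lit 125) (nat_lit 194) (nat_lit 192) (nat_lit 7) (nat_lit 6) (nat_lit 7) (nat_lit 5) (nat_lit 6) (nat_lit 7) (by decide +kernel)
theorem L14238 : W_23 (nat_lit 4) (nat_lit 0x380008001c00080000000000000000000000000000000) (nat_lit 0x0) (nat_lit 0x1000000004000000030001800040000000000000000000000) := T_23 (nat_lit 125) (nat_lit 192) (nat_lit 5) (nat_lit 6) (nat_lit 7) L12513 (by decide +kernel)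
theorem L14239 : W_23 (nat_lit 2) (nat_lit 0x400000007a001c001c00080000000000000000000000000000000) (nat_lit 0x0) (nat_lit 0x20001800000000000000000000000000000000000000000000000) := D_23 (nat_lit 192) (nat_lit 209) (nat_lit 191) (nat_lit 6) (nat_lit 5) (nat_lit 12) (nat_lit 1) (nat_lit 8) (nat_lit 10) (by decide +kernel)
theorem L14240 : W_23 (nat_lit 3) (nat_lit 0x400000003a001c001c00080000000000000000000000000000000) (nat_lit 0x0) (nat_lit 0x20001800c00000000000000000000000000000000000000000000) := T_23 (nat_lit 178) (nat_lit 179) (nat_lit 0) (nat_lit 9) (nat_lit 10) L14239 (by decide +kernel)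
theorem L14241 : W_23 (nat_lit 4) (nat_lit 0x400000003a0018001c00080000000000000000000000000000000) (nat_lit 0x0) (nat_lit 0x20001800c00006000000000000000000000000000000000000000) := T_23 (nat_lit 158) (nat_lit 157) (nat_lit 2) (nat_lit 4) (nat_lit 9) L14240 (by decide +kernel)
theorem L14242 : W_23 (nat_lit 5) (nat_lit 0x3a0018001c00080000000000000000000000000000000) (nat_lit 0x0) (nat_lit 0x60003800c00006000000000000000000000000000000000000000) := T_23 (nat_lit 210) (nat_lit 193) (nat_lit 6) (nat_lit 6) (nat_lit 12) L14241 (by decide +kernel)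
theorem L14243 : W_23 (nat_lit 6) (nat_lit 0x380018001c00080000000000000000000000000000000) (nat_lit 0x0) (nat_lit 0x60003800c60006000000000000000000000000000000000000000) := T_23 (nat_lit 173) (nat_lit 174) (nat_lit 2) (nat_lit 3) (nat_lit 10) L14242 (by decide +kernel)
theorem L14244 : W_23 (nat_lit 7) (nat_lit 0x380008001c00080000000000000000000000000000000) (nat_lit 0x0) (nat_lit 0x60007800c60016000000000000000000000000000000000000000) := T_23 (nat_lit 160) (nat_lit 194) (nat_lit 6) (nat_lit 7) (nat_lit 11) L14243 (by decide +kernel)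
theorem L14245 : W_23 (nat_lit 2) (nat_lit 0x380008001c00080000000000000000000000000000000) (nat_lit 0x0) (nat_lit 0x4000000010000000020000000000000000000000000000000) := D_23 (nat_lit 194) (nat_lit 160) (nat_lit 125) (nat_lit 6) (nat_lit 7) (nat_lit 11) (nat_lit 7) (nat_lit 6) (nat_lit 7) (by decide +kernel)
theorem L14246 : W_23 (nat_lit 8) (nat_lit 0x380000001c00080000000000000000000000000000000) (nat_lit 0x0) (nat_lit 0x60007800c6001e000000030001800040000000000000000000000) := Q_23 (nat_lit 159) (C_23 L14237 (C_23 L14238 (C_23 L14244 (C_23 L14245 N_23)))) (by decide +kernel)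
theorem L14247 : W_23 (nat_lit 2) (nat_lit 0x40003e0000001c00080000000000000000000000000000000) (nat_lit 0x0) (nat_lit 0xe00000000000000000000000000000000000000000000000) := D_23 (nat_lit 190) (nat_lit 189) (nat_lit 191) (nat_lit 1) (nat_lit 6) (nat_lit 10) (nat_lit 1) (nat_lit 7) (nat_lit 10) (by decide +kernel)
theorem L14248 : W_23 (nat_lit 3) (nat_lit 0x40003c0000001c00080000000000000000000000000000000) (nat_lit 0x0) (nat_lit 0x2e00020000000000000000000000000000000000000000000) := T_23 (nat_lit 173) (nat_lit 193) (nat_lit 3) (nat_lit 3) (nat_lit 10) L14247 (by decide +kernel)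
theorem L14249 : W_23 (nat_lit 4) (nat_lit 0x4000380000001c00080000000000000000000000000000000) (nat_lit 0x0) (nat_lit 0xae00060000000000000000000000000000000000000000000) := T_23 (nat_lit 174) (nat_lit 195) (nat_lit 3) (nat_lit 4) (nat_lit 10) L14248 (by decide +kernel)
theorem L14250 : W_23 (nat_lit 5) (nat_lit 0x380000001c00080000000000000000000000000000000) (nat_lit 0x0) (nat_lit 0xee00060010000000000000000000000000000000000000000) := T_23 (nat_lit 194) (nat_lit 160) (nat_lit 6) (nat_lit 7) (nat_lit 11) L14249 (by decide +kernel)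
theorem L14251 : W_23 (nat_lit 2) (nat_lit 0x48003c0002001c000a0000000000000000000000000000000) (nat_lit 0x0) (nat_lit 0x1000400004000000000000000000000000000000000000000) := D_23 (nat_lit 178) (nat_lit 192) (nat_lit 158) (nat_lit 1) (nat_lit 8) (nat_lit 10) (nat_lit 0) (nat_lit 8) (nat_lit 10) (by decide +kernel)
theorem L14252 : W_23 (nat_lit 3) (nat_lit 0x48003c0000001c000a0000000000000000000000000000000) (nat_lit 0x0) (nat_lit 0x1000400007000000000000000000000000000000000000000) := T_23 (nat_lit 157) (nat_lit 156) (nat_lit 0) (nat_lit 7) (nat_lit 10) L14251 (by decide +kernel)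
theorem L14253 : W_23 (nat_lit 4) (nat_lit 0x40003c0000001c000a0000000000000000000000000000000) (nat_lit 0x0) (nat_lit 0x1c00400007000000000000000000000000000000000000000) := T_23 (nat_lit 191) (nat_lit 190) (nat_lit 1) (nat_lit 7) (nat_lit 10) L14252 (by decide +kernel)
theorem L14254 : W_23 (nat_lit 5) (nat_lit 0x4000380000001c000a0000000000000000000000000000000) (nat_lit 0x0) (nat_lit 0x9c00440007000000000000000000000000000000000000000) := T_23 (nat_lit 174) (nat_lit 195) (nat_lit 3) (nat_lit 4) (nat_lit 10) L14253 (by decide +kernel)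
theorem L14255 : W_23 (nat_lit 6) (nat_lit 0x4000380000001c00080000000000000000000000000000000) (nat_lit 0x0) (nat_lit 0x9c0044000f000000020000000000000000000000000000000) := T_23 (nat_lit 125) (nat_lit 159) (nat_lit 7) (nat_lit 6) (nat_lit 7) L14254 (by decide +kernel)
theorem L14256 : W_23 (nat_lit 7) (nat_lit 0x380000001c00080000000000000000000000000000000) (nat_lit 0x0) (nat_lit 0xdc0044001f000000020000000000000000000000000000000) := T_23 (nat_lit 194) (nat_lit 160) (nat_lit 6) (nat_lit 7) (nat_lit 11) L14255 (by decide +kernel)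
theorem L14257 : W_23 (nat_lit 2) (nat_lit 0x40003e0002001c00080000000000000000000000000000000) (nat_lit 0x0) (nat_lit 0xe00000000000000000000000000000000000000000000000) := D_23 (nat_lit 190) (nat_lit 189) (nat_lit 191) (nat_lit 1) (nat_lit 6) (nat_lit 10) (nat_lit 1) (nat_lit 7) (nat_lit 10) (by decide +kernel)
theorem L14258 : W_23 (nat_lit 3) (nat_lit 0x40003c0002001c00080000000000000000000000000000000) (nat_lit 0x0) (nat_lit 0x2e00020000000000000000000000000000000000000000000) := T_23 (nat_lit 173) (nat_lit 193) (nat_lit 3) (nat_lit 3) (nat_lit 10) L14257 (by decide +kernel)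
theorem L14259 : W_23 (nat_lit 4) (nat_lit 0x3c0002001c00080000000000000000000000000000000) (nat_lit 0x0) (nat_lit 0xee00020000000000000000000000000000000000000000000) := T_23 (nat_lit 194) (nat_lit 195) (nat_lit 3) (nat_lit 4) (nat_lit 10) L14258 (by decide +kernel)
theorem L14260 : W_23 (nat_lit 5) (nat_lit 0x3c0000001c00080000000000000000000000000000000) (nat_lit 0x0) (nat_lit 0xee00020003000000000000000000000000000000000000000) := T_23 (nat_lit 157) (nat_lit 156) (nat_lit 0) (nat_lit 7) (nat_lit 10) L14259 (by decide +kernel)
theorem L14261 : W_23 (nat_lit 2) (nat_lit 0x40007c0002001c000a0000000000000000000000000000000) (nat_lit 0x0) (nat_lit 0x1c00000000000000000000000000000000000000000000000) := D_23 (nat_lit 191) (nat_lit 190) (nat_lit 192) (nat_lit 1) (nat_lit 7) (nat_lit 10) (nat_lit 1) (nat_lit 8) (nat_lit 10) (by decide +kernel)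
theorem L14262 : W_23 (nat_lit 3) (nat_lit 0x40003c0002001c000a0000000000000000000000000000000) (nat_lit 0x0) (nat_lit 0x1c00400004000000000000000000000000000000000000000) := T_23 (nat_lit 178) (nat_lit 158) (nat_lit 0) (nat_lit 8) (nat_lit 10) L14261 (by decide +kernel)
theorem L14263 : W_23 (nat_lit 4) (nat_lit 0x40003c0002001c00080000000000000000000000000000000) (nat_lit 0x0) (nat_lit 0x1c0040000c000000020000000000000000000000000000000) := T_23 (nat_lit 125) (nat_lit 159) (nat_lit 7) (nat_lit 6) (nat_lit 7) L14262 (by decide +kernel)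
theorem L14264 : W_23 (nat_lit 5) (nat_lit 0x40003c0000001c00080000000000000000000000000000000) (nat_lit 0x0) (nat_lit 0x1c0040000f000000020000000000000000000000000000000) := T_23 (nat_lit 157) (nat_lit 156) (nat_lit 0) (nat_lit 7) (nat_lit 10) L14263 (by decide +kernel)
theorem L14265 : W_23 (nat_lit 6) (nat_lit 0x3c0000001c00080000000000000000000000000000000) (nat_lit 0x0) (nat_lit 0xdc0040000f000000020000000000000000000000000000000) := T_23 (nat_lit 194) (nat_lit 195) (nat_lit 3) (nat_lit 4) (nat_lit 10) L14264 (by decide +kernel)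
theorem L14266 : W_23 (nat_lit 2) (nat_lit 0x40003e0000001c00080000000000000000000000000000000) (nat_lit 0x0) (nat_lit 0x3800000000000000000000000000000000000000) := D_23 (nat_lit 156) (nat_lit 157) (nat_lit 155) (nat_lit 0) (nat_lit 7) (nat_lit 10) (nat_lit 0) (nat_lit 6) (nat_lit 10) (by decide +kernel)
theorem L14267 : W_23 (nat_lit 3) (nat_lit 0x40003c0000001c00080000000000000000000000000000000) (nat_lit 0x0) (nat_lit 0x2000020003800000000000000000000000000000000000000) := T_23 (nat_lit 173) (nat_lit 193) (nat_lit 3) (nat_lit 3) (nat_lit 10) L14266 (by decide +kernel)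
theorem L14268 : W_23 (nat_lit 4) (nat_lit 0x3c0000001c00080000000000000000000000000000000) (nat_lit 0x0) (nat_lit 0xe000020003800000000000000000000000000000000000000) := T_23 (nat_lit 194) (nat_lit 195) (nat_lit 3) (nat_lit 4) (nat_lit 10) L14267 (by decide +kernel)
theorem L14269 : W_23 (nat_lit 7) (nat_lit 0x380000001c00080000000000000000000000000000000) (nat_lit 0x0) (nat_lit 0x40002000fe0046000f800000020000000000000000000000000000000) := Q_23 (nat_lit 174) (C_23 L13612 (C_23 L14260 (C_23 L14265 (C_23 L14268 N_23)))) (by decide +kernel)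
theorem L14270 : W_23 (nat_lit 9) (nat_lit 0x300000001c00080000000000000000000000000000000) (nat_lit 0x0) (nat_lit 0x40006003fe01ce01df800000030001800040000000000000000000000) := Q_23 (nat_lit 175) (C_23 L14231 (C_23 L14236 (C_23 L14246 (C_23 L14250 (C_23 L14256 (C_23 L14269 N_23)))))) (by decide +kernel)
theorem L14274 : W_23 (nat_lit 5) (nat_lit 0x4000300004001e000a0000000080000000000000000000000) (nat_lit 0x0) (nat_lit 0xbe000e0000000000000000000000000000000000000000000) := T_23 (nat_lit 175) (nat_lit 192) (nat_lit 6) (nat_lit 5) (nat_lit 11) L14273 (by decide +kernel)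
theorem L14275 : W_23 (nat_lit 6) (nat_lit 0x4000300004001e000a0000000000000000000000000000000) (nat_lit 0x0) (nat_lit 0xbe000e0000000000000001000080000000000000000000000) := T_23 (nat_lit 91) (nat_lit 108) (nat_lit 5) (nat_lit 6) (nat_lit 5) L14274 (by decide +kernel)
theorem L14276 : W_23 (nat_lit 7) (nat_lit 0x4000300000001e000a0000000000000000000000000000000) (nat_lit 0x0) (nat_lit 0xbe000e0006000000000001000080000000000000000000000) := T_23 (nat_lit 158) (nat_lit 157) (nat_lit 1) (nat_lit 8) (nat_lit 8) L14275 (by decide +kernel)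
theorem L14277 : W_23 (nat_lit 8) (nat_lit 0x4000300000001c000a0000000000000000000000000000000) (nat_lit 0x0) (nat_lit 0xbe000e0006000200100001000080000000000000000000000) := T_23 (nat_lit 141) (nat_lit 128) (nat_lit 2) (nat_lit 5) (nat_lit 8) L14276 (by decide +kernel)
theorem L14278 : W_23 (nat_lit 9) (nat_lit 0x4000300000001c00080000000000000000000000000000000) (nat_lit 0x0) (nat_lit 0xbe000e000e000200120001000080000000000000000000000) := T_23 (nat_lit 125) (nat_lit 159) (nat_lit 7) (nat_lit 6) (nat_lit 7) L14277 (by decide +kernel)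
theorem L14279 : W_23 (nat_lit 10) (nat_lit 0x300000001c00080000000000000000000000000000000) (nat_lit 0x0) (nat_lit 0xfe000e001e000200120001000080000000000000000000000) := T_23 (nat_lit 194) (nat_lit 160) (nat_lit 6) (nat_lit 7) (nat_lit 11) L14278 (by decide +kernel)
theorem L14280 : W_23 (nat_lit 11) (nat_lit 0x300000001800080000000000000000000000000000000) (nat_lit 0x0) (nat_lit 0x40006003fe01ce01df8007801380018000c0000000000000000000000) := Q_23 (nat_lit 142) (C_23 L12640 (C_23 L12636 (C_23 L12574 (C_23 L14213 (C_23 L14214 (C_23 L14270 (C_23 L14279 N_23))))))) (by decide +kernel)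
theorem L14281 : W_23 (nat_lit 14) (nat_lit 0x300000001000080000000000000000000000000000000) (nat_lit 0x0) (nat_lit 0xc0006003fe01ce01df80cfc077c03bc007c003e000000000000000000) := Q_23 (nat_lit 143) (C_23 L14193 (C_23 L12536 (C_23 L12568 (C_23 L12628 (C_23 L14280 (C_23 L12647 N_23)))))) (by decide +kernel)
theorem L14282 : W_23 (nat_lit 2) (nat_lit 0x300008001c000b0000000000000000000000000000000) (nat_lit 0x0) (nat_lit 0x20000c000000000000000000000000000000) := D_23 (nat_lit 123) (nat_lit 122) (nat_lit 141) (nat_lit 3) (nat_lit 3) (nat_lit 7) (nat_lit 0) (nat_lit 8) (nat_lit 8) (by decide +kernel)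
theorem L14283 : W_23 (nat_lit 3) (nat_lit 0x300008001c000a0000000000000000000000000000000) (nat_lit 0x0) (nat_lit 0x20001c000800000000000000000000000000) := T_23 (nat_lit 124) (nat_lit 107) (nat_lit 4) (nat_lit 6) (nat_lit 10) L14282 (by decide +kernel)
theorem L14284 : W_23 (nat_lit 4) (nat_lit 0x300008001c00080000000000000000000000000000000) (nat_lit 0x0) (nat_lit 0x400000000000020003c000800000000000000000000000000) := T_23 (nat_lit 125) (nat_lit 194) (nat_lit 7) (nat_lit 6) (nat_lit 7) L14283 (by decide +kernel)
theorem L14285 : W_23 (nat_lit 8) (nat_lit 0x300000001c00080000000000000000000000000000000) (nat_lit 0x0) (nat_lit 0xe0007c0000000e00020007c002800100000000000000000000000) := Q_23 (nat_lit 159) (C_23 L12521 (C_23 L12505 (C_23 L14284 (C_23 L12511 N_23)))) (by decide +kernel)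
theorem L14287 : W_23 (nat_lit 2) (nat_lit 0x3800300008001c00080000000000000000000000000000000) (nat_lit 0x0) (nat_lit 0x4000c00000000000000000000000000000000000000000000) := D_23 (nat_lit 178) (nat_lit 179) (nat_lit 194) (nat_lit 1) (nat_lit 9) (nat_lit 10) (nat_lit 2) (nat_lit 4) (nat_lit 11) (by decide +kernel)
theorem L14288 : W_23 (nat_lit 3) (nat_lit 0x3000300008001c00080000000000000000000000000000000) (nat_lit 0x0) (nat_lit 0x4c00c00000000000000000000000000000000000000000000) := T_23 (nat_lit 191) (nat_lit 190) (nat_lit 2) (nat_lit 3) (nat_lit 11) L14287 (by decide +kernel)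
theorem L14289 : W_23 (nat_lit 4) (nat_lit 0x2000300008001c00080000000000000000000000000000000) (nat_lit 0x0) (nat_lit 0x20005c00c00000000000000000000000000000000000000000000) := T_23 (nat_lit 192) (nat_lit 209) (nat_lit 5) (nat_lit 6) (nat_lit 8) L14288 (by decide +kernel)
theorem L14290 : W_23 (nat_lit 5) (nat_lit 0x300008001c00080000000000000000000000000000000) (nat_lit 0x0) (nat_lit 0x20007c00c00000000000040000000000000000000000000000000) := T_23 (nat_lit 193) (nat_lit 126) (nat_lit 6) (nat_lit 6) (nat_lit 11) L14289 (by decide +kernel)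
theorem L14291 : W_23 (nat_lit 6) (nat_lit 0x300000001c00080000000000000000000000000000000) (nat_lit 0x0) (nat_lit 0x10000a0007c00c00008000000078002800100000000000000000000000) := Q_23 (nat_lit 159) (C_23 L12521 (C_23 L12505 (C_23 L14286 (C_23 L14290 N_23)))) (by decide +kernel)
theorem L14292 : W_23 (nat_lit 9) (nat_lit 0x300000001800080000000000000000000000000000000) (nat_lit 0x0) (nat_lit 0x10000e0007c00c0000f00070017c002800100000000000000000000000) := Q_23 (nat_lit 142) (C_23 L12640 (C_23 L12519 (C_23 L14285 (C_23 L14291 (C_23 L12492 N_23))))) (by decide +kernel)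
theorem L14293 : W_23 (nat_lit 3) (nat_lit 0x300000001c000c0000000000000000000000000000000) (nat_lit 0x0) (nat_lit 0x2000000008000000020002000100000000000000000000000) := T_23 (nat_lit 159) (nat_lit 193) (nat_lit 6) (nat_lit 6) (nat_lit 11) L12520 (by decide +kernel)
theorem L14294 : W_23 (nat_lit 5) (nat_lit 0x3000000018000c0000000000000000000000000000000) (nat_lit 0x0) (nat_lit 0x2000000008000600320002000100000000000000000000000) := Q_23 (nat_lit 142) (C_23 L12566 (C_23 L12559 (C_23 L14293 N_23))) (by decide +kernel)
theorem L14295 : W_23 (nat_lit 11) (nat_lit 0x300000001800080000000000000000000000000000000) (nat_lit 0x0) (nat_lit 0x200100009800c70077803bc0058000c000000000000000000) := Q_23 (nat_lit 126) (C_23 L12558 (C_23 L12537 (C_23 L12554 (C_23 L14294 N_23)))) (by decide +kernel)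
theorem L14296 : W_23 (nat_lit 2) (nat_lit 0x4000300002001e000a8000000000000000000000000000000) (nat_lit 0x0) (nat_lit 0x1000100004000000000000000000000000000000) := D_23 (nat_lit 140) (nat_lit 156) (nat_lit 122) (nat_lit 1) (nat_lit 7) (nat_lit 8) (nat_lit 0) (nat_lit 7) (nat_lit 8) (by decide +kernel)
theorem L14297 : W_23 (nat_lit 3) (nat_lit 0x4000300002001e000a0000000000000000000000000000000) (nat_lit 0x0) (nat_lit 0x100010001c000000000000000000000000000000) := T_23 (nat_lit 123) (nat_lit 124) (nat_lit 0) (nat_lit 8) (nat_lit 8) L14296 (by decide +kernel)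
theorem L14298 : W_23 (nat_lit 4) (nat_lit 0x4000300000001e000a0000000000000000000000000000000) (nat_lit 0x0) (nat_lit 0x700010001c000000000000000000000000000000) := T_23 (nat_lit 157) (nat_lit 158) (nat_lit 1) (nat_lit 8) (nat_lit 8) L14297 (by decide +kernel)
theorem L14299 : W_23 (nat_lit 5) (nat_lit 0x4000300000001c000a0000000000000000000000000000000) (nat_lit 0x0) (nat_lit 0x700030011c000000000000000000000000000000) := T_23 (nat_lit 141) (nat_lit 128) (nat_lit 2) (nat_lit 5) (nat_lit 8) L14298 (by decide +kernel)
theorem L14300 : W_23 (nat_lit 6) (nat_lit 0x4000300000001c00080000000000000000000000000000000) (nat_lit 0x0) (nat_lit 0xf00030013c000000000000000000000000000000) := T_23 (nat_lit 125) (nat_lit 159) (nat_lit 7) (nat_lit 6) (nat_lit 7) L14299 (by decide +kernel)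
theorem L14301 : W_23 (nat_lit 7) (nat_lit 0x300000001c00080000000000000000000000000000000) (nat_lit 0x0) (nat_lit 0x400000001f00030013c000000000000000000000000000000) := T_23 (nat_lit 194) (nat_lit 160) (nat_lit 6) (nat_lit 7) (nat_lit 11) L14300 (by decide +kernel)
theorem L14302 : W_23 (nat_lit 2) (nat_lit 0x300008001d000e0000000000000000000000000000000) (nat_lit 0x0) (nat_lit 0x18000800000000000000000000000000) := D_23 (nat_lit 124) (nat_lit 107) (nat_lit 123) (nat_lit 4) (nat_lit 6) (nat_lit 10) (nat_lit 3) (nat_lit 4) (nat_lit 7) (by decide +kernel)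
theorem L14303 : W_23 (nat_lit 3) (nat_lit 0x300000001d000e0000000000000000000000000000000) (nat_lit 0x0) (nat_lit 0x8000000018002800000000000000000000000000) := T_23 (nat_lit 159) (nat_lit 109) (nat_lit 6) (nat_lit 6) (nat_lit 10) L14302 (by decide +kernel)
theorem L14304 : W_23 (nat_lit 4) (nat_lit 0x300000001c000e0000000000000000000000000000000) (nat_lit 0x0) (nat_lit 0x8000300018002800000000000000000000000000) := T_23 (nat_lit 140) (nat_lit 141) (nat_lit 2) (nat_lit 4) (nat_lit 8) L14303 (by decide +kernel)
theorem L14305 : W_23 (nat_lit 2) (nat_lit 0x300000001e000e8001000000000000000000000000000) (nat_lit 0x0) (nat_lit 0x6000000000000000080000000000000000000000) := D_23 (nat_lit 158) (nat_lit 157) (nat_lit 91) (nat_lit 1) (nat_lit 8) (nat_lit 8) (nat_lit 5) (nat_lit 6) (nat_lit 5) (by decide +kernel)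
theorem L14306 : W_23 (nat_lit 3) (nat_lit 0x300000001e000e8000000000000000000000000000000) (nat_lit 0x0) (nat_lit 0x16000000000001000080000000000000000000000) := T_23 (nat_lit 108) (nat_lit 160) (nat_lit 4) (nat_lit 7) (nat_lit 10) L14305 (by decide +kernel)
theorem L14307 : W_23 (nat_lit 4) (nat_lit 0x300000001c000e8000000000000000000000000000000) (nat_lit 0x0) (nat_lit 0x16000300000001000080000000000000000000000) := T_23 (nat_lit 141) (nat_lit 140) (nat_lit 2) (nat_lit 4) (nat_lit 8) L14306 (by decide +kernel)
theorem L14308 : W_23 (nat_lit 5) (nat_lit 0x300000001c000e0000000000000000000000000000000) (nat_lit 0x0) (nat_lit 0x16000300018001000080000000000000000000000) := T_23 (nat_lit 123) (nat_lit 124) (nat_lit 3) (nat_lit 4) (nat_lit 7) L14307 (by decide +kernel)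
theorem L14309 : W_23 (nat_lit 2) (nat_lit 0x700018001d000e0000000000000000000000000000000) (nat_lit 0x0) (nat_lit 0x800006000000000000000000000000000000000000000) := D_23 (nat_lit 158) (nat_lit 157) (nat_lit 179) (nat_lit 3) (nat_lit 4) (nat_lit 9) (nat_lit 0) (nat_lit 9) (nat_lit 10) (by decide +kernel)
theorem L14310 : W_23 (nat_lit 3) (nat_lit 0x700010001d000e0000000000000000000000000000000) (nat_lit 0x0) (nat_lit 0x80000e000000000002000000000000000000000000000) := T_23 (nat_lit 159) (nat_lit 109) (nat_lit 6) (nat_lit 6) (nat_lit 10) L14309 (by decide +kernel)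
theorem L14311 : W_23 (nat_lit 4) (nat_lit 0x300010001d000e0000000000000000000000000000000) (nat_lit 0x0) (nat_lit 0x8000c0000e000000000002000000000000000000000000000) := T_23 (nat_lit 178) (nat_lit 195) (nat_lit 7) (nat_lit 7) (nat_lit 7) L14310 (by decide +kernel)
theorem L14312 : W_23 (nat_lit 5) (nat_lit 0x300010001c000e0000000000000000000000000000000) (nat_lit 0x0) (nat_lit 0x8000c0000e000300000002000000000000000000000000000) := T_23 (nat_lit 140) (nat_lit 141) (nat_lit 2) (nat_lit 4) (nat_lit 8) L14311 (by decide +kernel)
theorem L14313 : W_23 (nat_lit 6) (nat_lit 0x300000001c000e0000000000000000000000000000000) (nat_lit 0x0) (nat_lit 0x8000c0001e000300000003000000000000000000000000000) := T_23 (nat_lit 160) (nat_lit 108) (nat_lit 4) (nat_lit 7) (nat_lit 10) L14312 (by decide +kernel)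
theorem L14314 : W_23 (nat_lit 7) (nat_lit 0x300000001c000a0000000000000000000000000000000) (nat_lit 0x0) (nat_lit 0x8000c0001e000300058003800080000000000000000000000) := Q_23 (nat_lit 126) (C_23 L14304 (C_23 L14308 (C_23 L12614 (C_23 L14313 N_23)))) (by decide +kernel)
theorem L14315 : W_23 (nat_lit 4) (nat_lit 0x300000001c000a0000000000000000000000000000000) (nat_lit 0x0) (nat_lit 0x400000000800020001c000800000000000000000000000000) := T_23 (nat_lit 159) (nat_lit 194) (nat_lit 7) (nat_lit 6) (nat_lit 7) L14283 (by decide +kernel)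
theorem L14316 : W_23 (nat_lit 8) (nat_lit 0x300000001c00080000000000000000000000000000000) (nat_lit 0x0) (nat_lit 0xc000c0001e00030007c003800080000000000000000000000) := Q_23 (nat_lit 125) (C_23 L14314 (C_23 L12577 (C_23 L12575 (C_23 L14315 N_23)))) (by decide +kernel)
theorem L14317 : W_23 (nat_lit 2) (nat_lit 0x700018001c000e8000000000000000000000000000000) (nat_lit 0x0) (nat_lit 0x800006000000000000000000000000000000000000000) := D_23 (nat_lit 158) (nat_lit 157) (nat_lit 179) (nat_lit 3) (nat_lit 4) (nat_lit 9) (nat_lit 0) (nat_lit 9) (nat_lit 10) (by decide +kernel)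
theorem L14318 : W_23 (nat_lit 3) (nat_lit 0x300018001c000e8000000000000000000000000000000) (nat_lit 0x0) (nat_lit 0x8000c00006000000000000000000000000000000000000000) := T_23 (nat_lit 178) (nat_lit 195) (nat_lit 7) (nat_lit 7) (nat_lit 7) L14317 (by decide +kernel)
theorem L14319 : W_23 (nat_lit 4) (nat_lit 0x300018001c000e0000000000000000000000000000000) (nat_lit 0x0) (nat_lit 0x8000c00006000000018000000000000000000000000000000) := T_23 (nat_lit 123) (nat_lit 124) (nat_lit 3) (nat_lit 4) (nat_lit 7) L14318 (by decide +kernel)
theorem L14320 : W_23 (nat_lit 5) (nat_lit 0x300008001c000e0000000000000000000000000000000) (nat_lit 0x0) (nat_lit 0x8000c00016000000018001000000000000000000000000000) := T_23 (nat_lit 160) (nat_lit 108) (nat_lit 7) (nat_lit 6) (nat_lit 6) L14319 (by decide +kernel)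
theorem L14321 : W_23 (nat_lit 6) (nat_lit 0x300000001c000e0000000000000000000000000000000) (nat_lit 0x0) (nat_lit 0x8000c0001e000000018003000000000000000000000000000) := T_23 (nat_lit 159) (nat_lit 109) (nat_lit 6) (nat_lit 6) (nat_lit 10) L14320 (by decide +kernel)
theorem L14322 : W_23 (nat_lit 2) (nat_lit 0x300008001c002e0001000080000000000000000000000) (nat_lit 0x0) (nat_lit 0x800040002000000000000000000) := D_23 (nat_lit 90) (nat_lit 107) (nat_lit 73) (nat_lit 4) (nat_lit 6) (nat_lit 9) (nat_lit 4) (nat_lit 6) (nat_lit 8) (by decide +kernel)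
theorem L14323 : W_23 (nat_lit 3) (nat_lit 0x300008001c002e0001000000000000000000000000000) (nat_lit 0x0) (nat_lit 0x8000c0006000000000000000000) := T_23 (nat_lit 91) (nat_lit 74) (nat_lit 7) (nat_lit 6) (nat_lit 4) L14322 (by decide +kernel)
theorem L14324 : W_23 (nat_lit 4) (nat_lit 0x300008001c002e0000000000000000000000000000000) (nat_lit 0x0) (nat_lit 0x100000000000018000c0006000000000000000000) := T_23 (nat_lit 108) (nat_lit 160) (nat_lit 7) (nat_lit 6) (nat_lit 6) L14323 (by decide +kernel)
theorem L14325 : W_23 (nat_lit 5) (nat_lit 0x300000001c002e0000000000000000000000000000000) (nat_lit 0x0) (nat_lit 0x180000000000038000c0006000000000000000000) := T_23 (nat_lit 159) (nat_lit 109) (nat_lit 6) (nat_lit 6) (nat_lit 10) L14324 (by decide +kernel)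
theorem L14326 : W_23 (nat_lit 6) (nat_lit 0x300000001c000e0000000000000000000000000000000) (nat_lit 0x0) (nat_lit 0x180000003000038000c0006000000000000000000) := T_23 (nat_lit 129) (nat_lit 128) (nat_lit 1) (nat_lit 10) (nat_lit 7) L14325 (by decide +kernel)
theorem L14327 : W_23 (nat_lit 11) (nat_lit 0x300000001c000a0000000000000000000000000000000) (nat_lit 0x0) (nat_lit 0x8000c0001e000000358003c007c003e000000000000000000) := Q_23 (nat_lit 126) (C_23 L12602 (C_23 L12618 (C_23 L12611 (C_23 L12614 (C_23 L14321 (C_23 L14326 N_23)))))) (by decide +kernel)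
theorem L14329 : W_23 (nat_lit 12) (nat_lit 0x300000001c00080000000000000000000000000000000) (nat_lit 0x0) (nat_lit 0xc000c0001e000000378003c007c003e000000000000000000) := Q_23 (nat_lit 125) (C_23 L14327 (C_23 L12577 (C_23 L12575 (C_23 L14328 N_23)))) (by decide +kernel)
theorem L14330 : W_23 (nat_lit 13) (nat_lit 0x300000001800080000000000000000000000000000000) (nat_lit 0x0) (nat_lit 0xc000c0001f00070037c003c007c003e000000000000000000) := Q_23 (nat_lit 142) (C_23 L12519 (C_23 L14301 (C_23 L14316 (C_23 L14329 (C_23 L12492 N_23))))) (by decide +kernel)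
theorem L14331 : W_23 (nat_lit 2) (nat_lit 0x4000300002001e00088000000000000000000000000000000) (nat_lit 0x0) (nat_lit 0x1000100004000000000000000000000000000000) := D_23 (nat_lit 140) (nat_lit 156) (nat_lit 122) (nat_lit 1) (nat_lit 7) (nat_lit 8) (nat_lit 0) (nat_lit 7) (nat_lit 8) (by decide +kernel)
theorem L14332 : W_23 (nat_lit 3) (nat_lit 0x4000300002001e00080000000000000000000000000000000) (nat_lit 0x0) (nat_lit 0x100010001c000000000000000000000000000000) := T_23 (nat_lit 123) (nat_lit 124) (nat_lit 0) (nat_lit 8) (nat_lit 8) L14331 (by decide +kernel)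
theorem L14333 : W_23 (nat_lit 4) (nat_lit 0x4000300000001e00080000000000000000000000000000000) (nat_lit 0x0) (nat_lit 0x700010001c000000000000000000000000000000) := T_23 (nat_lit 157) (nat_lit 158) (nat_lit 1) (nat_lit 8) (nat_lit 8) L14332 (by decide +kernel)
theorem L14334 : W_23 (nat_lit 5) (nat_lit 0x4000300000001c00080000000000000000000000000000000) (nat_lit 0x0) (nat_lit 0x700030011c000000000000000000000000000000) := T_23 (nat_lit 141) (nat_lit 128) (nat_lit 2) (nat_lit 5) (nat_lit 8) L14333 (by decide +kernel)
theorem L14335 : W_23 (nat_lit 6) (nat_lit 0x300000001c00080000000000000000000000000000000) (nat_lit 0x0) (nat_lit 0x400000001700030011c000000000000000000000000000000) := T_23 (nat_lit 194) (nat_lit 160) (nat_lit 6) (nat_lit 7) (nat_lit 11) L14334 (by decide +kernel)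
theorem L14336 : W_23 (nat_lit 8) (nat_lit 0x300000001800080000000000000000000000000000000) (nat_lit 0x0) (nat_lit 0x100008000600000001f00070013c000800000000000000000000000000) := Q_23 (nat_lit 142) (C_23 L14301 (C_23 L14335 (C_23 L12640 (C_23 L12643 N_23)))) (by decide +kernel)
theorem L14337 : W_23 (nat_lit 14) (nat_lit 0x300000001000080000000000000000000000000000000) (nat_lit 0x0) (nat_lit 0x18000e000fc01c0009f00cf0077c03bc007c003e000000000000000000) := Q_23 (nat_lit 143) (C_23 L12536 (C_23 L14292 (C_23 L14295 (C_23 L14330 (C_23 L14336 (C_23 L12647 N_23)))))) (by decide +kernel)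
theorem L14338 : W_23 (nat_lit 2) (nat_lit 0x18003c0002001000080000000000000000000000000000000) (nat_lit 0x0) (nat_lit 0x20000000000000000100008000000000000000000000000000000) := D_23 (nat_lit 140) (nat_lit 123) (nat_lit 209) (nat_lit 7) (nat_lit 4) (nat_lit 7) (nat_lit 7) (nat_lit 4) (nat_lit 8) (by decide +kernel)
theorem L14339 : W_23 (nat_lit 3) (nat_lit 0x10003c0002001000080000000000000000000000000000000) (nat_lit 0x0) (nat_lit 0x20000c00000000000100008000000000000000000000000000000) := T_23 (nat_lit 191) (nat_lit 190) (nat_lit 1) (nat_lit 7) (nat_lit 10) L14338 (by decide +kernel)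
theorem L14340 : W_23 (nat_lit 4) (nat_lit 0x10003c0000001000080000000000000000000000000000000) (nat_lit 0x0) (nat_lit 0x20000c00000003000100008000000000000000000000000000000) := T_23 (nat_lit 157) (nat_lit 156) (nat_lit 0) (nat_lit 7) (nat_lit 10) L14339 (by decide +kernel)
theorem L14341 : W_23 (nat_lit 2) (nat_lit 0x200050003c0002001000080000000000000000000000000000000) (nat_lit 0x0) (nat_lit 0x4000100008000000000000000000000000000000) := D_23 (nat_lit 140) (nat_lit 123) (nat_lit 158) (nat_lit 7) (nat_lit 4) (nat_lit 7) (nat_lit 4) (nat_lit 5) (nat_lit 12) (by decide +kernel)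
theorem L14342 : W_23 (nat_lit 3) (nat_lit 0x50003c0002001000080000000000000000000000000000000) (nat_lit 0x0) (nat_lit 0x400020000000000004000100008000000000000000000000000000000) := T_23 (nat_lit 209) (nat_lit 226) (nat_lit 4) (nat_lit 5) (nat_lit 13) L14341 (by decide +kernel)
theorem L14343 : W_23 (nat_lit 4) (nat_lit 0x50003c0000001000080000000000000000000000000000000) (nat_lit 0x0) (nat_lit 0x400020000000000007000100008000000000000000000000000000000) := T_23 (nat_lit 157) (nat_lit 156) (nat_lit 0) (nat_lit 7) (nat_lit 10) L14342 (by decide +kernel)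
theorem L14344 : W_23 (nat_lit 5) (nat_lit 0x10003c0000001000080000000000000000000000000000000) (nat_lit 0x0) (nat_lit 0x40002000c000000007000100008000000000000000000000000000000) := T_23 (nat_lit 194) (nat_lit 195) (nat_lit 3) (nat_lit 4) (nat_lit 10) L14343 (by decide +kernel)
theorem L14345 : W_23 (nat_lit 2) (nat_lit 0x4000900078003c000a0010000a0000000000000000000000000000000) (nat_lit 0x0) (nat_lit 0x200000000000000004000200000000000000000000000000000000000) := D_23 (nat_lit 158) (nat_lit 141) (nat_lit 225) (nat_lit 6) (nat_lit 4) (nat_lit 12) (nat_lit 6) (nat_lit 4) (nat_lit 13) (by decide +kernel)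
theorem L14346 : W_23 (nat_lit 3) (nat_lit 0x4000800078003c000a0010000a0000000000000000000000000000000) (nat_lit 0x0) (nat_lit 0x200018000000000004000200000000000000000000000000000000000) := T_23 (nat_lit 208) (nat_lit 207) (nat_lit 1) (nat_lit 7) (nat_lit 11) L14345 (by decide +kernel)
theorem L14347 : W_23 (nat_lit 4) (nat_lit 0x4000800058003c000a0010000a0000000000000000000000000000000) (nat_lit 0x0) (nat_lit 0x200118002000000004000200000000000000000000000000000000000) := T_23 (nat_lit 193) (nat_lit 212) (nat_lit 3) (nat_lit 4) (nat_lit 11) L14346 (by decide +kernel)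
theorem L14348 : W_23 (nat_lit 5) (nat_lit 0x4000000058003c000a0010000a0000000000000000000000000000000) (nat_lit 0x0) (nat_lit 0x1200198002000000004000200000000000000000000000000000000000) := T_23 (nat_lit 211) (nat_lit 228) (nat_lit 4) (nat_lit 7) (nat_lit 13) L14347 (by decide +kernel)
theorem L14349 : W_23 (nat_lit 6) (nat_lit 0x4000000018003c000a0010000a0000000000000000000000000000000) (nat_lit 0x0) (nat_lit 0x120019800e000000004000200000000000000000000000000000000000) := T_23 (nat_lit 194) (nat_lit 195) (nat_lit 3) (nat_lit 4) (nat_lit 10) L14348 (by decide +kernel)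
theorem L14350 : W_23 (nat_lit 7) (nat_lit 0x4000000010003c000a0010000a0000000000000000000000000000000) (nat_lit 0x0) (nat_lit 0x120019800ec00000004000200000000000000000000000000000000000) := T_23 (nat_lit 191) (nat_lit 190) (nat_lit 1) (nat_lit 7) (nat_lit 10) L14349 (by decide +kernel)
theorem L14351 : W_23 (nat_lit 8) (nat_lit 0x4000000010003c000a001000080000000000000000000000000000000) (nat_lit 0x0) (nat_lit 0x120019800ec00000004000600020000000000000000000000000000000) := T_23 (nat_lit 125) (nat_lit 142) (nat_lit 5) (nat_lit 6) (nat_lit 7) L14350 (by decide +kernel)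
theorem L14352 : W_23 (nat_lit 9) (nat_lit 0x10003c000a001000080000000000000000000000000000000) (nat_lit 0x0) (nat_lit 0x16001b800ec00000004000600020000000000000000000000000000000) := T_23 (nat_lit 226) (nat_lit 209) (nat_lit 6) (nat_lit 5) (nat_lit 13) L14351 (by decide +kernel)
theorem L14353 : W_23 (nat_lit 10) (nat_lit 0x10003c0008001000080000000000000000000000000000000) (nat_lit 0x0) (nat_lit 0x16001b800ec00000007000600020000000000000000000000000000000) := T_23 (nat_lit 157) (nat_lit 156) (nat_lit 0) (nat_lit 7) (nat_lit 10) L14352 (by decide +kernel)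
theorem L14354 : W_23 (nat_lit 2) (nat_lit 0x200010003c0008001000080000000000000000000000000000000) (nat_lit 0x0) (nat_lit 0x4000400020000000000000000000000000000000) := D_23 (nat_lit 142) (nat_lit 125) (nat_lit 158) (nat_lit 5) (nat_lit 6) (nat_lit 7) (nat_lit 6) (nat_lit 5) (nat_lit 12) (by decide +kernel)
theorem L14355 : W_23 (nat_lit 3) (nat_lit 0x10003c0008001000080000000000000000000000000000000) (nat_lit 0x0) (nat_lit 0x400020000000000004000400020000000000000000000000000000000) := T_23 (nat_lit 209) (nat_lit 226) (nat_lit 6) (nat_lit 5) (nat_lit 13) L14354 (by decide +kernel)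
theorem L14356 : W_23 (nat_lit 2) (nat_lit 0x4000800058003c0008001000080000000000000000000000000000000) (nat_lit 0x0) (nat_lit 0x2000000010000400000000000000000000000000000000000) := D_23 (nat_lit 142) (nat_lit 160) (nat_lit 193) (nat_lit 4) (nat_lit 7) (nat_lit 12) (nat_lit 7) (nat_lit 6) (nat_lit 8) (by decide +kernel)
theorem L14357 : W_23 (nat_lit 3) (nat_lit 0x4000000058003c0008001000080000000000000000000000000000000) (nat_lit 0x0) (nat_lit 0x1000080002000000010000400000000000000000000000000000000000) := T_23 (nat_lit 211) (nat_lit 228) (nat_lit 4) (nat_lit 7) (nat_lit 13) L14356 (by decide +kernel)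
theorem L14358 : W_23 (nat_lit 4) (nat_lit 0x4000000018003c0008001000080000000000000000000000000000000) (nat_lit 0x0) (nat_lit 0x100008000e000000010000400000000000000000000000000000000000) := T_23 (nat_lit 194) (nat_lit 195) (nat_lit 3) (nat_lit 4) (nat_lit 10) L14357 (by decide +kernel)
theorem L14359 : W_23 (nat_lit 5) (nat_lit 0x18003c0008001000080000000000000000000000000000000) (nat_lit 0x0) (nat_lit 0x14000a000e000000010000400000000000000000000000000000000000) := T_23 (nat_lit 226) (nat_lit 209) (nat_lit 6) (nat_lit 5) (nat_lit 13) L14358 (by decide +kernel)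
theorem L14360 : W_23 (nat_lit 6) (nat_lit 0x10003c0008001000080000000000000000000000000000000) (nat_lit 0x0) (nat_lit 0x14000a000ec00000010000400000000000000000000000000000000000) := T_23 (nat_lit 191) (nat_lit 190) (nat_lit 1) (nat_lit 7) (nat_lit 10) L14359 (by decide +kernel)
theorem L14361 : W_23 (nat_lit 2) (nat_lit 0x4000900078003c000a001000080000000000000000000000000000000) (nat_lit 0x0) (nat_lit 0x200000000000000004000200000000000000000000000000000000000) := D_23 (nat_lit 158) (nat_lit 141) (nat_lit 225) (nat_lit 6) (nat_lit 4) (nat_lit 12) (nat_lit 6) (nat_lit 4) (nat_lit 13) (by decide +kernel)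
theorem L14362 : W_23 (nat_lit 3) (nat_lit 0x4000800078003c000a001000080000000000000000000000000000000) (nat_lit 0x0) (nat_lit 0x200018000000000004000200000000000000000000000000000000000) := T_23 (nat_lit 208) (nat_lit 207) (nat_lit 1) (nat_lit 7) (nat_lit 11) L14361 (by decide +kernel)
theorem L14363 : W_23 (nat_lit 4) (nat_lit 0x4000800058003c000a001000080000000000000000000000000000000) (nat_lit 0x0) (nat_lit 0x200118002000000004000200000000000000000000000000000000000) := T_23 (nat_lit 193) (nat_lit 212) (nat_lit 3) (nat_lit 4) (nat_lit 11) L14362 (by decide +kernel)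
theorem L14364 : W_23 (nat_lit 5) (nat_lit 0x4000000058003c000a001000080000000000000000000000000000000) (nat_lit 0x0) (nat_lit 0x1200198002000000004000200000000000000000000000000000000000) := T_23 (nat_lit 211) (nat_lit 228) (nat_lit 4) (nat_lit 7) (nat_lit 13) L14363 (by decide +kernel)
theorem L14365 : W_23 (nat_lit 6) (nat_lit 0x4000000018003c000a001000080000000000000000000000000000000) (nat_lit 0x0) (nat_lit 0x120019800e000000004000200000000000000000000000000000000000) := T_23 (nat_lit 194) (nat_lit 195) (nat_lit 3) (nat_lit 4) (nat_lit 10) L14364 (by decide +kernel)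
theorem L14366 : W_23 (nat_lit 7) (nat_lit 0x18003c000a001000080000000000000000000000000000000) (nat_lit 0x0) (nat_lit 0x16001b800e000000004000200000000000000000000000000000000000) := T_23 (nat_lit 226) (nat_lit 209) (nat_lit 6) (nat_lit 5) (nat_lit 13) L14365 (by decide +kernel)
theorem L14367 : W_23 (nat_lit 8) (nat_lit 0x10003c000a001000080000000000000000000000000000000) (nat_lit 0x0) (nat_lit 0x16001b800ec00000004000200000000000000000000000000000000000) := T_23 (nat_lit 191) (nat_lit 190) (nat_lit 1) (nat_lit 7) (nat_lit 10) L14366 (by decide +kernel)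
theorem L14368 : W_23 (nat_lit 9) (nat_lit 0x10003c0008001000080000000000000000000000000000000) (nat_lit 0x0) (nat_lit 0x16001b800ec00000007000200000000000000000000000000000000000) := T_23 (nat_lit 157) (nat_lit 156) (nat_lit 0) (nat_lit 7) (nat_lit 10) L14367 (by decide +kernel)
theorem L14369 : W_23 (nat_lit 2) (nat_lit 0x900078003c000a0010000a0000000000000000000000000000000) (nat_lit 0x0) (nat_lit 0x200000000000000004000200000000000000000000000000000000000) := D_23 (nat_lit 158) (nat_lit 141) (nat_lit 225) (nat_lit 6) (nat_lit 4) (nat_lit 12) (nat_lit 6) (nat_lit 4) (nat_lit 13) (by decide +kernel)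
theorem L14370 : W_23 (nat_lit 3) (nat_lit 0x800078003c000a0010000a0000000000000000000000000000000) (nat_lit 0x0) (nat_lit 0x200018000000000004000200000000000000000000000000000000000) := T_23 (nat_lit 208) (nat_lit 207) (nat_lit 1) (nat_lit 7) (nat_lit 11) L14369 (by decide +kernel)
theorem L14371 : W_23 (nat_lit 4) (nat_lit 0x800058003c000a0010000a0000000000000000000000000000000) (nat_lit 0x0) (nat_lit 0x200118002000000004000200000000000000000000000000000000000) := T_23 (nat_lit 193) (nat_lit 212) (nat_lit 3) (nat_lit 4) (nat_lit 11) L14370 (by decide +kernel)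
theorem L14372 : W_23 (nat_lit 5) (nat_lit 0x800058003c00080010000a0000000000000000000000000000000) (nat_lit 0x0) (nat_lit 0x200118002000000007000200000000000000000000000000000000000) := T_23 (nat_lit 157) (nat_lit 156) (nat_lit 0) (nat_lit 7) (nat_lit 10) L14371 (by decide +kernel)
theorem L14373 : W_23 (nat_lit 6) (nat_lit 0x58003c00080010000a0000000000000000000000000000000) (nat_lit 0x0) (nat_lit 0x1200198002000000007000200000000000000000000000000000000000) := T_23 (nat_lit 211) (nat_lit 228) (nat_lit 4) (nat_lit 7) (nat_lit 13) L14372 (by decide +kernel)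
theorem L14374 : W_23 (nat_lit 7) (nat_lit 0x50003c00080010000a0000000000000000000000000000000) (nat_lit 0x0) (nat_lit 0x1200198002c00000007000200000000000000000000000000000000000) := T_23 (nat_lit 191) (nat_lit 190) (nat_lit 1) (nat_lit 7) (nat_lit 10) L14373 (by decide +kernel)
theorem L14375 : W_23 (nat_lit 8) (nat_lit 0x50003c0008001000080000000000000000000000000000000) (nat_lit 0x0) (nat_lit 0x1200198002c00000007000600020000000000000000000000000000000) := T_23 (nat_lit 125) (nat_lit 142) (nat_lit 7) (nat_lit 6) (nat_lit 7) L14374 (by decide +kernel)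
theorem L14376 : W_23 (nat_lit 9) (nat_lit 0x10003c0008001000080000000000000000000000000000000) (nat_lit 0x0) (nat_lit 0x120019800ec00000007000600020000000000000000000000000000000) := T_23 (nat_lit 194) (nat_lit 195) (nat_lit 3) (nat_lit 4) (nat_lit 10) L14375 (by decide +kernel)
theorem L14377 : W_23 (nat_lit 11) (nat_lit 0x10003c0000001000080000000000000000000000000000000) (nat_lit 0x0) (nat_lit 0x16001b800ec0000001f000600020000000000000000000000000000000) := Q_23 (nat_lit 159) (C_23 L14353 (C_23 L14355 (C_23 L14360 (C_23 L14368 (C_23 L14376 N_23))))) (by decide +kernel)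
theorem L14378 : W_23 (nat_lit 2) (nat_lit 0x4000900078003c0008001000080000000000000000000000000000000) (nat_lit 0x0) (nat_lit 0x200000000000000004000200000000000000000000000000000000000) := D_23 (nat_lit 158) (nat_lit 141) (nat_lit 225) (nat_lit 5) (nat_lit 5) (nat_lit 8) (nat_lit 6) (nat_lit 4) (nat_lit 13) (by decide +kernel)
theorem L14379 : W_23 (nat_lit 3) (nat_lit 0x4000800078003c0008001000080000000000000000000000000000000) (nat_lit 0x0) (nat_lit 0x200018000000000004000200000000000000000000000000000000000) := T_23 (nat_lit 208) (nat_lit 207) (nat_lit 1) (nat_lit 7) (nat_lit 11) L14378 (by decide +kernel)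
theorem L14380 : W_23 (nat_lit 4) (nat_lit 0x4000800058003c0008001000080000000000000000000000000000000) (nat_lit 0x0) (nat_lit 0x200118002000000004000200000000000000000000000000000000000) := T_23 (nat_lit 193) (nat_lit 212) (nat_lit 3) (nat_lit 4) (nat_lit 11) L14379 (by decide +kernel)
theorem L14381 : W_23 (nat_lit 5) (nat_lit 0x4000000058003c0008001000080000000000000000000000000000000) (nat_lit 0x0) (nat_lit 0x1200198002000000004000200000000000000000000000000000000000) := T_23 (nat_lit 211) (nat_lit 228) (nat_lit 4) (nat_lit 7) (nat_lit 13) L14380 (by decide +kernel)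
theorem L14382 : W_23 (nat_lit 6) (nat_lit 0x4000000018003c0008001000080000000000000000000000000000000) (nat_lit 0x0) (nat_lit 0x120019800e000000004000200000000000000000000000000000000000) := T_23 (nat_lit 194) (nat_lit 195) (nat_lit 3) (nat_lit 4) (nat_lit 10) L14381 (by decide +kernel)
theorem L14383 : W_23 (nat_lit 7) (nat_lit 0x18003c0008001000080000000000000000000000000000000) (nat_lit 0x0) (nat_lit 0x16001b800e000000004000200000000000000000000000000000000000) := T_23 (nat_lit 226) (nat_lit 209) (nat_lit 6) (nat_lit 5) (nat_lit 13) L14382 (by decide +kernel)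
theorem L14384 : W_23 (nat_lit 8) (nat_lit 0x10003c0008001000080000000000000000000000000000000) (nat_lit 0x0) (nat_lit 0x16001b800ec00000004000200000000000000000000000000000000000) := T_23 (nat_lit 191) (nat_lit 190) (nat_lit 1) (nat_lit 7) (nat_lit 10) L14383 (by decide +kernel)
theorem L14385 : W_23 (nat_lit 2) (nat_lit 0x900078003c00080010000a0000000000000000000000000000000) (nat_lit 0x0) (nat_lit 0x200000000000000004000200000000000000000000000000000000000) := D_23 (nat_lit 158) (nat_lit 141) (nat_lit 225) (nat_lit 5) (nat_lit 5) (nat_lit 8) (nat_lit 6) (nat_lit 4) (nat_lit 13) (by decide +kernel)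
theorem L14386 : W_23 (nat_lit 3) (nat_lit 0x800078003c00080010000a0000000000000000000000000000000) (nat_lit 0x0) (nat_lit 0x200018000000000004000200000000000000000000000000000000000) := T_23 (nat_lit 208) (nat_lit 207) (nat_lit 1) (nat_lit 7) (nat_lit 11) L14385 (by decide +kernel)
theorem L14387 : W_23 (nat_lit 4) (nat_lit 0x800058003c00080010000a0000000000000000000000000000000) (nat_lit 0x0) (nat_lit 0x200118002000000004000200000000000000000000000000000000000) := T_23 (nat_lit 193) (nat_lit 212) (nat_lit 3) (nat_lit 4) (nat_lit 11) L14386 (by decide +kernel)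
theorem L14388 : W_23 (nat_lit 5) (nat_lit 0x58003c00080010000a0000000000000000000000000000000) (nat_lit 0x0) (nat_lit 0x1200198002000000004000200000000000000000000000000000000000) := T_23 (nat_lit 211) (nat_lit 228) (nat_lit 4) (nat_lit 7) (nat_lit 13) L14387 (by decide +kernel)
theorem L14389 : W_23 (nat_lit 6) (nat_lit 0x50003c00080010000a0000000000000000000000000000000) (nat_lit 0x0) (nat_lit 0x1200198002c00000004000200000000000000000000000000000000000) := T_23 (nat_lit 191) (nat_lit 190) (nat_lit 1) (nat_lit 7) (nat_lit 10) L14388 (by decide +kernel)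
theorem L14390 : W_23 (nat_lit 7) (nat_lit 0x50003c0008001000080000000000000000000000000000000) (nat_lit 0x0) (nat_lit 0x1200198002c00000004000600020000000000000000000000000000000) := T_23 (nat_lit 125) (nat_lit 142) (nat_lit 7) (nat_lit 6) (nat_lit 7) L14389 (by decide +kernel)
theorem L14391 : W_23 (nat_lit 8) (nat_lit 0x10003c0008001000080000000000000000000000000000000) (nat_lit 0x0) (nat_lit 0x120019800ec00000004000600020000000000000000000000000000000) := T_23 (nat_lit 194) (nat_lit 195) (nat_lit 3) (nat_lit 4) (nat_lit 10) L14390 (by decide +kernel)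
theorem L14392 : W_23 (nat_lit 9) (nat_lit 0x10003c0000001000080000000000000000000000000000000) (nat_lit 0x0) (nat_lit 0x16001b800ec0000001c000600020000000000000000000000000000000) := Q_23 (nat_lit 159) (C_23 L14360 (C_23 L14355 (C_23 L14384 (C_23 L14391 N_23)))) (by decide +kernel)
theorem L14393 : W_23 (nat_lit 2) (nat_lit 0x78003c0006001700080000000000000000000000000000000) (nat_lit 0x0) (nat_lit 0x180000000000008000000000000000000000000000000000000000) := D_23 (nat_lit 211) (nat_lit 159) (nat_lit 212) (nat_lit 7) (nat_lit 6) (nat_lit 8) (nat_lit 3) (nat_lit 4) (nat_lit 11) (by decide +kernel)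
theorem L14394 : W_23 (nat_lit 3) (nat_lit 0x58003c0006001700080000000000000000000000000000000) (nat_lit 0x0) (nat_lit 0x1c0002000000008000000000000000000000000000000000000000) := T_23 (nat_lit 193) (nat_lit 210) (nat_lit 7) (nat_lit 5) (nat_lit 8) L14393 (by decide +kernel)
theorem L14395 : W_23 (nat_lit 4) (nat_lit 0x58003c0006001300080000000000000000000000000000000) (nat_lit 0x0) (nat_lit 0x1c0002000000008000400020000000000000000000000000000000) := T_23 (nat_lit 142) (nat_lit 125) (nat_lit 6) (nat_lit 5) (nat_lit 11) L14394 (by decide +kernel)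
theorem L14396 : W_23 (nat_lit 5) (nat_lit 0x58003c0002001300080000000000000000000000000000000) (nat_lit 0x0) (nat_lit 0x1d000200000000c000400020000000000000000000000000000000) := T_23 (nat_lit 158) (nat_lit 208) (nat_lit 6) (nat_lit 4) (nat_lit 12) L14395 (by decide +kernel)
theorem L14397 : W_23 (nat_lit 6) (nat_lit 0x58003c0002001100080000000000000000000000000000000) (nat_lit 0x0) (nat_lit 0x1d000200000000c000600030000000000000000000000000000000) := T_23 (nat_lit 141) (nat_lit 124) (nat_lit 6) (nat_lit 4) (nat_lit 11) L14396 (by decide +kernel)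
theorem L14398 : W_23 (nat_lit 7) (nat_lit 0x58003c0002001000080000000000000000000000000000000) (nat_lit 0x0) (nat_lit 0x1d000200000000c000700038000000000000000000000000000000) := T_23 (nat_lit 140) (nat_lit 123) (nat_lit 7) (nat_lit 4) (nat_lit 7) L14397 (by decide +kernel)
theorem L14399 : W_23 (nat_lit 8) (nat_lit 0x50003c0002001000080000000000000000000000000000000) (nat_lit 0x0) (nat_lit 0x1d0002c0000000c000700038000000000000000000000000000000) := T_23 (nat_lit 191) (nat_lit 190) (nat_lit 1) (nat_lit 7) (nat_lit 10) L14398 (by decide +kernel)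
theorem L14400 : W_23 (nat_lit 9) (nat_lit 0x50003c0000001000080000000000000000000000000000000) (nat_lit 0x0) (nat_lit 0x1d0002c0000000f000700038000000000000000000000000000000) := T_23 (nat_lit 157) (nat_lit 156) (nat_lit 0) (nat_lit 7) (nat_lit 10) L14399 (by decide +kernel)
theorem L14401 : W_23 (nat_lit 10) (nat_lit 0x10003c0000001000080000000000000000000000000000000) (nat_lit 0x0) (nat_lit 0x1d000ec0000000f000700038000000000000000000000000000000) := T_23 (nat_lit 194) (nat_lit 195) (nat_lit 3) (nat_lit 4) (nat_lit 10) L14400 (by decide +kernel)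
theorem L14402 : W_23 (nat_lit 12) (nat_lit 0x3c0000001000080000000000000000000000000000000) (nat_lit 0x0) (nat_lit 0x16001f800fc0000001f000700038000000000000000000000000000000) := Q_23 (nat_lit 192) (C_23 L14340 (C_23 L14344 (C_23 L14377 (C_23 L14392 (C_23 L14401 N_23))))) (by decide +kernel)
theorem L14403 : W_23 (nat_lit 13) (nat_lit 0x380000001000080000000000000000000000000000000) (nat_lit 0x0) (nat_lit 0x16001f800ff8007801fe00700038000000000000000000000000000000) := Q_23 (nat_lit 174) (C_23 L13237 (C_23 L12741 (C_23 L13260 (C_23 L13197 (C_23 L14402 (C_23 L13244 N_23)))))) (by decide +kernel)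
theorem L14404 : W_23 (nat_lit 2) (nat_lit 0x20001000780004001000080000000000000000000000000000000) (nat_lit 0x0) (nat_lit 0x400000000000000008000400000000000000000000000000000000000) := D_23 (nat_lit 159) (nat_lit 226) (nat_lit 142) (nat_lit 6) (nat_lit 5) (nat_lit 13) (nat_lit 6) (nat_lit 5) (nat_lit 12) (by decide +kernel)
theorem L14405 : W_23 (nat_lit 3) (nat_lit 0x20001000780000001000080000000000000000000000000000000) (nat_lit 0x0) (nat_lit 0x40000000000000000e000400000000000000000000000000000000000) := T_23 (nat_lit 158) (nat_lit 157) (nat_lit 0) (nat_lit 8) (nat_lit 10) L14404 (by decide +kernel)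
theorem L14406 : W_23 (nat_lit 2) (nat_lit 0x3000d000780004001000080000000000000000000000000000000) (nat_lit 0x0) (nat_lit 0x8000c0000000000000000000000000000000000000000000000000000) := D_23 (nat_lit 210) (nat_lit 227) (nat_lit 211) (nat_lit 7) (nat_lit 5) (nat_lit 9) (nat_lit 2) (nat_lit 4) (nat_lit 12) (by decide +kernel)
theorem L14407 : W_23 (nat_lit 3) (nat_lit 0x30009000780004001000080000000000000000000000000000000) (nat_lit 0x0) (nat_lit 0x8000c0006000000000000000000000000000000000000000000000000) := T_23 (nat_lit 194) (nat_lit 193) (nat_lit 1) (nat_lit 8) (nat_lit 11) L14406 (by decide +kernel)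
theorem L14408 : W_23 (nat_lit 4) (nat_lit 0x20009000780004001000080000000000000000000000000000000) (nat_lit 0x0) (nat_lit 0xa000d0006000000000000000000000000000000000000000000000000) := T_23 (nat_lit 208) (nat_lit 225) (nat_lit 5) (nat_lit 5) (nat_lit 9) L14407 (by decide +kernel)
theorem L14409 : W_23 (nat_lit 5) (nat_lit 0x20001000780004001000080000000000000000000000000000000) (nat_lit 0x0) (nat_lit 0xa000d001e000000000000000000000000000000000000000000000000) := T_23 (nat_lit 195) (nat_lit 196) (nat_lit 3) (nat_lit 5) (nat_lit 10) L14408 (by decide +kernel)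
theorem L14410 : W_23 (nat_lit 6) (nat_lit 0x20001000780000001000080000000000000000000000000000000) (nat_lit 0x0) (nat_lit 0xa000d001e000000006000000000000000000000000000000000000000) := T_23 (nat_lit 158) (nat_lit 157) (nat_lit 0) (nat_lit 8) (nat_lit 10) L14409 (by decide +kernel)
theorem L14411 : W_23 (nat_lit 2) (nat_lit 0xe0006000b000780000001000080000000000000000000000000000000) (nat_lit 0x0) (nat_lit 0x180080000000000000000000000000000000000000000000000000000) := D_23 (nat_lit 224) (nat_lit 211) (nat_lit 223) (nat_lit 2) (nat_lit 3) (nat_lit 13) (nat_lit 2) (nat_lit 2) (nat_lit 13) (by decide +kernel)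
theorem L14412 : W_23 (nat_lit 3) (nat_lit 0xe0002000b000780000001000080000000000000000000000000000000) (nat_lit 0x0) (nat_lit 0x1800c0000000000010000000000000000000000000000000000000000) := T_23 (nat_lit 210) (nat_lit 160) (nat_lit 6) (nat_lit 6) (nat_lit 13) L14411 (by decide +kernel)
theorem L14413 : W_23 (nat_lit 4) (nat_lit 0xe00020009000780000001000080000000000000000000000000000000) (nat_lit 0x0) (nat_lit 0x80001800c0002000000010000000000000000000000000000000000000000) := T_23 (nat_lit 193) (nat_lit 243) (nat_lit 6) (nat_lit 5) (nat_lit 14) L14412 (by decide +kernel)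
theorem L14414 : W_23 (nat_lit 5) (nat_lit 0x600020009000780000001000080000000000000000000000000000000) (nat_lit 0x0) (nat_lit 0x180009800c0002000000010000000000000000000000000000000000000000) := T_23 (nat_lit 227) (nat_lit 244) (nat_lit 7) (nat_lit 5) (nat_lit 10) L14413 (by decide +kernel)
theorem L14415 : W_23 (nat_lit 6) (nat_lit 0x400020009000780000001000080000000000000000000000000000000) (nat_lit 0x0) (nat_lit 0x1c000b800c0002000000010000000000000000000000000000000000000000) := T_23 (nat_lit 225) (nat_lit 242) (nat_lit 5) (nat_lit 5) (nat_lit 10) L14414 (by decide +kernel)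
theorem L14416 : W_23 (nat_lit 7) (nat_lit 0x20009000780000001000080000000000000000000000000000000) (nat_lit 0x0) (nat_lit 0x1c000f800c0002000000018000000000000000000000000000000000000000) := T_23 (nat_lit 226) (nat_lit 159) (nat_lit 6) (nat_lit 5) (nat_lit 13) L14415 (by decide +kernel)
theorem L14417 : W_23 (nat_lit 8) (nat_lit 0x20001000780000001000080000000000000000000000000000000) (nat_lit 0x0) (nat_lit 0x1c000f800c001a000000018000000000000000000000000000000000000000) := T_23 (nat_lit 195) (nat_lit 196) (nat_lit 3) (nat_lit 5) (nat_lit 10) L14416 (by decide +kernel)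
theorem L14418 : W_23 (nat_lit 9) (nat_lit 0x1000780000001000080000000000000000000000000000000) (nat_lit 0x0) (nat_lit 0x1c000f800f001e00000001e000400000000000000000000000000000000000) := Q_23 (nat_lit 209) (C_23 L14405 (C_23 L14410 (C_23 L14417 N_23))) (by decide +kernel)
theorem L14419 : W_23 (nat_lit 10) (nat_lit 0x780000001000080000000000000000000000000000000) (nat_lit 0x0) (nat_lit 0x1c000f800f001f80000001e000400000000000000000000000000000000000) := T_23 (nat_lit 192) (nat_lit 191) (nat_lit 1) (nat_lit 8) (nat_lit 10) L14418 (by decide +kernel)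
theorem L14420 : W_23 (nat_lit 11) (nat_lit 0x380000001000080000000000000000000000000000000) (nat_lit 0x0) (nat_lit 0x1c000f800f007f801c001de000400000000000000000000000000000000000) := Q_23 (nat_lit 178) (C_23 L13816 (C_23 L13818 (C_23 L14008 (C_23 L14419 (C_23 L13987 N_23))))) (by decide +kernel)
theorem L14421 : W_23 (nat_lit 6) (nat_lit 0x3c0000001000080000000000000000000000000000000) (nat_lit 0x0) (nat_lit 0xe700030001c00000000000000000000000000000000000000) := T_23 (nat_lit 194) (nat_lit 195) (nat_lit 3) (nat_lit 4) (nat_lit 10) L12902 (by decide +kernel)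
theorem L14422 : W_23 (nat_lit 2) (nat_lit 0x40003f0008001000080000000000000000000000000000000) (nat_lit 0x0) (nat_lit 0x700000000000000000000000000000000000000000000000) := D_23 (nat_lit 189) (nat_lit 188) (nat_lit 190) (nat_lit 1) (nat_lit 5) (nat_lit 10) (nat_lit 1) (nat_lit 6) (nat_lit 10) (by decide +kernel)
theorem L14423 : W_23 (nat_lit 3) (nat_lit 0x40003e0008001000080000000000000000000000000000000) (nat_lit 0x0) (nat_lit 0x700010004000000000000000000000000000000000000000) := T_23 (nat_lit 172) (nat_lit 158) (nat_lit 2) (nat_lit 2) (nat_lit 10) L14422 (by decide +kernel)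
theorem L14424 : W_23 (nat_lit 4) (nat_lit 0x40003e0000001000080000000000000000000000000000000) (nat_lit 0x0) (nat_lit 0x70001001c000000000000000000000000000000000000000) := T_23 (nat_lit 159) (nat_lit 160) (nat_lit 2) (nat_lit 3) (nat_lit 10) L14423 (by decide +kernel)
theorem L14425 : W_23 (nat_lit 5) (nat_lit 0x40003c0000001000080000000000000000000000000000000) (nat_lit 0x0) (nat_lit 0x270003001c000000000000000000000000000000000000000) := T_23 (nat_lit 173) (nat_lit 193) (nat_lit 3) (nat_lit 3) (nat_lit 10) L14424 (by decide +kernel)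
theorem L14426 : W_23 (nat_lit 6) (nat_lit 0x3c0000001000080000000000000000000000000000000) (nat_lit 0x0) (nat_lit 0xe70003001c000000000000000000000000000000000000000) := T_23 (nat_lit 194) (nat_lit 195) (nat_lit 3) (nat_lit 4) (nat_lit 10) L14425 (by decide +kernel)
theorem L14427 : W_23 (nat_lit 7) (nat_lit 0x380000001000080000000000000000000000000000000) (nat_lit 0x0) (nat_lit 0x1e70047001fc00000000000000000000000000000000000000) := Q_23 (nat_lit 174) (C_23 L13992 (C_23 L13197 (C_23 L12738 (C_23 L14421 (C_23 L14426 N_23))))) (by decide +kernel)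
theorem L14428 : W_23 (nat_lit 6) (nat_lit 0x1000380000001000080000000000000000000000000000000) (nat_lit 0x0) (nat_lit 0x72801c001c0000000000000000000000000000000000000000) := T_23 (nat_lit 178) (nat_lit 191) (nat_lit 1) (nat_lit 8) (nat_lit 10) L13817 (by decide +kernel)
theorem L14429 : W_23 (nat_lit 2) (nat_lit 0x14003f0001001000080000000000000000000000000000000) (nat_lit 0x0) (nat_lit 0x1c000000000000000000000000000000000000000) := D_23 (nat_lit 159) (nat_lit 158) (nat_lit 160) (nat_lit 2) (nat_lit 2) (nat_lit 10) (nat_lit 2) (nat_lit 3) (nat_lit 10) (by decide +kernel)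
theorem L14430 : W_23 (nat_lit 3) (nat_lit 0x14003e0001001000080000000000000000000000000000000) (nat_lit 0x0) (nat_lit 0x200001001c000000000000000000000000000000000000000) := T_23 (nat_lit 172) (nat_lit 193) (nat_lit 3) (nat_lit 2) (nat_lit 10) L14429 (by decide +kernel)
theorem L14431 : W_23 (nat_lit 4) (nat_lit 0x14003e0000001000080000000000000000000000000000000) (nat_lit 0x0) (nat_lit 0x200001001d800000000000000000000000000000000000000) := T_23 (nat_lit 156) (nat_lit 155) (nat_lit 0) (nat_lit 6) (nat_lit 10) L14430 (by decide +kernel)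
theorem L14432 : W_23 (nat_lit 5) (nat_lit 0x14003c0000001000080000000000000000000000000000000) (nat_lit 0x0) (nat_lit 0x220003001d800000000000000000000000000000000000000) := T_23 (nat_lit 173) (nat_lit 189) (nat_lit 1) (nat_lit 6) (nat_lit 10) L14431 (by decide +kernel)
theorem L14433 : W_23 (nat_lit 6) (nat_lit 0x10003c0000001000080000000000000000000000000000000) (nat_lit 0x0) (nat_lit 0x2e0003001d800000000000000000000000000000000000000) := T_23 (nat_lit 190) (nat_lit 191) (nat_lit 1) (nat_lit 7) (nat_lit 10) L14432 (by decide +kernel)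
theorem L14434 : W_23 (nat_lit 6) (nat_lit 0x10003c0000001000080000000000000000000000000000000) (nat_lit 0x0) (nat_lit 0xe70003001c000000000000000000000000000000000000000) := T_23 (nat_lit 194) (nat_lit 195) (nat_lit 3) (nat_lit 4) (nat_lit 10) L7723 (by decide +kernel)
theorem L14435 : W_23 (nat_lit 2) (nat_lit 0x50003e0000001000080000000000000000000000000000000) (nat_lit 0x0) (nat_lit 0xe00000000000000000000000000000000000000000000000) := D_23 (nat_lit 190) (nat_lit 189) (nat_lit 191) (nat_lit 1) (nat_lit 6) (nat_lit 10) (nat_lit 1) (nat_lit 7) (nat_lit 10) (by decide +kernel)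
theorem L14436 : W_23 (nat_lit 3) (nat_lit 0x50003c0000001000080000000000000000000000000000000) (nat_lit 0x0) (nat_lit 0x2e00020000000000000000000000000000000000000000000) := T_23 (nat_lit 173) (nat_lit 193) (nat_lit 3) (nat_lit 3) (nat_lit 10) L14435 (by decide +kernel)
theorem L14437 : W_23 (nat_lit 4) (nat_lit 0x10003c0000001000080000000000000000000000000000000) (nat_lit 0x0) (nat_lit 0xee00020000000000000000000000000000000000000000000) := T_23 (nat_lit 194) (nat_lit 195) (nat_lit 3) (nat_lit 4) (nat_lit 10) L14436 (by decide +kernel)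
theorem L14438 : W_23 (nat_lit 2) (nat_lit 0x54003e000d001000080000000000000000000000000000000) (nat_lit 0x0) (nat_lit 0x20000000000000000400020000000000000000000000000000000) := D_23 (nat_lit 142) (nat_lit 125) (nat_lit 209) (nat_lit 7) (nat_lit 6) (nat_lit 7) (nat_lit 6) (nat_lit 5) (nat_lit 12) (by decide +kernel)
theorem L14439 : W_23 (nat_lit 3) (nat_lit 0x54003e0009001000080000000000000000000000000000000) (nat_lit 0x0) (nat_lit 0x20000000010004000400020000000000000000000000000000000) := T_23 (nat_lit 158) (nat_lit 172) (nat_lit 2) (nat_lit 2) (nat_lit 10) L14438 (by decide +kernel)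
theorem L14440 : W_23 (nat_lit 4) (nat_lit 0x54003e0001001000080000000000000000000000000000000) (nat_lit 0x0) (nat_lit 0x2000000001001c000400020000000000000000000000000000000) := T_23 (nat_lit 159) (nat_lit 160) (nat_lit 2) (nat_lit 3) (nat_lit 10) L14439 (by decide +kernel)
theorem L14441 : W_23 (nat_lit 5) (nat_lit 0x54003e0000001000080000000000000000000000000000000) (nat_lit 0x0) (nat_lit 0x2000000001001d800400020000000000000000000000000000000) := T_23 (nat_lit 156) (nat_lit 155) (nat_lit 0) (nat_lit 6) (nat_lit 10) L14440 (by decide +kernel)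
theorem L14442 : W_23 (nat_lit 6) (nat_lit 0x54003c0000001000080000000000000000000000000000000) (nat_lit 0x0) (nat_lit 0x2000020003001d800400020000000000000000000000000000000) := T_23 (nat_lit 173) (nat_lit 189) (nat_lit 1) (nat_lit 6) (nat_lit 10) L14441 (by decide +kernel)
theorem L14443 : W_23 (nat_lit 7) (nat_lit 0x14003c0000001000080000000000000000000000000000000) (nat_lit 0x0) (nat_lit 0x2000c20003001d800400020000000000000000000000000000000) := T_23 (nat_lit 194) (nat_lit 195) (nat_lit 3) (nat_lit 4) (nat_lit 10) L14442 (by decide +kernel)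
theorem L14444 : W_23 (nat_lit 8) (nat_lit 0x10003c0000001000080000000000000000000000000000000) (nat_lit 0x0) (nat_lit 0x2000ce0003001d800400020000000000000000000000000000000) := T_23 (nat_lit 190) (nat_lit 191) (nat_lit 1) (nat_lit 7) (nat_lit 10) L14443 (by decide +kernel)
theorem L14445 : W_23 (nat_lit 2) (nat_lit 0x50003f0008001000080000000000000000000000000000000) (nat_lit 0x0) (nat_lit 0x1c00000000000000000000000000000000000000) := D_23 (nat_lit 155) (nat_lit 156) (nat_lit 154) (nat_lit 0) (nat_lit 6) (nat_lit 10) (nat_lit 0) (nat_lit 5) (nat_lit 10) (by decide +kernel)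
theorem L14446 : W_23 (nat_lit 3) (nat_lit 0x50003e0008001000080000000000000000000000000000000) (nat_lit 0x0) (nat_lit 0x10005c00000000000000000000000000000000000000) := T_23 (nat_lit 172) (nat_lit 158) (nat_lit 2) (nat_lit 2) (nat_lit 10) L14445 (by decide +kernel)
theorem L14447 : W_23 (nat_lit 4) (nat_lit 0x50003e0000001000080000000000000000000000000000000) (nat_lit 0x0) (nat_lit 0x1001dc00000000000000000000000000000000000000) := T_23 (nat_lit 159) (nat_lit 160) (nat_lit 2) (nat_lit 3) (nat_lit 10) L14446 (by decide +kernel)
theorem L14448 : W_23 (nat_lit 5) (nat_lit 0x50003c0000001000080000000000000000000000000000000) (nat_lit 0x0) (nat_lit 0x200003001dc00000000000000000000000000000000000000) := T_23 (nat_lit 173) (nat_lit 193) (nat_lit 3) (nat_lit 3) (nat_lit 10) L14447 (by decide +kernel)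
theorem L14449 : W_23 (nat_lit 6) (nat_lit 0x10003c0000001000080000000000000000000000000000000) (nat_lit 0x0) (nat_lit 0xe00003001dc00000000000000000000000000000000000000) := T_23 (nat_lit 194) (nat_lit 195) (nat_lit 3) (nat_lit 4) (nat_lit 10) L14448 (by decide +kernel)
theorem L14450 : W_23 (nat_lit 10) (nat_lit 0x1000380000001000080000000000000000000000000000000) (nat_lit 0x0) (nat_lit 0x16001b800ef0007001dc00600020000000000000000000000000000000) := Q_23 (nat_lit 174) (C_23 L14433 (C_23 L14434 (C_23 L14437 (C_23 L14444 (C_23 L14392 (C_23 L14449 N_23)))))) (by decide +kernel)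
theorem L14451 : W_23 (nat_lit 2) (nat_lit 0x11000f80088001000080000000000000000000000000000000) (nat_lit 0x0) (nat_lit 0x1000110000000000000000000000000000000000000000) := D_23 (nat_lit 180) (nat_lit 164) (nat_lit 160) (nat_lit 2) (nat_lit 7) (nat_lit 10) (nat_lit 0) (nat_lit 10) (nat_lit 10) (by decide +kernel)
theorem L14452 : W_23 (nat_lit 3) (nat_lit 0x11000f80080001000080000000000000000000000000000000) (nat_lit 0x0) (nat_lit 0x100011c000000000000000000000000000000000000000) := T_23 (nat_lit 159) (nat_lit 158) (nat_lit 0) (nat_lit 9) (nat_lit 10) L14451 (by decide +kernel)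
theorem L14453 : W_23 (nat_lit 4) (nat_lit 0x11000f80000001000080000000000000000000000000000000) (nat_lit 0x0) (nat_lit 0x10001dc000000000000000000000000000000000000000) := T_23 (nat_lit 163) (nat_lit 162) (nat_lit 2) (nat_lit 6) (nat_lit 10) L14452 (by decide +kernel)
theorem L14454 : W_23 (nat_lit 5) (nat_lit 0x11000780000001000080000000000000000000000000000000) (nat_lit 0x0) (nat_lit 0x200018001dc000000000000000000000000000000000000000) := T_23 (nat_lit 179) (nat_lit 197) (nat_lit 3) (nat_lit 6) (nat_lit 10) L14453 (by decide +kernel)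
theorem L14455 : W_23 (nat_lit 6) (nat_lit 0x1000780000001000080000000000000000000000000000000) (nat_lit 0x0) (nat_lit 0x380018001dc000000000000000000000000000000000000000) := T_23 (nat_lit 196) (nat_lit 195) (nat_lit 3) (nat_lit 5) (nat_lit 10) L14454 (by decide +kernel)
theorem L14456 : W_23 (nat_lit 7) (nat_lit 0x1000380000001000080000000000000000000000000000000) (nat_lit 0x0) (nat_lit 0x38801c001dc000000000000000000000000000000000000000) := T_23 (nat_lit 178) (nat_lit 191) (nat_lit 1) (nat_lit 8) (nat_lit 10) L14455 (by decide +kernel)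
theorem L14457 : W_23 (nat_lit 2) (nat_lit 0x1000380008001400080000000000000000000000000000000) (nat_lit 0x0) (nat_lit 0x400020002000000000000000000000000000000000000000000000000) := D_23 (nat_lit 209) (nat_lit 226) (nat_lit 193) (nat_lit 6) (nat_lit 5) (nat_lit 13) (nat_lit 5) (nat_lit 6) (nat_lit 8) (by decide +kernel)
theorem L14458 : W_23 (nat_lit 3) (nat_lit 0x1000380008001000080000000000000000000000000000000) (nat_lit 0x0) (nat_lit 0x400020002000000000000400020000000000000000000000000000000) := T_23 (nat_lit 142) (nat_lit 125) (nat_lit 5) (nat_lit 6) (nat_lit 7) L14457 (by decide +kernel)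
theorem L14459 : W_23 (nat_lit 2) (nat_lit 0x20001000380008001000080000000000000000000000000000000) (nat_lit 0x0) (nat_lit 0x4000400020000000000000000000000000000000) := D_23 (nat_lit 142) (nat_lit 125) (nat_lit 158) (nat_lit 5) (nat_lit 6) (nat_lit 7) (nat_lit 6) (nat_lit 5) (nat_lit 12) (by decide +kernel)
theorem L14460 : W_23 (nat_lit 3) (nat_lit 0x1000380008001000080000000000000000000000000000000) (nat_lit 0x0) (nat_lit 0x400020000000000004000400020000000000000000000000000000000) := T_23 (nat_lit 209) (nat_lit 226) (nat_lit 6) (nat_lit 5) (nat_lit 13) L14459 (by decide +kernel)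
theorem L14461 : W_23 (nat_lit 2) (nat_lit 0x20001000380008001000080000000000000000000000000000000) (nat_lit 0x0) (nat_lit 0x2000000004000400000000000000000000000000000000000) := D_23 (nat_lit 142) (nat_lit 158) (nat_lit 193) (nat_lit 6) (nat_lit 5) (nat_lit 12) (nat_lit 5) (nat_lit 6) (nat_lit 8) (by decide +kernel)
theorem L14462 : W_23 (nat_lit 3) (nat_lit 0x1000380008001000080000000000000000000000000000000) (nat_lit 0x0) (nat_lit 0x400020002000000004000400000000000000000000000000000000000) := T_23 (nat_lit 209) (nat_lit 226) (nat_lit 6) (nat_lit 5) (nat_lit 13) L14461 (by decide +kernel)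
theorem L14463 : W_23 (nat_lit 2) (nat_lit 0x1000780008001000080000000000000000000000000000000) (nat_lit 0x0) (nat_lit 0x2000800004000000000000000000000000000000000000000) := D_23 (nat_lit 179) (nat_lit 158) (nat_lit 193) (nat_lit 0) (nat_lit 9) (nat_lit 10) (nat_lit 1) (nat_lit 9) (nat_lit 10) (by decide +kernel)
theorem L14464 : W_23 (nat_lit 2) (nat_lit 0x4000000090007e0008001000080000000000000000000000000000000) (nat_lit 0x0) (nat_lit 0x810004000000000000000000000000000000000000000) := D_23 (nat_lit 158) (nat_lit 172) (nat_lit 179) (nat_lit 2) (nat_lit 2) (nat_lit 10) (nat_lit 0) (nat_lit 9) (nat_lit 10) (by decide +kernel)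
theorem L14465 : W_23 (nat_lit 3) (nat_lit 0x4000000090007c0008001000080000000000000000000000000000000) (nat_lit 0x0) (nat_lit 0x830014000000000000000000000000000000000000000) := T_23 (nat_lit 173) (nat_lit 160) (nat_lit 2) (nat_lit 3) (nat_lit 10) L14464 (by decide +kernel)
theorem L14466 : W_23 (nat_lit 4) (nat_lit 0x400000009000780008001000080000000000000000000000000000000) (nat_lit 0x0) (nat_lit 0x4000870014000000000000000000000000000000000000000) := T_23 (nat_lit 174) (nat_lit 194) (nat_lit 3) (nat_lit 4) (nat_lit 10) L14465 (by decide +kernel)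
theorem L14467 : W_23 (nat_lit 5) (nat_lit 0x400000001000780008001000080000000000000000000000000000000) (nat_lit 0x0) (nat_lit 0x1c000870014000000000000000000000000000000000000000) := T_23 (nat_lit 195) (nat_lit 196) (nat_lit 3) (nat_lit 5) (nat_lit 10) L14466 (by decide +kernel)
theorem L14468 : W_23 (nat_lit 6) (nat_lit 0x1000780008001000080000000000000000000000000000000) (nat_lit 0x0) (nat_lit 0x40002001c000870014000000000000000000000000000000000000000) := T_23 (nat_lit 226) (nat_lit 209) (nat_lit 6) (nat_lit 5) (nat_lit 13) L14467 (by decide +kernel)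
theorem L14469 : W_23 (nat_lit 2) (nat_lit 0x4000000090007e0008001000080000000000000000000000000000000) (nat_lit 0x0) (nat_lit 0x2000010004000000000000000000000000000000000000000) := D_23 (nat_lit 172) (nat_lit 158) (nat_lit 193) (nat_lit 2) (nat_lit 2) (nat_lit 10) (nat_lit 3) (nat_lit 2) (nat_lit 10) (by decide +kernel)
theorem L14470 : W_23 (nat_lit 3) (nat_lit 0x4000000090007c0008001000080000000000000000000000000000000) (nat_lit 0x0) (nat_lit 0x2000030014000000000000000000000000000000000000000) := T_23 (nat_lit 173) (nat_lit 160) (nat_lit 2) (nat_lit 3) (nat_lit 10) L14469 (by decide +kernel)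
theorem L14471 : W_23 (nat_lit 4) (nat_lit 0x400000009000780008001000080000000000000000000000000000000) (nat_lit 0x0) (nat_lit 0x6000070014000000000000000000000000000000000000000) := T_23 (nat_lit 174) (nat_lit 194) (nat_lit 3) (nat_lit 4) (nat_lit 10) L14470 (by decide +kernel)
theorem L14472 : W_23 (nat_lit 5) (nat_lit 0x400000001000780008001000080000000000000000000000000000000) (nat_lit 0x0) (nat_lit 0x1e000070014000000000000000000000000000000000000000) := T_23 (nat_lit 195) (nat_lit 196) (nat_lit 3) (nat_lit 5) (nat_lit 10) L14471 (by decide +kernel)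
theorem L14473 : W_23 (nat_lit 6) (nat_lit 0x1000780008001000080000000000000000000000000000000) (nat_lit 0x0) (nat_lit 0x40002001e000070014000000000000000000000000000000000000000) := T_23 (nat_lit 226) (nat_lit 209) (nat_lit 6) (nat_lit 5) (nat_lit 13) L14472 (by decide +kernel)
theorem L14474 : W_23 (nat_lit 2) (nat_lit 0x90007e0008001000080000000000000000000000000000000) (nat_lit 0x0) (nat_lit 0x2000810000000000000000000000000000000000000000000) := D_23 (nat_lit 193) (nat_lit 179) (nat_lit 172) (nat_lit 1) (nat_lit 9) (nat_lit 10) (nat_lit 3) (nat_lit 2) (nat_lit 10) (by decide +kernel)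
theorem L14475 : W_23 (nat_lit 3) (nat_lit 0x90007c0008001000080000000000000000000000000000000) (nat_lit 0x0) (nat_lit 0x2000830010000000000000000000000000000000000000000) := T_23 (nat_lit 173) (nat_lit 160) (nat_lit 2) (nat_lit 3) (nat_lit 10) L14474 (by decide +kernel)
theorem L14476 : W_23 (nat_lit 4) (nat_lit 0x9000780008001000080000000000000000000000000000000) (nat_lit 0x0) (nat_lit 0x6000870010000000000000000000000000000000000000000) := T_23 (nat_lit 174) (nat_lit 194) (nat_lit 3) (nat_lit 4) (nat_lit 10) L14475 (by decide +kernel)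
theorem L14477 : W_23 (nat_lit 5) (nat_lit 0x1000780008001000080000000000000000000000000000000) (nat_lit 0x0) (nat_lit 0x1e000870010000000000000000000000000000000000000000) := T_23 (nat_lit 195) (nat_lit 196) (nat_lit 3) (nat_lit 5) (nat_lit 10) L14476 (by decide +kernel)
theorem L14478 : W_23 (nat_lit 7) (nat_lit 0x1000380008001000080000000000000000000000000000000) (nat_lit 0x0) (nat_lit 0x40002001e000c70014000000000000000000000000000000000000000) := Q_23 (nat_lit 178) (C_23 L14463 (C_23 L14468 (C_23 L14473 (C_23 L14477 N_23)))) (by decide +kernel)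
theorem L14479 : W_23 (nat_lit 2) (nat_lit 0x10000000050003c00080010000a0000000000000000000000000000000) (nat_lit 0x0) (nat_lit 0x2000020010000000000000000000000000000000000000000) := D_23 (nat_lit 173) (nat_lit 193) (nat_lit 160) (nat_lit 3) (nat_lit 3) (nat_lit 10) (nat_lit 2) (nat_lit 3) (nat_lit 10) (by decide +kernel)
theorem L14480 : W_23 (nat_lit 3) (nat_lit 0x10000000050003800080010000a0000000000000000000000000000000) (nat_lit 0x0) (nat_lit 0xa000060010000000000000000000000000000000000000000) := T_23 (nat_lit 174) (nat_lit 195) (nat_lit 3) (nat_lit 4) (nat_lit 10) L14479 (by decide +kernel)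
theorem L14481 : W_23 (nat_lit 4) (nat_lit 0x50003800080010000a0000000000000000000000000000000) (nat_lit 0x0) (nat_lit 0x100008000a000060010000000000000000000000000000000000000000) := T_23 (nat_lit 228) (nat_lit 211) (nat_lit 4) (nat_lit 7) (nat_lit 13) L14480 (by decide +kernel)
theorem L14482 : W_23 (nat_lit 5) (nat_lit 0x5000380008001000080000000000000000000000000000000) (nat_lit 0x0) (nat_lit 0x100008000a000060010000400020000000000000000000000000000000) := T_23 (nat_lit 125) (nat_lit 142) (nat_lit 7) (nat_lit 6) (nat_lit 7) L14481 (by decide +kernel)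
theorem L14483 : W_23 (nat_lit 4) (nat_lit 0x50003c0008001000080000000000000000000000000000000) (nat_lit 0x0) (nat_lit 0x2000030005c00000000000000000000000000000000000000) := T_23 (nat_lit 173) (nat_lit 193) (nat_lit 3) (nat_lit 3) (nat_lit 10) L14446 (by decide +kernel)
theorem L14484 : W_23 (nat_lit 5) (nat_lit 0x5000380008001000080000000000000000000000000000000) (nat_lit 0x0) (nat_lit 0xa000070005c00000000000000000000000000000000000000) := T_23 (nat_lit 174) (nat_lit 195) (nat_lit 3) (nat_lit 4) (nat_lit 10) L14483 (by decide +kernel)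
theorem L14485 : W_23 (nat_lit 2) (nat_lit 0x5000380008001400080000000000000000000000000000000) (nat_lit 0x0) (nat_lit 0x1000080000000000010000000000000000000000000000000000000000) := D_23 (nat_lit 211) (nat_lit 228) (nat_lit 160) (nat_lit 4) (nat_lit 7) (nat_lit 13) (nat_lit 4) (nat_lit 7) (nat_lit 12) (by decide +kernel)
theorem L14486 : W_23 (nat_lit 3) (nat_lit 0x5000380008001000080000000000000000000000000000000) (nat_lit 0x0) (nat_lit 0x1000080000000000010000400020000000000000000000000000000000) := T_23 (nat_lit 142) (nat_lit 125) (nat_lit 7) (nat_lit 6) (nat_lit 7) L14485 (by decide +kernel)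
theorem L14487 : W_23 (nat_lit 6) (nat_lit 0x1000380008001000080000000000000000000000000000000) (nat_lit 0x0) (nat_lit 0x100008000e000070015c00400020000000000000000000000000000000) := Q_23 (nat_lit 194) (C_23 L14482 (C_23 L14484 (C_23 L14486 N_23))) (by decide +kernel)
theorem L14488 : W_23 (nat_lit 8) (nat_lit 0x1000380000001000080000000000000000000000000000000) (nat_lit 0x0) (nat_lit 0x14000a001e000c7001dc00400020000000000000000000000000000000) := Q_23 (nat_lit 159) (C_23 L14458 (C_23 L14460 (C_23 L14462 (C_23 L14478 (C_23 L14487 N_23))))) (by decide +kernel)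
theorem L14489 : W_23 (nat_lit 11) (nat_lit 0x380000001000080000000000000000000000000000000) (nat_lit 0x0) (nat_lit 0x16001b807ff01c701ddc00600020000000000000000000000000000000) := Q_23 (nat_lit 192) (C_23 L14428 (C_23 L14450 (C_23 L14456 (C_23 L14488 N_23)))) (by decide +kernel)
theorem L14490 : W_23 (nat_lit 14) (nat_lit 0x300000001000080000000000000000000000000000000) (nat_lit 0x0) (nat_lit 0x1c001f801f807ff81cf81dfe00700038000000000000000000000000000000) := Q_23 (nat_lit 175) (C_23 L13993 (C_23 L14403 (C_23 L13309 (C_23 L14420 (C_23 L12755 (C_23 L14427 (C_23 L14489 N_23))))))) (by decide +kernel)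
theorem L14491 : W_23 (nat_lit 2) (nat_lit 0x4000900078003c000a0010000a0000000000000000000000000000000) (nat_lit 0x0) (nat_lit 0xc000200000000000000000000000000000000000000000000000000000000) := D_23 (nat_lit 225) (nat_lit 243) (nat_lit 242) (nat_lit 7) (nat_lit 4) (nat_lit 10) (nat_lit 6) (nat_lit 4) (nat_lit 14) (by decide +kernel)
theorem L14492 : W_23 (nat_lit 3) (nat_lit 0x4000800078003c000a0010000a0000000000000000000000000000000) (nat_lit 0x0) (nat_lit 0xc000200018000000000000000000000000000000000000000000000000000) := T_23 (nat_lit 208) (nat_lit 207) (nat_lit 1) (nat_lit 7) (nat_lit 11) L14491 (by decide +kernel)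
theorem L14493 : W_23 (nat_lit 4) (nat_lit 0x4000800058003c000a0010000a0000000000000000000000000000000) (nat_lit 0x0) (nat_lit 0xc000200118002000000000000000000000000000000000000000000000000) := T_23 (nat_lit 193) (nat_lit 212) (nat_lit 3) (nat_lit 4) (nat_lit 11) L14492 (by decide +kernel)
theorem L14494 : W_23 (nat_lit 5) (nat_lit 0x4000800050003c000a0010000a0000000000000000000000000000000) (nat_lit 0x0) (nat_lit 0xc000200118002c00000000000000000000000000000000000000000000000) := T_23 (nat_lit 191) (nat_lit 190) (nat_lit 1) (nat_lit 7) (nat_lit 10) L14493 (by decide +kernel)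
theorem L14495 : W_23 (nat_lit 6) (nat_lit 0x4000000050003c000a0010000a0000000000000000000000000000000) (nat_lit 0x0) (nat_lit 0xc001200198002c00000000000000000000000000000000000000000000000) := T_23 (nat_lit 211) (nat_lit 228) (nat_lit 4) (nat_lit 7) (nat_lit 13) L14494 (by decide +kernel)
theorem L14496 : W_23 (nat_lit 7) (nat_lit 0x4000000010003c000a0010000a0000000000000000000000000000000) (nat_lit 0x0) (nat_lit 0xc00120019800ec00000000000000000000000000000000000000000000000) := T_23 (nat_lit 194) (nat_lit 195) (nat_lit 3) (nat_lit 4) (nat_lit 10) L14495 (by decide +kernel)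
theorem L14497 : W_23 (nat_lit 8) (nat_lit 0x10003c000a0010000a0000000000000000000000000000000) (nat_lit 0x0) (nat_lit 0xc0016001b800ec00000000000000000000000000000000000000000000000) := T_23 (nat_lit 226) (nat_lit 209) (nat_lit 6) (nat_lit 5) (nat_lit 13) L14496 (by decide +kernel)
theorem L14498 : W_23 (nat_lit 9) (nat_lit 0x10003c000a001000080000000000000000000000000000000) (nat_lit 0x0) (nat_lit 0xc0016001b800ec00000000000400020000000000000000000000000000000) := T_23 (nat_lit 125) (nat_lit 142) (nat_lit 5) (nat_lit 6) (nat_lit 7) L14497 (by decide +kernel)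
theorem L14499 : W_23 (nat_lit 10) (nat_lit 0x10003c0008001000080000000000000000000000000000000) (nat_lit 0x0) (nat_lit 0xc0016001b800ec00000003000400020000000000000000000000000000000) := T_23 (nat_lit 157) (nat_lit 156) (nat_lit 0) (nat_lit 7) (nat_lit 10) L14498 (by decide +kernel)
theorem L14500 : W_23 (nat_lit 11) (nat_lit 0x10003c0000001000080000000000000000000000000000000) (nat_lit 0x0) (nat_lit 0xc0016001b800ec0000000f000600020000000000000000000000000000000) := Q_23 (nat_lit 159) (C_23 L14391 (C_23 L14355 (C_23 L14384 (C_23 L14499 N_23)))) (by decide +kernel)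
theorem L14501 : W_23 (nat_lit 2) (nat_lit 0x4000900078003c00080010000a0000000000000000000000000000000) (nat_lit 0x0) (nat_lit 0xc000200000000000000000000000000000000000000000000000000000000) := D_23 (nat_lit 225) (nat_lit 242) (nat_lit 243) (nat_lit 6) (nat_lit 4) (nat_lit 14) (nat_lit 7) (nat_lit 4) (nat_lit 10) (by decide +kernel)
theorem L14502 : W_23 (nat_lit 3) (nat_lit 0x4000800078003c00080010000a0000000000000000000000000000000) (nat_lit 0x0) (nat_lit 0xc000200018000000000000000000000000000000000000000000000000000) := T_23 (nat_lit 208) (nat_lit 207) (nat_lit 1) (nat_lit 7) (nat_lit 11) L14501 (by decide +kernel)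
theorem L14503 : W_23 (nat_lit 4) (nat_lit 0x4000800058003c00080010000a0000000000000000000000000000000) (nat_lit 0x0) (nat_lit 0xc000200118002000000000000000000000000000000000000000000000000) := T_23 (nat_lit 193) (nat_lit 212) (nat_lit 3) (nat_lit 4) (nat_lit 11) L14502 (by decide +kernel)
theorem L14504 : W_23 (nat_lit 5) (nat_lit 0x800058003c00080010000a0000000000000000000000000000000) (nat_lit 0x0) (nat_lit 0xc000600138002000000000000000000000000000000000000000000000000) := T_23 (nat_lit 226) (nat_lit 209) (nat_lit 6) (nat_lit 5) (nat_lit 13) L14503 (by decide +kernel)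
theorem L14505 : W_23 (nat_lit 6) (nat_lit 0x58003c00080010000a0000000000000000000000000000000) (nat_lit 0x0) (nat_lit 0xc0016001b8002000000000000000000000000000000000000000000000000) := T_23 (nat_lit 211) (nat_lit 228) (nat_lit 4) (nat_lit 7) (nat_lit 13) L14504 (by decide +kernel)
theorem L14506 : W_23 (nat_lit 7) (nat_lit 0x18003c00080010000a0000000000000000000000000000000) (nat_lit 0x0) (nat_lit 0xc0016001b800e000000000000000000000000000000000000000000000000) := T_23 (nat_lit 194) (nat_lit 195) (nat_lit 3) (nat_lit 4) (nat_lit 10) L14505 (by decide +kernel)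
theorem L14507 : W_23 (nat_lit 8) (nat_lit 0x18003c0008001000080000000000000000000000000000000) (nat_lit 0x0) (nat_lit 0xc0016001b800e000000000000400020000000000000000000000000000000) := T_23 (nat_lit 125) (nat_lit 142) (nat_lit 5) (nat_lit 6) (nat_lit 7) L14506 (by decide +kernel)
theorem L14508 : W_23 (nat_lit 9) (nat_lit 0x10003c0008001000080000000000000000000000000000000) (nat_lit 0x0) (nat_lit 0xc0016001b800ec00000000000400020000000000000000000000000000000) := T_23 (nat_lit 191) (nat_lit 190) (nat_lit 1) (nat_lit 7) (nat_lit 10) L14507 (by decide +kernel)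
theorem L14509 : W_23 (nat_lit 10) (nat_lit 0x10003c0000001000080000000000000000000000000000000) (nat_lit 0x0) (nat_lit 0xc0016001b800ec0000000c000600020000000000000000000000000000000) := Q_23 (nat_lit 159) (C_23 L14391 (C_23 L14355 (C_23 L14384 (C_23 L14508 N_23)))) (by decide +kernel)
theorem L14510 : W_23 (nat_lit 12) (nat_lit 0x3c0000001000080000000000000000000000000000000) (nat_lit 0x0) (nat_lit 0xc0016001f800fc0000000f000700038000000000000000000000000000000) := Q_23 (nat_lit 192) (C_23 L14340 (C_23 L14344 (C_23 L14401 (C_23 L14500 (C_23 L14509 N_23))))) (by decide +kernel)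
theorem L14511 : W_23 (nat_lit 13) (nat_lit 0x380000001000080000000000000000000000000000000) (nat_lit 0x0) (nat_lit 0xc0016001f800ff0007000fc00700038000000000000000000000000000000) := Q_23 (nat_lit 174) (C_23 L14421 (C_23 L12701 (C_23 L14510 (C_23 L12738 (C_23 L12741 N_23))))) (by decide +kernel)
theorem L14512 : W_23 (nat_lit 7) (nat_lit 0x380000001000080000000000000000000000000000000) (nat_lit 0x0) (nat_lit 0x1001ef00470007c00200010000000000000000000000000000000) := Q_23 (nat_lit 174) (C_23 L14421 (C_23 L13263 (C_23 L13992 (C_23 L12741 N_23)))) (by decide +kernel)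
theorem L14518 : W_23 (nat_lit 2) (nat_lit 0x2003e0000801000080000000000000000000000000000000) (nat_lit 0x0) (nat_lit 0x100010000400000000000000000000000000000000000000) := D_23 (nat_lit 172) (nat_lit 188) (nat_lit 154) (nat_lit 1) (nat_lit 5) (nat_lit 10) (nat_lit 0) (nat_lit 5) (nat_lit 10) (by decide +kernel)
theorem L14519 : W_23 (nat_lit 3) (nat_lit 0x2003e0000001000080000000000000000000000000000000) (nat_lit 0x0) (nat_lit 0x100010001c00000000000000000000000000000000000000) := T_23 (nat_lit 155) (nat_lit 156) (nat_lit 0) (nat_lit 6) (nat_lit 10) L14518 (by decide +kernel)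
theorem L14520 : W_23 (nat_lit 4) (nat_lit 0x3e0000001000080000000000000000000000000000000) (nat_lit 0x0) (nat_lit 0x700010001c00000000000000000000000000000000000000) := T_23 (nat_lit 189) (nat_lit 190) (nat_lit 1) (nat_lit 6) (nat_lit 10) L14519 (by decide +kernel)
theorem L14521 : W_23 (nat_lit 2) (nat_lit 0x12003f0004801000080000000000000000000000000000000) (nat_lit 0x0) (nat_lit 0x408002000000000000000000000000000000000000000) := D_23 (nat_lit 157) (nat_lit 171) (nat_lit 178) (nat_lit 2) (nat_lit 1) (nat_lit 10) (nat_lit 0) (nat_lit 8) (nat_lit 10) (by decide +kernel)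
theorem L14522 : W_23 (nat_lit 3) (nat_lit 0x12003f0000801000080000000000000000000000000000000) (nat_lit 0x0) (nat_lit 0x40800e000000000000000000000000000000000000000) := T_23 (nat_lit 158) (nat_lit 159) (nat_lit 2) (nat_lit 2) (nat_lit 10) L14521 (by decide +kernel)
theorem L14523 : W_23 (nat_lit 4) (nat_lit 0x2003f0000801000080000000000000000000000000000000) (nat_lit 0x0) (nat_lit 0x300040800e000000000000000000000000000000000000000) := T_23 (nat_lit 192) (nat_lit 193) (nat_lit 3) (nat_lit 2) (nat_lit 10) L14522 (by decide +kernel)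
theorem L14524 : W_23 (nat_lit 5) (nat_lit 0x2003f0000001000080000000000000000000000000000000) (nat_lit 0x0) (nat_lit 0x300040800ec00000000000000000000000000000000000000) := T_23 (nat_lit 155) (nat_lit 154) (nat_lit 0) (nat_lit 5) (nat_lit 10) L14523 (by decide +kernel)
theorem L14525 : W_23 (nat_lit 6) (nat_lit 0x2003e0000001000080000000000000000000000000000000) (nat_lit 0x0) (nat_lit 0x310041800ec00000000000000000000000000000000000000) := T_23 (nat_lit 172) (nat_lit 188) (nat_lit 1) (nat_lit 5) (nat_lit 10) L14524 (by decide +kernel)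
theorem L14526 : W_23 (nat_lit 7) (nat_lit 0x3e0000001000080000000000000000000000000000000) (nat_lit 0x0) (nat_lit 0x370041800ec00000000000000000000000000000000000000) := T_23 (nat_lit 189) (nat_lit 190) (nat_lit 1) (nat_lit 6) (nat_lit 10) L14525 (by decide +kernel)
theorem L14527 : W_23 (nat_lit 2) (nat_lit 0x4003e0006001000080000000000000000000000000000000) (nat_lit 0x0) (nat_lit 0x18008000000000000000000000000000000000000000) := D_23 (nat_lit 172) (nat_lit 171) (nat_lit 159) (nat_lit 2) (nat_lit 1) (nat_lit 10) (nat_lit 2) (nat_lit 2) (nat_lit 10) (by decide +kernel)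
theorem L14528 : W_23 (nat_lit 3) (nat_lit 0x4003e0002001000080000000000000000000000000000000) (nat_lit 0x0) (nat_lit 0x41800c000000000000000000000000000000000000000) := T_23 (nat_lit 158) (nat_lit 178) (nat_lit 0) (nat_lit 8) (nat_lit 10) L14527 (by decide +kernel)
theorem L14529 : W_23 (nat_lit 4) (nat_lit 0x4003e0000001000080000000000000000000000000000000) (nat_lit 0x0) (nat_lit 0x41800f000000000000000000000000000000000000000) := T_23 (nat_lit 157) (nat_lit 156) (nat_lit 0) (nat_lit 7) (nat_lit 10) L14528 (by decide +kernel)
theorem L14530 : W_23 (nat_lit 5) (nat_lit 0x3e0000001000080000000000000000000000000000000) (nat_lit 0x0) (nat_lit 0x60041800f000000000000000000000000000000000000000) := T_23 (nat_lit 190) (nat_lit 189) (nat_lit 1) (nat_lit 6) (nat_lit 10) L14529 (by decide +kernel)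
theorem L14531 : W_23 (nat_lit 8) (nat_lit 0x3c0000001000080000000000000000000000000000000) (nat_lit 0x0) (nat_lit 0x370043800fc00000000000000000000000000000000000000) := Q_23 (nat_lit 173) (C_23 L13294 (C_23 L14520 (C_23 L14526 (C_23 L14530 N_23)))) (by decide +kernel)
theorem L14532 : W_23 (nat_lit 2) (nat_lit 0x42003f0004801000080000000000000000000000000000000) (nat_lit 0x0) (nat_lit 0x408002000000000000000000000000000000000000000) := D_23 (nat_lit 157) (nat_lit 171) (nat_lit 178) (nat_lit 2) (nat_lit 1) (nat_lit 10) (nat_lit 0) (nat_lit 8) (nat_lit 10) (by decide +kernel)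
theorem L14533 : W_23 (nat_lit 3) (nat_lit 0x42003f0000801000080000000000000000000000000000000) (nat_lit 0x0) (nat_lit 0x40800e000000000000000000000000000000000000000) := T_23 (nat_lit 158) (nat_lit 159) (nat_lit 2) (nat_lit 2) (nat_lit 10) L14532 (by decide +kernel)
theorem L14534 : W_23 (nat_lit 4) (nat_lit 0x42003f0000001000080000000000000000000000000000000) (nat_lit 0x0) (nat_lit 0x40800ec00000000000000000000000000000000000000) := T_23 (nat_lit 155) (nat_lit 154) (nat_lit 0) (nat_lit 5) (nat_lit 10) L14533 (by decide +kernel)
theorem L14535 : W_23 (nat_lit 5) (nat_lit 0x42003e0000001000080000000000000000000000000000000) (nat_lit 0x0) (nat_lit 0x10041800ec00000000000000000000000000000000000000) := T_23 (nat_lit 172) (nat_lit 188) (nat_lit 1) (nat_lit 5) (nat_lit 10) L14534 (by decide +kernel)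
theorem L14536 : W_23 (nat_lit 6) (nat_lit 0x40003e0000001000080000000000000000000000000000000) (nat_lit 0x0) (nat_lit 0x70041800ec00000000000000000000000000000000000000) := T_23 (nat_lit 189) (nat_lit 190) (nat_lit 1) (nat_lit 6) (nat_lit 10) L14535 (by decide +kernel)
theorem L14537 : W_23 (nat_lit 7) (nat_lit 0x40003c0000001000080000000000000000000000000000000) (nat_lit 0x0) (nat_lit 0x270043800ec00000000000000000000000000000000000000) := T_23 (nat_lit 173) (nat_lit 193) (nat_lit 3) (nat_lit 3) (nat_lit 10) L14536 (by decide +kernel)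
theorem L14538 : W_23 (nat_lit 8) (nat_lit 0x3c0000001000080000000000000000000000000000000) (nat_lit 0x0) (nat_lit 0xe70043800ec00000000000000000000000000000000000000) := T_23 (nat_lit 194) (nat_lit 195) (nat_lit 3) (nat_lit 4) (nat_lit 10) L14537 (by decide +kernel)
theorem L14539 : W_23 (nat_lit 9) (nat_lit 0x380000001000080000000000000000000000000000000) (nat_lit 0x0) (nat_lit 0x1f70047800fc00000000000000000000000000000000000000) := Q_23 (nat_lit 174) (C_23 L14421 (C_23 L14517 (C_23 L14531 (C_23 L13992 (C_23 L14538 N_23))))) (by decide +kernel)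
theorem L14540 : W_23 (nat_lit 2) (nat_lit 0x14003e0000801000080000000000000000000000000000000) (nat_lit 0x0) (nat_lit 0x2000010000400000000000000000000000000000000000000) := D_23 (nat_lit 172) (nat_lit 193) (nat_lit 154) (nat_lit 3) (nat_lit 2) (nat_lit 10) (nat_lit 0) (nat_lit 5) (nat_lit 10) (by decide +kernel)
theorem L14541 : W_23 (nat_lit 3) (nat_lit 0x14003e0000001000080000000000000000000000000000000) (nat_lit 0x0) (nat_lit 0x2000010001c00000000000000000000000000000000000000) := T_23 (nat_lit 155) (nat_lit 156) (nat_lit 0) (nat_lit 6) (nat_lit 10) L14540 (by decide +kernel)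
theorem L14542 : W_23 (nat_lit 4) (nat_lit 0x14003c0000001000080000000000000000000000000000000) (nat_lit 0x0) (nat_lit 0x2200030001c00000000000000000000000000000000000000) := T_23 (nat_lit 173) (nat_lit 189) (nat_lit 1) (nat_lit 6) (nat_lit 10) L14541 (by decide +kernel)
theorem L14543 : W_23 (nat_lit 5) (nat_lit 0x10003c0000001000080000000000000000000000000000000) (nat_lit 0x0) (nat_lit 0x2e00030001c00000000000000000000000000000000000000) := T_23 (nat_lit 190) (nat_lit 191) (nat_lit 1) (nat_lit 7) (nat_lit 10) L14542 (by decide +kernel)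
theorem L14544 : W_23 (nat_lit 2) (nat_lit 0x52003e0000801000080000000000000000000000000000000) (nat_lit 0x0) (nat_lit 0x100010000400000000000000000000000000000000000000) := D_23 (nat_lit 172) (nat_lit 188) (nat_lit 154) (nat_lit 1) (nat_lit 5) (nat_lit 10) (nat_lit 0) (nat_lit 5) (nat_lit 10) (by decide +kernel)
theorem L14545 : W_23 (nat_lit 3) (nat_lit 0x52003e0000001000080000000000000000000000000000000) (nat_lit 0x0) (nat_lit 0x100010001c00000000000000000000000000000000000000) := T_23 (nat_lit 155) (nat_lit 156) (nat_lit 0) (nat_lit 6) (nat_lit 10) L14544 (by decide +kernel)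
theorem L14546 : W_23 (nat_lit 4) (nat_lit 0x50003e0000001000080000000000000000000000000000000) (nat_lit 0x0) (nat_lit 0x700010001c00000000000000000000000000000000000000) := T_23 (nat_lit 189) (nat_lit 190) (nat_lit 1) (nat_lit 6) (nat_lit 10) L14545 (by decide +kernel)
theorem L14547 : W_23 (nat_lit 5) (nat_lit 0x50003c0000001000080000000000000000000000000000000) (nat_lit 0x0) (nat_lit 0x2700030001c00000000000000000000000000000000000000) := T_23 (nat_lit 173) (nat_lit 193) (nat_lit 3) (nat_lit 3) (nat_lit 10) L14546 (by decide +kernel)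
theorem L14548 : W_23 (nat_lit 6) (nat_lit 0x10003c0000001000080000000000000000000000000000000) (nat_lit 0x0) (nat_lit 0xe700030001c00000000000000000000000000000000000000) := T_23 (nat_lit 194) (nat_lit 195) (nat_lit 3) (nat_lit 4) (nat_lit 10) L14547 (by decide +kernel)
theorem L14549 : W_23 (nat_lit 2) (nat_lit 0x10003e0000001000080000000000000000000000000000000) (nat_lit 0x0) (nat_lit 0xe00000000000000000000000000000000000000000000000) := D_23 (nat_lit 190) (nat_lit 191) (nat_lit 189) (nat_lit 1) (nat_lit 7) (nat_lit 10) (nat_lit 1) (nat_lit 6) (nat_lit 10) (by decide +kernel)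
theorem L14550 : W_23 (nat_lit 5) (nat_lit 0x10003e0000001000080000000000000000000000000000000) (nat_lit 0x0) (nat_lit 0xc700010001c00000000000000000000000000000000000000) := T_23 (nat_lit 194) (nat_lit 195) (nat_lit 3) (nat_lit 4) (nat_lit 10) L14546 (by decide +kernel)
theorem L14551 : W_23 (nat_lit 2) (nat_lit 0x5a003f0004801000080000000000000000000000000000000) (nat_lit 0x0) (nat_lit 0x10000000000000000200010000000000000000000000000000000) := D_23 (nat_lit 141) (nat_lit 124) (nat_lit 208) (nat_lit 5) (nat_lit 5) (nat_lit 7) (nat_lit 5) (nat_lit 5) (nat_lit 8) (by decide +kernel)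
theorem L14552 : W_23 (nat_lit 3) (nat_lit 0x5a003f0000801000080000000000000000000000000000000) (nat_lit 0x0) (nat_lit 0x1000000000000c000200010000000000000000000000000000000) := T_23 (nat_lit 158) (nat_lit 159) (nat_lit 2) (nat_lit 2) (nat_lit 10) L14551 (by decide +kernel)
theorem L14553 : W_23 (nat_lit 4) (nat_lit 0x52003f0000801000080000000000000000000000000000000) (nat_lit 0x0) (nat_lit 0x1000080000800c000200010000000000000000000000000000000) := T_23 (nat_lit 191) (nat_lit 171) (nat_lit 3) (nat_lit 1) (nat_lit 10) L14552 (by decide +kernel)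
theorem L14554 : W_23 (nat_lit 5) (nat_lit 0x50003f0000801000080000000000000000000000000000000) (nat_lit 0x0) (nat_lit 0x10000b0000800c000200010000000000000000000000000000000) := T_23 (nat_lit 189) (nat_lit 188) (nat_lit 1) (nat_lit 5) (nat_lit 10) L14553 (by decide +kernel)
theorem L14555 : W_23 (nat_lit 6) (nat_lit 0x50003e0000801000080000000000000000000000000000000) (nat_lit 0x0) (nat_lit 0x10000b0001800c400200010000000000000000000000000000000) := T_23 (nat_lit 172) (nat_lit 154) (nat_lit 0) (nat_lit 5) (nat_lit 10) L14554 (by decide +kernel)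
theorem L14556 : W_23 (nat_lit 7) (nat_lit 0x10003e0000801000080000000000000000000000000000000) (nat_lit 0x0) (nat_lit 0x1000cb0001800c400200010000000000000000000000000000000) := T_23 (nat_lit 194) (nat_lit 195) (nat_lit 3) (nat_lit 4) (nat_lit 10) L14555 (by decide +kernel)
theorem L14557 : W_23 (nat_lit 8) (nat_lit 0x10003e0000001000080000000000000000000000000000000) (nat_lit 0x0) (nat_lit 0x1000cb0001800dc00200010000000000000000000000000000000) := T_23 (nat_lit 155) (nat_lit 156) (nat_lit 0) (nat_lit 6) (nat_lit 10) L14556 (by decide +kernel)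
theorem L14558 : W_23 (nat_lit 2) (nat_lit 0x58003f0005001000084000000000000000000000000000000) (nat_lit 0x0) (nat_lit 0x200010000000000000000200000000000000000000000000000000000) := D_23 (nat_lit 208) (nat_lit 225) (nat_lit 141) (nat_lit 6) (nat_lit 4) (nat_lit 13) (nat_lit 5) (nat_lit 5) (nat_lit 8) (by decide +kernel)
theorem L14559 : W_23 (nat_lit 3) (nat_lit 0x58003f0001001000084000000000000000000000000000000) (nat_lit 0x0) (nat_lit 0x20001000000000000c000200000000000000000000000000000000000) := T_23 (nat_lit 158) (nat_lit 159) (nat_lit 2) (nat_lit 2) (nat_lit 10) L14558 (by decide +kernel)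
theorem L14560 : W_23 (nat_lit 4) (nat_lit 0x58003f0001001000080000000000000000000000000000000) (nat_lit 0x0) (nat_lit 0x20001000000000000c000280004000000000000000000000000000000) := T_23 (nat_lit 122) (nat_lit 139) (nat_lit 7) (nat_lit 3) (nat_lit 7) L14559 (by decide +kernel)
theorem L14561 : W_23 (nat_lit 5) (nat_lit 0x58003e0001001000080000000000000000000000000000000) (nat_lit 0x0) (nat_lit 0x20001000000001800c000280004000000000000000000000000000000) := T_23 (nat_lit 172) (nat_lit 171) (nat_lit 3) (nat_lit 1) (nat_lit 10) L14560 (by decide +kernel)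
theorem L14562 : W_23 (nat_lit 6) (nat_lit 0x58003e0000001000080000000000000000000000000000000) (nat_lit 0x0) (nat_lit 0x20001000000001800d800280004000000000000000000000000000000) := T_23 (nat_lit 156) (nat_lit 155) (nat_lit 0) (nat_lit 6) (nat_lit 10) L14561 (by decide +kernel)
theorem L14563 : W_23 (nat_lit 7) (nat_lit 0x50003e0000001000080000000000000000000000000000000) (nat_lit 0x0) (nat_lit 0x200010000c0001800d800280004000000000000000000000000000000) := T_23 (nat_lit 191) (nat_lit 190) (nat_lit 1) (nat_lit 7) (nat_lit 10) L14562 (by decide +kernel)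
theorem L14564 : W_23 (nat_lit 8) (nat_lit 0x10003e0000001000080000000000000000000000000000000) (nat_lit 0x0) (nat_lit 0x20001000cc0001800d800280004000000000000000000000000000000) := T_23 (nat_lit 194) (nat_lit 195) (nat_lit 3) (nat_lit 4) (nat_lit 10) L14563 (by decide +kernel)
theorem L14565 : W_23 (nat_lit 9) (nat_lit 0x10003c0000001000080000000000000000000000000000000) (nat_lit 0x0) (nat_lit 0x20001000cf0003800dc00280014000000000000000000000000000000) := Q_23 (nat_lit 173) (C_23 L14549 (C_23 L14550 (C_23 L14557 (C_23 L14564 N_23)))) (by decide +kernel)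
theorem L14566 : W_23 (nat_lit 7) (nat_lit 0x50003e0000001000080000000000000000000000000000000) (nat_lit 0x0) (nat_lit 0x10000b0001800dc00200010000000000000000000000000000000) := T_23 (nat_lit 155) (nat_lit 156) (nat_lit 0) (nat_lit 6) (nat_lit 10) L14555 (by decide +kernel)
theorem L14567 : W_23 (nat_lit 8) (nat_lit 0x50003c0000001000080000000000000000000000000000000) (nat_lit 0x0) (nat_lit 0x10002b0003800dc00200010000000000000000000000000000000) := T_23 (nat_lit 173) (nat_lit 193) (nat_lit 3) (nat_lit 3) (nat_lit 10) L14566 (by decide +kernel)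
theorem L14568 : W_23 (nat_lit 9) (nat_lit 0x10003c0000001000080000000000000000000000000000000) (nat_lit 0x0) (nat_lit 0x1000eb0003800dc00200010000000000000000000000000000000) := T_23 (nat_lit 194) (nat_lit 195) (nat_lit 3) (nat_lit 4) (nat_lit 10) L14567 (by decide +kernel)
theorem L14569 : W_23 (nat_lit 11) (nat_lit 0x1000380000001000080000000000000000000000000000000) (nat_lit 0x0) (nat_lit 0xc0016001b800ef0007800dc00680034000000000000000000000000000000) := Q_23 (nat_lit 174) (C_23 L14543 (C_23 L14548 (C_23 L14565 (C_23 L14509 (C_23 L14568 N_23))))) (by decide +kernel)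
theorem L14571 : W_23 (nat_lit 3) (nat_lit 0x1000380000001000080000000000000000000000000000000) (nat_lit 0x0) (nat_lit 0xe00440000000000000000000000000000000000000000000) := T_23 (nat_lit 191) (nat_lit 178) (nat_lit 1) (nat_lit 8) (nat_lit 10) L14570 (by decide +kernel)
theorem L14572 : W_23 (nat_lit 6) (nat_lit 0x400000009000780008001000080000000000000000000000000000000) (nat_lit 0x0) (nat_lit 0x10000800040038401c4000000000000000000000000000000000000000) := T_23 (nat_lit 194) (nat_lit 174) (nat_lit 3) (nat_lit 4) (nat_lit 10) L14171 (by decide +kernel)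
theorem L14573 : W_23 (nat_lit 7) (nat_lit 0x400000001000780008001000080000000000000000000000000000000) (nat_lit 0x0) (nat_lit 0x100008001c0038401c4000000000000000000000000000000000000000) := T_23 (nat_lit 195) (nat_lit 196) (nat_lit 3) (nat_lit 5) (nat_lit 10) L14572 (by decide +kernel)
theorem L14574 : W_23 (nat_lit 8) (nat_lit 0x1000780008001000080000000000000000000000000000000) (nat_lit 0x0) (nat_lit 0x14000a001c0038401c4000000000000000000000000000000000000000) := T_23 (nat_lit 226) (nat_lit 209) (nat_lit 6) (nat_lit 5) (nat_lit 13) L14573 (by decide +kernel)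
theorem L14579 : W_23 (nat_lit 6) (nat_lit 0x20009000780008001000080000000000000000000000000000000) (nat_lit 0x0) (nat_lit 0x60003000390006000040000000000000000000000000000000000000000000) := T_23 (nat_lit 194) (nat_lit 174) (nat_lit 3) (nat_lit 4) (nat_lit 10) L14578 (by decide +kernel)
theorem L14580 : W_23 (nat_lit 7) (nat_lit 0x20001000780008001000080000000000000000000000000000000) (nat_lit 0x0) (nat_lit 0x6000300039001e000040000000000000000000000000000000000000000000) := T_23 (nat_lit 195) (nat_lit 196) (nat_lit 3) (nat_lit 5) (nat_lit 10) L14579 (by decide +kernel)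
theorem L14581 : W_23 (nat_lit 8) (nat_lit 0x1000780008001000080000000000000000000000000000000) (nat_lit 0x0) (nat_lit 0x600034003b001e000040000000000000000000000000000000000000000000) := T_23 (nat_lit 209) (nat_lit 226) (nat_lit 6) (nat_lit 5) (nat_lit 13) L14580 (by decide +kernel)
theorem L14582 : W_23 (nat_lit 9) (nat_lit 0x1000380008001000080000000000000000000000000000000) (nat_lit 0x0) (nat_lit 0x600034003b001e003c401c4000000000000000000000000000000000000000) := Q_23 (nat_lit 178) (C_23 L14463 (C_23 L14574 (C_23 L14581 N_23))) (by decide +kernel)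
theorem L14583 : W_23 (nat_lit 2) (nat_lit 0x5000380008001400080000000000000000000000000000000) (nat_lit 0x0) (nat_lit 0x1000080002000000000000000000000000000000000000000000000000) := D_23 (nat_lit 211) (nat_lit 228) (nat_lit 193) (nat_lit 4) (nat_lit 7) (nat_lit 13) (nat_lit 7) (nat_lit 6) (nat_lit 8) (by decide +kernel)
theorem L14584 : W_23 (nat_lit 3) (nat_lit 0x5000380008001000080000000000000000000000000000000) (nat_lit 0x0) (nat_lit 0x1000080002000000000000400020000000000000000000000000000000) := T_23 (nat_lit 142) (nat_lit 125) (nat_lit 7) (nat_lit 6) (nat_lit 7) L14583 (by decide +kernel)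
theorem L14585 : W_23 (nat_lit 2) (nat_lit 0x100000000d000380008001000080000000000000000000000000000000) (nat_lit 0x0) (nat_lit 0x30000400000000000000000000000000000000000000000000) := D_23 (nat_lit 196) (nat_lit 197) (nat_lit 178) (nat_lit 0) (nat_lit 10) (nat_lit 11) (nat_lit 3) (nat_lit 5) (nat_lit 10) (by decide +kernel)
theorem L14586 : W_23 (nat_lit 3) (nat_lit 0x1000000005000380008001000080000000000000000000000000000000) (nat_lit 0x0) (nat_lit 0x38000440000000000000000000000000000000000000000000) := T_23 (nat_lit 195) (nat_lit 174) (nat_lit 3) (nat_lit 4) (nat_lit 10) L14585 (by decide +kernel)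
theorem L14587 : W_23 (nat_lit 4) (nat_lit 0x5000380008001000080000000000000000000000000000000) (nat_lit 0x0) (nat_lit 0x1000080038000440000000000000000000000000000000000000000000) := T_23 (nat_lit 228) (nat_lit 211) (nat_lit 4) (nat_lit 7) (nat_lit 13) L14586 (by decide +kernel)
theorem L14588 : W_23 (nat_lit 6) (nat_lit 0x1000380008001000080000000000000000000000000000000) (nat_lit 0x0) (nat_lit 0x100008003e000470005c00400020000000000000000000000000000000) := Q_23 (nat_lit 194) (C_23 L14484 (C_23 L14584 (C_23 L14587 N_23))) (by decide +kernel)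
theorem L14589 : W_23 (nat_lit 10) (nat_lit 0x1000380000001000080000000000000000000000000000000) (nat_lit 0x0) (nat_lit 0x600034003b003e003c701cdc00400020000000000000000000000000000000) := Q_23 (nat_lit 159) (C_23 L14462 (C_23 L14460 (C_23 L14458 (C_23 L14582 (C_23 L14588 N_23))))) (by decide +kernel)
theorem L14590 : W_23 (nat_lit 12) (nat_lit 0x380000001000080000000000000000000000000000000) (nat_lit 0x0) (nat_lit 0x6c0036003b807ff03c781cdc00680034000000000000000000000000000000) := Q_23 (nat_lit 192) (C_23 L14428 (C_23 L14569 (C_23 L14571 (C_23 L14589 N_23)))) (by decide +kernel)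
theorem L14591 : W_23 (nat_lit 14) (nat_lit 0x300000001000080000000000000000000000000000000) (nat_lit 0x0) (nat_lit 0x6c0036003f807ff03cf81cfc00f8017c001c00000000000000000000000000) := Q_23 (nat_lit 175) (C_23 L13993 (C_23 L14511 (C_23 L12683 (C_23 L14512 (C_23 L13310 (C_23 L12755 (C_23 L14539 (C_23 L14590 N_23)))))))) (by decide +kernel)
theorem L14592 : W_23 (nat_lit 7) (nat_lit 0x3c0002001800080000000000000000000000000000000) (nat_lit 0x0) (nat_lit 0xc000400004000600078001c00000000000000000000000000) := T_23 (nat_lit 194) (nat_lit 195) (nat_lit 3) (nat_lit 4) (nat_lit 10) L12896 (by decide +kernel)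
theorem L14593 : W_23 (nat_lit 8) (nat_lit 0x3c0000001800080000000000000000000000000000000) (nat_lit 0x0) (nat_lit 0xc000400007000600078001c00000000000000000000000000) := T_23 (nat_lit 157) (nat_lit 156) (nat_lit 0) (nat_lit 7) (nat_lit 10) L14592 (by decide +kernel)
theorem L14594 : W_23 (nat_lit 2) (nat_lit 0x44003c0000001800080000000000000000000000000000000) (nat_lit 0x0) (nat_lit 0x2200020000000000000000000000000000000000000000000) := D_23 (nat_lit 173) (nat_lit 193) (nat_lit 189) (nat_lit 3) (nat_lit 3) (nat_lit 10) (nat_lit 1) (nat_lit 6) (nat_lit 10) (by decide +kernel)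
theorem L14595 : W_23 (nat_lit 3) (nat_lit 0x4003c0000001800080000000000000000000000000000000) (nat_lit 0x0) (nat_lit 0xe200020000000000000000000000000000000000000000000) := T_23 (nat_lit 194) (nat_lit 195) (nat_lit 3) (nat_lit 4) (nat_lit 10) L14594 (by decide +kernel)
theorem L14596 : W_23 (nat_lit 4) (nat_lit 0x3c0000001800080000000000000000000000000000000) (nat_lit 0x0) (nat_lit 0xee00020000000000000000000000000000000000000000000) := T_23 (nat_lit 190) (nat_lit 191) (nat_lit 1) (nat_lit 7) (nat_lit 10) L14595 (by decide +kernel)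
theorem L14597 : W_23 (nat_lit 9) (nat_lit 0x380000001800080000000000000000000000000000000) (nat_lit 0x0) (nat_lit 0xee00460007800600078001c00000000000000000000000000) := Q_23 (nat_lit 174) (C_23 L13467 (C_23 L14593 (C_23 L14596 N_23))) (by decide +kernel)
theorem L14598 : W_23 (nat_lit 2) (nat_lit 0x42003f0002001800080000000000000000000000000000000) (nat_lit 0x0) (nat_lit 0x800c000000000000000000000000000000000000000) := D_23 (nat_lit 158) (nat_lit 171) (nat_lit 159) (nat_lit 2) (nat_lit 1) (nat_lit 10) (nat_lit 2) (nat_lit 2) (nat_lit 10) (by decide +kernel)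
theorem L14599 : W_23 (nat_lit 3) (nat_lit 0x42003e0002001800080000000000000000000000000000000) (nat_lit 0x0) (nat_lit 0x10001800c000000000000000000000000000000000000000) := T_23 (nat_lit 172) (nat_lit 188) (nat_lit 1) (nat_lit 5) (nat_lit 10) L14598 (by decide +kernel)
theorem L14600 : W_23 (nat_lit 4) (nat_lit 0x40003e0002001800080000000000000000000000000000000) (nat_lit 0x0) (nat_lit 0x70001800c000000000000000000000000000000000000000) := T_23 (nat_lit 189) (nat_lit 190) (nat_lit 1) (nat_lit 6) (nat_lit 10) L14599 (by decide +kernel)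
theorem L14601 : W_23 (nat_lit 5) (nat_lit 0x40003c0002001800080000000000000000000000000000000) (nat_lit 0x0) (nat_lit 0x270003800c000000000000000000000000000000000000000) := T_23 (nat_lit 173) (nat_lit 193) (nat_lit 3) (nat_lit 3) (nat_lit 10) L14600 (by decide +kernel)
theorem L14602 : W_23 (nat_lit 6) (nat_lit 0x3c0002001800080000000000000000000000000000000) (nat_lit 0x0) (nat_lit 0xe70003800c000000000000000000000000000000000000000) := T_23 (nat_lit 194) (nat_lit 195) (nat_lit 3) (nat_lit 4) (nat_lit 10) L14601 (by decide +kernel)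
theorem L14603 : W_23 (nat_lit 7) (nat_lit 0x3c0000001800080000000000000000000000000000000) (nat_lit 0x0) (nat_lit 0xe70003800f000000000000000000000000000000000000000) := T_23 (nat_lit 157) (nat_lit 156) (nat_lit 0) (nat_lit 7) (nat_lit 10) L14602 (by decide +kernel)
theorem L14604 : W_23 (nat_lit 2) (nat_lit 0x40003e0000001800080000000000000000000000000000000) (nat_lit 0x0) (nat_lit 0x3800000000000000000000000000000000000000) := D_23 (nat_lit 156) (nat_lit 155) (nat_lit 157) (nat_lit 0) (nat_lit 6) (nat_lit 10) (nat_lit 0) (nat_lit 7) (nat_lit 10) (by decide +kernel)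
theorem L14605 : W_23 (nat_lit 3) (nat_lit 0x40003c0000001800080000000000000000000000000000000) (nat_lit 0x0) (nat_lit 0x2000020003800000000000000000000000000000000000000) := T_23 (nat_lit 173) (nat_lit 193) (nat_lit 3) (nat_lit 3) (nat_lit 10) L14604 (by decide +kernel)
theorem L14606 : W_23 (nat_lit 4) (nat_lit 0x3c0000001800080000000000000000000000000000000) (nat_lit 0x0) (nat_lit 0xe000020003800000000000000000000000000000000000000) := T_23 (nat_lit 194) (nat_lit 195) (nat_lit 3) (nat_lit 4) (nat_lit 10) L14605 (by decide +kernel)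
theorem L14607 : W_23 (nat_lit 8) (nat_lit 0x380000001800080000000000000000000000000000000) (nat_lit 0x0) (nat_lit 0xef0007800f80070015c000000000000000000000000000000) := Q_23 (nat_lit 174) (C_23 L13467 (C_23 L14603 (C_23 L12726 (C_23 L14596 (C_23 L14606 N_23))))) (by decide +kernel)
theorem L14608 : W_23 (nat_lit 2) (nat_lit 0x380000001f00080000000000000000000000000000000) (nat_lit 0x0) (nat_lit 0x7000000000000000000000000000000000000000) := D_23 (nat_lit 157) (nat_lit 156) (nat_lit 158) (nat_lit 1) (nat_lit 7) (nat_lit 8) (nat_lit 1) (nat_lit 8) (nat_lit 8) (by decide +kernel)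
theorem L14609 : W_23 (nat_lit 3) (nat_lit 0x380000001e00080000000000000000000000000000000) (nat_lit 0x0) (nat_lit 0x7000100040000000000000000000000000000000) := T_23 (nat_lit 140) (nat_lit 126) (nat_lit 2) (nat_lit 4) (nat_lit 8) L14608 (by decide +kernel)
theorem L14610 : W_23 (nat_lit 4) (nat_lit 0x380000001c00080000000000000000000000000000000) (nat_lit 0x0) (nat_lit 0x7000300140000000000000000000000000000000) := T_23 (nat_lit 141) (nat_lit 128) (nat_lit 2) (nat_lit 5) (nat_lit 8) L14609 (by decide +kernel)
theorem L14611 : W_23 (nat_lit 2) (nat_lit 0x380004001e00080000000000000000000000000000000) (nat_lit 0x0) (nat_lit 0x2000000000000000018000000000000000000000000000000) := D_23 (nat_lit 124) (nat_lit 193) (nat_lit 123) (nat_lit 7) (nat_lit 5) (nat_lit 7) (nat_lit 0) (nat_lit 8) (nat_lit 8) (by decide +kernel)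
theorem L14612 : W_23 (nat_lit 3) (nat_lit 0x380000001e00080000000000000000000000000000000) (nat_lit 0x0) (nat_lit 0x2000000006000000018000000000000000000000000000000) := T_23 (nat_lit 158) (nat_lit 157) (nat_lit 1) (nat_lit 8) (nat_lit 8) L14611 (by decide +kernel)
theorem L14613 : W_23 (nat_lit 4) (nat_lit 0x380000001c00080000000000000000000000000000000) (nat_lit 0x0) (nat_lit 0x2000000006000200118000000000000000000000000000000) := T_23 (nat_lit 141) (nat_lit 128) (nat_lit 2) (nat_lit 5) (nat_lit 8) L14612 (by decide +kernel)
theorem L14614 : W_23 (nat_lit 4) (nat_lit 0x380008001c00080000000000000000000000000000000) (nat_lit 0x0) (nat_lit 0x4000000004000000030001800040000000000000000000000) := T_23 (nat_lit 125) (nat_lit 194) (nat_lit 7) (nat_lit 6) (nat_lit 7) L12513 (by decide +kernel)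
theorem L14616 : W_23 (nat_lit 3) (nat_lit 0x2000380008001c00080000000000000000000000000000000) (nat_lit 0x0) (nat_lit 0x40000000000006000200010000000000000000000000000000000) := T_23 (nat_lit 141) (nat_lit 124) (nat_lit 4) (nat_lit 6) (nat_lit 11) L14615 (by decide +kernel)
theorem L14617 : W_23 (nat_lit 4) (nat_lit 0x380008001c00080000000000000000000000000000000) (nat_lit 0x0) (nat_lit 0x40002000000006000200050000000000000000000000000000000) := T_23 (nat_lit 193) (nat_lit 126) (nat_lit 6) (nat_lit 6) (nat_lit 11) L14616 (by decide +kernel)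
theorem L14618 : W_23 (nat_lit 2) (nat_lit 0x2000380008001c00080000000000000000000000000000000) (nat_lit 0x0) (nat_lit 0x80004000000000000000020000000000000000000000000000000) := D_23 (nat_lit 194) (nat_lit 125) (nat_lit 211) (nat_lit 7) (nat_lit 6) (nat_lit 7) (nat_lit 7) (nat_lit 6) (nat_lit 8) (by decide +kernel)
theorem L14619 : W_23 (nat_lit 3) (nat_lit 0x380008001c00080000000000000000000000000000000) (nat_lit 0x0) (nat_lit 0x80006000000000000000060000000000000000000000000000000) := T_23 (nat_lit 193) (nat_lit 126) (nat_lit 6) (nat_lit 6) (nat_lit 11) L14618 (by decide +kernel)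
theorem L14620 : W_23 (nat_lit 5) (nat_lit 0x380000001c00080000000000000000000000000000000) (nat_lit 0x0) (nat_lit 0xc000600000000e000200070001800040000000000000000000000) := Q_23 (nat_lit 159) (C_23 L14614 (C_23 L14617 (C_23 L14619 N_23))) (by decide +kernel)
theorem L14623 : W_23 (nat_lit 4) (nat_lit 0x380000001c00080000000000000000000000000000000) (nat_lit 0x0) (nat_lit 0x30015c000000000000000000000000000000) := T_23 (nat_lit 141) (nat_lit 128) (nat_lit 2) (nat_lit 5) (nat_lit 8) L14622 (by decide +kernel)
theorem L14624 : W_23 (nat_lit 3) (nat_lit 0x380008001c00080000000000000000000000000000000) (nat_lit 0x0) (nat_lit 0x2000000000000000060002000100000000000000000000000) := T_23 (nat_lit 126) (nat_lit 193) (nat_lit 6) (nat_lit 6) (nat_lit 11) L13356 (by decide +kernel)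
theorem L14625 : W_23 (nat_lit 2) (nat_lit 0x500068003c000e001c00080000000000000000000000000000000) (nat_lit 0x0) (nat_lit 0x400028000000000000000000000000000000000000000000000000000) := D_23 (nat_lit 209) (nat_lit 226) (nat_lit 207) (nat_lit 7) (nat_lit 4) (nat_lit 9) (nat_lit 2) (nat_lit 3) (nat_lit 12) (by decide +kernel)
theorem L14626 : W_23 (nat_lit 3) (nat_lit 0x100068003c000e001c00080000000000000000000000000000000) (nat_lit 0x0) (nat_lit 0xc00068000000000000000000000000000000000000000000000000000) := T_23 (nat_lit 210) (nat_lit 227) (nat_lit 4) (nat_lit 6) (nat_lit 13) L14625 (by decide +kernel)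
theorem L14627 : W_23 (nat_lit 4) (nat_lit 0x68003c000e001c00080000000000000000000000000000000) (nat_lit 0x0) (nat_lit 0xe00078000000000000000000000000000000000000000000000000000) := T_23 (nat_lit 208) (nat_lit 225) (nat_lit 6) (nat_lit 4) (nat_lit 13) L14626 (by decide +kernel)
theorem L14628 : W_23 (nat_lit 5) (nat_lit 0x68003c000a001c00080000000000000000000000000000000) (nat_lit 0x0) (nat_lit 0xe00078000000400004000000000000000000000000000000000000000) := T_23 (nat_lit 158) (nat_lit 178) (nat_lit 0) (nat_lit 8) (nat_lit 10) L14627 (by decide +kernel)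
theorem L14629 : W_23 (nat_lit 6) (nat_lit 0x68003c0008001c00080000000000000000000000000000000) (nat_lit 0x0) (nat_lit 0xe00078000000400007000000000000000000000000000000000000000) := T_23 (nat_lit 157) (nat_lit 156) (nat_lit 0) (nat_lit 7) (nat_lit 10) L14628 (by decide +kernel)
theorem L14630 : W_23 (nat_lit 7) (nat_lit 0x60003c0008001c00080000000000000000000000000000000) (nat_lit 0x0) (nat_lit 0xe00078000c00400007000000000000000000000000000000000000000) := T_23 (nat_lit 191) (nat_lit 190) (nat_lit 1) (nat_lit 7) (nat_lit 10) L14629 (by decide +kernel)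
theorem L14631 : W_23 (nat_lit 8) (nat_lit 0x6000380008001c00080000000000000000000000000000000) (nat_lit 0x0) (nat_lit 0xe00078000c00460007000000000000000000000000000000000000000) := T_23 (nat_lit 174) (nat_lit 173) (nat_lit 3) (nat_lit 3) (nat_lit 10) L14630 (by decide +kernel)
theorem L14632 : W_23 (nat_lit 9) (nat_lit 0x2000380008001c00080000000000000000000000000000000) (nat_lit 0x0) (nat_lit 0xe000f8004c00460007000000000000000000000000000000000000000) := T_23 (nat_lit 194) (nat_lit 211) (nat_lit 7) (nat_lit 6) (nat_lit 8) L14631 (by decide +kernel)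
theorem L14633 : W_23 (nat_lit 10) (nat_lit 0x380008001c00080000000000000000000000000000000) (nat_lit 0x0) (nat_lit 0xe000f8006c00460007000000040000000000000000000000000000000) := T_23 (nat_lit 193) (nat_lit 126) (nat_lit 6) (nat_lit 6) (nat_lit 11) L14632 (by decide +kernel)
theorem L14634 : W_23 (nat_lit 11) (nat_lit 0x380000001c00080000000000000000000000000000000) (nat_lit 0x0) (nat_lit 0xe000f8006c0046000f000000070003800140000000000000000000000) := Q_23 (nat_lit 159) (C_23 L14614 (C_23 L14619 (C_23 L14624 (C_23 L14633 N_23)))) (by decide +kernel)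
theorem L14635 : W_23 (nat_lit 12) (nat_lit 0x380000001800080000000000000000000000000000000) (nat_lit 0x0) (nat_lit 0xe000f8006c0046000f00070017c003800140000000000000000000000) := Q_23 (nat_lit 142) (C_23 L14610 (C_23 L14613 (C_23 L14620 (C_23 L14623 (C_23 L14634 N_23))))) (by decide +kernel)
theorem L14636 : W_23 (nat_lit 2) (nat_lit 0xf80004001800080000000000000000000000000000000) (nat_lit 0x0) (nat_lit 0x38000000000000000000000000000000000000000000000000) := D_23 (nat_lit 196) (nat_lit 195) (nat_lit 197) (nat_lit 3) (nat_lit 5) (nat_lit 10) (nat_lit 3) (nat_lit 6) (nat_lit 10) (by decide +kernel)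
theorem L14637 : W_23 (nat_lit 3) (nat_lit 0x780004001800080000000000000000000000000000000) (nat_lit 0x0) (nat_lit 0x38000800008000000000000000000000000000000000000000) := T_23 (nat_lit 179) (nat_lit 159) (nat_lit 0) (nat_lit 9) (nat_lit 10) L14636 (by decide +kernel)
theorem L14638 : W_23 (nat_lit 4) (nat_lit 0x380004001800080000000000000000000000000000000) (nat_lit 0x0) (nat_lit 0x38000c0000a000000000000000000000000000000000000000) := T_23 (nat_lit 178) (nat_lit 157) (nat_lit 0) (nat_lit 8) (nat_lit 10) L14637 (by decide +kernel)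
theorem L14639 : W_23 (nat_lit 2) (nat_lit 0x380004001a00080000000000000000000000000000000) (nat_lit 0x0) (nat_lit 0x2000400100000000000000000000000000000000) := D_23 (nat_lit 142) (nat_lit 157) (nat_lit 128) (nat_lit 1) (nat_lit 8) (nat_lit 8) (nat_lit 2) (nat_lit 5) (nat_lit 8) (by decide +kernel)
theorem L14640 : W_23 (nat_lit 3) (nat_lit 0x380004001a00080000000000000000000000000000000) (nat_lit 0x0) (nat_lit 0x2000000002000400018000000000000000000000000000000) := T_23 (nat_lit 142) (nat_lit 157) (nat_lit 1) (nat_lit 8) (nat_lit 8) L14611 (by decide +kernel)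
theorem L14644 : W_23 (nat_lit 5) (nat_lit 0x380004001800080000000000000000000000000000000) (nat_lit 0x0) (nat_lit 0x200000000a000600138001800080000000000000000000000) := Q_23 (nat_lit 141) (C_23 L14639 (C_23 L14640 (C_23 L14643 N_23))) (by decide +kernel)
theorem L14649 : W_23 (nat_lit 6) (nat_lit 0x10000f80004001800080000000000000000000000000000000) (nat_lit 0x0) (nat_lit 0x10001c0004600740000000000000000000000000000000) := T_23 (nat_lit 163) (nat_lit 162) (nat_lit 2) (nat_lit 6) (nat_lit 10) L14648 (by decide +kernel)
theorem L14650 : W_23 (nat_lit 7) (nat_lit 0x10000780004001800080000000000000000000000000000000) (nat_lit 0x0) (nat_lit 0x200018001c0004600740000000000000000000000000000000) := T_23 (nat_lit 179) (nat_lit 197) (nat_lit 3) (nat_lit 6) (nat_lit 10) L14649 (by decide +kernel)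
theorem L14651 : W_23 (nat_lit 8) (nat_lit 0x780004001800080000000000000000000000000000000) (nat_lit 0x0) (nat_lit 0x380018001c0004600740000000000000000000000000000000) := T_23 (nat_lit 196) (nat_lit 195) (nat_lit 3) (nat_lit 5) (nat_lit 10) L14650 (by decide +kernel)
theorem L14652 : W_23 (nat_lit 9) (nat_lit 0x380004001800080000000000000000000000000000000) (nat_lit 0x0) (nat_lit 0x38001c001c2004600740000000000000000000000000000000) := T_23 (nat_lit 178) (nat_lit 157) (nat_lit 0) (nat_lit 8) (nat_lit 10) L14651 (by decide +kernel)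
theorem L14653 : W_23 (nat_lit 3) (nat_lit 0x380004001a00080000000000000000000000000000000) (nat_lit 0x0) (nat_lit 0x2000000000000400118000000000000000000000000000000) := T_23 (nat_lit 142) (nat_lit 128) (nat_lit 2) (nat_lit 5) (nat_lit 8) L14611 (by decide +kernel)
theorem L14654 : W_23 (nat_lit 2) (nat_lit 0x380004001f00080000000000000000000000000000000) (nat_lit 0x0) (nat_lit 0x1c000000000000000000000000000000) := D_23 (nat_lit 123) (nat_lit 122) (nat_lit 124) (nat_lit 0) (nat_lit 7) (nat_lit 8) (nat_lit 0) (nat_lit 8) (nat_lit 8) (by decide +kernel)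
theorem L14655 : W_23 (nat_lit 3) (nat_lit 0x380004001e00080000000000000000000000000000000) (nat_lit 0x0) (nat_lit 0x10005c000000000000000000000000000000) := T_23 (nat_lit 140) (nat_lit 126) (nat_lit 2) (nat_lit 4) (nat_lit 8) L14654 (by decide +kernel)
theorem L14656 : W_23 (nat_lit 4) (nat_lit 0x380004001a00080000000000000000000000000000000) (nat_lit 0x0) (nat_lit 0x50015c000000000000000000000000000000) := T_23 (nat_lit 142) (nat_lit 128) (nat_lit 2) (nat_lit 5) (nat_lit 8) L14655 (by decide +kernel)
theorem L14657 : W_23 (nat_lit 2) (nat_lit 0x380004801f80084000000000000000000000000000000) (nat_lit 0x0) (nat_lit 0x8400040000000000000000000000000000000000) := D_23 (nat_lit 138) (nat_lit 159) (nat_lit 154) (nat_lit 3) (nat_lit 2) (nat_lit 8) (nat_lit 1) (nat_lit 5) (nat_lit 8) (by decide +kernel)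
theorem L14658 : W_23 (nat_lit 3) (nat_lit 0x380004001f80084000000000000000000000000000000) (nat_lit 0x0) (nat_lit 0x9c00040000000000000000000000000000000000) := T_23 (nat_lit 155) (nat_lit 156) (nat_lit 1) (nat_lit 6) (nat_lit 8) L14657 (by decide +kernel)
theorem L14659 : W_23 (nat_lit 4) (nat_lit 0x380004001f00084000000000000000000000000000000) (nat_lit 0x0) (nat_lit 0x9c000c0002000000000000000000000000000000) := T_23 (nat_lit 139) (nat_lit 121) (nat_lit 0) (nat_lit 6) (nat_lit 8) L14658 (by decide +kernel)
theorem L14660 : W_23 (nat_lit 5) (nat_lit 0x380004001f00080000000000000000000000000000000) (nat_lit 0x0) (nat_lit 0x9c000c000e000000000000000000000000000000) := T_23 (nat_lit 122) (nat_lit 123) (nat_lit 0) (nat_lit 7) (nat_lit 8) L14659 (by decide +kernel)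
theorem L14661 : W_23 (nat_lit 6) (nat_lit 0x380004001e00080000000000000000000000000000000) (nat_lit 0x0) (nat_lit 0x9c001c004e000000000000000000000000000000) := T_23 (nat_lit 140) (nat_lit 126) (nat_lit 2) (nat_lit 4) (nat_lit 8) L14660 (by decide +kernel)
theorem L14662 : W_23 (nat_lit 7) (nat_lit 0x380004001a00080000000000000000000000000000000) (nat_lit 0x0) (nat_lit 0x9c005c014e000000000000000000000000000000) := T_23 (nat_lit 142) (nat_lit 128) (nat_lit 2) (nat_lit 5) (nat_lit 8) L14661 (by decide +kernel)
theorem L14663 : W_23 (nat_lit 8) (nat_lit 0x380004001800080000000000000000000000000000000) (nat_lit 0x0) (nat_lit 0x2000000009c007c017e001800080000000000000000000000) := Q_23 (nat_lit 141) (C_23 L14643 (C_23 L14653 (C_23 L14656 (C_23 L14662 N_23)))) (by decide +kernel)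
theorem L14664 : W_23 (nat_lit 10) (nat_lit 0x380000001800080000000000000000000000000000000) (nat_lit 0x0) (nat_lit 0x3a001c001cfc047c077e001800080000000000000000000000) := Q_23 (nat_lit 158) (C_23 L14638 (C_23 L14644 (C_23 L14652 (C_23 L14663 N_23)))) (by decide +kernel)
theorem L14665 : W_23 (nat_lit 2) (nat_lit 0x10000000044003f0008801f00082000000000000000000000000000000) (nat_lit 0x0) (nat_lit 0x1c000000000000000000000000000000) := D_23 (nat_lit 123) (nat_lit 122) (nat_lit 124) (nat_lit 0) (nat_lit 7) (nat_lit 8) (nat_lit 0) (nat_lit 8) (nat_lit 8) (by decide +kernel)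
theorem L14666 : W_23 (nat_lit 3) (nat_lit 0x10000000044003f0008801e00082000000000000000000000000000000) (nat_lit 0x0) (nat_lit 0x10005c000000000000000000000000000000) := T_23 (nat_lit 140) (nat_lit 126) (nat_lit 2) (nat_lit 4) (nat_lit 8) L14665 (by decide +kernel)
theorem L14667 : W_23 (nat_lit 4) (nat_lit 0x10000000044003f0008801c00082000000000000000000000000000000) (nat_lit 0x0) (nat_lit 0x30015c000000000000000000000000000000) := T_23 (nat_lit 141) (nat_lit 128) (nat_lit 2) (nat_lit 5) (nat_lit 8) L14666 (by decide +kernel)
theorem L14668 : W_23 (nat_lit 5) (nat_lit 0x44003f0008801c00082000000000000000000000000000000) (nat_lit 0x0) (nat_lit 0x100008000000000000000030015c000000000000000000000000000000) := T_23 (nat_lit 228) (nat_lit 211) (nat_lit 4) (nat_lit 7) (nat_lit 13) L14667 (by decide +kernel)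
theorem L14669 : W_23 (nat_lit 6) (nat_lit 0x44003f0008801800082000000000000000000000000000000) (nat_lit 0x0) (nat_lit 0x100008000000000000000070017c000000000000000000000000000000) := T_23 (nat_lit 142) (nat_lit 125) (nat_lit 7) (nat_lit 6) (nat_lit 7) L14668 (by decide +kernel)
theorem L14670 : W_23 (nat_lit 7) (nat_lit 0x44003f0008801800080000000000000000000000000000000) (nat_lit 0x0) (nat_lit 0x100008000000000000000074017e000000000000000000000000000000) := T_23 (nat_lit 121) (nat_lit 138) (nat_lit 7) (nat_lit 2) (nat_lit 7) L14669 (by decide +kernel)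
theorem L14671 : W_23 (nat_lit 8) (nat_lit 0x44003f0000801800080000000000000000000000000000000) (nat_lit 0x0) (nat_lit 0x100008000000000000c00074017e000000000000000000000000000000) := T_23 (nat_lit 159) (nat_lit 158) (nat_lit 2) (nat_lit 2) (nat_lit 10) L14670 (by decide +kernel)
theorem L14672 : W_23 (nat_lit 9) (nat_lit 0x44003e0000801800080000000000000000000000000000000) (nat_lit 0x0) (nat_lit 0x100008000000001000c40074017e000000000000000000000000000000) := T_23 (nat_lit 172) (nat_lit 154) (nat_lit 0) (nat_lit 5) (nat_lit 10) L14671 (by decide +kernel)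
theorem L14673 : W_23 (nat_lit 10) (nat_lit 0x44003e0000001800080000000000000000000000000000000) (nat_lit 0x0) (nat_lit 0x100008000000001000dc0074017e000000000000000000000000000000) := T_23 (nat_lit 155) (nat_lit 156) (nat_lit 0) (nat_lit 6) (nat_lit 10) L14672 (by decide +kernel)
theorem L14674 : W_23 (nat_lit 11) (nat_lit 0x44003c0000001800080000000000000000000000000000000) (nat_lit 0x0) (nat_lit 0x100008000020003000dc0074017e000000000000000000000000000000) := T_23 (nat_lit 173) (nat_lit 189) (nat_lit 1) (nat_lit 6) (nat_lit 10) L14673 (by decide +kernel)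
theorem L14675 : W_23 (nat_lit 12) (nat_lit 0x40003c0000001800080000000000000000000000000000000) (nat_lit 0x0) (nat_lit 0x1000080000e0003000dc0074017e000000000000000000000000000000) := T_23 (nat_lit 190) (nat_lit 191) (nat_lit 1) (nat_lit 7) (nat_lit 10) L14674 (by decide +kernel)
theorem L14676 : W_23 (nat_lit 13) (nat_lit 0x3c0000001800080000000000000000000000000000000) (nat_lit 0x0) (nat_lit 0x100008000ce0003000dc0074017e000000000000000000000000000000) := T_23 (nat_lit 194) (nat_lit 195) (nat_lit 3) (nat_lit 4) (nat_lit 10) L14675 (by decide +kernel)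
theorem L14677 : W_23 (nat_lit 2) (nat_lit 0x200000048801fc0084001a00380000000000000000000000000000000) (nat_lit 0x0) (nat_lit 0x80002000000004000000000000000000000000000000000000) := D_23 (nat_lit 181) (nat_lit 199) (nat_lit 146) (nat_lit 3) (nat_lit 8) (nat_lit 10) (nat_lit 7) (nat_lit 10) (nat_lit 7) (by decide +kernel)
theorem L14678 : W_23 (nat_lit 3) (nat_lit 0x200000048801fc0084001a00180000000000000000000000000000000) (nat_lit 0x0) (nat_lit 0x80002000000004000600000000000000000000000000000000) := T_23 (nat_lit 129) (nat_lit 130) (nat_lit 1) (nat_lit 11) (nat_lit 7) L14677 (by decide +kernel)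
theorem L14679 : W_23 (nat_lit 4) (nat_lit 0x200000008801fc0084001a00180000000000000000000000000000000) (nat_lit 0x0) (nat_lit 0xe0002000000004000600000000000000000000000000000000) := T_23 (nat_lit 198) (nat_lit 197) (nat_lit 3) (nat_lit 7) (nat_lit 10) L14678 (by decide +kernel)
theorem L14680 : W_23 (nat_lit 5) (nat_lit 0x200000008801fc0084001a00080000000000000000000000000000000) (nat_lit 0x0) (nat_lit 0xe0002000000004400700000000000000000000000000000000) := T_23 (nat_lit 128) (nat_lit 142) (nat_lit 2) (nat_lit 5) (nat_lit 8) L14679 (by decide +kernel)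
theorem L14681 : W_23 (nat_lit 6) (nat_lit 0x200000008800fc0084001a00080000000000000000000000000000000) (nat_lit 0x0) (nat_lit 0xe0003000100004400700000000000000000000000000000000) := T_23 (nat_lit 180) (nat_lit 164) (nat_lit 2) (nat_lit 7) (nat_lit 10) L14680 (by decide +kernel)
theorem L14682 : W_23 (nat_lit 7) (nat_lit 0x200000008800fc0084001800080000000000000000000000000000000) (nat_lit 0x0) (nat_lit 0xe0003000100004600710000000000000000000000000000000) := T_23 (nat_lit 141) (nat_lit 124) (nat_lit 5) (nat_lit 5) (nat_lit 7) L14681 (by decide +kernel)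
theorem L14683 : W_23 (nat_lit 8) (nat_lit 0x200000008800fc0004001800080000000000000000000000000000000) (nat_lit 0x0) (nat_lit 0xe00030001c0004600710000000000000000000000000000000) := T_23 (nat_lit 163) (nat_lit 162) (nat_lit 2) (nat_lit 6) (nat_lit 10) L14682 (by decide +kernel)
theorem L14684 : W_23 (nat_lit 9) (nat_lit 0x8800fc0004001800080000000000000000000000000000000) (nat_lit 0x0) (nat_lit 0x2000100e00030001c0004600710000000000000000000000000000000) := T_23 (nat_lit 225) (nat_lit 208) (nat_lit 6) (nat_lit 4) (nat_lit 13) L14683 (by decide +kernel)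
theorem L14685 : W_23 (nat_lit 10) (nat_lit 0x88007c0004001800080000000000000000000000000000000) (nat_lit 0x0) (nat_lit 0x2000100e00038001c8004600710000000000000000000000000000000) := T_23 (nat_lit 179) (nat_lit 159) (nat_lit 0) (nat_lit 9) (nat_lit 10) L14684 (by decide +kernel)
theorem L14686 : W_23 (nat_lit 11) (nat_lit 0x88007c0000001800080000000000000000000000000000000) (nat_lit 0x0) (nat_lit 0x2000100e00038001ce004600710000000000000000000000000000000) := T_23 (nat_lit 158) (nat_lit 157) (nat_lit 0) (nat_lit 8) (nat_lit 10) L14685 (by decide +kernel)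
theorem L14687 : W_23 (nat_lit 12) (nat_lit 0x88003c0000001800080000000000000000000000000000000) (nat_lit 0x0) (nat_lit 0x2000100f0003c001ce004600710000000000000000000000000000000) := T_23 (nat_lit 178) (nat_lit 196) (nat_lit 3) (nat_lit 5) (nat_lit 10) L14686 (by decide +kernel)
theorem L14688 : W_23 (nat_lit 13) (nat_lit 0x8003c0000001800080000000000000000000000000000000) (nat_lit 0x0) (nat_lit 0x2000100fc003c001ce004600710000000000000000000000000000000) := T_23 (nat_lit 195) (nat_lit 194) (nat_lit 3) (nat_lit 4) (nat_lit 10) L14687 (by decide +kernel)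
theorem L14689 : W_23 (nat_lit 14) (nat_lit 0x3c0000001800080000000000000000000000000000000) (nat_lit 0x0) (nat_lit 0x2000100fcc03c001ce004600710000000000000000000000000000000) := T_23 (nat_lit 191) (nat_lit 190) (nat_lit 1) (nat_lit 7) (nat_lit 10) L14688 (by decide +kernel)
theorem L14690 : W_23 (nat_lit 15) (nat_lit 0x380000001800080000000000000000000000000000000) (nat_lit 0x0) (nat_lit 0x12000900fce03c701cfc0474077e001c00000000000000000000000000) := Q_23 (nat_lit 174) (C_23 L13467 (C_23 L14593 (C_23 L14676 (C_23 L14689 N_23)))) (by decide +kernel)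
theorem L14691 : W_23 (nat_lit 15) (nat_lit 0x380000001800080000000000000000000000000000000) (nat_lit 0x0) (nat_lit 0x2000100fee03c601cf804600710000000000000000000000000000000) := Q_23 (nat_lit 174) (C_23 L14606 (C_23 L13467 (C_23 L14689 (C_23 L14596 N_23)))) (by decide +kernel)
theorem L14692 : W_23 (nat_lit 2) (nat_lit 0x48003c000a001c00080000000000000000000000000000000) (nat_lit 0x0) (nat_lit 0x80002000000000000000040000000000000000000000000000000) := D_23 (nat_lit 193) (nat_lit 126) (nat_lit 211) (nat_lit 6) (nat_lit 6) (nat_lit 11) (nat_lit 7) (nat_lit 6) (nat_lit 8) (by decide +kernel)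
theorem L14693 : W_23 (nat_lit 3) (nat_lit 0x48003c0002001c00080000000000000000000000000000000) (nat_lit 0x0) (nat_lit 0x80002000000008000000060000000000000000000000000000000) := T_23 (nat_lit 159) (nat_lit 125) (nat_lit 7) (nat_lit 6) (nat_lit 7) L14692 (by decide +kernel)
theorem L14694 : W_23 (nat_lit 4) (nat_lit 0x40003c0002001c00080000000000000000000000000000000) (nat_lit 0x0) (nat_lit 0x80002c00000008000000060000000000000000000000000000000) := T_23 (nat_lit 191) (nat_lit 190) (nat_lit 1) (nat_lit 7) (nat_lit 10) L14693 (by decide +kernel)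
theorem L14695 : W_23 (nat_lit 5) (nat_lit 0x3c0002001c00080000000000000000000000000000000) (nat_lit 0x0) (nat_lit 0x8000ec00000008000000060000000000000000000000000000000) := T_23 (nat_lit 194) (nat_lit 195) (nat_lit 3) (nat_lit 4) (nat_lit 10) L14694 (by decide +kernel)
theorem L14696 : W_23 (nat_lit 6) (nat_lit 0x3c0000001c00080000000000000000000000000000000) (nat_lit 0x0) (nat_lit 0x8000ec0000000b000000060000000000000000000000000000000) := T_23 (nat_lit 157) (nat_lit 156) (nat_lit 0) (nat_lit 7) (nat_lit 10) L14695 (by decide +kernel)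
theorem L14697 : W_23 (nat_lit 7) (nat_lit 0x3c0000001800080000000000000000000000000000000) (nat_lit 0x0) (nat_lit 0x8000ec0000000b00070017c000800040000000000000000000000) := Q_23 (nat_lit 142) (C_23 L13603 (C_23 L13470 (C_23 L14696 N_23))) (by decide +kernel)
theorem L14698 : W_23 (nat_lit 8) (nat_lit 0x380000001800080000000000000000000000000000000) (nat_lit 0x0) (nat_lit 0x8000ee0006000b80070017c000800040000000000000000000000) := Q_23 (nat_lit 174) (C_23 L13467 (C_23 L14606 (C_23 L14697 (C_23 L14596 N_23)))) (by decide +kernel)
theorem L14699 : W_23 (nat_lit 2) (nat_lit 0x10000780048003c0006001800080000000000000000000000000000000) (nat_lit 0x0) (nat_lit 0x2000080000000000008000000000000000000000000000000000000000) := D_23 (nat_lit 211) (nat_lit 229) (nat_lit 159) (nat_lit 3) (nat_lit 4) (nat_lit 12) (nat_lit 4) (nat_lit 7) (nat_lit 13) (by decide +kernel)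
theorem L14700 : W_23 (nat_lit 3) (nat_lit 0x780048003c0006001800080000000000000000000000000000000) (nat_lit 0x0) (nat_lit 0x3800080000000000008000000000000000000000000000000000000000) := T_23 (nat_lit 228) (nat_lit 227) (nat_lit 3) (nat_lit 3) (nat_lit 12) L14699 (by decide +kernel)
theorem L14701 : W_23 (nat_lit 4) (nat_lit 0x380048003c0006001800080000000000000000000000000000000) (nat_lit 0x0) (nat_lit 0x38000c0002000000008000000000000000000000000000000000000000) := T_23 (nat_lit 210) (nat_lit 193) (nat_lit 2) (nat_lit 3) (nat_lit 12) L14700 (by decide +kernel)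
theorem L14702 : W_23 (nat_lit 5) (nat_lit 0x180048003c0006001800080000000000000000000000000000000) (nat_lit 0x0) (nat_lit 0x3c000e0002000000008000000000000000000000000000000000000000) := T_23 (nat_lit 209) (nat_lit 226) (nat_lit 7) (nat_lit 4) (nat_lit 9) L14701 (by decide +kernel)
theorem L14703 : W_23 (nat_lit 6) (nat_lit 0x100048003c0006001800080000000000000000000000000000000) (nat_lit 0x0) (nat_lit 0x3d000e8002000000008000000000000000000000000000000000000000) := T_23 (nat_lit 207) (nat_lit 224) (nat_lit 5) (nat_lit 4) (nat_lit 9) L14702 (by decide +kernel)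
theorem L14704 : W_23 (nat_lit 7) (nat_lit 0x48003c0006001800080000000000000000000000000000000) (nat_lit 0x0) (nat_lit 0x3f000f8002000000008000000000000000000000000000000000000000) := T_23 (nat_lit 208) (nat_lit 225) (nat_lit 6) (nat_lit 4) (nat_lit 13) L14703 (by decide +kernel)
theorem L14705 : W_23 (nat_lit 8) (nat_lit 0x40003c0006001800080000000000000000000000000000000) (nat_lit 0x0) (nat_lit 0x3f000f8002c00000008000000000000000000000000000000000000000) := T_23 (nat_lit 191) (nat_lit 190) (nat_lit 1) (nat_lit 7) (nat_lit 10) L14704 (by decide +kernel)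
theorem L14706 : W_23 (nat_lit 9) (nat_lit 0x40003c0002001800080000000000000000000000000000000) (nat_lit 0x0) (nat_lit 0x3f000f8002c0040000c000000000000000000000000000000000000000) := T_23 (nat_lit 158) (nat_lit 178) (nat_lit 0) (nat_lit 8) (nat_lit 10) L14705 (by decide +kernel)
theorem L14707 : W_23 (nat_lit 10) (nat_lit 0x3c0002001800080000000000000000000000000000000) (nat_lit 0x0) (nat_lit 0x3f000f800ec0040000c000000000000000000000000000000000000000) := T_23 (nat_lit 194) (nat_lit 195) (nat_lit 3) (nat_lit 4) (nat_lit 10) L14706 (by decide +kernel)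
theorem L14708 : W_23 (nat_lit 11) (nat_lit 0x3c0000001800080000000000000000000000000000000) (nat_lit 0x0) (nat_lit 0x3f000f800ec0040000f000000000000000000000000000000000000000) := T_23 (nat_lit 157) (nat_lit 156) (nat_lit 0) (nat_lit 7) (nat_lit 10) L14707 (by decide +kernel)
theorem L14709 : W_23 (nat_lit 12) (nat_lit 0x380000001800080000000000000000000000000000000) (nat_lit 0x0) (nat_lit 0x3f000f800ee0046000f800000000000000000000000000000000000000) := Q_23 (nat_lit 174) (C_23 L14606 (C_23 L13467 (C_23 L14708 (C_23 L14596 N_23)))) (by decide +kernel)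
theorem L14710 : W_23 (nat_lit 4) (nat_lit 0x8003c0000001a00090000000000000000000000000000000) (nat_lit 0x0) (nat_lit 0x2000000008000400028000800040000000000000000000000) := T_23 (nat_lit 142) (nat_lit 123) (nat_lit 0) (nat_lit 8) (nat_lit 8) L13600 (by decide +kernel)
theorem L14711 : W_23 (nat_lit 5) (nat_lit 0x8003c0000001a00080000000000000000000000000000000) (nat_lit 0x0) (nat_lit 0x200000000c000400038000800040000000000000000000000) := T_23 (nat_lit 124) (nat_lit 158) (nat_lit 5) (nat_lit 5) (nat_lit 7) L14710 (by decide +kernel)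
theorem L14712 : W_23 (nat_lit 6) (nat_lit 0x3c0000001a00080000000000000000000000000000000) (nat_lit 0x0) (nat_lit 0x2c0000000c000400038000800040000000000000000000000) := T_23 (nat_lit 191) (nat_lit 190) (nat_lit 1) (nat_lit 7) (nat_lit 10) L14711 (by decide +kernel)
theorem L14713 : W_23 (nat_lit 2) (nat_lit 0x8003c0000001f00080000000000000000000000000000000) (nat_lit 0x0) (nat_lit 0x1c000000000000000000000000000000) := D_23 (nat_lit 123) (nat_lit 122) (nat_lit 124) (nat_lit 0) (nat_lit 7) (nat_lit 8) (nat_lit 0) (nat_lit 8) (nat_lit 8) (by decide +kernel)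
theorem L14714 : W_23 (nat_lit 3) (nat_lit 0x8003c0000001e00080000000000000000000000000000000) (nat_lit 0x0) (nat_lit 0x10005c000000000000000000000000000000) := T_23 (nat_lit 140) (nat_lit 126) (nat_lit 2) (nat_lit 4) (nat_lit 8) L14713 (by decide +kernel)
theorem L14715 : W_23 (nat_lit 4) (nat_lit 0x8003c0000001a00080000000000000000000000000000000) (nat_lit 0x0) (nat_lit 0x50015c000000000000000000000000000000) := T_23 (nat_lit 142) (nat_lit 128) (nat_lit 2) (nat_lit 5) (nat_lit 8) L14714 (by decide +kernel)
theorem L14716 : W_23 (nat_lit 5) (nat_lit 0x3c0000001a00080000000000000000000000000000000) (nat_lit 0x0) (nat_lit 0xc0000000000050015c000000000000000000000000000000) := T_23 (nat_lit 191) (nat_lit 190) (nat_lit 1) (nat_lit 7) (nat_lit 10) L14715 (by decide +kernel)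
theorem L14717 : W_23 (nat_lit 2) (nat_lit 0x4003e0000001f00088000000000000000000000000000000) (nat_lit 0x0) (nat_lit 0x1800080000000000000000000000000000000000) := D_23 (nat_lit 156) (nat_lit 155) (nat_lit 139) (nat_lit 0) (nat_lit 6) (nat_lit 10) (nat_lit 6) (nat_lit 3) (nat_lit 11) (by decide +kernel)
theorem L14718 : W_23 (nat_lit 3) (nat_lit 0x4003c0000001f00088000000000000000000000000000000) (nat_lit 0x0) (nat_lit 0x200020001800080000000000000000000000000000000000) := T_23 (nat_lit 173) (nat_lit 189) (nat_lit 1) (nat_lit 6) (nat_lit 10) L14717 (by decide +kernel)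
theorem L14719 : W_23 (nat_lit 4) (nat_lit 0x3c0000001f00088000000000000000000000000000000) (nat_lit 0x0) (nat_lit 0xe00020001800080000000000000000000000000000000000) := T_23 (nat_lit 190) (nat_lit 191) (nat_lit 1) (nat_lit 7) (nat_lit 10) L14718 (by decide +kernel)
theorem L14720 : W_23 (nat_lit 5) (nat_lit 0x3c0000001f00080000000000000000000000000000000) (nat_lit 0x0) (nat_lit 0xe0002000180008000c000000000000000000000000000000) := T_23 (nat_lit 123) (nat_lit 122) (nat_lit 0) (nat_lit 7) (nat_lit 8) L14719 (by decide +kernel)
theorem L14721 : W_23 (nat_lit 6) (nat_lit 0x3c0000001e00080000000000000000000000000000000) (nat_lit 0x0) (nat_lit 0xe0002000180018004c000000000000000000000000000000) := T_23 (nat_lit 140) (nat_lit 126) (nat_lit 2) (nat_lit 4) (nat_lit 8) L14720 (by decide +kernel)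
theorem L14722 : W_23 (nat_lit 7) (nat_lit 0x3c0000001a00080000000000000000000000000000000) (nat_lit 0x0) (nat_lit 0xe0002000180058014c000000000000000000000000000000) := T_23 (nat_lit 142) (nat_lit 128) (nat_lit 2) (nat_lit 5) (nat_lit 8) L14721 (by decide +kernel)
theorem L14724 : W_23 (nat_lit 2) (nat_lit 0x4003f0004801a000b2000000000000000000000000000000) (nat_lit 0x0) (nat_lit 0x48000400000000000000000000000000) := D_23 (nat_lit 123) (nat_lit 126) (nat_lit 106) (nat_lit 3) (nat_lit 4) (nat_lit 7) (nat_lit 4) (nat_lit 5) (nat_lit 10) (by decide +kernel)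
theorem L14725 : W_23 (nat_lit 3) (nat_lit 0x4003f0004801a00092000000000000000000000000000000) (nat_lit 0x0) (nat_lit 0x68001400000000000000000000000000) := T_23 (nat_lit 125) (nat_lit 108) (nat_lit 6) (nat_lit 5) (nat_lit 10) L14724 (by decide +kernel)
theorem L14726 : W_23 (nat_lit 4) (nat_lit 0x4003f0004801a00082000000000000000000000000000000) (nat_lit 0x0) (nat_lit 0x2000000000000000078001400000000000000000000000000) := T_23 (nat_lit 124) (nat_lit 193) (nat_lit 7) (nat_lit 5) (nat_lit 7) L14725 (by decide +kernel)
theorem L14727 : W_23 (nat_lit 5) (nat_lit 0x4003f0004801a00080000000000000000000000000000000) (nat_lit 0x0) (nat_lit 0x200000000000004007a001400000000000000000000000000) := T_23 (nat_lit 121) (nat_lit 138) (nat_lit 7) (nat_lit 2) (nat_lit 7) L14726 (by decide +kernel)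
theorem L14728 : W_23 (nat_lit 6) (nat_lit 0x4003f0000801a00080000000000000000000000000000000) (nat_lit 0x0) (nat_lit 0x200000000c00004007a001400000000000000000000000000) := T_23 (nat_lit 158) (nat_lit 159) (nat_lit 2) (nat_lit 2) (nat_lit 10) L14727 (by decide +kernel)
theorem L14729 : W_23 (nat_lit 7) (nat_lit 0x4003e0000801a00080000000000000000000000000000000) (nat_lit 0x0) (nat_lit 0x200001000c40004007a001400000000000000000000000000) := T_23 (nat_lit 172) (nat_lit 154) (nat_lit 0) (nat_lit 5) (nat_lit 10) L14728 (by decide +kernel)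
theorem L14730 : W_23 (nat_lit 8) (nat_lit 0x4003e0000001a00080000000000000000000000000000000) (nat_lit 0x0) (nat_lit 0x200001000dc0004007a001400000000000000000000000000) := T_23 (nat_lit 155) (nat_lit 156) (nat_lit 0) (nat_lit 6) (nat_lit 10) L14729 (by decide +kernel)
theorem L14731 : W_23 (nat_lit 9) (nat_lit 0x4003c0000001a00080000000000000000000000000000000) (nat_lit 0x0) (nat_lit 0x220003000dc0004007a001400000000000000000000000000) := T_23 (nat_lit 173) (nat_lit 189) (nat_lit 1) (nat_lit 6) (nat_lit 10) L14730 (by decide +kernel)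
theorem L14732 : W_23 (nat_lit 10) (nat_lit 0x3c0000001a00080000000000000000000000000000000) (nat_lit 0x0) (nat_lit 0x2e0003000dc0004007a001400000000000000000000000000) := T_23 (nat_lit 190) (nat_lit 191) (nat_lit 1) (nat_lit 7) (nat_lit 10) L14731 (by decide +kernel)
theorem L14733 : W_23 (nat_lit 2) (nat_lit 0x8003c0008001f00090000000000000000000000000000000) (nat_lit 0x0) (nat_lit 0x20000800040000000000000000000000) := D_23 (nat_lit 107) (nat_lit 125) (nat_lit 90) (nat_lit 4) (nat_lit 6) (nat_lit 10) (nat_lit 7) (nat_lit 5) (nat_lit 5) (by decide +kernel)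
theorem L14734 : W_23 (nat_lit 3) (nat_lit 0x8003c0000001f00090000000000000000000000000000000) (nat_lit 0x0) (nat_lit 0x2000000008000000020000800040000000000000000000000) := T_23 (nat_lit 159) (nat_lit 193) (nat_lit 4) (nat_lit 6) (nat_lit 11) L14733 (by decide +kernel)
theorem L14735 : W_23 (nat_lit 4) (nat_lit 0x8003c0000001f00080000000000000000000000000000000) (nat_lit 0x0) (nat_lit 0x200000000c000000030000800040000000000000000000000) := T_23 (nat_lit 124) (nat_lit 158) (nat_lit 5) (nat_lit 5) (nat_lit 7) L14734 (by decide +kernel)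
theorem L14736 : W_23 (nat_lit 5) (nat_lit 0x8003c0000001e00080000000000000000000000000000000) (nat_lit 0x0) (nat_lit 0x200000000c000100070000800040000000000000000000000) := T_23 (nat_lit 140) (nat_lit 126) (nat_lit 2) (nat_lit 4) (nat_lit 8) L14735 (by decide +kernel)
theorem L14737 : W_23 (nat_lit 6) (nat_lit 0x8003c0000001a00080000000000000000000000000000000) (nat_lit 0x0) (nat_lit 0x200000000c000500170000800040000000000000000000000) := T_23 (nat_lit 142) (nat_lit 128) (nat_lit 2) (nat_lit 5) (nat_lit 8) L14736 (by decide +kernel)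
theorem L14738 : W_23 (nat_lit 7) (nat_lit 0x3c0000001a00080000000000000000000000000000000) (nat_lit 0x0) (nat_lit 0x2c0000000c000500170000800040000000000000000000000) := T_23 (nat_lit 191) (nat_lit 190) (nat_lit 1) (nat_lit 7) (nat_lit 10) L14737 (by decide +kernel)
theorem L14739 : W_23 (nat_lit 11) (nat_lit 0x3c0000001800080000000000000000000000000000000) (nat_lit 0x0) (nat_lit 0x2e0003000dc007c017e001c00040000000000000000000000) := Q_23 (nat_lit 141) (C_23 L12725 (C_23 L14712 (C_23 L14716 (C_23 L14722 (C_23 L14723 (C_23 L14732 (C_23 L14738 N_23))))))) (by decide +kernel)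
theorem L14740 : W_23 (nat_lit 11) (nat_lit 0x40003e0000001800080000000000000000000000000000000) (nat_lit 0x0) (nat_lit 0x100008000060001000dc0074017e000000000000000000000000000000) := T_23 (nat_lit 190) (nat_lit 189) (nat_lit 1) (nat_lit 6) (nat_lit 10) L14673 (by decide +kernel)
theorem L14741 : W_23 (nat_lit 12) (nat_lit 0x40003c0000001800080000000000000000000000000000000) (nat_lit 0x0) (nat_lit 0x100008000260003000dc0074017e000000000000000000000000000000) := T_23 (nat_lit 173) (nat_lit 193) (nat_lit 3) (nat_lit 3) (nat_lit 10) L14740 (by decide +kernel)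
theorem L14742 : W_23 (nat_lit 13) (nat_lit 0x3c0000001800080000000000000000000000000000000) (nat_lit 0x0) (nat_lit 0x100008000e60003000dc0074017e000000000000000000000000000000) := T_23 (nat_lit 194) (nat_lit 195) (nat_lit 3) (nat_lit 4) (nat_lit 10) L14741 (by decide +kernel)
theorem L14743 : W_23 (nat_lit 2) (nat_lit 0x48003c0008001c00080000000000000000000000000000000) (nat_lit 0x0) (nat_lit 0x80002000000000000000040000000000000000000000000000000) := D_23 (nat_lit 193) (nat_lit 126) (nat_lit 211) (nat_lit 6) (nat_lit 6) (nat_lit 11) (nat_lit 7) (nat_lit 6) (nat_lit 8) (by decide +kernel)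
theorem L14744 : W_23 (nat_lit 3) (nat_lit 0x48003c0000001c00080000000000000000000000000000000) (nat_lit 0x0) (nat_lit 0x80002000000008000000060000000000000000000000000000000) := T_23 (nat_lit 159) (nat_lit 125) (nat_lit 7) (nat_lit 6) (nat_lit 7) L14743 (by decide +kernel)
theorem L14745 : W_23 (nat_lit 4) (nat_lit 0x40003c0000001c00080000000000000000000000000000000) (nat_lit 0x0) (nat_lit 0x80002c00000008000000060000000000000000000000000000000) := T_23 (nat_lit 191) (nat_lit 190) (nat_lit 1) (nat_lit 7) (nat_lit 10) L14744 (by decide +kernel)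
theorem L14746 : W_23 (nat_lit 5) (nat_lit 0x3c0000001c00080000000000000000000000000000000) (nat_lit 0x0) (nat_lit 0x8000ec00000008000000060000000000000000000000000000000) := T_23 (nat_lit 194) (nat_lit 195) (nat_lit 3) (nat_lit 4) (nat_lit 10) L14745 (by decide +kernel)
theorem L14747 : W_23 (nat_lit 7) (nat_lit 0x3c0000001800080000000000000000000000000000000) (nat_lit 0x0) (nat_lit 0x8000ec0000000800070017c000800040000000000000000000000) := Q_23 (nat_lit 142) (C_23 L13603 (C_23 L13470 (C_23 L14746 N_23))) (by decide +kernel)
theorem L14748 : W_23 (nat_lit 2) (nat_lit 0x10000000042003f0008801f00080000000000000000000000000000000) (nat_lit 0x0) (nat_lit 0x1c000000000000000000000000000000) := D_23 (nat_lit 123) (nat_lit 122) (nat_lit 124) (nat_lit 0) (nat_lit 7) (nat_lit 8) (nat_lit 0) (nat_lit 8) (nat_lit 8) (by decide +kernel)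
theorem L14749 : W_23 (nat_lit 3) (nat_lit 0x10000000042003f0008801e00080000000000000000000000000000000) (nat_lit 0x0) (nat_lit 0x10005c000000000000000000000000000000) := T_23 (nat_lit 140) (nat_lit 126) (nat_lit 2) (nat_lit 4) (nat_lit 8) L14748 (by decide +kernel)
theorem L14750 : W_23 (nat_lit 4) (nat_lit 0x10000000042003f0008801c00080000000000000000000000000000000) (nat_lit 0x0) (nat_lit 0x30015c000000000000000000000000000000) := T_23 (nat_lit 141) (nat_lit 128) (nat_lit 2) (nat_lit 5) (nat_lit 8) L14749 (by decide +kernel)
theorem L14751 : W_23 (nat_lit 5) (nat_lit 0x10000000042003f0008801800080000000000000000000000000000000) (nat_lit 0x0) (nat_lit 0x70017c000000000000000000000000000000) := T_23 (nat_lit 142) (nat_lit 125) (nat_lit 7) (nat_lit 6) (nat_lit 7) L14750 (by decide +kernel)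
theorem L14752 : W_23 (nat_lit 6) (nat_lit 0x42003f0008801800080000000000000000000000000000000) (nat_lit 0x0) (nat_lit 0x100008000000000000000070017c000000000000000000000000000000) := T_23 (nat_lit 228) (nat_lit 211) (nat_lit 4) (nat_lit 7) (nat_lit 13) L14751 (by decide +kernel)
theorem L14753 : W_23 (nat_lit 7) (nat_lit 0x42003f0000801800080000000000000000000000000000000) (nat_lit 0x0) (nat_lit 0x100008000000000000c00070017c000000000000000000000000000000) := T_23 (nat_lit 159) (nat_lit 158) (nat_lit 2) (nat_lit 2) (nat_lit 10) L14752 (by decide +kernel)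
theorem L14754 : W_23 (nat_lit 8) (nat_lit 0x40003f0000801800080000000000000000000000000000000) (nat_lit 0x0) (nat_lit 0x100008000030000000c00070017c000000000000000000000000000000) := T_23 (nat_lit 189) (nat_lit 188) (nat_lit 1) (nat_lit 5) (nat_lit 10) L14753 (by decide +kernel)
theorem L14755 : W_23 (nat_lit 9) (nat_lit 0x40003e0000801800080000000000000000000000000000000) (nat_lit 0x0) (nat_lit 0x100008000030001000c40070017c000000000000000000000000000000) := T_23 (nat_lit 172) (nat_lit 154) (nat_lit 0) (nat_lit 5) (nat_lit 10) L14754 (by decide +kernel)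
theorem L14756 : W_23 (nat_lit 10) (nat_lit 0x40003e0000001800080000000000000000000000000000000) (nat_lit 0x0) (nat_lit 0x100008000030001000dc0070017c000000000000000000000000000000) := T_23 (nat_lit 155) (nat_lit 156) (nat_lit 0) (nat_lit 6) (nat_lit 10) L14755 (by decide +kernel)
theorem L14757 : W_23 (nat_lit 11) (nat_lit 0x40003c0000001800080000000000000000000000000000000) (nat_lit 0x0) (nat_lit 0x100008000230003000dc0070017c000000000000000000000000000000) := T_23 (nat_lit 173) (nat_lit 193) (nat_lit 3) (nat_lit 3) (nat_lit 10) L14756 (by decide +kernel)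
theorem L14758 : W_23 (nat_lit 12) (nat_lit 0x3c0000001800080000000000000000000000000000000) (nat_lit 0x0) (nat_lit 0x100008000e30003000dc0070017c000000000000000000000000000000) := T_23 (nat_lit 194) (nat_lit 195) (nat_lit 3) (nat_lit 4) (nat_lit 10) L14757 (by decide +kernel)
theorem L14759 : W_23 (nat_lit 14) (nat_lit 0x380000001800080000000000000000000000000000000) (nat_lit 0x0) (nat_lit 0x100008000ef0007000dc007c017e001c00040000000000000000000000) := Q_23 (nat_lit 174) (C_23 L14596 (C_23 L14739 (C_23 L14676 (C_23 L14742 (C_23 L14747 (C_23 L14758 N_23)))))) (by decide +kernel)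
theorem L14760 : W_23 (nat_lit 2) (nat_lit 0x6000380008001c00080000000000000000000000000000000) (nat_lit 0x0) (nat_lit 0x8000060000000000000000000000000000000000000000000) := D_23 (nat_lit 174) (nat_lit 195) (nat_lit 173) (nat_lit 3) (nat_lit 4) (nat_lit 10) (nat_lit 3) (nat_lit 3) (nat_lit 10) (by decide +kernel)
theorem L14761 : W_23 (nat_lit 3) (nat_lit 0x2000380008001c00080000000000000000000000000000000) (nat_lit 0x0) (nat_lit 0x8000c000060000000000000000000000000000000000000000000) := T_23 (nat_lit 194) (nat_lit 211) (nat_lit 7) (nat_lit 6) (nat_lit 8) L14760 (by decide +kernel)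
theorem L14762 : W_23 (nat_lit 4) (nat_lit 0x380008001c00080000000000000000000000000000000) (nat_lit 0x0) (nat_lit 0x8000e000060000000000040000000000000000000000000000000) := T_23 (nat_lit 193) (nat_lit 126) (nat_lit 6) (nat_lit 6) (nat_lit 11) L14761 (by decide +kernel)
theorem L14763 : W_23 (nat_lit 5) (nat_lit 0x380000001c00080000000000000000000000000000000) (nat_lit 0x0) (nat_lit 0x8000e00006000c000000070003800140000000000000000000000) := Q_23 (nat_lit 159) (C_23 L14614 (C_23 L14624 (C_23 L14762 N_23))) (by decide +kernel)
theorem L14764 : W_23 (nat_lit 2) (nat_lit 0x38000c001f80084000000000000000000000000000000) (nat_lit 0x0) (nat_lit 0x4000000000000000020001000000000000000000000000000) := D_23 (nat_lit 125) (nat_lit 108) (nat_lit 194) (nat_lit 5) (nat_lit 6) (nat_lit 6) (nat_lit 7) (nat_lit 6) (nat_lit 7) (by decide +kernel)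
theorem L14765 : W_23 (nat_lit 3) (nat_lit 0x380004001f80084000000000000000000000000000000) (nat_lit 0x0) (nat_lit 0x4000000008000040020001000000000000000000000000000) := T_23 (nat_lit 159) (nat_lit 138) (nat_lit 3) (nat_lit 2) (nat_lit 8) L14764 (by decide +kernel)
theorem L14766 : W_23 (nat_lit 4) (nat_lit 0x380004001f00084000000000000000000000000000000) (nat_lit 0x0) (nat_lit 0x40000000080000c0022001000000000000000000000000000) := T_23 (nat_lit 139) (nat_lit 121) (nat_lit 0) (nat_lit 6) (nat_lit 8) L14765 (by decide +kernel)
theorem L14767 : W_23 (nat_lit 5) (nat_lit 0x380000001f00084000000000000000000000000000000) (nat_lit 0x0) (nat_lit 0x400000000e0000c0022001000000000000000000000000000) := T_23 (nat_lit 158) (nat_lit 157) (nat_lit 1) (nat_lit 8) (nat_lit 8) L14766 (by decide +kernel)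
theorem L14768 : W_23 (nat_lit 6) (nat_lit 0x380000001f00080000000000000000000000000000000) (nat_lit 0x0) (nat_lit 0x400000000e0000c002e001000000000000000000000000000) := T_23 (nat_lit 122) (nat_lit 123) (nat_lit 0) (nat_lit 7) (nat_lit 8) L14767 (by decide +kernel)
theorem L14769 : W_23 (nat_lit 7) (nat_lit 0x380000001e00080000000000000000000000000000000) (nat_lit 0x0) (nat_lit 0x400000000e0001c006e001000000000000000000000000000) := T_23 (nat_lit 140) (nat_lit 126) (nat_lit 2) (nat_lit 4) (nat_lit 8) L14768 (by decide +kernel)
theorem L14770 : W_23 (nat_lit 8) (nat_lit 0x380000001c00080000000000000000000000000000000) (nat_lit 0x0) (nat_lit 0x400000000e0003c016e001000000000000000000000000000) := T_23 (nat_lit 141) (nat_lit 128) (nat_lit 2) (nat_lit 5) (nat_lit 8) L14769 (by decide +kernel)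
theorem L14771 : W_23 (nat_lit 9) (nat_lit 0x380000001800080000000000000000000000000000000) (nat_lit 0x0) (nat_lit 0xc000e00006000e0007c017e003800140000000000000000000000) := Q_23 (nat_lit 142) (C_23 L14623 (C_23 L14613 (C_23 L14620 (C_23 L14763 (C_23 L14770 N_23))))) (by decide +kernel)
theorem L14772 : W_23 (nat_lit 16) (nat_lit 0x300000001800080000000000000000000000000000000) (nat_lit 0x0) (nat_lit 0x3f000f80fef03cf81cfc047c077e003c001c0000000000000000000000) := Q_23 (nat_lit 175) (C_23 L14597 (C_23 L14607 (C_23 L14635 (C_23 L14664 (C_23 L14690 (C_23 L14691 (C_23 L14698 (C_23 L14709 (C_23 L14759 (C_23 L14771 N_23)))))))))) (by decide +kernel)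
theorem L14773 : W_23 (nat_lit 17) (nat_lit 0x300000001000080000000000000000000000000000000) (nat_lit 0x0) (nat_lit 0x3f000f80fef03cf81dfc0cfc077e03bc007c003e000000000000000000) := Q_23 (nat_lit 143) (C_23 L14772 (C_23 L12536 (C_23 L14295 (C_23 L14330 (C_23 L14336 (C_23 L12647 N_23)))))) (by decide +kernel)
theorem L14774 : W_23 (nat_lit 2) (nat_lit 0x48003c0002001000080000000000000000000000000000000) (nat_lit 0x0) (nat_lit 0x1000400004000000000000000000000000000000000000000) := D_23 (nat_lit 178) (nat_lit 158) (nat_lit 192) (nat_lit 0) (nat_lit 8) (nat_lit 10) (nat_lit 1) (nat_lit 8) (nat_lit 10) (by decide +kernel)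
theorem L14775 : W_23 (nat_lit 3) (nat_lit 0x40003c0002001000080000000000000000000000000000000) (nat_lit 0x0) (nat_lit 0x1c00400004000000000000000000000000000000000000000) := T_23 (nat_lit 191) (nat_lit 190) (nat_lit 1) (nat_lit 7) (nat_lit 10) L14774 (by decide +kernel)
theorem L14776 : W_23 (nat_lit 4) (nat_lit 0x40003c0000001000080000000000000000000000000000000) (nat_lit 0x0) (nat_lit 0x1c00400007000000000000000000000000000000000000000) := T_23 (nat_lit 157) (nat_lit 156) (nat_lit 0) (nat_lit 7) (nat_lit 10) L14775 (by decide +kernel)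
theorem L14777 : W_23 (nat_lit 8) (nat_lit 0x4000380000001000080000000000000000000000000000000) (nat_lit 0x0) (nat_lit 0x3f0047800fc00000000000000000000000000000000000000) := Q_23 (nat_lit 174) (C_23 L12902 (C_23 L14537 (C_23 L14776 (C_23 L12737 N_23)))) (by decide +kernel)
theorem L14780 : W_23 (nat_lit 4) (nat_lit 0xd000780000001000080000000000000000000000000000000) (nat_lit 0x0) (nat_lit 0x400030002000800008000400000000000000000000000000000000000) := T_23 (nat_lit 193) (nat_lit 179) (nat_lit 2) (nat_lit 5) (nat_lit 11) L14779 (by decide +kernel)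
theorem L14781 : W_23 (nat_lit 5) (nat_lit 0xc000780000001000080000000000000000000000000000000) (nat_lit 0x0) (nat_lit 0x400030003800800008000400000000000000000000000000000000000) := T_23 (nat_lit 192) (nat_lit 191) (nat_lit 1) (nat_lit 8) (nat_lit 10) L14780 (by decide +kernel)
theorem L14782 : W_23 (nat_lit 6) (nat_lit 0x4000780000001000080000000000000000000000000000000) (nat_lit 0x0) (nat_lit 0x40003001b800800008000400000000000000000000000000000000000) := T_23 (nat_lit 195) (nat_lit 196) (nat_lit 3) (nat_lit 5) (nat_lit 10) L14781 (by decide +kernel)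
theorem L14783 : W_23 (nat_lit 5) (nat_lit 0x5000780000001000080000000000000000000000000000000) (nat_lit 0x0) (nat_lit 0x4001a000800006000200010000000000000000000000000000000) := T_23 (nat_lit 195) (nat_lit 196) (nat_lit 3) (nat_lit 5) (nat_lit 10) L11052 (by decide +kernel)
theorem L14784 : W_23 (nat_lit 6) (nat_lit 0x4000780000001000080000000000000000000000000000000) (nat_lit 0x0) (nat_lit 0x4001b800800006000200010000000000000000000000000000000) := T_23 (nat_lit 192) (nat_lit 191) (nat_lit 1) (nat_lit 8) (nat_lit 10) L14783 (by decide +kernel)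
theorem L14785 : W_23 (nat_lit 2) (nat_lit 0xd00078000c001000080000000000000000000000000000000) (nat_lit 0x0) (nat_lit 0x20000000000000000400020000000000000000000000000000000) := D_23 (nat_lit 142) (nat_lit 125) (nat_lit 209) (nat_lit 7) (nat_lit 6) (nat_lit 7) (nat_lit 6) (nat_lit 5) (nat_lit 12) (by decide +kernel)
theorem L14786 : W_23 (nat_lit 3) (nat_lit 0xd000780004001000080000000000000000000000000000000) (nat_lit 0x0) (nat_lit 0x20000000800008000400020000000000000000000000000000000) := T_23 (nat_lit 159) (nat_lit 179) (nat_lit 0) (nat_lit 9) (nat_lit 10) L14785 (by decide +kernel)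
theorem L14787 : W_23 (nat_lit 4) (nat_lit 0xd000780000001000080000000000000000000000000000000) (nat_lit 0x0) (nat_lit 0x2000000080000e000400020000000000000000000000000000000) := T_23 (nat_lit 158) (nat_lit 157) (nat_lit 0) (nat_lit 8) (nat_lit 10) L14786 (by decide +kernel)
theorem L14788 : W_23 (nat_lit 5) (nat_lit 0x5000780000001000080000000000000000000000000000000) (nat_lit 0x0) (nat_lit 0x2001800080000e000400020000000000000000000000000000000) := T_23 (nat_lit 195) (nat_lit 196) (nat_lit 3) (nat_lit 5) (nat_lit 10) L14787 (by decide +kernel)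
theorem L14789 : W_23 (nat_lit 6) (nat_lit 0x4000780000001000080000000000000000000000000000000) (nat_lit 0x0) (nat_lit 0x2001980080000e000400020000000000000000000000000000000) := T_23 (nat_lit 192) (nat_lit 191) (nat_lit 1) (nat_lit 8) (nat_lit 10) L14788 (by decide +kernel)
theorem L14790 : W_23 (nat_lit 4) (nat_lit 0x6800780000001000080000000000000000000000000000000) (nat_lit 0x0) (nat_lit 0x80004000000000000e000200010000000000000000000000000000000) := T_23 (nat_lit 158) (nat_lit 157) (nat_lit 0) (nat_lit 8) (nat_lit 10) L7676 (by decide +kernel)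
theorem L14791 : W_23 (nat_lit 5) (nat_lit 0x6000780000001000080000000000000000000000000000000) (nat_lit 0x0) (nat_lit 0x80004000180000000e000200010000000000000000000000000000000) := T_23 (nat_lit 191) (nat_lit 192) (nat_lit 2) (nat_lit 4) (nat_lit 11) L14790 (by decide +kernel)
theorem L14792 : W_23 (nat_lit 2) (nat_lit 0x80012000f000780004001000090000000000000000000000000000000) (nat_lit 0x0) (nat_lit 0x18000400000000000000000000000000000000000000000000000000000000) := D_23 (nat_lit 226) (nat_lit 244) (nat_lit 243) (nat_lit 7) (nat_lit 5) (nat_lit 10) (nat_lit 6) (nat_lit 5) (nat_lit 14) (by decide +kernel)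
theorem L14793 : W_23 (nat_lit 3) (nat_lit 0x80010000f000780004001000090000000000000000000000000000000) (nat_lit 0x0) (nat_lit 0x18000400030000000000000000000000000000000000000000000000000000) := T_23 (nat_lit 209) (nat_lit 208) (nat_lit 1) (nat_lit 8) (nat_lit 11) L14792 (by decide +kernel)
theorem L14794 : W_23 (nat_lit 4) (nat_lit 0x80000000f000780004001000090000000000000000000000000000000) (nat_lit 0x0) (nat_lit 0x18000400330000000000000000000000000000000000000000000000000000) := T_23 (nat_lit 212) (nat_lit 213) (nat_lit 3) (nat_lit 5) (nat_lit 11) L14793 (by decide +kernel)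
theorem L14795 : W_23 (nat_lit 5) (nat_lit 0x80000000e000780004001000090000000000000000000000000000000) (nat_lit 0x0) (nat_lit 0x18000400330001800000000000000000000000000000000000000000000000) := T_23 (nat_lit 192) (nat_lit 191) (nat_lit 2) (nat_lit 4) (nat_lit 11) L14794 (by decide +kernel)
theorem L14796 : W_23 (nat_lit 6) (nat_lit 0x80000000e000780004001000080000000000000000000000000000000) (nat_lit 0x0) (nat_lit 0x18000400330001800000000000200010000000000000000000000000000000) := T_23 (nat_lit 124) (nat_lit 141) (nat_lit 7) (nat_lit 5) (nat_lit 7) L14795 (by decide +kernel)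
theorem L14797 : W_23 (nat_lit 7) (nat_lit 0xe000780004001000080000000000000000000000000000000) (nat_lit 0x0) (nat_lit 0x18000c00370001800000000000200010000000000000000000000000000000) := T_23 (nat_lit 227) (nat_lit 210) (nat_lit 4) (nat_lit 6) (nat_lit 13) L14796 (by decide +kernel)
theorem L14798 : W_23 (nat_lit 8) (nat_lit 0x6000780004001000080000000000000000000000000000000) (nat_lit 0x0) (nat_lit 0x18000c00370019800000000000200010000000000000000000000000000000) := T_23 (nat_lit 195) (nat_lit 196) (nat_lit 3) (nat_lit 5) (nat_lit 10) L14797 (by decide +kernel)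
theorem L14799 : W_23 (nat_lit 9) (nat_lit 0x6000780000001000080000000000000000000000000000000) (nat_lit 0x0) (nat_lit 0x18000c00370019800000006000200010000000000000000000000000000000) := T_23 (nat_lit 158) (nat_lit 157) (nat_lit 0) (nat_lit 8) (nat_lit 10) L14798 (by decide +kernel)
theorem L14800 : W_23 (nat_lit 4) (nat_lit 0xe000780000001000080000000000000000000000000000000) (nat_lit 0x0) (nat_lit 0x400030001800000008000400000000000000000000000000000000000) := T_23 (nat_lit 192) (nat_lit 191) (nat_lit 2) (nat_lit 4) (nat_lit 11) L14779 (by decide +kernel)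
theorem L14801 : W_23 (nat_lit 5) (nat_lit 0x6000780000001000080000000000000000000000000000000) (nat_lit 0x0) (nat_lit 0x400030019800000008000400000000000000000000000000000000000) := T_23 (nat_lit 195) (nat_lit 196) (nat_lit 3) (nat_lit 5) (nat_lit 10) L14800 (by decide +kernel)
theorem L14802 : W_23 (nat_lit 10) (nat_lit 0x4000780000001000080000000000000000000000000000000) (nat_lit 0x0) (nat_lit 0x18000c0037001b80000000e000600010000000000000000000000000000000) := Q_23 (nat_lit 193) (C_23 L12307 (C_23 L14791 (C_23 L14799 (C_23 L7690 (C_23 L14801 N_23))))) (by decide +kernel)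
theorem L14803 : W_23 (nat_lit 2) (nat_lit 0x8000c00078000c001000080000000000000000000000000000000) (nat_lit 0x0) (nat_lit 0x2000000000000400020000000000000000000000000000000) := D_23 (nat_lit 142) (nat_lit 125) (nat_lit 193) (nat_lit 7) (nat_lit 6) (nat_lit 7) (nat_lit 7) (nat_lit 6) (nat_lit 8) (by decide +kernel)
theorem L14804 : W_23 (nat_lit 3) (nat_lit 0xc00078000c001000080000000000000000000000000000000) (nat_lit 0x0) (nat_lit 0x1000080002000000000000400020000000000000000000000000000000) := T_23 (nat_lit 211) (nat_lit 228) (nat_lit 4) (nat_lit 7) (nat_lit 13) L14803 (by decide +kernel)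
theorem L14805 : W_23 (nat_lit 4) (nat_lit 0xc000780004001000080000000000000000000000000000000) (nat_lit 0x0) (nat_lit 0x1000080002000800008000400020000000000000000000000000000000) := T_23 (nat_lit 159) (nat_lit 179) (nat_lit 0) (nat_lit 9) (nat_lit 10) L14804 (by decide +kernel)
theorem L14806 : W_23 (nat_lit 5) (nat_lit 0xc000780000001000080000000000000000000000000000000) (nat_lit 0x0) (nat_lit 0x100008000200080000e000400020000000000000000000000000000000) := T_23 (nat_lit 158) (nat_lit 157) (nat_lit 0) (nat_lit 8) (nat_lit 10) L14805 (by decide +kernel)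
theorem L14807 : W_23 (nat_lit 6) (nat_lit 0x4000780000001000080000000000000000000000000000000) (nat_lit 0x0) (nat_lit 0x100008001a00080000e000400020000000000000000000000000000000) := T_23 (nat_lit 195) (nat_lit 196) (nat_lit 3) (nat_lit 5) (nat_lit 10) L14806 (by decide +kernel)
theorem L14808 : W_23 (nat_lit 11) (nat_lit 0x4000380000001000080000000000000000000000000000000) (nat_lit 0x0) (nat_lit 0x18001c003f001b800c0000e000600030000000000000000000000000000000) := Q_23 (nat_lit 178) (C_23 L14782 (C_23 L7414 (C_23 L14784 (C_23 L14789 (C_23 L14802 (C_23 L14807 N_23)))))) (by decide +kernel)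
theorem L14809 : W_23 (nat_lit 12) (nat_lit 0x4000300000001000080000000000000000000000000000000) (nat_lit 0x0) (nat_lit 0x18001c003f003bf00cf800fc00600030000000000000000000000000000000) := Q_23 (nat_lit 175) (C_23 L14148 (C_23 L12989 (C_23 L14777 (C_23 L14808 N_23)))) (by decide +kernel)
theorem L14810 : W_23 (nat_lit 2) (nat_lit 0x4000080034001e000300000001000080000000000000000000000000000000) (nat_lit 0x0) (nat_lit 0x8000400080000000000000000000000000000000000000000000000000000) := D_23 (nat_lit 226) (nat_lit 243) (nat_lit 211) (nat_lit 5) (nat_lit 6) (nat_lit 10) (nat_lit 1) (nat_lit 9) (nat_lit 12) (by decide +kernel)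
theorem L14811 : W_23 (nat_lit 3) (nat_lit 0x4000000034001e000300000001000080000000000000000000000000000000) (nat_lit 0x0) (nat_lit 0x18000c00080000000000000000000000000000000000000000000000000000) := T_23 (nat_lit 227) (nat_lit 244) (nat_lit 6) (nat_lit 6) (nat_lit 14) L14810 (by decide +kernel)
theorem L14812 : W_23 (nat_lit 4) (nat_lit 0x4000000014001e000300000001000080000000000000000000000000000000) (nat_lit 0x0) (nat_lit 0x18000c00680000000000000000000000000000000000000000000000000000) := T_23 (nat_lit 213) (nat_lit 214) (nat_lit 3) (nat_lit 6) (nat_lit 11) L14811 (by decide +kernel)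
theorem L14813 : W_23 (nat_lit 5) (nat_lit 0x4000000010001e000300000001000080000000000000000000000000000000) (nat_lit 0x0) (nat_lit 0x18000c006e0000000000000000000000000000000000000000000000000000) := T_23 (nat_lit 210) (nat_lit 209) (nat_lit 1) (nat_lit 9) (nat_lit 11) L14812 (by decide +kernel)
theorem L14814 : W_23 (nat_lit 6) (nat_lit 0x4000000010000e000300000001000080000000000000000000000000000000) (nat_lit 0x0) (nat_lit 0x18000c006e0030000000000000000000000000000000000000000000000000) := T_23 (nat_lit 196) (nat_lit 197) (nat_lit 0) (nat_lit 10) (nat_lit 11) L14813 (by decide +kernel)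
theorem L14815 : W_23 (nat_lit 7) (nat_lit 0x10000e000300000001000080000000000000000000000000000000) (nat_lit 0x0) (nat_lit 0x58002c006e0030000000000000000000000000000000000000000000000000) := T_23 (nat_lit 246) (nat_lit 229) (nat_lit 4) (nat_lit 8) (nat_lit 14) L14814 (by decide +kernel)
theorem L14816 : W_23 (nat_lit 2) (nat_lit 0x42001f0015001e800300000001000080000000000000000000000000000000) (nat_lit 0x0) (nat_lit 0x1400400000000000000000000000000000000000000000000) := D_23 (nat_lit 192) (nat_lit 178) (nat_lit 190) (nat_lit 2) (nat_lit 4) (nat_lit 11) (nat_lit 2) (nat_lit 3) (nat_lit 11) (by decide +kernel)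
theorem L14817 : W_23 (nat_lit 3) (nat_lit 0x42001f0015001e000300000001000080000000000000000000000000000000) (nat_lit 0x0) (nat_lit 0x1c00440000000000000000000000000000000000000000000) := T_23 (nat_lit 191) (nat_lit 174) (nat_lit 5) (nat_lit 4) (nat_lit 10) L14816 (by decide +kernel)
theorem L14818 : W_23 (nat_lit 4) (nat_lit 0x42001e0015001e000300000001000080000000000000000000000000000000) (nat_lit 0x0) (nat_lit 0x1000100000001c00440000000000000000000000000000000000000000000) := T_23 (nat_lit 224) (nat_lit 240) (nat_lit 1) (nat_lit 6) (nat_lit 13) L14817 (by decide +kernel)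
theorem L14819 : W_23 (nat_lit 5) (nat_lit 0x42001e0014001e000300000001000080000000000000000000000000000000) (nat_lit 0x0) (nat_lit 0x1000100018001c00440000000000000000000000000000000000000000000) := T_23 (nat_lit 208) (nat_lit 207) (nat_lit 0) (nat_lit 7) (nat_lit 13) L14818 (by decide +kernel)
theorem L14820 : W_23 (nat_lit 6) (nat_lit 0x40001e0014001e000300000001000080000000000000000000000000000000) (nat_lit 0x0) (nat_lit 0x7000100018001c00440000000000000000000000000000000000000000000) := T_23 (nat_lit 241) (nat_lit 242) (nat_lit 1) (nat_lit 7) (nat_lit 13) L14819 (by decide +kernel)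
theorem L14821 : W_23 (nat_lit 7) (nat_lit 0x40001c0014001e000300000001000080000000000000000000000000000000) (nat_lit 0x0) (nat_lit 0x7000300098001c00440000000000000000000000000000000000000000000) := T_23 (nat_lit 225) (nat_lit 211) (nat_lit 2) (nat_lit 4) (nat_lit 13) L14820 (by decide +kernel)
theorem L14822 : W_23 (nat_lit 8) (nat_lit 0x40000c0014001e000300000001000080000000000000000000000000000000) (nat_lit 0x0) (nat_lit 0x27001300098001c00440000000000000000000000000000000000000000000) := T_23 (nat_lit 228) (nat_lit 245) (nat_lit 7) (nat_lit 6) (nat_lit 10) L14821 (by decide +kernel)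
theorem L14823 : W_23 (nat_lit 9) (nat_lit 0x4000080014001e000300000001000080000000000000000000000000000000) (nat_lit 0x0) (nat_lit 0x2f001700098001c00440000000000000000000000000000000000000000000) := T_23 (nat_lit 226) (nat_lit 243) (nat_lit 5) (nat_lit 6) (nat_lit 10) L14822 (by decide +kernel)
theorem L14824 : W_23 (nat_lit 10) (nat_lit 0x4000000014001e000300000001000080000000000000000000000000000000) (nat_lit 0x0) (nat_lit 0x3f001f00098001c00440000000000000000000000000000000000000000000) := T_23 (nat_lit 227) (nat_lit 244) (nat_lit 6) (nat_lit 6) (nat_lit 14) L14823 (by decide +kernel)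
theorem L14825 : W_23 (nat_lit 11) (nat_lit 0x4000000010001e000300000001000080000000000000000000000000000000) (nat_lit 0x0) (nat_lit 0x3f001f000f8001c00440000000000000000000000000000000000000000000) := T_23 (nat_lit 210) (nat_lit 209) (nat_lit 1) (nat_lit 9) (nat_lit 11) L14824 (by decide +kernel)
theorem L14826 : W_23 (nat_lit 12) (nat_lit 0x10001e000300000001000080000000000000000000000000000000) (nat_lit 0x0) (nat_lit 0x7f003f000f8001c00440000000000000000000000000000000000000000000) := T_23 (nat_lit 246) (nat_lit 229) (nat_lit 4) (nat_lit 8) (nat_lit 14) L14825 (by decide +kernel)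
theorem L14827 : W_23 (nat_lit 13) (nat_lit 0x10000e000300000001000080000000000000000000000000000000) (nat_lit 0x0) (nat_lit 0x7f003f000f8031c00440000000000000000000000000000000000000000000) := T_23 (nat_lit 196) (nat_lit 197) (nat_lit 0) (nat_lit 10) (nat_lit 11) L14826 (by decide +kernel)
theorem L14828 : W_23 (nat_lit 14) (nat_lit 0x10000c000300000001000080000000000000000000000000000000) (nat_lit 0x0) (nat_lit 0x7f003f006f8033c00440000000000000000000000000000000000000000000) := Q_23 (nat_lit 193) (C_23 L11762 (C_23 L14815 (C_23 L11746 (C_23 L14827 N_23)))) (by decide +kernel)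
theorem L14829 : W_23 (nat_lit 15) (nat_lit 0xc000300000001000080000000000000000000000000000000) (nat_lit 0x0) (nat_lit 0x7f003f007f8033c00440010000800000000000000000000000000000000000) := Q_23 (nat_lit 212) (C_23 L12417 (C_23 L11750 (C_23 L11952 (C_23 L14828 N_23)))) (by decide +kernel)
theorem L14832 : W_23 (nat_lit 16) (nat_lit 0x4000300000001000080000000000000000000000000000000) (nat_lit 0x0) (nat_lit 0x80007f003f007f803bc00ce0016000a00010000000000000000000000000000000) := Q_23 (nat_lit 195) (C_23 L12487 (C_23 L5316 (C_23 L10838 (C_23 L14829 (C_23 L11734 (C_23 L14831 N_23)))))) (by decide +kernel)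
theorem L14835 : W_23 (nat_lit 4) (nat_lit 0x4000300008001400080000000000000000000000000000000) (nat_lit 0x0) (nat_lit 0x2000000010000a00118000000000000000000000000000000) := T_23 (nat_lit 143) (nat_lit 160) (nat_lit 6) (nat_lit 7) (nat_lit 11) L8128 (by decide +kernel)
theorem L14836 : W_23 (nat_lit 5) (nat_lit 0x4000300008001000080000000000000000000000000000000) (nat_lit 0x0) (nat_lit 0x2000000010000e00138000000000000000000000000000000) := T_23 (nat_lit 142) (nat_lit 125) (nat_lit 7) (nat_lit 6) (nat_lit 7) L14835 (by decide +kernel)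
theorem L14841 : W_23 (nat_lit 2) (nat_lit 0x1000070006000300018001000080000000000000000000000000000000) (nat_lit 0x0) (nat_lit 0x19000000000000000000000000000000000000000000000000) := D_23 (nat_lit 195) (nat_lit 196) (nat_lit 192) (nat_lit 1) (nat_lit 9) (nat_lit 11) (nat_lit 1) (nat_lit 8) (nat_lit 11) (by decide +kernel)
theorem L14842 : W_23 (nat_lit 3) (nat_lit 0x1000060006000300018001000080000000000000000000000000000000) (nat_lit 0x0) (nat_lit 0x18019000000000000000000000000000000000000000000000000) := T_23 (nat_lit 208) (nat_lit 207) (nat_lit 2) (nat_lit 3) (nat_lit 12) L14841 (by decide +kernel)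
theorem L14843 : W_23 (nat_lit 4) (nat_lit 0x1000040006000300018001000080000000000000000000000000000000) (nat_lit 0x0) (nat_lit 0x400038019000000000000000000000000000000000000000000000000) := T_23 (nat_lit 209) (nat_lit 226) (nat_lit 5) (nat_lit 6) (nat_lit 9) L14842 (by decide +kernel)
theorem L14844 : W_23 (nat_lit 5) (nat_lit 0x1000000006000300018001000080000000000000000000000000000000) (nat_lit 0x0) (nat_lit 0xc00078019000000000000000000000000000000000000000000000000) := T_23 (nat_lit 210) (nat_lit 227) (nat_lit 6) (nat_lit 6) (nat_lit 13) L14843 (by decide +kernel)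
theorem L14845 : W_23 (nat_lit 6) (nat_lit 0x1000000006000300008001000080000000000000000000000000000000) (nat_lit 0x0) (nat_lit 0xc00078019000000010000800000000000000000000000000000000000) := T_23 (nat_lit 160) (nat_lit 143) (nat_lit 6) (nat_lit 7) (nat_lit 11) L14844 (by decide +kernel)
theorem L14846 : W_23 (nat_lit 7) (nat_lit 0x6000300008001000080000000000000000000000000000000) (nat_lit 0x0) (nat_lit 0x1c000f8019000000010000800000000000000000000000000000000000) := T_23 (nat_lit 228) (nat_lit 211) (nat_lit 4) (nat_lit 7) (nat_lit 13) L14845 (by decide +kernel)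
theorem L14847 : W_23 (nat_lit 5) (nat_lit 0x6000300018001000080000000000000000000000000000000) (nat_lit 0x0) (nat_lit 0x38003c0001800000000000000000000000000000000000000000000000) := T_23 (nat_lit 210) (nat_lit 227) (nat_lit 6) (nat_lit 6) (nat_lit 13) L12125 (by decide +kernel)
theorem L14848 : W_23 (nat_lit 6) (nat_lit 0x6000300008001000080000000000000000000000000000000) (nat_lit 0x0) (nat_lit 0x38003c0001800000010000800000000000000000000000000000000000) := T_23 (nat_lit 160) (nat_lit 143) (nat_lit 6) (nat_lit 7) (nat_lit 11) L14847 (by decide +kernel)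
theorem L14849 : W_23 (nat_lit 2) (nat_lit 0x6801600034001e001100080000000000000000000000000000000) (nat_lit 0x0) (nat_lit 0x1800080000000000000000000000000000000000000000000) := D_23 (nat_lit 192) (nat_lit 175) (nat_lit 191) (nat_lit 4) (nat_lit 5) (nat_lit 12) (nat_lit 7) (nat_lit 4) (nat_lit 8) (by decide +kernel)
theorem L14850 : W_23 (nat_lit 3) (nat_lit 0x6801600034001e001000080000000000000000000000000000000) (nat_lit 0x0) (nat_lit 0x1800080000000180000000000000000000000000000000000) := T_23 (nat_lit 140) (nat_lit 139) (nat_lit 0) (nat_lit 7) (nat_lit 9) L14849 (by decide +kernel)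
theorem L14851 : W_23 (nat_lit 4) (nat_lit 0x6801600030001e001000080000000000000000000000000000000) (nat_lit 0x0) (nat_lit 0x18000e0000000180000000000000000000000000000000000) := T_23 (nat_lit 174) (nat_lit 173) (nat_lit 1) (nat_lit 7) (nat_lit 9) L14850 (by decide +kernel)
theorem L14852 : W_23 (nat_lit 5) (nat_lit 0x6801600030001c001000080000000000000000000000000000000) (nat_lit 0x0) (nat_lit 0x18000e0003000180000000000000000000000000000000000) := T_23 (nat_lit 157) (nat_lit 156) (nat_lit 3) (nat_lit 3) (nat_lit 9) L14851 (by decide +kernel)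
theorem L14853 : W_23 (nat_lit 6) (nat_lit 0x68016000300018001000080000000000000000000000000000000) (nat_lit 0x0) (nat_lit 0x18000e0007000380000000000000000000000000000000000) := T_23 (nat_lit 158) (nat_lit 141) (nat_lit 4) (nat_lit 6) (nat_lit 12) L14852 (by decide +kernel)
theorem L14854 : W_23 (nat_lit 7) (nat_lit 0x68006000300018001000080000000000000000000000000000000) (nat_lit 0x0) (nat_lit 0x198000e0007000380000000000000000000000000000000000) := T_23 (nat_lit 196) (nat_lit 195) (nat_lit 1) (nat_lit 9) (nat_lit 11) L14853 (by decide +kernel)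
theorem L14855 : W_23 (nat_lit 8) (nat_lit 0x60006000300018001000080000000000000000000000000000000) (nat_lit 0x0) (nat_lit 0x180198000e0007000380000000000000000000000000000000000) := T_23 (nat_lit 207) (nat_lit 208) (nat_lit 2) (nat_lit 3) (nat_lit 12) L14854 (by decide +kernel)
theorem L14856 : W_23 (nat_lit 9) (nat_lit 0x40006000300018001000080000000000000000000000000000000) (nat_lit 0x0) (nat_lit 0x4000380198000e0007000380000000000000000000000000000000000) := T_23 (nat_lit 209) (nat_lit 226) (nat_lit 5) (nat_lit 6) (nat_lit 9) L14855 (by decide +kernel)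
theorem L14857 : W_23 (nat_lit 10) (nat_lit 0x6000300018001000080000000000000000000000000000000) (nat_lit 0x0) (nat_lit 0xc000780198000e0007000380000000000000000000000000000000000) := T_23 (nat_lit 210) (nat_lit 227) (nat_lit 6) (nat_lit 6) (nat_lit 13) L14856 (by decide +kernel)
theorem L14858 : W_23 (nat_lit 11) (nat_lit 0x6000300008001000080000000000000000000000000000000) (nat_lit 0x0) (nat_lit 0xc000780198000e0017000b80000000000000000000000000000000000) := T_23 (nat_lit 160) (nat_lit 143) (nat_lit 6) (nat_lit 7) (nat_lit 11) L14857 (by decide +kernel)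
theorem L14859 : W_23 (nat_lit 2) (nat_lit 0x40006000300008001000080000000000000000000000000000000) (nat_lit 0x0) (nat_lit 0x10000800000000000000010000000000000000000000000000000000000000) := D_23 (nat_lit 227) (nat_lit 160) (nat_lit 244) (nat_lit 6) (nat_lit 6) (nat_lit 13) (nat_lit 6) (nat_lit 6) (nat_lit 14) (by decide +kernel)
theorem L14860 : W_23 (nat_lit 5) (nat_lit 0x6000300008001000080000000000000000000000000000000) (nat_lit 0x0) (nat_lit 0x10001c000f8008000000010000000000000000000000000000000000000000) := Q_23 (nat_lit 210) (C_23 L12276 (C_23 L14859 N_23)) (by decide +kernel)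
theorem L14863 : W_23 (nat_lit 2) (nat_lit 0x10000000070006000300008001000080000000000000000000000000000000) (nat_lit 0x0) (nat_lit 0x19000000000000000000000000000000000000000000000000) := D_23 (nat_lit 195) (nat_lit 196) (nat_lit 192) (nat_lit 1) (nat_lit 9) (nat_lit 11) (nat_lit 1) (nat_lit 8) (nat_lit 11) (by decide +kernel)
theorem L14864 : W_23 (nat_lit 3) (nat_lit 0x10000000060006000300008001000080000000000000000000000000000000) (nat_lit 0x0) (nat_lit 0x18019000000000000000000000000000000000000000000000000) := T_23 (nat_lit 208) (nat_lit 207) (nat_lit 2) (nat_lit 3) (nat_lit 12) L14863 (by decide +kernel)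
theorem L14865 : W_23 (nat_lit 4) (nat_lit 0x10000000040006000300008001000080000000000000000000000000000000) (nat_lit 0x0) (nat_lit 0x400038019000000000000000000000000000000000000000000000000) := T_23 (nat_lit 209) (nat_lit 226) (nat_lit 5) (nat_lit 6) (nat_lit 9) L14864 (by decide +kernel)
theorem L14866 : W_23 (nat_lit 5) (nat_lit 0x40006000300008001000080000000000000000000000000000000) (nat_lit 0x0) (nat_lit 0x10000c00038019000000000000000000000000000000000000000000000000) := T_23 (nat_lit 244) (nat_lit 227) (nat_lit 6) (nat_lit 6) (nat_lit 14) L14865 (by decide +kernel)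
theorem L14867 : W_23 (nat_lit 6) (nat_lit 0x6000300008001000080000000000000000000000000000000) (nat_lit 0x0) (nat_lit 0x30001c000f8019000000000000000000000000000000000000000000000000) := Q_23 (nat_lit 210) (C_23 L12276 (C_23 L14862 (C_23 L14866 N_23))) (by decide +kernel)
theorem L14871 : W_23 (nat_lit 5) (nat_lit 0x80006000300008001000080000000000000000000000000000000) (nat_lit 0x0) (nat_lit 0x2000700009800000010000800000000000000000000000000000000000) := T_23 (nat_lit 160) (nat_lit 143) (nat_lit 6) (nat_lit 7) (nat_lit 11) L14870 (by decide +kernel)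
theorem L14872 : W_23 (nat_lit 6) (nat_lit 0x6000300008001000080000000000000000000000000000000) (nat_lit 0x0) (nat_lit 0x3000780009800000010000800000000000000000000000000000000000) := T_23 (nat_lit 211) (nat_lit 228) (nat_lit 4) (nat_lit 7) (nat_lit 13) L14871 (by decide +kernel)
theorem L14873 : W_23 (nat_lit 12) (nat_lit 0x4000300008001000080000000000000000000000000000000) (nat_lit 0x0) (nat_lit 0x30003c007f801b8000e0017000b80000000000000000000000000000000000) := Q_23 (nat_lit 193) (C_23 L14846 (C_23 L14848 (C_23 L14858 (C_23 L14860 (C_23 L14867 (C_23 L14872 N_23)))))) (by decide +kernel)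
theorem L14874 : W_23 (nat_lit 13) (nat_lit 0x4000300000001000080000000000000000000000000000000) (nat_lit 0x0) (nat_lit 0x30003c007f801b8000e001f000f80138000000000000000000000000000000) := Q_23 (nat_lit 159) (C_23 L14834 (C_23 L14836 (C_23 L14838 (C_23 L14840 (C_23 L14873 N_23))))) (by decide +kernel)
theorem L14875 : W_23 (nat_lit 2) (nat_lit 0x4000300008001f00080000000000000000000000000000000) (nat_lit 0x0) (nat_lit 0x7000000000000000000000000000000000000000) := D_23 (nat_lit 157) (nat_lit 156) (nat_lit 158) (nat_lit 1) (nat_lit 7) (nat_lit 8) (nat_lit 1) (nat_lit 8) (nat_lit 8) (by decide +kernel)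
theorem L14876 : W_23 (nat_lit 3) (nat_lit 0x4000300008001e00080000000000000000000000000000000) (nat_lit 0x0) (nat_lit 0x7000100040000000000000000000000000000000) := T_23 (nat_lit 140) (nat_lit 126) (nat_lit 2) (nat_lit 4) (nat_lit 8) L14875 (by decide +kernel)
theorem L14877 : W_23 (nat_lit 4) (nat_lit 0x4000300008001c00080000000000000000000000000000000) (nat_lit 0x0) (nat_lit 0x7000300140000000000000000000000000000000) := T_23 (nat_lit 141) (nat_lit 128) (nat_lit 2) (nat_lit 5) (nat_lit 8) L14876 (by decide +kernel)
theorem L14878 : W_23 (nat_lit 5) (nat_lit 0x4000300008001800080000000000000000000000000000000) (nat_lit 0x0) (nat_lit 0x7000700160000000000000000000000000000000) := T_23 (nat_lit 142) (nat_lit 125) (nat_lit 7) (nat_lit 6) (nat_lit 7) L14877 (by decide +kernel)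
theorem L14879 : W_23 (nat_lit 6) (nat_lit 0x4000300008001000080000000000000000000000000000000) (nat_lit 0x0) (nat_lit 0x17000f00160000000000000000000000000000000) := T_23 (nat_lit 143) (nat_lit 160) (nat_lit 6) (nat_lit 7) (nat_lit 11) L14878 (by decide +kernel)
theorem L14882 : W_23 (nat_lit 4) (nat_lit 0x10000000048003c0008001000080000000000000000000000000000000) (nat_lit 0x0) (nat_lit 0x400020001000400003000100000000000000000000000000000000000) := T_23 (nat_lit 157) (nat_lit 156) (nat_lit 0) (nat_lit 7) (nat_lit 10) L14881 (by decide +kernel)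
theorem L14883 : W_23 (nat_lit 5) (nat_lit 0x10000000040003c0008001000080000000000000000000000000000000) (nat_lit 0x0) (nat_lit 0x400020001c00400003000100000000000000000000000000000000000) := T_23 (nat_lit 191) (nat_lit 190) (nat_lit 1) (nat_lit 7) (nat_lit 10) L14882 (by decide +kernel)
theorem L14884 : W_23 (nat_lit 6) (nat_lit 0x1000000004000380008001000080000000000000000000000000000000) (nat_lit 0x0) (nat_lit 0x400020009c00440003000100000000000000000000000000000000000) := T_23 (nat_lit 174) (nat_lit 195) (nat_lit 3) (nat_lit 4) (nat_lit 10) L14883 (by decide +kernel)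
theorem L14885 : W_23 (nat_lit 7) (nat_lit 0x4000380008001000080000000000000000000000000000000) (nat_lit 0x0) (nat_lit 0x14000a0009c00440003000100000000000000000000000000000000000) := T_23 (nat_lit 228) (nat_lit 211) (nat_lit 4) (nat_lit 7) (nat_lit 13) L14884 (by decide +kernel)
theorem L14886 : W_23 (nat_lit 2) (nat_lit 0x10000000049003f00090010000a0000000000000000000000000000000) (nat_lit 0x0) (nat_lit 0x1080008000000000000000000000000000000000000000000) := D_23 (nat_lit 171) (nat_lit 192) (nat_lit 187) (nat_lit 3) (nat_lit 1) (nat_lit 10) (nat_lit 1) (nat_lit 4) (nat_lit 10) (by decide +kernel)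
theorem L14887 : W_23 (nat_lit 3) (nat_lit 0x10000000048003f00090010000a0000000000000000000000000000000) (nat_lit 0x0) (nat_lit 0x1380008000000000000000000000000000000000000000000) := T_23 (nat_lit 188) (nat_lit 189) (nat_lit 1) (nat_lit 5) (nat_lit 10) L14886 (by decide +kernel)
theorem L14888 : W_23 (nat_lit 4) (nat_lit 0x10000000048003e00090010000a0000000000000000000000000000000) (nat_lit 0x0) (nat_lit 0x1380018004000000000000000000000000000000000000000) := T_23 (nat_lit 172) (nat_lit 158) (nat_lit 2) (nat_lit 2) (nat_lit 10) L14887 (by decide +kernel)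
theorem L14889 : W_23 (nat_lit 5) (nat_lit 0x10000000048003c00090010000a0000000000000000000000000000000) (nat_lit 0x0) (nat_lit 0x1380038004800000000000000000000000000000000000000) := T_23 (nat_lit 173) (nat_lit 155) (nat_lit 0) (nat_lit 6) (nat_lit 10) L14888 (by decide +kernel)
theorem L14890 : W_23 (nat_lit 6) (nat_lit 0x10000000048003c00080010000a0000000000000000000000000000000) (nat_lit 0x0) (nat_lit 0x1380038007800000000000000000000000000000000000000) := T_23 (nat_lit 156) (nat_lit 157) (nat_lit 0) (nat_lit 7) (nat_lit 10) L14889 (by decide +kernel)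
theorem L14891 : W_23 (nat_lit 7) (nat_lit 0x10000000040003c00080010000a0000000000000000000000000000000) (nat_lit 0x0) (nat_lit 0x1f80038007800000000000000000000000000000000000000) := T_23 (nat_lit 191) (nat_lit 190) (nat_lit 1) (nat_lit 7) (nat_lit 10) L14890 (by decide +kernel)
theorem L14892 : W_23 (nat_lit 8) (nat_lit 0x10000000040003800080010000a0000000000000000000000000000000) (nat_lit 0x0) (nat_lit 0x9f80078007800000000000000000000000000000000000000) := T_23 (nat_lit 174) (nat_lit 195) (nat_lit 3) (nat_lit 4) (nat_lit 10) L14891 (by decide +kernel)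
theorem L14893 : W_23 (nat_lit 9) (nat_lit 0x40003800080010000a0000000000000000000000000000000) (nat_lit 0x0) (nat_lit 0x1000080009f80078007800000000000000000000000000000000000000) := T_23 (nat_lit 228) (nat_lit 211) (nat_lit 4) (nat_lit 7) (nat_lit 13) L14892 (by decide +kernel)
theorem L14894 : W_23 (nat_lit 10) (nat_lit 0x4000380008001000080000000000000000000000000000000) (nat_lit 0x0) (nat_lit 0x1000080009f80078007800400020000000000000000000000000000000) := T_23 (nat_lit 125) (nat_lit 142) (nat_lit 7) (nat_lit 6) (nat_lit 7) L14893 (by decide +kernel)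
theorem L14895 : W_23 (nat_lit 2) (nat_lit 0x48003c000a0010000a0000000000000000000000000000000) (nat_lit 0x0) (nat_lit 0x1000400004000000000000000000000000000000000000000) := D_23 (nat_lit 178) (nat_lit 192) (nat_lit 158) (nat_lit 1) (nat_lit 8) (nat_lit 10) (nat_lit 0) (nat_lit 8) (nat_lit 10) (by decide +kernel)
theorem L14896 : W_23 (nat_lit 3) (nat_lit 0x48003c00080010000a0000000000000000000000000000000) (nat_lit 0x0) (nat_lit 0x1000400007000000000000000000000000000000000000000) := T_23 (nat_lit 157) (nat_lit 156) (nat_lit 0) (nat_lit 7) (nat_lit 10) L14895 (by decide +kernel)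
theorem L14897 : W_23 (nat_lit 4) (nat_lit 0x40003c00080010000a0000000000000000000000000000000) (nat_lit 0x0) (nat_lit 0x1c00400007000000000000000000000000000000000000000) := T_23 (nat_lit 191) (nat_lit 190) (nat_lit 1) (nat_lit 7) (nat_lit 10) L14896 (by decide +kernel)
theorem L14898 : W_23 (nat_lit 5) (nat_lit 0x40003c0008001000080000000000000000000000000000000) (nat_lit 0x0) (nat_lit 0x1c00400007000400020000000000000000000000000000000) := T_23 (nat_lit 125) (nat_lit 142) (nat_lit 7) (nat_lit 6) (nat_lit 7) L14897 (by decide +kernel)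
theorem L14899 : W_23 (nat_lit 6) (nat_lit 0x48003c00090010000a0000000000000000000000000000000) (nat_lit 0x0) (nat_lit 0x1000080001380038004800000000000000000000000000000000000000) := T_23 (nat_lit 228) (nat_lit 211) (nat_lit 4) (nat_lit 7) (nat_lit 13) L14889 (by decide +kernel)
theorem L14900 : W_23 (nat_lit 7) (nat_lit 0x48003c00080010000a0000000000000000000000000000000) (nat_lit 0x0) (nat_lit 0x1000080001380038007800000000000000000000000000000000000000) := T_23 (nat_lit 156) (nat_lit 157) (nat_lit 0) (nat_lit 7) (nat_lit 10) L14899 (by decide +kernel)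
theorem L14901 : W_23 (nat_lit 8) (nat_lit 0x48003c0008001000080000000000000000000000000000000) (nat_lit 0x0) (nat_lit 0x1000080001380038007800400020000000000000000000000000000000) := T_23 (nat_lit 125) (nat_lit 142) (nat_lit 7) (nat_lit 6) (nat_lit 7) L14900 (by decide +kernel)
theorem L14902 : W_23 (nat_lit 9) (nat_lit 0x40003c0008001000080000000000000000000000000000000) (nat_lit 0x0) (nat_lit 0x1000080001f80038007800400020000000000000000000000000000000) := T_23 (nat_lit 191) (nat_lit 190) (nat_lit 1) (nat_lit 7) (nat_lit 10) L14901 (by decide +kernel)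
theorem L14903 : W_23 (nat_lit 2) (nat_lit 0x48003c000a001000080000000000000000000000000000000) (nat_lit 0x0) (nat_lit 0x1000400004000000000000000000000000000000000000000) := D_23 (nat_lit 178) (nat_lit 158) (nat_lit 192) (nat_lit 0) (nat_lit 8) (nat_lit 10) (nat_lit 1) (nat_lit 8) (nat_lit 10) (by decide +kernel)
theorem L14904 : W_23 (nat_lit 3) (nat_lit 0x40003c000a001000080000000000000000000000000000000) (nat_lit 0x0) (nat_lit 0x1c00400004000000000000000000000000000000000000000) := T_23 (nat_lit 191) (nat_lit 190) (nat_lit 1) (nat_lit 7) (nat_lit 10) L14903 (by decide +kernel)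
theorem L14905 : W_23 (nat_lit 4) (nat_lit 0x40003c0008001000080000000000000000000000000000000) (nat_lit 0x0) (nat_lit 0x1c00400007000000000000000000000000000000000000000) := T_23 (nat_lit 157) (nat_lit 156) (nat_lit 0) (nat_lit 7) (nat_lit 10) L14904 (by decide +kernel)
theorem L14906 : W_23 (nat_lit 2) (nat_lit 0x48003c000e0010000a0000000000000000000000000000000) (nat_lit 0x0) (nat_lit 0x10000000000000000200010000000000000000000000000000000) := D_23 (nat_lit 141) (nat_lit 124) (nat_lit 208) (nat_lit 5) (nat_lit 5) (nat_lit 7) (nat_lit 6) (nat_lit 4) (nat_lit 12) (by decide +kernel)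
theorem L14907 : W_23 (nat_lit 3) (nat_lit 0x40003c000e0010000a0000000000000000000000000000000) (nat_lit 0x0) (nat_lit 0x10000c00000000000200010000000000000000000000000000000) := T_23 (nat_lit 191) (nat_lit 190) (nat_lit 1) (nat_lit 7) (nat_lit 10) L14906 (by decide +kernel)
theorem L14908 : W_23 (nat_lit 4) (nat_lit 0x40003c000a0010000a0000000000000000000000000000000) (nat_lit 0x0) (nat_lit 0x10000c00400004000200010000000000000000000000000000000) := T_23 (nat_lit 158) (nat_lit 178) (nat_lit 0) (nat_lit 8) (nat_lit 10) L14907 (by decide +kernel)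
theorem L14909 : W_23 (nat_lit 5) (nat_lit 0x40003c000a001000080000000000000000000000000000000) (nat_lit 0x0) (nat_lit 0x10000c00400004000600030000000000000000000000000000000) := T_23 (nat_lit 125) (nat_lit 142) (nat_lit 7) (nat_lit 6) (nat_lit 7) L14908 (by decide +kernel)
theorem L14910 : W_23 (nat_lit 6) (nat_lit 0x40003c0008001000080000000000000000000000000000000) (nat_lit 0x0) (nat_lit 0x10000c00400007000600030000000000000000000000000000000) := T_23 (nat_lit 157) (nat_lit 156) (nat_lit 0) (nat_lit 7) (nat_lit 10) L14909 (by decide +kernel)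
theorem L14913 : W_23 (nat_lit 4) (nat_lit 0x48003c000a0010000a0000000000000000000000000000000) (nat_lit 0x0) (nat_lit 0x14000a0001000400000000100000000000000000000000000000000000) := T_23 (nat_lit 228) (nat_lit 211) (nat_lit 4) (nat_lit 7) (nat_lit 13) L14912 (by decide +kernel)
theorem L14914 : W_23 (nat_lit 5) (nat_lit 0x40003c000a0010000a0000000000000000000000000000000) (nat_lit 0x0) (nat_lit 0x14000a0001c00400000000100000000000000000000000000000000000) := T_23 (nat_lit 191) (nat_lit 190) (nat_lit 1) (nat_lit 7) (nat_lit 10) L14913 (by decide +kernel)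
theorem L14915 : W_23 (nat_lit 6) (nat_lit 0x40003c000a001000080000000000000000000000000000000) (nat_lit 0x0) (nat_lit 0x14000a0001c00400000000500020000000000000000000000000000000) := T_23 (nat_lit 125) (nat_lit 142) (nat_lit 7) (nat_lit 6) (nat_lit 7) L14914 (by decide +kernel)
theorem L14916 : W_23 (nat_lit 7) (nat_lit 0x40003c0008001000080000000000000000000000000000000) (nat_lit 0x0) (nat_lit 0x14000a0001c00400003000500020000000000000000000000000000000) := T_23 (nat_lit 157) (nat_lit 156) (nat_lit 0) (nat_lit 7) (nat_lit 10) L14915 (by decide +kernel)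
theorem L14930 : W_23 (nat_lit 6) (nat_lit 0x10000000040003c0008001000080000000000000000000000000000000) (nat_lit 0x0) (nat_lit 0xe00030005c00400020000000000000000000000000000000) := T_23 (nat_lit 125) (nat_lit 142) (nat_lit 7) (nat_lit 6) (nat_lit 7) L14929 (by decide +kernel)
theorem L14931 : W_23 (nat_lit 7) (nat_lit 0x40003c0008001000080000000000000000000000000000000) (nat_lit 0x0) (nat_lit 0x1000080000e00030005c00400020000000000000000000000000000000) := T_23 (nat_lit 228) (nat_lit 211) (nat_lit 4) (nat_lit 7) (nat_lit 13) L14930 (by decide +kernel)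
theorem L14932 : W_23 (nat_lit 2) (nat_lit 0x10000000048007c0008001000080000000000000000000000000000000) (nat_lit 0x0) (nat_lit 0x800006000000000000000000000000000000000000000) := D_23 (nat_lit 158) (nat_lit 179) (nat_lit 157) (nat_lit 0) (nat_lit 9) (nat_lit 10) (nat_lit 0) (nat_lit 8) (nat_lit 10) (by decide +kernel)
theorem L14933 : W_23 (nat_lit 3) (nat_lit 0x10000000048003c0008001000080000000000000000000000000000000) (nat_lit 0x0) (nat_lit 0x1000c00006000000000000000000000000000000000000000) := T_23 (nat_lit 178) (nat_lit 192) (nat_lit 1) (nat_lit 8) (nat_lit 10) L14932 (by decide +kernel)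
theorem L14934 : W_23 (nat_lit 4) (nat_lit 0x48003c0008001000080000000000000000000000000000000) (nat_lit 0x0) (nat_lit 0x1000080001000c00006000000000000000000000000000000000000000) := T_23 (nat_lit 228) (nat_lit 211) (nat_lit 4) (nat_lit 7) (nat_lit 13) L14933 (by decide +kernel)
theorem L14935 : W_23 (nat_lit 5) (nat_lit 0x40003c0008001000080000000000000000000000000000000) (nat_lit 0x0) (nat_lit 0x1000080001c00c00006000000000000000000000000000000000000000) := T_23 (nat_lit 191) (nat_lit 190) (nat_lit 1) (nat_lit 7) (nat_lit 10) L14934 (by decide +kernel)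
theorem L14936 : W_23 (nat_lit 11) (nat_lit 0x4000380008001000080000000000000000000000000000000) (nat_lit 0x0) (nat_lit 0x14000b0001f80c78007c00f00038000c00000000000000000000000000) := Q_23 (nat_lit 174) (C_23 L14898 (C_23 L14902 (C_23 L14905 (C_23 L14910 (C_23 L14916 (C_23 L14925 (C_23 L14931 (C_23 L14935 N_23)))))))) (by decide +kernel)
theorem L14937 : W_23 (nat_lit 5) (nat_lit 0x40003800080010000a0000000000000000000000000000000) (nat_lit 0x0) (nat_lit 0x9c00440007000000000000000000000000000000000000000) := T_23 (nat_lit 174) (nat_lit 195) (nat_lit 3) (nat_lit 4) (nat_lit 10) L14897 (by decide +kernel)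
theorem L14938 : W_23 (nat_lit 6) (nat_lit 0x4000380008001000080000000000000000000000000000000) (nat_lit 0x0) (nat_lit 0x9c00440007000400020000000000000000000000000000000) := T_23 (nat_lit 125) (nat_lit 142) (nat_lit 7) (nat_lit 6) (nat_lit 7) L14937 (by decide +kernel)
theorem L14939 : W_23 (nat_lit 8) (nat_lit 0x4000380008001000080000000000000000000000000000000) (nat_lit 0x0) (nat_lit 0x1000080008e00070005c00400020000000000000000000000000000000) := T_23 (nat_lit 174) (nat_lit 195) (nat_lit 3) (nat_lit 4) (nat_lit 10) L14931 (by decide +kernel)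
theorem L14948 : W_23 (nat_lit 2) (nat_lit 0xa000d00078000c0010000a0000000000000000000000000000000) (nat_lit 0x0) (nat_lit 0x200050000000000000000000000000000000000000000000000000000) := D_23 (nat_lit 208) (nat_lit 225) (nat_lit 210) (nat_lit 5) (nat_lit 5) (nat_lit 9) (nat_lit 2) (nat_lit 4) (nat_lit 12) (by decide +kernel)
theorem L14949 : W_23 (nat_lit 3) (nat_lit 0x8000d00078000c0010000a0000000000000000000000000000000) (nat_lit 0x0) (nat_lit 0x600070000000000000000000000000000000000000000000000000000) := T_23 (nat_lit 209) (nat_lit 226) (nat_lit 6) (nat_lit 5) (nat_lit 13) L14948 (by decide +kernel)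
theorem L14950 : W_23 (nat_lit 4) (nat_lit 0x8000500078000c0010000a0000000000000000000000000000000) (nat_lit 0x0) (nat_lit 0x600070018000000000000000000000000000000000000000000000000) := T_23 (nat_lit 195) (nat_lit 196) (nat_lit 3) (nat_lit 5) (nat_lit 10) L14949 (by decide +kernel)
theorem L14951 : W_23 (nat_lit 5) (nat_lit 0x8000400078000c0010000a0000000000000000000000000000000) (nat_lit 0x0) (nat_lit 0x600070019800000000000000000000000000000000000000000000000) := T_23 (nat_lit 192) (nat_lit 191) (nat_lit 1) (nat_lit 8) (nat_lit 10) L14950 (by decide +kernel)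
theorem L14952 : W_23 (nat_lit 6) (nat_lit 0x8000400038000c0010000a0000000000000000000000000000000) (nat_lit 0x0) (nat_lit 0x600070019800c00000000000000000000000000000000000000000000) := T_23 (nat_lit 178) (nat_lit 179) (nat_lit 0) (nat_lit 9) (nat_lit 10) L14951 (by decide +kernel)
theorem L14953 : W_23 (nat_lit 7) (nat_lit 0x400038000c0010000a0000000000000000000000000000000) (nat_lit 0x0) (nat_lit 0x16000f0019800c00000000000000000000000000000000000000000000) := T_23 (nat_lit 211) (nat_lit 228) (nat_lit 4) (nat_lit 7) (nat_lit 13) L14952 (by decide +kernel)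
theorem L14954 : W_23 (nat_lit 8) (nat_lit 0x400038000c001000080000000000000000000000000000000) (nat_lit 0x0) (nat_lit 0x16000f0019800c00000000400020000000000000000000000000000000) := T_23 (nat_lit 125) (nat_lit 142) (nat_lit 7) (nat_lit 6) (nat_lit 7) L14953 (by decide +kernel)
theorem L14955 : W_23 (nat_lit 9) (nat_lit 0x4000380008001000080000000000000000000000000000000) (nat_lit 0x0) (nat_lit 0x16000f0019800c00007000f00038000c00000000000000000000000000) := Q_23 (nat_lit 158) (C_23 L14940 (C_23 L14947 (C_23 L14954 N_23))) (by decide +kernel)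
theorem L14969 : W_23 (nat_lit 12) (nat_lit 0x4000300008001000080000000000000000000000000000000) (nat_lit 0x0) (nat_lit 0x16000f0019f80cf8007c00f00038000c00000000000000000000000000) := Q_23 (nat_lit 175) (C_23 L14885 (C_23 L14894 (C_23 L14936 (C_23 L14938 (C_23 L14939 (C_23 L14955 (C_23 L14962 (C_23 L14968 N_23)))))))) (by decide +kernel)
theorem L14970 : W_23 (nat_lit 2) (nat_lit 0x100000000400030000e001000080000000000000000000000000000000) (nat_lit 0x0) (nat_lit 0xc80000000000000000000000000000000000000000000) := D_23 (nat_lit 178) (nat_lit 179) (nat_lit 175) (nat_lit 0) (nat_lit 9) (nat_lit 10) (nat_lit 0) (nat_lit 8) (nat_lit 10) (by decide +kernel)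
theorem L14971 : W_23 (nat_lit 3) (nat_lit 0x100000000400030000c001000080000000000000000000000000000000) (nat_lit 0x0) (nat_lit 0xc80003000000000000000000000000000000000000000) := T_23 (nat_lit 157) (nat_lit 156) (nat_lit 3) (nat_lit 3) (nat_lit 9) L14970 (by decide +kernel)
theorem L14972 : W_23 (nat_lit 4) (nat_lit 0x400030000c001000080000000000000000000000000000000) (nat_lit 0x0) (nat_lit 0x1000080000000c80003000000000000000000000000000000000000000) := T_23 (nat_lit 228) (nat_lit 211) (nat_lit 4) (nat_lit 7) (nat_lit 13) L14971 (by decide +kernel)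
theorem L14980 : W_23 (nat_lit 2) (nat_lit 0x400030001c001000080000000000000000000000000000000) (nat_lit 0x0) (nat_lit 0x400003000000000000000000000000000000000000000) := D_23 (nat_lit 157) (nat_lit 178) (nat_lit 156) (nat_lit 3) (nat_lit 4) (nat_lit 9) (nat_lit 3) (nat_lit 3) (nat_lit 9) (by decide +kernel)
theorem L14981 : W_23 (nat_lit 3) (nat_lit 0x400030000c001000080000000000000000000000000000000) (nat_lit 0x0) (nat_lit 0x400013000800000000000000000000000000000000000) := T_23 (nat_lit 160) (nat_lit 143) (nat_lit 6) (nat_lit 7) (nat_lit 11) L14980 (by decide +kernel)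
theorem L14982 : W_23 (nat_lit 2) (nat_lit 0x100000001c00030000c001000080000000000000000000000000000000) (nat_lit 0x0) (nat_lit 0xc80000000000000000000000000000000000000000000) := D_23 (nat_lit 178) (nat_lit 179) (nat_lit 175) (nat_lit 0) (nat_lit 9) (nat_lit 10) (nat_lit 3) (nat_lit 5) (nat_lit 10) (by decide +kernel)
theorem L14983 : W_23 (nat_lit 3) (nat_lit 0x100000001400030000c001000080000000000000000000000000000000) (nat_lit 0x0) (nat_lit 0x28000c80000000000000000000000000000000000000000000) := T_23 (nat_lit 195) (nat_lit 197) (nat_lit 0) (nat_lit 10) (nat_lit 11) L14982 (by decide +kernel)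
theorem L14984 : W_23 (nat_lit 4) (nat_lit 0x1400030000c001000080000000000000000000000000000000) (nat_lit 0x0) (nat_lit 0x1000080028000c80000000000000000000000000000000000000000000) := T_23 (nat_lit 228) (nat_lit 211) (nat_lit 4) (nat_lit 7) (nat_lit 13) L14983 (by decide +kernel)
theorem L14985 : W_23 (nat_lit 2) (nat_lit 0xc003400030001c001000080000000000000000000000000000000) (nat_lit 0x0) (nat_lit 0x2000300000000000000000000000000000000000000000000000000000) := D_23 (nat_lit 212) (nat_lit 213) (nat_lit 229) (nat_lit 2) (nat_lit 6) (nat_lit 12) (nat_lit 7) (nat_lit 7) (nat_lit 9) (by decide +kernel)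
theorem L14986 : W_23 (nat_lit 3) (nat_lit 0x8003400030001c001000080000000000000000000000000000000) (nat_lit 0x0) (nat_lit 0x2800340000000000000000000000000000000000000000000000000000) := T_23 (nat_lit 210) (nat_lit 227) (nat_lit 5) (nat_lit 7) (nat_lit 9) L14985 (by decide +kernel)
theorem L14987 : W_23 (nat_lit 4) (nat_lit 0x3400030001c001000080000000000000000000000000000000) (nat_lit 0x0) (nat_lit 0x38003c0000000000000000000000000000000000000000000000000000) := T_23 (nat_lit 211) (nat_lit 228) (nat_lit 4) (nat_lit 7) (nat_lit 13) L14986 (by decide +kernel)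
theorem L14988 : W_23 (nat_lit 5) (nat_lit 0x1400030001c001000080000000000000000000000000000000) (nat_lit 0x0) (nat_lit 0x38003c0028000000000000000000000000000000000000000000000000) := T_23 (nat_lit 197) (nat_lit 195) (nat_lit 0) (nat_lit 10) (nat_lit 11) L14987 (by decide +kernel)
theorem L14989 : W_23 (nat_lit 6) (nat_lit 0x1400030000c001000080000000000000000000000000000000) (nat_lit 0x0) (nat_lit 0x38003c0028000000010000800000000000000000000000000000000000) := T_23 (nat_lit 160) (nat_lit 143) (nat_lit 6) (nat_lit 7) (nat_lit 11) L14988 (by decide +kernel)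
theorem L14990 : W_23 (nat_lit 2) (nat_lit 0x80003c0014000b0001c001000080000000000000000000000000000000) (nat_lit 0x0) (nat_lit 0x10000400000000000040000000000000000000000000000000000000000) := D_23 (nat_lit 214) (nat_lit 232) (nat_lit 162) (nat_lit 3) (nat_lit 7) (nat_lit 12) (nat_lit 7) (nat_lit 9) (nat_lit 9) (by decide +kernel)
theorem L14991 : W_23 (nat_lit 3) (nat_lit 0x3c0014000b0001c001000080000000000000000000000000000000) (nat_lit 0x0) (nat_lit 0x1c000400000000000040000000000000000000000000000000000000000) := T_23 (nat_lit 231) (nat_lit 230) (nat_lit 3) (nat_lit 6) (nat_lit 12) L14990 (by decide +kernel)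
theorem L14992 : W_23 (nat_lit 4) (nat_lit 0x3c001400030001c001000080000000000000000000000000000000) (nat_lit 0x0) (nat_lit 0x1c000400000000c00040000000000000000000000000000000000000000) := T_23 (nat_lit 179) (nat_lit 178) (nat_lit 0) (nat_lit 9) (nat_lit 10) L14991 (by decide +kernel)
theorem L14993 : W_23 (nat_lit 5) (nat_lit 0x1c001400030001c001000080000000000000000000000000000000) (nat_lit 0x0) (nat_lit 0x1c000600020000c00040000000000000000000000000000000000000000) := T_23 (nat_lit 213) (nat_lit 197) (nat_lit 2) (nat_lit 6) (nat_lit 12) L14992 (by decide +kernel)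
theorem L14994 : W_23 (nat_lit 6) (nat_lit 0xc001400030001c001000080000000000000000000000000000000) (nat_lit 0x0) (nat_lit 0x1e000700020000c00040000000000000000000000000000000000000000) := T_23 (nat_lit 212) (nat_lit 229) (nat_lit 7) (nat_lit 7) (nat_lit 9) L14993 (by decide +kernel)
theorem L14995 : W_23 (nat_lit 7) (nat_lit 0x8001400030001c001000080000000000000000000000000000000) (nat_lit 0x0) (nat_lit 0x1e800740020000c00040000000000000000000000000000000000000000) := T_23 (nat_lit 210) (nat_lit 227) (nat_lit 5) (nat_lit 7) (nat_lit 9) L14994 (by decide +kernel)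
theorem L14996 : W_23 (nat_lit 8) (nat_lit 0x8001400030000c001000080000000000000000000000000000000) (nat_lit 0x0) (nat_lit 0x1e800740020000c00050000800000000000000000000000000000000000) := T_23 (nat_lit 160) (nat_lit 143) (nat_lit 6) (nat_lit 7) (nat_lit 11) L14995 (by decide +kernel)
theorem L14997 : W_23 (nat_lit 9) (nat_lit 0x1400030000c001000080000000000000000000000000000000) (nat_lit 0x0) (nat_lit 0x1f8007c0020000c00050000800000000000000000000000000000000000) := T_23 (nat_lit 211) (nat_lit 228) (nat_lit 4) (nat_lit 7) (nat_lit 13) L14996 (by decide +kernel)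
theorem L14998 : W_23 (nat_lit 2) (nat_lit 0x1400070000c001000080000000000000000000000000000000) (nat_lit 0x0) (nat_lit 0x28000080000000000000000000000000000000000000000000) := D_23 (nat_lit 195) (nat_lit 197) (nat_lit 175) (nat_lit 0) (nat_lit 10) (nat_lit 11) (nat_lit 3) (nat_lit 5) (nat_lit 10) (by decide +kernel)
theorem L14999 : W_23 (nat_lit 3) (nat_lit 0x1400030000c001000080000000000000000000000000000000) (nat_lit 0x0) (nat_lit 0x28000c80000000000000000000000000000000000000000000) := T_23 (nat_lit 178) (nat_lit 179) (nat_lit 0) (nat_lit 9) (nat_lit 10) L14998 (by decide +kernel)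
theorem L15000 : W_23 (nat_lit 2) (nat_lit 0x10000000140007c001c001000080000000000000000000000000000000) (nat_lit 0x0) (nat_lit 0x1c00000000000000000000000000000000000000000000000) := D_23 (nat_lit 191) (nat_lit 192) (nat_lit 190) (nat_lit 1) (nat_lit 8) (nat_lit 10) (nat_lit 1) (nat_lit 7) (nat_lit 10) (by decide +kernel)
theorem L15001 : W_23 (nat_lit 3) (nat_lit 0x100000001400078001c001000080000000000000000000000000000000) (nat_lit 0x0) (nat_lit 0x1c00060000000000000000000000000000000000000000000) := T_23 (nat_lit 174) (nat_lit 173) (nat_lit 2) (nat_lit 3) (nat_lit 10) L15000 (by decide +kernel)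
theorem L15002 : W_23 (nat_lit 4) (nat_lit 0x100000001400070001c001000080000000000000000000000000000000) (nat_lit 0x0) (nat_lit 0x9c000e0000000000000000000000000000000000000000000) := T_23 (nat_lit 175) (nat_lit 195) (nat_lit 3) (nat_lit 5) (nat_lit 10) L15001 (by decide +kernel)
theorem L15003 : W_23 (nat_lit 5) (nat_lit 0x100000001400070000c001000080000000000000000000000000000000) (nat_lit 0x0) (nat_lit 0x9c000e0010000800000000000000000000000000000000000) := T_23 (nat_lit 160) (nat_lit 143) (nat_lit 6) (nat_lit 7) (nat_lit 11) L15002 (by decide +kernel)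
theorem L15004 : W_23 (nat_lit 6) (nat_lit 0x100000001400030000c001000080000000000000000000000000000000) (nat_lit 0x0) (nat_lit 0x9c00ce0010000800000000000000000000000000000000000) := T_23 (nat_lit 178) (nat_lit 179) (nat_lit 0) (nat_lit 9) (nat_lit 10) L15003 (by decide +kernel)
theorem L15005 : W_23 (nat_lit 7) (nat_lit 0x1400030000c001000080000000000000000000000000000000) (nat_lit 0x0) (nat_lit 0x1000080009c00ce0010000800000000000000000000000000000000000) := T_23 (nat_lit 228) (nat_lit 211) (nat_lit 4) (nat_lit 7) (nat_lit 13) L15004 (by decide +kernel)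
theorem L15006 : W_23 (nat_lit 10) (nat_lit 0x400030000c001000080000000000000000000000000000000) (nat_lit 0x0) (nat_lit 0x1f8007c0039c00ce0050000800000000000000000000000000000000000) := Q_23 (nat_lit 196) (C_23 L14984 (C_23 L14989 (C_23 L14997 (C_23 L14999 (C_23 L15005 N_23))))) (by decide +kernel)
theorem L15007 : W_23 (nat_lit 11) (nat_lit 0x4000300008001000080000000000000000000000000000000) (nat_lit 0x0) (nat_lit 0x1f8007e0039c00ce0057000980008000000000000000000000000000000) := Q_23 (nat_lit 158) (C_23 L14972 (C_23 L14979 (C_23 L14981 (C_23 L15006 N_23)))) (by decide +kernel)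
theorem L15008 : W_23 (nat_lit 13) (nat_lit 0x4000300000001000080000000000000000000000000000000) (nat_lit 0x0) (nat_lit 0x1fe007f0039f80cf805fc00f80178000c00000000000000000000000000) := Q_23 (nat_lit 159) (C_23 L14838 (C_23 L14879 (C_23 L14834 (C_23 L14969 (C_23 L15007 N_23))))) (by decide +kernel)
theorem L15009 : W_23 (nat_lit 7) (nat_lit 0xc000300000001000080000000000000000000000000000000) (nat_lit 0x0) (nat_lit 0x2800778033c00c00010000800000000000000000000000000000000000) := Q_23 (nat_lit 193) (C_23 L12445 (C_23 L11678 (C_23 L11651 (C_23 L12027 N_23)))) (by decide +kernel)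
theorem L15010 : W_23 (nat_lit 6) (nat_lit 0xe000300000001000080000000000000000000000000000000) (nat_lit 0x0) (nat_lit 0x8000400070001800cc000e000200010000000000000000000000000000000) := Q_23 (nat_lit 192) (C_23 L11729 (C_23 L11632 (C_23 L11585 N_23))) (by decide +kernel)
theorem L15011 : W_23 (nat_lit 2) (nat_lit 0xe000340008001400080000000000000000000000000000000) (nat_lit 0x0) (nat_lit 0x10000800040000000000000000000000000000000) := D_23 (nat_lit 143) (nat_lit 160) (nat_lit 126) (nat_lit 6) (nat_lit 7) (nat_lit 11) (nat_lit 6) (nat_lit 6) (nat_lit 11) (by decide +kernel)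
theorem L15012 : W_23 (nat_lit 3) (nat_lit 0xe000340008001000080000000000000000000000000000000) (nat_lit 0x0) (nat_lit 0x10000c00060000000000000000000000000000000) := T_23 (nat_lit 142) (nat_lit 125) (nat_lit 7) (nat_lit 6) (nat_lit 7) L15011 (by decide +kernel)
theorem L15013 : W_23 (nat_lit 4) (nat_lit 0xe000300008001000080000000000000000000000000000000) (nat_lit 0x0) (nat_lit 0xc0010000c00060000000000000000000000000000000) := T_23 (nat_lit 174) (nat_lit 175) (nat_lit 3) (nat_lit 4) (nat_lit 10) L15012 (by decide +kernel)
theorem L15014 : W_23 (nat_lit 2) (nat_lit 0x4000e00034001c001000080000000000000000000000000000000) (nat_lit 0x0) (nat_lit 0x420002000000000000000000000000000000000000000) := D_23 (nat_lit 157) (nat_lit 178) (nat_lit 173) (nat_lit 3) (nat_lit 4) (nat_lit 9) (nat_lit 1) (nat_lit 7) (nat_lit 9) (by decide +kernel)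
theorem L15015 : W_23 (nat_lit 3) (nat_lit 0x4000e000340018001000080000000000000000000000000000000) (nat_lit 0x0) (nat_lit 0x420006000200000000000000000000000000000000000) := T_23 (nat_lit 158) (nat_lit 141) (nat_lit 4) (nat_lit 6) (nat_lit 12) L15014 (by decide +kernel)
theorem L15016 : W_23 (nat_lit 4) (nat_lit 0x4000e000300018001000080000000000000000000000000000000) (nat_lit 0x0) (nat_lit 0x4e0006000200000000000000000000000000000000000) := T_23 (nat_lit 174) (nat_lit 175) (nat_lit 3) (nat_lit 4) (nat_lit 10) L15015 (by decide +kernel)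
theorem L15017 : W_23 (nat_lit 5) (nat_lit 0xe000300018001000080000000000000000000000000000000) (nat_lit 0x0) (nat_lit 0x8000400000004e0006000200000000000000000000000000000000000) := T_23 (nat_lit 210) (nat_lit 227) (nat_lit 6) (nat_lit 6) (nat_lit 13) L15016 (by decide +kernel)
theorem L15018 : W_23 (nat_lit 6) (nat_lit 0xe000300008001000080000000000000000000000000000000) (nat_lit 0x0) (nat_lit 0x8000400000004e0016000a00000000000000000000000000000000000) := T_23 (nat_lit 160) (nat_lit 143) (nat_lit 6) (nat_lit 7) (nat_lit 11) L15017 (by decide +kernel)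
theorem L15019 : W_23 (nat_lit 2) (nat_lit 0x4000e00030001c0010000a0000000000000000000000000000000) (nat_lit 0x0) (nat_lit 0x400003000000000000000000000000000000000000000) := D_23 (nat_lit 157) (nat_lit 178) (nat_lit 156) (nat_lit 3) (nat_lit 4) (nat_lit 9) (nat_lit 3) (nat_lit 3) (nat_lit 9) (by decide +kernel)
theorem L15020 : W_23 (nat_lit 3) (nat_lit 0x4000e0003000180010000a0000000000000000000000000000000) (nat_lit 0x0) (nat_lit 0x400007000200000000000000000000000000000000000) := T_23 (nat_lit 158) (nat_lit 141) (nat_lit 4) (nat_lit 6) (nat_lit 12) L15019 (by decide +kernel)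
theorem L15021 : W_23 (nat_lit 4) (nat_lit 0x4000e000300018001000080000000000000000000000000000000) (nat_lit 0x0) (nat_lit 0x400007000600020000000000000000000000000000000) := T_23 (nat_lit 125) (nat_lit 142) (nat_lit 7) (nat_lit 6) (nat_lit 7) L15020 (by decide +kernel)
theorem L15022 : W_23 (nat_lit 5) (nat_lit 0xe000300018001000080000000000000000000000000000000) (nat_lit 0x0) (nat_lit 0x800040000000400007000600020000000000000000000000000000000) := T_23 (nat_lit 210) (nat_lit 227) (nat_lit 6) (nat_lit 6) (nat_lit 13) L15021 (by decide +kernel)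
theorem L15023 : W_23 (nat_lit 6) (nat_lit 0xe000300008001000080000000000000000000000000000000) (nat_lit 0x0) (nat_lit 0x800040000000400017000e00020000000000000000000000000000000) := T_23 (nat_lit 160) (nat_lit 143) (nat_lit 6) (nat_lit 7) (nat_lit 11) L15022 (by decide +kernel)
theorem L15024 : W_23 (nat_lit 2) (nat_lit 0x4000e000340008001600080000000000000000000000000000000) (nat_lit 0x0) (nat_lit 0x10000800000000000000010000000000000000000000000000000000000000) := D_23 (nat_lit 227) (nat_lit 160) (nat_lit 244) (nat_lit 6) (nat_lit 6) (nat_lit 13) (nat_lit 6) (nat_lit 6) (nat_lit 14) (by decide +kernel)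
theorem L15025 : W_23 (nat_lit 3) (nat_lit 0xe000340008001600080000000000000000000000000000000) (nat_lit 0x0) (nat_lit 0x10000800040000000000014000000000000000000000000000000000000000) := T_23 (nat_lit 210) (nat_lit 158) (nat_lit 4) (nat_lit 6) (nat_lit 12) L15024 (by decide +kernel)
theorem L15026 : W_23 (nat_lit 4) (nat_lit 0xe000340008001400080000000000000000000000000000000) (nat_lit 0x0) (nat_lit 0x10000800040000000000014000200010000000000000000000000000000000) := T_23 (nat_lit 141) (nat_lit 124) (nat_lit 4) (nat_lit 6) (nat_lit 11) L15025 (by decide +kernel)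
theorem L15027 : W_23 (nat_lit 5) (nat_lit 0xe000300008001400080000000000000000000000000000000) (nat_lit 0x0) (nat_lit 0x100008000400000000c0014000200010000000000000000000000000000000) := T_23 (nat_lit 174) (nat_lit 175) (nat_lit 3) (nat_lit 4) (nat_lit 10) L15026 (by decide +kernel)
theorem L15028 : W_23 (nat_lit 6) (nat_lit 0xe000300008001000080000000000000000000000000000000) (nat_lit 0x0) (nat_lit 0x100008000400000000c0014000600030000000000000000000000000000000) := T_23 (nat_lit 142) (nat_lit 125) (nat_lit 7) (nat_lit 6) (nat_lit 7) L15027 (by decide +kernel)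
theorem L15029 : W_23 (nat_lit 2) (nat_lit 0xe000340008001c00080000000000000000000000000000000) (nat_lit 0x0) (nat_lit 0x200110000000000000000000000000000000) := D_23 (nat_lit 141) (nat_lit 128) (nat_lit 124) (nat_lit 2) (nat_lit 5) (nat_lit 8) (nat_lit 4) (nat_lit 6) (nat_lit 11) (by decide +kernel)
theorem L15030 : W_23 (nat_lit 3) (nat_lit 0xe000340008001400080000000000000000000000000000000) (nat_lit 0x0) (nat_lit 0xa00150000000000000000000000000000000) := T_23 (nat_lit 143) (nat_lit 126) (nat_lit 6) (nat_lit 6) (nat_lit 11) L15029 (by decide +kernel)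
theorem L15031 : W_23 (nat_lit 4) (nat_lit 0xe000340008001000080000000000000000000000000000000) (nat_lit 0x0) (nat_lit 0xe00170000000000000000000000000000000) := T_23 (nat_lit 142) (nat_lit 125) (nat_lit 7) (nat_lit 6) (nat_lit 7) L15030 (by decide +kernel)
theorem L15032 : W_23 (nat_lit 5) (nat_lit 0xe000300008001000080000000000000000000000000000000) (nat_lit 0x0) (nat_lit 0xc0000000e00170000000000000000000000000000000) := T_23 (nat_lit 174) (nat_lit 175) (nat_lit 3) (nat_lit 4) (nat_lit 10) L15031 (by decide +kernel)
theorem L15033 : W_23 (nat_lit 7) (nat_lit 0xe000300000001000080000000000000000000000000000000) (nat_lit 0x0) (nat_lit 0x100008000400000004e001f000e00170000000000000000000000000000000) := Q_23 (nat_lit 159) (C_23 L15013 (C_23 L15018 (C_23 L15023 (C_23 L15028 (C_23 L15032 N_23))))) (by decide +kernel)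
theorem L15034 : W_23 (nat_lit 5) (nat_lit 0xe000300000001000080000000000000000000000000000000) (nat_lit 0x0) (nat_lit 0x8002400330001000cc0018000800000000000000000000000000000000000) := Q_23 (nat_lit 192) (C_23 L11732 (C_23 L11632 N_23)) (by decide +kernel)
theorem L15035 : W_23 (nat_lit 8) (nat_lit 0xc000300000001000080000000000000000000000000000000) (nat_lit 0x0) (nat_lit 0x18002c00378003c00ce001f000e00170000000000000000000000000000000) := Q_23 (nat_lit 193) (C_23 L12027 (C_23 L11870 (C_23 L15010 (C_23 L15033 (C_23 L15034 N_23))))) (by decide +kernel)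
theorem L15036 : W_23 (nat_lit 9) (nat_lit 0x4000300000001000080000000000000000000000000000000) (nat_lit 0x0) (nat_lit 0x18002c0077803bc00ce001f000e00170000000000000000000000000000000) := Q_23 (nat_lit 195) (C_23 L14831 (C_23 L5316 (C_23 L10838 (C_23 L15009 (C_23 L15035 N_23))))) (by decide +kernel)
theorem L15037 : W_23 (nat_lit 7) (nat_lit 0x6000300018001000080000000000000000000000000000000) (nat_lit 0x0) (nat_lit 0xc00078018000400007000200000000000000000000000000000000000) := T_23 (nat_lit 210) (nat_lit 227) (nat_lit 6) (nat_lit 6) (nat_lit 13) L12058 (by decide +kernel)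
theorem L15038 : W_23 (nat_lit 8) (nat_lit 0x6000300008001000080000000000000000000000000000000) (nat_lit 0x0) (nat_lit 0xc00078018000400017000a00000000000000000000000000000000000) := T_23 (nat_lit 160) (nat_lit 143) (nat_lit 6) (nat_lit 7) (nat_lit 11) L15037 (by decide +kernel)
theorem L15039 : W_23 (nat_lit 9) (nat_lit 0x4000300008001000080000000000000000000000000000000) (nat_lit 0x0) (nat_lit 0x30003c007f801b800400017000a00000000000000000000000000000000000) := Q_23 (nat_lit 193) (C_23 L14872 (C_23 L14848 (C_23 L15038 (C_23 L14867 N_23)))) (by decide +kernel)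
theorem L15040 : W_23 (nat_lit 10) (nat_lit 0x4000300000001000080000000000000000000000000000000) (nat_lit 0x0) (nat_lit 0x30003c007f801b80040001f000f00160000000000000000000000000000000) := Q_23 (nat_lit 159) (C_23 L14879 (C_23 L14840 (C_23 L14834 (C_23 L15039 N_23)))) (by decide +kernel)
theorem L15041 : W_23 (nat_lit 2) (nat_lit 0x200000003c0016000300010001000080000000000000000000000000000000) (nat_lit 0x0) (nat_lit 0x20008000080000000000000000000000000000000000000000000) := D_23 (nat_lit 195) (nat_lit 209) (nat_lit 175) (nat_lit 2) (nat_lit 5) (nat_lit 12) (nat_lit 0) (nat_lit 9) (nat_lit 11) (by decide +kernel)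
theorem L15042 : W_23 (nat_lit 3) (nat_lit 0x200000003c0006000300010001000080000000000000000000000000000000) (nat_lit 0x0) (nat_lit 0x20038000080000000000000000000000000000000000000000000) := T_23 (nat_lit 196) (nat_lit 197) (nat_lit 2) (nat_lit 6) (nat_lit 12) L15041 (by decide +kernel)
theorem L15043 : W_23 (nat_lit 4) (nat_lit 0x200000001c0006000300010001000080000000000000000000000000000000) (nat_lit 0x0) (nat_lit 0x620038000080000000000000000000000000000000000000000000) := T_23 (nat_lit 213) (nat_lit 214) (nat_lit 0) (nat_lit 10) (nat_lit 12) L15042 (by decide +kernel)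
theorem L15044 : W_23 (nat_lit 5) (nat_lit 0x200000000c0006000300010001000080000000000000000000000000000000) (nat_lit 0x0) (nat_lit 0x2000720038000080000000000000000000000000000000000000000000) := T_23 (nat_lit 212) (nat_lit 229) (nat_lit 7) (nat_lit 7) (nat_lit 9) L15043 (by decide +kernel)
theorem L15045 : W_23 (nat_lit 6) (nat_lit 0xc0006000300010001000080000000000000000000000000000000) (nat_lit 0x0) (nat_lit 0x20003000720038000080000000000000000000000000000000000000000000) := T_23 (nat_lit 245) (nat_lit 228) (nat_lit 4) (nat_lit 7) (nat_lit 14) L15044 (by decide +kernel)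
theorem L15046 : W_23 (nat_lit 7) (nat_lit 0xc0006000300000001000080000000000000000000000000000000) (nat_lit 0x0) (nat_lit 0x20003000720038000080010000800000000000000000000000000000000000) := T_23 (nat_lit 160) (nat_lit 143) (nat_lit 6) (nat_lit 7) (nat_lit 11) L15045 (by decide +kernel)
theorem L15047 : W_23 (nat_lit 2) (nat_lit 0x5e0006000300018001000080000000000000000000000000000000) (nat_lit 0x0) (nat_lit 0x10018000000000000000000000000000000000000000000000000) := D_23 (nat_lit 195) (nat_lit 196) (nat_lit 208) (nat_lit 2) (nat_lit 5) (nat_lit 12) (nat_lit 2) (nat_lit 4) (nat_lit 12) (by decide +kernel)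
theorem L15048 : W_23 (nat_lit 3) (nat_lit 0x5c0006000300018001000080000000000000000000000000000000) (nat_lit 0x0) (nat_lit 0x400030018000000000000000000000000000000000000000000000000) := T_23 (nat_lit 209) (nat_lit 226) (nat_lit 5) (nat_lit 6) (nat_lit 9) L15047 (by decide +kernel)
theorem L15049 : W_23 (nat_lit 4) (nat_lit 0x1c0006000300018001000080000000000000000000000000000000) (nat_lit 0x0) (nat_lit 0x400630018000000000000000000000000000000000000000000000000) := T_23 (nat_lit 214) (nat_lit 213) (nat_lit 0) (nat_lit 10) (nat_lit 12) L15048 (by decide +kernel)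
theorem L15050 : W_23 (nat_lit 5) (nat_lit 0xc0006000300018001000080000000000000000000000000000000) (nat_lit 0x0) (nat_lit 0x2400730018000000000000000000000000000000000000000000000000) := T_23 (nat_lit 212) (nat_lit 229) (nat_lit 7) (nat_lit 7) (nat_lit 9) L15049 (by decide +kernel)
theorem L15051 : W_23 (nat_lit 6) (nat_lit 0xc0006000300010001000080000000000000000000000000000000) (nat_lit 0x0) (nat_lit 0x2400730018000000008000400000000000000000000000000000000000) := T_23 (nat_lit 159) (nat_lit 142) (nat_lit 7) (nat_lit 6) (nat_lit 8) L15050 (by decide +kernel)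
theorem L15052 : W_23 (nat_lit 7) (nat_lit 0xc0006000300000001000080000000000000000000000000000000) (nat_lit 0x0) (nat_lit 0x2400730018000000018000c00000000000000000000000000000000000) := T_23 (nat_lit 160) (nat_lit 143) (nat_lit 6) (nat_lit 7) (nat_lit 11) L15051 (by decide +kernel)
theorem L15053 : W_23 (nat_lit 8) (nat_lit 0x40006000300000001000080000000000000000000000000000000) (nat_lit 0x0) (nat_lit 0x200034007b0038000080018000c00000000000000000000000000000000000) := Q_23 (nat_lit 211) (C_23 L12215 (C_23 L15046 (C_23 L15052 N_23))) (by decide +kernel)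
theorem L15054 : W_23 (nat_lit 9) (nat_lit 0x6000300000001000080000000000000000000000000000000) (nat_lit 0x0) (nat_lit 0x38003f007f0038000080018000c00000000000000000000000000000000000) := Q_23 (nat_lit 210) (C_23 L12214 (C_23 L12034 (C_23 L15053 N_23))) (by decide +kernel)
theorem L15055 : W_23 (nat_lit 8) (nat_lit 0x6000300000001000080000000000000000000000000000000) (nat_lit 0x0) (nat_lit 0x2800378039c00ce0010000800000000000000000000000000000000000) := Q_23 (nat_lit 192) (C_23 L12286 (C_23 L12149 (C_23 L12194 N_23))) (by decide +kernel)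
theorem L15057 : W_23 (nat_lit 5) (nat_lit 0x7000300000001000080000000000000000000000000000000) (nat_lit 0x0) (nat_lit 0x80004000700380000c0008000000000000000000000000000000000000000) := Q_23 (nat_lit 195) (C_23 L12189 (C_23 L11632 (C_23 L15056 N_23))) (by decide +kernel)
theorem L15058 : W_23 (nat_lit 6) (nat_lit 0x6000300000001000080000000000000000000000000000000) (nat_lit 0x0) (nat_lit 0x280014001f8039c004c0008000000000000000000000000000000000000000) := Q_23 (nat_lit 192) (C_23 L12174 (C_23 L12149 (C_23 L15057 N_23))) (by decide +kernel)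
theorem L15059 : W_23 (nat_lit 6) (nat_lit 0x6000300000001000080000000000000000000000000000000) (nat_lit 0x0) (nat_lit 0x8000400070039c004c0008000000000000000000000000000000000000000) := Q_23 (nat_lit 192) (C_23 L15057 (C_23 L12149 N_23)) (by decide +kernel)
theorem L15060 : W_23 (nat_lit 10) (nat_lit 0x4000300000001000080000000000000000000000000000000) (nat_lit 0x0) (nat_lit 0x38003f007f803bc00ce0018000c00000000000000000000000000000000000) := Q_23 (nat_lit 193) (C_23 L15054 (C_23 L15055 (C_23 L12224 (C_23 L15058 (C_23 L15059 (C_23 L12299 N_23)))))) (by decide +kernel)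
theorem L15061 : W_23 (nat_lit 2) (nat_lit 0xe0006000b0001c001000080000000000000000000000000000000) (nat_lit 0x0) (nat_lit 0x18008000000000000000000000000000000000000000000000000) := D_23 (nat_lit 208) (nat_lit 195) (nat_lit 207) (nat_lit 2) (nat_lit 4) (nat_lit 12) (nat_lit 2) (nat_lit 3) (nat_lit 12) (by decide +kernel)
theorem L15062 : W_23 (nat_lit 3) (nat_lit 0xc0006000b0001c001000080000000000000000000000000000000) (nat_lit 0x0) (nat_lit 0x400038008000000000000000000000000000000000000000000000000) := T_23 (nat_lit 209) (nat_lit 226) (nat_lit 5) (nat_lit 6) (nat_lit 9) L15061 (by decide +kernel)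
theorem L15063 : W_23 (nat_lit 4) (nat_lit 0xc0004000b0001c001000080000000000000000000000000000000) (nat_lit 0x0) (nat_lit 0x40003800a000000000000200000000000000000000000000000000000) := T_23 (nat_lit 193) (nat_lit 141) (nat_lit 4) (nat_lit 6) (nat_lit 12) L15062 (by decide +kernel)
theorem L15064 : W_23 (nat_lit 5) (nat_lit 0x80004000b0001c001000080000000000000000000000000000000) (nat_lit 0x0) (nat_lit 0xc0007800a000000000000200000000000000000000000000000000000) := T_23 (nat_lit 210) (nat_lit 227) (nat_lit 5) (nat_lit 7) (nat_lit 9) L15063 (by decide +kernel)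
theorem L15065 : W_23 (nat_lit 6) (nat_lit 0x4000b0001c001000080000000000000000000000000000000) (nat_lit 0x0) (nat_lit 0x1c000f800a000000000000200000000000000000000000000000000000) := T_23 (nat_lit 211) (nat_lit 228) (nat_lit 4) (nat_lit 7) (nat_lit 13) L15064 (by decide +kernel)
theorem L15066 : W_23 (nat_lit 7) (nat_lit 0x4000b0000c001000080000000000000000000000000000000) (nat_lit 0x0) (nat_lit 0x1c000f800a000000010000a00000000000000000000000000000000000) := T_23 (nat_lit 160) (nat_lit 143) (nat_lit 6) (nat_lit 7) (nat_lit 11) L15065 (by decide +kernel)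
theorem L15067 : W_23 (nat_lit 8) (nat_lit 0x400030000c001000080000000000000000000000000000000) (nat_lit 0x0) (nat_lit 0x1c000f800a000c00010000a00000000000000000000000000000000000) := T_23 (nat_lit 179) (nat_lit 178) (nat_lit 0) (nat_lit 9) (nat_lit 10) L15066 (by decide +kernel)
theorem L15068 : W_23 (nat_lit 9) (nat_lit 0x4000300008001000080000000000000000000000000000000) (nat_lit 0x0) (nat_lit 0x1c000f800b000ce0017000b80008000000000000000000000000000000) := Q_23 (nat_lit 158) (C_23 L14981 (C_23 L14979 (C_23 L14972 (C_23 L15067 N_23)))) (by decide +kernel)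
theorem L15069 : W_23 (nat_lit 13) (nat_lit 0x4000300000001000080000000000000000000000000000000) (nat_lit 0x0) (nat_lit 0x1e000f801bf80cf801fc00f80178000c00000000000000000000000000) := Q_23 (nat_lit 159) (C_23 L14879 (C_23 L14969 (C_23 L14834 (C_23 L14840 (C_23 L15068 N_23))))) (by decide +kernel)
theorem L15070 : W_23 (nat_lit 2) (nat_lit 0xc000380018001000080000000000000000000000000000000) (nat_lit 0x0) (nat_lit 0x30000400000000000000000000000000000000000000000000) := D_23 (nat_lit 196) (nat_lit 197) (nat_lit 178) (nat_lit 0) (nat_lit 10) (nat_lit 11) (nat_lit 3) (nat_lit 5) (nat_lit 10) (by decide +kernel)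
theorem L15071 : W_23 (nat_lit 3) (nat_lit 0xc000300018001000080000000000000000000000000000000) (nat_lit 0x0) (nat_lit 0x300004c0000000000000000000000000000000000000000000) := T_23 (nat_lit 175) (nat_lit 174) (nat_lit 3) (nat_lit 4) (nat_lit 10) L15070 (by decide +kernel)
theorem L15072 : W_23 (nat_lit 4) (nat_lit 0xc000300008001000080000000000000000000000000000000) (nat_lit 0x0) (nat_lit 0x300004c0010000800000000000000000000000000000000000) := T_23 (nat_lit 160) (nat_lit 143) (nat_lit 6) (nat_lit 7) (nat_lit 11) L15071 (by decide +kernel)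
theorem L15073 : W_23 (nat_lit 2) (nat_lit 0x1c000300008001000080000000000000000000000000000000) (nat_lit 0x0) (nat_lit 0x20000c0000000000000000000000000000000000000000000) := D_23 (nat_lit 175) (nat_lit 174) (nat_lit 193) (nat_lit 3) (nat_lit 4) (nat_lit 10) (nat_lit 0) (nat_lit 9) (nat_lit 11) (by decide +kernel)
theorem L15074 : W_23 (nat_lit 3) (nat_lit 0xc000300008001000080000000000000000000000000000000) (nat_lit 0x0) (nat_lit 0x320000c0000000000000000000000000000000000000000000) := T_23 (nat_lit 196) (nat_lit 197) (nat_lit 0) (nat_lit 10) (nat_lit 11) L15073 (by decide +kernel)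
theorem L15075 : W_23 (nat_lit 2) (nat_lit 0x18002e000300018001000080000000000000000000000000000000) (nat_lit 0x0) (nat_lit 0x200001800000000000000000000000000000000000000000000000) := D_23 (nat_lit 192) (nat_lit 213) (nat_lit 191) (nat_lit 3) (nat_lit 5) (nat_lit 11) (nat_lit 3) (nat_lit 4) (nat_lit 11) (by decide +kernel)
theorem L15076 : W_23 (nat_lit 3) (nat_lit 0x8002e000300018001000080000000000000000000000000000000) (nat_lit 0x0) (nat_lit 0x2000300001800000000000000000000000000000000000000000000000) := T_23 (nat_lit 212) (nat_lit 229) (nat_lit 7) (nat_lit 7) (nat_lit 9) L15075 (by decide +kernel)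
theorem L15077 : W_23 (nat_lit 4) (nat_lit 0x2e000300018001000080000000000000000000000000000000) (nat_lit 0x0) (nat_lit 0x3000380001800000000000000000000000000000000000000000000000) := T_23 (nat_lit 211) (nat_lit 228) (nat_lit 4) (nat_lit 7) (nat_lit 13) L15076 (by decide +kernel)
theorem L15078 : W_23 (nat_lit 5) (nat_lit 0xe000300018001000080000000000000000000000000000000) (nat_lit 0x0) (nat_lit 0x3000380031800000000000000000000000000000000000000000000000) := T_23 (nat_lit 197) (nat_lit 196) (nat_lit 0) (nat_lit 10) (nat_lit 11) L15077 (by decide +kernel)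
theorem L15079 : W_23 (nat_lit 6) (nat_lit 0xe000300008001000080000000000000000000000000000000) (nat_lit 0x0) (nat_lit 0x3000380031800000010000800000000000000000000000000000000000) := T_23 (nat_lit 160) (nat_lit 143) (nat_lit 6) (nat_lit 7) (nat_lit 11) L15078 (by decide +kernel)
theorem L15080 : W_23 (nat_lit 2) (nat_lit 0x24001f000300018001000080000000000000000000000000000000) (nat_lit 0x0) (nat_lit 0x800c00000000000000000000000000000000000000000000) := D_23 (nat_lit 178) (nat_lit 179) (nat_lit 191) (nat_lit 2) (nat_lit 5) (nat_lit 11) (nat_lit 2) (nat_lit 4) (nat_lit 11) (by decide +kernel)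
theorem L15081 : W_23 (nat_lit 3) (nat_lit 0x24001e000300018001000080000000000000000000000000000000) (nat_lit 0x0) (nat_lit 0x100001800c00000000000000000000000000000000000000000000) := T_23 (nat_lit 192) (nat_lit 212) (nat_lit 3) (nat_lit 5) (nat_lit 11) L15080 (by decide +kernel)
theorem L15082 : W_23 (nat_lit 4) (nat_lit 0x4001e000300018001000080000000000000000000000000000000) (nat_lit 0x0) (nat_lit 0x700001800c00000000000000000000000000000000000000000000) := T_23 (nat_lit 213) (nat_lit 214) (nat_lit 3) (nat_lit 6) (nat_lit 11) L15081 (by decide +kernel)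
theorem L15083 : W_23 (nat_lit 5) (nat_lit 0x1e000300018001000080000000000000000000000000000000) (nat_lit 0x0) (nat_lit 0x760001800c00000000000000000000000000000000000000000000) := T_23 (nat_lit 210) (nat_lit 209) (nat_lit 1) (nat_lit 9) (nat_lit 11) L15082 (by decide +kernel)
theorem L15084 : W_23 (nat_lit 6) (nat_lit 0xe000300018001000080000000000000000000000000000000) (nat_lit 0x0) (nat_lit 0x760031800c00000000000000000000000000000000000000000000) := T_23 (nat_lit 196) (nat_lit 197) (nat_lit 0) (nat_lit 10) (nat_lit 11) L15083 (by decide +kernel)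
theorem L15085 : W_23 (nat_lit 7) (nat_lit 0xe000300008001000080000000000000000000000000000000) (nat_lit 0x0) (nat_lit 0x760031800c00010000800000000000000000000000000000000000) := T_23 (nat_lit 160) (nat_lit 143) (nat_lit 6) (nat_lit 7) (nat_lit 11) L15084 (by decide +kernel)
theorem L15086 : W_23 (nat_lit 2) (nat_lit 0x100020001f000300008001000080000000000000000000000000000000) (nat_lit 0x0) (nat_lit 0x800c00000000000000000000000000000000000000000000) := D_23 (nat_lit 178) (nat_lit 179) (nat_lit 191) (nat_lit 2) (nat_lit 5) (nat_lit 11) (nat_lit 2) (nat_lit 4) (nat_lit 11) (by decide +kernel)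
theorem L15087 : W_23 (nat_lit 3) (nat_lit 0x100020001e000300008001000080000000000000000000000000000000) (nat_lit 0x0) (nat_lit 0x100001800c00000000000000000000000000000000000000000000) := T_23 (nat_lit 192) (nat_lit 212) (nat_lit 3) (nat_lit 5) (nat_lit 11) L15086 (by decide +kernel)
theorem L15088 : W_23 (nat_lit 4) (nat_lit 0x100000001e000300008001000080000000000000000000000000000000) (nat_lit 0x0) (nat_lit 0x700001800c00000000000000000000000000000000000000000000) := T_23 (nat_lit 213) (nat_lit 214) (nat_lit 3) (nat_lit 6) (nat_lit 11) L15087 (by decide +kernel)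
theorem L15089 : W_23 (nat_lit 5) (nat_lit 0x1e000300008001000080000000000000000000000000000000) (nat_lit 0x0) (nat_lit 0x1000780001800c00000000000000000000000000000000000000000000) := T_23 (nat_lit 228) (nat_lit 211) (nat_lit 4) (nat_lit 7) (nat_lit 13) L15088 (by decide +kernel)
theorem L15090 : W_23 (nat_lit 6) (nat_lit 0xe000300008001000080000000000000000000000000000000) (nat_lit 0x0) (nat_lit 0x1000780031800c00000000000000000000000000000000000000000000) := T_23 (nat_lit 196) (nat_lit 197) (nat_lit 0) (nat_lit 10) (nat_lit 11) L15089 (by decide +kernel)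
theorem L15091 : W_23 (nat_lit 2) (nat_lit 0x100024001e00030001c001000080000000000000000000000000000000) (nat_lit 0x0) (nat_lit 0x400003000000000000000000000000000000000000000) := D_23 (nat_lit 157) (nat_lit 178) (nat_lit 156) (nat_lit 3) (nat_lit 4) (nat_lit 9) (nat_lit 3) (nat_lit 3) (nat_lit 9) (by decide +kernel)
theorem L15092 : W_23 (nat_lit 3) (nat_lit 0x100024001e000300018001000080000000000000000000000000000000) (nat_lit 0x0) (nat_lit 0x400007000200000000000000000000000000000000000) := T_23 (nat_lit 158) (nat_lit 141) (nat_lit 4) (nat_lit 6) (nat_lit 12) L15091 (by decide +kernel)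
theorem L15093 : W_23 (nat_lit 4) (nat_lit 0x24001e000300018001000080000000000000000000000000000000) (nat_lit 0x0) (nat_lit 0x1000080000000400007000200000000000000000000000000000000000) := T_23 (nat_lit 228) (nat_lit 211) (nat_lit 7) (nat_lit 6) (nat_lit 9) L15092 (by decide +kernel)
theorem L15094 : W_23 (nat_lit 5) (nat_lit 0x20001e000300018001000080000000000000000000000000000000) (nat_lit 0x0) (nat_lit 0x10000e0000000400007000200000000000000000000000000000000000) := T_23 (nat_lit 210) (nat_lit 209) (nat_lit 1) (nat_lit 9) (nat_lit 11) L15093 (by decide +kernel)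
theorem L15095 : W_23 (nat_lit 6) (nat_lit 0x1e000300018001000080000000000000000000000000000000) (nat_lit 0x0) (nat_lit 0x10006e0000000400007000200000000000000000000000000000000000) := T_23 (nat_lit 213) (nat_lit 214) (nat_lit 3) (nat_lit 6) (nat_lit 11) L15094 (by decide +kernel)
theorem L15096 : W_23 (nat_lit 7) (nat_lit 0x1e000300008001000080000000000000000000000000000000) (nat_lit 0x0) (nat_lit 0x10006e0000000400017000a00000000000000000000000000000000000) := T_23 (nat_lit 160) (nat_lit 143) (nat_lit 6) (nat_lit 7) (nat_lit 11) L15095 (by decide +kernel)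
theorem L15097 : W_23 (nat_lit 8) (nat_lit 0xe000300008001000080000000000000000000000000000000) (nat_lit 0x0) (nat_lit 0x10006e0030000400017000a00000000000000000000000000000000000) := T_23 (nat_lit 196) (nat_lit 197) (nat_lit 0) (nat_lit 10) (nat_lit 11) L15096 (by decide +kernel)
theorem L15098 : W_23 (nat_lit 2) (nat_lit 0x18000e000300018001000080000000000000000000000000000000) (nat_lit 0x0) (nat_lit 0x200001800000000000000000000000000000000000000000000000) := D_23 (nat_lit 192) (nat_lit 213) (nat_lit 191) (nat_lit 3) (nat_lit 5) (nat_lit 11) (nat_lit 3) (nat_lit 4) (nat_lit 11) (by decide +kernel)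
theorem L15099 : W_23 (nat_lit 3) (nat_lit 0x8000e000300018001000080000000000000000000000000000000) (nat_lit 0x0) (nat_lit 0x2000300001800000000000000000000000000000000000000000000000) := T_23 (nat_lit 212) (nat_lit 229) (nat_lit 7) (nat_lit 7) (nat_lit 9) L15098 (by decide +kernel)
theorem L15100 : W_23 (nat_lit 4) (nat_lit 0xe000300018001000080000000000000000000000000000000) (nat_lit 0x0) (nat_lit 0x3000380001800000000000000000000000000000000000000000000000) := T_23 (nat_lit 211) (nat_lit 228) (nat_lit 4) (nat_lit 7) (nat_lit 13) L15099 (by decide +kernel)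
theorem L15101 : W_23 (nat_lit 5) (nat_lit 0xe000300008001000080000000000000000000000000000000) (nat_lit 0x0) (nat_lit 0x3000380001800000010000800000000000000000000000000000000000) := T_23 (nat_lit 160) (nat_lit 143) (nat_lit 6) (nat_lit 7) (nat_lit 11) L15100 (by decide +kernel)
theorem L15102 : W_23 (nat_lit 2) (nat_lit 0x100004001e00030001c001000080000000000000000000000000000000) (nat_lit 0x0) (nat_lit 0x400003000000000000000000000000000000000000000) := D_23 (nat_lit 157) (nat_lit 178) (nat_lit 156) (nat_lit 3) (nat_lit 4) (nat_lit 9) (nat_lit 3) (nat_lit 3) (nat_lit 9) (by decide +kernel)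
theorem L15103 : W_23 (nat_lit 3) (nat_lit 0x100004001e000300018001000080000000000000000000000000000000) (nat_lit 0x0) (nat_lit 0x400007000200000000000000000000000000000000000) := T_23 (nat_lit 158) (nat_lit 141) (nat_lit 4) (nat_lit 6) (nat_lit 12) L15102 (by decide +kernel)
theorem L15104 : W_23 (nat_lit 4) (nat_lit 0x100000001e000300018001000080000000000000000000000000000000) (nat_lit 0x0) (nat_lit 0x60000000400007000200000000000000000000000000000000000) := T_23 (nat_lit 210) (nat_lit 209) (nat_lit 1) (nat_lit 9) (nat_lit 11) L15103 (by decide +kernel)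
theorem L15105 : W_23 (nat_lit 5) (nat_lit 0x100000001e000300008001000080000000000000000000000000000000) (nat_lit 0x0) (nat_lit 0x60000000400017000a00000000000000000000000000000000000) := T_23 (nat_lit 160) (nat_lit 143) (nat_lit 6) (nat_lit 7) (nat_lit 11) L15104 (by decide +kernel)
theorem L15106 : W_23 (nat_lit 6) (nat_lit 0x100000000e000300008001000080000000000000000000000000000000) (nat_lit 0x0) (nat_lit 0x60030000400017000a00000000000000000000000000000000000) := T_23 (nat_lit 196) (nat_lit 197) (nat_lit 0) (nat_lit 10) (nat_lit 11) L15105 (by decide +kernel)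
theorem L15107 : W_23 (nat_lit 7) (nat_lit 0xe000300008001000080000000000000000000000000000000) (nat_lit 0x0) (nat_lit 0x10000e0030000400017000a00000000000000000000000000000000000) := T_23 (nat_lit 228) (nat_lit 211) (nat_lit 4) (nat_lit 7) (nat_lit 13) L15106 (by decide +kernel)
theorem L15108 : W_23 (nat_lit 9) (nat_lit 0xc000300008001000080000000000000000000000000000000) (nat_lit 0x0) (nat_lit 0x30007e0033800c00017000a00000000000000000000000000000000000) := Q_23 (nat_lit 193) (C_23 L15079 (C_23 L15085 (C_23 L15090 (C_23 L15097 (C_23 L15101 (C_23 L15107 N_23)))))) (by decide +kernel)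
theorem L15109 : W_23 (nat_lit 2) (nat_lit 0xc00030001c001000080000000000000000000000000000000) (nat_lit 0x0) (nat_lit 0x400003000000000000000000000000000000000000000) := D_23 (nat_lit 157) (nat_lit 178) (nat_lit 156) (nat_lit 3) (nat_lit 4) (nat_lit 9) (nat_lit 3) (nat_lit 3) (nat_lit 9) (by decide +kernel)
theorem L15110 : W_23 (nat_lit 3) (nat_lit 0xc00030000c001000080000000000000000000000000000000) (nat_lit 0x0) (nat_lit 0x400013000800000000000000000000000000000000000) := T_23 (nat_lit 160) (nat_lit 143) (nat_lit 6) (nat_lit 7) (nat_lit 11) L15109 (by decide +kernel)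
theorem L15111 : W_23 (nat_lit 2) (nat_lit 0x100000000c00030001e001000080000000000000000000000000000000) (nat_lit 0x0) (nat_lit 0xe0000000000000000000000000000000000000000000) := D_23 (nat_lit 174) (nat_lit 175) (nat_lit 173) (nat_lit 3) (nat_lit 4) (nat_lit 10) (nat_lit 1) (nat_lit 7) (nat_lit 9) (by decide +kernel)
theorem L15112 : W_23 (nat_lit 3) (nat_lit 0x100000000c00030001c001000080000000000000000000000000000000) (nat_lit 0x0) (nat_lit 0xe0003000000000000000000000000000000000000000) := T_23 (nat_lit 157) (nat_lit 156) (nat_lit 3) (nat_lit 3) (nat_lit 9) L15111 (by decide +kernel)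
theorem L15113 : W_23 (nat_lit 4) (nat_lit 0xc00030001c001000080000000000000000000000000000000) (nat_lit 0x0) (nat_lit 0x10000800000000e0003000000000000000000000000000000000000000) := T_23 (nat_lit 228) (nat_lit 211) (nat_lit 4) (nat_lit 7) (nat_lit 13) L15112 (by decide +kernel)
theorem L15114 : W_23 (nat_lit 5) (nat_lit 0xc00030000c001000080000000000000000000000000000000) (nat_lit 0x0) (nat_lit 0x10000800000000e0013000800000000000000000000000000000000000) := T_23 (nat_lit 160) (nat_lit 143) (nat_lit 6) (nat_lit 7) (nat_lit 11) L15113 (by decide +kernel)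
theorem L15115 : W_23 (nat_lit 2) (nat_lit 0xc00074000c001000080000000000000000000000000000000) (nat_lit 0x0) (nat_lit 0x13000000000000000000000000000000000000000) := D_23 (nat_lit 157) (nat_lit 156) (nat_lit 160) (nat_lit 3) (nat_lit 3) (nat_lit 9) (nat_lit 3) (nat_lit 4) (nat_lit 9) (by decide +kernel)
theorem L15116 : W_23 (nat_lit 3) (nat_lit 0xc00034000c001000080000000000000000000000000000000) (nat_lit 0x0) (nat_lit 0xc00013000000000000000000000000000000000000000) := T_23 (nat_lit 178) (nat_lit 179) (nat_lit 0) (nat_lit 9) (nat_lit 10) L15115 (by decide +kernel)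
theorem L15117 : W_23 (nat_lit 4) (nat_lit 0xc00030000c001000080000000000000000000000000000000) (nat_lit 0x0) (nat_lit 0xcc0013000000000000000000000000000000000000000) := T_23 (nat_lit 174) (nat_lit 175) (nat_lit 3) (nat_lit 4) (nat_lit 10) L15116 (by decide +kernel)
theorem L15118 : W_23 (nat_lit 2) (nat_lit 0x100000000c00038000c001000080000000000000000000000000000000) (nat_lit 0x0) (nat_lit 0xc00002000000000000000000000000000000000000000) := D_23 (nat_lit 178) (nat_lit 179) (nat_lit 157) (nat_lit 0) (nat_lit 9) (nat_lit 10) (nat_lit 0) (nat_lit 8) (nat_lit 10) (by decide +kernel)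
theorem L15119 : W_23 (nat_lit 3) (nat_lit 0x100000000c00030000c001000080000000000000000000000000000000) (nat_lit 0x0) (nat_lit 0xcc0002000000000000000000000000000000000000000) := T_23 (nat_lit 175) (nat_lit 174) (nat_lit 3) (nat_lit 4) (nat_lit 10) L15118 (by decide +kernel)
theorem L15120 : W_23 (nat_lit 4) (nat_lit 0xc00030000c001000080000000000000000000000000000000) (nat_lit 0x0) (nat_lit 0x1000080000000cc0002000000000000000000000000000000000000000) := T_23 (nat_lit 228) (nat_lit 211) (nat_lit 4) (nat_lit 7) (nat_lit 13) L15119 (by decide +kernel)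
theorem L15121 : W_23 (nat_lit 2) (nat_lit 0x300002000d00078001c001000080000000000000000000000000000000) (nat_lit 0x0) (nat_lit 0x200010002000000000000000000000000000000000000000000000000) := D_23 (nat_lit 208) (nat_lit 225) (nat_lit 193) (nat_lit 5) (nat_lit 5) (nat_lit 9) (nat_lit 1) (nat_lit 8) (nat_lit 11) (by decide +kernel)
theorem L15122 : W_23 (nat_lit 3) (nat_lit 0x300000000d00078001c001000080000000000000000000000000000000) (nat_lit 0x0) (nat_lit 0x600030002000000000000000000000000000000000000000000000000) := T_23 (nat_lit 209) (nat_lit 226) (nat_lit 6) (nat_lit 5) (nat_lit 13) L15121 (by decide +kernel)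
theorem L15123 : W_23 (nat_lit 4) (nat_lit 0x300000000c00078001c001000080000000000000000000000000000000) (nat_lit 0x0) (nat_lit 0x600030003800000000000000000000000000000000000000000000000) := T_23 (nat_lit 192) (nat_lit 191) (nat_lit 1) (nat_lit 8) (nat_lit 10) L15122 (by decide +kernel)
theorem L15124 : W_23 (nat_lit 5) (nat_lit 0x200000000c00078001c001000080000000000000000000000000000000) (nat_lit 0x0) (nat_lit 0x16000b0003800000000000000000000000000000000000000000000000) := T_23 (nat_lit 228) (nat_lit 211) (nat_lit 4) (nat_lit 7) (nat_lit 13) L15123 (by decide +kernel)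
theorem L15125 : W_23 (nat_lit 6) (nat_lit 0x200000000c00070001c001000080000000000000000000000000000000) (nat_lit 0x0) (nat_lit 0x16000b00038000c0000000000000000000000000000000000000000000) := T_23 (nat_lit 175) (nat_lit 174) (nat_lit 3) (nat_lit 4) (nat_lit 10) L15124 (by decide +kernel)
theorem L15126 : W_23 (nat_lit 7) (nat_lit 0xc00070001c001000080000000000000000000000000000000) (nat_lit 0x0) (nat_lit 0x36001b00038000c0000000000000000000000000000000000000000000) := T_23 (nat_lit 229) (nat_lit 212) (nat_lit 4) (nat_lit 8) (nat_lit 13) L15125 (by decide +kernel)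
theorem L15127 : W_23 (nat_lit 8) (nat_lit 0xc00070000c001000080000000000000000000000000000000) (nat_lit 0x0) (nat_lit 0x36001b00038000c0010000800000000000000000000000000000000000) := T_23 (nat_lit 160) (nat_lit 143) (nat_lit 6) (nat_lit 7) (nat_lit 11) L15126 (by decide +kernel)
theorem L15128 : W_23 (nat_lit 9) (nat_lit 0xc00030000c001000080000000000000000000000000000000) (nat_lit 0x0) (nat_lit 0x36001b0003800cc0010000800000000000000000000000000000000000) := T_23 (nat_lit 178) (nat_lit 179) (nat_lit 0) (nat_lit 9) (nat_lit 10) L15127 (by decide +kernel)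
theorem L15129 : W_23 (nat_lit 10) (nat_lit 0xc000300008001000080000000000000000000000000000000) (nat_lit 0x0) (nat_lit 0x36001b0003800ce0017000800000000000000000000000000000000000) := Q_23 (nat_lit 158) (C_23 L15110 (C_23 L15114 (C_23 L15117 (C_23 L15120 (C_23 L15128 N_23))))) (by decide +kernel)
theorem L15130 : W_23 (nat_lit 11) (nat_lit 0x4000300008001000080000000000000000000000000000000) (nat_lit 0x0) (nat_lit 0x36007f003b800ce0017000a00000000000000000000000000000000000) := Q_23 (nat_lit 195) (C_23 L15072 (C_23 L15074 (C_23 L15108 (C_23 L15129 N_23)))) (by decide +kernel)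
theorem L15131 : W_23 (nat_lit 13) (nat_lit 0x4000300000001000080000000000000000000000000000000) (nat_lit 0x0) (nat_lit 0x36007f003bf80cf801fc00f00178000c00000000000000000000000000) := Q_23 (nat_lit 159) (C_23 L14879 (C_23 L14969 (C_23 L14834 (C_23 L14840 (C_23 L15130 N_23))))) (by decide +kernel)
theorem L15132 : W_23 (nat_lit 2) (nat_lit 0x4000380018001000080000000000000000000000000000000) (nat_lit 0x0) (nat_lit 0x8000060000000000000000000000000000000000000000000) := D_23 (nat_lit 174) (nat_lit 173) (nat_lit 195) (nat_lit 2) (nat_lit 3) (nat_lit 10) (nat_lit 3) (nat_lit 4) (nat_lit 10) (by decide +kernel)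
theorem L15133 : W_23 (nat_lit 3) (nat_lit 0x4000380008001000080000000000000000000000000000000) (nat_lit 0x0) (nat_lit 0x8000060010000800000000000000000000000000000000000) := T_23 (nat_lit 160) (nat_lit 143) (nat_lit 6) (nat_lit 7) (nat_lit 11) L15132 (by decide +kernel)
theorem L15134 : W_23 (nat_lit 2) (nat_lit 0x10000000048003c001a001000080000000000000000000000000000000) (nat_lit 0x0) (nat_lit 0x1000400004000000000000000000000000000000000000000) := D_23 (nat_lit 178) (nat_lit 158) (nat_lit 192) (nat_lit 3) (nat_lit 4) (nat_lit 9) (nat_lit 1) (nat_lit 8) (nat_lit 10) (by decide +kernel)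
theorem L15135 : W_23 (nat_lit 3) (nat_lit 0x10000000040003c001a001000080000000000000000000000000000000) (nat_lit 0x0) (nat_lit 0x1c00400004000000000000000000000000000000000000000) := T_23 (nat_lit 191) (nat_lit 190) (nat_lit 1) (nat_lit 7) (nat_lit 10) L15134 (by decide +kernel)
theorem L15136 : W_23 (nat_lit 4) (nat_lit 0x10000000040003c0018001000080000000000000000000000000000000) (nat_lit 0x0) (nat_lit 0x1c00400007000000000000000000000000000000000000000) := T_23 (nat_lit 157) (nat_lit 156) (nat_lit 0) (nat_lit 7) (nat_lit 10) L15135 (by decide +kernel)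
theorem L15137 : W_23 (nat_lit 5) (nat_lit 0x40003c0018001000080000000000000000000000000000000) (nat_lit 0x0) (nat_lit 0x1000080001c00400007000000000000000000000000000000000000000) := T_23 (nat_lit 228) (nat_lit 211) (nat_lit 4) (nat_lit 7) (nat_lit 13) L15136 (by decide +kernel)
theorem L15138 : W_23 (nat_lit 6) (nat_lit 0x4000380018001000080000000000000000000000000000000) (nat_lit 0x0) (nat_lit 0x1000080001c00460007000000000000000000000000000000000000000) := T_23 (nat_lit 174) (nat_lit 173) (nat_lit 2) (nat_lit 3) (nat_lit 10) L15137 (by decide +kernel)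
theorem L15139 : W_23 (nat_lit 7) (nat_lit 0x4000380008001000080000000000000000000000000000000) (nat_lit 0x0) (nat_lit 0x1000080001c00460017000800000000000000000000000000000000000) := T_23 (nat_lit 160) (nat_lit 143) (nat_lit 6) (nat_lit 7) (nat_lit 11) L15138 (by decide +kernel)
theorem L15140 : W_23 (nat_lit 2) (nat_lit 0x4000780008001000080000000000000000000000000000000) (nat_lit 0x0) (nat_lit 0x800006000000000000000000000000000000000000000) := D_23 (nat_lit 158) (nat_lit 157) (nat_lit 179) (nat_lit 0) (nat_lit 8) (nat_lit 10) (nat_lit 0) (nat_lit 9) (nat_lit 10) (by decide +kernel)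
theorem L15141 : W_23 (nat_lit 2) (nat_lit 0x100002000d00078000c001000080000000000000000000000000000000) (nat_lit 0x0) (nat_lit 0x200010002000000000000000000000000000000000000000000000000) := D_23 (nat_lit 208) (nat_lit 193) (nat_lit 225) (nat_lit 1) (nat_lit 8) (nat_lit 11) (nat_lit 5) (nat_lit 5) (nat_lit 9) (by decide +kernel)
theorem L15142 : W_23 (nat_lit 3) (nat_lit 0x100002000d000780008001000080000000000000000000000000000000) (nat_lit 0x0) (nat_lit 0x200010002000000006000000000000000000000000000000000000000) := T_23 (nat_lit 158) (nat_lit 157) (nat_lit 0) (nat_lit 8) (nat_lit 10) L15141 (by decide +kernel)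
theorem L15143 : W_23 (nat_lit 4) (nat_lit 0x100000000d000780008001000080000000000000000000000000000000) (nat_lit 0x0) (nat_lit 0x600030002000000006000000000000000000000000000000000000000) := T_23 (nat_lit 209) (nat_lit 226) (nat_lit 6) (nat_lit 5) (nat_lit 13) L15142 (by decide +kernel)
theorem L15144 : W_23 (nat_lit 5) (nat_lit 0xd000780008001000080000000000000000000000000000000) (nat_lit 0x0) (nat_lit 0x16000b0002000000006000000000000000000000000000000000000000) := T_23 (nat_lit 228) (nat_lit 211) (nat_lit 4) (nat_lit 7) (nat_lit 13) L15143 (by decide +kernel)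
theorem L15145 : W_23 (nat_lit 6) (nat_lit 0xc000780008001000080000000000000000000000000000000) (nat_lit 0x0) (nat_lit 0x16000b0003800000006000000000000000000000000000000000000000) := T_23 (nat_lit 192) (nat_lit 191) (nat_lit 1) (nat_lit 8) (nat_lit 10) L15144 (by decide +kernel)
theorem L15146 : W_23 (nat_lit 7) (nat_lit 0x4000780008001000080000000000000000000000000000000) (nat_lit 0x0) (nat_lit 0x16000b001b800000006000000000000000000000000000000000000000) := T_23 (nat_lit 195) (nat_lit 196) (nat_lit 3) (nat_lit 5) (nat_lit 10) L15145 (by decide +kernel)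
theorem L15147 : W_23 (nat_lit 2) (nat_lit 0x300000000f000780018001000080000000000000000000000000000000) (nat_lit 0x0) (nat_lit 0x400030000000000000000000000000000000000000000000000000000) := D_23 (nat_lit 209) (nat_lit 208) (nat_lit 226) (nat_lit 1) (nat_lit 8) (nat_lit 11) (nat_lit 6) (nat_lit 5) (nat_lit 13) (by decide +kernel)
theorem L15148 : W_23 (nat_lit 3) (nat_lit 0x300000000d000780018001000080000000000000000000000000000000) (nat_lit 0x0) (nat_lit 0x400030002000800000000000000000000000000000000000000000000) := T_23 (nat_lit 193) (nat_lit 179) (nat_lit 2) (nat_lit 5) (nat_lit 11) L15147 (by decide +kernel)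
theorem L15149 : W_23 (nat_lit 4) (nat_lit 0x100000000d000780018001000080000000000000000000000000000000) (nat_lit 0x0) (nat_lit 0x2400130002000800000000000000000000000000000000000000000000) := T_23 (nat_lit 229) (nat_lit 212) (nat_lit 4) (nat_lit 8) (nat_lit 13) L15148 (by decide +kernel)
theorem L15150 : W_23 (nat_lit 5) (nat_lit 0x100000000d000780008001000080000000000000000000000000000000) (nat_lit 0x0) (nat_lit 0x2400130002000800010000800000000000000000000000000000000000) := T_23 (nat_lit 160) (nat_lit 143) (nat_lit 6) (nat_lit 7) (nat_lit 11) L15149 (by decide +kernel)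
theorem L15151 : W_23 (nat_lit 6) (nat_lit 0x100000000c000780008001000080000000000000000000000000000000) (nat_lit 0x0) (nat_lit 0x2400130003800800010000800000000000000000000000000000000000) := T_23 (nat_lit 192) (nat_lit 191) (nat_lit 1) (nat_lit 8) (nat_lit 10) L15150 (by decide +kernel)
theorem L15152 : W_23 (nat_lit 7) (nat_lit 0xc000780008001000080000000000000000000000000000000) (nat_lit 0x0) (nat_lit 0x34001b0003800800010000800000000000000000000000000000000000) := T_23 (nat_lit 228) (nat_lit 211) (nat_lit 4) (nat_lit 7) (nat_lit 13) L15151 (by decide +kernel)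
theorem L15153 : W_23 (nat_lit 8) (nat_lit 0x4000780008001000080000000000000000000000000000000) (nat_lit 0x0) (nat_lit 0x34001b001b800800010000800000000000000000000000000000000000) := T_23 (nat_lit 195) (nat_lit 196) (nat_lit 3) (nat_lit 5) (nat_lit 10) L15152 (by decide +kernel)
theorem L15154 : W_23 (nat_lit 9) (nat_lit 0x4000380008001000080000000000000000000000000000000) (nat_lit 0x0) (nat_lit 0x36001b001b800c00016000800000000000000000000000000000000000) := Q_23 (nat_lit 178) (C_23 L15140 (C_23 L15146 (C_23 L15153 N_23))) (by decide +kernel)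
theorem L15155 : W_23 (nat_lit 10) (nat_lit 0x4000300008001000080000000000000000000000000000000) (nat_lit 0x0) (nat_lit 0x36001b001bc00ce0017000900000000000000000000000000000000000) := Q_23 (nat_lit 175) (C_23 L14885 (C_23 L15133 (C_23 L15139 (C_23 L15154 N_23)))) (by decide +kernel)
theorem L15156 : W_23 (nat_lit 11) (nat_lit 0x4000300000001000080000000000000000000000000000000) (nat_lit 0x0) (nat_lit 0x36001b001bc00ce001f000f00160000000000000000000000000000000) := Q_23 (nat_lit 159) (C_23 L14879 (C_23 L14840 (C_23 L14834 (C_23 L15155 N_23)))) (by decide +kernel)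
theorem L15157 : W_23 (nat_lit 10) (nat_lit 0x4000300000001000080000000000000000000000000000000) (nat_lit 0x0) (nat_lit 0x1c000f800b000ce001f000f80168000000000000000000000000000000) := Q_23 (nat_lit 159) (C_23 L14879 (C_23 L15068 (C_23 L14840 N_23))) (by decide +kernel)
theorem L15158 : W_23 (nat_lit 17) (nat_lit 0x300000001000080000000000000000000000000000000) (nat_lit 0x0) (nat_lit 0x14000e0007f01ff007f807ff80cf805fc00f80178000c00000000000000000000000000) := Q_23 (nat_lit 194) (C_23 L14809 (C_23 L14832 (C_23 L14874 (C_23 L11928 (C_23 L15008 (C_23 L15036 (C_23 L15040 (C_23 L12265 (C_23 L12300 (C_23 L15060 (C_23 L15069 (C_23 L15131 (C_23 L15156 (C_23 L15157 N_23)))))))))))))) (by decide +kernel)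
theorem L15159 : W_23 (nat_lit 8) (nat_lit 0x10000f000b00000001000080000000000000000000000000000000) (nat_lit 0x0) (nat_lit 0x5c003e000f00000000c0000000000000000000000000000000000000000000) := T_23 (nat_lit 175) (nat_lit 174) (nat_lit 3) (nat_lit 4) (nat_lit 10) L13164 (by decide +kernel)
theorem L15160 : W_23 (nat_lit 9) (nat_lit 0xf000b00000001000080000000000000000000000000000000) (nat_lit 0x0) (nat_lit 0x5c003e003f00000000c0000000000000000000000000000000000000000000) := T_23 (nat_lit 212) (nat_lit 213) (nat_lit 3) (nat_lit 5) (nat_lit 11) L15159 (by decide +kernel)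
theorem L15161 : W_23 (nat_lit 10) (nat_lit 0xf000300000001000080000000000000000000000000000000) (nat_lit 0x0) (nat_lit 0x5c003e003f0000000cc0000000000000000000000000000000000000000000) := T_23 (nat_lit 179) (nat_lit 178) (nat_lit 2) (nat_lit 5) (nat_lit 11) L15160 (by decide +kernel)
theorem L15162 : W_23 (nat_lit 2) (nat_lit 0x700018000f000740000001000080000000000000000000000000000000) (nat_lit 0x0) (nat_lit 0x8000060000000000000000000000000000000000000000000000000000) := D_23 (nat_lit 210) (nat_lit 209) (nat_lit 231) (nat_lit 3) (nat_lit 5) (nat_lit 12) (nat_lit 0) (nat_lit 10) (nat_lit 13) (by decide +kernel)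
theorem L15163 : W_23 (nat_lit 3) (nat_lit 0x300018000f000740000001000080000000000000000000000000000000) (nat_lit 0x0) (nat_lit 0x8000c000060000000000000000000000000000000000000000000000000000) := T_23 (nat_lit 230) (nat_lit 247) (nat_lit 7) (nat_lit 8) (nat_lit 10) L15162 (by decide +kernel)
theorem L15164 : W_23 (nat_lit 4) (nat_lit 0x300010000f000740000001000080000000000000000000000000000000) (nat_lit 0x0) (nat_lit 0x8000c0000e0000000000008000000000000000000000000000000000000000) := T_23 (nat_lit 211) (nat_lit 159) (nat_lit 4) (nat_lit 7) (nat_lit 13) L15163 (by decide +kernel)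
theorem L15165 : W_23 (nat_lit 5) (nat_lit 0x200010000f000740000001000080000000000000000000000000000000) (nat_lit 0x0) (nat_lit 0xa000d0000e0000000000008000000000000000000000000000000000000000) := T_23 (nat_lit 228) (nat_lit 245) (nat_lit 5) (nat_lit 8) (nat_lit 10) L15164 (by decide +kernel)
theorem L15166 : W_23 (nat_lit 6) (nat_lit 0x10000f000740000001000080000000000000000000000000000000) (nat_lit 0x0) (nat_lit 0xe000f0000e0000000000008000000000000000000000000000000000000000) := T_23 (nat_lit 229) (nat_lit 246) (nat_lit 4) (nat_lit 8) (nat_lit 14) L15165 (by decide +kernel)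
theorem L15167 : W_23 (nat_lit 7) (nat_lit 0xf000740000001000080000000000000000000000000000000) (nat_lit 0x0) (nat_lit 0xe000f0003e0000000000008000000000000000000000000000000000000000) := T_23 (nat_lit 212) (nat_lit 213) (nat_lit 3) (nat_lit 5) (nat_lit 11) L15166 (by decide +kernel)
theorem L15168 : W_23 (nat_lit 8) (nat_lit 0xf000340000001000080000000000000000000000000000000) (nat_lit 0x0) (nat_lit 0xe000f0003e0000000c00008000000000000000000000000000000000000000) := T_23 (nat_lit 178) (nat_lit 179) (nat_lit 2) (nat_lit 5) (nat_lit 11) L15167 (by decide +kernel)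
theorem L15169 : W_23 (nat_lit 9) (nat_lit 0xf000300000001000080000000000000000000000000000000) (nat_lit 0x0) (nat_lit 0xe000f0003e0000000cc0008000000000000000000000000000000000000000) := T_23 (nat_lit 174) (nat_lit 175) (nat_lit 3) (nat_lit 4) (nat_lit 10) L15168 (by decide +kernel)
theorem L15171 : W_23 (nat_lit 3) (nat_lit 0x700010000f000740000001000080000000000000000000000000000000) (nat_lit 0x0) (nat_lit 0x180000c0000000000008000000000000000000000000000000000000000) := T_23 (nat_lit 211) (nat_lit 159) (nat_lit 4) (nat_lit 7) (nat_lit 13) L15170 (by decide +kernel)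
theorem L15172 : W_23 (nat_lit 4) (nat_lit 0x600010000f000740000001000080000000000000000000000000000000) (nat_lit 0x0) (nat_lit 0x200190000c0000000000008000000000000000000000000000000000000000) := T_23 (nat_lit 228) (nat_lit 245) (nat_lit 5) (nat_lit 8) (nat_lit 10) L15171 (by decide +kernel)
theorem L15173 : W_23 (nat_lit 5) (nat_lit 0x200010000f000740000001000080000000000000000000000000000000) (nat_lit 0x0) (nat_lit 0xa001d0000c0000000000008000000000000000000000000000000000000000) := T_23 (nat_lit 230) (nat_lit 247) (nat_lit 7) (nat_lit 8) (nat_lit 10) L15172 (by decide +kernel)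
theorem L15174 : W_23 (nat_lit 6) (nat_lit 0x200010000f000340000001000080000000000000000000000000000000) (nat_lit 0x0) (nat_lit 0xa001d0000c0000000c00008000000000000000000000000000000000000000) := T_23 (nat_lit 178) (nat_lit 179) (nat_lit 2) (nat_lit 5) (nat_lit 11) L15173 (by decide +kernel)
theorem L15175 : W_23 (nat_lit 7) (nat_lit 0x10000f000340000001000080000000000000000000000000000000) (nat_lit 0x0) (nat_lit 0xe001f0000c0000000c00008000000000000000000000000000000000000000) := T_23 (nat_lit 229) (nat_lit 246) (nat_lit 4) (nat_lit 8) (nat_lit 14) L15174 (by decide +kernel)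
theorem L15176 : W_23 (nat_lit 8) (nat_lit 0x10000f000300000001000080000000000000000000000000000000) (nat_lit 0x0) (nat_lit 0xe001f0000c0000000cc0008000000000000000000000000000000000000000) := T_23 (nat_lit 174) (nat_lit 175) (nat_lit 3) (nat_lit 4) (nat_lit 10) L15175 (by decide +kernel)
theorem L15177 : W_23 (nat_lit 9) (nat_lit 0xf000300000001000080000000000000000000000000000000) (nat_lit 0x0) (nat_lit 0xe001f0003c0000000cc0008000000000000000000000000000000000000000) := T_23 (nat_lit 212) (nat_lit 213) (nat_lit 3) (nat_lit 5) (nat_lit 11) L15176 (by decide +kernel)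
theorem L15178 : W_23 (nat_lit 13) (nat_lit 0x7000300000001000080000000000000000000000000000000) (nat_lit 0x0) (nat_lit 0xff01ff803f0008000cc0008000000000000000000000000000000000000000) := Q_23 (nat_lit 195) (C_23 L11632 (C_23 L15161 (C_23 L11598 (C_23 L15169 (C_23 L15177 N_23))))) (by decide +kernel)
theorem L15179 : W_23 (nat_lit 14) (nat_lit 0x6000300000001000080000000000000000000000000000000) (nat_lit 0x0) (nat_lit 0xff01ff803f8009c00cc0008000000000000000000000000000000000000000) := Q_23 (nat_lit 192) (C_23 L12174 (C_23 L12149 (C_23 L15178 N_23))) (by decide +kernel)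
theorem L15181 : W_23 (nat_lit 2) (nat_lit 0x6000300008001000080000000000000000000000000000000) (nat_lit 0x0) (nat_lit 0x1000080000000000000000400000000000000000000000000000000000) := D_23 (nat_lit 211) (nat_lit 142) (nat_lit 228) (nat_lit 7) (nat_lit 6) (nat_lit 8) (nat_lit 4) (nat_lit 7) (nat_lit 13) (by decide +kernel)
theorem L15184 : W_23 (nat_lit 5) (nat_lit 0x6000300008001000080000000000000000000000000000000) (nat_lit 0x0) (nat_lit 0x38001c000f8008000000000000000000000000000000000000000000000000) := Q_23 (nat_lit 210) (C_23 L14862 (C_23 L15183 (C_23 L12276 N_23))) (by decide +kernel)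
theorem L15185 : W_23 (nat_lit 6) (nat_lit 0x6000300000001000080000000000000000000000000000000) (nat_lit 0x0) (nat_lit 0x38001c000f8008000000008000e00170000000000000000000000000000000) := Q_23 (nat_lit 159) (C_23 L15180 (C_23 L8297 (C_23 L15181 (C_23 L15184 N_23)))) (by decide +kernel)
theorem L15189 : W_23 (nat_lit 5) (nat_lit 0xe0006000300008001000080000000000000000000000000000000) (nat_lit 0x0) (nat_lit 0x300118001c00400000000000000000000000000000000000000000000) := T_23 (nat_lit 208) (nat_lit 207) (nat_lit 2) (nat_lit 3) (nat_lit 12) L15188 (by decide +kernel)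
theorem L15190 : W_23 (nat_lit 6) (nat_lit 0xc0006000300008001000080000000000000000000000000000000) (nat_lit 0x0) (nat_lit 0x700138001c00400000000000000000000000000000000000000000000) := T_23 (nat_lit 209) (nat_lit 226) (nat_lit 5) (nat_lit 6) (nat_lit 9) L15189 (by decide +kernel)
theorem L15191 : W_23 (nat_lit 7) (nat_lit 0x40006000300008001000080000000000000000000000000000000) (nat_lit 0x0) (nat_lit 0x17001b8001c00400000000000000000000000000000000000000000000) := T_23 (nat_lit 211) (nat_lit 228) (nat_lit 7) (nat_lit 6) (nat_lit 9) L15190 (by decide +kernel)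
theorem L15192 : W_23 (nat_lit 8) (nat_lit 0x6000300008001000080000000000000000000000000000000) (nat_lit 0x0) (nat_lit 0x38001f001f8001c00400000000000000000000000000000000000000000000) := Q_23 (nat_lit 210) (C_23 L15183 (C_23 L15191 (C_23 L14862 N_23))) (by decide +kernel)
theorem L15193 : W_23 (nat_lit 9) (nat_lit 0x6000300000001000080000000000000000000000000000000) (nat_lit 0x0) (nat_lit 0x38001f001f8001c00400008000e00170000000000000000000000000000000) := Q_23 (nat_lit 159) (C_23 L8297 (C_23 L15181 (C_23 L15192 N_23))) (by decide +kernel)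
theorem L15194 : W_23 (nat_lit 11) (nat_lit 0x7000300000001000080000000000000000000000000000000) (nat_lit 0x0) (nat_lit 0x5c003e003f0038001cc0000000000000000000000000000000000000000000) := Q_23 (nat_lit 195) (C_23 L15161 (C_23 L15056 (C_23 L12197 N_23))) (by decide +kernel)
theorem L15200 : W_23 (nat_lit 12) (nat_lit 0x6000300000001000080000000000000000000000000000000) (nat_lit 0x0) (nat_lit 0x5c003e003f8039c01cc0000000000000000000000000000000000000000000) := Q_23 (nat_lit 192) (C_23 L12149 (C_23 L15194 (C_23 L15199 N_23))) (by decide +kernel)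
theorem L15201 : W_23 (nat_lit 5) (nat_lit 0x7000300000001000080000000000000000000000000000000) (nat_lit 0x0) (nat_lit 0x8000400030038001cc0008000000000000000000000000000000000000000) := Q_23 (nat_lit 195) (C_23 L11632 (C_23 L15056 (C_23 L12197 N_23))) (by decide +kernel)
theorem L15202 : W_23 (nat_lit 7) (nat_lit 0x6000300000001000080000000000000000000000000000000) (nat_lit 0x0) (nat_lit 0x280014001b8039c01cc0008000000000000000000000000000000000000000) := Q_23 (nat_lit 192) (C_23 L15199 (C_23 L15201 (C_23 L12174 (C_23 L12149 N_23)))) (by decide +kernel)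
theorem L15203 : W_23 (nat_lit 10) (nat_lit 0x7000300000001000080000000000000000000000000000000) (nat_lit 0x0) (nat_lit 0xe001f0003c0038001cc0008000000000000000000000000000000000000000) := Q_23 (nat_lit 195) (C_23 L15177 (C_23 L15056 (C_23 L12197 N_23))) (by decide +kernel)
theorem L15204 : W_23 (nat_lit 2) (nat_lit 0x80007800340000001000080000000000000000000000000000000) (nat_lit 0x0) (nat_lit 0x20001000000000000000008000000000000000000000000000000000000000) := D_23 (nat_lit 228) (nat_lit 159) (nat_lit 245) (nat_lit 4) (nat_lit 7) (nat_lit 13) (nat_lit 4) (nat_lit 7) (nat_lit 14) (by decide +kernel)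
theorem L15205 : W_23 (nat_lit 3) (nat_lit 0x7800340000001000080000000000000000000000000000000) (nat_lit 0x0) (nat_lit 0x20001000180000000000008000000000000000000000000000000000000000) := T_23 (nat_lit 211) (nat_lit 212) (nat_lit 3) (nat_lit 4) (nat_lit 11) L15204 (by decide +kernel)
theorem L15206 : W_23 (nat_lit 4) (nat_lit 0x7800300000001000080000000000000000000000000000000) (nat_lit 0x0) (nat_lit 0x20001000180000000060008000000000000000000000000000000000000000) := T_23 (nat_lit 174) (nat_lit 173) (nat_lit 0) (nat_lit 7) (nat_lit 11) L15205 (by decide +kernel)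
theorem L15207 : W_23 (nat_lit 5) (nat_lit 0x7000300000001000080000000000000000000000000000000) (nat_lit 0x0) (nat_lit 0x20001000180000c00060008000000000000000000000000000000000000000) := T_23 (nat_lit 191) (nat_lit 190) (nat_lit 2) (nat_lit 3) (nat_lit 11) L15206 (by decide +kernel)
theorem L15208 : W_23 (nat_lit 11) (nat_lit 0x6000300000001000080000000000000000000000000000000) (nat_lit 0x0) (nat_lit 0xe001f0003c0039c01ce0008000000000000000000000000000000000000000) := Q_23 (nat_lit 192) (C_23 L12149 (C_23 L15203 (C_23 L15207 N_23))) (by decide +kernel)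
theorem L15209 : W_23 (nat_lit 15) (nat_lit 0x4000300000001000080000000000000000000000000000000) (nat_lit 0x0) (nat_lit 0xff01ff803f803bc01ce0008000e00170000000000000000000000000000000) := Q_23 (nat_lit 193) (C_23 L15179 (C_23 L15185 (C_23 L15193 (C_23 L15200 (C_23 L15059 (C_23 L15202 (C_23 L15208 N_23))))))) (by decide +kernel)
theorem L15210 : W_23 (nat_lit 5) (nat_lit 0x8000c000340010001000080000000000000000000000000000000) (nat_lit 0x0) (nat_lit 0x400030003800140000000400000000000000000000000000000000000000000000) := T_23 (nat_lit 212) (nat_lit 229) (nat_lit 7) (nat_lit 7) (nat_lit 9) L11998 (by decide +kernel)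
theorem L15211 : W_23 (nat_lit 6) (nat_lit 0x8000c000300010001000080000000000000000000000000000000) (nat_lit 0x0) (nat_lit 0x4000300038001400000004c0000000000000000000000000000000000000000000) := T_23 (nat_lit 174) (nat_lit 175) (nat_lit 3) (nat_lit 4) (nat_lit 10) L15210 (by decide +kernel)
theorem L15212 : W_23 (nat_lit 2) (nat_lit 0x4001e000d000340010001000080000000000000000000000000000000) (nat_lit 0x0) (nat_lit 0x8000000200002000000000000000000000000000000000000000000000000) := D_23 (nat_lit 193) (nat_lit 213) (nat_lit 243) (nat_lit 3) (nat_lit 5) (nat_lit 11) (nat_lit 6) (nat_lit 5) (nat_lit 14) (by decide +kernel)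
theorem L15213 : W_23 (nat_lit 3) (nat_lit 0x4001e000c000340010001000080000000000000000000000000000000) (nat_lit 0x0) (nat_lit 0x8000000200003800000000000000000000000000000000000000000000000) := T_23 (nat_lit 192) (nat_lit 191) (nat_lit 0) (nat_lit 8) (nat_lit 12) L15212 (by decide +kernel)
theorem L15214 : W_23 (nat_lit 4) (nat_lit 0x1e000c000340010001000080000000000000000000000000000000) (nat_lit 0x0) (nat_lit 0x8000600200003800000000000000000000000000000000000000000000000) := T_23 (nat_lit 226) (nat_lit 225) (nat_lit 1) (nat_lit 8) (nat_lit 12) L15213 (by decide +kernel)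
theorem L15215 : W_23 (nat_lit 5) (nat_lit 0xe000c000340010001000080000000000000000000000000000000) (nat_lit 0x0) (nat_lit 0x8002600300003800000000000000000000000000000000000000000000000) := T_23 (nat_lit 212) (nat_lit 229) (nat_lit 7) (nat_lit 7) (nat_lit 9) L15214 (by decide +kernel)
theorem L15216 : W_23 (nat_lit 6) (nat_lit 0xe000c000300010001000080000000000000000000000000000000) (nat_lit 0x0) (nat_lit 0x80026003000038000c0000000000000000000000000000000000000000000) := T_23 (nat_lit 174) (nat_lit 175) (nat_lit 3) (nat_lit 4) (nat_lit 10) L15215 (by decide +kernel)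
theorem L15217 : W_23 (nat_lit 7) (nat_lit 0xc000c000300010001000080000000000000000000000000000000) (nat_lit 0x0) (nat_lit 0x80026003300038000c0000000000000000000000000000000000000000000) := T_23 (nat_lit 209) (nat_lit 208) (nat_lit 2) (nat_lit 4) (nat_lit 12) L15216 (by decide +kernel)
theorem L15218 : W_23 (nat_lit 8) (nat_lit 0x8000c000300010001000080000000000000000000000000000000) (nat_lit 0x0) (nat_lit 0x8002e003700038000c0000000000000000000000000000000000000000000) := T_23 (nat_lit 210) (nat_lit 227) (nat_lit 5) (nat_lit 7) (nat_lit 9) L15217 (by decide +kernel)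
theorem L15219 : W_23 (nat_lit 5) (nat_lit 0x1c000c000300010001000080000000000000000000000000000000) (nat_lit 0x0) (nat_lit 0x8000600230003800000000000000000000000000000000000000000000000) := T_23 (nat_lit 209) (nat_lit 208) (nat_lit 2) (nat_lit 4) (nat_lit 12) L7918 (by decide +kernel)
theorem L15220 : W_23 (nat_lit 6) (nat_lit 0x18000c000300010001000080000000000000000000000000000000) (nat_lit 0x0) (nat_lit 0x8000e00270003800000000000000000000000000000000000000000000000) := T_23 (nat_lit 210) (nat_lit 227) (nat_lit 5) (nat_lit 7) (nat_lit 9) L15219 (by decide +kernel)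
theorem L15221 : W_23 (nat_lit 7) (nat_lit 0x8000c000300010001000080000000000000000000000000000000) (nat_lit 0x0) (nat_lit 0x8002e00370003800000000000000000000000000000000000000000000000) := T_23 (nat_lit 212) (nat_lit 229) (nat_lit 7) (nat_lit 7) (nat_lit 9) L15220 (by decide +kernel)
theorem L15222 : W_23 (nat_lit 2) (nat_lit 0x180008000c000340010001000080000000000000000000000000000000) (nat_lit 0x0) (nat_lit 0x20000000000002000400000000000000000000000000000000000000000000) := D_23 (nat_lit 245) (nat_lit 193) (nat_lit 178) (nat_lit 4) (nat_lit 7) (nat_lit 14) (nat_lit 6) (nat_lit 7) (nat_lit 14) (by decide +kernel)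
theorem L15223 : W_23 (nat_lit 3) (nat_lit 0x80008000c000340010001000080000000000000000000000000000000) (nat_lit 0x0) (nat_lit 0x30001000000002000400000000000000000000000000000000000000000000) := T_23 (nat_lit 228) (nat_lit 244) (nat_lit 5) (nat_lit 7) (nat_lit 10) L15222 (by decide +kernel)
theorem L15224 : W_23 (nat_lit 4) (nat_lit 0x80008000c000300010001000080000000000000000000000000000000) (nat_lit 0x0) (nat_lit 0x300010000000020004c0000000000000000000000000000000000000000000) := T_23 (nat_lit 174) (nat_lit 175) (nat_lit 3) (nat_lit 4) (nat_lit 10) L15223 (by decide +kernel)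
theorem L15225 : W_23 (nat_lit 5) (nat_lit 0x8000c000300010001000080000000000000000000000000000000) (nat_lit 0x0) (nat_lit 0x300018000400020004c0000000000000000000000000000000000000000000) := T_23 (nat_lit 227) (nat_lit 210) (nat_lit 5) (nat_lit 7) (nat_lit 9) L15224 (by decide +kernel)
theorem L15226 : W_23 (nat_lit 2) (nat_lit 0x300008000c000340010001000080000000000000000000000000000000) (nat_lit 0x0) (nat_lit 0x20000000000002000400000000000000000000000000000000000000000000) := D_23 (nat_lit 245) (nat_lit 178) (nat_lit 193) (nat_lit 6) (nat_lit 7) (nat_lit 14) (nat_lit 4) (nat_lit 7) (nat_lit 14) (by decide +kernel)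
theorem L15227 : W_23 (nat_lit 3) (nat_lit 0x200008000c000340010001000080000000000000000000000000000000) (nat_lit 0x0) (nat_lit 0x60001000000002000400000000000000000000000000000000000000000000) := T_23 (nat_lit 228) (nat_lit 246) (nat_lit 7) (nat_lit 7) (nat_lit 10) L15226 (by decide +kernel)
theorem L15228 : W_23 (nat_lit 4) (nat_lit 0x200008000c000300010001000080000000000000000000000000000000) (nat_lit 0x0) (nat_lit 0x600010000000020004c0000000000000000000000000000000000000000000) := T_23 (nat_lit 174) (nat_lit 175) (nat_lit 3) (nat_lit 4) (nat_lit 10) L15227 (by decide +kernel)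
theorem L15229 : W_23 (nat_lit 5) (nat_lit 0x8000c000300010001000080000000000000000000000000000000) (nat_lit 0x0) (nat_lit 0x600030001000020004c0000000000000000000000000000000000000000000) := T_23 (nat_lit 229) (nat_lit 212) (nat_lit 7) (nat_lit 7) (nat_lit 9) L15228 (by decide +kernel)
theorem L15230 : W_23 (nat_lit 9) (nat_lit 0xc000300010001000080000000000000000000000000000000) (nat_lit 0x0) (nat_lit 0x400078003e003f00038004c0000000000000000000000000000000000000000000) := Q_23 (nat_lit 211) (C_23 L15211 (C_23 L15218 (C_23 L15221 (C_23 L15225 (C_23 L15229 N_23))))) (by decide +kernel)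
theorem L15231 : W_23 (nat_lit 10) (nat_lit 0xc000300000001000080000000000000000000000000000000) (nat_lit 0x0) (nat_lit 0x400078003e003f00038004c0010000800000000000000000000000000000000000) := T_23 (nat_lit 160) (nat_lit 143) (nat_lit 6) (nat_lit 7) (nat_lit 11) L15230 (by decide +kernel)
theorem L15232 : W_23 (nat_lit 11) (nat_lit 0x4000300000001000080000000000000000000000000000000) (nat_lit 0x0) (nat_lit 0x400078003e007f803bc00cc0010000800000000000000000000000000000000000) := Q_23 (nat_lit 195) (C_23 L15231 (C_23 L14831 (C_23 L5316 (C_23 L10838 (C_23 L15009 N_23))))) (by decide +kernel)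
theorem L15233 : W_23 (nat_lit 2) (nat_lit 0x10000c0006000300010001000080000000000000000000000000000000) (nat_lit 0x0) (nat_lit 0x40002000100000000000000000000000000000000000000000000000000000) := D_23 (nat_lit 229) (nat_lit 212) (nat_lit 246) (nat_lit 7) (nat_lit 7) (nat_lit 9) (nat_lit 7) (nat_lit 7) (nat_lit 10) (by decide +kernel)
theorem L15234 : W_23 (nat_lit 3) (nat_lit 0xc0006000300010001000080000000000000000000000000000000) (nat_lit 0x0) (nat_lit 0x60003000100000000000000000000000000000000000000000000000000000) := T_23 (nat_lit 228) (nat_lit 245) (nat_lit 4) (nat_lit 7) (nat_lit 14) L15233 (by decide +kernel)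
theorem L15235 : W_23 (nat_lit 4) (nat_lit 0xc0006000300000001000080000000000000000000000000000000) (nat_lit 0x0) (nat_lit 0x60003000100000000000010000800000000000000000000000000000000000) := T_23 (nat_lit 160) (nat_lit 143) (nat_lit 6) (nat_lit 7) (nat_lit 11) L15234 (by decide +kernel)
theorem L15236 : W_23 (nat_lit 2) (nat_lit 0xc0006000300000001f00080000000000000000000000000000000) (nat_lit 0x0) (nat_lit 0x1c000000000000000000000000000000) := D_23 (nat_lit 123) (nat_lit 124) (nat_lit 122) (nat_lit 0) (nat_lit 8) (nat_lit 8) (nat_lit 0) (nat_lit 7) (nat_lit 8) (by decide +kernel)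
theorem L15237 : W_23 (nat_lit 3) (nat_lit 0xc0006000300000001e00080000000000000000000000000000000) (nat_lit 0x0) (nat_lit 0x10005c000000000000000000000000000000) := T_23 (nat_lit 140) (nat_lit 126) (nat_lit 2) (nat_lit 4) (nat_lit 8) L15236 (by decide +kernel)
theorem L15238 : W_23 (nat_lit 4) (nat_lit 0xc0006000300000001c00080000000000000000000000000000000) (nat_lit 0x0) (nat_lit 0x30015c000000000000000000000000000000) := T_23 (nat_lit 141) (nat_lit 128) (nat_lit 2) (nat_lit 5) (nat_lit 8) L15237 (by decide +kernel)
theorem L15239 : W_23 (nat_lit 5) (nat_lit 0xc0006000300000001800080000000000000000000000000000000) (nat_lit 0x0) (nat_lit 0x800070015c000000000000000000000000000000) := T_23 (nat_lit 142) (nat_lit 159) (nat_lit 7) (nat_lit 6) (nat_lit 8) L15238 (by decide +kernel)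
theorem L15240 : W_23 (nat_lit 6) (nat_lit 0xc0006000300000001000080000000000000000000000000000000) (nat_lit 0x0) (nat_lit 0x18000f0015c000000000000000000000000000000) := T_23 (nat_lit 143) (nat_lit 160) (nat_lit 6) (nat_lit 7) (nat_lit 11) L15239 (by decide +kernel)
theorem L15241 : W_23 (nat_lit 7) (nat_lit 0x40006000300000001000080000000000000000000000000000000) (nat_lit 0x0) (nat_lit 0x60003000180000000000018000f0015c000000000000000000000000000000) := Q_23 (nat_lit 211) (C_23 L12215 (C_23 L15235 (C_23 L15240 N_23))) (by decide +kernel)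
theorem L15242 : W_23 (nat_lit 8) (nat_lit 0x6000300000001000080000000000000000000000000000000) (nat_lit 0x0) (nat_lit 0x78003f001c0000000000018000f0015c000000000000000000000000000000) := Q_23 (nat_lit 210) (C_23 L12214 (C_23 L12034 (C_23 L15241 N_23))) (by decide +kernel)
theorem L15260 : W_23 (nat_lit 2) (nat_lit 0x2000080006000300010001000080000000000000000000000000000000) (nat_lit 0x0) (nat_lit 0x60001000000000000000000000000000000000000000000000000000000000) := D_23 (nat_lit 228) (nat_lit 245) (nat_lit 246) (nat_lit 4) (nat_lit 7) (nat_lit 14) (nat_lit 7) (nat_lit 7) (nat_lit 10) (by decide +kernel)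
theorem L15261 : W_23 (nat_lit 3) (nat_lit 0x80006000300010001000080000000000000000000000000000000) (nat_lit 0x0) (nat_lit 0x60003000100000000000000000000000000000000000000000000000000000) := T_23 (nat_lit 229) (nat_lit 212) (nat_lit 7) (nat_lit 7) (nat_lit 9) L15260 (by decide +kernel)
theorem L15262 : W_23 (nat_lit 4) (nat_lit 0x80006000300000001000080000000000000000000000000000000) (nat_lit 0x0) (nat_lit 0x60003000100000000000010000800000000000000000000000000000000000) := T_23 (nat_lit 160) (nat_lit 143) (nat_lit 6) (nat_lit 7) (nat_lit 11) L15261 (by decide +kernel)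
theorem L15263 : W_23 (nat_lit 4) (nat_lit 0x80006000300010001000080000000000000000000000000000000) (nat_lit 0x0) (nat_lit 0x2800340001800000000000000000000000000000000000000000000000) := T_23 (nat_lit 210) (nat_lit 227) (nat_lit 6) (nat_lit 6) (nat_lit 13) L12221 (by decide +kernel)
theorem L15264 : W_23 (nat_lit 5) (nat_lit 0x80006000300000001000080000000000000000000000000000000) (nat_lit 0x0) (nat_lit 0x2800340001800000010000800000000000000000000000000000000000) := T_23 (nat_lit 160) (nat_lit 143) (nat_lit 6) (nat_lit 7) (nat_lit 11) L15263 (by decide +kernel)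
theorem L15265 : W_23 (nat_lit 2) (nat_lit 0x1800080006000300010001000080000000000000000000000000000000) (nat_lit 0x0) (nat_lit 0x40002000100000000000000000000000000000000000000000000000000000) := D_23 (nat_lit 229) (nat_lit 246) (nat_lit 212) (nat_lit 7) (nat_lit 7) (nat_lit 10) (nat_lit 7) (nat_lit 7) (nat_lit 9) (by decide +kernel)
theorem L15266 : W_23 (nat_lit 3) (nat_lit 0x1800080006000300000001000080000000000000000000000000000000) (nat_lit 0x0) (nat_lit 0x40002000140000000000010000000000000000000000000000000000000000) := T_23 (nat_lit 160) (nat_lit 210) (nat_lit 6) (nat_lit 6) (nat_lit 13) L15265 (by decide +kernel)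
theorem L15267 : W_23 (nat_lit 4) (nat_lit 0x1000080006000300000001000080000000000000000000000000000000) (nat_lit 0x0) (nat_lit 0x50002800140000000000010000000000000000000000000000000000000000) := T_23 (nat_lit 227) (nat_lit 244) (nat_lit 5) (nat_lit 7) (nat_lit 10) L15266 (by decide +kernel)
theorem L15268 : W_23 (nat_lit 5) (nat_lit 0x80006000300000001000080000000000000000000000000000000) (nat_lit 0x0) (nat_lit 0x70003800140000000000010000000000000000000000000000000000000000) := T_23 (nat_lit 228) (nat_lit 245) (nat_lit 4) (nat_lit 7) (nat_lit 14) L15267 (by decide +kernel)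
theorem L15269 : W_23 (nat_lit 8) (nat_lit 0x80006000300000001000080000000000000000000000000000000) (nat_lit 0x0) (nat_lit 0x7800ff00370000000000000000000000000000000000000000000000000000) := Q_23 (nat_lit 210) (C_23 L15259 (C_23 L15246 (C_23 L15252 (C_23 L15253 N_23)))) (by decide +kernel)
theorem L15270 : W_23 (nat_lit 2) (nat_lit 0x1000080006000300010001000080000000000000000000000000000000) (nat_lit 0x0) (nat_lit 0x10000800040000000000000000000000000000000000000000000000000000) := D_23 (nat_lit 227) (nat_lit 210) (nat_lit 244) (nat_lit 6) (nat_lit 6) (nat_lit 13) (nat_lit 5) (nat_lit 7) (nat_lit 10) (by decide +kernel)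
theorem L15271 : W_23 (nat_lit 3) (nat_lit 0x1000080006000300000001000080000000000000000000000000000000) (nat_lit 0x0) (nat_lit 0x10000800040000000000010000800000000000000000000000000000000000) := T_23 (nat_lit 160) (nat_lit 143) (nat_lit 6) (nat_lit 7) (nat_lit 11) L15270 (by decide +kernel)
theorem L15272 : W_23 (nat_lit 4) (nat_lit 0x80006000300000001000080000000000000000000000000000000) (nat_lit 0x0) (nat_lit 0x30001800040000000000010000800000000000000000000000000000000000) := T_23 (nat_lit 228) (nat_lit 245) (nat_lit 4) (nat_lit 7) (nat_lit 14) L15271 (by decide +kernel)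
theorem L15273 : W_23 (nat_lit 9) (nat_lit 0x6000300000001000080000000000000000000000000000000) (nat_lit 0x0) (nat_lit 0x7800ff003f0001800000010000800000000000000000000000000000000000) := Q_23 (nat_lit 211) (C_23 L15262 (C_23 L15264 (C_23 L15268 (C_23 L15269 (C_23 L15272 N_23))))) (by decide +kernel)
theorem L15275 : W_23 (nat_lit 2) (nat_lit 0x7400300000001f00080000000000000000000000000000000) (nat_lit 0x0) (nat_lit 0x1c000000000000000000000000000000) := D_23 (nat_lit 123) (nat_lit 124) (nat_lit 122) (nat_lit 0) (nat_lit 8) (nat_lit 8) (nat_lit 0) (nat_lit 7) (nat_lit 8) (by decide +kernel)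
theorem L15276 : W_23 (nat_lit 3) (nat_lit 0x7400300000001e00080000000000000000000000000000000) (nat_lit 0x0) (nat_lit 0x10005c000000000000000000000000000000) := T_23 (nat_lit 140) (nat_lit 126) (nat_lit 2) (nat_lit 4) (nat_lit 8) L15275 (by decide +kernel)
theorem L15277 : W_23 (nat_lit 4) (nat_lit 0x7400300000001c00080000000000000000000000000000000) (nat_lit 0x0) (nat_lit 0x30015c000000000000000000000000000000) := T_23 (nat_lit 141) (nat_lit 128) (nat_lit 2) (nat_lit 5) (nat_lit 8) L15276 (by decide +kernel)
theorem L15278 : W_23 (nat_lit 5) (nat_lit 0x7400300000001400080000000000000000000000000000000) (nat_lit 0x0) (nat_lit 0x10000b0015c000000000000000000000000000000) := T_23 (nat_lit 143) (nat_lit 160) (nat_lit 6) (nat_lit 7) (nat_lit 11) L15277 (by decide +kernel)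
theorem L15279 : W_23 (nat_lit 6) (nat_lit 0x7000300000001400080000000000000000000000000000000) (nat_lit 0x0) (nat_lit 0xc00000010000b0015c000000000000000000000000000000) := T_23 (nat_lit 190) (nat_lit 191) (nat_lit 2) (nat_lit 3) (nat_lit 11) L15278 (by decide +kernel)
theorem L15280 : W_23 (nat_lit 7) (nat_lit 0x7000300000001000080000000000000000000000000000000) (nat_lit 0x0) (nat_lit 0x20000c00000018000f0017c000000000000000000000000000000) := Q_23 (nat_lit 142) (C_23 L15274 (C_23 L15279 N_23)) (by decide +kernel)
theorem L15281 : W_23 (nat_lit 2) (nat_lit 0x7000300000001f00080000000000000000000000000000000) (nat_lit 0x0) (nat_lit 0x1c000000000000000000000000000000) := D_23 (nat_lit 123) (nat_lit 124) (nat_lit 122) (nat_lit 0) (nat_lit 8) (nat_lit 8) (nat_lit 0) (nat_lit 7) (nat_lit 8) (by decide +kernel)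
theorem L15282 : W_23 (nat_lit 3) (nat_lit 0x7000300000001e00080000000000000000000000000000000) (nat_lit 0x0) (nat_lit 0x10005c000000000000000000000000000000) := T_23 (nat_lit 140) (nat_lit 126) (nat_lit 2) (nat_lit 4) (nat_lit 8) L15281 (by decide +kernel)
theorem L15283 : W_23 (nat_lit 4) (nat_lit 0x7000300000001c00080000000000000000000000000000000) (nat_lit 0x0) (nat_lit 0x30015c000000000000000000000000000000) := T_23 (nat_lit 141) (nat_lit 128) (nat_lit 2) (nat_lit 5) (nat_lit 8) L15282 (by decide +kernel)
theorem L15284 : W_23 (nat_lit 5) (nat_lit 0x7000300000001400080000000000000000000000000000000) (nat_lit 0x0) (nat_lit 0x10000b0015c000000000000000000000000000000) := T_23 (nat_lit 143) (nat_lit 160) (nat_lit 6) (nat_lit 7) (nat_lit 11) L15283 (by decide +kernel)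
theorem L15285 : W_23 (nat_lit 6) (nat_lit 0x7000300000001000080000000000000000000000000000000) (nat_lit 0x0) (nat_lit 0x20000000000018000f0017c000000000000000000000000000000) := Q_23 (nat_lit 142) (C_23 L15274 (C_23 L15284 N_23)) (by decide +kernel)
theorem L15286 : W_23 (nat_lit 8) (nat_lit 0x6000300000001000080000000000000000000000000000000) (nat_lit 0x0) (nat_lit 0x20001c00400018000f0017c000000000000000000000000000000) := Q_23 (nat_lit 192) (C_23 L12149 (C_23 L15280 (C_23 L15285 N_23))) (by decide +kernel)
theorem L15288 : W_23 (nat_lit 7) (nat_lit 0xc0006000300000001000080000000000000000000000000000000) (nat_lit 0x0) (nat_lit 0x700138001c00400008000400000000000000000000000000000000000) := T_23 (nat_lit 159) (nat_lit 142) (nat_lit 7) (nat_lit 6) (nat_lit 8) L15190 (by decide +kernel)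
theorem L15289 : W_23 (nat_lit 2) (nat_lit 0xc0006000300000001000080000000000000000000000000000000) (nat_lit 0x0) (nat_lit 0x10000800000000000000010000000000000000000000000000000000000000) := D_23 (nat_lit 227) (nat_lit 160) (nat_lit 244) (nat_lit 6) (nat_lit 6) (nat_lit 13) (nat_lit 6) (nat_lit 6) (nat_lit 14) (by decide +kernel)
theorem L15290 : W_23 (nat_lit 8) (nat_lit 0x80006000300000001000080000000000000000000000000000000) (nat_lit 0x0) (nat_lit 0x18000f00378001c00400018000400000000000000000000000000000000000) := Q_23 (nat_lit 210) (C_23 L15288 (C_23 L15246 (C_23 L15289 N_23))) (by decide +kernel)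
theorem L15291 : W_23 (nat_lit 9) (nat_lit 0x6000300000001000080000000000000000000000000000000) (nat_lit 0x0) (nat_lit 0x7800ff003f8001c00400018000400000000000000000000000000000000000) := Q_23 (nat_lit 211) (C_23 L15287 (C_23 L15269 (C_23 L15290 N_23))) (by decide +kernel)
theorem L15292 : W_23 (nat_lit 10) (nat_lit 0x4000300000001000080000000000000000000000000000000) (nat_lit 0x0) (nat_lit 0x7800ff003f8003c00400018000f0017c000000000000000000000000000000) := Q_23 (nat_lit 193) (C_23 L15193 (C_23 L15242 (C_23 L15273 (C_23 L15286 (C_23 L15291 N_23))))) (by decide +kernel)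
theorem L15293 : W_23 (nat_lit 2) (nat_lit 0x700018000d002f80000001000080000000000000000000000000000000) (nat_lit 0x0) (nat_lit 0x8000060000000000000000000000000000000000000000000000000000) := D_23 (nat_lit 210) (nat_lit 209) (nat_lit 231) (nat_lit 3) (nat_lit 5) (nat_lit 12) (nat_lit 0) (nat_lit 10) (nat_lit 13) (by decide +kernel)
theorem L15294 : W_23 (nat_lit 3) (nat_lit 0x700010000d002f80000001000080000000000000000000000000000000) (nat_lit 0x0) (nat_lit 0x80000e0000000000008000000000000000000000000000000000000000) := T_23 (nat_lit 211) (nat_lit 159) (nat_lit 4) (nat_lit 7) (nat_lit 13) L15293 (by decide +kernel)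
theorem L15295 : W_23 (nat_lit 4) (nat_lit 0x600010000d002f80000001000080000000000000000000000000000000) (nat_lit 0x0) (nat_lit 0x200090000e0000000000008000000000000000000000000000000000000000) := T_23 (nat_lit 228) (nat_lit 245) (nat_lit 5) (nat_lit 8) (nat_lit 10) L15294 (by decide +kernel)
theorem L15296 : W_23 (nat_lit 5) (nat_lit 0x600010000d000f80000001000080000000000000000000000000000000) (nat_lit 0x0) (nat_lit 0x200090000e0000003000008000000000000000000000000000000000000000) := T_23 (nat_lit 181) (nat_lit 180) (nat_lit 1) (nat_lit 11) (nat_lit 10) L15295 (by decide +kernel)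
theorem L15297 : W_23 (nat_lit 6) (nat_lit 0x600010000d000780000001000080000000000000000000000000000000) (nat_lit 0x0) (nat_lit 0x200090000e0000003800048000000000000000000000000000000000000000) := T_23 (nat_lit 179) (nat_lit 162) (nat_lit 6) (nat_lit 8) (nat_lit 13) L15296 (by decide +kernel)
theorem L15298 : W_23 (nat_lit 7) (nat_lit 0x200010000d000780000001000080000000000000000000000000000000) (nat_lit 0x0) (nat_lit 0xa000d0000e0000003800048000000000000000000000000000000000000000) := T_23 (nat_lit 230) (nat_lit 247) (nat_lit 7) (nat_lit 8) (nat_lit 10) L15297 (by decide +kernel)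
theorem L15299 : W_23 (nat_lit 8) (nat_lit 0x200010000c000780000001000080000000000000000000000000000000) (nat_lit 0x0) (nat_lit 0xa000d0000e0001803800048000000000000000000000000000000000000000) := T_23 (nat_lit 192) (nat_lit 191) (nat_lit 1) (nat_lit 8) (nat_lit 10) L15298 (by decide +kernel)
theorem L15300 : W_23 (nat_lit 9) (nat_lit 0x200010000c000380000001000080000000000000000000000000000000) (nat_lit 0x0) (nat_lit 0xa000d0000e0011803c00048000000000000000000000000000000000000000) := T_23 (nat_lit 178) (nat_lit 196) (nat_lit 3) (nat_lit 5) (nat_lit 10) L15299 (by decide +kernel)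
theorem L15301 : W_23 (nat_lit 10) (nat_lit 0x200010000c000300000001000080000000000000000000000000000000) (nat_lit 0x0) (nat_lit 0xa000d0000e0011803cc0048000000000000000000000000000000000000000) := T_23 (nat_lit 175) (nat_lit 174) (nat_lit 3) (nat_lit 4) (nat_lit 10) L15300 (by decide +kernel)
theorem L15302 : W_23 (nat_lit 11) (nat_lit 0x10000c000300000001000080000000000000000000000000000000) (nat_lit 0x0) (nat_lit 0xe000f0000e0011803cc0048000000000000000000000000000000000000000) := T_23 (nat_lit 229) (nat_lit 246) (nat_lit 4) (nat_lit 8) (nat_lit 14) L15301 (by decide +kernel)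
theorem L15303 : W_23 (nat_lit 12) (nat_lit 0xc000300000001000080000000000000000000000000000000) (nat_lit 0x0) (nat_lit 0x4000f000fe001f0011803cc0058000800000000000000000000000000000000000) := Q_23 (nat_lit 212) (C_23 L12417 (C_23 L11737 (C_23 L11995 (C_23 L15302 (C_23 L12015 N_23))))) (by decide +kernel)
theorem L15304 : W_23 (nat_lit 14) (nat_lit 0x4000300000001000080000000000000000000000000000000) (nat_lit 0x0) (nat_lit 0x1c000f001fe00ff0079803cc01d8000800000000000000000000000000000000000) := Q_23 (nat_lit 195) (C_23 L12016 (C_23 L11973 (C_23 L11828 (C_23 L10838 (C_23 L15303 N_23))))) (by decide +kernel)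
theorem L15305 : W_23 (nat_lit 2) (nat_lit 0xc000340000001f000a0000000000000000000000000000000) (nat_lit 0x0) (nat_lit 0x1c000000000000000000000000000000) := D_23 (nat_lit 123) (nat_lit 124) (nat_lit 122) (nat_lit 0) (nat_lit 8) (nat_lit 8) (nat_lit 0) (nat_lit 7) (nat_lit 8) (by decide +kernel)
theorem L15306 : W_23 (nat_lit 3) (nat_lit 0xc000340000001e000a0000000000000000000000000000000) (nat_lit 0x0) (nat_lit 0x10005c000000000000000000000000000000) := T_23 (nat_lit 140) (nat_lit 126) (nat_lit 2) (nat_lit 4) (nat_lit 8) L15305 (by decide +kernel)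
theorem L15307 : W_23 (nat_lit 4) (nat_lit 0xc000340000001c000a0000000000000000000000000000000) (nat_lit 0x0) (nat_lit 0x30015c000000000000000000000000000000) := T_23 (nat_lit 141) (nat_lit 128) (nat_lit 2) (nat_lit 5) (nat_lit 8) L15306 (by decide +kernel)
theorem L15308 : W_23 (nat_lit 5) (nat_lit 0xc000340000001c00080000000000000000000000000000000) (nat_lit 0x0) (nat_lit 0x800030017c000000000000000000000000000000) := T_23 (nat_lit 125) (nat_lit 159) (nat_lit 7) (nat_lit 6) (nat_lit 7) L15307 (by decide +kernel)
theorem L15309 : W_23 (nat_lit 6) (nat_lit 0xc000300000001c00080000000000000000000000000000000) (nat_lit 0x0) (nat_lit 0xc000800030017c000000000000000000000000000000) := T_23 (nat_lit 174) (nat_lit 175) (nat_lit 3) (nat_lit 4) (nat_lit 10) L15308 (by decide +kernel)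
theorem L15310 : W_23 (nat_lit 2) (nat_lit 0xc000300000001f00080000000000000000000000000000000) (nat_lit 0x0) (nat_lit 0x1c000000000000000000000000000000) := D_23 (nat_lit 123) (nat_lit 124) (nat_lit 122) (nat_lit 0) (nat_lit 8) (nat_lit 8) (nat_lit 0) (nat_lit 7) (nat_lit 8) (by decide +kernel)
theorem L15311 : W_23 (nat_lit 3) (nat_lit 0xc000300000001e00080000000000000000000000000000000) (nat_lit 0x0) (nat_lit 0x10005c000000000000000000000000000000) := T_23 (nat_lit 140) (nat_lit 126) (nat_lit 2) (nat_lit 4) (nat_lit 8) L15310 (by decide +kernel)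
theorem L15312 : W_23 (nat_lit 4) (nat_lit 0xc000300000001c00080000000000000000000000000000000) (nat_lit 0x0) (nat_lit 0x30015c000000000000000000000000000000) := T_23 (nat_lit 141) (nat_lit 128) (nat_lit 2) (nat_lit 5) (nat_lit 8) L15311 (by decide +kernel)
theorem L15313 : W_23 (nat_lit 2) (nat_lit 0xcc00340002001f000a8000000000000000000000000000000) (nat_lit 0x0) (nat_lit 0x20003000000000000000000000000000000000000000000000000) := D_23 (nat_lit 192) (nat_lit 193) (nat_lit 209) (nat_lit 2) (nat_lit 3) (nat_lit 11) (nat_lit 7) (nat_lit 4) (nat_lit 8) (by decide +kernel)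
theorem L15314 : W_23 (nat_lit 3) (nat_lit 0xc400340002001f000a8000000000000000000000000000000) (nat_lit 0x0) (nat_lit 0x28003800000000000000000000000000000000000000000000000) := T_23 (nat_lit 191) (nat_lit 207) (nat_lit 5) (nat_lit 4) (nat_lit 8) L15313 (by decide +kernel)
theorem L15315 : W_23 (nat_lit 4) (nat_lit 0xc000340002001f000a8000000000000000000000000000000) (nat_lit 0x0) (nat_lit 0x28003c00020000000000000000000000000000000000000000000) := T_23 (nat_lit 190) (nat_lit 173) (nat_lit 5) (nat_lit 4) (nat_lit 7) L15314 (by decide +kernel)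
theorem L15316 : W_23 (nat_lit 5) (nat_lit 0xc000340000001f000a8000000000000000000000000000000) (nat_lit 0x0) (nat_lit 0x28003c00020003000000000000000000000000000000000000000) := T_23 (nat_lit 157) (nat_lit 156) (nat_lit 1) (nat_lit 7) (nat_lit 8) L15315 (by decide +kernel)
theorem L15317 : W_23 (nat_lit 6) (nat_lit 0xc000340000001e000a8000000000000000000000000000000) (nat_lit 0x0) (nat_lit 0x28003c00020003000100004000000000000000000000000000000) := T_23 (nat_lit 140) (nat_lit 122) (nat_lit 0) (nat_lit 7) (nat_lit 8) L15316 (by decide +kernel)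
theorem L15318 : W_23 (nat_lit 7) (nat_lit 0xc000340000001e000a0000000000000000000000000000000) (nat_lit 0x0) (nat_lit 0x28003c0002000300010001c000000000000000000000000000000) := T_23 (nat_lit 123) (nat_lit 124) (nat_lit 0) (nat_lit 8) (nat_lit 8) L15317 (by decide +kernel)
theorem L15319 : W_23 (nat_lit 8) (nat_lit 0xc000340000001c000a0000000000000000000000000000000) (nat_lit 0x0) (nat_lit 0x28003c0002000300030011c000000000000000000000000000000) := T_23 (nat_lit 141) (nat_lit 128) (nat_lit 2) (nat_lit 5) (nat_lit 8) L15318 (by decide +kernel)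
theorem L15320 : W_23 (nat_lit 9) (nat_lit 0xc000340000001c00080000000000000000000000000000000) (nat_lit 0x0) (nat_lit 0x28003c0002000b00030013c000000000000000000000000000000) := T_23 (nat_lit 125) (nat_lit 159) (nat_lit 7) (nat_lit 6) (nat_lit 7) L15319 (by decide +kernel)
theorem L15321 : W_23 (nat_lit 10) (nat_lit 0xc000300000001c00080000000000000000000000000000000) (nat_lit 0x0) (nat_lit 0x28003c000e000b00030013c000000000000000000000000000000) := T_23 (nat_lit 174) (nat_lit 175) (nat_lit 3) (nat_lit 4) (nat_lit 10) L15320 (by decide +kernel)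
theorem L15324 : W_23 (nat_lit 4) (nat_lit 0xc000340008001c00080000000000000000000000000000000) (nat_lit 0x0) (nat_lit 0x20003c00020000000000040000000000000000000000000000000) := T_23 (nat_lit 193) (nat_lit 126) (nat_lit 6) (nat_lit 6) (nat_lit 11) L15323 (by decide +kernel)
theorem L15325 : W_23 (nat_lit 5) (nat_lit 0xc000340000001c00080000000000000000000000000000000) (nat_lit 0x0) (nat_lit 0x20003c00020008000000060000000000000000000000000000000) := T_23 (nat_lit 159) (nat_lit 125) (nat_lit 7) (nat_lit 6) (nat_lit 7) L15324 (by decide +kernel)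
theorem L15326 : W_23 (nat_lit 6) (nat_lit 0xc000300000001c00080000000000000000000000000000000) (nat_lit 0x0) (nat_lit 0x20003c000e0008000000060000000000000000000000000000000) := T_23 (nat_lit 174) (nat_lit 175) (nat_lit 3) (nat_lit 4) (nat_lit 10) L15325 (by decide +kernel)
theorem L15327 : W_23 (nat_lit 11) (nat_lit 0xc000300000001800080000000000000000000000000000000) (nat_lit 0x0) (nat_lit 0x28003c000e000b00070017c000000000000000000000000000000) := Q_23 (nat_lit 142) (C_23 L15309 (C_23 L15312 (C_23 L15321 (C_23 L15326 N_23)))) (by decide +kernel)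
theorem L15328 : W_23 (nat_lit 12) (nat_lit 0xc000300000001000080000000000000000000000000000000) (nat_lit 0x0) (nat_lit 0x28003c000e001b000f0017c000000000000000000000000000000) := T_23 (nat_lit 143) (nat_lit 160) (nat_lit 6) (nat_lit 7) (nat_lit 11) L15327 (by decide +kernel)
theorem L15329 : W_23 (nat_lit 13) (nat_lit 0x4000300000001000080000000000000000000000000000000) (nat_lit 0x0) (nat_lit 0x280077803bc00ce001b000f0017c000000000000000000000000000000) := Q_23 (nat_lit 195) (C_23 L15328 (C_23 L14831 (C_23 L10838 (C_23 L15009 N_23)))) (by decide +kernel)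
theorem L15330 : W_23 (nat_lit 5) (nat_lit 0x80006000300000001000080000000000000000000000000000000) (nat_lit 0x0) (nat_lit 0x10000c00078008000000018000400000000000000000000000000000000000) := Q_23 (nat_lit 210) (C_23 L6422 (C_23 L15289 N_23)) (by decide +kernel)
theorem L15331 : W_23 (nat_lit 9) (nat_lit 0x6000300000001000080000000000000000000000000000000) (nat_lit 0x0) (nat_lit 0x7800ff003f8008000000018000400000000000000000000000000000000000) := Q_23 (nat_lit 211) (C_23 L15287 (C_23 L15269 (C_23 L15330 N_23))) (by decide +kernel)
theorem L15332 : W_23 (nat_lit 13) (nat_lit 0x4000300000001000080000000000000000000000000000000) (nat_lit 0x0) (nat_lit 0xfc01ff003f803bc01ce0018000400000000000000000000000000000000000) := Q_23 (nat_lit 193) (C_23 L15291 (C_23 L15331 (C_23 L15200 (C_23 L15059 (C_23 L15202 (C_23 L15208 N_23)))))) (by decide +kernel)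
theorem L15335 : W_23 (nat_lit 6) (nat_lit 0x8000c000340000001000080000000000000000000000000000000) (nat_lit 0x0) (nat_lit 0x400030003800140000000400010000800000000000000000000000000000000000) := T_23 (nat_lit 160) (nat_lit 143) (nat_lit 6) (nat_lit 7) (nat_lit 11) L15210 (by decide +kernel)
theorem L15336 : W_23 (nat_lit 7) (nat_lit 0x8000c000300000001000080000000000000000000000000000000) (nat_lit 0x0) (nat_lit 0x4000300038001400000004c0010000800000000000000000000000000000000000) := T_23 (nat_lit 174) (nat_lit 175) (nat_lit 3) (nat_lit 4) (nat_lit 10) L15335 (by decide +kernel)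
theorem L15337 : W_23 (nat_lit 2) (nat_lit 0x4001e000c000300010001000080000000000000000000000000000000) (nat_lit 0x0) (nat_lit 0x2000000008000400000000000000000000000000000000000) := D_23 (nat_lit 159) (nat_lit 142) (nat_lit 193) (nat_lit 4) (nat_lit 7) (nat_lit 12) (nat_lit 5) (nat_lit 6) (nat_lit 9) (by decide +kernel)
theorem L15338 : W_23 (nat_lit 3) (nat_lit 0x1e000c000300010001000080000000000000000000000000000000) (nat_lit 0x0) (nat_lit 0x600000002000000008000400000000000000000000000000000000000) := T_23 (nat_lit 226) (nat_lit 225) (nat_lit 1) (nat_lit 8) (nat_lit 12) L15337 (by decide +kernel)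
theorem L15339 : W_23 (nat_lit 4) (nat_lit 0xe000c000300010001000080000000000000000000000000000000) (nat_lit 0x0) (nat_lit 0x2600100002000000008000400000000000000000000000000000000000) := T_23 (nat_lit 212) (nat_lit 229) (nat_lit 7) (nat_lit 7) (nat_lit 9) L15338 (by decide +kernel)
theorem L15340 : W_23 (nat_lit 5) (nat_lit 0xc000c000300010001000080000000000000000000000000000000) (nat_lit 0x0) (nat_lit 0x2600130002000000008000400000000000000000000000000000000000) := T_23 (nat_lit 209) (nat_lit 208) (nat_lit 2) (nat_lit 4) (nat_lit 12) L15339 (by decide +kernel)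
theorem L15341 : W_23 (nat_lit 6) (nat_lit 0x8000c000300010001000080000000000000000000000000000000) (nat_lit 0x0) (nat_lit 0x2e00170002000000008000400000000000000000000000000000000000) := T_23 (nat_lit 210) (nat_lit 227) (nat_lit 5) (nat_lit 7) (nat_lit 9) L15340 (by decide +kernel)
theorem L15342 : W_23 (nat_lit 7) (nat_lit 0x8000c000300000001000080000000000000000000000000000000) (nat_lit 0x0) (nat_lit 0x2e00170002000000018000c00000000000000000000000000000000000) := T_23 (nat_lit 160) (nat_lit 143) (nat_lit 6) (nat_lit 7) (nat_lit 11) L15341 (by decide +kernel)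
theorem L15343 : W_23 (nat_lit 8) (nat_lit 0xc000300000001000080000000000000000000000000000000) (nat_lit 0x0) (nat_lit 0x400070003e001f00020004c0018000c00000000000000000000000000000000000) := Q_23 (nat_lit 211) (C_23 L15334 (C_23 L11818 (C_23 L15336 (C_23 L15342 N_23)))) (by decide +kernel)
theorem L15344 : W_23 (nat_lit 13) (nat_lit 0x4000300000001000080000000000000000000000000000000) (nat_lit 0x0) (nat_lit 0x1c000f000fe007f007a003cc0058000c00000000000000000000000000000000000) := Q_23 (nat_lit 195) (C_23 L15343 (C_23 L11828 (C_23 L14831 (C_23 L11973 N_23)))) (by decide +kernel)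
theorem L15345 : W_23 (nat_lit 2) (nat_lit 0x20000f000100078003c0012001000088000000000000000000000000000000) (nat_lit 0x0) (nat_lit 0x40001000080000000000000000000000000000000000000000000000000000) := D_23 (nat_lit 228) (nat_lit 246) (nat_lit 211) (nat_lit 3) (nat_lit 4) (nat_lit 13) (nat_lit 4) (nat_lit 7) (nat_lit 14) (by decide +kernel)
theorem L15346 : W_23 (nat_lit 3) (nat_lit 0xf000100078003c0012001000088000000000000000000000000000000) (nat_lit 0x0) (nat_lit 0x70001000080000000000000000000000000000000000000000000000000000) := T_23 (nat_lit 245) (nat_lit 244) (nat_lit 3) (nat_lit 3) (nat_lit 13) L15345 (by decide +kernel)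
theorem L15347 : W_23 (nat_lit 4) (nat_lit 0xb000100078003c0012001000088000000000000000000000000000000) (nat_lit 0x0) (nat_lit 0x78001400080000000000000000000000000000000000000000000000000000) := T_23 (nat_lit 226) (nat_lit 243) (nat_lit 7) (nat_lit 4) (nat_lit 10) L15346 (by decide +kernel)
theorem L15348 : W_23 (nat_lit 5) (nat_lit 0xa000100078003c0012001000088000000000000000000000000000000) (nat_lit 0x0) (nat_lit 0x7a001500080000000000000000000000000000000000000000000000000000) := T_23 (nat_lit 224) (nat_lit 241) (nat_lit 5) (nat_lit 4) (nat_lit 10) L15347 (by decide +kernel)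
theorem L15349 : W_23 (nat_lit 6) (nat_lit 0x8000100078003c0012001000088000000000000000000000000000000) (nat_lit 0x0) (nat_lit 0x7e001700080000000000000000000000000000000000000000000000000000) := T_23 (nat_lit 225) (nat_lit 242) (nat_lit 6) (nat_lit 4) (nat_lit 14) L15348 (by decide +kernel)
theorem L15350 : W_23 (nat_lit 7) (nat_lit 0x8000100078003c0012001000080000000000000000000000000000000) (nat_lit 0x0) (nat_lit 0x7e001700080000000000000000100008000000000000000000000000000000) := T_23 (nat_lit 123) (nat_lit 140) (nat_lit 7) (nat_lit 4) (nat_lit 7) L15349 (by decide +kernel)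
theorem L15351 : W_23 (nat_lit 8) (nat_lit 0x8000000078003c0012001000080000000000000000000000000000000) (nat_lit 0x0) (nat_lit 0x7e001700098000000000000000100008000000000000000000000000000000) := T_23 (nat_lit 208) (nat_lit 207) (nat_lit 1) (nat_lit 7) (nat_lit 11) L15350 (by decide +kernel)
theorem L15352 : W_23 (nat_lit 9) (nat_lit 0x8000000068003c0012001000080000000000000000000000000000000) (nat_lit 0x0) (nat_lit 0x7e001700098001000400000000100008000000000000000000000000000000) := T_23 (nat_lit 192) (nat_lit 178) (nat_lit 2) (nat_lit 4) (nat_lit 11) L15351 (by decide +kernel)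
theorem L15353 : W_23 (nat_lit 10) (nat_lit 0x8000000060003c0012001000080000000000000000000000000000000) (nat_lit 0x0) (nat_lit 0x7e001700098001c00400000000100008000000000000000000000000000000) := T_23 (nat_lit 191) (nat_lit 190) (nat_lit 1) (nat_lit 7) (nat_lit 10) L15352 (by decide +kernel)
theorem L15354 : W_23 (nat_lit 11) (nat_lit 0x8000000060003c0010001000080000000000000000000000000000000) (nat_lit 0x0) (nat_lit 0x7e001700098001c00400003000100008000000000000000000000000000000) := T_23 (nat_lit 157) (nat_lit 156) (nat_lit 0) (nat_lit 7) (nat_lit 10) L15353 (by decide +kernel)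
theorem L15355 : W_23 (nat_lit 12) (nat_lit 0x60003c0010001000080000000000000000000000000000000) (nat_lit 0x0) (nat_lit 0x7e001f000d8001c00400003000100008000000000000000000000000000000) := T_23 (nat_lit 227) (nat_lit 210) (nat_lit 6) (nat_lit 6) (nat_lit 13) L15354 (by decide +kernel)
theorem L15356 : W_23 (nat_lit 13) (nat_lit 0x60003c0000001000080000000000000000000000000000000) (nat_lit 0x0) (nat_lit 0x7e001f000d8001c00400013000900008000000000000000000000000000000) := T_23 (nat_lit 160) (nat_lit 143) (nat_lit 6) (nat_lit 7) (nat_lit 11) L15355 (by decide +kernel)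
theorem L15357 : W_23 (nat_lit 14) (nat_lit 0x6000380000001000080000000000000000000000000000000) (nat_lit 0x0) (nat_lit 0x7e001f000d8001c00460013000900008000000000000000000000000000000) := T_23 (nat_lit 174) (nat_lit 173) (nat_lit 3) (nat_lit 3) (nat_lit 10) L15356 (by decide +kernel)
theorem L15358 : W_23 (nat_lit 2) (nat_lit 0x80006000380000001000080000000000000000000000000000000) (nat_lit 0x0) (nat_lit 0x20001000000000000000008000000000000000000000000000000000000000) := D_23 (nat_lit 228) (nat_lit 159) (nat_lit 245) (nat_lit 4) (nat_lit 7) (nat_lit 13) (nat_lit 4) (nat_lit 7) (nat_lit 14) (by decide +kernel)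
theorem L15359 : W_23 (nat_lit 2) (nat_lit 0x80016000380000001f00080000000000000000000000000000000) (nat_lit 0x0) (nat_lit 0x1c000000000000000000000000000000) := D_23 (nat_lit 123) (nat_lit 124) (nat_lit 122) (nat_lit 0) (nat_lit 8) (nat_lit 8) (nat_lit 0) (nat_lit 7) (nat_lit 8) (by decide +kernel)
theorem L15360 : W_23 (nat_lit 3) (nat_lit 0x80016000380000001e00080000000000000000000000000000000) (nat_lit 0x0) (nat_lit 0x10005c000000000000000000000000000000) := T_23 (nat_lit 140) (nat_lit 126) (nat_lit 2) (nat_lit 4) (nat_lit 8) L15359 (by decide +kernel)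
theorem L15361 : W_23 (nat_lit 4) (nat_lit 0x80016000380000001c00080000000000000000000000000000000) (nat_lit 0x0) (nat_lit 0x30015c000000000000000000000000000000) := T_23 (nat_lit 141) (nat_lit 128) (nat_lit 2) (nat_lit 5) (nat_lit 8) L15360 (by decide +kernel)
theorem L15362 : W_23 (nat_lit 5) (nat_lit 0x80016000380000001800080000000000000000000000000000000) (nat_lit 0x0) (nat_lit 0x800070015c000000000000000000000000000000) := T_23 (nat_lit 142) (nat_lit 159) (nat_lit 7) (nat_lit 6) (nat_lit 8) L15361 (by decide +kernel)
theorem L15363 : W_23 (nat_lit 6) (nat_lit 0x80006000380000001800080000000000000000000000000000000) (nat_lit 0x0) (nat_lit 0x1800000000800070015c000000000000000000000000000000) := T_23 (nat_lit 196) (nat_lit 195) (nat_lit 0) (nat_lit 9) (nat_lit 11) L15362 (by decide +kernel)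
theorem L15364 : W_23 (nat_lit 7) (nat_lit 0x80006000380000001000080000000000000000000000000000000) (nat_lit 0x0) (nat_lit 0x18000000018000f0015c000000000000000000000000000000) := T_23 (nat_lit 143) (nat_lit 160) (nat_lit 6) (nat_lit 7) (nat_lit 11) L15363 (by decide +kernel)
theorem L15365 : W_23 (nat_lit 8) (nat_lit 0x6000380000001000080000000000000000000000000000000) (nat_lit 0x0) (nat_lit 0x300018000c0018000000018000f0015c000000000000000000000000000000) := Q_23 (nat_lit 211) (C_23 L13096 (C_23 L15358 (C_23 L15364 N_23))) (by decide +kernel)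
theorem L15366 : W_23 (nat_lit 15) (nat_lit 0x6000300000001000080000000000000000000000000000000) (nat_lit 0x0) (nat_lit 0x7e001f000d8019c004e001b000f0015c000000000000000000000000000000) := Q_23 (nat_lit 175) (C_23 L12311 (C_23 L15357 (C_23 L15365 N_23))) (by decide +kernel)
theorem L15367 : W_23 (nat_lit 16) (nat_lit 0x4000300000001000080000000000000000000000000000000) (nat_lit 0x0) (nat_lit 0x7e001f000f803bc01ce001b000f0017c000000000000000000000000000000) := Q_23 (nat_lit 193) (C_23 L15286 (C_23 L15185 (C_23 L12351 (C_23 L15059 (C_23 L15366 N_23))))) (by decide +kernel)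
theorem L15368 : W_23 (nat_lit 13) (nat_lit 0x4000300000001000080000000000000000000000000000000) (nat_lit 0x0) (nat_lit 0x20001e000f0007b803bc01ce001b000f0017c000000000000000000000000000000) := Q_23 (nat_lit 195) (C_23 L15328 (C_23 L14831 (C_23 L10838 (C_23 L12470 N_23)))) (by decide +kernel)
theorem L15369 : W_23 (nat_lit 8) (nat_lit 0x6000300000001000080000000000000000000000000000000) (nat_lit 0x0) (nat_lit 0x400028007e0039c01ce0010000800000000000000000000000000000000000) := Q_23 (nat_lit 195) (C_23 L11663 (C_23 L11876 (C_23 L12445 (C_23 L11678 N_23)))) (by decide +kernel)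
theorem L15370 : W_23 (nat_lit 12) (nat_lit 0x4000300000001000080000000000000000000000000000000) (nat_lit 0x0) (nat_lit 0xf801ff007e003bc01ce0018000f0017c000000000000000000000000000000) := Q_23 (nat_lit 193) (C_23 L15286 (C_23 L15242 (C_23 L15369 (C_23 L15208 N_23)))) (by decide +kernel)
theorem L15371 : W_23 (nat_lit 10) (nat_lit 0xe000300000001000080000000000000000000000000000000) (nat_lit 0x0) (nat_lit 0xe001f0003c0001c00ce0008000000000000000000000000000000000000000) := Q_23 (nat_lit 192) (C_23 L15177 (C_23 L11603 (C_23 L11587 N_23))) (by decide +kernel)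
theorem L15372 : W_23 (nat_lit 5) (nat_lit 0xe000300000001000080000000000000000000000000000000) (nat_lit 0x0) (nat_lit 0x2000300001c00ce0010000800000000000000000000000000000000000) := Q_23 (nat_lit 192) (C_23 L11732 (C_23 L11603 N_23)) (by decide +kernel)
theorem L15373 : W_23 (nat_lit 2) (nat_lit 0x8000e000300000001f00080000000000000000000000000000000) (nat_lit 0x0) (nat_lit 0x1c000000000000000000000000000000) := D_23 (nat_lit 123) (nat_lit 124) (nat_lit 122) (nat_lit 0) (nat_lit 8) (nat_lit 8) (nat_lit 0) (nat_lit 7) (nat_lit 8) (by decide +kernel)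
theorem L15374 : W_23 (nat_lit 3) (nat_lit 0x8000e000300000001e00080000000000000000000000000000000) (nat_lit 0x0) (nat_lit 0x10005c000000000000000000000000000000) := T_23 (nat_lit 140) (nat_lit 126) (nat_lit 2) (nat_lit 4) (nat_lit 8) L15373 (by decide +kernel)
theorem L15375 : W_23 (nat_lit 4) (nat_lit 0x8000e000300000001c00080000000000000000000000000000000) (nat_lit 0x0) (nat_lit 0x30015c000000000000000000000000000000) := T_23 (nat_lit 141) (nat_lit 128) (nat_lit 2) (nat_lit 5) (nat_lit 8) L15374 (by decide +kernel)
theorem L15376 : W_23 (nat_lit 5) (nat_lit 0x8000e000300000001800080000000000000000000000000000000) (nat_lit 0x0) (nat_lit 0x800070015c000000000000000000000000000000) := T_23 (nat_lit 142) (nat_lit 159) (nat_lit 7) (nat_lit 6) (nat_lit 8) L15375 (by decide +kernel)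
theorem L15377 : W_23 (nat_lit 6) (nat_lit 0x8000e000300000001000080000000000000000000000000000000) (nat_lit 0x0) (nat_lit 0x18000f0015c000000000000000000000000000000) := T_23 (nat_lit 143) (nat_lit 160) (nat_lit 6) (nat_lit 7) (nat_lit 11) L15376 (by decide +kernel)
theorem L15378 : W_23 (nat_lit 7) (nat_lit 0xe000300000001000080000000000000000000000000000000) (nat_lit 0x0) (nat_lit 0x300018000c00000000c0018000f0015c000000000000000000000000000000) := Q_23 (nat_lit 211) (C_23 L11834 (C_23 L11830 (C_23 L15377 N_23))) (by decide +kernel)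
theorem L15379 : W_23 (nat_lit 11) (nat_lit 0xc000300000001000080000000000000000000000000000000) (nat_lit 0x0) (nat_lit 0xf001f8003c0003c00ce0018000f0015c000000000000000000000000000000) := Q_23 (nat_lit 193) (C_23 L15371 (C_23 L11876 (C_23 L15372 (C_23 L12385 (C_23 L15378 N_23))))) (by decide +kernel)
theorem L15380 : W_23 (nat_lit 2) (nat_lit 0x80030001e000300010001000080000000000000000000000000000000) (nat_lit 0x0) (nat_lit 0x40002000080000000000000000000000000000000000000000000000000000) := D_23 (nat_lit 229) (nat_lit 246) (nat_lit 211) (nat_lit 4) (nat_lit 8) (nat_lit 14) (nat_lit 7) (nat_lit 7) (nat_lit 9) (by decide +kernel)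
theorem L15381 : W_23 (nat_lit 3) (nat_lit 0x80020001e000300010001000080000000000000000000000000000000) (nat_lit 0x0) (nat_lit 0x40002000180001000000000000000000000000000000000000000000000000) := T_23 (nat_lit 212) (nat_lit 192) (nat_lit 3) (nat_lit 5) (nat_lit 11) L15380 (by decide +kernel)
theorem L15382 : W_23 (nat_lit 4) (nat_lit 0x80000001e000300010001000080000000000000000000000000000000) (nat_lit 0x0) (nat_lit 0x40002000780001000000000000000000000000000000000000000000000000) := T_23 (nat_lit 213) (nat_lit 214) (nat_lit 3) (nat_lit 6) (nat_lit 11) L15381 (by decide +kernel)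
theorem L15383 : W_23 (nat_lit 5) (nat_lit 0x1e000300010001000080000000000000000000000000000000) (nat_lit 0x0) (nat_lit 0x400028007c0001000000000000000000000000000000000000000000000000) := T_23 (nat_lit 227) (nat_lit 210) (nat_lit 6) (nat_lit 6) (nat_lit 13) L15382 (by decide +kernel)
theorem L15384 : W_23 (nat_lit 6) (nat_lit 0x1e000300000001000080000000000000000000000000000000) (nat_lit 0x0) (nat_lit 0x400028007c0001000000010000800000000000000000000000000000000000) := T_23 (nat_lit 160) (nat_lit 143) (nat_lit 6) (nat_lit 7) (nat_lit 11) L15383 (by decide +kernel)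
theorem L15385 : W_23 (nat_lit 7) (nat_lit 0xe000300000001000080000000000000000000000000000000) (nat_lit 0x0) (nat_lit 0x400028007c0031000000010000800000000000000000000000000000000000) := T_23 (nat_lit 196) (nat_lit 197) (nat_lit 0) (nat_lit 10) (nat_lit 11) L15384 (by decide +kernel)
theorem L15386 : W_23 (nat_lit 2) (nat_lit 0x70002c001e000b00010001000080000000000000000000000000000000) (nat_lit 0x0) (nat_lit 0x80000000000001000400000000000000000000000000000000000000000000) := D_23 (nat_lit 178) (nat_lit 192) (nat_lit 247) (nat_lit 2) (nat_lit 5) (nat_lit 11) (nat_lit 4) (nat_lit 9) (nat_lit 14) (by decide +kernel)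
theorem L15387 : W_23 (nat_lit 3) (nat_lit 0x70002c001e000300010001000080000000000000000000000000000000) (nat_lit 0x0) (nat_lit 0x80000000000001001c00000000000000000000000000000000000000000000) := T_23 (nat_lit 179) (nat_lit 180) (nat_lit 2) (nat_lit 6) (nat_lit 11) L15386 (by decide +kernel)
theorem L15388 : W_23 (nat_lit 4) (nat_lit 0x30002c001e000300010001000080000000000000000000000000000000) (nat_lit 0x0) (nat_lit 0x8000c000000001001c00000000000000000000000000000000000000000000) := T_23 (nat_lit 230) (nat_lit 231) (nat_lit 0) (nat_lit 10) (nat_lit 13) L15387 (by decide +kernel)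
theorem L15389 : W_23 (nat_lit 5) (nat_lit 0x10002c001e000300010001000080000000000000000000000000000000) (nat_lit 0x0) (nat_lit 0xc000e000000001001c00000000000000000000000000000000000000000000) := T_23 (nat_lit 229) (nat_lit 246) (nat_lit 7) (nat_lit 7) (nat_lit 10) L15388 (by decide +kernel)
theorem L15390 : W_23 (nat_lit 6) (nat_lit 0x10000c001e000300010001000080000000000000000000000000000000) (nat_lit 0x0) (nat_lit 0xc000e000600001001c00000000000000000000000000000000000000000000) := T_23 (nat_lit 213) (nat_lit 214) (nat_lit 3) (nat_lit 6) (nat_lit 11) L15389 (by decide +kernel)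
theorem L15391 : W_23 (nat_lit 7) (nat_lit 0xc001e000300010001000080000000000000000000000000000000) (nat_lit 0x0) (nat_lit 0xe000f000600001001c00000000000000000000000000000000000000000000) := T_23 (nat_lit 228) (nat_lit 245) (nat_lit 4) (nat_lit 7) (nat_lit 14) L15390 (by decide +kernel)
theorem L15392 : W_23 (nat_lit 8) (nat_lit 0xc000e000300010001000080000000000000000000000000000000) (nat_lit 0x0) (nat_lit 0xe000f000600031001c00000000000000000000000000000000000000000000) := T_23 (nat_lit 196) (nat_lit 197) (nat_lit 1) (nat_lit 10) (nat_lit 11) L15391 (by decide +kernel)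
theorem L15393 : W_23 (nat_lit 9) (nat_lit 0x8000e000300010001000080000000000000000000000000000000) (nat_lit 0x0) (nat_lit 0xe000f800640031001c00000000000000000000000000000000000000000000) := T_23 (nat_lit 210) (nat_lit 227) (nat_lit 6) (nat_lit 6) (nat_lit 13) L15392 (by decide +kernel)
theorem L15394 : W_23 (nat_lit 10) (nat_lit 0x8000e000300000001000080000000000000000000000000000000) (nat_lit 0x0) (nat_lit 0xe000f800640031001c00010000800000000000000000000000000000000000) := T_23 (nat_lit 160) (nat_lit 143) (nat_lit 6) (nat_lit 7) (nat_lit 11) L15393 (by decide +kernel)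
theorem L15395 : W_23 (nat_lit 11) (nat_lit 0xe000300000001000080000000000000000000000000000000) (nat_lit 0x0) (nat_lit 0xe000f8006c0031001c00018000f0015c000000000000000000000000000000) := Q_23 (nat_lit 211) (C_23 L15377 (C_23 L15394 (C_23 L11830 N_23))) (by decide +kernel)
theorem L15396 : W_23 (nat_lit 2) (nat_lit 0x80009001f800b00010001000080000000000000000000000000000000) (nat_lit 0x0) (nat_lit 0x1000000000000000008000400000000000000000000000000000000000) := D_23 (nat_lit 159) (nat_lit 142) (nat_lit 228) (nat_lit 7) (nat_lit 6) (nat_lit 8) (nat_lit 4) (nat_lit 7) (nat_lit 13) (by decide +kernel)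
theorem L15397 : W_23 (nat_lit 3) (nat_lit 0x80001001f800b00010001000080000000000000000000000000000000) (nat_lit 0x0) (nat_lit 0x1000180000000000008000400000000000000000000000000000000000) := T_23 (nat_lit 211) (nat_lit 212) (nat_lit 3) (nat_lit 4) (nat_lit 11) L15396 (by decide +kernel)
theorem L15398 : W_23 (nat_lit 4) (nat_lit 0x80000001f800b00010001000080000000000000000000000000000000) (nat_lit 0x0) (nat_lit 0x1000198000000000008000400000000000000000000000000000000000) := T_23 (nat_lit 208) (nat_lit 207) (nat_lit 1) (nat_lit 7) (nat_lit 11) L15397 (by decide +kernel)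
theorem L15399 : W_23 (nat_lit 5) (nat_lit 0x80000001f000b00010001000080000000000000000000000000000000) (nat_lit 0x0) (nat_lit 0x1000198000c00000008000400000000000000000000000000000000000) := T_23 (nat_lit 191) (nat_lit 190) (nat_lit 2) (nat_lit 3) (nat_lit 11) L15398 (by decide +kernel)
theorem L15400 : W_23 (nat_lit 6) (nat_lit 0x80000001e000b00010001000080000000000000000000000000000000) (nat_lit 0x0) (nat_lit 0x1000198001c00400008000400000000000000000000000000000000000) := T_23 (nat_lit 192) (nat_lit 178) (nat_lit 2) (nat_lit 5) (nat_lit 11) L15399 (by decide +kernel)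
theorem L15401 : W_23 (nat_lit 7) (nat_lit 0x80000001e000300010001000080000000000000000000000000000000) (nat_lit 0x0) (nat_lit 0x1000198001c01c00008000400000000000000000000000000000000000) := T_23 (nat_lit 179) (nat_lit 180) (nat_lit 2) (nat_lit 6) (nat_lit 11) L15400 (by decide +kernel)
theorem L15402 : W_23 (nat_lit 8) (nat_lit 0x1e000300010001000080000000000000000000000000000000) (nat_lit 0x0) (nat_lit 0x18001d8001c01c00008000400000000000000000000000000000000000) := T_23 (nat_lit 227) (nat_lit 210) (nat_lit 6) (nat_lit 6) (nat_lit 13) L15401 (by decide +kernel)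
theorem L15403 : W_23 (nat_lit 9) (nat_lit 0x1e000300000001000080000000000000000000000000000000) (nat_lit 0x0) (nat_lit 0x18001d8001c01c00018000c00000000000000000000000000000000000) := T_23 (nat_lit 160) (nat_lit 143) (nat_lit 6) (nat_lit 7) (nat_lit 11) L15402 (by decide +kernel)
theorem L15404 : W_23 (nat_lit 10) (nat_lit 0xe000300000001000080000000000000000000000000000000) (nat_lit 0x0) (nat_lit 0x18001d8031c01c00018000c00000000000000000000000000000000000) := T_23 (nat_lit 196) (nat_lit 197) (nat_lit 0) (nat_lit 10) (nat_lit 11) L15403 (by decide +kernel)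
theorem L15405 : W_23 (nat_lit 12) (nat_lit 0xc000300000001000080000000000000000000000000000000) (nat_lit 0x0) (nat_lit 0x20001e000f8007d8033c01c00018000f0015c000000000000000000000000000000) := Q_23 (nat_lit 193) (C_23 L11663 (C_23 L15385 (C_23 L12458 (C_23 L12385 (C_23 L15395 (C_23 L15404 N_23)))))) (by decide +kernel)
theorem L15406 : W_23 (nat_lit 13) (nat_lit 0x4000300000001000080000000000000000000000000000000) (nat_lit 0x0) (nat_lit 0x20001f001f8007d803bc01ce0018000f0015c000000000000000000000000000000) := Q_23 (nat_lit 195) (C_23 L15379 (C_23 L14831 (C_23 L5316 (C_23 L10838 (C_23 L15405 N_23))))) (by decide +kernel)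
theorem L15407 : W_23 (nat_lit 17) (nat_lit 0x300000001000080000000000000000000000000000000) (nat_lit 0x0) (nat_lit 0x3c001ff01ff80ff807fc03ce01db000f0017c000000000000000000000000000000) := Q_23 (nat_lit 194) (C_23 L15209 (C_23 L15232 (C_23 L11878 (C_23 L15292 (C_23 L15304 (C_23 L15329 (C_23 L15332 (C_23 L15344 (C_23 L15367 (C_23 L15368 (C_23 L15370 (C_23 L15406 N_23)))))))))))) (by decide +kernel)
theorem L15408 : W_23 (nat_lit 2) (nat_lit 0x800680012000f000780004001000080000000000000000000000000000000) (nat_lit 0x0) (nat_lit 0x30001000000000000000000000000000000000000000000000000000000000) := D_23 (nat_lit 228) (nat_lit 244) (nat_lit 245) (nat_lit 1) (nat_lit 9) (nat_lit 13) (nat_lit 5) (nat_lit 8) (nat_lit 10) (by decide +kernel)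
theorem L15409 : W_23 (nat_lit 3) (nat_lit 0x800280012000f000780004001000080000000000000000000000000000000) (nat_lit 0x0) (nat_lit 0xb0005000000000000000000000000000000000000000000000000000000000) := T_23 (nat_lit 230) (nat_lit 247) (nat_lit 7) (nat_lit 8) (nat_lit 10) L15408 (by decide +kernel)
theorem L15410 : W_23 (nat_lit 4) (nat_lit 0x800200012000f000780004001000080000000000000000000000000000000) (nat_lit 0x0) (nat_lit 0xb0005800040000000000000000000000000000000000000000000000000000) := T_23 (nat_lit 227) (nat_lit 210) (nat_lit 7) (nat_lit 5) (nat_lit 9) L15409 (by decide +kernel)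
theorem L15411 : W_23 (nat_lit 5) (nat_lit 0x800000012000f000780004001000080000000000000000000000000000000) (nat_lit 0x0) (nat_lit 0xf0007800040000000000000000000000000000000000000000000000000000) := T_23 (nat_lit 229) (nat_lit 246) (nat_lit 4) (nat_lit 8) (nat_lit 14) L15410 (by decide +kernel)
theorem L15412 : W_23 (nat_lit 6) (nat_lit 0x12000f000780004001000080000000000000000000000000000000) (nat_lit 0x0) (nat_lit 0xf8007c00040000000000000000000000000000000000000000000000000000) := T_23 (nat_lit 243) (nat_lit 226) (nat_lit 6) (nat_lit 5) (nat_lit 14) L15411 (by decide +kernel)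
theorem L15413 : W_23 (nat_lit 7) (nat_lit 0x2000f000780004001000080000000000000000000000000000000) (nat_lit 0x0) (nat_lit 0xf8007c00340000000000000000000000000000000000000000000000000000) := T_23 (nat_lit 212) (nat_lit 213) (nat_lit 3) (nat_lit 5) (nat_lit 11) L15412 (by decide +kernel)
theorem L15414 : W_23 (nat_lit 8) (nat_lit 0xf000780004001000080000000000000000000000000000000) (nat_lit 0x0) (nat_lit 0xf8007c00370000000000000000000000000000000000000000000000000000) := T_23 (nat_lit 209) (nat_lit 208) (nat_lit 1) (nat_lit 8) (nat_lit 11) L15413 (by decide +kernel)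
theorem L15415 : W_23 (nat_lit 9) (nat_lit 0xd000780004001000080000000000000000000000000000000) (nat_lit 0x0) (nat_lit 0xf8007c00370002000800000000000000000000000000000000000000000000) := T_23 (nat_lit 193) (nat_lit 179) (nat_lit 2) (nat_lit 5) (nat_lit 11) L15414 (by decide +kernel)
theorem L15416 : W_23 (nat_lit 10) (nat_lit 0xd000780000001000080000000000000000000000000000000) (nat_lit 0x0) (nat_lit 0xf8007c00370002000800006000000000000000000000000000000000000000) := T_23 (nat_lit 158) (nat_lit 157) (nat_lit 0) (nat_lit 8) (nat_lit 10) L15415 (by decide +kernel)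
theorem L15417 : W_23 (nat_lit 11) (nat_lit 0xd000380000001000080000000000000000000000000000000) (nat_lit 0x0) (nat_lit 0xf8007c00370002800c00006000000000000000000000000000000000000000) := T_23 (nat_lit 178) (nat_lit 191) (nat_lit 1) (nat_lit 8) (nat_lit 10) L15416 (by decide +kernel)
theorem L15418 : W_23 (nat_lit 12) (nat_lit 0xd000300000001000080000000000000000000000000000000) (nat_lit 0x0) (nat_lit 0xf8007c00370002800cc0006000000000000000000000000000000000000000) := T_23 (nat_lit 175) (nat_lit 174) (nat_lit 3) (nat_lit 4) (nat_lit 10) L15417 (by decide +kernel)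
theorem L15419 : W_23 (nat_lit 13) (nat_lit 0xd000300000001000080000000000000000000000000000000) (nat_lit 0x0) (nat_lit 0xff01ff803f0002000cc0008000000000000000000000000000000000000000) := Q_23 (nat_lit 193) (C_23 L15177 (C_23 L11632 (C_23 L15161 (C_23 L11598 N_23)))) (by decide +kernel)
theorem L15420 : W_23 (nat_lit 14) (nat_lit 0xc000300000001000080000000000000000000000000000000) (nat_lit 0x0) (nat_lit 0xff01ff803f0003c03ce01ce000000000000000000000000000000000000000) := Q_23 (nat_lit 192) (C_23 L15418 (C_23 L11617 (C_23 L11615 (C_23 L11599 (C_23 L15419 N_23))))) (by decide +kernel)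
theorem L15421 : W_23 (nat_lit 2) (nat_lit 0x3c0024001e000f000080010000a0000000000000000000000000000000) (nat_lit 0x0) (nat_lit 0xc0004000000000000000000000000000000000000000000000000000000000) := D_23 (nat_lit 247) (nat_lit 230) (nat_lit 246) (nat_lit 4) (nat_lit 9) (nat_lit 14) (nat_lit 3) (nat_lit 5) (nat_lit 13) (by decide +kernel)
theorem L15422 : W_23 (nat_lit 3) (nat_lit 0x1c0024001e000f000080010000a0000000000000000000000000000000) (nat_lit 0x0) (nat_lit 0xc0006000100000000000000000000000000000000000000000000000000000) := T_23 (nat_lit 229) (nat_lit 212) (nat_lit 2) (nat_lit 5) (nat_lit 13) L15421 (by decide +kernel)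
theorem L15423 : W_23 (nat_lit 4) (nat_lit 0x180024001e000f000080010000a0000000000000000000000000000000) (nat_lit 0x0) (nat_lit 0xc8006400100000000000000000000000000000000000000000000000000000) := T_23 (nat_lit 226) (nat_lit 243) (nat_lit 5) (nat_lit 6) (nat_lit 10) L15422 (by decide +kernel)
theorem L15424 : W_23 (nat_lit 5) (nat_lit 0x180024001e000b000080010000a0000000000000000000000000000000) (nat_lit 0x0) (nat_lit 0xc8006400100000000400004000000000000000000000000000000000000000) := T_23 (nat_lit 178) (nat_lit 158) (nat_lit 0) (nat_lit 9) (nat_lit 10) L15423 (by decide +kernel)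
theorem L15425 : W_23 (nat_lit 6) (nat_lit 0x180024001e000b00008001000080000000000000000000000000000000) (nat_lit 0x0) (nat_lit 0xc8006400100000000400004000400020000000000000000000000000000000) := T_23 (nat_lit 125) (nat_lit 142) (nat_lit 7) (nat_lit 6) (nat_lit 7) L15424 (by decide +kernel)
theorem L15426 : W_23 (nat_lit 7) (nat_lit 0x180024001e000b00000001000080000000000000000000000000000000) (nat_lit 0x0) (nat_lit 0xc800640018000000040000c000400020000000000000000000000000000000) := T_23 (nat_lit 159) (nat_lit 211) (nat_lit 7) (nat_lit 6) (nat_lit 9) L15425 (by decide +kernel)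
theorem L15427 : W_23 (nat_lit 8) (nat_lit 0x80024001e000b00000001000080000000000000000000000000000000) (nat_lit 0x0) (nat_lit 0xe800740018000000040000c000400020000000000000000000000000000000) := T_23 (nat_lit 228) (nat_lit 245) (nat_lit 7) (nat_lit 6) (nat_lit 10) L15426 (by decide +kernel)
theorem L15428 : W_23 (nat_lit 9) (nat_lit 0x80024001e000300000001000080000000000000000000000000000000) (nat_lit 0x0) (nat_lit 0xe8007400180000001c0000c000400020000000000000000000000000000000) := T_23 (nat_lit 179) (nat_lit 180) (nat_lit 2) (nat_lit 6) (nat_lit 11) L15427 (by decide +kernel)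
theorem L15429 : W_23 (nat_lit 10) (nat_lit 0x24001e000300000001000080000000000000000000000000000000) (nat_lit 0x0) (nat_lit 0xf8007c00180000001c0000c000400020000000000000000000000000000000) := T_23 (nat_lit 227) (nat_lit 244) (nat_lit 6) (nat_lit 6) (nat_lit 14) L15428 (by decide +kernel)
theorem L15430 : W_23 (nat_lit 11) (nat_lit 0x4001e000300000001000080000000000000000000000000000000) (nat_lit 0x0) (nat_lit 0xf8007c00780000001c0000c000400020000000000000000000000000000000) := T_23 (nat_lit 213) (nat_lit 214) (nat_lit 3) (nat_lit 6) (nat_lit 11) L15429 (by decide +kernel)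
theorem L15431 : W_23 (nat_lit 12) (nat_lit 0x1e000300000001000080000000000000000000000000000000) (nat_lit 0x0) (nat_lit 0xf8007c007e0000001c0000c000400020000000000000000000000000000000) := T_23 (nat_lit 210) (nat_lit 209) (nat_lit 1) (nat_lit 9) (nat_lit 11) L15430 (by decide +kernel)
theorem L15432 : W_23 (nat_lit 13) (nat_lit 0xe000300000001000080000000000000000000000000000000) (nat_lit 0x0) (nat_lit 0xf8007c007e0030001c0000c000400020000000000000000000000000000000) := T_23 (nat_lit 196) (nat_lit 197) (nat_lit 0) (nat_lit 10) (nat_lit 11) L15431 (by decide +kernel)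
theorem L15433 : W_23 (nat_lit 2) (nat_lit 0x1000000024001e000f00008001000080000000000000000000000000000000) (nat_lit 0x0) (nat_lit 0x1000080000000000000000400000000000000000000000000000000000) := D_23 (nat_lit 211) (nat_lit 228) (nat_lit 142) (nat_lit 7) (nat_lit 6) (nat_lit 9) (nat_lit 7) (nat_lit 6) (nat_lit 8) (by decide +kernel)
theorem L15434 : W_23 (nat_lit 3) (nat_lit 0x1000000024001e000f00000001000080000000000000000000000000000000) (nat_lit 0x0) (nat_lit 0x100008000000000000c000400000000000000000000000000000000000) := T_23 (nat_lit 159) (nat_lit 158) (nat_lit 0) (nat_lit 9) (nat_lit 10) L15433 (by decide +kernel)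
theorem L15435 : W_23 (nat_lit 4) (nat_lit 0x1000000024001e000b00000001000080000000000000000000000000000000) (nat_lit 0x0) (nat_lit 0x100008000100040000c000400000000000000000000000000000000000) := T_23 (nat_lit 178) (nat_lit 192) (nat_lit 2) (nat_lit 5) (nat_lit 11) L15434 (by decide +kernel)
theorem L15436 : W_23 (nat_lit 5) (nat_lit 0x1000000024001e000300000001000080000000000000000000000000000000) (nat_lit 0x0) (nat_lit 0x1000080001001c0000c000400000000000000000000000000000000000) := T_23 (nat_lit 179) (nat_lit 180) (nat_lit 2) (nat_lit 6) (nat_lit 11) L15435 (by decide +kernel)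
theorem L15437 : W_23 (nat_lit 6) (nat_lit 0x24001e000300000001000080000000000000000000000000000000) (nat_lit 0x0) (nat_lit 0x10001800080001001c0000c000400000000000000000000000000000000000) := T_23 (nat_lit 244) (nat_lit 227) (nat_lit 6) (nat_lit 6) (nat_lit 14) L15436 (by decide +kernel)
theorem L15438 : W_23 (nat_lit 7) (nat_lit 0x4001e000300000001000080000000000000000000000000000000) (nat_lit 0x0) (nat_lit 0x10001800680001001c0000c000400000000000000000000000000000000000) := T_23 (nat_lit 213) (nat_lit 214) (nat_lit 3) (nat_lit 6) (nat_lit 11) L15437 (by decide +kernel)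
theorem L15439 : W_23 (nat_lit 8) (nat_lit 0x1e000300000001000080000000000000000000000000000000) (nat_lit 0x0) (nat_lit 0x100018006e0001001c0000c000400000000000000000000000000000000000) := T_23 (nat_lit 210) (nat_lit 209) (nat_lit 1) (nat_lit 9) (nat_lit 11) L15438 (by decide +kernel)
theorem L15440 : W_23 (nat_lit 9) (nat_lit 0xe000300000001000080000000000000000000000000000000) (nat_lit 0x0) (nat_lit 0x100018006e0031001c0000c000400000000000000000000000000000000000) := T_23 (nat_lit 196) (nat_lit 197) (nat_lit 0) (nat_lit 10) (nat_lit 11) L15439 (by decide +kernel)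
theorem L15441 : W_23 (nat_lit 14) (nat_lit 0xc000300000001000080000000000000000000000000000000) (nat_lit 0x0) (nat_lit 0xff007f807f0033c01c0004c000400020000000000000000000000000000000) := Q_23 (nat_lit 193) (C_23 L11663 (C_23 L11673 (C_23 L11646 (C_23 L11651 (C_23 L15432 (C_23 L11635 (C_23 L15440 N_23))))))) (by decide +kernel)
theorem L15442 : W_23 (nat_lit 15) (nat_lit 0x4000300000001000080000000000000000000000000000000) (nat_lit 0x0) (nat_lit 0xff01ff807f003bc03ce01ce000400020000000000000000000000000000000) := Q_23 (nat_lit 195) (C_23 L15420 (C_23 L14831 (C_23 L5316 (C_23 L10838 (C_23 L15441 N_23))))) (by decide +kernel)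
theorem L15443 : W_23 (nat_lit 2) (nat_lit 0x200000000c000f80014001000080000000000000000000000000000000) (nat_lit 0x0) (nat_lit 0x2003000000000000000000000000000000000000000000000) := D_23 (nat_lit 180) (nat_lit 193) (nat_lit 181) (nat_lit 1) (nat_lit 10) (nat_lit 10) (nat_lit 1) (nat_lit 11) (nat_lit 10) (by decide +kernel)
theorem L15444 : W_23 (nat_lit 3) (nat_lit 0x200000000c000780014001000080000000000000000000000000000000) (nat_lit 0x0) (nat_lit 0x2003800008000000000000000000000000000000000000000) := T_23 (nat_lit 179) (nat_lit 159) (nat_lit 0) (nat_lit 9) (nat_lit 10) L15443 (by decide +kernel)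
theorem L15445 : W_23 (nat_lit 4) (nat_lit 0x200000000c000780010001000080000000000000000000000000000000) (nat_lit 0x0) (nat_lit 0x200380000e000000000000000000000000000000000000000) := T_23 (nat_lit 158) (nat_lit 157) (nat_lit 0) (nat_lit 8) (nat_lit 10) L15444 (by decide +kernel)
theorem L15446 : W_23 (nat_lit 5) (nat_lit 0x200000000c000700010001000080000000000000000000000000000000) (nat_lit 0x0) (nat_lit 0x20038c000e000000000000000000000000000000000000000) := T_23 (nat_lit 175) (nat_lit 174) (nat_lit 3) (nat_lit 4) (nat_lit 10) L15445 (by decide +kernel)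
theorem L15447 : W_23 (nat_lit 6) (nat_lit 0xc000700010001000080000000000000000000000000000000) (nat_lit 0x0) (nat_lit 0x20001000020038c000e000000000000000000000000000000000000000) := T_23 (nat_lit 229) (nat_lit 212) (nat_lit 4) (nat_lit 8) (nat_lit 13) L15446 (by decide +kernel)
theorem L15448 : W_23 (nat_lit 7) (nat_lit 0xc000700000001000080000000000000000000000000000000) (nat_lit 0x0) (nat_lit 0x20001000020038c001e000800000000000000000000000000000000000) := T_23 (nat_lit 160) (nat_lit 143) (nat_lit 6) (nat_lit 7) (nat_lit 11) L15447 (by decide +kernel)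
theorem L15449 : W_23 (nat_lit 4) (nat_lit 0x200000000d000780014001000080000000000000000000000000000000) (nat_lit 0x0) (nat_lit 0x20038001c0000000000000000000000000000000000000000) := T_23 (nat_lit 179) (nat_lit 193) (nat_lit 2) (nat_lit 5) (nat_lit 11) L12018 (by decide +kernel)
theorem L15450 : W_23 (nat_lit 5) (nat_lit 0x200000000c000780014001000080000000000000000000000000000000) (nat_lit 0x0) (nat_lit 0x38038001c0000000000000000000000000000000000000000) := T_23 (nat_lit 192) (nat_lit 191) (nat_lit 1) (nat_lit 8) (nat_lit 10) L15449 (by decide +kernel)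
theorem L15451 : W_23 (nat_lit 6) (nat_lit 0x200000000c000780010001000080000000000000000000000000000000) (nat_lit 0x0) (nat_lit 0x38038001c6000000000000000000000000000000000000000) := T_23 (nat_lit 158) (nat_lit 157) (nat_lit 0) (nat_lit 8) (nat_lit 10) L15450 (by decide +kernel)
theorem L15452 : W_23 (nat_lit 7) (nat_lit 0xc000780010001000080000000000000000000000000000000) (nat_lit 0x0) (nat_lit 0x20001000038038001c6000000000000000000000000000000000000000) := T_23 (nat_lit 229) (nat_lit 212) (nat_lit 4) (nat_lit 8) (nat_lit 13) L15451 (by decide +kernel)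
theorem L15453 : W_23 (nat_lit 8) (nat_lit 0xc000780000001000080000000000000000000000000000000) (nat_lit 0x0) (nat_lit 0x20001000038038001d6000800000000000000000000000000000000000) := T_23 (nat_lit 160) (nat_lit 143) (nat_lit 6) (nat_lit 7) (nat_lit 11) L15452 (by decide +kernel)
theorem L15454 : W_23 (nat_lit 9) (nat_lit 0xc000700000001000080000000000000000000000000000000) (nat_lit 0x0) (nat_lit 0x20001000038038c01d6000800000000000000000000000000000000000) := T_23 (nat_lit 175) (nat_lit 174) (nat_lit 3) (nat_lit 4) (nat_lit 10) L15453 (by decide +kernel)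
theorem L15455 : W_23 (nat_lit 6) (nat_lit 0x200000000c000780010001000080000000000000000000000000000000) (nat_lit 0x0) (nat_lit 0x18038001ce000000000000000000000000000000000000000) := T_23 (nat_lit 192) (nat_lit 191) (nat_lit 1) (nat_lit 8) (nat_lit 10) L12020 (by decide +kernel)
theorem L15456 : W_23 (nat_lit 7) (nat_lit 0x200000000c000700010001000080000000000000000000000000000000) (nat_lit 0x0) (nat_lit 0x18038c01ce000000000000000000000000000000000000000) := T_23 (nat_lit 175) (nat_lit 174) (nat_lit 3) (nat_lit 4) (nat_lit 10) L15455 (by decide +kernel)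
theorem L15457 : W_23 (nat_lit 8) (nat_lit 0xc000700010001000080000000000000000000000000000000) (nat_lit 0x0) (nat_lit 0x20001000018038c01ce000000000000000000000000000000000000000) := T_23 (nat_lit 229) (nat_lit 212) (nat_lit 4) (nat_lit 8) (nat_lit 13) L15456 (by decide +kernel)
theorem L15458 : W_23 (nat_lit 9) (nat_lit 0xc000700000001000080000000000000000000000000000000) (nat_lit 0x0) (nat_lit 0x20001000018038c01de000800000000000000000000000000000000000) := T_23 (nat_lit 160) (nat_lit 143) (nat_lit 6) (nat_lit 7) (nat_lit 11) L15457 (by decide +kernel)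
theorem L15459 : W_23 (nat_lit 2) (nat_lit 0x200000000e000f00048001800080000000000000000000000000000000) (nat_lit 0x0) (nat_lit 0x400060000000000000000000000000000000) := D_23 (nat_lit 142) (nat_lit 126) (nat_lit 125) (nat_lit 6) (nat_lit 6) (nat_lit 11) (nat_lit 7) (nat_lit 6) (nat_lit 7) (by decide +kernel)
theorem L15460 : W_23 (nat_lit 3) (nat_lit 0x200000000e000f00040001800080000000000000000000000000000000) (nat_lit 0x0) (nat_lit 0xc000400060000000000000000000000000000000) := T_23 (nat_lit 159) (nat_lit 158) (nat_lit 0) (nat_lit 9) (nat_lit 10) L15459 (by decide +kernel)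
theorem L15461 : W_23 (nat_lit 4) (nat_lit 0xe000f00040001800080000000000000000000000000000000) (nat_lit 0x0) (nat_lit 0x200010000000000000c000400060000000000000000000000000000000) := T_23 (nat_lit 229) (nat_lit 212) (nat_lit 6) (nat_lit 8) (nat_lit 13) L15460 (by decide +kernel)
theorem L15462 : W_23 (nat_lit 5) (nat_lit 0xc000f00040001800080000000000000000000000000000000) (nat_lit 0x0) (nat_lit 0x200010000300000000c000400060000000000000000000000000000000) := T_23 (nat_lit 193) (nat_lit 192) (nat_lit 2) (nat_lit 5) (nat_lit 11) L15461 (by decide +kernel)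
theorem L15463 : W_23 (nat_lit 6) (nat_lit 0xc000f00000001800080000000000000000000000000000000) (nat_lit 0x0) (nat_lit 0x20001000030000000cc000400060000000000000000000000000000000) := T_23 (nat_lit 162) (nat_lit 163) (nat_lit 2) (nat_lit 6) (nat_lit 10) L15462 (by decide +kernel)
theorem L15464 : W_23 (nat_lit 7) (nat_lit 0xc000f00000001000080000000000000000000000000000000) (nat_lit 0x0) (nat_lit 0x20001000030000000dc000c00060000000000000000000000000000000) := T_23 (nat_lit 143) (nat_lit 160) (nat_lit 6) (nat_lit 7) (nat_lit 11) L15463 (by decide +kernel)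
theorem L15465 : W_23 (nat_lit 2) (nat_lit 0xc000f00000001000080000000000000000000000000000000) (nat_lit 0x0) (nat_lit 0x2003000000000000000000000000000000000000000000000) := D_23 (nat_lit 180) (nat_lit 181) (nat_lit 193) (nat_lit 1) (nat_lit 11) (nat_lit 10) (nat_lit 1) (nat_lit 10) (nat_lit 10) (by decide +kernel)
theorem L15466 : W_23 (nat_lit 2) (nat_lit 0xc001f00000001000080000000000000000000000000000000) (nat_lit 0x0) (nat_lit 0x18000800000000000000000000000000000000000) := D_23 (nat_lit 160) (nat_lit 143) (nat_lit 159) (nat_lit 6) (nat_lit 7) (nat_lit 11) (nat_lit 0) (nat_lit 10) (nat_lit 10) (by decide +kernel)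
theorem L15467 : W_23 (nat_lit 3) (nat_lit 0xc000f00000001000080000000000000000000000000000000) (nat_lit 0x0) (nat_lit 0x3000018000800000000000000000000000000000000000) := T_23 (nat_lit 180) (nat_lit 181) (nat_lit 1) (nat_lit 11) (nat_lit 10) L15466 (by decide +kernel)
theorem L15468 : W_23 (nat_lit 8) (nat_lit 0xc000700000001000080000000000000000000000000000000) (nat_lit 0x0) (nat_lit 0x20001000030038000dc000c00060000000000000000000000000000000) := Q_23 (nat_lit 179) (C_23 L15464 (C_23 L15465 (C_23 L15467 N_23))) (by decide +kernel)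
theorem L15469 : W_23 (nat_lit 2) (nat_lit 0x12000f000780014001000080000000000000000000000000000000) (nat_lit 0x0) (nat_lit 0x400000000000000008000400000000000000000000000000000000000) := D_23 (nat_lit 159) (nat_lit 142) (nat_lit 226) (nat_lit 6) (nat_lit 5) (nat_lit 12) (nat_lit 6) (nat_lit 5) (nat_lit 13) (by decide +kernel)
theorem L15470 : W_23 (nat_lit 3) (nat_lit 0x10000f000780014001000080000000000000000000000000000000) (nat_lit 0x0) (nat_lit 0x400030000000000008000400000000000000000000000000000000000) := T_23 (nat_lit 209) (nat_lit 208) (nat_lit 1) (nat_lit 8) (nat_lit 11) L15469 (by decide +kernel)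
theorem L15471 : W_23 (nat_lit 4) (nat_lit 0x10000d000780014001000080000000000000000000000000000000) (nat_lit 0x0) (nat_lit 0x400230002000000008000400000000000000000000000000000000000) := T_23 (nat_lit 193) (nat_lit 213) (nat_lit 3) (nat_lit 5) (nat_lit 11) L15470 (by decide +kernel)
theorem L15472 : W_23 (nat_lit 5) (nat_lit 0x10000d000780010001000080000000000000000000000000000000) (nat_lit 0x0) (nat_lit 0x40023000200000000e000400000000000000000000000000000000000) := T_23 (nat_lit 158) (nat_lit 157) (nat_lit 0) (nat_lit 8) (nat_lit 10) L15471 (by decide +kernel)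
theorem L15473 : W_23 (nat_lit 6) (nat_lit 0x10000c000780010001000080000000000000000000000000000000) (nat_lit 0x0) (nat_lit 0x40023000380000000e000400000000000000000000000000000000000) := T_23 (nat_lit 192) (nat_lit 191) (nat_lit 1) (nat_lit 8) (nat_lit 10) L15472 (by decide +kernel)
theorem L15474 : W_23 (nat_lit 7) (nat_lit 0x10000c000700010001000080000000000000000000000000000000) (nat_lit 0x0) (nat_lit 0x4002300038000c000e000400000000000000000000000000000000000) := T_23 (nat_lit 175) (nat_lit 174) (nat_lit 3) (nat_lit 4) (nat_lit 10) L15473 (by decide +kernel)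
theorem L15475 : W_23 (nat_lit 8) (nat_lit 0xc000700010001000080000000000000000000000000000000) (nat_lit 0x0) (nat_lit 0x24003300038000c000e000400000000000000000000000000000000000) := T_23 (nat_lit 212) (nat_lit 229) (nat_lit 4) (nat_lit 8) (nat_lit 13) L15474 (by decide +kernel)
theorem L15476 : W_23 (nat_lit 9) (nat_lit 0xc000700000001000080000000000000000000000000000000) (nat_lit 0x0) (nat_lit 0x24003300038000c001e000c00000000000000000000000000000000000) := T_23 (nat_lit 160) (nat_lit 143) (nat_lit 6) (nat_lit 7) (nat_lit 11) L15475 (by decide +kernel)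
theorem L15477 : W_23 (nat_lit 6) (nat_lit 0xc000700000001000080000000000000000000000000000000) (nat_lit 0x0) (nat_lit 0x4000300038008c0008000400000000000000000000000000000000000) := T_23 (nat_lit 175) (nat_lit 174) (nat_lit 3) (nat_lit 4) (nat_lit 10) L14781 (by decide +kernel)
theorem L15478 : W_23 (nat_lit 10) (nat_lit 0xc000300000001000080000000000000000000000000000000) (nat_lit 0x0) (nat_lit 0x2400330003803cc01de000c00060000000000000000000000000000000) := Q_23 (nat_lit 178) (C_23 L15448 (C_23 L15454 (C_23 L15458 (C_23 L15468 (C_23 L15476 (C_23 L15477 N_23)))))) (by decide +kernel)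
theorem L15479 : W_23 (nat_lit 11) (nat_lit 0x4000300000001000080000000000000000000000000000000) (nat_lit 0x0) (nat_lit 0x2c0077803bc03cc01de000c00060000000000000000000000000000000) := Q_23 (nat_lit 195) (C_23 L15478 (C_23 L14831 (C_23 L5316 (C_23 L12025 (C_23 L15009 N_23))))) (by decide +kernel)
theorem L15483 : W_23 (nat_lit 5) (nat_lit 0x4000300008001800080000000000000000000000000000000) (nat_lit 0x0) (nat_lit 0x20003c00400000000400060000000000000000000000000000000) := T_23 (nat_lit 142) (nat_lit 125) (nat_lit 7) (nat_lit 6) (nat_lit 7) L15482 (by decide +kernel)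
theorem L15484 : W_23 (nat_lit 6) (nat_lit 0x4000300008001000080000000000000000000000000000000) (nat_lit 0x0) (nat_lit 0x20003c00400010000c00060000000000000000000000000000000) := T_23 (nat_lit 143) (nat_lit 160) (nat_lit 6) (nat_lit 7) (nat_lit 11) L15483 (by decide +kernel)
theorem L15490 : W_23 (nat_lit 9) (nat_lit 0x4000300008001000080000000000000000000000000000000) (nat_lit 0x0) (nat_lit 0x38003f007f801bc00400010000800000000000000000000000000000000000) := Q_23 (nat_lit 193) (C_23 L15184 (C_23 L15192 (C_23 L15489 (C_23 L14872 N_23)))) (by decide +kernel)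
theorem L15491 : W_23 (nat_lit 10) (nat_lit 0x4000300000001000080000000000000000000000000000000) (nat_lit 0x0) (nat_lit 0x38003f007f801bc00400018000c00060000000000000000000000000000000) := Q_23 (nat_lit 159) (C_23 L14840 (C_23 L14838 (C_23 L15484 (C_23 L14834 (C_23 L15490 N_23))))) (by decide +kernel)
theorem L15492 : W_23 (nat_lit 2) (nat_lit 0x70007000300018001000080000000000000000000000000000000) (nat_lit 0x0) (nat_lit 0x800c00000000000000000000000000000000000000000000) := D_23 (nat_lit 178) (nat_lit 179) (nat_lit 191) (nat_lit 1) (nat_lit 9) (nat_lit 10) (nat_lit 2) (nat_lit 4) (nat_lit 11) (by decide +kernel)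
theorem L15493 : W_23 (nat_lit 3) (nat_lit 0x70006000300018001000080000000000000000000000000000000) (nat_lit 0x0) (nat_lit 0x9800c00000000000000000000000000000000000000000000) := T_23 (nat_lit 192) (nat_lit 195) (nat_lit 1) (nat_lit 8) (nat_lit 11) L15492 (by decide +kernel)
theorem L15494 : W_23 (nat_lit 4) (nat_lit 0x60006000300018001000080000000000000000000000000000000) (nat_lit 0x0) (nat_lit 0x18009800c00000000000000000000000000000000000000000000) := T_23 (nat_lit 208) (nat_lit 207) (nat_lit 2) (nat_lit 3) (nat_lit 12) L15493 (by decide +kernel)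
theorem L15495 : W_23 (nat_lit 5) (nat_lit 0x40006000300018001000080000000000000000000000000000000) (nat_lit 0x0) (nat_lit 0x400038009800c00000000000000000000000000000000000000000000) := T_23 (nat_lit 209) (nat_lit 226) (nat_lit 5) (nat_lit 6) (nat_lit 9) L15494 (by decide +kernel)
theorem L15496 : W_23 (nat_lit 6) (nat_lit 0x6000300018001000080000000000000000000000000000000) (nat_lit 0x0) (nat_lit 0xc00078009800c00000000000000000000000000000000000000000000) := T_23 (nat_lit 210) (nat_lit 227) (nat_lit 6) (nat_lit 6) (nat_lit 13) L15495 (by decide +kernel)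
theorem L15497 : W_23 (nat_lit 7) (nat_lit 0x6000300008001000080000000000000000000000000000000) (nat_lit 0x0) (nat_lit 0xc00078009800c00010000800000000000000000000000000000000000) := T_23 (nat_lit 160) (nat_lit 143) (nat_lit 6) (nat_lit 7) (nat_lit 11) L15496 (by decide +kernel)
theorem L15498 : W_23 (nat_lit 9) (nat_lit 0x4000300008001000080000000000000000000000000000000) (nat_lit 0x0) (nat_lit 0x38003f007f800bc00c00010000800000000000000000000000000000000000) := Q_23 (nat_lit 193) (C_23 L15184 (C_23 L15192 (C_23 L15497 (C_23 L14872 N_23)))) (by decide +kernel)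
theorem L15499 : W_23 (nat_lit 10) (nat_lit 0x4000300000001000080000000000000000000000000000000) (nat_lit 0x0) (nat_lit 0x38003f007f800bc00c00018000c00060000000000000000000000000000000) := Q_23 (nat_lit 159) (C_23 L14840 (C_23 L15484 (C_23 L14838 (C_23 L14834 (C_23 L15498 N_23))))) (by decide +kernel)
theorem L15502 : W_23 (nat_lit 2) (nat_lit 0x400078001a001000080000000000000000000000000000000) (nat_lit 0x0) (nat_lit 0x60001000000000000000000000000000000000000000) := D_23 (nat_lit 174) (nat_lit 173) (nat_lit 156) (nat_lit 2) (nat_lit 3) (nat_lit 10) (nat_lit 0) (nat_lit 7) (nat_lit 10) (by decide +kernel)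
theorem L15503 : W_23 (nat_lit 3) (nat_lit 0x4000780018001000080000000000000000000000000000000) (nat_lit 0x0) (nat_lit 0x60007000000000000000000000000000000000000000) := T_23 (nat_lit 157) (nat_lit 158) (nat_lit 3) (nat_lit 4) (nat_lit 9) L15502 (by decide +kernel)
theorem L15504 : W_23 (nat_lit 4) (nat_lit 0x4000780008001000080000000000000000000000000000000) (nat_lit 0x0) (nat_lit 0x60017000800000000000000000000000000000000000) := T_23 (nat_lit 160) (nat_lit 143) (nat_lit 6) (nat_lit 7) (nat_lit 11) L15503 (by decide +kernel)
theorem L15505 : W_23 (nat_lit 2) (nat_lit 0x4000780008001000080000000000000000000000000000000) (nat_lit 0x0) (nat_lit 0x18000040000000000000000000000000000000000000000000) := D_23 (nat_lit 195) (nat_lit 196) (nat_lit 174) (nat_lit 3) (nat_lit 5) (nat_lit 10) (nat_lit 3) (nat_lit 4) (nat_lit 10) (by decide +kernel)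
theorem L15506 : W_23 (nat_lit 8) (nat_lit 0x4000700008001000080000000000000000000000000000000) (nat_lit 0x0) (nat_lit 0x16000b001b8000e0017000800000000000000000000000000000000000) := Q_23 (nat_lit 175) (C_23 L15146 (C_23 L15504 (C_23 L15505 N_23))) (by decide +kernel)
theorem L15507 : W_23 (nat_lit 2) (nat_lit 0x4000f00008001000080000000000000000000000000000000) (nat_lit 0x0) (nat_lit 0x2001000010000000000000000000000000000000000000000) := D_23 (nat_lit 180) (nat_lit 160) (nat_lit 193) (nat_lit 0) (nat_lit 10) (nat_lit 10) (nat_lit 1) (nat_lit 10) (nat_lit 10) (by decide +kernel)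
theorem L15508 : W_23 (nat_lit 3) (nat_lit 0x4000700008001000080000000000000000000000000000000) (nat_lit 0x0) (nat_lit 0x2001800014000000000000000000000000000000000000000) := T_23 (nat_lit 179) (nat_lit 158) (nat_lit 0) (nat_lit 9) (nat_lit 10) L15507 (by decide +kernel)
theorem L15512 : W_23 (nat_lit 2) (nat_lit 0x1000000014000f80058001000080000000000000000000000000000000) (nat_lit 0x0) (nat_lit 0x3800000000000000000000000000000000000000000000000) := D_23 (nat_lit 192) (nat_lit 191) (nat_lit 193) (nat_lit 1) (nat_lit 8) (nat_lit 10) (nat_lit 1) (nat_lit 9) (nat_lit 10) (by decide +kernel)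
theorem L15513 : W_23 (nat_lit 3) (nat_lit 0x1000000014000f00058001000080000000000000000000000000000000) (nat_lit 0x0) (nat_lit 0xb800080000000000000000000000000000000000000000000) := T_23 (nat_lit 175) (nat_lit 195) (nat_lit 3) (nat_lit 5) (nat_lit 10) L15512 (by decide +kernel)
theorem L15514 : W_23 (nat_lit 4) (nat_lit 0x1000000004000f00058001000080000000000000000000000000000000) (nat_lit 0x0) (nat_lit 0x3b800080000000000000000000000000000000000000000000) := T_23 (nat_lit 196) (nat_lit 197) (nat_lit 3) (nat_lit 6) (nat_lit 10) L15513 (by decide +kernel)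
theorem L15515 : W_23 (nat_lit 5) (nat_lit 0x1000000004000f00018001000080000000000000000000000000000000) (nat_lit 0x0) (nat_lit 0x3b8000800c0000000000000000000000000000000000000000) := T_23 (nat_lit 162) (nat_lit 163) (nat_lit 2) (nat_lit 6) (nat_lit 10) L15514 (by decide +kernel)
theorem L15516 : W_23 (nat_lit 6) (nat_lit 0x4000f00018001000080000000000000000000000000000000) (nat_lit 0x0) (nat_lit 0x100008003b8000800c0000000000000000000000000000000000000000) := T_23 (nat_lit 228) (nat_lit 211) (nat_lit 4) (nat_lit 7) (nat_lit 13) L15515 (by decide +kernel)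
theorem L15517 : W_23 (nat_lit 7) (nat_lit 0x4000700018001000080000000000000000000000000000000) (nat_lit 0x0) (nat_lit 0x100008003b8018800c0000000000000000000000000000000000000000) := T_23 (nat_lit 179) (nat_lit 180) (nat_lit 0) (nat_lit 10) (nat_lit 10) L15516 (by decide +kernel)
theorem L15518 : W_23 (nat_lit 8) (nat_lit 0x4000700008001000080000000000000000000000000000000) (nat_lit 0x0) (nat_lit 0x100008003b8018800d0000800000000000000000000000000000000000) := T_23 (nat_lit 160) (nat_lit 143) (nat_lit 6) (nat_lit 7) (nat_lit 11) L15517 (by decide +kernel)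
theorem L15519 : W_23 (nat_lit 9) (nat_lit 0x4000300008001000080000000000000000000000000000000) (nat_lit 0x0) (nat_lit 0x16000b003b801ce00d7000800000000000000000000000000000000000) := Q_23 (nat_lit 178) (C_23 L15501 (C_23 L15506 (C_23 L15508 (C_23 L15511 (C_23 L15518 N_23))))) (by decide +kernel)
theorem L15520 : W_23 (nat_lit 10) (nat_lit 0x4000300000001000080000000000000000000000000000000) (nat_lit 0x0) (nat_lit 0x16000b003bc01ce00df000c00060000000000000000000000000000000) := Q_23 (nat_lit 159) (C_23 L15484 (C_23 L14840 (C_23 L14838 (C_23 L14834 (C_23 L15519 N_23))))) (by decide +kernel)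
theorem L15521 : W_23 (nat_lit 2) (nat_lit 0x1c000c000700018001000080000000000000000000000000000000) (nat_lit 0x0) (nat_lit 0x800006000000000000000000000000000000000000000) := D_23 (nat_lit 158) (nat_lit 157) (nat_lit 179) (nat_lit 3) (nat_lit 4) (nat_lit 9) (nat_lit 0) (nat_lit 9) (nat_lit 10) (by decide +kernel)
theorem L15522 : W_23 (nat_lit 3) (nat_lit 0x1c000c000700010001000080000000000000000000000000000000) (nat_lit 0x0) (nat_lit 0x80000e000400000000000000000000000000000000000) := T_23 (nat_lit 159) (nat_lit 142) (nat_lit 4) (nat_lit 7) (nat_lit 12) L15521 (by decide +kernel)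
theorem L15523 : W_23 (nat_lit 4) (nat_lit 0xc000c000700010001000080000000000000000000000000000000) (nat_lit 0x0) (nat_lit 0x200010000000080000e000400000000000000000000000000000000000) := T_23 (nat_lit 212) (nat_lit 229) (nat_lit 7) (nat_lit 7) (nat_lit 9) L15522 (by decide +kernel)
theorem L15524 : W_23 (nat_lit 5) (nat_lit 0x8000c000700010001000080000000000000000000000000000000) (nat_lit 0x0) (nat_lit 0x280014000000080000e000400000000000000000000000000000000000) := T_23 (nat_lit 210) (nat_lit 227) (nat_lit 5) (nat_lit 7) (nat_lit 9) L15523 (by decide +kernel)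
theorem L15525 : W_23 (nat_lit 6) (nat_lit 0x8000c000700000001000080000000000000000000000000000000) (nat_lit 0x0) (nat_lit 0x280014000000080001e000c00000000000000000000000000000000000) := T_23 (nat_lit 160) (nat_lit 143) (nat_lit 6) (nat_lit 7) (nat_lit 11) L15524 (by decide +kernel)
theorem L15526 : W_23 (nat_lit 2) (nat_lit 0x7c000d00078001a001000080000000000000000000000000000000) (nat_lit 0x0) (nat_lit 0x1c000000000000000000000000000000000000000000000000000000000) := D_23 (nat_lit 231) (nat_lit 230) (nat_lit 232) (nat_lit 3) (nat_lit 6) (nat_lit 12) (nat_lit 3) (nat_lit 7) (nat_lit 12) (by decide +kernel)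
theorem L15527 : W_23 (nat_lit 3) (nat_lit 0x3c000d00078001a001000080000000000000000000000000000000) (nat_lit 0x0) (nat_lit 0x1c000c00000000000000000000000000000000000000000000000000000) := T_23 (nat_lit 214) (nat_lit 215) (nat_lit 0) (nat_lit 11) (nat_lit 12) L15526 (by decide +kernel)
theorem L15528 : W_23 (nat_lit 4) (nat_lit 0x1c000d00078001a001000080000000000000000000000000000000) (nat_lit 0x0) (nat_lit 0x1c000e00002000000000000000000000000000000000000000000000000) := T_23 (nat_lit 213) (nat_lit 193) (nat_lit 3) (nat_lit 5) (nat_lit 11) L15527 (by decide +kernel)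
theorem L15529 : W_23 (nat_lit 5) (nat_lit 0x1c000c00078001a001000080000000000000000000000000000000) (nat_lit 0x0) (nat_lit 0x1c000e00003800000000000000000000000000000000000000000000000) := T_23 (nat_lit 192) (nat_lit 191) (nat_lit 1) (nat_lit 8) (nat_lit 10) L15528 (by decide +kernel)
theorem L15530 : W_23 (nat_lit 6) (nat_lit 0x1c000c00070001a001000080000000000000000000000000000000) (nat_lit 0x0) (nat_lit 0x1c000e000038000c0000000000000000000000000000000000000000000) := T_23 (nat_lit 175) (nat_lit 174) (nat_lit 3) (nat_lit 4) (nat_lit 10) L15529 (by decide +kernel)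
theorem L15531 : W_23 (nat_lit 7) (nat_lit 0x1c000c000700018001000080000000000000000000000000000000) (nat_lit 0x0) (nat_lit 0x1c000e000038000c0006000000000000000000000000000000000000000) := T_23 (nat_lit 157) (nat_lit 158) (nat_lit 3) (nat_lit 4) (nat_lit 9) L15530 (by decide +kernel)
theorem L15532 : W_23 (nat_lit 8) (nat_lit 0x1c000c000700010001000080000000000000000000000000000000) (nat_lit 0x0) (nat_lit 0x1c000e000038000c000e000400000000000000000000000000000000000) := T_23 (nat_lit 159) (nat_lit 142) (nat_lit 4) (nat_lit 7) (nat_lit 12) L15531 (by decide +kernel)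
theorem L15533 : W_23 (nat_lit 9) (nat_lit 0xc000c000700010001000080000000000000000000000000000000) (nat_lit 0x0) (nat_lit 0x1e000f000038000c000e000400000000000000000000000000000000000) := T_23 (nat_lit 212) (nat_lit 229) (nat_lit 7) (nat_lit 7) (nat_lit 9) L15532 (by decide +kernel)
theorem L15534 : W_23 (nat_lit 10) (nat_lit 0x8000c000700010001000080000000000000000000000000000000) (nat_lit 0x0) (nat_lit 0x1e800f400038000c000e000400000000000000000000000000000000000) := T_23 (nat_lit 210) (nat_lit 227) (nat_lit 5) (nat_lit 7) (nat_lit 9) L15533 (by decide +kernel)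
theorem L15535 : W_23 (nat_lit 11) (nat_lit 0x8000c000700000001000080000000000000000000000000000000) (nat_lit 0x0) (nat_lit 0x1e800f400038000c001e000c00000000000000000000000000000000000) := T_23 (nat_lit 160) (nat_lit 143) (nat_lit 6) (nat_lit 7) (nat_lit 11) L15534 (by decide +kernel)
theorem L15536 : W_23 (nat_lit 2) (nat_lit 0x1c000d000780014001000080000000000000000000000000000000) (nat_lit 0x0) (nat_lit 0x200002000800000000000000000000000000000000000000000000) := D_23 (nat_lit 193) (nat_lit 213) (nat_lit 179) (nat_lit 3) (nat_lit 5) (nat_lit 11) (nat_lit 2) (nat_lit 5) (nat_lit 11) (by decide +kernel)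
theorem L15537 : W_23 (nat_lit 3) (nat_lit 0x1c000c000780014001000080000000000000000000000000000000) (nat_lit 0x0) (nat_lit 0x200003800800000000000000000000000000000000000000000000) := T_23 (nat_lit 192) (nat_lit 191) (nat_lit 1) (nat_lit 8) (nat_lit 10) L15536 (by decide +kernel)
theorem L15538 : W_23 (nat_lit 4) (nat_lit 0x1c000c000780010001000080000000000000000000000000000000) (nat_lit 0x0) (nat_lit 0x200003800800006000000000000000000000000000000000000000) := T_23 (nat_lit 158) (nat_lit 157) (nat_lit 0) (nat_lit 8) (nat_lit 10) L15537 (by decide +kernel)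
theorem L15539 : W_23 (nat_lit 5) (nat_lit 0xc000c000780010001000080000000000000000000000000000000) (nat_lit 0x0) (nat_lit 0x2000300003800800006000000000000000000000000000000000000000) := T_23 (nat_lit 212) (nat_lit 229) (nat_lit 7) (nat_lit 7) (nat_lit 9) L15538 (by decide +kernel)
theorem L15540 : W_23 (nat_lit 6) (nat_lit 0x8000c000780010001000080000000000000000000000000000000) (nat_lit 0x0) (nat_lit 0x2800340003800800006000000000000000000000000000000000000000) := T_23 (nat_lit 210) (nat_lit 227) (nat_lit 5) (nat_lit 7) (nat_lit 9) L15539 (by decide +kernel)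
theorem L15541 : W_23 (nat_lit 7) (nat_lit 0x8000c000780000001000080000000000000000000000000000000) (nat_lit 0x0) (nat_lit 0x2800340003800800016000800000000000000000000000000000000000) := T_23 (nat_lit 160) (nat_lit 143) (nat_lit 6) (nat_lit 7) (nat_lit 11) L15540 (by decide +kernel)
theorem L15542 : W_23 (nat_lit 8) (nat_lit 0x8000c000700000001000080000000000000000000000000000000) (nat_lit 0x0) (nat_lit 0x28003400038008c0016000800000000000000000000000000000000000) := T_23 (nat_lit 175) (nat_lit 174) (nat_lit 3) (nat_lit 4) (nat_lit 10) L15541 (by decide +kernel)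
theorem L15543 : W_23 (nat_lit 2) (nat_lit 0x8000d000780004001000080000000000000000000000000000000) (nat_lit 0x0) (nat_lit 0x2000800008000000000000000000000000000000000000000) := D_23 (nat_lit 179) (nat_lit 193) (nat_lit 159) (nat_lit 2) (nat_lit 5) (nat_lit 11) (nat_lit 0) (nat_lit 9) (nat_lit 10) (by decide +kernel)
theorem L15544 : W_23 (nat_lit 3) (nat_lit 0x8000d000780000001000080000000000000000000000000000000) (nat_lit 0x0) (nat_lit 0x200080000e000000000000000000000000000000000000000) := T_23 (nat_lit 158) (nat_lit 157) (nat_lit 0) (nat_lit 8) (nat_lit 10) L15543 (by decide +kernel)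
theorem L15545 : W_23 (nat_lit 4) (nat_lit 0x8000c000780000001000080000000000000000000000000000000) (nat_lit 0x0) (nat_lit 0x380080000e000000000000000000000000000000000000000) := T_23 (nat_lit 192) (nat_lit 191) (nat_lit 1) (nat_lit 8) (nat_lit 10) L15544 (by decide +kernel)
theorem L15546 : W_23 (nat_lit 5) (nat_lit 0x8000c000700000001000080000000000000000000000000000000) (nat_lit 0x0) (nat_lit 0x38008c000e000000000000000000000000000000000000000) := T_23 (nat_lit 175) (nat_lit 174) (nat_lit 3) (nat_lit 4) (nat_lit 10) L15545 (by decide +kernel)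
theorem L15547 : W_23 (nat_lit 2) (nat_lit 0x7c000d001780018001000080000000000000000000000000000000) (nat_lit 0x0) (nat_lit 0x1c000000000000000000000000000000000000000000000000000000000) := D_23 (nat_lit 231) (nat_lit 230) (nat_lit 232) (nat_lit 3) (nat_lit 6) (nat_lit 12) (nat_lit 3) (nat_lit 7) (nat_lit 12) (by decide +kernel)
theorem L15548 : W_23 (nat_lit 3) (nat_lit 0x3c000d001780018001000080000000000000000000000000000000) (nat_lit 0x0) (nat_lit 0x1c000c00000000000000000000000000000000000000000000000000000) := T_23 (nat_lit 214) (nat_lit 215) (nat_lit 0) (nat_lit 11) (nat_lit 12) L15547 (by decide +kernel)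
theorem L15549 : W_23 (nat_lit 4) (nat_lit 0x1c000d001780018001000080000000000000000000000000000000) (nat_lit 0x0) (nat_lit 0x1c000e00002000000000000000000000000000000000000000000000000) := T_23 (nat_lit 213) (nat_lit 193) (nat_lit 3) (nat_lit 5) (nat_lit 11) L15548 (by decide +kernel)
theorem L15550 : W_23 (nat_lit 5) (nat_lit 0x1c000c001780018001000080000000000000000000000000000000) (nat_lit 0x0) (nat_lit 0x1c000e00003800000000000000000000000000000000000000000000000) := T_23 (nat_lit 192) (nat_lit 191) (nat_lit 1) (nat_lit 8) (nat_lit 10) L15549 (by decide +kernel)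
theorem L15551 : W_23 (nat_lit 6) (nat_lit 0x1c000c000780018001000080000000000000000000000000000000) (nat_lit 0x0) (nat_lit 0x1c000e00003801800000000000000000000000000000000000000000000) := T_23 (nat_lit 180) (nat_lit 179) (nat_lit 0) (nat_lit 10) (nat_lit 10) L15550 (by decide +kernel)
theorem L15552 : W_23 (nat_lit 7) (nat_lit 0x1c000c000780010001000080000000000000000000000000000000) (nat_lit 0x0) (nat_lit 0x1c000e00003801800008000400000000000000000000000000000000000) := T_23 (nat_lit 159) (nat_lit 142) (nat_lit 4) (nat_lit 7) (nat_lit 12) L15551 (by decide +kernel)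
theorem L15553 : W_23 (nat_lit 8) (nat_lit 0xc000c000780010001000080000000000000000000000000000000) (nat_lit 0x0) (nat_lit 0x1e000f00003801800008000400000000000000000000000000000000000) := T_23 (nat_lit 212) (nat_lit 229) (nat_lit 7) (nat_lit 7) (nat_lit 9) L15552 (by decide +kernel)
theorem L15554 : W_23 (nat_lit 9) (nat_lit 0x8000c000780010001000080000000000000000000000000000000) (nat_lit 0x0) (nat_lit 0x1e800f40003801800008000400000000000000000000000000000000000) := T_23 (nat_lit 210) (nat_lit 227) (nat_lit 5) (nat_lit 7) (nat_lit 9) L15553 (by decide +kernel)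
theorem L15555 : W_23 (nat_lit 10) (nat_lit 0x8000c000780000001000080000000000000000000000000000000) (nat_lit 0x0) (nat_lit 0x1e800f40003801800018000c00000000000000000000000000000000000) := T_23 (nat_lit 160) (nat_lit 143) (nat_lit 6) (nat_lit 7) (nat_lit 11) L15554 (by decide +kernel)
theorem L15556 : W_23 (nat_lit 11) (nat_lit 0x8000c000700000001000080000000000000000000000000000000) (nat_lit 0x0) (nat_lit 0x1e800f400038018c0018000c00000000000000000000000000000000000) := T_23 (nat_lit 175) (nat_lit 174) (nat_lit 3) (nat_lit 4) (nat_lit 10) L15555 (by decide +kernel)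
theorem L15557 : W_23 (nat_lit 12) (nat_lit 0x8000c000300000001000080000000000000000000000000000000) (nat_lit 0x0) (nat_lit 0x1e800f40003801cc001e000c00000000000000000000000000000000000) := Q_23 (nat_lit 178) (C_23 L15525 (C_23 L15535 (C_23 L15542 (C_23 L15546 (C_23 L15556 N_23))))) (by decide +kernel)
theorem L15558 : W_23 (nat_lit 13) (nat_lit 0xc000300000001000080000000000000000000000000000000) (nat_lit 0x0) (nat_lit 0x40003001f800fc0003801cc001e000c00000000000000000000000000000000000) := Q_23 (nat_lit 211) (C_23 L15334 (C_23 L5339 (C_23 L15336 (C_23 L15557 N_23)))) (by decide +kernel)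
theorem L15559 : W_23 (nat_lit 2) (nat_lit 0x80000001e000f00018001000080000000000000000000000000000000) (nat_lit 0x0) (nat_lit 0x80000000000000000400020000000000000000000000000000000) := D_23 (nat_lit 142) (nat_lit 211) (nat_lit 125) (nat_lit 7) (nat_lit 6) (nat_lit 8) (nat_lit 7) (nat_lit 6) (nat_lit 7) (by decide +kernel)
theorem L15560 : W_23 (nat_lit 3) (nat_lit 0x80000001e000f00010001000080000000000000000000000000000000) (nat_lit 0x0) (nat_lit 0x8000000000000c000400020000000000000000000000000000000) := T_23 (nat_lit 159) (nat_lit 158) (nat_lit 0) (nat_lit 9) (nat_lit 10) L15559 (by decide +kernel)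
theorem L15561 : W_23 (nat_lit 4) (nat_lit 0x80000001e000b00010001000080000000000000000000000000000000) (nat_lit 0x0) (nat_lit 0x8000100040000c000400020000000000000000000000000000000) := T_23 (nat_lit 178) (nat_lit 192) (nat_lit 2) (nat_lit 5) (nat_lit 11) L15560 (by decide +kernel)
theorem L15562 : W_23 (nat_lit 5) (nat_lit 0x80000001e000300010001000080000000000000000000000000000000) (nat_lit 0x0) (nat_lit 0x80001001c0000c000400020000000000000000000000000000000) := T_23 (nat_lit 179) (nat_lit 180) (nat_lit 2) (nat_lit 6) (nat_lit 11) L15561 (by decide +kernel)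
theorem L15563 : W_23 (nat_lit 6) (nat_lit 0x80000000e000300010001000080000000000000000000000000000000) (nat_lit 0x0) (nat_lit 0x80031001c0000c000400020000000000000000000000000000000) := T_23 (nat_lit 196) (nat_lit 197) (nat_lit 0) (nat_lit 10) (nat_lit 11) L15562 (by decide +kernel)
theorem L15564 : W_23 (nat_lit 7) (nat_lit 0xe000300010001000080000000000000000000000000000000) (nat_lit 0x0) (nat_lit 0x8000c0031001c0000c000400020000000000000000000000000000000) := T_23 (nat_lit 227) (nat_lit 210) (nat_lit 6) (nat_lit 6) (nat_lit 13) L15563 (by decide +kernel)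
theorem L15565 : W_23 (nat_lit 8) (nat_lit 0xe000300000001000080000000000000000000000000000000) (nat_lit 0x0) (nat_lit 0x8000c0031001c0001c000c00020000000000000000000000000000000) := T_23 (nat_lit 160) (nat_lit 143) (nat_lit 6) (nat_lit 7) (nat_lit 11) L15564 (by decide +kernel)
theorem L15566 : W_23 (nat_lit 11) (nat_lit 0xc000300000001000080000000000000000000000000000000) (nat_lit 0x0) (nat_lit 0x20001e000f8007d8033c01c0001c000c00020000000000000000000000000000000) := Q_23 (nat_lit 193) (C_23 L12458 (C_23 L15385 (C_23 L15404 (C_23 L12445 (C_23 L11663 (C_23 L12385 (C_23 L15565 N_23))))))) (by decide +kernel)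
theorem L15567 : W_23 (nat_lit 14) (nat_lit 0x4000300000001000080000000000000000000000000000000) (nat_lit 0x0) (nat_lit 0x24001f001f800fd803bc03cc01de000c00020000000000000000000000000000000) := Q_23 (nat_lit 195) (C_23 L14831 (C_23 L15558 (C_23 L5316 (C_23 L12025 (C_23 L15566 N_23))))) (by decide +kernel)
theorem L15568 : W_23 (nat_lit 16) (nat_lit 0x300000001000080000000000000000000000000000000) (nat_lit 0x0) (nat_lit 0x14003e001ff01ff80ff807fe03ce01df000d00060000000000000000000000000000000) := Q_23 (nat_lit 194) (C_23 L15442 (C_23 L15232 (C_23 L11878 (C_23 L11928 (C_23 L15304 (C_23 L15479 (C_23 L15491 (C_23 L15344 (C_23 L15499 (C_23 L15520 (C_23 L15567 N_23))))))))))) (by decide +kernel)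
theorem L15569 : W_23 (nat_lit 2) (nat_lit 0x4800000012000f000780004001700080000000000000000000000000000000) (nat_lit 0x0) (nat_lit 0x800140000000000000000000000000000000) := D_23 (nat_lit 143) (nat_lit 128) (nat_lit 126) (nat_lit 2) (nat_lit 5) (nat_lit 8) (nat_lit 2) (nat_lit 4) (nat_lit 8) (by decide +kernel)
theorem L15570 : W_23 (nat_lit 3) (nat_lit 0x4800000012000f000780004001300080000000000000000000000000000000) (nat_lit 0x0) (nat_lit 0xc00160000000000000000000000000000000) := T_23 (nat_lit 142) (nat_lit 125) (nat_lit 6) (nat_lit 5) (nat_lit 11) L15569 (by decide +kernel)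
theorem L15571 : W_23 (nat_lit 4) (nat_lit 0x800000012000f000780004001300080000000000000000000000000000000) (nat_lit 0x0) (nat_lit 0x40002000000000000000000000c00160000000000000000000000000000000) := T_23 (nat_lit 246) (nat_lit 229) (nat_lit 4) (nat_lit 8) (nat_lit 14) L15570 (by decide +kernel)
theorem L15572 : W_23 (nat_lit 5) (nat_lit 0x800000012000f000780004001200080000000000000000000000000000000) (nat_lit 0x0) (nat_lit 0x40002000000000000000000000d00168000000000000000000000000000000) := T_23 (nat_lit 140) (nat_lit 123) (nat_lit 4) (nat_lit 5) (nat_lit 11) L15571 (by decide +kernel)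
theorem L15573 : W_23 (nat_lit 6) (nat_lit 0x800000002000f000780004001200080000000000000000000000000000000) (nat_lit 0x0) (nat_lit 0x40002000300000000000000000d00168000000000000000000000000000000) := T_23 (nat_lit 212) (nat_lit 213) (nat_lit 3) (nat_lit 5) (nat_lit 11) L15572 (by decide +kernel)
theorem L15574 : W_23 (nat_lit 7) (nat_lit 0x800000002000f000780004001000080000000000000000000000000000000) (nat_lit 0x0) (nat_lit 0x40002000300000000000000000f00178000000000000000000000000000000) := T_23 (nat_lit 141) (nat_lit 124) (nat_lit 7) (nat_lit 5) (nat_lit 7) L15573 (by decide +kernel)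
theorem L15575 : W_23 (nat_lit 8) (nat_lit 0x2000f000780004001000080000000000000000000000000000000) (nat_lit 0x0) (nat_lit 0x48002400300000000000000000f00178000000000000000000000000000000) := T_23 (nat_lit 243) (nat_lit 226) (nat_lit 6) (nat_lit 5) (nat_lit 14) L15574 (by decide +kernel)
theorem L15576 : W_23 (nat_lit 9) (nat_lit 0x2000f000780000001000080000000000000000000000000000000) (nat_lit 0x0) (nat_lit 0x48002400300000000000006000f00178000000000000000000000000000000) := T_23 (nat_lit 158) (nat_lit 157) (nat_lit 0) (nat_lit 8) (nat_lit 10) L15575 (by decide +kernel)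
theorem L15577 : W_23 (nat_lit 10) (nat_lit 0xf000780000001000080000000000000000000000000000000) (nat_lit 0x0) (nat_lit 0x48002400330000000000006000f00178000000000000000000000000000000) := T_23 (nat_lit 209) (nat_lit 208) (nat_lit 1) (nat_lit 8) (nat_lit 11) L15576 (by decide +kernel)
theorem L15578 : W_23 (nat_lit 11) (nat_lit 0xf000700000001000080000000000000000000000000000000) (nat_lit 0x0) (nat_lit 0x480024003300000000c0006000f00178000000000000000000000000000000) := T_23 (nat_lit 175) (nat_lit 174) (nat_lit 3) (nat_lit 4) (nat_lit 10) L15577 (by decide +kernel)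
theorem L15579 : W_23 (nat_lit 12) (nat_lit 0xf000300000001000080000000000000000000000000000000) (nat_lit 0x0) (nat_lit 0x48002400330000000cc0006000f00178000000000000000000000000000000) := T_23 (nat_lit 178) (nat_lit 179) (nat_lit 2) (nat_lit 5) (nat_lit 11) L15578 (by decide +kernel)
theorem L15580 : W_23 (nat_lit 2) (nat_lit 0x800700012000f000700000001000080000000000000000000000000000000) (nat_lit 0x0) (nat_lit 0x80000000000008000400000000000000000000000000000000000) := D_23 (nat_lit 159) (nat_lit 211) (nat_lit 142) (nat_lit 4) (nat_lit 7) (nat_lit 13) (nat_lit 5) (nat_lit 6) (nat_lit 8) (by decide +kernel)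
theorem L15581 : W_23 (nat_lit 3) (nat_lit 0x800600012000f000700000001000080000000000000000000000000000000) (nat_lit 0x0) (nat_lit 0x20001000080000000000008000400000000000000000000000000000000000) := T_23 (nat_lit 228) (nat_lit 245) (nat_lit 5) (nat_lit 8) (nat_lit 10) L15580 (by decide +kernel)
theorem L15582 : W_23 (nat_lit 4) (nat_lit 0x800200012000f000700000001000080000000000000000000000000000000) (nat_lit 0x0) (nat_lit 0xa0005000080000000000008000400000000000000000000000000000000000) := T_23 (nat_lit 230) (nat_lit 247) (nat_lit 7) (nat_lit 8) (nat_lit 10) L15581 (by decide +kernel)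
theorem L15583 : W_23 (nat_lit 5) (nat_lit 0x200012000f000700000001000080000000000000000000000000000000) (nat_lit 0x0) (nat_lit 0xa8005400080000000000008000400000000000000000000000000000000000) := T_23 (nat_lit 243) (nat_lit 226) (nat_lit 6) (nat_lit 5) (nat_lit 14) L15582 (by decide +kernel)
theorem L15584 : W_23 (nat_lit 6) (nat_lit 0x12000f000700000001000080000000000000000000000000000000) (nat_lit 0x0) (nat_lit 0xe8007400080000000000008000400000000000000000000000000000000000) := T_23 (nat_lit 229) (nat_lit 246) (nat_lit 4) (nat_lit 8) (nat_lit 14) L15583 (by decide +kernel)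
theorem L15585 : W_23 (nat_lit 7) (nat_lit 0x10000f000700000001000080000000000000000000000000000000) (nat_lit 0x0) (nat_lit 0xe80074000b0000000000008000400000000000000000000000000000000000) := T_23 (nat_lit 209) (nat_lit 208) (nat_lit 1) (nat_lit 8) (nat_lit 11) L15584 (by decide +kernel)
theorem L15586 : W_23 (nat_lit 8) (nat_lit 0xf000700000001000080000000000000000000000000000000) (nat_lit 0x0) (nat_lit 0xe80074003b0000000000008000400000000000000000000000000000000000) := T_23 (nat_lit 212) (nat_lit 213) (nat_lit 3) (nat_lit 5) (nat_lit 11) L15585 (by decide +kernel)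
theorem L15587 : W_23 (nat_lit 9) (nat_lit 0xf000300000001000080000000000000000000000000000000) (nat_lit 0x0) (nat_lit 0xe80074003b0000000c00008000400000000000000000000000000000000000) := T_23 (nat_lit 178) (nat_lit 179) (nat_lit 2) (nat_lit 5) (nat_lit 11) L15586 (by decide +kernel)
theorem L15588 : W_23 (nat_lit 10) (nat_lit 0xe000300000001000080000000000000000000000000000000) (nat_lit 0x0) (nat_lit 0xe80074003b0001c00c00008000400000000000000000000000000000000000) := Q_23 (nat_lit 192) (C_23 L11587 (C_23 L11585 (C_23 L15587 N_23))) (by decide +kernel)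
theorem L15589 : W_23 (nat_lit 5) (nat_lit 0xd000300000001000080000000000000000000000000000000) (nat_lit 0x0) (nat_lit 0x80004003b0002c000e0008000000000000000000000000000000000000000) := Q_23 (nat_lit 193) (C_23 L11603 (C_23 L11632 (C_23 L11587 N_23))) (by decide +kernel)
theorem L15590 : W_23 (nat_lit 9) (nat_lit 0xf000780004001000080000000000000000000000000000000) (nat_lit 0x0) (nat_lit 0x48002400330000000000000000f00178000000000000000000000000000000) := T_23 (nat_lit 209) (nat_lit 208) (nat_lit 1) (nat_lit 8) (nat_lit 11) L15575 (by decide +kernel)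
theorem L15591 : W_23 (nat_lit 10) (nat_lit 0xd000780004001000080000000000000000000000000000000) (nat_lit 0x0) (nat_lit 0x48002400330002000800000000f00178000000000000000000000000000000) := T_23 (nat_lit 193) (nat_lit 179) (nat_lit 2) (nat_lit 5) (nat_lit 11) L15590 (by decide +kernel)
theorem L15592 : W_23 (nat_lit 11) (nat_lit 0xd000780000001000080000000000000000000000000000000) (nat_lit 0x0) (nat_lit 0x48002400330002000800006000f00178000000000000000000000000000000) := T_23 (nat_lit 158) (nat_lit 157) (nat_lit 0) (nat_lit 8) (nat_lit 10) L15591 (by decide +kernel)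
theorem L15593 : W_23 (nat_lit 12) (nat_lit 0xd000380000001000080000000000000000000000000000000) (nat_lit 0x0) (nat_lit 0x48002400330002800c00006000f00178000000000000000000000000000000) := T_23 (nat_lit 178) (nat_lit 191) (nat_lit 1) (nat_lit 8) (nat_lit 10) L15592 (by decide +kernel)
theorem L15594 : W_23 (nat_lit 13) (nat_lit 0xd000300000001000080000000000000000000000000000000) (nat_lit 0x0) (nat_lit 0x48002400330002800cc0006000f00178000000000000000000000000000000) := T_23 (nat_lit 175) (nat_lit 174) (nat_lit 3) (nat_lit 4) (nat_lit 10) L15593 (by decide +kernel)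
theorem L15595 : W_23 (nat_lit 10) (nat_lit 0xd000300000001000080000000000000000000000000000000) (nat_lit 0x0) (nat_lit 0xe80074003b0002c00c00008000400000000000000000000000000000000000) := Q_23 (nat_lit 193) (C_23 L11587 (C_23 L15587 (C_23 L11585 N_23))) (by decide +kernel)
theorem L15596 : W_23 (nat_lit 2) (nat_lit 0x17c0018000f000740000001000080000000000000000000000000000000) (nat_lit 0x0) (nat_lit 0xc000000020000000000000000000000000000000000000000000000000000) := D_23 (nat_lit 243) (nat_lit 242) (nat_lit 209) (nat_lit 1) (nat_lit 8) (nat_lit 13) (nat_lit 6) (nat_lit 5) (nat_lit 14) (by decide +kernel)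
theorem L15597 : W_23 (nat_lit 3) (nat_lit 0x1780018000f000740000001000080000000000000000000000000000000) (nat_lit 0x0) (nat_lit 0xc000600020000000000000000000000000000000000000000000000000000) := T_23 (nat_lit 226) (nat_lit 225) (nat_lit 2) (nat_lit 4) (nat_lit 13) L15596 (by decide +kernel)
theorem L15598 : W_23 (nat_lit 4) (nat_lit 0x1700018000f000740000001000080000000000000000000000000000000) (nat_lit 0x0) (nat_lit 0x1c000e00020000000000000000000000000000000000000000000000000000) := T_23 (nat_lit 227) (nat_lit 244) (nat_lit 5) (nat_lit 7) (nat_lit 10) L15597 (by decide +kernel)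
theorem L15599 : W_23 (nat_lit 5) (nat_lit 0x700018000f000740000001000080000000000000000000000000000000) (nat_lit 0x0) (nat_lit 0x1c018e00020000000000000000000000000000000000000000000000000000) := T_23 (nat_lit 232) (nat_lit 231) (nat_lit 0) (nat_lit 11) (nat_lit 13) L15598 (by decide +kernel)
theorem L15600 : W_23 (nat_lit 6) (nat_lit 0x300018000f000740000001000080000000000000000000000000000000) (nat_lit 0x0) (nat_lit 0x9c01ce00020000000000000000000000000000000000000000000000000000) := T_23 (nat_lit 230) (nat_lit 247) (nat_lit 7) (nat_lit 8) (nat_lit 10) L15599 (by decide +kernel)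
theorem L15601 : W_23 (nat_lit 7) (nat_lit 0x300010000f000740000001000080000000000000000000000000000000) (nat_lit 0x0) (nat_lit 0x9c01ce000a0000000000008000000000000000000000000000000000000000) := T_23 (nat_lit 211) (nat_lit 159) (nat_lit 4) (nat_lit 7) (nat_lit 13) L15600 (by decide +kernel)
theorem L15602 : W_23 (nat_lit 8) (nat_lit 0x200010000f000740000001000080000000000000000000000000000000) (nat_lit 0x0) (nat_lit 0xbc01de000a0000000000008000000000000000000000000000000000000000) := T_23 (nat_lit 228) (nat_lit 245) (nat_lit 5) (nat_lit 8) (nat_lit 10) L15601 (by decide +kernel)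
theorem L15603 : W_23 (nat_lit 9) (nat_lit 0x10000f000740000001000080000000000000000000000000000000) (nat_lit 0x0) (nat_lit 0xfc01fe000a0000000000008000000000000000000000000000000000000000) := T_23 (nat_lit 229) (nat_lit 246) (nat_lit 4) (nat_lit 8) (nat_lit 14) L15602 (by decide +kernel)
theorem L15604 : W_23 (nat_lit 10) (nat_lit 0x10000f000340000001000080000000000000000000000000000000) (nat_lit 0x0) (nat_lit 0xfc01fe000a0000000c00008000000000000000000000000000000000000000) := T_23 (nat_lit 178) (nat_lit 179) (nat_lit 2) (nat_lit 5) (nat_lit 11) L15603 (by decide +kernel)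
theorem L15605 : W_23 (nat_lit 11) (nat_lit 0xf000340000001000080000000000000000000000000000000) (nat_lit 0x0) (nat_lit 0xfc01fe003a0000000c00008000000000000000000000000000000000000000) := T_23 (nat_lit 212) (nat_lit 213) (nat_lit 3) (nat_lit 5) (nat_lit 11) L15604 (by decide +kernel)
theorem L15606 : W_23 (nat_lit 12) (nat_lit 0xf000300000001000080000000000000000000000000000000) (nat_lit 0x0) (nat_lit 0xfc01fe003a0000000cc0008000000000000000000000000000000000000000) := T_23 (nat_lit 174) (nat_lit 175) (nat_lit 3) (nat_lit 4) (nat_lit 10) L15605 (by decide +kernel)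
theorem L15607 : W_23 (nat_lit 2) (nat_lit 0x700010000f000740008001c00080000000000000000000000000000000) (nat_lit 0x0) (nat_lit 0x200110000000000000000000000000000000) := D_23 (nat_lit 141) (nat_lit 128) (nat_lit 124) (nat_lit 2) (nat_lit 5) (nat_lit 8) (nat_lit 4) (nat_lit 6) (nat_lit 11) (by decide +kernel)
theorem L15608 : W_23 (nat_lit 3) (nat_lit 0x700010000f000740008001400080000000000000000000000000000000) (nat_lit 0x0) (nat_lit 0xa00150000000000000000000000000000000) := T_23 (nat_lit 143) (nat_lit 126) (nat_lit 6) (nat_lit 6) (nat_lit 11) L15607 (by decide +kernel)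
theorem L15609 : W_23 (nat_lit 4) (nat_lit 0x700010000f000740008001000080000000000000000000000000000000) (nat_lit 0x0) (nat_lit 0xe00170000000000000000000000000000000) := T_23 (nat_lit 142) (nat_lit 125) (nat_lit 7) (nat_lit 6) (nat_lit 7) L15608 (by decide +kernel)
theorem L15610 : W_23 (nat_lit 5) (nat_lit 0x700010000f000740000001000080000000000000000000000000000000) (nat_lit 0x0) (nat_lit 0x80000000000008000e00170000000000000000000000000000000) := T_23 (nat_lit 159) (nat_lit 211) (nat_lit 4) (nat_lit 7) (nat_lit 13) L15609 (by decide +kernel)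
theorem L15611 : W_23 (nat_lit 6) (nat_lit 0x600010000f000740000001000080000000000000000000000000000000) (nat_lit 0x0) (nat_lit 0x20001000080000000000008000e00170000000000000000000000000000000) := T_23 (nat_lit 228) (nat_lit 245) (nat_lit 5) (nat_lit 8) (nat_lit 10) L15610 (by decide +kernel)
theorem L15612 : W_23 (nat_lit 7) (nat_lit 0x200010000f000740000001000080000000000000000000000000000000) (nat_lit 0x0) (nat_lit 0xa0005000080000000000008000e00170000000000000000000000000000000) := T_23 (nat_lit 230) (nat_lit 247) (nat_lit 7) (nat_lit 8) (nat_lit 10) L15611 (by decide +kernel)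
theorem L15613 : W_23 (nat_lit 8) (nat_lit 0x200010000f000340000001000080000000000000000000000000000000) (nat_lit 0x0) (nat_lit 0xa0005000080000000c00008000e00170000000000000000000000000000000) := T_23 (nat_lit 178) (nat_lit 179) (nat_lit 2) (nat_lit 5) (nat_lit 11) L15612 (by decide +kernel)
theorem L15614 : W_23 (nat_lit 9) (nat_lit 0x10000f000340000001000080000000000000000000000000000000) (nat_lit 0x0) (nat_lit 0xe0007000080000000c00008000e00170000000000000000000000000000000) := T_23 (nat_lit 229) (nat_lit 246) (nat_lit 4) (nat_lit 8) (nat_lit 14) L15613 (by decide +kernel)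
theorem L15615 : W_23 (nat_lit 10) (nat_lit 0x10000f000300000001000080000000000000000000000000000000) (nat_lit 0x0) (nat_lit 0xe0007000080000000cc0008000e00170000000000000000000000000000000) := T_23 (nat_lit 174) (nat_lit 175) (nat_lit 3) (nat_lit 4) (nat_lit 10) L15614 (by decide +kernel)
theorem L15616 : W_23 (nat_lit 11) (nat_lit 0xf000300000001000080000000000000000000000000000000) (nat_lit 0x0) (nat_lit 0xe0007000380000000cc0008000e00170000000000000000000000000000000) := T_23 (nat_lit 212) (nat_lit 213) (nat_lit 3) (nat_lit 5) (nat_lit 11) L15615 (by decide +kernel)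
theorem L15617 : W_23 (nat_lit 13) (nat_lit 0xd000300000001000080000000000000000000000000000000) (nat_lit 0x0) (nat_lit 0xfc01fe003b0002000cc000e000f00178000000000000000000000000000000) := Q_23 (nat_lit 193) (C_23 L15579 (C_23 L11632 (C_23 L15587 (C_23 L15606 (C_23 L15616 N_23))))) (by decide +kernel)
theorem L15618 : W_23 (nat_lit 14) (nat_lit 0xc000300000001000080000000000000000000000000000000) (nat_lit 0x0) (nat_lit 0xfc01fe003b0003c03ce01ce000f00178000000000000000000000000000000) := Q_23 (nat_lit 192) (C_23 L11617 (C_23 L15589 (C_23 L15594 (C_23 L15595 (C_23 L15617 N_23))))) (by decide +kernel)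
theorem L15634 : W_23 (nat_lit 8) (nat_lit 0x8001e000300000001000080000000000000000000000000000000) (nat_lit 0x0) (nat_lit 0xc0006000700000001c000cc000400000000000000000000000000000000000) := T_23 (nat_lit 159) (nat_lit 142) (nat_lit 7) (nat_lit 6) (nat_lit 8) L15633 (by decide +kernel)
theorem L15635 : W_23 (nat_lit 9) (nat_lit 0x8000e000300000001000080000000000000000000000000000000) (nat_lit 0x0) (nat_lit 0xc0006000700030001c000cc000400000000000000000000000000000000000) := T_23 (nat_lit 196) (nat_lit 197) (nat_lit 0) (nat_lit 10) (nat_lit 11) L15634 (by decide +kernel)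
theorem L15636 : W_23 (nat_lit 11) (nat_lit 0xe000300000001000080000000000000000000000000000000) (nat_lit 0x0) (nat_lit 0xfe007e007b8030001c000cc000400000000000000000000000000000000000) := Q_23 (nat_lit 211) (C_23 L15627 (C_23 L15635 (C_23 L11830 N_23))) (by decide +kernel)
theorem L15648 : W_23 (nat_lit 12) (nat_lit 0xc000300000001000080000000000000000000000000000000) (nat_lit 0x0) (nat_lit 0xfe007e007b8033c01c000cc000400000000000000000000000000000000000) := Q_23 (nat_lit 193) (C_23 L15636 (C_23 L15638 (C_23 L15642 (C_23 L15588 (C_23 L15647 N_23))))) (by decide +kernel)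
theorem L15649 : W_23 (nat_lit 15) (nat_lit 0x4000300000001000080000000000000000000000000000000) (nat_lit 0x0) (nat_lit 0xfe01fe007b803bc03ce01ce000f00178000000000000000000000000000000) := Q_23 (nat_lit 195) (C_23 L14831 (C_23 L15618 (C_23 L5316 (C_23 L10838 (C_23 L15648 N_23))))) (by decide +kernel)
theorem L15650 : W_23 (nat_lit 2) (nat_lit 0x200010000e000300000001000080000000000000000000000000000000) (nat_lit 0x0) (nat_lit 0x80000000400010000000000000000000000000000000000000000) := D_23 (nat_lit 160) (nat_lit 178) (nat_lit 211) (nat_lit 4) (nat_lit 8) (nat_lit 13) (nat_lit 7) (nat_lit 7) (nat_lit 9) (by decide +kernel)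
theorem L15651 : W_23 (nat_lit 2) (nat_lit 0x10000c000700000001000080000000000000000000000000000000) (nat_lit 0x0) (nat_lit 0x40002000000000000000010000000000000000000000000000000000000000) := D_23 (nat_lit 229) (nat_lit 246) (nat_lit 160) (nat_lit 4) (nat_lit 8) (nat_lit 14) (nat_lit 4) (nat_lit 8) (nat_lit 13) (by decide +kernel)
theorem L15652 : W_23 (nat_lit 2) (nat_lit 0xd000f80094001000080000000000000000000000000000000) (nat_lit 0x0) (nat_lit 0x3000100000000000000000000000000000000000000000) := D_23 (nat_lit 180) (nat_lit 181) (nat_lit 164) (nat_lit 1) (nat_lit 11) (nat_lit 10) (nat_lit 2) (nat_lit 7) (nat_lit 10) (by decide +kernel)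
theorem L15653 : W_23 (nat_lit 3) (nat_lit 0xd000f80014001000080000000000000000000000000000000) (nat_lit 0x0) (nat_lit 0x30001c0000000000000000000000000000000000000000) := T_23 (nat_lit 163) (nat_lit 162) (nat_lit 2) (nat_lit 6) (nat_lit 10) L15652 (by decide +kernel)
theorem L15654 : W_23 (nat_lit 4) (nat_lit 0xd000780014001000080000000000000000000000000000000) (nat_lit 0x0) (nat_lit 0x20038001c0000000000000000000000000000000000000000) := T_23 (nat_lit 179) (nat_lit 193) (nat_lit 2) (nat_lit 5) (nat_lit 11) L15653 (by decide +kernel)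
theorem L15655 : W_23 (nat_lit 5) (nat_lit 0xd000780010001000080000000000000000000000000000000) (nat_lit 0x0) (nat_lit 0x20038001c6000000000000000000000000000000000000000) := T_23 (nat_lit 158) (nat_lit 157) (nat_lit 0) (nat_lit 8) (nat_lit 10) L15654 (by decide +kernel)
theorem L15656 : W_23 (nat_lit 6) (nat_lit 0xd000380010001000080000000000000000000000000000000) (nat_lit 0x0) (nat_lit 0x2803c001c6000000000000000000000000000000000000000) := T_23 (nat_lit 178) (nat_lit 191) (nat_lit 1) (nat_lit 8) (nat_lit 10) L15655 (by decide +kernel)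
theorem L15657 : W_23 (nat_lit 7) (nat_lit 0xd000300010001000080000000000000000000000000000000) (nat_lit 0x0) (nat_lit 0x2803cc01c6000000000000000000000000000000000000000) := T_23 (nat_lit 175) (nat_lit 174) (nat_lit 3) (nat_lit 4) (nat_lit 10) L15656 (by decide +kernel)
theorem L15658 : W_23 (nat_lit 8) (nat_lit 0xd000300000001000080000000000000000000000000000000) (nat_lit 0x0) (nat_lit 0x2803cc01d6000800000000000000000000000000000000000) := T_23 (nat_lit 160) (nat_lit 143) (nat_lit 6) (nat_lit 7) (nat_lit 11) L15657 (by decide +kernel)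
theorem L15659 : W_23 (nat_lit 2) (nat_lit 0x800000012000f000340010001000080000000000000000000000000000000) (nat_lit 0x0) (nat_lit 0x40002000080000000000000000000000000000000000000000000000000000) := D_23 (nat_lit 229) (nat_lit 246) (nat_lit 211) (nat_lit 4) (nat_lit 8) (nat_lit 14) (nat_lit 7) (nat_lit 7) (nat_lit 9) (by decide +kernel)
theorem L15660 : W_23 (nat_lit 3) (nat_lit 0x800000002000f000340010001000080000000000000000000000000000000) (nat_lit 0x0) (nat_lit 0x40002000380000000000000000000000000000000000000000000000000000) := T_23 (nat_lit 212) (nat_lit 213) (nat_lit 3) (nat_lit 5) (nat_lit 11) L15659 (by decide +kernel)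
theorem L15661 : W_23 (nat_lit 4) (nat_lit 0x2000f000340010001000080000000000000000000000000000000) (nat_lit 0x0) (nat_lit 0x48002400380000000000000000000000000000000000000000000000000000) := T_23 (nat_lit 243) (nat_lit 226) (nat_lit 6) (nat_lit 5) (nat_lit 14) L15660 (by decide +kernel)
theorem L15662 : W_23 (nat_lit 5) (nat_lit 0x2000f000340000001000080000000000000000000000000000000) (nat_lit 0x0) (nat_lit 0x48002400380000000000010000800000000000000000000000000000000000) := T_23 (nat_lit 160) (nat_lit 143) (nat_lit 6) (nat_lit 7) (nat_lit 11) L15661 (by decide +kernel)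
theorem L15663 : W_23 (nat_lit 6) (nat_lit 0xf000340000001000080000000000000000000000000000000) (nat_lit 0x0) (nat_lit 0x480024003b0000000000010000800000000000000000000000000000000000) := T_23 (nat_lit 209) (nat_lit 208) (nat_lit 1) (nat_lit 8) (nat_lit 11) L15662 (by decide +kernel)
theorem L15664 : W_23 (nat_lit 7) (nat_lit 0xf000300000001000080000000000000000000000000000000) (nat_lit 0x0) (nat_lit 0x480024003b00000000c0010000800000000000000000000000000000000000) := T_23 (nat_lit 174) (nat_lit 175) (nat_lit 3) (nat_lit 4) (nat_lit 10) L15663 (by decide +kernel)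
theorem L15665 : W_23 (nat_lit 8) (nat_lit 0xd000300000001000080000000000000000000000000000000) (nat_lit 0x0) (nat_lit 0x480024003b0002c000e0010000800000000000000000000000000000000000) := Q_23 (nat_lit 193) (C_23 L11603 (C_23 L11587 (C_23 L15664 N_23))) (by decide +kernel)
theorem L15666 : W_23 (nat_lit 2) (nat_lit 0xd000780004001700080000000000000000000000000000000) (nat_lit 0x0) (nat_lit 0x800140000000000000000000000000000000) := D_23 (nat_lit 143) (nat_lit 128) (nat_lit 126) (nat_lit 2) (nat_lit 5) (nat_lit 8) (nat_lit 2) (nat_lit 4) (nat_lit 8) (by decide +kernel)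
theorem L15667 : W_23 (nat_lit 3) (nat_lit 0xd000780004001300080000000000000000000000000000000) (nat_lit 0x0) (nat_lit 0xc00160000000000000000000000000000000) := T_23 (nat_lit 142) (nat_lit 125) (nat_lit 6) (nat_lit 5) (nat_lit 11) L15666 (by decide +kernel)
theorem L15668 : W_23 (nat_lit 4) (nat_lit 0xd000780004001200080000000000000000000000000000000) (nat_lit 0x0) (nat_lit 0xd00168000000000000000000000000000000) := T_23 (nat_lit 140) (nat_lit 123) (nat_lit 4) (nat_lit 5) (nat_lit 11) L15667 (by decide +kernel)
theorem L15669 : W_23 (nat_lit 5) (nat_lit 0xd000780000001200080000000000000000000000000000000) (nat_lit 0x0) (nat_lit 0x6000d00168000000000000000000000000000000) := T_23 (nat_lit 158) (nat_lit 157) (nat_lit 0) (nat_lit 8) (nat_lit 10) L15668 (by decide +kernel)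
theorem L15670 : W_23 (nat_lit 6) (nat_lit 0xd000380000001200080000000000000000000000000000000) (nat_lit 0x0) (nat_lit 0x800400006000d00168000000000000000000000000000000) := T_23 (nat_lit 178) (nat_lit 191) (nat_lit 1) (nat_lit 8) (nat_lit 10) L15669 (by decide +kernel)
theorem L15671 : W_23 (nat_lit 7) (nat_lit 0xd000300000001200080000000000000000000000000000000) (nat_lit 0x0) (nat_lit 0x8004c0006000d00168000000000000000000000000000000) := T_23 (nat_lit 175) (nat_lit 174) (nat_lit 3) (nat_lit 4) (nat_lit 10) L15670 (by decide +kernel)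
theorem L15672 : W_23 (nat_lit 2) (nat_lit 0xd000340000001f00080000000000000000000000000000000) (nat_lit 0x0) (nat_lit 0x7000000000000000000000000000000000000000) := D_23 (nat_lit 157) (nat_lit 156) (nat_lit 158) (nat_lit 1) (nat_lit 7) (nat_lit 8) (nat_lit 1) (nat_lit 8) (nat_lit 8) (by decide +kernel)
theorem L15673 : W_23 (nat_lit 3) (nat_lit 0xd000340000001e00080000000000000000000000000000000) (nat_lit 0x0) (nat_lit 0x7000100040000000000000000000000000000000) := T_23 (nat_lit 140) (nat_lit 126) (nat_lit 2) (nat_lit 4) (nat_lit 8) L15672 (by decide +kernel)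
theorem L15674 : W_23 (nat_lit 4) (nat_lit 0xd000340000001a00080000000000000000000000000000000) (nat_lit 0x0) (nat_lit 0x7000500140000000000000000000000000000000) := T_23 (nat_lit 142) (nat_lit 128) (nat_lit 2) (nat_lit 5) (nat_lit 8) L15673 (by decide +kernel)
theorem L15675 : W_23 (nat_lit 5) (nat_lit 0xd000340000001200080000000000000000000000000000000) (nat_lit 0x0) (nat_lit 0x17000d00140000000000000000000000000000000) := T_23 (nat_lit 143) (nat_lit 160) (nat_lit 6) (nat_lit 7) (nat_lit 11) L15674 (by decide +kernel)
theorem L15676 : W_23 (nat_lit 6) (nat_lit 0xd000300000001200080000000000000000000000000000000) (nat_lit 0x0) (nat_lit 0xc0017000d00140000000000000000000000000000000) := T_23 (nat_lit 174) (nat_lit 175) (nat_lit 3) (nat_lit 4) (nat_lit 10) L15675 (by decide +kernel)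
theorem L15677 : W_23 (nat_lit 2) (nat_lit 0x200000000d0007800140012000a8000000000000000000000000000000) (nat_lit 0x0) (nat_lit 0x10001400000000000000000000000000) := D_23 (nat_lit 124) (nat_lit 108) (nat_lit 106) (nat_lit 6) (nat_lit 5) (nat_lit 10) (nat_lit 4) (nat_lit 5) (nat_lit 10) (by decide +kernel)
theorem L15678 : W_23 (nat_lit 3) (nat_lit 0x200000000d0007800140012000a0000000000000000000000000000000) (nat_lit 0x0) (nat_lit 0x100018001400000000000000000000000000) := T_23 (nat_lit 123) (nat_lit 140) (nat_lit 4) (nat_lit 5) (nat_lit 11) L15677 (by decide +kernel)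
theorem L15679 : W_23 (nat_lit 4) (nat_lit 0x200000000d000780014001200080000000000000000000000000000000) (nat_lit 0x0) (nat_lit 0x500038001400000000000000000000000000) := T_23 (nat_lit 125) (nat_lit 142) (nat_lit 6) (nat_lit 5) (nat_lit 11) L15678 (by decide +kernel)
theorem L15680 : W_23 (nat_lit 5) (nat_lit 0xd000780014001200080000000000000000000000000000000) (nat_lit 0x0) (nat_lit 0x2000100000000000000000500038001400000000000000000000000000) := T_23 (nat_lit 229) (nat_lit 212) (nat_lit 4) (nat_lit 8) (nat_lit 13) L15679 (by decide +kernel)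
theorem L15681 : W_23 (nat_lit 6) (nat_lit 0xd000780010001200080000000000000000000000000000000) (nat_lit 0x0) (nat_lit 0x2000100000000000006000500038001400000000000000000000000000) := T_23 (nat_lit 158) (nat_lit 157) (nat_lit 0) (nat_lit 8) (nat_lit 10) L15680 (by decide +kernel)
theorem L15682 : W_23 (nat_lit 7) (nat_lit 0xd000380010001200080000000000000000000000000000000) (nat_lit 0x0) (nat_lit 0x2000100000800400006000500038001400000000000000000000000000) := T_23 (nat_lit 178) (nat_lit 191) (nat_lit 1) (nat_lit 8) (nat_lit 10) L15681 (by decide +kernel)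
theorem L15683 : W_23 (nat_lit 8) (nat_lit 0xd000300010001200080000000000000000000000000000000) (nat_lit 0x0) (nat_lit 0x20001000008004c0006000500038001400000000000000000000000000) := T_23 (nat_lit 175) (nat_lit 174) (nat_lit 3) (nat_lit 4) (nat_lit 10) L15682 (by decide +kernel)
theorem L15684 : W_23 (nat_lit 9) (nat_lit 0xd000300000001200080000000000000000000000000000000) (nat_lit 0x0) (nat_lit 0x20001000008004c0016000d00038001400000000000000000000000000) := T_23 (nat_lit 160) (nat_lit 143) (nat_lit 6) (nat_lit 7) (nat_lit 11) L15683 (by decide +kernel)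
theorem L15685 : W_23 (nat_lit 2) (nat_lit 0xd000300000001f00080000000000000000000000000000000) (nat_lit 0x0) (nat_lit 0x7000000000000000000000000000000000000000) := D_23 (nat_lit 157) (nat_lit 156) (nat_lit 158) (nat_lit 1) (nat_lit 7) (nat_lit 8) (nat_lit 1) (nat_lit 8) (nat_lit 8) (by decide +kernel)
theorem L15686 : W_23 (nat_lit 3) (nat_lit 0xd000300000001e00080000000000000000000000000000000) (nat_lit 0x0) (nat_lit 0x7000100040000000000000000000000000000000) := T_23 (nat_lit 140) (nat_lit 126) (nat_lit 2) (nat_lit 4) (nat_lit 8) L15685 (by decide +kernel)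
theorem L15687 : W_23 (nat_lit 4) (nat_lit 0xd000300000001a00080000000000000000000000000000000) (nat_lit 0x0) (nat_lit 0x7000500140000000000000000000000000000000) := T_23 (nat_lit 142) (nat_lit 128) (nat_lit 2) (nat_lit 5) (nat_lit 8) L15686 (by decide +kernel)
theorem L15688 : W_23 (nat_lit 5) (nat_lit 0xd000300000001200080000000000000000000000000000000) (nat_lit 0x0) (nat_lit 0x17000d00140000000000000000000000000000000) := T_23 (nat_lit 143) (nat_lit 160) (nat_lit 6) (nat_lit 7) (nat_lit 11) L15687 (by decide +kernel)
theorem L15689 : W_23 (nat_lit 6) (nat_lit 0xd000380000001200080000000000000000000000000000000) (nat_lit 0x0) (nat_lit 0x800400006000500078001000000000000000000000000000) := T_23 (nat_lit 178) (nat_lit 191) (nat_lit 1) (nat_lit 8) (nat_lit 10) L11064 (by decide +kernel)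
theorem L15690 : W_23 (nat_lit 7) (nat_lit 0xd000300000001200080000000000000000000000000000000) (nat_lit 0x0) (nat_lit 0x8004c0006000500078001000000000000000000000000000) := T_23 (nat_lit 175) (nat_lit 174) (nat_lit 3) (nat_lit 4) (nat_lit 10) L15689 (by decide +kernel)
theorem L15691 : W_23 (nat_lit 2) (nat_lit 0xd000340000001f00080000000000000000000000000000000) (nat_lit 0x0) (nat_lit 0x1c000000000000000000000000000000) := D_23 (nat_lit 123) (nat_lit 124) (nat_lit 122) (nat_lit 0) (nat_lit 8) (nat_lit 8) (nat_lit 0) (nat_lit 7) (nat_lit 8) (by decide +kernel)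
theorem L15692 : W_23 (nat_lit 3) (nat_lit 0xd000340000001e00080000000000000000000000000000000) (nat_lit 0x0) (nat_lit 0x10005c000000000000000000000000000000) := T_23 (nat_lit 140) (nat_lit 126) (nat_lit 2) (nat_lit 4) (nat_lit 8) L15691 (by decide +kernel)
theorem L15693 : W_23 (nat_lit 4) (nat_lit 0xd000340000001a00080000000000000000000000000000000) (nat_lit 0x0) (nat_lit 0x50015c000000000000000000000000000000) := T_23 (nat_lit 142) (nat_lit 128) (nat_lit 2) (nat_lit 5) (nat_lit 8) L15692 (by decide +kernel)
theorem L15694 : W_23 (nat_lit 5) (nat_lit 0xd000340000001200080000000000000000000000000000000) (nat_lit 0x0) (nat_lit 0x10000d0015c000000000000000000000000000000) := T_23 (nat_lit 143) (nat_lit 160) (nat_lit 6) (nat_lit 7) (nat_lit 11) L15693 (by decide +kernel)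
theorem L15695 : W_23 (nat_lit 6) (nat_lit 0xd000300000001200080000000000000000000000000000000) (nat_lit 0x0) (nat_lit 0xc0010000d0015c000000000000000000000000000000) := T_23 (nat_lit 174) (nat_lit 175) (nat_lit 3) (nat_lit 4) (nat_lit 10) L15694 (by decide +kernel)
theorem L15696 : W_23 (nat_lit 2) (nat_lit 0x200000000d0007800140012000b0000400000000000000000000000000) (nat_lit 0x0) (nat_lit 0x40000800020000000000000000000000) := D_23 (nat_lit 107) (nat_lit 89) (nat_lit 126) (nat_lit 4) (nat_lit 5) (nat_lit 9) (nat_lit 0) (nat_lit 8) (nat_lit 7) (by decide +kernel)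
theorem L15697 : W_23 (nat_lit 3) (nat_lit 0x200000000d0007800140012000b0000000000000000000000000000000) (nat_lit 0x0) (nat_lit 0x48000c00020000000000000000000000) := T_23 (nat_lit 106) (nat_lit 123) (nat_lit 4) (nat_lit 5) (nat_lit 10) L15696 (by decide +kernel)
theorem L15698 : W_23 (nat_lit 4) (nat_lit 0x200000000d0007800140012000a0000000000000000000000000000000) (nat_lit 0x0) (nat_lit 0x58001c00020000000000000000000000) := T_23 (nat_lit 124) (nat_lit 108) (nat_lit 6) (nat_lit 5) (nat_lit 10) L15697 (by decide +kernel)
theorem L15699 : W_23 (nat_lit 5) (nat_lit 0x200000000d000780014001200080000000000000000000000000000000) (nat_lit 0x0) (nat_lit 0x400078001c00020000000000000000000000) := T_23 (nat_lit 125) (nat_lit 142) (nat_lit 6) (nat_lit 5) (nat_lit 11) L15698 (by decide +kernel)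
theorem L15700 : W_23 (nat_lit 6) (nat_lit 0xd000780014001200080000000000000000000000000000000) (nat_lit 0x0) (nat_lit 0x2000100000000000000000400078001c00020000000000000000000000) := T_23 (nat_lit 229) (nat_lit 212) (nat_lit 4) (nat_lit 8) (nat_lit 13) L15699 (by decide +kernel)
theorem L15701 : W_23 (nat_lit 7) (nat_lit 0xd000780010001200080000000000000000000000000000000) (nat_lit 0x0) (nat_lit 0x2000100000000000006000400078001c00020000000000000000000000) := T_23 (nat_lit 158) (nat_lit 157) (nat_lit 0) (nat_lit 8) (nat_lit 10) L15700 (by decide +kernel)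
theorem L15702 : W_23 (nat_lit 8) (nat_lit 0xd000380010001200080000000000000000000000000000000) (nat_lit 0x0) (nat_lit 0x2000100000800400006000400078001c00020000000000000000000000) := T_23 (nat_lit 178) (nat_lit 191) (nat_lit 1) (nat_lit 8) (nat_lit 10) L15701 (by decide +kernel)
theorem L15703 : W_23 (nat_lit 9) (nat_lit 0xd000300010001200080000000000000000000000000000000) (nat_lit 0x0) (nat_lit 0x20001000008004c0006000400078001c00020000000000000000000000) := T_23 (nat_lit 175) (nat_lit 174) (nat_lit 3) (nat_lit 4) (nat_lit 10) L15702 (by decide +kernel)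
theorem L15704 : W_23 (nat_lit 10) (nat_lit 0xd000300000001200080000000000000000000000000000000) (nat_lit 0x0) (nat_lit 0x20001000008004c0016000c00078001c00020000000000000000000000) := T_23 (nat_lit 160) (nat_lit 143) (nat_lit 6) (nat_lit 7) (nat_lit 11) L15703 (by decide +kernel)
theorem L15705 : W_23 (nat_lit 6) (nat_lit 0xd000380000001a00080000000000000000000000000000000) (nat_lit 0x0) (nat_lit 0x800400006000100078001400000000000000000000000000) := T_23 (nat_lit 178) (nat_lit 191) (nat_lit 1) (nat_lit 8) (nat_lit 10) L11074 (by decide +kernel)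
theorem L15706 : W_23 (nat_lit 7) (nat_lit 0xd000380000001200080000000000000000000000000000000) (nat_lit 0x0) (nat_lit 0x800400016000900078001400000000000000000000000000) := T_23 (nat_lit 143) (nat_lit 160) (nat_lit 6) (nat_lit 7) (nat_lit 11) L15705 (by decide +kernel)
theorem L15707 : W_23 (nat_lit 8) (nat_lit 0xd000300000001200080000000000000000000000000000000) (nat_lit 0x0) (nat_lit 0x8004c0016000900078001400000000000000000000000000) := T_23 (nat_lit 175) (nat_lit 174) (nat_lit 3) (nat_lit 4) (nat_lit 10) L15706 (by decide +kernel)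
theorem L15708 : W_23 (nat_lit 11) (nat_lit 0xd000300000001000080000000000000000000000000000000) (nat_lit 0x0) (nat_lit 0x20001000008004c0017000f0017c001c00020000000000000000000000) := Q_23 (nat_lit 141) (C_23 L15671 (C_23 L15676 (C_23 L15684 (C_23 L15688 (C_23 L15690 (C_23 L15695 (C_23 L15704 (C_23 L15707 N_23)))))))) (by decide +kernel)
theorem L15709 : W_23 (nat_lit 5) (nat_lit 0xd000300000001000080000000000000000000000000000000) (nat_lit 0x0) (nat_lit 0x2000380002c00c00010000800000000000000000000000000000000000) := Q_23 (nat_lit 193) (C_23 L11587 (C_23 L11732 (C_23 L11585 N_23))) (by decide +kernel)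
theorem L15710 : W_23 (nat_lit 2) (nat_lit 0x12000f000780004001000080000000000000000000000000000000) (nat_lit 0x0) (nat_lit 0x40002000000000000000010000000000000000000000000000000000000000) := D_23 (nat_lit 229) (nat_lit 160) (nat_lit 246) (nat_lit 4) (nat_lit 8) (nat_lit 13) (nat_lit 4) (nat_lit 8) (nat_lit 14) (by decide +kernel)
theorem L15711 : W_23 (nat_lit 3) (nat_lit 0x2000f000780004001000080000000000000000000000000000000) (nat_lit 0x0) (nat_lit 0x40002000300000000000010000000000000000000000000000000000000000) := T_23 (nat_lit 212) (nat_lit 213) (nat_lit 3) (nat_lit 5) (nat_lit 11) L15710 (by decide +kernel)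
theorem L15712 : W_23 (nat_lit 4) (nat_lit 0xf000780004001000080000000000000000000000000000000) (nat_lit 0x0) (nat_lit 0x40002000330000000000010000000000000000000000000000000000000000) := T_23 (nat_lit 209) (nat_lit 208) (nat_lit 1) (nat_lit 8) (nat_lit 11) L15711 (by decide +kernel)
theorem L15713 : W_23 (nat_lit 5) (nat_lit 0xd000780004001000080000000000000000000000000000000) (nat_lit 0x0) (nat_lit 0x40002000330002000800010000000000000000000000000000000000000000) := T_23 (nat_lit 193) (nat_lit 179) (nat_lit 2) (nat_lit 5) (nat_lit 11) L15712 (by decide +kernel)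
theorem L15714 : W_23 (nat_lit 6) (nat_lit 0xd000780000001000080000000000000000000000000000000) (nat_lit 0x0) (nat_lit 0x40002000330002000800016000000000000000000000000000000000000000) := T_23 (nat_lit 158) (nat_lit 157) (nat_lit 0) (nat_lit 8) (nat_lit 10) L15713 (by decide +kernel)
theorem L15715 : W_23 (nat_lit 7) (nat_lit 0xd000380000001000080000000000000000000000000000000) (nat_lit 0x0) (nat_lit 0x40002000330002800c00016000000000000000000000000000000000000000) := T_23 (nat_lit 178) (nat_lit 191) (nat_lit 1) (nat_lit 8) (nat_lit 10) L15714 (by decide +kernel)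
theorem L15716 : W_23 (nat_lit 8) (nat_lit 0xd000300000001000080000000000000000000000000000000) (nat_lit 0x0) (nat_lit 0x40002000330002800cc0016000000000000000000000000000000000000000) := T_23 (nat_lit 175) (nat_lit 174) (nat_lit 3) (nat_lit 4) (nat_lit 10) L15715 (by decide +kernel)
theorem L15722 : W_23 (nat_lit 7) (nat_lit 0x2000f000b80000001000080000000000000000000000000000000) (nat_lit 0x0) (nat_lit 0x7c003e00380000000000000000000000000000000000000000000000000000) := T_23 (nat_lit 212) (nat_lit 213) (nat_lit 3) (nat_lit 5) (nat_lit 11) L15721 (by decide +kernel)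
theorem L15723 : W_23 (nat_lit 8) (nat_lit 0xf000b80000001000080000000000000000000000000000000) (nat_lit 0x0) (nat_lit 0x7c003e003b0000000000000000000000000000000000000000000000000000) := T_23 (nat_lit 209) (nat_lit 208) (nat_lit 1) (nat_lit 8) (nat_lit 11) L15722 (by decide +kernel)
theorem L15724 : W_23 (nat_lit 9) (nat_lit 0xf000b00000001000080000000000000000000000000000000) (nat_lit 0x0) (nat_lit 0x7c003e003b00000000c0000000000000000000000000000000000000000000) := T_23 (nat_lit 175) (nat_lit 174) (nat_lit 3) (nat_lit 4) (nat_lit 10) L15723 (by decide +kernel)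
theorem L15725 : W_23 (nat_lit 10) (nat_lit 0xf000300000001000080000000000000000000000000000000) (nat_lit 0x0) (nat_lit 0x7c003e003b0000000cc0000000000000000000000000000000000000000000) := T_23 (nat_lit 179) (nat_lit 178) (nat_lit 2) (nat_lit 5) (nat_lit 11) L15724 (by decide +kernel)
theorem L15730 : W_23 (nat_lit 6) (nat_lit 0xf000700000001800080000000000000000000000000000000) (nat_lit 0x0) (nat_lit 0x300000000c0006000600130000000000000000000000000000000) := T_23 (nat_lit 175) (nat_lit 174) (nat_lit 3) (nat_lit 4) (nat_lit 10) L15729 (by decide +kernel)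
theorem L15731 : W_23 (nat_lit 7) (nat_lit 0xf000300000001800080000000000000000000000000000000) (nat_lit 0x0) (nat_lit 0x30000000cc0006000600130000000000000000000000000000000) := T_23 (nat_lit 178) (nat_lit 179) (nat_lit 2) (nat_lit 5) (nat_lit 11) L15730 (by decide +kernel)
theorem L15732 : W_23 (nat_lit 8) (nat_lit 0xf000300000001000080000000000000000000000000000000) (nat_lit 0x0) (nat_lit 0x30000000cc0016000e00130000000000000000000000000000000) := T_23 (nat_lit 143) (nat_lit 160) (nat_lit 6) (nat_lit 7) (nat_lit 11) L15731 (by decide +kernel)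
theorem L15733 : W_23 (nat_lit 13) (nat_lit 0xd000300000001000080000000000000000000000000000000) (nat_lit 0x0) (nat_lit 0x7c003e003b0002000cc0016000f00178000000000000000000000000000000) := Q_23 (nat_lit 193) (C_23 L15579 (C_23 L15664 (C_23 L11732 (C_23 L15725 (C_23 L15732 N_23))))) (by decide +kernel)
theorem L15734 : W_23 (nat_lit 14) (nat_lit 0xc000300000001000080000000000000000000000000000000) (nat_lit 0x0) (nat_lit 0x7c003e003b0003c03ce01d7000f0017c001c00020000000000000000000000) := Q_23 (nat_lit 192) (C_23 L15658 (C_23 L15665 (C_23 L15708 (C_23 L15709 (C_23 L15716 (C_23 L15594 (C_23 L15733 N_23))))))) (by decide +kernel)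
theorem L15735 : W_23 (nat_lit 3) (nat_lit 0x200000000e000300000001000080000000000000000000000000000000) (nat_lit 0x0) (nat_lit 0x40000000180000000400010000000000000000000000000000000000000000) := T_23 (nat_lit 212) (nat_lit 246) (nat_lit 4) (nat_lit 8) (nat_lit 14) L15650 (by decide +kernel)
theorem L15736 : W_23 (nat_lit 2) (nat_lit 0x200000000e000300010001000080000000000000000000000000000000) (nat_lit 0x0) (nat_lit 0x40000000180000000000000000000000000000000000000000000000000000) := D_23 (nat_lit 212) (nat_lit 211) (nat_lit 246) (nat_lit 7) (nat_lit 7) (nat_lit 9) (nat_lit 4) (nat_lit 8) (nat_lit 14) (by decide +kernel)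
theorem L15737 : W_23 (nat_lit 3) (nat_lit 0x200000000e000300000001000080000000000000000000000000000000) (nat_lit 0x0) (nat_lit 0x40000000180000000000010000800000000000000000000000000000000000) := T_23 (nat_lit 160) (nat_lit 143) (nat_lit 6) (nat_lit 7) (nat_lit 11) L15736 (by decide +kernel)
theorem L15738 : W_23 (nat_lit 2) (nat_lit 0x200000000e000300010001000080000000000000000000000000000000) (nat_lit 0x0) (nat_lit 0x40000000100000000400000000000000000000000000000000000000000000) := D_23 (nat_lit 212) (nat_lit 178) (nat_lit 246) (nat_lit 4) (nat_lit 8) (nat_lit 13) (nat_lit 4) (nat_lit 8) (nat_lit 14) (by decide +kernel)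
theorem L15739 : W_23 (nat_lit 3) (nat_lit 0x200000000e000300000001000080000000000000000000000000000000) (nat_lit 0x0) (nat_lit 0x40000000100000000400010000800000000000000000000000000000000000) := T_23 (nat_lit 160) (nat_lit 143) (nat_lit 6) (nat_lit 7) (nat_lit 11) L15738 (by decide +kernel)
theorem L15740 : W_23 (nat_lit 2) (nat_lit 0x4000200020001e000300000001000080000000000000000000000000000000) (nat_lit 0x0) (nat_lit 0x4000000000001800000000000000000000000000000000000000000000) := D_23 (nat_lit 179) (nat_lit 180) (nat_lit 230) (nat_lit 2) (nat_lit 6) (nat_lit 11) (nat_lit 5) (nat_lit 9) (nat_lit 10) (by decide +kernel)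
theorem L15741 : W_23 (nat_lit 3) (nat_lit 0x4000200000001e000300000001000080000000000000000000000000000000) (nat_lit 0x0) (nat_lit 0x4000600000001800000000000000000000000000000000000000000000) := T_23 (nat_lit 213) (nat_lit 214) (nat_lit 3) (nat_lit 6) (nat_lit 11) L15740 (by decide +kernel)
theorem L15742 : W_23 (nat_lit 4) (nat_lit 0x200000001e000300000001000080000000000000000000000000000000) (nat_lit 0x0) (nat_lit 0x40004000700000001800000000000000000000000000000000000000000000) := T_23 (nat_lit 246) (nat_lit 212) (nat_lit 4) (nat_lit 8) (nat_lit 14) L15741 (by decide +kernel)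
theorem L15743 : W_23 (nat_lit 5) (nat_lit 0x200000000e000300000001000080000000000000000000000000000000) (nat_lit 0x0) (nat_lit 0x40004000700030001800000000000000000000000000000000000000000000) := T_23 (nat_lit 196) (nat_lit 197) (nat_lit 0) (nat_lit 10) (nat_lit 11) L15742 (by decide +kernel)
theorem L15748 : W_23 (nat_lit 6) (nat_lit 0x200000001e000300010001000080000000000000000000000000000000) (nat_lit 0x0) (nat_lit 0x20001c000c000600000001c00000000000000000000000000000000000000000000) := T_23 (nat_lit 179) (nat_lit 180) (nat_lit 2) (nat_lit 6) (nat_lit 11) L15747 (by decide +kernel)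
theorem L15749 : W_23 (nat_lit 7) (nat_lit 0x200000000e000300010001000080000000000000000000000000000000) (nat_lit 0x0) (nat_lit 0x20001c000c000600030001c00000000000000000000000000000000000000000000) := T_23 (nat_lit 196) (nat_lit 197) (nat_lit 0) (nat_lit 10) (nat_lit 11) L15748 (by decide +kernel)
theorem L15750 : W_23 (nat_lit 8) (nat_lit 0x200000000e000300000001000080000000000000000000000000000000) (nat_lit 0x0) (nat_lit 0x20001c000c000600030001c00010000800000000000000000000000000000000000) := T_23 (nat_lit 160) (nat_lit 143) (nat_lit 6) (nat_lit 7) (nat_lit 11) L15749 (by decide +kernel)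
theorem L15751 : W_23 (nat_lit 2) (nat_lit 0x200000002e000300010001000080000000000000000000000000000000) (nat_lit 0x0) (nat_lit 0x180000000400000000000000000000000000000000000000000000) := D_23 (nat_lit 212) (nat_lit 211) (nat_lit 178) (nat_lit 7) (nat_lit 7) (nat_lit 9) (nat_lit 4) (nat_lit 8) (nat_lit 13) (by decide +kernel)
theorem L15752 : W_23 (nat_lit 3) (nat_lit 0x200000002e000300000001000080000000000000000000000000000000) (nat_lit 0x0) (nat_lit 0x180000000400010000800000000000000000000000000000000000) := T_23 (nat_lit 160) (nat_lit 143) (nat_lit 6) (nat_lit 7) (nat_lit 11) L15751 (by decide +kernel)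
theorem L15753 : W_23 (nat_lit 4) (nat_lit 0x200000000e000300000001000080000000000000000000000000000000) (nat_lit 0x0) (nat_lit 0x180030000400010000800000000000000000000000000000000000) := T_23 (nat_lit 197) (nat_lit 196) (nat_lit 0) (nat_lit 10) (nat_lit 11) L15752 (by decide +kernel)
theorem L15754 : W_23 (nat_lit 9) (nat_lit 0xe000300000001000080000000000000000000000000000000) (nat_lit 0x0) (nat_lit 0x20001c000e000780030001c00010000800000000000000000000000000000000000) := Q_23 (nat_lit 229) (C_23 L15735 (C_23 L15737 (C_23 L15739 (C_23 L15743 (C_23 L15750 (C_23 L15753 N_23)))))) (by decide +kernel)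
theorem L15755 : W_23 (nat_lit 10) (nat_lit 0xc000300000001000080000000000000000000000000000000) (nat_lit 0x0) (nat_lit 0x20001c000e0007b8033c01c00010000800000000000000000000000000000000000) := Q_23 (nat_lit 193) (C_23 L15647 (C_23 L15754 (C_23 L15638 (C_23 L15642 (C_23 L12385 N_23))))) (by decide +kernel)
theorem L15756 : W_23 (nat_lit 15) (nat_lit 0x4000300000001000080000000000000000000000000000000) (nat_lit 0x0) (nat_lit 0x20001fc00fe007b803bc03ce01d7000f0017c001c00020000000000000000000000) := Q_23 (nat_lit 195) (C_23 L14831 (C_23 L15734 (C_23 L5316 (C_23 L10838 (C_23 L15755 N_23))))) (by decide +kernel)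
theorem L15757 : W_23 (nat_lit 4) (nat_lit 0x40003c0008001000080000000000000000000000000000000) (nat_lit 0x0) (nat_lit 0x2700030004000000000000000000000000000000000000000) := T_23 (nat_lit 173) (nat_lit 193) (nat_lit 3) (nat_lit 3) (nat_lit 10) L14423 (by decide +kernel)
theorem L15758 : W_23 (nat_lit 5) (nat_lit 0x4000380008001000080000000000000000000000000000000) (nat_lit 0x0) (nat_lit 0xa700070004000000000000000000000000000000000000000) := T_23 (nat_lit 174) (nat_lit 195) (nat_lit 3) (nat_lit 4) (nat_lit 10) L15757 (by decide +kernel)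
theorem L15759 : W_23 (nat_lit 2) (nat_lit 0x6000380008001000080000000000000000000000000000000) (nat_lit 0x0) (nat_lit 0x18000040000000000000000000000000000000000000000000) := D_23 (nat_lit 195) (nat_lit 196) (nat_lit 174) (nat_lit 0) (nat_lit 9) (nat_lit 11) (nat_lit 3) (nat_lit 4) (nat_lit 10) (by decide +kernel)
theorem L15760 : W_23 (nat_lit 2) (nat_lit 0xc0003000000016000a0000000000000000000000000000000) (nat_lit 0x0) (nat_lit 0x800140000000000000000000000000000000) := D_23 (nat_lit 128) (nat_lit 126) (nat_lit 143) (nat_lit 1) (nat_lit 9) (nat_lit 7) (nat_lit 2) (nat_lit 5) (nat_lit 8) (by decide +kernel)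
theorem L15761 : W_23 (nat_lit 3) (nat_lit 0xc000300000001600080000000000000000000000000000000) (nat_lit 0x0) (nat_lit 0x8000800160000000000000000000000000000000) := T_23 (nat_lit 125) (nat_lit 159) (nat_lit 7) (nat_lit 6) (nat_lit 7) L15760 (by decide +kernel)
theorem L15762 : W_23 (nat_lit 4) (nat_lit 0xc000300000001600080000000000000000000000000000000) (nat_lit 0x0) (nat_lit 0x90015c000000000000000000000000000000) := T_23 (nat_lit 143) (nat_lit 128) (nat_lit 2) (nat_lit 5) (nat_lit 8) L15311 (by decide +kernel)
theorem L15763 : W_23 (nat_lit 2) (nat_lit 0x2c000300004001e000a0000000000000000000000000000000) (nat_lit 0x0) (nat_lit 0x10000c0000000000000000000000000000000000000000000) := D_23 (nat_lit 175) (nat_lit 174) (nat_lit 192) (nat_lit 3) (nat_lit 4) (nat_lit 10) (nat_lit 6) (nat_lit 5) (nat_lit 11) (by decide +kernel)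
theorem L15764 : W_23 (nat_lit 3) (nat_lit 0x2c000300000001e000a0000000000000000000000000000000) (nat_lit 0x0) (nat_lit 0x10000c0006000000000000000000000000000000000000000) := T_23 (nat_lit 158) (nat_lit 157) (nat_lit 1) (nat_lit 8) (nat_lit 8) L15763 (by decide +kernel)
theorem L15765 : W_23 (nat_lit 4) (nat_lit 0x2c0003000000016000a0000000000000000000000000000000) (nat_lit 0x0) (nat_lit 0x10000c0006000800100000000000000000000000000000000) := T_23 (nat_lit 143) (nat_lit 128) (nat_lit 2) (nat_lit 5) (nat_lit 8) L15764 (by decide +kernel)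
theorem L15766 : W_23 (nat_lit 5) (nat_lit 0x2c000300000001600080000000000000000000000000000000) (nat_lit 0x0) (nat_lit 0x10000c000e000800120000000000000000000000000000000) := T_23 (nat_lit 125) (nat_lit 159) (nat_lit 7) (nat_lit 6) (nat_lit 7) L15765 (by decide +kernel)
theorem L15767 : W_23 (nat_lit 6) (nat_lit 0xc000300000001600080000000000000000000000000000000) (nat_lit 0x0) (nat_lit 0x310000c000e000800120000000000000000000000000000000) := T_23 (nat_lit 197) (nat_lit 196) (nat_lit 0) (nat_lit 10) (nat_lit 11) L15766 (by decide +kernel)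
theorem L15772 : W_23 (nat_lit 7) (nat_lit 0xc000300000001400080000000000000000000000000000000) (nat_lit 0x0) (nat_lit 0x310000c000e000b0017c001000080000000000000000000000) := Q_23 (nat_lit 141) (C_23 L15761 (C_23 L15762 (C_23 L15767 (C_23 L15771 N_23)))) (by decide +kernel)
theorem L15773 : W_23 (nat_lit 2) (nat_lit 0x2c000300010001400080000000000000000000000000000000) (nat_lit 0x0) (nat_lit 0x80000000000008000000020000000000000000000000000000000) := D_23 (nat_lit 159) (nat_lit 211) (nat_lit 125) (nat_lit 4) (nat_lit 7) (nat_lit 12) (nat_lit 7) (nat_lit 6) (nat_lit 7) (by decide +kernel)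
theorem L15774 : W_23 (nat_lit 3) (nat_lit 0x2c000300000001400080000000000000000000000000000000) (nat_lit 0x0) (nat_lit 0x80000000000018000800020000000000000000000000000000000) := T_23 (nat_lit 160) (nat_lit 143) (nat_lit 6) (nat_lit 7) (nat_lit 11) L15773 (by decide +kernel)
theorem L15775 : W_23 (nat_lit 4) (nat_lit 0xc000300000001400080000000000000000000000000000000) (nat_lit 0x0) (nat_lit 0x80030000000018000800020000000000000000000000000000000) := T_23 (nat_lit 197) (nat_lit 196) (nat_lit 0) (nat_lit 10) (nat_lit 11) L15774 (by decide +kernel)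
theorem L15776 : W_23 (nat_lit 5) (nat_lit 0xc000300000001400080000000000000000000000000000000) (nat_lit 0x0) (nat_lit 0x10000b0015c000000000000000000000000000000) := T_23 (nat_lit 143) (nat_lit 160) (nat_lit 6) (nat_lit 7) (nat_lit 11) L15312 (by decide +kernel)
theorem L15780 : W_23 (nat_lit 8) (nat_lit 0xc000300000001000080000000000000000000000000000000) (nat_lit 0x0) (nat_lit 0x10000800310000c001e000f0017c001000080000000000000000000000) := Q_23 (nat_lit 142) (C_23 L15772 (C_23 L15775 (C_23 L15776 (C_23 L15779 N_23)))) (by decide +kernel)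
theorem L15781 : W_23 (nat_lit 2) (nat_lit 0x10000f800300000001000080000000000000000000000000000000) (nat_lit 0x0) (nat_lit 0x38000000000000000000000000000000000000000000000000000) := D_23 (nat_lit 208) (nat_lit 209) (nat_lit 207) (nat_lit 1) (nat_lit 8) (nat_lit 11) (nat_lit 1) (nat_lit 7) (nat_lit 11) (by decide +kernel)
theorem L15782 : W_23 (nat_lit 3) (nat_lit 0x10000f000300000001000080000000000000000000000000000000) (nat_lit 0x0) (nat_lit 0x38000c00000000000000000000000000000000000000000000000) := T_23 (nat_lit 191) (nat_lit 190) (nat_lit 2) (nat_lit 3) (nat_lit 11) L15781 (by decide +kernel)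
theorem L15783 : W_23 (nat_lit 4) (nat_lit 0x10000d000300000001000080000000000000000000000000000000) (nat_lit 0x0) (nat_lit 0x238002c00000000000000000000000000000000000000000000000) := T_23 (nat_lit 193) (nat_lit 213) (nat_lit 3) (nat_lit 5) (nat_lit 11) L15782 (by decide +kernel)
theorem L15784 : W_23 (nat_lit 2) (nat_lit 0x1000300008002c000300010001000080000000000000000000000000000000) (nat_lit 0x0) (nat_lit 0x200020000000000002000000000000000000000000000000000000000000000000) := D_23 (nat_lit 245) (nat_lit 193) (nat_lit 261) (nat_lit 4) (nat_lit 7) (nat_lit 14) (nat_lit 5) (nat_lit 7) (nat_lit 11) (by decide +kernel)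
theorem L15785 : W_23 (nat_lit 3) (nat_lit 0x300008002c000300010001000080000000000000000000000000000000) (nat_lit 0x0) (nat_lit 0x200030000800000002000000000000000000000000000000000000000000000000) := T_23 (nat_lit 244) (nat_lit 227) (nat_lit 5) (nat_lit 7) (nat_lit 10) L15784 (by decide +kernel)
theorem L15786 : W_23 (nat_lit 4) (nat_lit 0x200008002c000300010001000080000000000000000000000000000000) (nat_lit 0x0) (nat_lit 0x200070001800000002000000000000000000000000000000000000000000000000) := T_23 (nat_lit 228) (nat_lit 246) (nat_lit 7) (nat_lit 7) (nat_lit 10) L15785 (by decide +kernel)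
theorem L15787 : W_23 (nat_lit 5) (nat_lit 0x8002c000300010001000080000000000000000000000000000000) (nat_lit 0x0) (nat_lit 0x200070003800100002000000000000000000000000000000000000000000000000) := T_23 (nat_lit 229) (nat_lit 212) (nat_lit 7) (nat_lit 7) (nat_lit 9) L15786 (by decide +kernel)
theorem L15788 : W_23 (nat_lit 6) (nat_lit 0x8002c000300000001000080000000000000000000000000000000) (nat_lit 0x0) (nat_lit 0x200070003800100002000000010000800000000000000000000000000000000000) := T_23 (nat_lit 160) (nat_lit 143) (nat_lit 6) (nat_lit 7) (nat_lit 11) L15787 (by decide +kernel)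
theorem L15789 : W_23 (nat_lit 7) (nat_lit 0x8000c000300000001000080000000000000000000000000000000) (nat_lit 0x0) (nat_lit 0x200070003800100032000000010000800000000000000000000000000000000000) := T_23 (nat_lit 197) (nat_lit 196) (nat_lit 0) (nat_lit 10) (nat_lit 11) L15788 (by decide +kernel)
theorem L15790 : W_23 (nat_lit 2) (nat_lit 0x8000c000300000001400080000000000000000000000000000000) (nat_lit 0x0) (nat_lit 0x2000000008000000020000000000000000000000000000000) := D_23 (nat_lit 159) (nat_lit 125) (nat_lit 193) (nat_lit 7) (nat_lit 6) (nat_lit 7) (nat_lit 7) (nat_lit 6) (nat_lit 8) (by decide +kernel)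
theorem L15791 : W_23 (nat_lit 2) (nat_lit 0x8000c000300000001f00080000000000000000000000000000000) (nat_lit 0x0) (nat_lit 0x7000000000000000000000000000000000000000) := D_23 (nat_lit 157) (nat_lit 156) (nat_lit 158) (nat_lit 1) (nat_lit 7) (nat_lit 8) (nat_lit 1) (nat_lit 8) (nat_lit 8) (by decide +kernel)
theorem L15792 : W_23 (nat_lit 3) (nat_lit 0x8000c000300000001e00080000000000000000000000000000000) (nat_lit 0x0) (nat_lit 0x7000100040000000000000000000000000000000) := T_23 (nat_lit 140) (nat_lit 126) (nat_lit 2) (nat_lit 4) (nat_lit 8) L15791 (by decide +kernel)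
theorem L15793 : W_23 (nat_lit 4) (nat_lit 0x8000c000300000001c00080000000000000000000000000000000) (nat_lit 0x0) (nat_lit 0x7000300140000000000000000000000000000000) := T_23 (nat_lit 141) (nat_lit 128) (nat_lit 2) (nat_lit 5) (nat_lit 8) L15792 (by decide +kernel)
theorem L15794 : W_23 (nat_lit 5) (nat_lit 0x8000c000300000001400080000000000000000000000000000000) (nat_lit 0x0) (nat_lit 0x17000b00140000000000000000000000000000000) := T_23 (nat_lit 143) (nat_lit 160) (nat_lit 6) (nat_lit 7) (nat_lit 11) L15793 (by decide +kernel)
theorem L15795 : W_23 (nat_lit 6) (nat_lit 0x8000c000300000001000080000000000000000000000000000000) (nat_lit 0x0) (nat_lit 0x200000001f000f00160000000000000000000000000000000) := Q_23 (nat_lit 142) (C_23 L15790 (C_23 L15794 N_23)) (by decide +kernel)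
theorem L15796 : W_23 (nat_lit 2) (nat_lit 0x2000100008002c000300000001000080000000000000000000000000000000) (nat_lit 0x0) (nat_lit 0x800040002000000000000000000000000000000000000000000000000000000000) := D_23 (nat_lit 246) (nat_lit 229) (nat_lit 263) (nat_lit 7) (nat_lit 7) (nat_lit 10) (nat_lit 7) (nat_lit 7) (nat_lit 11) (by decide +kernel)
theorem L15797 : W_23 (nat_lit 3) (nat_lit 0x100008002c000300000001000080000000000000000000000000000000) (nat_lit 0x0) (nat_lit 0x800060002000000002000000000000000000000000000000000000000000000000) := T_23 (nat_lit 245) (nat_lit 193) (nat_lit 4) (nat_lit 7) (nat_lit 14) L15796 (by decide +kernel)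
theorem L15798 : W_23 (nat_lit 4) (nat_lit 0x8002c000300000001000080000000000000000000000000000000) (nat_lit 0x0) (nat_lit 0x800060003000000002000000008000000000000000000000000000000000000000) := T_23 (nat_lit 228) (nat_lit 159) (nat_lit 4) (nat_lit 7) (nat_lit 13) L15797 (by decide +kernel)
theorem L15799 : W_23 (nat_lit 5) (nat_lit 0x8000c000300000001000080000000000000000000000000000000) (nat_lit 0x0) (nat_lit 0x800060003000000032000000008000000000000000000000000000000000000000) := T_23 (nat_lit 197) (nat_lit 196) (nat_lit 0) (nat_lit 10) (nat_lit 11) L15798 (by decide +kernel)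
theorem L15800 : W_23 (nat_lit 8) (nat_lit 0xc000300000001000080000000000000000000000000000000) (nat_lit 0x0) (nat_lit 0xa0007000380018003200000001f000f00160000000000000000000000000000000) := Q_23 (nat_lit 211) (C_23 L11827 (C_23 L5339 (C_23 L15789 (C_23 L15795 (C_23 L15799 N_23))))) (by decide +kernel)
theorem L15801 : W_23 (nat_lit 13) (nat_lit 0x4000300000001000080000000000000000000000000000000) (nat_lit 0x0) (nat_lit 0xa000700038001a803bc000e001f000f0017c001000080000000000000000000000) := Q_23 (nat_lit 195) (C_23 L5316 (C_23 L15328 (C_23 L15780 (C_23 L15800 N_23)))) (by decide +kernel)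
theorem L15802 : W_23 (nat_lit 2) (nat_lit 0x10000000048007c000c001000080000000000000000000000000000000) (nat_lit 0x0) (nat_lit 0x2000030000000000000000000000000000000000000000000) := D_23 (nat_lit 173) (nat_lit 172) (nat_lit 193) (nat_lit 2) (nat_lit 2) (nat_lit 10) (nat_lit 3) (nat_lit 3) (nat_lit 10) (by decide +kernel)
theorem L15803 : W_23 (nat_lit 3) (nat_lit 0x100000000480078000c001000080000000000000000000000000000000) (nat_lit 0x0) (nat_lit 0x2400070000000000000000000000000000000000000000000) := T_23 (nat_lit 174) (nat_lit 190) (nat_lit 1) (nat_lit 7) (nat_lit 10) L15802 (by decide +kernel)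
theorem L15804 : W_23 (nat_lit 4) (nat_lit 0x1000000004800780008001000080000000000000000000000000000000) (nat_lit 0x0) (nat_lit 0x2400070006000000000000000000000000000000000000000) := T_23 (nat_lit 158) (nat_lit 157) (nat_lit 0) (nat_lit 8) (nat_lit 10) L15803 (by decide +kernel)
theorem L15805 : W_23 (nat_lit 5) (nat_lit 0x1000000004000780008001000080000000000000000000000000000000) (nat_lit 0x0) (nat_lit 0x3c00070006000000000000000000000000000000000000000) := T_23 (nat_lit 191) (nat_lit 192) (nat_lit 1) (nat_lit 8) (nat_lit 10) L15804 (by decide +kernel)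
theorem L15806 : W_23 (nat_lit 6) (nat_lit 0x4000780008001000080000000000000000000000000000000) (nat_lit 0x0) (nat_lit 0x1000080003c00070006000000000000000000000000000000000000000) := T_23 (nat_lit 228) (nat_lit 211) (nat_lit 4) (nat_lit 7) (nat_lit 13) L15805 (by decide +kernel)
theorem L15808 : W_23 (nat_lit 2) (nat_lit 0x40003c0008001000080000000000000000000000000000000) (nat_lit 0x0) (nat_lit 0x2000020010000000000000000000000000000000000000000) := D_23 (nat_lit 173) (nat_lit 160) (nat_lit 193) (nat_lit 2) (nat_lit 3) (nat_lit 10) (nat_lit 3) (nat_lit 3) (nat_lit 10) (by decide +kernel)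
theorem L15810 : W_23 (nat_lit 3) (nat_lit 0x40003c0008001000080000000000000000000000000000000) (nat_lit 0x0) (nat_lit 0x2000020003800000000000000000000000000000000000000) := T_23 (nat_lit 173) (nat_lit 193) (nat_lit 3) (nat_lit 3) (nat_lit 10) L15809 (by decide +kernel)
theorem L15811 : W_23 (nat_lit 2) (nat_lit 0x10000000048003c001e001000080000000000000000000000000000000) (nat_lit 0x0) (nat_lit 0x200010000000000000000200000000000000000000000000000000000) := D_23 (nat_lit 208) (nat_lit 225) (nat_lit 141) (nat_lit 6) (nat_lit 4) (nat_lit 13) (nat_lit 6) (nat_lit 4) (nat_lit 12) (by decide +kernel)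
theorem L15812 : W_23 (nat_lit 3) (nat_lit 0x10000000048003c001a001000080000000000000000000000000000000) (nat_lit 0x0) (nat_lit 0x200010000000400004000200000000000000000000000000000000000) := T_23 (nat_lit 158) (nat_lit 178) (nat_lit 3) (nat_lit 4) (nat_lit 9) L15811 (by decide +kernel)
theorem L15813 : W_23 (nat_lit 4) (nat_lit 0x10000000048003c0018001000080000000000000000000000000000000) (nat_lit 0x0) (nat_lit 0x200010000000400007000200000000000000000000000000000000000) := T_23 (nat_lit 157) (nat_lit 156) (nat_lit 0) (nat_lit 7) (nat_lit 10) L15812 (by decide +kernel)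
theorem L15814 : W_23 (nat_lit 5) (nat_lit 0x10000000040003c0018001000080000000000000000000000000000000) (nat_lit 0x0) (nat_lit 0x200010000c00400007000200000000000000000000000000000000000) := T_23 (nat_lit 191) (nat_lit 190) (nat_lit 1) (nat_lit 7) (nat_lit 10) L15813 (by decide +kernel)
theorem L15815 : W_23 (nat_lit 6) (nat_lit 0x1000000004000380018001000080000000000000000000000000000000) (nat_lit 0x0) (nat_lit 0x200010000c00460007000200000000000000000000000000000000000) := T_23 (nat_lit 174) (nat_lit 173) (nat_lit 2) (nat_lit 3) (nat_lit 10) L15814 (by decide +kernel)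
theorem L15816 : W_23 (nat_lit 7) (nat_lit 0x1000000004000380008001000080000000000000000000000000000000) (nat_lit 0x0) (nat_lit 0x200010000c00460017000a00000000000000000000000000000000000) := T_23 (nat_lit 160) (nat_lit 143) (nat_lit 6) (nat_lit 7) (nat_lit 11) L15815 (by decide +kernel)
theorem L15817 : W_23 (nat_lit 8) (nat_lit 0x4000380008001000080000000000000000000000000000000) (nat_lit 0x0) (nat_lit 0x1200090000c00460017000a00000000000000000000000000000000000) := T_23 (nat_lit 228) (nat_lit 211) (nat_lit 4) (nat_lit 7) (nat_lit 13) L15816 (by decide +kernel)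
theorem L15818 : W_23 (nat_lit 2) (nat_lit 0x600070000c001000080000000000000000000000000000000) (nat_lit 0x0) (nat_lit 0x80003000000000000000000000000000000000000000) := D_23 (nat_lit 157) (nat_lit 156) (nat_lit 175) (nat_lit 3) (nat_lit 3) (nat_lit 9) (nat_lit 0) (nat_lit 8) (nat_lit 10) (by decide +kernel)
theorem L15819 : W_23 (nat_lit 3) (nat_lit 0x600030000c001000080000000000000000000000000000000) (nat_lit 0x0) (nat_lit 0xc80003000000000000000000000000000000000000000) := T_23 (nat_lit 178) (nat_lit 179) (nat_lit 0) (nat_lit 9) (nat_lit 10) L15818 (by decide +kernel)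
theorem L15820 : W_23 (nat_lit 2) (nat_lit 0x4000300010001400080000000000000000000000000000000) (nat_lit 0x0) (nat_lit 0x80000000000008000000020000000000000000000000000000000) := D_23 (nat_lit 159) (nat_lit 211) (nat_lit 125) (nat_lit 4) (nat_lit 7) (nat_lit 12) (nat_lit 7) (nat_lit 6) (nat_lit 7) (by decide +kernel)
theorem L15821 : W_23 (nat_lit 3) (nat_lit 0x4000300000001400080000000000000000000000000000000) (nat_lit 0x0) (nat_lit 0x80000000000018000800020000000000000000000000000000000) := T_23 (nat_lit 160) (nat_lit 143) (nat_lit 6) (nat_lit 7) (nat_lit 11) L15820 (by decide +kernel)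
theorem L15822 : W_23 (nat_lit 6) (nat_lit 0x4000300000001400080000000000000000000000000000000) (nat_lit 0x0) (nat_lit 0x17000b0011c000000000000000000000000000000) := T_23 (nat_lit 143) (nat_lit 160) (nat_lit 6) (nat_lit 7) (nat_lit 11) L14334 (by decide +kernel)
theorem L15823 : W_23 (nat_lit 3) (nat_lit 0x4000300000001400080000000000000000000000000000000) (nat_lit 0x0) (nat_lit 0x1000080002000000008000000020000000000000000000000000000000) := T_23 (nat_lit 159) (nat_lit 125) (nat_lit 7) (nat_lit 6) (nat_lit 7) L14839 (by decide +kernel)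
theorem L15824 : W_23 (nat_lit 7) (nat_lit 0x4000300000001000080000000000000000000000000000000) (nat_lit 0x0) (nat_lit 0x100008000200000001f000f0013c000000000000000000000000000000) := Q_23 (nat_lit 142) (C_23 L15821 (C_23 L15822 (C_23 L15823 N_23))) (by decide +kernel)
theorem L15825 : W_23 (nat_lit 2) (nat_lit 0x2c000f00008001000080000000000000000000000000000000) (nat_lit 0x0) (nat_lit 0x40003000000000000000000000000000000000000000000000) := D_23 (nat_lit 180) (nat_lit 198) (nat_lit 181) (nat_lit 3) (nat_lit 7) (nat_lit 10) (nat_lit 1) (nat_lit 11) (nat_lit 10) (by decide +kernel)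
theorem L15826 : W_23 (nat_lit 2) (nat_lit 0xc001f00008001000080000000000000000000000000000000) (nat_lit 0x0) (nat_lit 0x1c0000000000000000000000000000000000000000) := D_23 (nat_lit 163) (nat_lit 162) (nat_lit 164) (nat_lit 2) (nat_lit 6) (nat_lit 10) (nat_lit 2) (nat_lit 7) (nat_lit 10) (by decide +kernel)
theorem L15827 : W_23 (nat_lit 3) (nat_lit 0xc000f00008001000080000000000000000000000000000000) (nat_lit 0x0) (nat_lit 0x30001c0000000000000000000000000000000000000000) := T_23 (nat_lit 180) (nat_lit 181) (nat_lit 1) (nat_lit 11) (nat_lit 10) L15826 (by decide +kernel)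
theorem L15828 : W_23 (nat_lit 4) (nat_lit 0xc000f00000001000080000000000000000000000000000000) (nat_lit 0x0) (nat_lit 0x30001cc000000000000000000000000000000000000000) := T_23 (nat_lit 159) (nat_lit 158) (nat_lit 0) (nat_lit 9) (nat_lit 10) L15827 (by decide +kernel)
theorem L15829 : W_23 (nat_lit 2) (nat_lit 0x1780018000c000700000001000080000000000000000000000000000000) (nat_lit 0x0) (nat_lit 0x400600000000000000000000000000000000000000000000000000000) := D_23 (nat_lit 213) (nat_lit 214) (nat_lit 226) (nat_lit 2) (nat_lit 6) (nat_lit 13) (nat_lit 2) (nat_lit 5) (nat_lit 13) (by decide +kernel)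
theorem L15830 : W_23 (nat_lit 3) (nat_lit 0x1700018000c000700000001000080000000000000000000000000000000) (nat_lit 0x0) (nat_lit 0x10000c00600000000000000000000000000000000000000000000000000000) := T_23 (nat_lit 227) (nat_lit 244) (nat_lit 5) (nat_lit 7) (nat_lit 10) L15829 (by decide +kernel)
theorem L15831 : W_23 (nat_lit 4) (nat_lit 0x700018000c000700000001000080000000000000000000000000000000) (nat_lit 0x0) (nat_lit 0x10018c00600000000000000000000000000000000000000000000000000000) := T_23 (nat_lit 232) (nat_lit 231) (nat_lit 0) (nat_lit 11) (nat_lit 13) L15830 (by decide +kernel)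
theorem L15832 : W_23 (nat_lit 5) (nat_lit 0x300018000c000700000001000080000000000000000000000000000000) (nat_lit 0x0) (nat_lit 0x9001cc00600000000000000000000000000000000000000000000000000000) := T_23 (nat_lit 230) (nat_lit 247) (nat_lit 7) (nat_lit 8) (nat_lit 10) L15831 (by decide +kernel)
theorem L15833 : W_23 (nat_lit 6) (nat_lit 0x300010000c000700000001000080000000000000000000000000000000) (nat_lit 0x0) (nat_lit 0x9001cc00680000000000008000000000000000000000000000000000000000) := T_23 (nat_lit 211) (nat_lit 159) (nat_lit 4) (nat_lit 7) (nat_lit 13) L15832 (by decide +kernel)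
theorem L15834 : W_23 (nat_lit 7) (nat_lit 0x200010000c000700000001000080000000000000000000000000000000) (nat_lit 0x0) (nat_lit 0xb001dc00680000000000008000000000000000000000000000000000000000) := T_23 (nat_lit 228) (nat_lit 245) (nat_lit 5) (nat_lit 8) (nat_lit 10) L15833 (by decide +kernel)
theorem L15835 : W_23 (nat_lit 8) (nat_lit 0x10000c000700000001000080000000000000000000000000000000) (nat_lit 0x0) (nat_lit 0xf001fc00680000000000008000000000000000000000000000000000000000) := T_23 (nat_lit 229) (nat_lit 246) (nat_lit 4) (nat_lit 8) (nat_lit 14) L15834 (by decide +kernel)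
theorem L15836 : W_23 (nat_lit 2) (nat_lit 0x25000f80094001000080000000000000000000000000000000) (nat_lit 0x0) (nat_lit 0x40001000100000000000000000000000000000000000000000) := D_23 (nat_lit 180) (nat_lit 198) (nat_lit 164) (nat_lit 3) (nat_lit 7) (nat_lit 10) (nat_lit 2) (nat_lit 7) (nat_lit 10) (by decide +kernel)
theorem L15837 : W_23 (nat_lit 3) (nat_lit 0x25000f80014001000080000000000000000000000000000000) (nat_lit 0x0) (nat_lit 0x400010001c0000000000000000000000000000000000000000) := T_23 (nat_lit 163) (nat_lit 162) (nat_lit 2) (nat_lit 6) (nat_lit 10) L15836 (by decide +kernel)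
theorem L15838 : W_23 (nat_lit 4) (nat_lit 0x5000f80014001000080000000000000000000000000000000) (nat_lit 0x0) (nat_lit 0x700010001c0000000000000000000000000000000000000000) := T_23 (nat_lit 197) (nat_lit 196) (nat_lit 3) (nat_lit 6) (nat_lit 10) L15837 (by decide +kernel)
theorem L15839 : W_23 (nat_lit 5) (nat_lit 0x5000780014001000080000000000000000000000000000000) (nat_lit 0x0) (nat_lit 0x700018001c8000000000000000000000000000000000000000) := T_23 (nat_lit 179) (nat_lit 159) (nat_lit 0) (nat_lit 9) (nat_lit 10) L15838 (by decide +kernel)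
theorem L15840 : W_23 (nat_lit 6) (nat_lit 0x5000780010001000080000000000000000000000000000000) (nat_lit 0x0) (nat_lit 0x700018001ce000000000000000000000000000000000000000) := T_23 (nat_lit 158) (nat_lit 157) (nat_lit 0) (nat_lit 8) (nat_lit 10) L15839 (by decide +kernel)
theorem L15841 : W_23 (nat_lit 7) (nat_lit 0x4000780010001000080000000000000000000000000000000) (nat_lit 0x0) (nat_lit 0x718018001ce000000000000000000000000000000000000000) := T_23 (nat_lit 192) (nat_lit 191) (nat_lit 1) (nat_lit 8) (nat_lit 10) L15840 (by decide +kernel)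
theorem L15842 : W_23 (nat_lit 8) (nat_lit 0x4000780000001000080000000000000000000000000000000) (nat_lit 0x0) (nat_lit 0x718018001de000800000000000000000000000000000000000) := T_23 (nat_lit 160) (nat_lit 143) (nat_lit 6) (nat_lit 7) (nat_lit 11) L15841 (by decide +kernel)
theorem L15843 : W_23 (nat_lit 5) (nat_lit 0x5000780004001200080000000000000000000000000000000) (nat_lit 0x0) (nat_lit 0x18000000000000500078001000000000000000000000000000) := T_23 (nat_lit 195) (nat_lit 196) (nat_lit 3) (nat_lit 5) (nat_lit 10) L11063 (by decide +kernel)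
theorem L15844 : W_23 (nat_lit 6) (nat_lit 0x4000780004001200080000000000000000000000000000000) (nat_lit 0x0) (nat_lit 0x19800000000000500078001000000000000000000000000000) := T_23 (nat_lit 192) (nat_lit 191) (nat_lit 1) (nat_lit 8) (nat_lit 10) L15843 (by decide +kernel)
theorem L15845 : W_23 (nat_lit 7) (nat_lit 0x4000780000001200080000000000000000000000000000000) (nat_lit 0x0) (nat_lit 0x19800000006000500078001000000000000000000000000000) := T_23 (nat_lit 158) (nat_lit 157) (nat_lit 0) (nat_lit 8) (nat_lit 10) L15844 (by decide +kernel)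
theorem L15846 : W_23 (nat_lit 5) (nat_lit 0x200000000c000780014001200080000000000000000000000000000000) (nat_lit 0x0) (nat_lit 0x1800000000000500038001400000000000000000000000000) := T_23 (nat_lit 192) (nat_lit 191) (nat_lit 1) (nat_lit 8) (nat_lit 10) L15679 (by decide +kernel)
theorem L15847 : W_23 (nat_lit 6) (nat_lit 0x200000000c000780010001200080000000000000000000000000000000) (nat_lit 0x0) (nat_lit 0x1800000006000500038001400000000000000000000000000) := T_23 (nat_lit 158) (nat_lit 157) (nat_lit 0) (nat_lit 8) (nat_lit 10) L15846 (by decide +kernel)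
theorem L15848 : W_23 (nat_lit 7) (nat_lit 0xc000780010001200080000000000000000000000000000000) (nat_lit 0x0) (nat_lit 0x2000100001800000006000500038001400000000000000000000000000) := T_23 (nat_lit 229) (nat_lit 212) (nat_lit 4) (nat_lit 8) (nat_lit 13) L15847 (by decide +kernel)
theorem L15849 : W_23 (nat_lit 8) (nat_lit 0x4000780010001200080000000000000000000000000000000) (nat_lit 0x0) (nat_lit 0x2000100019800000006000500038001400000000000000000000000000) := T_23 (nat_lit 195) (nat_lit 196) (nat_lit 3) (nat_lit 5) (nat_lit 10) L15848 (by decide +kernel)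
theorem L15850 : W_23 (nat_lit 9) (nat_lit 0x4000780000001200080000000000000000000000000000000) (nat_lit 0x0) (nat_lit 0x2000100019800000016000d00038001400000000000000000000000000) := T_23 (nat_lit 160) (nat_lit 143) (nat_lit 6) (nat_lit 7) (nat_lit 11) L15849 (by decide +kernel)
theorem L15851 : W_23 (nat_lit 8) (nat_lit 0x5000780010001200080000000000000000000000000000000) (nat_lit 0x0) (nat_lit 0x2000100018000000006000400078001c00020000000000000000000000) := T_23 (nat_lit 195) (nat_lit 196) (nat_lit 3) (nat_lit 5) (nat_lit 10) L15701 (by decide +kernel)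
theorem L15852 : W_23 (nat_lit 9) (nat_lit 0x4000780010001200080000000000000000000000000000000) (nat_lit 0x0) (nat_lit 0x2000100019800000006000400078001c00020000000000000000000000) := T_23 (nat_lit 192) (nat_lit 191) (nat_lit 1) (nat_lit 8) (nat_lit 10) L15851 (by decide +kernel)
theorem L15853 : W_23 (nat_lit 10) (nat_lit 0x4000780000001200080000000000000000000000000000000) (nat_lit 0x0) (nat_lit 0x2000100019800000016000c00078001c00020000000000000000000000) := T_23 (nat_lit 160) (nat_lit 143) (nat_lit 6) (nat_lit 7) (nat_lit 11) L15852 (by decide +kernel)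
theorem L15854 : W_23 (nat_lit 2) (nat_lit 0x200000000d000780014001200098001000000000000000000000000000) (nat_lit 0x0) (nat_lit 0x8000000000000800080000000000000000000000) := D_23 (nat_lit 107) (nat_lit 159) (nat_lit 91) (nat_lit 7) (nat_lit 5) (nat_lit 6) (nat_lit 6) (nat_lit 5) (nat_lit 9) (by decide +kernel)
theorem L15855 : W_23 (nat_lit 3) (nat_lit 0x200000000d000780014001200098000000000000000000000000000000) (nat_lit 0x0) (nat_lit 0x8000000020001800080000000000000000000000) := T_23 (nat_lit 108) (nat_lit 125) (nat_lit 6) (nat_lit 5) (nat_lit 10) L15854 (by decide +kernel)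
theorem L15856 : W_23 (nat_lit 4) (nat_lit 0x200000000d000780014001200088000000000000000000000000000000) (nat_lit 0x0) (nat_lit 0x8000000030001c00080000000000000000000000) := T_23 (nat_lit 124) (nat_lit 106) (nat_lit 4) (nat_lit 5) (nat_lit 10) L15855 (by decide +kernel)
theorem L15857 : W_23 (nat_lit 5) (nat_lit 0x200000000d000780014001200080000000000000000000000000000000) (nat_lit 0x0) (nat_lit 0x8000100038001c00080000000000000000000000) := T_23 (nat_lit 123) (nat_lit 140) (nat_lit 4) (nat_lit 5) (nat_lit 11) L15856 (by decide +kernel)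
theorem L15858 : W_23 (nat_lit 6) (nat_lit 0x200000000d000780010001200080000000000000000000000000000000) (nat_lit 0x0) (nat_lit 0xe000100038001c00080000000000000000000000) := T_23 (nat_lit 158) (nat_lit 157) (nat_lit 0) (nat_lit 8) (nat_lit 10) L15857 (by decide +kernel)
theorem L15859 : W_23 (nat_lit 7) (nat_lit 0x200000000c000780010001200080000000000000000000000000000000) (nat_lit 0x0) (nat_lit 0x180000000e000100038001c00080000000000000000000000) := T_23 (nat_lit 192) (nat_lit 191) (nat_lit 1) (nat_lit 8) (nat_lit 10) L15858 (by decide +kernel)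
theorem L15860 : W_23 (nat_lit 8) (nat_lit 0xc000780010001200080000000000000000000000000000000) (nat_lit 0x0) (nat_lit 0x200010000180000000e000100038001c00080000000000000000000000) := T_23 (nat_lit 229) (nat_lit 212) (nat_lit 4) (nat_lit 8) (nat_lit 13) L15859 (by decide +kernel)
theorem L15861 : W_23 (nat_lit 9) (nat_lit 0xc000780000001200080000000000000000000000000000000) (nat_lit 0x0) (nat_lit 0x200010000180000001e000900038001c00080000000000000000000000) := T_23 (nat_lit 160) (nat_lit 143) (nat_lit 6) (nat_lit 7) (nat_lit 11) L15860 (by decide +kernel)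
theorem L15862 : W_23 (nat_lit 10) (nat_lit 0x4000780000001200080000000000000000000000000000000) (nat_lit 0x0) (nat_lit 0x200010001980000001e000900038001c00080000000000000000000000) := T_23 (nat_lit 195) (nat_lit 196) (nat_lit 3) (nat_lit 5) (nat_lit 10) L15861 (by decide +kernel)
theorem L15863 : W_23 (nat_lit 2) (nat_lit 0x200000000d000780014001600080000000000000000000000000000000) (nat_lit 0x0) (nat_lit 0xa0000000000008000000000000000000000000000000000000000) := D_23 (nat_lit 159) (nat_lit 209) (nat_lit 211) (nat_lit 6) (nat_lit 5) (nat_lit 12) (nat_lit 4) (nat_lit 7) (nat_lit 12) (by decide +kernel)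
theorem L15864 : W_23 (nat_lit 3) (nat_lit 0x200000000d000780014001200080000000000000000000000000000000) (nat_lit 0x0) (nat_lit 0xa0000000000008000400020000000000000000000000000000000) := T_23 (nat_lit 142) (nat_lit 125) (nat_lit 6) (nat_lit 5) (nat_lit 11) L15863 (by decide +kernel)
theorem L15865 : W_23 (nat_lit 4) (nat_lit 0x200000000c000780014001200080000000000000000000000000000000) (nat_lit 0x0) (nat_lit 0xa0001800000008000400020000000000000000000000000000000) := T_23 (nat_lit 192) (nat_lit 191) (nat_lit 1) (nat_lit 8) (nat_lit 10) L15864 (by decide +kernel)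
theorem L15866 : W_23 (nat_lit 5) (nat_lit 0xc000780014001200080000000000000000000000000000000) (nat_lit 0x0) (nat_lit 0x20001a0001800000008000400020000000000000000000000000000000) := T_23 (nat_lit 229) (nat_lit 212) (nat_lit 4) (nat_lit 8) (nat_lit 13) L15865 (by decide +kernel)
theorem L15867 : W_23 (nat_lit 6) (nat_lit 0xc000780004001200080000000000000000000000000000000) (nat_lit 0x0) (nat_lit 0x20001a0001800000018000c00020000000000000000000000000000000) := T_23 (nat_lit 160) (nat_lit 143) (nat_lit 6) (nat_lit 7) (nat_lit 11) L15866 (by decide +kernel)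
theorem L15868 : W_23 (nat_lit 7) (nat_lit 0x4000780004001200080000000000000000000000000000000) (nat_lit 0x0) (nat_lit 0x20001a0019800000018000c00020000000000000000000000000000000) := T_23 (nat_lit 195) (nat_lit 196) (nat_lit 3) (nat_lit 5) (nat_lit 10) L15867 (by decide +kernel)
theorem L15869 : W_23 (nat_lit 8) (nat_lit 0x4000780000001200080000000000000000000000000000000) (nat_lit 0x0) (nat_lit 0x20001a001980000001e000c00020000000000000000000000000000000) := T_23 (nat_lit 158) (nat_lit 157) (nat_lit 0) (nat_lit 8) (nat_lit 10) L15868 (by decide +kernel)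
theorem L15870 : W_23 (nat_lit 11) (nat_lit 0x4000780000001000080000000000000000000000000000000) (nat_lit 0x0) (nat_lit 0x20001a001980000001e000f0017c001c000a0000000000000000000000) := Q_23 (nat_lit 141) (C_23 L15845 (C_23 L12960 (C_23 L15850 (C_23 L12955 (C_23 L15853 (C_23 L15862 (C_23 L15869 N_23))))))) (by decide +kernel)
theorem L15876 : W_23 (nat_lit 7) (nat_lit 0x5000780004001000080000000000000000000000000000000) (nat_lit 0x0) (nat_lit 0xe80038001d8000800000000000000000000000000000000000) := T_23 (nat_lit 160) (nat_lit 143) (nat_lit 6) (nat_lit 7) (nat_lit 11) L15875 (by decide +kernel)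
theorem L15877 : W_23 (nat_lit 8) (nat_lit 0x5000780000001000080000000000000000000000000000000) (nat_lit 0x0) (nat_lit 0xe80038001de000800000000000000000000000000000000000) := T_23 (nat_lit 158) (nat_lit 157) (nat_lit 0) (nat_lit 8) (nat_lit 10) L15876 (by decide +kernel)
theorem L15878 : W_23 (nat_lit 9) (nat_lit 0x4000780000001000080000000000000000000000000000000) (nat_lit 0x0) (nat_lit 0xe98038001de000800000000000000000000000000000000000) := T_23 (nat_lit 192) (nat_lit 191) (nat_lit 1) (nat_lit 8) (nat_lit 10) L15877 (by decide +kernel)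
theorem L15879 : W_23 (nat_lit 2) (nat_lit 0x15000f80058001000080000000000000000000000000000000) (nat_lit 0x0) (nat_lit 0x1000080000000000000000400000000000000000000000000000000000) := D_23 (nat_lit 211) (nat_lit 142) (nat_lit 228) (nat_lit 4) (nat_lit 7) (nat_lit 12) (nat_lit 4) (nat_lit 7) (nat_lit 13) (by decide +kernel)
theorem L15880 : W_23 (nat_lit 3) (nat_lit 0x15000f80050001000080000000000000000000000000000000) (nat_lit 0x0) (nat_lit 0x1000080000001000008000400000000000000000000000000000000000) := T_23 (nat_lit 159) (nat_lit 180) (nat_lit 0) (nat_lit 10) (nat_lit 10) L15879 (by decide +kernel)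
theorem L15881 : W_23 (nat_lit 4) (nat_lit 0x15000f80040001000080000000000000000000000000000000) (nat_lit 0x0) (nat_lit 0x1000080000001000018000c00000000000000000000000000000000000) := T_23 (nat_lit 160) (nat_lit 143) (nat_lit 6) (nat_lit 7) (nat_lit 11) L15880 (by decide +kernel)
theorem L15882 : W_23 (nat_lit 5) (nat_lit 0x15000f80000001000080000000000000000000000000000000) (nat_lit 0x0) (nat_lit 0x10000800000010000d8000c00000000000000000000000000000000000) := T_23 (nat_lit 162) (nat_lit 163) (nat_lit 2) (nat_lit 6) (nat_lit 10) L15881 (by decide +kernel)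
theorem L15883 : W_23 (nat_lit 6) (nat_lit 0x15000780000001000080000000000000000000000000000000) (nat_lit 0x0) (nat_lit 0x10000800200018000d8000c00000000000000000000000000000000000) := T_23 (nat_lit 179) (nat_lit 197) (nat_lit 3) (nat_lit 6) (nat_lit 10) L15882 (by decide +kernel)
theorem L15884 : W_23 (nat_lit 7) (nat_lit 0x14000780000001000080000000000000000000000000000000) (nat_lit 0x0) (nat_lit 0x10000800218018000d8000c00000000000000000000000000000000000) := T_23 (nat_lit 192) (nat_lit 191) (nat_lit 1) (nat_lit 8) (nat_lit 10) L15883 (by decide +kernel)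
theorem L15885 : W_23 (nat_lit 8) (nat_lit 0x4000780000001000080000000000000000000000000000000) (nat_lit 0x0) (nat_lit 0x10000800398018000d8000c00000000000000000000000000000000000) := T_23 (nat_lit 196) (nat_lit 195) (nat_lit 3) (nat_lit 5) (nat_lit 10) L15884 (by decide +kernel)
theorem L15886 : W_23 (nat_lit 12) (nat_lit 0x4000380000001000080000000000000000000000000000000) (nat_lit 0x0) (nat_lit 0x30001a00f9803c001de004f0077c001c000a0000000000000000000000) := Q_23 (nat_lit 178) (C_23 L14789 (C_23 L15842 (C_23 L12982 (C_23 L15870 (C_23 L15878 (C_23 L15885 N_23)))))) (by decide +kernel)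
theorem L15887 : W_23 (nat_lit 13) (nat_lit 0x4000300000001000080000000000000000000000000000000) (nat_lit 0x0) (nat_lit 0x34001a00f9e03cf01dfc04f0077c001c000a0000000000000000000000) := Q_23 (nat_lit 175) (C_23 L14148 (C_23 L14147 (C_23 L14141 (C_23 L15886 N_23)))) (by decide +kernel)
theorem L15888 : W_23 (nat_lit 2) (nat_lit 0xe000f00008001800080000000000000000000000000000000) (nat_lit 0x0) (nat_lit 0x400060000000000000000000000000000000) := D_23 (nat_lit 142) (nat_lit 126) (nat_lit 125) (nat_lit 6) (nat_lit 6) (nat_lit 11) (nat_lit 7) (nat_lit 6) (nat_lit 7) (by decide +kernel)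
theorem L15889 : W_23 (nat_lit 3) (nat_lit 0xe000f00000001800080000000000000000000000000000000) (nat_lit 0x0) (nat_lit 0xc000400060000000000000000000000000000000) := T_23 (nat_lit 159) (nat_lit 158) (nat_lit 0) (nat_lit 9) (nat_lit 10) L15888 (by decide +kernel)
theorem L15890 : W_23 (nat_lit 2) (nat_lit 0x2e000300000001f00080000000000000000000000000000000) (nat_lit 0x0) (nat_lit 0x7000000000000000000000000000000000000000) := D_23 (nat_lit 157) (nat_lit 156) (nat_lit 158) (nat_lit 1) (nat_lit 7) (nat_lit 8) (nat_lit 1) (nat_lit 8) (nat_lit 8) (by decide +kernel)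
theorem L15891 : W_23 (nat_lit 3) (nat_lit 0x2e000300000001e00080000000000000000000000000000000) (nat_lit 0x0) (nat_lit 0x7000100040000000000000000000000000000000) := T_23 (nat_lit 140) (nat_lit 126) (nat_lit 2) (nat_lit 4) (nat_lit 8) L15890 (by decide +kernel)
theorem L15892 : W_23 (nat_lit 4) (nat_lit 0x2e000300000001c00080000000000000000000000000000000) (nat_lit 0x0) (nat_lit 0x7000300140000000000000000000000000000000) := T_23 (nat_lit 141) (nat_lit 128) (nat_lit 2) (nat_lit 5) (nat_lit 8) L15891 (by decide +kernel)
theorem L15893 : W_23 (nat_lit 5) (nat_lit 0x2e000300000001400080000000000000000000000000000000) (nat_lit 0x0) (nat_lit 0x17000b00140000000000000000000000000000000) := T_23 (nat_lit 143) (nat_lit 160) (nat_lit 6) (nat_lit 7) (nat_lit 11) L15892 (by decide +kernel)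
theorem L15894 : W_23 (nat_lit 6) (nat_lit 0xe000300000001400080000000000000000000000000000000) (nat_lit 0x0) (nat_lit 0x30000000017000b00140000000000000000000000000000000) := T_23 (nat_lit 197) (nat_lit 196) (nat_lit 0) (nat_lit 10) (nat_lit 11) L15893 (by decide +kernel)
theorem L15895 : W_23 (nat_lit 2) (nat_lit 0x200020001e000f00058001680080000000000000000000000000000000) (nat_lit 0x0) (nat_lit 0xc0004000000000000000000000000000000000000000000000000000000000) := D_23 (nat_lit 230) (nat_lit 246) (nat_lit 247) (nat_lit 5) (nat_lit 9) (nat_lit 10) (nat_lit 4) (nat_lit 9) (nat_lit 14) (by decide +kernel)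
theorem L15896 : W_23 (nat_lit 3) (nat_lit 0x20001e000f00058001680080000000000000000000000000000000) (nat_lit 0x0) (nat_lit 0xc0006000100000000000000000000000000000000000000000000000000000) := T_23 (nat_lit 229) (nat_lit 212) (nat_lit 6) (nat_lit 8) (nat_lit 13) L15895 (by decide +kernel)
theorem L15897 : W_23 (nat_lit 4) (nat_lit 0x20001e000f00018001680080000000000000000000000000000000) (nat_lit 0x0) (nat_lit 0xc00060001000000000000c0000000000000000000000000000000000000000) := T_23 (nat_lit 162) (nat_lit 163) (nat_lit 2) (nat_lit 6) (nat_lit 10) L15896 (by decide +kernel)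
theorem L15898 : W_23 (nat_lit 5) (nat_lit 0x20001e000b00018001680080000000000000000000000000000000) (nat_lit 0x0) (nat_lit 0xc00060001000000004000c4000000000000000000000000000000000000000) := T_23 (nat_lit 178) (nat_lit 158) (nat_lit 0) (nat_lit 9) (nat_lit 10) L15897 (by decide +kernel)
theorem L15899 : W_23 (nat_lit 6) (nat_lit 0x20001e000300018001680080000000000000000000000000000000) (nat_lit 0x0) (nat_lit 0xc0006000100000001c000c4000000000000000000000000000000000000000) := T_23 (nat_lit 179) (nat_lit 180) (nat_lit 2) (nat_lit 6) (nat_lit 11) L15898 (by decide +kernel)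
theorem L15900 : W_23 (nat_lit 7) (nat_lit 0x1e000300018001680080000000000000000000000000000000) (nat_lit 0x0) (nat_lit 0xc0006000700000001c000c4000000000000000000000000000000000000000) := T_23 (nat_lit 213) (nat_lit 214) (nat_lit 3) (nat_lit 6) (nat_lit 11) L15899 (by decide +kernel)
theorem L15901 : W_23 (nat_lit 8) (nat_lit 0x1e000300018001600080000000000000000000000000000000) (nat_lit 0x0) (nat_lit 0xc0006000700000001c000c4000180000000000000000000000000000000000) := T_23 (nat_lit 139) (nat_lit 140) (nat_lit 3) (nat_lit 3) (nat_lit 8) L15900 (by decide +kernel)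
theorem L15902 : W_23 (nat_lit 9) (nat_lit 0x1e000300018001400080000000000000000000000000000000) (nat_lit 0x0) (nat_lit 0xc0006000700000001c000c4000380010000000000000000000000000000000) := T_23 (nat_lit 141) (nat_lit 124) (nat_lit 4) (nat_lit 6) (nat_lit 11) L15901 (by decide +kernel)
theorem L15903 : W_23 (nat_lit 10) (nat_lit 0xe000300018001400080000000000000000000000000000000) (nat_lit 0x0) (nat_lit 0xc0006000700030001c000c4000380010000000000000000000000000000000) := T_23 (nat_lit 196) (nat_lit 197) (nat_lit 0) (nat_lit 10) (nat_lit 11) L15902 (by decide +kernel)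
theorem L15904 : W_23 (nat_lit 11) (nat_lit 0xe000300010001400080000000000000000000000000000000) (nat_lit 0x0) (nat_lit 0xc0006000700030001c000cc000380030000000000000000000000000000000) := T_23 (nat_lit 159) (nat_lit 125) (nat_lit 7) (nat_lit 6) (nat_lit 7) L15903 (by decide +kernel)
theorem L15905 : W_23 (nat_lit 12) (nat_lit 0xe000300000001400080000000000000000000000000000000) (nat_lit 0x0) (nat_lit 0xc0006000700030001c000dc000b80030000000000000000000000000000000) := T_23 (nat_lit 160) (nat_lit 143) (nat_lit 6) (nat_lit 7) (nat_lit 11) L15904 (by decide +kernel)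
theorem L15906 : W_23 (nat_lit 2) (nat_lit 0x400020001e000f00048001600080000000000000000000000000000000) (nat_lit 0x0) (nat_lit 0x40002000100000000000000000000000000000000000000000000000000000) := D_23 (nat_lit 229) (nat_lit 212) (nat_lit 246) (nat_lit 6) (nat_lit 8) (nat_lit 13) (nat_lit 5) (nat_lit 9) (nat_lit 10) (by decide +kernel)
theorem L15907 : W_23 (nat_lit 3) (nat_lit 0x20001e000f00048001600080000000000000000000000000000000) (nat_lit 0x0) (nat_lit 0xc0006000100000000000000000000000000000000000000000000000000000) := T_23 (nat_lit 230) (nat_lit 247) (nat_lit 4) (nat_lit 9) (nat_lit 14) L15906 (by decide +kernel)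
theorem L15908 : W_23 (nat_lit 4) (nat_lit 0x20001e000f00008001600080000000000000000000000000000000) (nat_lit 0x0) (nat_lit 0xc00060001000000000000c0000000000000000000000000000000000000000) := T_23 (nat_lit 162) (nat_lit 163) (nat_lit 2) (nat_lit 6) (nat_lit 10) L15907 (by decide +kernel)
theorem L15909 : W_23 (nat_lit 5) (nat_lit 0x20001e000b00008001600080000000000000000000000000000000) (nat_lit 0x0) (nat_lit 0xc00060001000000004000c4000000000000000000000000000000000000000) := T_23 (nat_lit 178) (nat_lit 158) (nat_lit 0) (nat_lit 9) (nat_lit 10) L15908 (by decide +kernel)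
theorem L15910 : W_23 (nat_lit 6) (nat_lit 0x20001e000300008001600080000000000000000000000000000000) (nat_lit 0x0) (nat_lit 0xc0006000100000001c000c4000000000000000000000000000000000000000) := T_23 (nat_lit 179) (nat_lit 180) (nat_lit 2) (nat_lit 6) (nat_lit 11) L15909 (by decide +kernel)
theorem L15911 : W_23 (nat_lit 7) (nat_lit 0x20001e000300008001400080000000000000000000000000000000) (nat_lit 0x0) (nat_lit 0xc0006000100000001c000c4000200010000000000000000000000000000000) := T_23 (nat_lit 141) (nat_lit 124) (nat_lit 4) (nat_lit 6) (nat_lit 11) L15910 (by decide +kernel)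
theorem L15912 : W_23 (nat_lit 8) (nat_lit 0x1e000300008001400080000000000000000000000000000000) (nat_lit 0x0) (nat_lit 0xc0006000700000001c000c4000200010000000000000000000000000000000) := T_23 (nat_lit 213) (nat_lit 214) (nat_lit 3) (nat_lit 6) (nat_lit 11) L15911 (by decide +kernel)
theorem L15913 : W_23 (nat_lit 9) (nat_lit 0x1e000300000001400080000000000000000000000000000000) (nat_lit 0x0) (nat_lit 0xc0006000700000001c000cc000200030000000000000000000000000000000) := T_23 (nat_lit 159) (nat_lit 125) (nat_lit 7) (nat_lit 6) (nat_lit 7) L15912 (by decide +kernel)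
theorem L15914 : W_23 (nat_lit 10) (nat_lit 0xe000300000001400080000000000000000000000000000000) (nat_lit 0x0) (nat_lit 0xc0006000700030001c000cc000200030000000000000000000000000000000) := T_23 (nat_lit 196) (nat_lit 197) (nat_lit 0) (nat_lit 10) (nat_lit 11) L15913 (by decide +kernel)
theorem L15915 : W_23 (nat_lit 2) (nat_lit 0xe000300000001c00080000000000000000000000000000000) (nat_lit 0x0) (nat_lit 0x8000000060000000000000000000000000000000) := D_23 (nat_lit 159) (nat_lit 125) (nat_lit 126) (nat_lit 7) (nat_lit 6) (nat_lit 7) (nat_lit 6) (nat_lit 6) (nat_lit 11) (by decide +kernel)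
theorem L15916 : W_23 (nat_lit 3) (nat_lit 0xe000300000001400080000000000000000000000000000000) (nat_lit 0x0) (nat_lit 0x18000800060000000000000000000000000000000) := T_23 (nat_lit 143) (nat_lit 160) (nat_lit 6) (nat_lit 7) (nat_lit 11) L15915 (by decide +kernel)
theorem L15917 : W_23 (nat_lit 13) (nat_lit 0xe000300000001000080000000000000000000000000000000) (nat_lit 0x0) (nat_lit 0xc0006000700030001c000df000f80170000000000000000000000000000000) := Q_23 (nat_lit 142) (C_23 L15894 (C_23 L15905 (C_23 L15914 (C_23 L15916 N_23)))) (by decide +kernel)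
theorem L15918 : W_23 (nat_lit 2) (nat_lit 0xf800300010001000080000000000000000000000000000000) (nat_lit 0x0) (nat_lit 0x38000000000000000000000000000000000000000000000000000) := D_23 (nat_lit 208) (nat_lit 209) (nat_lit 207) (nat_lit 1) (nat_lit 8) (nat_lit 11) (nat_lit 1) (nat_lit 7) (nat_lit 11) (by decide +kernel)
theorem L15919 : W_23 (nat_lit 3) (nat_lit 0xf000300010001000080000000000000000000000000000000) (nat_lit 0x0) (nat_lit 0x38000c00000000000000000000000000000000000000000000000) := T_23 (nat_lit 191) (nat_lit 190) (nat_lit 2) (nat_lit 3) (nat_lit 11) L15918 (by decide +kernel)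
theorem L15920 : W_23 (nat_lit 4) (nat_lit 0xf000300000001000080000000000000000000000000000000) (nat_lit 0x0) (nat_lit 0x38000c00000010000800000000000000000000000000000000000) := T_23 (nat_lit 160) (nat_lit 143) (nat_lit 6) (nat_lit 7) (nat_lit 11) L15919 (by decide +kernel)
theorem L15921 : W_23 (nat_lit 5) (nat_lit 0xe000300000001000080000000000000000000000000000000) (nat_lit 0x0) (nat_lit 0x2000338001c00c00010000800000000000000000000000000000000000) := Q_23 (nat_lit 192) (C_23 L11732 (C_23 L11585 (C_23 L15920 N_23))) (by decide +kernel)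
theorem L15922 : W_23 (nat_lit 14) (nat_lit 0xc000300000001000080000000000000000000000000000000) (nat_lit 0x0) (nat_lit 0xc0006000738033c01c000df000f80170000000000000000000000000000000) := Q_23 (nat_lit 193) (C_23 L15642 (C_23 L15638 (C_23 L15647 (C_23 L15917 (C_23 L15921 N_23))))) (by decide +kernel)
theorem L15923 : W_23 (nat_lit 15) (nat_lit 0x4000300000001000080000000000000000000000000000000) (nat_lit 0x0) (nat_lit 0xc000600073803bc03ce01df000f8017c000000000000000000000000000000) := Q_23 (nat_lit 195) (C_23 L15922 (C_23 L14831 (C_23 L15328 (C_23 L12025 N_23)))) (by decide +kernel)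
theorem L15924 : W_23 (nat_lit 8) (nat_lit 0x4000700008001000080000000000000000000000000000000) (nat_lit 0x0) (nat_lit 0x16000b001bc000f0006000000000000000000000000000000000000000) := Q_23 (nat_lit 175) (C_23 L15806 (C_23 L15505 (C_23 L15146 N_23))) (by decide +kernel)
theorem L15926 : W_23 (nat_lit 3) (nat_lit 0x1000000004000f00008001000080000000000000000000000000000000) (nat_lit 0x0) (nat_lit 0x70001000010000000000000000000000000000000000000000) := T_23 (nat_lit 180) (nat_lit 160) (nat_lit 0) (nat_lit 10) (nat_lit 10) L15925 (by decide +kernel)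
theorem L15927 : W_23 (nat_lit 4) (nat_lit 0x1000000004000700008001000080000000000000000000000000000000) (nat_lit 0x0) (nat_lit 0x70001800014000000000000000000000000000000000000000) := T_23 (nat_lit 179) (nat_lit 158) (nat_lit 0) (nat_lit 9) (nat_lit 10) L15926 (by decide +kernel)
theorem L15928 : W_23 (nat_lit 5) (nat_lit 0x4000700008001000080000000000000000000000000000000) (nat_lit 0x0) (nat_lit 0x1000080070001800014000000000000000000000000000000000000000) := T_23 (nat_lit 228) (nat_lit 211) (nat_lit 4) (nat_lit 7) (nat_lit 13) L15927 (by decide +kernel)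
theorem L15929 : W_23 (nat_lit 4) (nat_lit 0x4000f00008001000080000000000000000000000000000000) (nat_lit 0x0) (nat_lit 0x1000080070001000010000000000000000000000000000000000000000) := T_23 (nat_lit 228) (nat_lit 211) (nat_lit 4) (nat_lit 7) (nat_lit 13) L15926 (by decide +kernel)
theorem L15930 : W_23 (nat_lit 2) (nat_lit 0x1000000014000f80048001000080000000000000000000000000000000) (nat_lit 0x0) (nat_lit 0x3800000000000000000000000000000000000000000000000) := D_23 (nat_lit 192) (nat_lit 191) (nat_lit 193) (nat_lit 1) (nat_lit 8) (nat_lit 10) (nat_lit 1) (nat_lit 9) (nat_lit 10) (by decide +kernel)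
theorem L15931 : W_23 (nat_lit 3) (nat_lit 0x1000000014000f00048001000080000000000000000000000000000000) (nat_lit 0x0) (nat_lit 0xb800080000000000000000000000000000000000000000000) := T_23 (nat_lit 175) (nat_lit 195) (nat_lit 3) (nat_lit 5) (nat_lit 10) L15930 (by decide +kernel)
theorem L15932 : W_23 (nat_lit 4) (nat_lit 0x1000000004000f00048001000080000000000000000000000000000000) (nat_lit 0x0) (nat_lit 0x3b800080000000000000000000000000000000000000000000) := T_23 (nat_lit 196) (nat_lit 197) (nat_lit 3) (nat_lit 6) (nat_lit 10) L15931 (by decide +kernel)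
theorem L15933 : W_23 (nat_lit 5) (nat_lit 0x4000f00048001000080000000000000000000000000000000) (nat_lit 0x0) (nat_lit 0x100008003b800080000000000000000000000000000000000000000000) := T_23 (nat_lit 228) (nat_lit 211) (nat_lit 4) (nat_lit 7) (nat_lit 13) L15932 (by decide +kernel)
theorem L15934 : W_23 (nat_lit 6) (nat_lit 0x4000f00008001000080000000000000000000000000000000) (nat_lit 0x0) (nat_lit 0x100008003b8000800c0000000000000000000000000000000000000000) := T_23 (nat_lit 162) (nat_lit 163) (nat_lit 2) (nat_lit 6) (nat_lit 10) L15933 (by decide +kernel)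
theorem L15935 : W_23 (nat_lit 7) (nat_lit 0x4000700008001000080000000000000000000000000000000) (nat_lit 0x0) (nat_lit 0x100008007b8018800d0000000000000000000000000000000000000000) := Q_23 (nat_lit 179) (C_23 L15807 (C_23 L15929 (C_23 L15934 N_23))) (by decide +kernel)
theorem L15936 : W_23 (nat_lit 9) (nat_lit 0x4000300008001000080000000000000000000000000000000) (nat_lit 0x0) (nat_lit 0x16000b007bc01cf00d6000000000000000000000000000000000000000) := Q_23 (nat_lit 178) (C_23 L15924 (C_23 L15511 (C_23 L15928 (C_23 L15508 (C_23 L15935 N_23))))) (by decide +kernel)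
theorem L15937 : W_23 (nat_lit 7) (nat_lit 0x4000380008001000080000000000000000000000000000000) (nat_lit 0x0) (nat_lit 0x10002c00460017800600030000000000000000000000000000000) := Q_23 (nat_lit 174) (C_23 L15810 (C_23 L14910 (C_23 L15808 N_23))) (by decide +kernel)
theorem L15941 : W_23 (nat_lit 5) (nat_lit 0x50007800080010000a0000000000000000000000000000000) (nat_lit 0x0) (nat_lit 0x60003001a000000006000000000000000000000000000000000000000) := T_23 (nat_lit 195) (nat_lit 196) (nat_lit 3) (nat_lit 5) (nat_lit 10) L15940 (by decide +kernel)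
theorem L15942 : W_23 (nat_lit 6) (nat_lit 0x40007800080010000a0000000000000000000000000000000) (nat_lit 0x0) (nat_lit 0x60003001b800000006000000000000000000000000000000000000000) := T_23 (nat_lit 192) (nat_lit 191) (nat_lit 1) (nat_lit 8) (nat_lit 10) L15941 (by decide +kernel)
theorem L15943 : W_23 (nat_lit 7) (nat_lit 0x4000780008001000080000000000000000000000000000000) (nat_lit 0x0) (nat_lit 0x60003001b800000006000400020000000000000000000000000000000) := T_23 (nat_lit 125) (nat_lit 142) (nat_lit 7) (nat_lit 6) (nat_lit 7) L15942 (by decide +kernel)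
theorem L15944 : W_23 (nat_lit 2) (nat_lit 0xd000f800080010000a0000000000000000000000000000000) (nat_lit 0x0) (nat_lit 0x3000010000000000000000000000000000000000000000) := D_23 (nat_lit 180) (nat_lit 160) (nat_lit 181) (nat_lit 0) (nat_lit 10) (nat_lit 10) (nat_lit 1) (nat_lit 11) (nat_lit 10) (by decide +kernel)
theorem L15945 : W_23 (nat_lit 3) (nat_lit 0xd0007800080010000a0000000000000000000000000000000) (nat_lit 0x0) (nat_lit 0x2003800010000000000000000000000000000000000000000) := T_23 (nat_lit 179) (nat_lit 193) (nat_lit 2) (nat_lit 5) (nat_lit 11) L15944 (by decide +kernel)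
theorem L15946 : W_23 (nat_lit 4) (nat_lit 0xc0007800080010000a0000000000000000000000000000000) (nat_lit 0x0) (nat_lit 0x3803800010000000000000000000000000000000000000000) := T_23 (nat_lit 192) (nat_lit 191) (nat_lit 1) (nat_lit 8) (nat_lit 10) L15945 (by decide +kernel)
theorem L15947 : W_23 (nat_lit 5) (nat_lit 0x40007800080010000a0000000000000000000000000000000) (nat_lit 0x0) (nat_lit 0x1b803800010000000000000000000000000000000000000000) := T_23 (nat_lit 195) (nat_lit 196) (nat_lit 3) (nat_lit 5) (nat_lit 10) L15946 (by decide +kernel)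
theorem L15948 : W_23 (nat_lit 6) (nat_lit 0x4000780008001000080000000000000000000000000000000) (nat_lit 0x0) (nat_lit 0x1b803800010000400020000000000000000000000000000000) := T_23 (nat_lit 125) (nat_lit 142) (nat_lit 7) (nat_lit 6) (nat_lit 7) L15947 (by decide +kernel)
theorem L15949 : W_23 (nat_lit 8) (nat_lit 0x4000380008001000080000000000000000000000000000000) (nat_lit 0x0) (nat_lit 0x60003001b803c00016000400020000000000000000000000000000000) := Q_23 (nat_lit 178) (C_23 L15140 (C_23 L15943 (C_23 L15948 N_23))) (by decide +kernel)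
theorem L15950 : W_23 (nat_lit 2) (nat_lit 0x40003c00080010000a0000000000000000000000000000000) (nat_lit 0x0) (nat_lit 0x2000020010000000000000000000000000000000000000000) := D_23 (nat_lit 173) (nat_lit 193) (nat_lit 160) (nat_lit 3) (nat_lit 3) (nat_lit 10) (nat_lit 2) (nat_lit 3) (nat_lit 10) (by decide +kernel)
theorem L15951 : W_23 (nat_lit 3) (nat_lit 0x40003800080010000a0000000000000000000000000000000) (nat_lit 0x0) (nat_lit 0xa000060010000000000000000000000000000000000000000) := T_23 (nat_lit 174) (nat_lit 195) (nat_lit 3) (nat_lit 4) (nat_lit 10) L15950 (by decide +kernel)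
theorem L15952 : W_23 (nat_lit 4) (nat_lit 0x4000380008001000080000000000000000000000000000000) (nat_lit 0x0) (nat_lit 0xa000060010000400020000000000000000000000000000000) := T_23 (nat_lit 125) (nat_lit 142) (nat_lit 7) (nat_lit 6) (nat_lit 7) L15951 (by decide +kernel)
theorem L15953 : W_23 (nat_lit 9) (nat_lit 0x4000300008001000080000000000000000000000000000000) (nat_lit 0x0) (nat_lit 0x60003001bf03cf0017800600030000000000000000000000000000000) := Q_23 (nat_lit 175) (C_23 L15758 (C_23 L15937 (C_23 L14938 (C_23 L15949 (C_23 L15952 N_23))))) (by decide +kernel)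
theorem L15954 : W_23 (nat_lit 10) (nat_lit 0x4000300000001000080000000000000000000000000000000) (nat_lit 0x0) (nat_lit 0x16000b007bf03cf00df800600030000000000000000000000000000000) := Q_23 (nat_lit 159) (C_23 L14840 (C_23 L15936 (C_23 L14838 (C_23 L15953 N_23)))) (by decide +kernel)
theorem L15955 : W_23 (nat_lit 2) (nat_lit 0x1780018000d000780000001000080000000000000000000000000000000) (nat_lit 0x0) (nat_lit 0x400600000000000000000000000000000000000000000000000000000) := D_23 (nat_lit 213) (nat_lit 214) (nat_lit 226) (nat_lit 2) (nat_lit 6) (nat_lit 13) (nat_lit 2) (nat_lit 5) (nat_lit 13) (by decide +kernel)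
theorem L15956 : W_23 (nat_lit 3) (nat_lit 0x1700018000d000780000001000080000000000000000000000000000000) (nat_lit 0x0) (nat_lit 0x10000c00600000000000000000000000000000000000000000000000000000) := T_23 (nat_lit 227) (nat_lit 244) (nat_lit 5) (nat_lit 7) (nat_lit 10) L15955 (by decide +kernel)
theorem L15957 : W_23 (nat_lit 4) (nat_lit 0x700018000d000780000001000080000000000000000000000000000000) (nat_lit 0x0) (nat_lit 0x10018c00600000000000000000000000000000000000000000000000000000) := T_23 (nat_lit 232) (nat_lit 231) (nat_lit 0) (nat_lit 11) (nat_lit 13) L15956 (by decide +kernel)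
theorem L15958 : W_23 (nat_lit 5) (nat_lit 0x300018000d000780000001000080000000000000000000000000000000) (nat_lit 0x0) (nat_lit 0x9001cc00600000000000000000000000000000000000000000000000000000) := T_23 (nat_lit 230) (nat_lit 247) (nat_lit 7) (nat_lit 8) (nat_lit 10) L15957 (by decide +kernel)
theorem L15959 : W_23 (nat_lit 6) (nat_lit 0x300010000d000780000001000080000000000000000000000000000000) (nat_lit 0x0) (nat_lit 0x9001cc00680000000000008000000000000000000000000000000000000000) := T_23 (nat_lit 211) (nat_lit 159) (nat_lit 4) (nat_lit 7) (nat_lit 13) L15958 (by decide +kernel)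
theorem L15960 : W_23 (nat_lit 7) (nat_lit 0x200010000d000780000001000080000000000000000000000000000000) (nat_lit 0x0) (nat_lit 0xb001dc00680000000000008000000000000000000000000000000000000000) := T_23 (nat_lit 228) (nat_lit 245) (nat_lit 5) (nat_lit 8) (nat_lit 10) L15959 (by decide +kernel)
theorem L15961 : W_23 (nat_lit 8) (nat_lit 0x200010000d000380000001000080000000000000000000000000000000) (nat_lit 0x0) (nat_lit 0xb001dc00680000800400008000000000000000000000000000000000000000) := T_23 (nat_lit 178) (nat_lit 191) (nat_lit 1) (nat_lit 8) (nat_lit 10) L15960 (by decide +kernel)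
theorem L15962 : W_23 (nat_lit 9) (nat_lit 0x200010000d000300000001000080000000000000000000000000000000) (nat_lit 0x0) (nat_lit 0xb001dc006800008004c0008000000000000000000000000000000000000000) := T_23 (nat_lit 175) (nat_lit 174) (nat_lit 3) (nat_lit 4) (nat_lit 10) L15961 (by decide +kernel)
theorem L15963 : W_23 (nat_lit 10) (nat_lit 0x10000d000300000001000080000000000000000000000000000000) (nat_lit 0x0) (nat_lit 0xf001fc006800008004c0008000000000000000000000000000000000000000) := T_23 (nat_lit 229) (nat_lit 246) (nat_lit 4) (nat_lit 8) (nat_lit 14) L15962 (by decide +kernel)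
theorem L15964 : W_23 (nat_lit 2) (nat_lit 0x4000000010000d001f80008001000080000000000000000000000000000000) (nat_lit 0x0) (nat_lit 0x1c0000000000000000000000000000000000000000) := D_23 (nat_lit 163) (nat_lit 162) (nat_lit 164) (nat_lit 2) (nat_lit 6) (nat_lit 10) (nat_lit 2) (nat_lit 7) (nat_lit 10) (by decide +kernel)
theorem L15965 : W_23 (nat_lit 3) (nat_lit 0x4000000010000d000f80008001000080000000000000000000000000000000) (nat_lit 0x0) (nat_lit 0x30001c0000000000000000000000000000000000000000) := T_23 (nat_lit 180) (nat_lit 181) (nat_lit 1) (nat_lit 11) (nat_lit 10) L15964 (by decide +kernel)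
theorem L15966 : W_23 (nat_lit 4) (nat_lit 0x4000000010000d000f80000001000080000000000000000000000000000000) (nat_lit 0x0) (nat_lit 0x30001cc000000000000000000000000000000000000000) := T_23 (nat_lit 159) (nat_lit 158) (nat_lit 0) (nat_lit 9) (nat_lit 10) L15965 (by decide +kernel)
theorem L15967 : W_23 (nat_lit 5) (nat_lit 0x4000000010000d000780000001000080000000000000000000000000000000) (nat_lit 0x0) (nat_lit 0x20038001cc000000000000000000000000000000000000000) := T_23 (nat_lit 179) (nat_lit 193) (nat_lit 2) (nat_lit 5) (nat_lit 11) L15966 (by decide +kernel)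
theorem L15968 : W_23 (nat_lit 6) (nat_lit 0x4000000010000d000380000001000080000000000000000000000000000000) (nat_lit 0x0) (nat_lit 0x2803c001cc000000000000000000000000000000000000000) := T_23 (nat_lit 178) (nat_lit 191) (nat_lit 1) (nat_lit 8) (nat_lit 10) L15967 (by decide +kernel)
theorem L15969 : W_23 (nat_lit 7) (nat_lit 0x10000d000380000001000080000000000000000000000000000000) (nat_lit 0x0) (nat_lit 0x40002000000002803c001cc000000000000000000000000000000000000000) := T_23 (nat_lit 246) (nat_lit 229) (nat_lit 4) (nat_lit 8) (nat_lit 14) L15968 (by decide +kernel)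
theorem L15970 : W_23 (nat_lit 8) (nat_lit 0x10000d000300000001000080000000000000000000000000000000) (nat_lit 0x0) (nat_lit 0x40002000000002803cc01cc000000000000000000000000000000000000000) := T_23 (nat_lit 175) (nat_lit 174) (nat_lit 3) (nat_lit 4) (nat_lit 10) L15969 (by decide +kernel)
theorem L15971 : W_23 (nat_lit 11) (nat_lit 0x10000c000300000001000080000000000000000000000000000000) (nat_lit 0x0) (nat_lit 0xf801fc006b8003c03cc01cc000000000000000000000000000000000000000) := Q_23 (nat_lit 192) (C_23 L15783 (C_23 L15963 (C_23 L12430 (C_23 L15970 N_23)))) (by decide +kernel)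
theorem L15972 : W_23 (nat_lit 2) (nat_lit 0x10000c000300000001f00080000000000000000000000000000000) (nat_lit 0x0) (nat_lit 0x1c000000000000000000000000000000) := D_23 (nat_lit 123) (nat_lit 122) (nat_lit 124) (nat_lit 0) (nat_lit 7) (nat_lit 8) (nat_lit 0) (nat_lit 8) (nat_lit 8) (by decide +kernel)
theorem L15973 : W_23 (nat_lit 3) (nat_lit 0x10000c000300000001e00080000000000000000000000000000000) (nat_lit 0x0) (nat_lit 0x10005c000000000000000000000000000000) := T_23 (nat_lit 140) (nat_lit 126) (nat_lit 2) (nat_lit 4) (nat_lit 8) L15972 (by decide +kernel)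
theorem L15974 : W_23 (nat_lit 4) (nat_lit 0x10000c000300000001c00080000000000000000000000000000000) (nat_lit 0x0) (nat_lit 0x30015c000000000000000000000000000000) := T_23 (nat_lit 141) (nat_lit 128) (nat_lit 2) (nat_lit 5) (nat_lit 8) L15973 (by decide +kernel)
theorem L15975 : W_23 (nat_lit 5) (nat_lit 0x10000c000300000001400080000000000000000000000000000000) (nat_lit 0x0) (nat_lit 0x10000b0015c000000000000000000000000000000) := T_23 (nat_lit 143) (nat_lit 160) (nat_lit 7) (nat_lit 7) (nat_lit 8) L15974 (by decide +kernel)
theorem L15976 : W_23 (nat_lit 2) (nat_lit 0x10000c000380000001e000b0000000000000000000000000000000) (nat_lit 0x0) (nat_lit 0x3000000004000000000000000000000000000000000000000) := D_23 (nat_lit 158) (nat_lit 192) (nat_lit 193) (nat_lit 6) (nat_lit 5) (nat_lit 11) (nat_lit 7) (nat_lit 5) (nat_lit 7) (by decide +kernel)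
theorem L15977 : W_23 (nat_lit 3) (nat_lit 0x10000c000380000001e000a0000000000000000000000000000000) (nat_lit 0x0) (nat_lit 0x3000000004000000018000000000000000000000000000000) := T_23 (nat_lit 124) (nat_lit 123) (nat_lit 0) (nat_lit 8) (nat_lit 8) L15976 (by decide +kernel)
theorem L15978 : W_23 (nat_lit 4) (nat_lit 0x10000c000380000001c000a0000000000000000000000000000000) (nat_lit 0x0) (nat_lit 0x3000000004000200118000000000000000000000000000000) := T_23 (nat_lit 141) (nat_lit 128) (nat_lit 2) (nat_lit 5) (nat_lit 8) L15977 (by decide +kernel)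
theorem L15979 : W_23 (nat_lit 5) (nat_lit 0x10000c000300000001c000a0000000000000000000000000000000) (nat_lit 0x0) (nat_lit 0x30000c0004000200118000000000000000000000000000000) := T_23 (nat_lit 175) (nat_lit 174) (nat_lit 3) (nat_lit 4) (nat_lit 10) L15978 (by decide +kernel)
theorem L15980 : W_23 (nat_lit 6) (nat_lit 0x10000c0003000000014000a0000000000000000000000000000000) (nat_lit 0x0) (nat_lit 0x30000c0014000a00118000000000000000000000000000000) := T_23 (nat_lit 143) (nat_lit 160) (nat_lit 7) (nat_lit 7) (nat_lit 8) L15979 (by decide +kernel)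
theorem L15981 : W_23 (nat_lit 7) (nat_lit 0x10000c000300000001400080000000000000000000000000000000) (nat_lit 0x0) (nat_lit 0x30000c001c000a00138000000000000000000000000000000) := T_23 (nat_lit 125) (nat_lit 159) (nat_lit 7) (nat_lit 6) (nat_lit 7) L15980 (by decide +kernel)
theorem L15982 : W_23 (nat_lit 2) (nat_lit 0x10000c000340008001400080000000000000000000000000000000) (nat_lit 0x0) (nat_lit 0x80000000000010000800000000000000000000000000000000000) := D_23 (nat_lit 160) (nat_lit 143) (nat_lit 211) (nat_lit 7) (nat_lit 7) (nat_lit 8) (nat_lit 4) (nat_lit 7) (nat_lit 12) (by decide +kernel)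
theorem L15983 : W_23 (nat_lit 3) (nat_lit 0x10000c000340000001400080000000000000000000000000000000) (nat_lit 0x0) (nat_lit 0x80000000000018000800020000000000000000000000000000000) := T_23 (nat_lit 159) (nat_lit 125) (nat_lit 7) (nat_lit 6) (nat_lit 7) L15982 (by decide +kernel)
theorem L15984 : W_23 (nat_lit 4) (nat_lit 0x10000c000300000001400080000000000000000000000000000000) (nat_lit 0x0) (nat_lit 0x800000000c0018000800020000000000000000000000000000000) := T_23 (nat_lit 174) (nat_lit 175) (nat_lit 3) (nat_lit 4) (nat_lit 10) L15983 (by decide +kernel)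
theorem L15988 : W_23 (nat_lit 3) (nat_lit 0x10000c000340000001400080000000000000000000000000000000) (nat_lit 0x0) (nat_lit 0x1000080002000000008000000020000000000000000000000000000000) := T_23 (nat_lit 159) (nat_lit 125) (nat_lit 7) (nat_lit 6) (nat_lit 7) L15987 (by decide +kernel)
theorem L15989 : W_23 (nat_lit 4) (nat_lit 0x10000c000300000001400080000000000000000000000000000000) (nat_lit 0x0) (nat_lit 0x10000800020000c0008000000020000000000000000000000000000000) := T_23 (nat_lit 174) (nat_lit 175) (nat_lit 3) (nat_lit 4) (nat_lit 10) L15988 (by decide +kernel)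
theorem L15990 : W_23 (nat_lit 8) (nat_lit 0x10000c000300000001000080000000000000000000000000000000) (nat_lit 0x0) (nat_lit 0x10000800030000c001c000f0017c000000000000000000000000000000) := Q_23 (nat_lit 142) (C_23 L15975 (C_23 L15981 (C_23 L15984 (C_23 L15986 (C_23 L15989 N_23))))) (by decide +kernel)
theorem L15991 : W_23 (nat_lit 12) (nat_lit 0xc000300000001000080000000000000000000000000000000) (nat_lit 0x0) (nat_lit 0xf801fc007b8003c03cc01dc000f0017c000000000000000000000000000000) := Q_23 (nat_lit 212) (C_23 L12417 (C_23 L11737 (C_23 L11995 (C_23 L15971 (C_23 L15990 N_23))))) (by decide +kernel)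
theorem L15992 : W_23 (nat_lit 13) (nat_lit 0x4000300000001000080000000000000000000000000000000) (nat_lit 0x0) (nat_lit 0x20001f801fc007b803bc03cc01dc000f0017c000000000000000000000000000000) := Q_23 (nat_lit 195) (C_23 L15755 (C_23 L5316 (C_23 L10838 (C_23 L15991 N_23)))) (by decide +kernel)
theorem L15993 : W_23 (nat_lit 16) (nat_lit 0x300000001000080000000000000000000000000000000) (nat_lit 0x0) (nat_lit 0x2a001fe01fe007b80fff03cf01dfc04f8077c001c000a0000000000000000000000) := Q_23 (nat_lit 194) (C_23 L15649 (C_23 L15756 (C_23 L15801 (C_23 L15824 (C_23 L15887 (C_23 L15923 (C_23 L12471 (C_23 L15954 (C_23 L15368 (C_23 L15992 N_23)))))))))) (by decide +kernel)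
theorem L15998 : W_23 (nat_lit 6) (nat_lit 0x8000400030000d001000080000000000000000000000000000000) (nat_lit 0x0) (nat_lit 0x2800340003800000010000a00000000000000000000000000000000000) := T_23 (nat_lit 160) (nat_lit 143) (nat_lit 6) (nat_lit 7) (nat_lit 11) L15997 (by decide +kernel)
theorem L15999 : W_23 (nat_lit 7) (nat_lit 0x8000400030000c001000080000000000000000000000000000000) (nat_lit 0x0) (nat_lit 0x2800340003800000013000a00000000000000000000000000000000000) := T_23 (nat_lit 156) (nat_lit 157) (nat_lit 3) (nat_lit 3) (nat_lit 9) L15998 (by decide +kernel)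
theorem L16000 : W_23 (nat_lit 8) (nat_lit 0x400030000c001000080000000000000000000000000000000) (nat_lit 0x0) (nat_lit 0x38003c0003800000013000a00000000000000000000000000000000000) := T_23 (nat_lit 211) (nat_lit 228) (nat_lit 4) (nat_lit 7) (nat_lit 13) L15999 (by decide +kernel)
theorem L16006 : W_23 (nat_lit 7) (nat_lit 0x4000b0000c001000080000000000000000000000000000000) (nat_lit 0x0) (nat_lit 0x38003c0003800000010000a00000000000000000000000000000000000) := T_23 (nat_lit 211) (nat_lit 228) (nat_lit 4) (nat_lit 7) (nat_lit 13) L16005 (by decide +kernel)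
theorem L16007 : W_23 (nat_lit 8) (nat_lit 0x400030000c001000080000000000000000000000000000000) (nat_lit 0x0) (nat_lit 0x38003c0003800c00010000a00000000000000000000000000000000000) := T_23 (nat_lit 179) (nat_lit 178) (nat_lit 0) (nat_lit 9) (nat_lit 10) L16006 (by decide +kernel)
theorem L16008 : W_23 (nat_lit 9) (nat_lit 0x4000300008001000080000000000000000000000000000000) (nat_lit 0x0) (nat_lit 0x38003c0003800c80017000a00000000000000000000000000000000000) := Q_23 (nat_lit 158) (C_23 L14981 (C_23 L16000 (C_23 L14972 (C_23 L16007 N_23)))) (by decide +kernel)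
theorem L16009 : W_23 (nat_lit 10) (nat_lit 0x4000300000001000080000000000000000000000000000000) (nat_lit 0x0) (nat_lit 0x38003e0003c00c8001f000e00060000000000000000000000000000000) := Q_23 (nat_lit 159) (C_23 L15484 (C_23 L16008 (C_23 L14840 (C_23 L14838 N_23)))) (by decide +kernel)
theorem L16010 : W_23 (nat_lit 16) (nat_lit 0x300000001000080000000000000000000000000000000) (nat_lit 0x0) (nat_lit 0x3c001ff01ff80ff807ff03cf01df800e00070000000000000000000000000000000) := Q_23 (nat_lit 194) (C_23 L15442 (C_23 L15232 (C_23 L15954 (C_23 L11878 (C_23 L16009 (C_23 L15304 (C_23 L15479 (C_23 L15499 (C_23 L15491 (C_23 L15344 (C_23 L15567 N_23))))))))))) (by decide +kernel)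
theorem L16011 : W_23 (nat_lit 8) (nat_lit 0x6000300008001000080000000000000000000000000000000) (nat_lit 0x0) (nat_lit 0x38001c000f8000000c80007000200000000000000000000000000000000000) := Q_23 (nat_lit 210) (C_23 L15183 (C_23 L12338 (C_23 L14862 N_23))) (by decide +kernel)
theorem L16012 : W_23 (nat_lit 9) (nat_lit 0x6000300000001000080000000000000000000000000000000) (nat_lit 0x0) (nat_lit 0x38001c000f8000000c8000f000e00170000000000000000000000000000000) := Q_23 (nat_lit 159) (C_23 L15181 (C_23 L8297 (C_23 L16011 N_23))) (by decide +kernel)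
theorem L16014 : W_23 (nat_lit 2) (nat_lit 0x800700012000f000700000001000080000000000000000000000000000000) (nat_lit 0x0) (nat_lit 0x8000c0000000000000000000000000000000000000000000000000000) := D_23 (nat_lit 210) (nat_lit 211) (nat_lit 227) (nat_lit 3) (nat_lit 5) (nat_lit 12) (nat_lit 0) (nat_lit 9) (nat_lit 13) (by decide +kernel)
theorem L16015 : W_23 (nat_lit 3) (nat_lit 0x800300012000f000700000001000080000000000000000000000000000000) (nat_lit 0x0) (nat_lit 0x800048000c0000000000000000000000000000000000000000000000000000) := T_23 (nat_lit 230) (nat_lit 247) (nat_lit 7) (nat_lit 8) (nat_lit 10) L16014 (by decide +kernel)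
theorem L16016 : W_23 (nat_lit 4) (nat_lit 0x800200012000f000700000001000080000000000000000000000000000000) (nat_lit 0x0) (nat_lit 0xa00058000c0000000000000000000000000000000000000000000000000000) := T_23 (nat_lit 228) (nat_lit 245) (nat_lit 5) (nat_lit 8) (nat_lit 10) L16015 (by decide +kernel)
theorem L16017 : W_23 (nat_lit 5) (nat_lit 0x800000012000f000700000001000080000000000000000000000000000000) (nat_lit 0x0) (nat_lit 0xe00078000c0000000000000000000000000000000000000000000000000000) := T_23 (nat_lit 229) (nat_lit 246) (nat_lit 4) (nat_lit 8) (nat_lit 14) L16016 (by decide +kernel)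
theorem L16018 : W_23 (nat_lit 6) (nat_lit 0x12000f000700000001000080000000000000000000000000000000) (nat_lit 0x0) (nat_lit 0xe8007c000c0000000000000000000000000000000000000000000000000000) := T_23 (nat_lit 243) (nat_lit 226) (nat_lit 6) (nat_lit 5) (nat_lit 14) L16017 (by decide +kernel)
theorem L16019 : W_23 (nat_lit 7) (nat_lit 0x2000f000700000001000080000000000000000000000000000000) (nat_lit 0x0) (nat_lit 0xe8007c003c0000000000000000000000000000000000000000000000000000) := T_23 (nat_lit 212) (nat_lit 213) (nat_lit 3) (nat_lit 5) (nat_lit 11) L16018 (by decide +kernel)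
theorem L16020 : W_23 (nat_lit 8) (nat_lit 0xf000700000001000080000000000000000000000000000000) (nat_lit 0x0) (nat_lit 0xe8007c003f0000000000000000000000000000000000000000000000000000) := T_23 (nat_lit 209) (nat_lit 208) (nat_lit 1) (nat_lit 8) (nat_lit 11) L16019 (by decide +kernel)
theorem L16021 : W_23 (nat_lit 9) (nat_lit 0xf000300000001000080000000000000000000000000000000) (nat_lit 0x0) (nat_lit 0xe8007c003f0000000c00000000000000000000000000000000000000000000) := T_23 (nat_lit 178) (nat_lit 179) (nat_lit 2) (nat_lit 5) (nat_lit 11) L16020 (by decide +kernel)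
theorem L16022 : W_23 (nat_lit 2) (nat_lit 0x400006001a000f000380000001000080000000000000000000000000000000) (nat_lit 0x0) (nat_lit 0x10001800000000000000000000000000000000000000000000000000000000) := D_23 (nat_lit 227) (nat_lit 244) (nat_lit 228) (nat_lit 7) (nat_lit 5) (nat_lit 10) (nat_lit 2) (nat_lit 4) (nat_lit 13) (by decide +kernel)
theorem L16023 : W_23 (nat_lit 3) (nat_lit 0x4000060012000f000380000001000080000000000000000000000000000000) (nat_lit 0x0) (nat_lit 0x100018000c0000000000000000000000000000000000000000000000000000) := T_23 (nat_lit 211) (nat_lit 210) (nat_lit 1) (nat_lit 8) (nat_lit 12) L16022 (by decide +kernel)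
theorem L16024 : W_23 (nat_lit 4) (nat_lit 0x4000040012000f000380000001000080000000000000000000000000000000) (nat_lit 0x0) (nat_lit 0x14001a000c0000000000000000000000000000000000000000000000000000) := T_23 (nat_lit 225) (nat_lit 242) (nat_lit 5) (nat_lit 5) (nat_lit 10) L16023 (by decide +kernel)
theorem L16025 : W_23 (nat_lit 5) (nat_lit 0x4000000012000f000380000001000080000000000000000000000000000000) (nat_lit 0x0) (nat_lit 0x1c001e000c0000000000000000000000000000000000000000000000000000) := T_23 (nat_lit 226) (nat_lit 243) (nat_lit 6) (nat_lit 5) (nat_lit 14) L16024 (by decide +kernel)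
theorem L16026 : W_23 (nat_lit 6) (nat_lit 0x4000000010000f000380000001000080000000000000000000000000000000) (nat_lit 0x0) (nat_lit 0x1c001e000f0000000000000000000000000000000000000000000000000000) := T_23 (nat_lit 209) (nat_lit 208) (nat_lit 1) (nat_lit 8) (nat_lit 11) L16025 (by decide +kernel)
theorem L16027 : W_23 (nat_lit 7) (nat_lit 0x10000f000380000001000080000000000000000000000000000000) (nat_lit 0x0) (nat_lit 0x5c003e000f0000000000000000000000000000000000000000000000000000) := T_23 (nat_lit 246) (nat_lit 229) (nat_lit 4) (nat_lit 8) (nat_lit 14) L16026 (by decide +kernel)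
theorem L16028 : W_23 (nat_lit 8) (nat_lit 0x10000f000300000001000080000000000000000000000000000000) (nat_lit 0x0) (nat_lit 0x5c003e000f00000000c0000000000000000000000000000000000000000000) := T_23 (nat_lit 175) (nat_lit 174) (nat_lit 3) (nat_lit 4) (nat_lit 10) L16027 (by decide +kernel)
theorem L16029 : W_23 (nat_lit 9) (nat_lit 0xf000300000001000080000000000000000000000000000000) (nat_lit 0x0) (nat_lit 0x5c003e003f00000000c0000000000000000000000000000000000000000000) := T_23 (nat_lit 212) (nat_lit 213) (nat_lit 3) (nat_lit 5) (nat_lit 11) L16028 (by decide +kernel)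
theorem L16030 : W_23 (nat_lit 13) (nat_lit 0xe000300000001000080000000000000000000000000000000) (nat_lit 0x0) (nat_lit 0xfc007e003f0001000cc0006000f00178000000000000000000000000000000) := Q_23 (nat_lit 192) (C_23 L15725 (C_23 L16021 (C_23 L16029 (C_23 L15579 (C_23 L11729 N_23))))) (by decide +kernel)
theorem L16031 : W_23 (nat_lit 14) (nat_lit 0x6000300000001000080000000000000000000000000000000) (nat_lit 0x0) (nat_lit 0xfc007e007f0039001cc0006000f00178000000000000000000000000000000) := Q_23 (nat_lit 195) (C_23 L11663 (C_23 L16013 (C_23 L16030 N_23))) (by decide +kernel)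
theorem L16032 : W_23 (nat_lit 2) (nat_lit 0x800700012000f000700000001400080000000000000000000000000000000) (nat_lit 0x0) (nat_lit 0x10000800040000000000000000000000000000000000000000000000000000) := D_23 (nat_lit 227) (nat_lit 244) (nat_lit 210) (nat_lit 1) (nat_lit 9) (nat_lit 13) (nat_lit 0) (nat_lit 9) (nat_lit 13) (by decide +kernel)
theorem L16033 : W_23 (nat_lit 3) (nat_lit 0x800600012000f000700000001400080000000000000000000000000000000) (nat_lit 0x0) (nat_lit 0x30001800040000000000000000000000000000000000000000000000000000) := T_23 (nat_lit 228) (nat_lit 245) (nat_lit 5) (nat_lit 8) (nat_lit 10) L16032 (by decide +kernel)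
theorem L16034 : W_23 (nat_lit 4) (nat_lit 0x800200012000f000700000001400080000000000000000000000000000000) (nat_lit 0x0) (nat_lit 0xb0005800040000000000000000000000000000000000000000000000000000) := T_23 (nat_lit 230) (nat_lit 247) (nat_lit 7) (nat_lit 8) (nat_lit 10) L16033 (by decide +kernel)
theorem L16035 : W_23 (nat_lit 5) (nat_lit 0x800200012000f000700000001000080000000000000000000000000000000) (nat_lit 0x0) (nat_lit 0xb0005800040000000000008000400000000000000000000000000000000000) := T_23 (nat_lit 142) (nat_lit 159) (nat_lit 5) (nat_lit 6) (nat_lit 8) L16034 (by decide +kernel)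
theorem L16036 : W_23 (nat_lit 6) (nat_lit 0x800000012000f000700000001000080000000000000000000000000000000) (nat_lit 0x0) (nat_lit 0xf0007800040000000000008000400000000000000000000000000000000000) := T_23 (nat_lit 229) (nat_lit 246) (nat_lit 4) (nat_lit 8) (nat_lit 14) L16035 (by decide +kernel)
theorem L16037 : W_23 (nat_lit 7) (nat_lit 0x12000f000700000001000080000000000000000000000000000000) (nat_lit 0x0) (nat_lit 0xf8007c00040000000000008000400000000000000000000000000000000000) := T_23 (nat_lit 243) (nat_lit 226) (nat_lit 6) (nat_lit 5) (nat_lit 14) L16036 (by decide +kernel)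
theorem L16038 : W_23 (nat_lit 8) (nat_lit 0x2000f000700000001000080000000000000000000000000000000) (nat_lit 0x0) (nat_lit 0xf8007c00340000000000008000400000000000000000000000000000000000) := T_23 (nat_lit 212) (nat_lit 213) (nat_lit 3) (nat_lit 5) (nat_lit 11) L16037 (by decide +kernel)
theorem L16039 : W_23 (nat_lit 9) (nat_lit 0xf000700000001000080000000000000000000000000000000) (nat_lit 0x0) (nat_lit 0xf8007c00370000000000008000400000000000000000000000000000000000) := T_23 (nat_lit 209) (nat_lit 208) (nat_lit 1) (nat_lit 8) (nat_lit 11) L16038 (by decide +kernel)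
theorem L16040 : W_23 (nat_lit 10) (nat_lit 0xf000300000001000080000000000000000000000000000000) (nat_lit 0x0) (nat_lit 0xf8007c00370000000c00008000400000000000000000000000000000000000) := T_23 (nat_lit 178) (nat_lit 179) (nat_lit 2) (nat_lit 5) (nat_lit 11) L16039 (by decide +kernel)
theorem L16041 : W_23 (nat_lit 13) (nat_lit 0xe000300000001000080000000000000000000000000000000) (nat_lit 0x0) (nat_lit 0xf8007c00370001000cc000e000f00178000000000000000000000000000000) := Q_23 (nat_lit 192) (C_23 L11632 (C_23 L16040 (C_23 L15579 (C_23 L11729 N_23)))) (by decide +kernel)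
theorem L16042 : W_23 (nat_lit 14) (nat_lit 0x6000300000001000080000000000000000000000000000000) (nat_lit 0x0) (nat_lit 0xf8007c00770039001cc000e000f00178000000000000000000000000000000) := Q_23 (nat_lit 195) (C_23 L16013 (C_23 L11663 (C_23 L16041 N_23))) (by decide +kernel)
theorem L16043 : W_23 (nat_lit 11) (nat_lit 0xe000300000001000080000000000000000000000000000000) (nat_lit 0x0) (nat_lit 0xfc007e003f0001000cc000e000600010000000000000000000000000000000) := Q_23 (nat_lit 192) (C_23 L16040 (C_23 L16029 (C_23 L11729 (C_23 L15725 N_23)))) (by decide +kernel)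
theorem L16044 : W_23 (nat_lit 12) (nat_lit 0x6000300000001000080000000000000000000000000000000) (nat_lit 0x0) (nat_lit 0xfe007e007f8039001cc00ce000600010000000000000000000000000000000) := Q_23 (nat_lit 195) (C_23 L16013 (C_23 L15636 (C_23 L16043 N_23))) (by decide +kernel)
theorem L16045 : W_23 (nat_lit 2) (nat_lit 0x40012000f000700000001000080000000000000000000000000000000) (nat_lit 0x0) (nat_lit 0x40000000000008000400000000000000000000000000000000000) := D_23 (nat_lit 159) (nat_lit 142) (nat_lit 210) (nat_lit 5) (nat_lit 6) (nat_lit 8) (nat_lit 5) (nat_lit 6) (nat_lit 9) (by decide +kernel)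
theorem L16046 : W_23 (nat_lit 3) (nat_lit 0x12000f000700000001000080000000000000000000000000000000) (nat_lit 0x0) (nat_lit 0x8000400040000000000008000400000000000000000000000000000000000) := T_23 (nat_lit 226) (nat_lit 243) (nat_lit 6) (nat_lit 5) (nat_lit 14) L16045 (by decide +kernel)
theorem L16047 : W_23 (nat_lit 4) (nat_lit 0x2000f000700000001000080000000000000000000000000000000) (nat_lit 0x0) (nat_lit 0x8000400340000000000008000400000000000000000000000000000000000) := T_23 (nat_lit 212) (nat_lit 213) (nat_lit 3) (nat_lit 5) (nat_lit 11) L16046 (by decide +kernel)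
theorem L16048 : W_23 (nat_lit 5) (nat_lit 0xf000700000001000080000000000000000000000000000000) (nat_lit 0x0) (nat_lit 0x8000400370000000000008000400000000000000000000000000000000000) := T_23 (nat_lit 209) (nat_lit 208) (nat_lit 1) (nat_lit 8) (nat_lit 11) L16047 (by decide +kernel)
theorem L16049 : W_23 (nat_lit 6) (nat_lit 0xf000300000001000080000000000000000000000000000000) (nat_lit 0x0) (nat_lit 0x8000400370000000c00008000400000000000000000000000000000000000) := T_23 (nat_lit 178) (nat_lit 179) (nat_lit 2) (nat_lit 5) (nat_lit 11) L16048 (by decide +kernel)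
theorem L16050 : W_23 (nat_lit 13) (nat_lit 0xe000300000001000080000000000000000000000000000000) (nat_lit 0x0) (nat_lit 0x48002400370001000cc000e000f00178000000000000000000000000000000) := Q_23 (nat_lit 192) (C_23 L11632 (C_23 L16049 (C_23 L15579 (C_23 L11729 N_23)))) (by decide +kernel)
theorem L16051 : W_23 (nat_lit 14) (nat_lit 0x6000300000001000080000000000000000000000000000000) (nat_lit 0x0) (nat_lit 0x48002400770039001cc000e000f00178000000000000000000000000000000) := Q_23 (nat_lit 195) (C_23 L16013 (C_23 L11663 (C_23 L16050 N_23))) (by decide +kernel)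
theorem L16052 : W_23 (nat_lit 13) (nat_lit 0xe000300000001000080000000000000000000000000000000) (nat_lit 0x0) (nat_lit 0xfc01fe003f0001000cc0008000400000000000000000000000000000000000) := Q_23 (nat_lit 192) (C_23 L16049 (C_23 L16029 (C_23 L11632 (C_23 L15606 (C_23 L15177 N_23))))) (by decide +kernel)
theorem L16053 : W_23 (nat_lit 14) (nat_lit 0x6000300000001000080000000000000000000000000000000) (nat_lit 0x0) (nat_lit 0xfe01fe007f8039001cc00cc000400000000000000000000000000000000000) := Q_23 (nat_lit 195) (C_23 L16013 (C_23 L15636 (C_23 L16052 N_23))) (by decide +kernel)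
theorem L16054 : W_23 (nat_lit 12) (nat_lit 0xe000300000001000080000000000000000000000000000000) (nat_lit 0x0) (nat_lit 0xfc007e003b0001000cc0008000e00170000000000000000000000000000000) := Q_23 (nat_lit 192) (C_23 L15725 (C_23 L15587 (C_23 L11632 (C_23 L15616 N_23)))) (by decide +kernel)
theorem L16055 : W_23 (nat_lit 13) (nat_lit 0x6000300000001000080000000000000000000000000000000) (nat_lit 0x0) (nat_lit 0xfe007e007b8039001cc00cc000e00170000000000000000000000000000000) := Q_23 (nat_lit 195) (C_23 L16013 (C_23 L15636 (C_23 L16054 N_23))) (by decide +kernel)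
theorem L16056 : W_23 (nat_lit 11) (nat_lit 0xe000300000001000080000000000000000000000000000000) (nat_lit 0x0) (nat_lit 0xfc007e003f0001000cc0006000200010000000000000000000000000000000) := Q_23 (nat_lit 192) (C_23 L16029 (C_23 L16021 (C_23 L11729 (C_23 L15725 N_23)))) (by decide +kernel)
theorem L16057 : W_23 (nat_lit 12) (nat_lit 0x6000300000001000080000000000000000000000000000000) (nat_lit 0x0) (nat_lit 0xfc007e007f0039001cc0006000200010000000000000000000000000000000) := Q_23 (nat_lit 195) (C_23 L16013 (C_23 L11663 (C_23 L16056 N_23))) (by decide +kernel)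
theorem L16060 : W_23 (nat_lit 5) (nat_lit 0xe000700000001000080000000000000000000000000000000) (nat_lit 0x0) (nat_lit 0x8000400000000c000e000200010000000000000000000000000000000) := T_23 (nat_lit 175) (nat_lit 174) (nat_lit 3) (nat_lit 4) (nat_lit 10) L16059 (by decide +kernel)
theorem L16061 : W_23 (nat_lit 6) (nat_lit 0xe000300000001000080000000000000000000000000000000) (nat_lit 0x0) (nat_lit 0x800040001001cc000e000200010000000000000000000000000000000) := Q_23 (nat_lit 178) (C_23 L16058 (C_23 L16060 N_23)) (by decide +kernel)
theorem L16062 : W_23 (nat_lit 10) (nat_lit 0x6000300000001000080000000000000000000000000000000) (nat_lit 0x0) (nat_lit 0x100018006e0039001cc000e000600010000000000000000000000000000000) := Q_23 (nat_lit 195) (C_23 L16013 (C_23 L15440 (C_23 L16061 N_23))) (by decide +kernel)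
theorem L16063 : W_23 (nat_lit 7) (nat_lit 0x6000300000001000080000000000000000000000000000000) (nat_lit 0x0) (nat_lit 0x800740039001cc000e000200010000000000000000000000000000000) := Q_23 (nat_lit 195) (C_23 L16013 (C_23 L16061 (C_23 L11663 N_23))) (by decide +kernel)
theorem L16064 : W_23 (nat_lit 15) (nat_lit 0x4000300000001000080000000000000000000000000000000) (nat_lit 0x0) (nat_lit 0xfe01fe007f803b001cc00cf000f00178000000000000000000000000000000) := Q_23 (nat_lit 193) (C_23 L15185 (C_23 L16012 (C_23 L16031 (C_23 L16042 (C_23 L16044 (C_23 L16051 (C_23 L16053 (C_23 L16055 (C_23 L16057 (C_23 L16062 (C_23 L16063 N_23))))))))))) (by decide +kernel)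
theorem L16065 : W_23 (nat_lit 2) (nat_lit 0x1c0006000300010001000080000000000000000000000000000000) (nat_lit 0x0) (nat_lit 0x600001000000000000000000000000000000000000000000000000) := D_23 (nat_lit 213) (nat_lit 214) (nat_lit 192) (nat_lit 0) (nat_lit 10) (nat_lit 12) (nat_lit 0) (nat_lit 9) (nat_lit 12) (by decide +kernel)
theorem L16066 : W_23 (nat_lit 3) (nat_lit 0xc0006000300010001000080000000000000000000000000000000) (nat_lit 0x0) (nat_lit 0x2000700001000000000000000000000000000000000000000000000000) := T_23 (nat_lit 212) (nat_lit 229) (nat_lit 7) (nat_lit 7) (nat_lit 9) L16065 (by decide +kernel)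
theorem L16067 : W_23 (nat_lit 2) (nat_lit 0x8000000060007c0012001000080000000000000000000000000000000) (nat_lit 0x0) (nat_lit 0x1001800000000000000000000000000000000000000000000) := D_23 (nat_lit 179) (nat_lit 192) (nat_lit 180) (nat_lit 1) (nat_lit 9) (nat_lit 10) (nat_lit 1) (nat_lit 10) (nat_lit 10) (by decide +kernel)
theorem L16068 : W_23 (nat_lit 3) (nat_lit 0x8000000060003c0012001000080000000000000000000000000000000) (nat_lit 0x0) (nat_lit 0x1001c00004000000000000000000000000000000000000000) := T_23 (nat_lit 178) (nat_lit 158) (nat_lit 0) (nat_lit 8) (nat_lit 10) L16067 (by decide +kernel)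
theorem L16069 : W_23 (nat_lit 4) (nat_lit 0x8000000060003c0010001000080000000000000000000000000000000) (nat_lit 0x0) (nat_lit 0x1001c00007000000000000000000000000000000000000000) := T_23 (nat_lit 157) (nat_lit 156) (nat_lit 0) (nat_lit 7) (nat_lit 10) L16068 (by decide +kernel)
theorem L16070 : W_23 (nat_lit 5) (nat_lit 0x800000006000380010001000080000000000000000000000000000000) (nat_lit 0x0) (nat_lit 0x1001c60007000000000000000000000000000000000000000) := T_23 (nat_lit 174) (nat_lit 173) (nat_lit 3) (nat_lit 3) (nat_lit 10) L16069 (by decide +kernel)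
theorem L16071 : W_23 (nat_lit 2) (nat_lit 0x6000380000001000080000000000000000000000000000000) (nat_lit 0x0) (nat_lit 0x8000060000000000000000000000000000000000000000000) := D_23 (nat_lit 174) (nat_lit 173) (nat_lit 195) (nat_lit 3) (nat_lit 3) (nat_lit 10) (nat_lit 3) (nat_lit 4) (nat_lit 10) (by decide +kernel)
theorem L16072 : W_23 (nat_lit 6) (nat_lit 0x6000380010001000080000000000000000000000000000000) (nat_lit 0x0) (nat_lit 0x800040001001c60007000000000000000000000000000000000000000) := T_23 (nat_lit 227) (nat_lit 210) (nat_lit 6) (nat_lit 6) (nat_lit 13) L16070 (by decide +kernel)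
theorem L16073 : W_23 (nat_lit 7) (nat_lit 0x6000380000001000080000000000000000000000000000000) (nat_lit 0x0) (nat_lit 0x800040001001c60017000800000000000000000000000000000000000) := T_23 (nat_lit 160) (nat_lit 143) (nat_lit 6) (nat_lit 7) (nat_lit 11) L16072 (by decide +kernel)
theorem L16074 : W_23 (nat_lit 2) (nat_lit 0x6000780014001000090000000000000000000000000000000) (nat_lit 0x0) (nat_lit 0x1001800000000000000000000000000000000000000000000) := D_23 (nat_lit 179) (nat_lit 192) (nat_lit 180) (nat_lit 1) (nat_lit 9) (nat_lit 10) (nat_lit 1) (nat_lit 10) (nat_lit 10) (by decide +kernel)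
theorem L16075 : W_23 (nat_lit 3) (nat_lit 0x6000380014001000090000000000000000000000000000000) (nat_lit 0x0) (nat_lit 0x1001c00002000000000000000000000000000000000000000) := T_23 (nat_lit 178) (nat_lit 157) (nat_lit 0) (nat_lit 8) (nat_lit 10) L16074 (by decide +kernel)
theorem L16076 : W_23 (nat_lit 4) (nat_lit 0x6000380014001000080000000000000000000000000000000) (nat_lit 0x0) (nat_lit 0x1001c00002000200010000000000000000000000000000000) := T_23 (nat_lit 124) (nat_lit 141) (nat_lit 7) (nat_lit 5) (nat_lit 7) L16075 (by decide +kernel)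
theorem L16077 : W_23 (nat_lit 5) (nat_lit 0x6000380004001000080000000000000000000000000000000) (nat_lit 0x0) (nat_lit 0x1001c00012000a00010000000000000000000000000000000) := T_23 (nat_lit 160) (nat_lit 143) (nat_lit 6) (nat_lit 7) (nat_lit 11) L16076 (by decide +kernel)
theorem L16078 : W_23 (nat_lit 2) (nat_lit 0x800000006000380004001a00080000000000000000000000000000000) (nat_lit 0x0) (nat_lit 0x2000400100000000000000000000000000000000) := D_23 (nat_lit 142) (nat_lit 128) (nat_lit 157) (nat_lit 2) (nat_lit 5) (nat_lit 8) (nat_lit 1) (nat_lit 8) (nat_lit 8) (by decide +kernel)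
theorem L16079 : W_23 (nat_lit 3) (nat_lit 0x800000006000380004001800080000000000000000000000000000000) (nat_lit 0x0) (nat_lit 0x2000600110000000000000000000000000000000) := T_23 (nat_lit 141) (nat_lit 124) (nat_lit 7) (nat_lit 5) (nat_lit 7) L16078 (by decide +kernel)
theorem L16080 : W_23 (nat_lit 4) (nat_lit 0x800000006000380004001000080000000000000000000000000000000) (nat_lit 0x0) (nat_lit 0x12000e00110000000000000000000000000000000) := T_23 (nat_lit 143) (nat_lit 160) (nat_lit 6) (nat_lit 7) (nat_lit 11) L16079 (by decide +kernel)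
theorem L16081 : W_23 (nat_lit 5) (nat_lit 0x6000380004001000080000000000000000000000000000000) (nat_lit 0x0) (nat_lit 0x800040000000000012000e00110000000000000000000000000000000) := T_23 (nat_lit 227) (nat_lit 210) (nat_lit 4) (nat_lit 6) (nat_lit 13) L16080 (by decide +kernel)
theorem L16082 : W_23 (nat_lit 2) (nat_lit 0x800000006000780004001000090000000000000000000000000000000) (nat_lit 0x0) (nat_lit 0x1001800000000000000000000000000000000000000000000) := D_23 (nat_lit 179) (nat_lit 192) (nat_lit 180) (nat_lit 1) (nat_lit 9) (nat_lit 10) (nat_lit 1) (nat_lit 10) (nat_lit 10) (by decide +kernel)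
theorem L16083 : W_23 (nat_lit 3) (nat_lit 0x800000006000380004001000090000000000000000000000000000000) (nat_lit 0x0) (nat_lit 0x1001c00002000000000000000000000000000000000000000) := T_23 (nat_lit 178) (nat_lit 157) (nat_lit 0) (nat_lit 8) (nat_lit 10) L16082 (by decide +kernel)
theorem L16084 : W_23 (nat_lit 4) (nat_lit 0x6000380004001000090000000000000000000000000000000) (nat_lit 0x0) (nat_lit 0x800040001001c00002000000000000000000000000000000000000000) := T_23 (nat_lit 227) (nat_lit 210) (nat_lit 4) (nat_lit 6) (nat_lit 13) L16083 (by decide +kernel)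
theorem L16085 : W_23 (nat_lit 5) (nat_lit 0x6000380004001000080000000000000000000000000000000) (nat_lit 0x0) (nat_lit 0x800040001001c00002000200010000000000000000000000000000000) := T_23 (nat_lit 124) (nat_lit 141) (nat_lit 7) (nat_lit 5) (nat_lit 7) L16084 (by decide +kernel)
theorem L16086 : W_23 (nat_lit 2) (nat_lit 0x6000780004001000080000000000000000000000000000000) (nat_lit 0x0) (nat_lit 0x1001800000000000000000000000000000000000000000000) := D_23 (nat_lit 179) (nat_lit 192) (nat_lit 180) (nat_lit 1) (nat_lit 9) (nat_lit 10) (nat_lit 1) (nat_lit 10) (nat_lit 10) (by decide +kernel)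
theorem L16087 : W_23 (nat_lit 3) (nat_lit 0x6000380004001000080000000000000000000000000000000) (nat_lit 0x0) (nat_lit 0x1001c00002000000000000000000000000000000000000000) := T_23 (nat_lit 178) (nat_lit 157) (nat_lit 0) (nat_lit 8) (nat_lit 10) L16086 (by decide +kernel)
theorem L16088 : W_23 (nat_lit 2) (nat_lit 0x40006000380014001000080000000000000000000000000000000) (nat_lit 0x0) (nat_lit 0x1000000000000200010000000000000000000000000000000) := D_23 (nat_lit 141) (nat_lit 124) (nat_lit 192) (nat_lit 7) (nat_lit 5) (nat_lit 7) (nat_lit 7) (nat_lit 5) (nat_lit 8) (by decide +kernel)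
theorem L16089 : W_23 (nat_lit 3) (nat_lit 0x6000380014001000080000000000000000000000000000000) (nat_lit 0x0) (nat_lit 0x800040001000000000000200010000000000000000000000000000000) := T_23 (nat_lit 210) (nat_lit 227) (nat_lit 6) (nat_lit 6) (nat_lit 13) L16088 (by decide +kernel)
theorem L16090 : W_23 (nat_lit 4) (nat_lit 0x6000380004001000080000000000000000000000000000000) (nat_lit 0x0) (nat_lit 0x800040001000000010000a00010000000000000000000000000000000) := T_23 (nat_lit 160) (nat_lit 143) (nat_lit 6) (nat_lit 7) (nat_lit 11) L16089 (by decide +kernel)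
theorem L16091 : W_23 (nat_lit 6) (nat_lit 0x6000380000001000080000000000000000000000000000000) (nat_lit 0x0) (nat_lit 0x800040001001c00016000e00110000000000000000000000000000000) := Q_23 (nat_lit 158) (C_23 L16077 (C_23 L16081 (C_23 L16085 (C_23 L16087 (C_23 L16090 N_23))))) (by decide +kernel)
theorem L16092 : W_23 (nat_lit 8) (nat_lit 0x6000300000001000080000000000000000000000000000000) (nat_lit 0x0) (nat_lit 0x800040009001ce0017000e00110000000000000000000000000000000) := Q_23 (nat_lit 175) (C_23 L16071 (C_23 L16073 (C_23 L16091 N_23))) (by decide +kernel)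
theorem L16093 : W_23 (nat_lit 2) (nat_lit 0x4000080012000f000380010001000080000000000000000000000000000000) (nat_lit 0x0) (nat_lit 0x18000400000000000000000000000000000000000000000000000000000000) := D_23 (nat_lit 226) (nat_lit 243) (nat_lit 244) (nat_lit 6) (nat_lit 5) (nat_lit 14) (nat_lit 7) (nat_lit 5) (nat_lit 10) (by decide +kernel)
theorem L16094 : W_23 (nat_lit 3) (nat_lit 0x4000080012000f000300010001000080000000000000000000000000000000) (nat_lit 0x0) (nat_lit 0x180004000000000000c0000000000000000000000000000000000000000000) := T_23 (nat_lit 175) (nat_lit 174) (nat_lit 3) (nat_lit 4) (nat_lit 10) L16093 (by decide +kernel)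
theorem L16095 : W_23 (nat_lit 4) (nat_lit 0x4000080010000f000300010001000080000000000000000000000000000000) (nat_lit 0x0) (nat_lit 0x180004000300000000c0000000000000000000000000000000000000000000) := T_23 (nat_lit 209) (nat_lit 208) (nat_lit 1) (nat_lit 8) (nat_lit 11) L16094 (by decide +kernel)
theorem L16096 : W_23 (nat_lit 5) (nat_lit 0x4000080010000e000300010001000080000000000000000000000000000000) (nat_lit 0x0) (nat_lit 0x180004002300010000c0000000000000000000000000000000000000000000) := T_23 (nat_lit 192) (nat_lit 213) (nat_lit 3) (nat_lit 5) (nat_lit 11) L16095 (by decide +kernel)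
theorem L16097 : W_23 (nat_lit 6) (nat_lit 0x80010000e000300010001000080000000000000000000000000000000) (nat_lit 0x0) (nat_lit 0x580024002300010000c0000000000000000000000000000000000000000000) := T_23 (nat_lit 246) (nat_lit 229) (nat_lit 4) (nat_lit 8) (nat_lit 14) L16096 (by decide +kernel)
theorem L16098 : W_23 (nat_lit 7) (nat_lit 0x10000e000300010001000080000000000000000000000000000000) (nat_lit 0x0) (nat_lit 0x58002c002700010000c0000000000000000000000000000000000000000000) := T_23 (nat_lit 227) (nat_lit 210) (nat_lit 6) (nat_lit 6) (nat_lit 13) L16097 (by decide +kernel)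
theorem L16099 : W_23 (nat_lit 8) (nat_lit 0x10000e000300000001000080000000000000000000000000000000) (nat_lit 0x0) (nat_lit 0x58002c002700010000c0010000800000000000000000000000000000000000) := T_23 (nat_lit 160) (nat_lit 143) (nat_lit 7) (nat_lit 7) (nat_lit 8) L16098 (by decide +kernel)
theorem L16100 : W_23 (nat_lit 2) (nat_lit 0x4000000030000e000300000001800080000000000000000000000000000000) (nat_lit 0x0) (nat_lit 0xc80000000000000000000000000000000000000000000000000000) := D_23 (nat_lit 214) (nat_lit 215) (nat_lit 211) (nat_lit 0) (nat_lit 11) (nat_lit 12) (nat_lit 0) (nat_lit 10) (nat_lit 12) (by decide +kernel)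
theorem L16101 : W_23 (nat_lit 3) (nat_lit 0x4000000010000e000300000001800080000000000000000000000000000000) (nat_lit 0x0) (nat_lit 0xe80001000000000000000000000000000000000000000000000000) := T_23 (nat_lit 213) (nat_lit 192) (nat_lit 3) (nat_lit 5) (nat_lit 11) L16100 (by decide +kernel)
theorem L16102 : W_23 (nat_lit 4) (nat_lit 0x10000e000300000001800080000000000000000000000000000000) (nat_lit 0x0) (nat_lit 0x40002000e80001000000000000000000000000000000000000000000000000) := T_23 (nat_lit 246) (nat_lit 229) (nat_lit 4) (nat_lit 8) (nat_lit 14) L16101 (by decide +kernel)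
theorem L16103 : W_23 (nat_lit 5) (nat_lit 0x10000e000300000001000080000000000000000000000000000000) (nat_lit 0x0) (nat_lit 0x40002000e80001000000010000800000000000000000000000000000000000) := T_23 (nat_lit 143) (nat_lit 160) (nat_lit 7) (nat_lit 7) (nat_lit 8) L16102 (by decide +kernel)
theorem L16104 : W_23 (nat_lit 9) (nat_lit 0x10000e000300000001000080000000000000000000000000000000) (nat_lit 0x0) (nat_lit 0x5c003e002f00010000c0000000000000000000000000000000000000000000) := T_23 (nat_lit 192) (nat_lit 213) (nat_lit 3) (nat_lit 5) (nat_lit 11) L16028 (by decide +kernel)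
theorem L16105 : W_23 (nat_lit 2) (nat_lit 0x30000e000340010001000080000000000000000000000000000000) (nat_lit 0x0) (nat_lit 0xc80000000000000000000000000000000000000000000000000000) := D_23 (nat_lit 214) (nat_lit 215) (nat_lit 211) (nat_lit 0) (nat_lit 11) (nat_lit 12) (nat_lit 0) (nat_lit 10) (nat_lit 12) (by decide +kernel)
theorem L16106 : W_23 (nat_lit 3) (nat_lit 0x10000e000340010001000080000000000000000000000000000000) (nat_lit 0x0) (nat_lit 0xe80001000000000000000000000000000000000000000000000000) := T_23 (nat_lit 213) (nat_lit 192) (nat_lit 3) (nat_lit 5) (nat_lit 11) L16105 (by decide +kernel)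
theorem L16107 : W_23 (nat_lit 4) (nat_lit 0x10000e000340000001000080000000000000000000000000000000) (nat_lit 0x0) (nat_lit 0xe80001000000010000800000000000000000000000000000000000) := T_23 (nat_lit 160) (nat_lit 143) (nat_lit 7) (nat_lit 7) (nat_lit 8) L16106 (by decide +kernel)
theorem L16108 : W_23 (nat_lit 5) (nat_lit 0x10000e000300000001000080000000000000000000000000000000) (nat_lit 0x0) (nat_lit 0xe800010000c0010000800000000000000000000000000000000000) := T_23 (nat_lit 174) (nat_lit 175) (nat_lit 3) (nat_lit 4) (nat_lit 10) L16107 (by decide +kernel)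
theorem L16109 : W_23 (nat_lit 10) (nat_lit 0xe000300000001000080000000000000000000000000000000) (nat_lit 0x0) (nat_lit 0x5c003e00ff00010000c0010000800000000000000000000000000000000000) := Q_23 (nat_lit 212) (C_23 L11851 (C_23 L16099 (C_23 L16103 (C_23 L16104 (C_23 L16108 N_23))))) (by decide +kernel)
theorem L16110 : W_23 (nat_lit 11) (nat_lit 0x6000300000001000080000000000000000000000000000000) (nat_lit 0x0) (nat_lit 0x5c003e00ff00390000c0010000800000000000000000000000000000000000) := Q_23 (nat_lit 195) (C_23 L16013 (C_23 L15385 (C_23 L16109 N_23))) (by decide +kernel)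
theorem L16111 : W_23 (nat_lit 4) (nat_lit 0x80006000300010001000080000000000000000000000000000000) (nat_lit 0x0) (nat_lit 0x2800740001000000000000000000000000000000000000000000000000) := T_23 (nat_lit 210) (nat_lit 227) (nat_lit 6) (nat_lit 6) (nat_lit 13) L16066 (by decide +kernel)
theorem L16112 : W_23 (nat_lit 5) (nat_lit 0x80006000300000001000080000000000000000000000000000000) (nat_lit 0x0) (nat_lit 0x2800740001000000010000800000000000000000000000000000000000) := T_23 (nat_lit 160) (nat_lit 143) (nat_lit 6) (nat_lit 7) (nat_lit 11) L16111 (by decide +kernel)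
theorem L16113 : W_23 (nat_lit 9) (nat_lit 0x6000300000001000080000000000000000000000000000000) (nat_lit 0x0) (nat_lit 0x7800ff007f0001000000010000800000000000000000000000000000000000) := Q_23 (nat_lit 211) (C_23 L15272 (C_23 L16112 (C_23 L15269 (C_23 L15262 N_23)))) (by decide +kernel)
theorem L16114 : W_23 (nat_lit 2) (nat_lit 0x60003c0006001800080000000000000000000000000000000) (nat_lit 0x0) (nat_lit 0x600010000000000000000000000000000000) := D_23 (nat_lit 141) (nat_lit 142) (nat_lit 124) (nat_lit 1) (nat_lit 8) (nat_lit 8) (nat_lit 7) (nat_lit 5) (nat_lit 7) (by decide +kernel)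
theorem L16115 : W_23 (nat_lit 3) (nat_lit 0x60003c0002001800080000000000000000000000000000000) (nat_lit 0x0) (nat_lit 0x400004000600010000000000000000000000000000000) := T_23 (nat_lit 158) (nat_lit 178) (nat_lit 0) (nat_lit 8) (nat_lit 10) L16114 (by decide +kernel)
theorem L16116 : W_23 (nat_lit 4) (nat_lit 0x60003c0000001800080000000000000000000000000000000) (nat_lit 0x0) (nat_lit 0x400007000600010000000000000000000000000000000) := T_23 (nat_lit 157) (nat_lit 156) (nat_lit 0) (nat_lit 7) (nat_lit 10) L16115 (by decide +kernel)
theorem L16117 : W_23 (nat_lit 5) (nat_lit 0x6000380000001800080000000000000000000000000000000) (nat_lit 0x0) (nat_lit 0x460007000600010000000000000000000000000000000) := T_23 (nat_lit 174) (nat_lit 173) (nat_lit 3) (nat_lit 3) (nat_lit 10) L16116 (by decide +kernel)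
theorem L16118 : W_23 (nat_lit 6) (nat_lit 0x6000380000001000080000000000000000000000000000000) (nat_lit 0x0) (nat_lit 0x460017000e00010000000000000000000000000000000) := T_23 (nat_lit 143) (nat_lit 160) (nat_lit 6) (nat_lit 7) (nat_lit 11) L16117 (by decide +kernel)
theorem L16119 : W_23 (nat_lit 9) (nat_lit 0x6000300000001000080000000000000000000000000000000) (nat_lit 0x0) (nat_lit 0x700078007f00380004e0017000e00010000000000000000000000000000000) := Q_23 (nat_lit 175) (C_23 L16071 (C_23 L16118 (C_23 L13118 N_23))) (by decide +kernel)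
theorem L16120 : W_23 (nat_lit 13) (nat_lit 0xe000300000001000080000000000000000000000000000000) (nat_lit 0x0) (nat_lit 0x480024003f0001000cc0016000f00178000000000000000000000000000000) := Q_23 (nat_lit 192) (C_23 L15579 (C_23 L15732 (C_23 L15664 (C_23 L11732 (C_23 L11729 N_23))))) (by decide +kernel)
theorem L16121 : W_23 (nat_lit 14) (nat_lit 0x6000300000001000080000000000000000000000000000000) (nat_lit 0x0) (nat_lit 0x20001c800e4007f0039001cc0016000f00178000000000000000000000000000000) := Q_23 (nat_lit 195) (C_23 L16120 (C_23 L16013 (C_23 L15754 N_23))) (by decide +kernel)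
theorem L16122 : W_23 (nat_lit 11) (nat_lit 0xe000300000001000080000000000000000000000000000000) (nat_lit 0x0) (nat_lit 0x7c003e003b0001000cc0016000e00130000000000000000000000000000000) := Q_23 (nat_lit 192) (C_23 L15725 (C_23 L15732 (C_23 L15664 (C_23 L11732 N_23)))) (by decide +kernel)
theorem L16123 : W_23 (nat_lit 12) (nat_lit 0x6000300000001000080000000000000000000000000000000) (nat_lit 0x0) (nat_lit 0x20001fc00fe007b0039001cc0016000e00130000000000000000000000000000000) := Q_23 (nat_lit 195) (C_23 L16013 (C_23 L16122 (C_23 L15754 N_23))) (by decide +kernel)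
theorem L16124 : W_23 (nat_lit 15) (nat_lit 0x4000300000001000080000000000000000000000000000000) (nat_lit 0x0) (nat_lit 0x20001fc00ff00ff003b001ce0017000f00178000000000000000000000000000000) := Q_23 (nat_lit 193) (C_23 L16092 (C_23 L16110 (C_23 L16113 (C_23 L16057 (C_23 L16119 (C_23 L16121 (C_23 L16123 N_23))))))) (by decide +kernel)
theorem L16125 : W_23 (nat_lit 3) (nat_lit 0x1e000c000380010001000080000000000000000000000000000000) (nat_lit 0x0) (nat_lit 0x600000001000000008000400000000000000000000000000000000000) := T_23 (nat_lit 159) (nat_lit 142) (nat_lit 4) (nat_lit 7) (nat_lit 12) L7963 (by decide +kernel)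
theorem L16126 : W_23 (nat_lit 4) (nat_lit 0x1c000c000380010001000080000000000000000000000000000000) (nat_lit 0x0) (nat_lit 0x600030001000000008000400000000000000000000000000000000000) := T_23 (nat_lit 209) (nat_lit 208) (nat_lit 2) (nat_lit 4) (nat_lit 12) L16125 (by decide +kernel)
theorem L16127 : W_23 (nat_lit 5) (nat_lit 0x18000c000380010001000080000000000000000000000000000000) (nat_lit 0x0) (nat_lit 0xe00070001000000008000400000000000000000000000000000000000) := T_23 (nat_lit 210) (nat_lit 227) (nat_lit 5) (nat_lit 7) (nat_lit 9) L16126 (by decide +kernel)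
theorem L16128 : W_23 (nat_lit 6) (nat_lit 0x18000c000380000001000080000000000000000000000000000000) (nat_lit 0x0) (nat_lit 0xe00070001000000018000c00000000000000000000000000000000000) := T_23 (nat_lit 160) (nat_lit 143) (nat_lit 7) (nat_lit 7) (nat_lit 8) L16127 (by decide +kernel)
theorem L16129 : W_23 (nat_lit 7) (nat_lit 0x18000c000300000001000080000000000000000000000000000000) (nat_lit 0x0) (nat_lit 0xe000700010000c0018000c00000000000000000000000000000000000) := T_23 (nat_lit 175) (nat_lit 174) (nat_lit 3) (nat_lit 4) (nat_lit 10) L16128 (by decide +kernel)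
theorem L16130 : W_23 (nat_lit 8) (nat_lit 0x10000c000300000001000080000000000000000000000000000000) (nat_lit 0x0) (nat_lit 0x400030001e000f00010004c0018000c00000000000000000000000000000000000) := Q_23 (nat_lit 211) (C_23 L12014 (C_23 L12005 (C_23 L12000 (C_23 L11960 (C_23 L16129 N_23))))) (by decide +kernel)
theorem L16131 : W_23 (nat_lit 13) (nat_lit 0xc000300000001000080000000000000000000000000000000) (nat_lit 0x0) (nat_lit 0xc000f001fe00ff0061003cc01d8000c00000000000000000000000000000000000) := Q_23 (nat_lit 212) (C_23 L11992 (C_23 L12417 (C_23 L11737 (C_23 L11995 (C_23 L16130 N_23))))) (by decide +kernel)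
theorem L16135 : W_23 (nat_lit 5) (nat_lit 0xc000780014001000080000000000000000000000000000000) (nat_lit 0x0) (nat_lit 0x20001000000038001c8000000000000000000000000000000000000000) := T_23 (nat_lit 229) (nat_lit 212) (nat_lit 4) (nat_lit 8) (nat_lit 13) L16134 (by decide +kernel)
theorem L16136 : W_23 (nat_lit 6) (nat_lit 0xc000780010001000080000000000000000000000000000000) (nat_lit 0x0) (nat_lit 0x20001000000038001ce000000000000000000000000000000000000000) := T_23 (nat_lit 158) (nat_lit 157) (nat_lit 0) (nat_lit 8) (nat_lit 10) L16135 (by decide +kernel)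
theorem L16137 : W_23 (nat_lit 7) (nat_lit 0xc000380010001000080000000000000000000000000000000) (nat_lit 0x0) (nat_lit 0x2000100010003c001ce000000000000000000000000000000000000000) := T_23 (nat_lit 178) (nat_lit 196) (nat_lit 3) (nat_lit 5) (nat_lit 10) L16136 (by decide +kernel)
theorem L16138 : W_23 (nat_lit 8) (nat_lit 0xc000300010001000080000000000000000000000000000000) (nat_lit 0x0) (nat_lit 0x2000100010003cc01ce000000000000000000000000000000000000000) := T_23 (nat_lit 175) (nat_lit 174) (nat_lit 3) (nat_lit 4) (nat_lit 10) L16137 (by decide +kernel)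
theorem L16139 : W_23 (nat_lit 9) (nat_lit 0xc000300000001000080000000000000000000000000000000) (nat_lit 0x0) (nat_lit 0x2000100010003cc01de000800000000000000000000000000000000000) := T_23 (nat_lit 160) (nat_lit 143) (nat_lit 6) (nat_lit 7) (nat_lit 11) L16138 (by decide +kernel)
theorem L16140 : W_23 (nat_lit 14) (nat_lit 0x4000300000001000080000000000000000000000000000000) (nat_lit 0x0) (nat_lit 0x1c000f001fe00ff0079003cc01de000f0017c001000080000000000000000000000) := Q_23 (nat_lit 195) (C_23 L10838 (C_23 L16131 (C_23 L15780 (C_23 L11973 (C_23 L16139 N_23))))) (by decide +kernel)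
theorem L16141 : W_23 (nat_lit 2) (nat_lit 0x6000e000340018001000080000000000000000000000000000000) (nat_lit 0x0) (nat_lit 0x10001000000000000400000000000000000000000000000000000) := D_23 (nat_lit 192) (nat_lit 142) (nat_lit 208) (nat_lit 5) (nat_lit 6) (nat_lit 8) (nat_lit 1) (nat_lit 8) (nat_lit 11) (by decide +kernel)
theorem L16142 : W_23 (nat_lit 3) (nat_lit 0x4000e000340018001000080000000000000000000000000000000) (nat_lit 0x0) (nat_lit 0x400030001000000000000400000000000000000000000000000000000) := T_23 (nat_lit 209) (nat_lit 226) (nat_lit 5) (nat_lit 6) (nat_lit 9) L16141 (by decide +kernel)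
theorem L16143 : W_23 (nat_lit 4) (nat_lit 0xe000340018001000080000000000000000000000000000000) (nat_lit 0x0) (nat_lit 0xc00070001000000000000400000000000000000000000000000000000) := T_23 (nat_lit 210) (nat_lit 227) (nat_lit 6) (nat_lit 6) (nat_lit 13) L16142 (by decide +kernel)
theorem L16144 : W_23 (nat_lit 5) (nat_lit 0xe000340008001000080000000000000000000000000000000) (nat_lit 0x0) (nat_lit 0xc00070001000000010000c00000000000000000000000000000000000) := T_23 (nat_lit 160) (nat_lit 143) (nat_lit 6) (nat_lit 7) (nat_lit 11) L16143 (by decide +kernel)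
theorem L16145 : W_23 (nat_lit 6) (nat_lit 0xe000300008001000080000000000000000000000000000000) (nat_lit 0x0) (nat_lit 0xc000700010000c0010000c00000000000000000000000000000000000) := T_23 (nat_lit 174) (nat_lit 175) (nat_lit 3) (nat_lit 4) (nat_lit 10) L16144 (by decide +kernel)
theorem L16146 : W_23 (nat_lit 2) (nat_lit 0x6000e00030001d0010000a0000000000000000000000000000000) (nat_lit 0x0) (nat_lit 0x18001000000000000000000000000000000000000000000000000) := D_23 (nat_lit 208) (nat_lit 207) (nat_lit 192) (nat_lit 2) (nat_lit 3) (nat_lit 12) (nat_lit 1) (nat_lit 8) (nat_lit 11) (by decide +kernel)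
theorem L16147 : W_23 (nat_lit 3) (nat_lit 0x4000e00030001d0010000a0000000000000000000000000000000) (nat_lit 0x0) (nat_lit 0x400038001000000000000000000000000000000000000000000000000) := T_23 (nat_lit 209) (nat_lit 226) (nat_lit 5) (nat_lit 6) (nat_lit 9) L16146 (by decide +kernel)
theorem L16148 : W_23 (nat_lit 4) (nat_lit 0x4000e00030001c0010000a0000000000000000000000000000000) (nat_lit 0x0) (nat_lit 0x400038001000000003000000000000000000000000000000000000000) := T_23 (nat_lit 156) (nat_lit 157) (nat_lit 3) (nat_lit 3) (nat_lit 9) L16147 (by decide +kernel)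
theorem L16149 : W_23 (nat_lit 5) (nat_lit 0x4000e0003000180010000a0000000000000000000000000000000) (nat_lit 0x0) (nat_lit 0x400038001000000007000200000000000000000000000000000000000) := T_23 (nat_lit 158) (nat_lit 141) (nat_lit 4) (nat_lit 6) (nat_lit 12) L16148 (by decide +kernel)
theorem L16150 : W_23 (nat_lit 6) (nat_lit 0x4000e000300018001000080000000000000000000000000000000) (nat_lit 0x0) (nat_lit 0x400038001000000007000600020000000000000000000000000000000) := T_23 (nat_lit 125) (nat_lit 142) (nat_lit 7) (nat_lit 6) (nat_lit 7) L16149 (by decide +kernel)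
theorem L16151 : W_23 (nat_lit 7) (nat_lit 0xe000300018001000080000000000000000000000000000000) (nat_lit 0x0) (nat_lit 0xc00078001000000007000600020000000000000000000000000000000) := T_23 (nat_lit 210) (nat_lit 227) (nat_lit 6) (nat_lit 6) (nat_lit 13) L16150 (by decide +kernel)
theorem L16152 : W_23 (nat_lit 8) (nat_lit 0xe000300008001000080000000000000000000000000000000) (nat_lit 0x0) (nat_lit 0xc00078001000000017000e00020000000000000000000000000000000) := T_23 (nat_lit 160) (nat_lit 143) (nat_lit 6) (nat_lit 7) (nat_lit 11) L16151 (by decide +kernel)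
theorem L16155 : W_23 (nat_lit 4) (nat_lit 0xe000340018001000080000000000000000000000000000000) (nat_lit 0x0) (nat_lit 0xc00078001000000000000000000000000000000000000000000000000) := T_23 (nat_lit 210) (nat_lit 227) (nat_lit 6) (nat_lit 6) (nat_lit 13) L16154 (by decide +kernel)
theorem L16156 : W_23 (nat_lit 5) (nat_lit 0xe000340008001000080000000000000000000000000000000) (nat_lit 0x0) (nat_lit 0xc00078001000000010000800000000000000000000000000000000000) := T_23 (nat_lit 160) (nat_lit 143) (nat_lit 6) (nat_lit 7) (nat_lit 11) L16155 (by decide +kernel)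
theorem L16157 : W_23 (nat_lit 6) (nat_lit 0xe000300008001000080000000000000000000000000000000) (nat_lit 0x0) (nat_lit 0xc000780010000c0010000800000000000000000000000000000000000) := T_23 (nat_lit 174) (nat_lit 175) (nat_lit 3) (nat_lit 4) (nat_lit 10) L16156 (by decide +kernel)
theorem L16158 : W_23 (nat_lit 9) (nat_lit 0xe000300000001000080000000000000000000000000000000) (nat_lit 0x0) (nat_lit 0x10000c000780010000c001f000e00170000000000000000000000000000000) := Q_23 (nat_lit 159) (C_23 L15032 (C_23 L15028 (C_23 L16145 (C_23 L16152 (C_23 L16157 N_23))))) (by decide +kernel)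
theorem L16159 : W_23 (nat_lit 9) (nat_lit 0xe000300000001000080000000000000000000000000000000) (nat_lit 0x0) (nat_lit 0x18002c00370001000cc0016000e00130000000000000000000000000000000) := Q_23 (nat_lit 192) (C_23 L11732 (C_23 L15732 (C_23 L11689 (C_23 L11729 N_23)))) (by decide +kernel)
theorem L16160 : W_23 (nat_lit 4) (nat_lit 0xe000700000001800080000000000000000000000000000000) (nat_lit 0x0) (nat_lit 0x180000c000400060000000000000000000000000000000) := T_23 (nat_lit 179) (nat_lit 180) (nat_lit 1) (nat_lit 10) (nat_lit 10) L15889 (by decide +kernel)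
theorem L16161 : W_23 (nat_lit 5) (nat_lit 0xe000700000001000080000000000000000000000000000000) (nat_lit 0x0) (nat_lit 0x180001c000c00060000000000000000000000000000000) := T_23 (nat_lit 143) (nat_lit 160) (nat_lit 6) (nat_lit 7) (nat_lit 11) L16160 (by decide +kernel)
theorem L16162 : W_23 (nat_lit 2) (nat_lit 0x16000f000700010001000080000000000000000000000000000000) (nat_lit 0x0) (nat_lit 0x8000400000000000000008000000000000000000000000000000000000000) := D_23 (nat_lit 226) (nat_lit 243) (nat_lit 159) (nat_lit 6) (nat_lit 5) (nat_lit 14) (nat_lit 5) (nat_lit 6) (nat_lit 9) (by decide +kernel)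
theorem L16163 : W_23 (nat_lit 3) (nat_lit 0x14000f000700010001000080000000000000000000000000000000) (nat_lit 0x0) (nat_lit 0x8000400030000000000008000000000000000000000000000000000000000) := T_23 (nat_lit 209) (nat_lit 208) (nat_lit 1) (nat_lit 8) (nat_lit 11) L16162 (by decide +kernel)
theorem L16164 : W_23 (nat_lit 4) (nat_lit 0x14000e000700010001000080000000000000000000000000000000) (nat_lit 0x0) (nat_lit 0x8000400230001000000008000000000000000000000000000000000000000) := T_23 (nat_lit 192) (nat_lit 213) (nat_lit 3) (nat_lit 5) (nat_lit 11) L16163 (by decide +kernel)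
theorem L16165 : W_23 (nat_lit 5) (nat_lit 0x4000e000700010001000080000000000000000000000000000000) (nat_lit 0x0) (nat_lit 0x8002400330001000000008000000000000000000000000000000000000000) := T_23 (nat_lit 212) (nat_lit 229) (nat_lit 4) (nat_lit 8) (nat_lit 13) L16164 (by decide +kernel)
theorem L16166 : W_23 (nat_lit 6) (nat_lit 0xe000700010001000080000000000000000000000000000000) (nat_lit 0x0) (nat_lit 0x8002c00370001000000008000000000000000000000000000000000000000) := T_23 (nat_lit 210) (nat_lit 227) (nat_lit 6) (nat_lit 6) (nat_lit 13) L16165 (by decide +kernel)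
theorem L16167 : W_23 (nat_lit 7) (nat_lit 0xe000700000001000080000000000000000000000000000000) (nat_lit 0x0) (nat_lit 0x8002c00370001000000018000800000000000000000000000000000000000) := T_23 (nat_lit 160) (nat_lit 143) (nat_lit 6) (nat_lit 7) (nat_lit 11) L16166 (by decide +kernel)
theorem L16168 : W_23 (nat_lit 8) (nat_lit 0xe000300000001000080000000000000000000000000000000) (nat_lit 0x0) (nat_lit 0x8002c00370001001c0001c000c00060000000000000000000000000000000) := Q_23 (nat_lit 178) (C_23 L16058 (C_23 L16161 (C_23 L16167 N_23))) (by decide +kernel)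
theorem L16169 : W_23 (nat_lit 14) (nat_lit 0xc000300000001000080000000000000000000000000000000) (nat_lit 0x0) (nat_lit 0x58002c00378003001ce001f000f00178000000000000000000000000000000) := Q_23 (nat_lit 193) (C_23 L16061 (C_23 L16050 (C_23 L16158 (C_23 L16159 (C_23 L16168 (C_23 L15033 (C_23 L15034 N_23))))))) (by decide +kernel)
theorem L16170 : W_23 (nat_lit 9) (nat_lit 0xc000300000001000080000000000000000000000000000000) (nat_lit 0x0) (nat_lit 0x8002c00770033001c0001c000c00060000000000000000000000000000000) := Q_23 (nat_lit 193) (C_23 L11663 (C_23 L16168 (C_23 L11678 N_23))) (by decide +kernel)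
theorem L16171 : W_23 (nat_lit 15) (nat_lit 0x4000300000001000080000000000000000000000000000000) (nat_lit 0x0) (nat_lit 0x58002c0077803b003ce01df000f00178000000000000000000000000000000) := Q_23 (nat_lit 195) (C_23 L14831 (C_23 L16169 (C_23 L5316 (C_23 L16139 (C_23 L16170 N_23))))) (by decide +kernel)
theorem L16172 : W_23 (nat_lit 2) (nat_lit 0x40007000300008001600080000000000000000000000000000000) (nat_lit 0x0) (nat_lit 0x10000800000000000000010000000000000000000000000000000000000000) := D_23 (nat_lit 227) (nat_lit 160) (nat_lit 244) (nat_lit 6) (nat_lit 6) (nat_lit 13) (nat_lit 6) (nat_lit 6) (nat_lit 14) (by decide +kernel)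
theorem L16173 : W_23 (nat_lit 3) (nat_lit 0x7000300008001600080000000000000000000000000000000) (nat_lit 0x0) (nat_lit 0x10000800040000000000014000000000000000000000000000000000000000) := T_23 (nat_lit 210) (nat_lit 158) (nat_lit 4) (nat_lit 6) (nat_lit 12) L16172 (by decide +kernel)
theorem L16174 : W_23 (nat_lit 4) (nat_lit 0x7000300008001400080000000000000000000000000000000) (nat_lit 0x0) (nat_lit 0x10000800040000000000014000200010000000000000000000000000000000) := T_23 (nat_lit 141) (nat_lit 124) (nat_lit 4) (nat_lit 6) (nat_lit 11) L16173 (by decide +kernel)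
theorem L16175 : W_23 (nat_lit 5) (nat_lit 0x6000300008001400080000000000000000000000000000000) (nat_lit 0x0) (nat_lit 0x10000800060001000000014000200010000000000000000000000000000000) := T_23 (nat_lit 192) (nat_lit 209) (nat_lit 5) (nat_lit 6) (nat_lit 8) L16174 (by decide +kernel)
theorem L16176 : W_23 (nat_lit 6) (nat_lit 0x6000300008001000080000000000000000000000000000000) (nat_lit 0x0) (nat_lit 0x10000800060001000000014000600030000000000000000000000000000000) := T_23 (nat_lit 142) (nat_lit 125) (nat_lit 7) (nat_lit 6) (nat_lit 7) L16175 (by decide +kernel)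
theorem L16177 : W_23 (nat_lit 2) (nat_lit 0x4000600030000c001000080000000000000000000000000000000) (nat_lit 0x0) (nat_lit 0x800000000000080010000000000000000000000000000000000000000) := D_23 (nat_lit 227) (nat_lit 175) (nat_lit 160) (nat_lit 4) (nat_lit 6) (nat_lit 13) (nat_lit 6) (nat_lit 6) (nat_lit 13) (by decide +kernel)
theorem L16178 : W_23 (nat_lit 3) (nat_lit 0x600030000c001000080000000000000000000000000000000) (nat_lit 0x0) (nat_lit 0x800040000000080010000200000000000000000000000000000000000) := T_23 (nat_lit 210) (nat_lit 141) (nat_lit 4) (nat_lit 6) (nat_lit 12) L16177 (by decide +kernel)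
theorem L16179 : W_23 (nat_lit 2) (nat_lit 0x40006000b0000d001000080000000000000000000000000000000) (nat_lit 0x0) (nat_lit 0x10000800000000000000010000000000000000000000000000000000000000) := D_23 (nat_lit 227) (nat_lit 160) (nat_lit 244) (nat_lit 6) (nat_lit 6) (nat_lit 13) (nat_lit 6) (nat_lit 6) (nat_lit 14) (by decide +kernel)
theorem L16180 : W_23 (nat_lit 3) (nat_lit 0x6000b0000d001000080000000000000000000000000000000) (nat_lit 0x0) (nat_lit 0x10000800040000000000010000200000000000000000000000000000000000) := T_23 (nat_lit 210) (nat_lit 141) (nat_lit 4) (nat_lit 6) (nat_lit 12) L16179 (by decide +kernel)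
theorem L16181 : W_23 (nat_lit 4) (nat_lit 0x600030000d001000080000000000000000000000000000000) (nat_lit 0x0) (nat_lit 0x10000800040000000c00010000200000000000000000000000000000000000) := T_23 (nat_lit 179) (nat_lit 178) (nat_lit 0) (nat_lit 9) (nat_lit 10) L16180 (by decide +kernel)
theorem L16182 : W_23 (nat_lit 5) (nat_lit 0x600030000c001000080000000000000000000000000000000) (nat_lit 0x0) (nat_lit 0x10000800040000000c00013000200000000000000000000000000000000000) := T_23 (nat_lit 156) (nat_lit 157) (nat_lit 3) (nat_lit 3) (nat_lit 9) L16181 (by decide +kernel)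
theorem L16183 : W_23 (nat_lit 6) (nat_lit 0x6000300008001000080000000000000000000000000000000) (nat_lit 0x0) (nat_lit 0x10000800040000000c80017000200000000000000000000000000000000000) := Q_23 (nat_lit 158) (C_23 L15819 (C_23 L16178 (C_23 L16182 N_23))) (by decide +kernel)
theorem L16184 : W_23 (nat_lit 2) (nat_lit 0x700070000c001600080000000000000000000000000000000) (nat_lit 0x0) (nat_lit 0x80003000000000000000000000000000000000000000) := D_23 (nat_lit 157) (nat_lit 156) (nat_lit 175) (nat_lit 3) (nat_lit 3) (nat_lit 9) (nat_lit 0) (nat_lit 8) (nat_lit 10) (by decide +kernel)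
theorem L16185 : W_23 (nat_lit 3) (nat_lit 0x7000700008001600080000000000000000000000000000000) (nat_lit 0x0) (nat_lit 0x40000000080007000000000000000000000000000000000000000) := T_23 (nat_lit 158) (nat_lit 210) (nat_lit 4) (nat_lit 6) (nat_lit 12) L16184 (by decide +kernel)
theorem L16186 : W_23 (nat_lit 4) (nat_lit 0x7000700008001400080000000000000000000000000000000) (nat_lit 0x0) (nat_lit 0x40000000080007000200010000000000000000000000000000000) := T_23 (nat_lit 141) (nat_lit 124) (nat_lit 4) (nat_lit 6) (nat_lit 11) L16185 (by decide +kernel)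
theorem L16187 : W_23 (nat_lit 5) (nat_lit 0x7000300008001400080000000000000000000000000000000) (nat_lit 0x0) (nat_lit 0x40000000c80007000200010000000000000000000000000000000) := T_23 (nat_lit 178) (nat_lit 179) (nat_lit 1) (nat_lit 9) (nat_lit 10) L16186 (by decide +kernel)
theorem L16188 : W_23 (nat_lit 6) (nat_lit 0x6000300008001400080000000000000000000000000000000) (nat_lit 0x0) (nat_lit 0x60001000c80007000200010000000000000000000000000000000) := T_23 (nat_lit 192) (nat_lit 209) (nat_lit 5) (nat_lit 6) (nat_lit 8) L16187 (by decide +kernel)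
theorem L16189 : W_23 (nat_lit 7) (nat_lit 0x6000300008001000080000000000000000000000000000000) (nat_lit 0x0) (nat_lit 0x60001000c80007000600030000000000000000000000000000000) := T_23 (nat_lit 142) (nat_lit 125) (nat_lit 7) (nat_lit 6) (nat_lit 7) L16188 (by decide +kernel)
theorem L16190 : W_23 (nat_lit 2) (nat_lit 0x60006000300008001600080000000000000000000000000000000) (nat_lit 0x0) (nat_lit 0x10000800000000000000010000000000000000000000000000000000000000) := D_23 (nat_lit 227) (nat_lit 160) (nat_lit 244) (nat_lit 6) (nat_lit 6) (nat_lit 13) (nat_lit 6) (nat_lit 6) (nat_lit 14) (by decide +kernel)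
theorem L16191 : W_23 (nat_lit 3) (nat_lit 0x20006000300008001600080000000000000000000000000000000) (nat_lit 0x0) (nat_lit 0x10000c00040000000000010000000000000000000000000000000000000000) := T_23 (nat_lit 210) (nat_lit 226) (nat_lit 5) (nat_lit 6) (nat_lit 9) L16190 (by decide +kernel)
theorem L16192 : W_23 (nat_lit 4) (nat_lit 0x20006000300008001400080000000000000000000000000000000) (nat_lit 0x0) (nat_lit 0x10000c00040000000000010000200010000000000000000000000000000000) := T_23 (nat_lit 141) (nat_lit 124) (nat_lit 4) (nat_lit 6) (nat_lit 11) L16191 (by decide +kernel)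
theorem L16193 : W_23 (nat_lit 5) (nat_lit 0x6000300008001400080000000000000000000000000000000) (nat_lit 0x0) (nat_lit 0x10000c00060001000000010000200010000000000000000000000000000000) := T_23 (nat_lit 209) (nat_lit 192) (nat_lit 5) (nat_lit 6) (nat_lit 8) L16192 (by decide +kernel)
theorem L16194 : W_23 (nat_lit 6) (nat_lit 0x6000300008001000080000000000000000000000000000000) (nat_lit 0x0) (nat_lit 0x10000c00060001000000010000600030000000000000000000000000000000) := T_23 (nat_lit 142) (nat_lit 125) (nat_lit 7) (nat_lit 6) (nat_lit 7) L16193 (by decide +kernel)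
theorem L16195 : W_23 (nat_lit 2) (nat_lit 0x60006000300008001400080000000000000000000000000000000) (nat_lit 0x0) (nat_lit 0x10000800000000000000010000000000000000000000000000000000000000) := D_23 (nat_lit 227) (nat_lit 160) (nat_lit 244) (nat_lit 6) (nat_lit 6) (nat_lit 13) (nat_lit 6) (nat_lit 6) (nat_lit 14) (by decide +kernel)
theorem L16196 : W_23 (nat_lit 3) (nat_lit 0x20006000300008001400080000000000000000000000000000000) (nat_lit 0x0) (nat_lit 0x10000c00040000000000010000000000000000000000000000000000000000) := T_23 (nat_lit 210) (nat_lit 226) (nat_lit 5) (nat_lit 6) (nat_lit 9) L16195 (by decide +kernel)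
theorem L16197 : W_23 (nat_lit 4) (nat_lit 0x6000300008001400080000000000000000000000000000000) (nat_lit 0x0) (nat_lit 0x10000c00060001000000010000000000000000000000000000000000000000) := T_23 (nat_lit 209) (nat_lit 192) (nat_lit 5) (nat_lit 6) (nat_lit 8) L16196 (by decide +kernel)
theorem L16198 : W_23 (nat_lit 5) (nat_lit 0x6000300008001000080000000000000000000000000000000) (nat_lit 0x0) (nat_lit 0x10000c00060001000000010000400020000000000000000000000000000000) := T_23 (nat_lit 142) (nat_lit 125) (nat_lit 7) (nat_lit 6) (nat_lit 7) L16197 (by decide +kernel)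
theorem L16199 : W_23 (nat_lit 2) (nat_lit 0x60007c000a0010000a0000000000000000000000000000000) (nat_lit 0x0) (nat_lit 0x1001800000000000000000000000000000000000000000000) := D_23 (nat_lit 179) (nat_lit 180) (nat_lit 192) (nat_lit 1) (nat_lit 10) (nat_lit 10) (nat_lit 1) (nat_lit 9) (nat_lit 10) (by decide +kernel)
theorem L16200 : W_23 (nat_lit 3) (nat_lit 0x60003c000a0010000a0000000000000000000000000000000) (nat_lit 0x0) (nat_lit 0x1001c00004000000000000000000000000000000000000000) := T_23 (nat_lit 178) (nat_lit 158) (nat_lit 0) (nat_lit 8) (nat_lit 10) L16199 (by decide +kernel)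
theorem L16201 : W_23 (nat_lit 4) (nat_lit 0x60003c00080010000a0000000000000000000000000000000) (nat_lit 0x0) (nat_lit 0x1001c00007000000000000000000000000000000000000000) := T_23 (nat_lit 157) (nat_lit 156) (nat_lit 0) (nat_lit 7) (nat_lit 10) L16200 (by decide +kernel)
theorem L16202 : W_23 (nat_lit 5) (nat_lit 0x60003800080010000a0000000000000000000000000000000) (nat_lit 0x0) (nat_lit 0x1001c60007000000000000000000000000000000000000000) := T_23 (nat_lit 174) (nat_lit 173) (nat_lit 3) (nat_lit 3) (nat_lit 10) L16201 (by decide +kernel)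
theorem L16203 : W_23 (nat_lit 6) (nat_lit 0x6000380008001000080000000000000000000000000000000) (nat_lit 0x0) (nat_lit 0x1001c60007000400020000000000000000000000000000000) := T_23 (nat_lit 125) (nat_lit 142) (nat_lit 7) (nat_lit 6) (nat_lit 7) L16202 (by decide +kernel)
theorem L16204 : W_23 (nat_lit 4) (nat_lit 0x17000780008001600080000000000000000000000000000000) (nat_lit 0x0) (nat_lit 0x160001c0008000000000000000000000000000000) := T_23 (nat_lit 158) (nat_lit 157) (nat_lit 0) (nat_lit 8) (nat_lit 10) L7668 (by decide +kernel)
theorem L16205 : W_23 (nat_lit 5) (nat_lit 0x17000780008001400080000000000000000000000000000000) (nat_lit 0x0) (nat_lit 0x160003c0018000000000000000000000000000000) := T_23 (nat_lit 141) (nat_lit 124) (nat_lit 4) (nat_lit 6) (nat_lit 11) L16204 (by decide +kernel)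
theorem L16206 : W_23 (nat_lit 6) (nat_lit 0x17000380008001400080000000000000000000000000000000) (nat_lit 0x0) (nat_lit 0xc000160003c0018000000000000000000000000000000) := T_23 (nat_lit 178) (nat_lit 179) (nat_lit 1) (nat_lit 9) (nat_lit 10) L16205 (by decide +kernel)
theorem L16207 : W_23 (nat_lit 7) (nat_lit 0x16000380008001400080000000000000000000000000000000) (nat_lit 0x0) (nat_lit 0x20001000c000160003c0018000000000000000000000000000000) := T_23 (nat_lit 192) (nat_lit 209) (nat_lit 5) (nat_lit 6) (nat_lit 8) L16206 (by decide +kernel)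
theorem L16208 : W_23 (nat_lit 8) (nat_lit 0x16000380008001000080000000000000000000000000000000) (nat_lit 0x0) (nat_lit 0x20001000c000160007c0038000000000000000000000000000000) := T_23 (nat_lit 142) (nat_lit 125) (nat_lit 7) (nat_lit 6) (nat_lit 7) L16207 (by decide +kernel)
theorem L16209 : W_23 (nat_lit 9) (nat_lit 0x6000380008001000080000000000000000000000000000000) (nat_lit 0x0) (nat_lit 0x20019000c000160007c0038000000000000000000000000000000) := T_23 (nat_lit 196) (nat_lit 195) (nat_lit 0) (nat_lit 9) (nat_lit 11) L16208 (by decide +kernel)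
theorem L16210 : W_23 (nat_lit 10) (nat_lit 0x6000300008001000080000000000000000000000000000000) (nat_lit 0x0) (nat_lit 0x20019001ce00170007c0038000000000000000000000000000000) := Q_23 (nat_lit 175) (C_23 L15759 (C_23 L16203 (C_23 L16209 N_23))) (by decide +kernel)
theorem L16211 : W_23 (nat_lit 11) (nat_lit 0x4000300008001000080000000000000000000000000000000) (nat_lit 0x0) (nat_lit 0x10000c0006001b001ce00170007c0038000000000000000000000000000000) := Q_23 (nat_lit 193) (C_23 L16176 (C_23 L16183 (C_23 L16189 (C_23 L16194 (C_23 L16198 (C_23 L16210 N_23)))))) (by decide +kernel)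
theorem L16212 : W_23 (nat_lit 2) (nat_lit 0x80004000300008001000080000000000000000000000000000000) (nat_lit 0x0) (nat_lit 0x2000000010000400000000000000000000000000000000000) := D_23 (nat_lit 142) (nat_lit 160) (nat_lit 193) (nat_lit 4) (nat_lit 7) (nat_lit 12) (nat_lit 7) (nat_lit 6) (nat_lit 8) (by decide +kernel)
theorem L16213 : W_23 (nat_lit 3) (nat_lit 0x4000300008001000080000000000000000000000000000000) (nat_lit 0x0) (nat_lit 0x1000080002000000010000400000000000000000000000000000000000) := T_23 (nat_lit 211) (nat_lit 228) (nat_lit 4) (nat_lit 7) (nat_lit 13) L16212 (by decide +kernel)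
theorem L16214 : W_23 (nat_lit 4) (nat_lit 0x100002000f000380008001000080000000000000000000000000000000) (nat_lit 0x0) (nat_lit 0x60002000300000000c00000000000000000000000000000000000000000000) := T_23 (nat_lit 178) (nat_lit 179) (nat_lit 2) (nat_lit 5) (nat_lit 11) L14576 (by decide +kernel)
theorem L16215 : W_23 (nat_lit 5) (nat_lit 0x100002000d000380008001000080000000000000000000000000000000) (nat_lit 0x0) (nat_lit 0x60002000310002000c00000000000000000000000000000000000000000000) := T_23 (nat_lit 193) (nat_lit 208) (nat_lit 1) (nat_lit 8) (nat_lit 11) L16214 (by decide +kernel)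
theorem L16216 : W_23 (nat_lit 6) (nat_lit 0x100002000c000380008001000080000000000000000000000000000000) (nat_lit 0x0) (nat_lit 0x60002400310003000c00000000000000000000000000000000000000000000) := T_23 (nat_lit 192) (nat_lit 226) (nat_lit 6) (nat_lit 5) (nat_lit 13) L16215 (by decide +kernel)
theorem L16217 : W_23 (nat_lit 7) (nat_lit 0x100002000c000300008001000080000000000000000000000000000000) (nat_lit 0x0) (nat_lit 0x60002400310003000cc0000000000000000000000000000000000000000000) := T_23 (nat_lit 175) (nat_lit 174) (nat_lit 3) (nat_lit 4) (nat_lit 10) L16216 (by decide +kernel)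
theorem L16218 : W_23 (nat_lit 8) (nat_lit 0x2000c000300008001000080000000000000000000000000000000) (nat_lit 0x0) (nat_lit 0x60003400390003000cc0000000000000000000000000000000000000000000) := T_23 (nat_lit 228) (nat_lit 211) (nat_lit 4) (nat_lit 7) (nat_lit 13) L16217 (by decide +kernel)
theorem L16219 : W_23 (nat_lit 2) (nat_lit 0xe000e000340008001000080000000000000000000000000000000) (nat_lit 0x0) (nat_lit 0x10000800000000000000010000000000000000000000000000000000000000) := D_23 (nat_lit 227) (nat_lit 160) (nat_lit 244) (nat_lit 6) (nat_lit 6) (nat_lit 13) (nat_lit 6) (nat_lit 6) (nat_lit 14) (by decide +kernel)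
theorem L16220 : W_23 (nat_lit 3) (nat_lit 0xe000c000340008001000080000000000000000000000000000000) (nat_lit 0x0) (nat_lit 0x10000c00000002000000010000000000000000000000000000000000000000) := T_23 (nat_lit 193) (nat_lit 226) (nat_lit 5) (nat_lit 6) (nat_lit 9) L16219 (by decide +kernel)
theorem L16221 : W_23 (nat_lit 4) (nat_lit 0xa000c000340008001000080000000000000000000000000000000) (nat_lit 0x0) (nat_lit 0x10000c00050002000000010000000000000000000000000000000000000000) := T_23 (nat_lit 210) (nat_lit 208) (nat_lit 2) (nat_lit 4) (nat_lit 12) L16220 (by decide +kernel)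
theorem L16222 : W_23 (nat_lit 5) (nat_lit 0x2000c000340008001000080000000000000000000000000000000) (nat_lit 0x0) (nat_lit 0x10001c000d0002000000010000000000000000000000000000000000000000) := T_23 (nat_lit 211) (nat_lit 228) (nat_lit 4) (nat_lit 7) (nat_lit 13) L16221 (by decide +kernel)
theorem L16223 : W_23 (nat_lit 6) (nat_lit 0x2000c000300008001000080000000000000000000000000000000) (nat_lit 0x0) (nat_lit 0x10001c000d00020000c0010000000000000000000000000000000000000000) := T_23 (nat_lit 174) (nat_lit 175) (nat_lit 3) (nat_lit 4) (nat_lit 10) L16222 (by decide +kernel)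
theorem L16224 : W_23 (nat_lit 2) (nat_lit 0xb000d00038000c001000080000000000000000000000000000000) (nat_lit 0x0) (nat_lit 0x400002000100000000000000000000000000000000000) := D_23 (nat_lit 157) (nat_lit 140) (nat_lit 178) (nat_lit 4) (nat_lit 5) (nat_lit 12) (nat_lit 0) (nat_lit 8) (nat_lit 10) (by decide +kernel)
theorem L16225 : W_23 (nat_lit 3) (nat_lit 0xb000d000380008001000080000000000000000000000000000000) (nat_lit 0x0) (nat_lit 0x200000000000400006000100000000000000000000000000000000000) := T_23 (nat_lit 158) (nat_lit 225) (nat_lit 5) (nat_lit 5) (nat_lit 9) L16224 (by decide +kernel)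
theorem L16226 : W_23 (nat_lit 4) (nat_lit 0xb000c000380008001000080000000000000000000000000000000) (nat_lit 0x0) (nat_lit 0x600000001000400006000100000000000000000000000000000000000) := T_23 (nat_lit 192) (nat_lit 226) (nat_lit 6) (nat_lit 5) (nat_lit 13) L16225 (by decide +kernel)
theorem L16227 : W_23 (nat_lit 5) (nat_lit 0xa000c000380008001000080000000000000000000000000000000) (nat_lit 0x0) (nat_lit 0x600050001000400006000100000000000000000000000000000000000) := T_23 (nat_lit 208) (nat_lit 210) (nat_lit 2) (nat_lit 4) (nat_lit 12) L16226 (by decide +kernel)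
theorem L16228 : W_23 (nat_lit 6) (nat_lit 0xa000c000300008001000080000000000000000000000000000000) (nat_lit 0x0) (nat_lit 0x6000500010004c0006000100000000000000000000000000000000000) := T_23 (nat_lit 175) (nat_lit 174) (nat_lit 3) (nat_lit 4) (nat_lit 10) L16227 (by decide +kernel)
theorem L16229 : W_23 (nat_lit 7) (nat_lit 0x2000c000300008001000080000000000000000000000000000000) (nat_lit 0x0) (nat_lit 0x16000d00010004c0006000100000000000000000000000000000000000) := T_23 (nat_lit 211) (nat_lit 228) (nat_lit 4) (nat_lit 7) (nat_lit 13) L16228 (by decide +kernel)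
theorem L16230 : W_23 (nat_lit 2) (nat_lit 0x12000f000780008001000080000000000000000000000000000000) (nat_lit 0x0) (nat_lit 0x40002000000000000000010000000000000000000000000000000000000000) := D_23 (nat_lit 229) (nat_lit 160) (nat_lit 246) (nat_lit 4) (nat_lit 8) (nat_lit 13) (nat_lit 4) (nat_lit 8) (nat_lit 14) (by decide +kernel)
theorem L16231 : W_23 (nat_lit 3) (nat_lit 0x2000f000780008001000080000000000000000000000000000000) (nat_lit 0x0) (nat_lit 0x40002000300000000000010000000000000000000000000000000000000000) := T_23 (nat_lit 212) (nat_lit 213) (nat_lit 3) (nat_lit 5) (nat_lit 11) L16230 (by decide +kernel)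
theorem L16232 : W_23 (nat_lit 4) (nat_lit 0x2000f000380008001000080000000000000000000000000000000) (nat_lit 0x0) (nat_lit 0x40002000300000000c00010000000000000000000000000000000000000000) := T_23 (nat_lit 178) (nat_lit 179) (nat_lit 2) (nat_lit 5) (nat_lit 11) L16231 (by decide +kernel)
theorem L16233 : W_23 (nat_lit 5) (nat_lit 0x2000d000380008001000080000000000000000000000000000000) (nat_lit 0x0) (nat_lit 0x40002000310002000c00010000000000000000000000000000000000000000) := T_23 (nat_lit 193) (nat_lit 208) (nat_lit 1) (nat_lit 8) (nat_lit 11) L16232 (by decide +kernel)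
theorem L16234 : W_23 (nat_lit 6) (nat_lit 0x2000c000380008001000080000000000000000000000000000000) (nat_lit 0x0) (nat_lit 0x40002400310003000c00010000000000000000000000000000000000000000) := T_23 (nat_lit 192) (nat_lit 226) (nat_lit 6) (nat_lit 5) (nat_lit 13) L16233 (by decide +kernel)
theorem L16235 : W_23 (nat_lit 7) (nat_lit 0x2000c000300008001000080000000000000000000000000000000) (nat_lit 0x0) (nat_lit 0x40002400310003000cc0010000000000000000000000000000000000000000) := T_23 (nat_lit 175) (nat_lit 174) (nat_lit 3) (nat_lit 4) (nat_lit 10) L16234 (by decide +kernel)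
theorem L16236 : W_23 (nat_lit 2) (nat_lit 0xe000e000300008001000080000000000000000000000000000000) (nat_lit 0x0) (nat_lit 0x10000800000000000000010000000000000000000000000000000000000000) := D_23 (nat_lit 227) (nat_lit 160) (nat_lit 244) (nat_lit 6) (nat_lit 6) (nat_lit 13) (nat_lit 6) (nat_lit 6) (nat_lit 14) (by decide +kernel)
theorem L16237 : W_23 (nat_lit 3) (nat_lit 0xe000c000300008001000080000000000000000000000000000000) (nat_lit 0x0) (nat_lit 0x10000c00000002000000010000000000000000000000000000000000000000) := T_23 (nat_lit 193) (nat_lit 226) (nat_lit 5) (nat_lit 6) (nat_lit 9) L16236 (by decide +kernel)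
theorem L16238 : W_23 (nat_lit 4) (nat_lit 0xa000c000300008001000080000000000000000000000000000000) (nat_lit 0x0) (nat_lit 0x10000c00050002000000010000000000000000000000000000000000000000) := T_23 (nat_lit 210) (nat_lit 208) (nat_lit 2) (nat_lit 4) (nat_lit 12) L16237 (by decide +kernel)
theorem L16239 : W_23 (nat_lit 5) (nat_lit 0x2000c000300008001000080000000000000000000000000000000) (nat_lit 0x0) (nat_lit 0x10001c000d0002000000010000000000000000000000000000000000000000) := T_23 (nat_lit 211) (nat_lit 228) (nat_lit 4) (nat_lit 7) (nat_lit 13) L16238 (by decide +kernel)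
theorem L16240 : W_23 (nat_lit 2) (nat_lit 0x4001e000c000380008001000080000000000000000000000000000000) (nat_lit 0x0) (nat_lit 0x2800000000000000010000000000000000000000000000000000000000) := D_23 (nat_lit 160) (nat_lit 227) (nat_lit 229) (nat_lit 5) (nat_lit 7) (nat_lit 9) (nat_lit 7) (nat_lit 7) (nat_lit 9) (by decide +kernel)
theorem L16241 : W_23 (nat_lit 3) (nat_lit 0x4000e000c000380008001000080000000000000000000000000000000) (nat_lit 0x0) (nat_lit 0x2a00100000000000010000000000000000000000000000000000000000) := T_23 (nat_lit 212) (nat_lit 225) (nat_lit 1) (nat_lit 8) (nat_lit 12) L16240 (by decide +kernel)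
theorem L16242 : W_23 (nat_lit 4) (nat_lit 0x4000a000c000380008001000080000000000000000000000000000000) (nat_lit 0x0) (nat_lit 0x2a00140002000000010000000000000000000000000000000000000000) := T_23 (nat_lit 210) (nat_lit 193) (nat_lit 5) (nat_lit 6) (nat_lit 9) L16241 (by decide +kernel)
theorem L16243 : W_23 (nat_lit 5) (nat_lit 0xa000c000380008001000080000000000000000000000000000000) (nat_lit 0x0) (nat_lit 0x2e00140003000000010000000000000000000000000000000000000000) := T_23 (nat_lit 226) (nat_lit 192) (nat_lit 6) (nat_lit 5) (nat_lit 13) L16242 (by decide +kernel)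
theorem L16244 : W_23 (nat_lit 6) (nat_lit 0xa000c000300008001000080000000000000000000000000000000) (nat_lit 0x0) (nat_lit 0x2e001400030000c0010000000000000000000000000000000000000000) := T_23 (nat_lit 175) (nat_lit 174) (nat_lit 3) (nat_lit 4) (nat_lit 10) L16243 (by decide +kernel)
theorem L16245 : W_23 (nat_lit 7) (nat_lit 0x2000c000300008001000080000000000000000000000000000000) (nat_lit 0x0) (nat_lit 0x3e001c00030000c0010000000000000000000000000000000000000000) := T_23 (nat_lit 211) (nat_lit 228) (nat_lit 4) (nat_lit 7) (nat_lit 13) L16244 (by decide +kernel)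
theorem L16246 : W_23 (nat_lit 2) (nat_lit 0x8000e000c000340008001000080000000000000000000000000000000) (nat_lit 0x0) (nat_lit 0x200010000000000002000000000000000000000000000000000000000000000000) := D_23 (nat_lit 244) (nat_lit 261) (nat_lit 193) (nat_lit 6) (nat_lit 6) (nat_lit 15) (nat_lit 6) (nat_lit 6) (nat_lit 14) (by decide +kernel)
theorem L16247 : W_23 (nat_lit 3) (nat_lit 0xe000c000340008001000080000000000000000000000000000000) (nat_lit 0x0) (nat_lit 0x200010000800000002000000010000000000000000000000000000000000000000) := T_23 (nat_lit 227) (nat_lit 160) (nat_lit 5) (nat_lit 7) (nat_lit 9) L16246 (by decide +kernel)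
theorem L16248 : W_23 (nat_lit 4) (nat_lit 0xa000c000340008001000080000000000000000000000000000000) (nat_lit 0x0) (nat_lit 0x200010000800050002000000010000000000000000000000000000000000000000) := T_23 (nat_lit 210) (nat_lit 208) (nat_lit 2) (nat_lit 4) (nat_lit 12) L16247 (by decide +kernel)
theorem L16249 : W_23 (nat_lit 5) (nat_lit 0x2000c000340008001000080000000000000000000000000000000) (nat_lit 0x0) (nat_lit 0x2000100018000d0002000000010000000000000000000000000000000000000000) := T_23 (nat_lit 211) (nat_lit 228) (nat_lit 4) (nat_lit 7) (nat_lit 13) L16248 (by decide +kernel)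
theorem L16250 : W_23 (nat_lit 6) (nat_lit 0x2000c000300008001000080000000000000000000000000000000) (nat_lit 0x0) (nat_lit 0x2000100018000d00020000c0010000000000000000000000000000000000000000) := T_23 (nat_lit 174) (nat_lit 175) (nat_lit 3) (nat_lit 4) (nat_lit 10) L16249 (by decide +kernel)
theorem L16251 : W_23 (nat_lit 9) (nat_lit 0xc000300008001000080000000000000000000000000000000) (nat_lit 0x0) (nat_lit 0x200070003e003f0003000cc0016000100000000000000000000000000000000000) := Q_23 (nat_lit 209) (C_23 L16218 (C_23 L16223 (C_23 L16229 (C_23 L16235 (C_23 L16239 (C_23 L16245 (C_23 L16250 N_23))))))) (by decide +kernel)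
theorem L16252 : W_23 (nat_lit 2) (nat_lit 0x100000001c000300008001000080000000000000000000000000000000) (nat_lit 0x0) (nat_lit 0x4c0000000000000000000000000000000000000000000) := D_23 (nat_lit 175) (nat_lit 174) (nat_lit 178) (nat_lit 3) (nat_lit 4) (nat_lit 10) (nat_lit 3) (nat_lit 5) (nat_lit 10) (by decide +kernel)
theorem L16253 : W_23 (nat_lit 3) (nat_lit 0x100000000c000300008001000080000000000000000000000000000000) (nat_lit 0x0) (nat_lit 0x300004c0000000000000000000000000000000000000000000) := T_23 (nat_lit 196) (nat_lit 197) (nat_lit 0) (nat_lit 10) (nat_lit 11) L16252 (by decide +kernel)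
theorem L16254 : W_23 (nat_lit 4) (nat_lit 0xc000300008001000080000000000000000000000000000000) (nat_lit 0x0) (nat_lit 0x10000800300004c0000000000000000000000000000000000000000000) := T_23 (nat_lit 228) (nat_lit 211) (nat_lit 4) (nat_lit 7) (nat_lit 13) L16253 (by decide +kernel)
theorem L16255 : W_23 (nat_lit 2) (nat_lit 0x100000000c000f00008001000080000000000000000000000000000000) (nat_lit 0x0) (nat_lit 0x2001000010000000000000000000000000000000000000000) := D_23 (nat_lit 180) (nat_lit 160) (nat_lit 193) (nat_lit 0) (nat_lit 10) (nat_lit 10) (nat_lit 1) (nat_lit 10) (nat_lit 10) (by decide +kernel)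
theorem L16256 : W_23 (nat_lit 3) (nat_lit 0x100000000c000b00008001000080000000000000000000000000000000) (nat_lit 0x0) (nat_lit 0x2001400014000000000000000000000000000000000000000) := T_23 (nat_lit 178) (nat_lit 158) (nat_lit 0) (nat_lit 9) (nat_lit 10) L16255 (by decide +kernel)
theorem L16257 : W_23 (nat_lit 4) (nat_lit 0xc000b00008001000080000000000000000000000000000000) (nat_lit 0x0) (nat_lit 0x1000080002001400014000000000000000000000000000000000000000) := T_23 (nat_lit 228) (nat_lit 211) (nat_lit 4) (nat_lit 7) (nat_lit 13) L16256 (by decide +kernel)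
theorem L16258 : W_23 (nat_lit 2) (nat_lit 0x100004001e000b00008001000080000000000000000000000000000000) (nat_lit 0x0) (nat_lit 0x20000800000000000000010000000000000000000000000000000000000000) := D_23 (nat_lit 227) (nat_lit 245) (nat_lit 160) (nat_lit 7) (nat_lit 6) (nat_lit 10) (nat_lit 6) (nat_lit 6) (nat_lit 13) (by decide +kernel)
theorem L16259 : W_23 (nat_lit 3) (nat_lit 0x100000001e000b00008001000080000000000000000000000000000000) (nat_lit 0x0) (nat_lit 0x20000800060000000000010000000000000000000000000000000000000000) := T_23 (nat_lit 210) (nat_lit 209) (nat_lit 1) (nat_lit 9) (nat_lit 11) L16258 (by decide +kernel)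
theorem L16260 : W_23 (nat_lit 4) (nat_lit 0x100000001c000b00008001000080000000000000000000000000000000) (nat_lit 0x0) (nat_lit 0x20000800060002001000010000000000000000000000000000000000000000) := T_23 (nat_lit 193) (nat_lit 180) (nat_lit 2) (nat_lit 6) (nat_lit 11) L16259 (by decide +kernel)
theorem L16261 : W_23 (nat_lit 5) (nat_lit 0x1c000b00008001000080000000000000000000000000000000) (nat_lit 0x0) (nat_lit 0x200018000e0002001000010000000000000000000000000000000000000000) := T_23 (nat_lit 228) (nat_lit 211) (nat_lit 4) (nat_lit 7) (nat_lit 13) L16260 (by decide +kernel)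
theorem L16262 : W_23 (nat_lit 6) (nat_lit 0xc000b00008001000080000000000000000000000000000000) (nat_lit 0x0) (nat_lit 0x200018000e0032001000010000000000000000000000000000000000000000) := T_23 (nat_lit 196) (nat_lit 197) (nat_lit 0) (nat_lit 10) (nat_lit 11) L16261 (by decide +kernel)
theorem L16263 : W_23 (nat_lit 3) (nat_lit 0x2c000b00008001000080000000000000000000000000000000) (nat_lit 0x0) (nat_lit 0x40003400004000000000000000000000000000000000000000) := T_23 (nat_lit 178) (nat_lit 158) (nat_lit 0) (nat_lit 9) (nat_lit 10) L15825 (by decide +kernel)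
theorem L16264 : W_23 (nat_lit 4) (nat_lit 0xc000b00008001000080000000000000000000000000000000) (nat_lit 0x0) (nat_lit 0x70003400004000000000000000000000000000000000000000) := T_23 (nat_lit 197) (nat_lit 196) (nat_lit 0) (nat_lit 10) (nat_lit 11) L16263 (by decide +kernel)
theorem L16265 : W_23 (nat_lit 2) (nat_lit 0x100004001e000f00008001000080000000000000000000000000000000) (nat_lit 0x0) (nat_lit 0x20000800000000000000010000000000000000000000000000000000000000) := D_23 (nat_lit 227) (nat_lit 245) (nat_lit 160) (nat_lit 7) (nat_lit 6) (nat_lit 10) (nat_lit 6) (nat_lit 6) (nat_lit 13) (by decide +kernel)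
theorem L16266 : W_23 (nat_lit 3) (nat_lit 0x100000001e000f00008001000080000000000000000000000000000000) (nat_lit 0x0) (nat_lit 0x20000800060000000000010000000000000000000000000000000000000000) := T_23 (nat_lit 210) (nat_lit 209) (nat_lit 1) (nat_lit 9) (nat_lit 11) L16265 (by decide +kernel)
theorem L16267 : W_23 (nat_lit 4) (nat_lit 0x100000001c000f00008001000080000000000000000000000000000000) (nat_lit 0x0) (nat_lit 0x20000800060003000000010000000000000000000000000000000000000000) := T_23 (nat_lit 193) (nat_lit 192) (nat_lit 2) (nat_lit 5) (nat_lit 11) L16266 (by decide +kernel)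
theorem L16268 : W_23 (nat_lit 5) (nat_lit 0x100000001c000b00008001000080000000000000000000000000000000) (nat_lit 0x0) (nat_lit 0x20000800060003000400014000000000000000000000000000000000000000) := T_23 (nat_lit 178) (nat_lit 158) (nat_lit 0) (nat_lit 9) (nat_lit 10) L16267 (by decide +kernel)
theorem L16269 : W_23 (nat_lit 6) (nat_lit 0x100000000c000b00008001000080000000000000000000000000000000) (nat_lit 0x0) (nat_lit 0x20000800060033000400014000000000000000000000000000000000000000) := T_23 (nat_lit 196) (nat_lit 197) (nat_lit 0) (nat_lit 10) (nat_lit 11) L16268 (by decide +kernel)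
theorem L16270 : W_23 (nat_lit 7) (nat_lit 0xc000b00008001000080000000000000000000000000000000) (nat_lit 0x0) (nat_lit 0x200018000e0033000400014000000000000000000000000000000000000000) := T_23 (nat_lit 228) (nat_lit 211) (nat_lit 4) (nat_lit 7) (nat_lit 13) L16269 (by decide +kernel)
theorem L16271 : W_23 (nat_lit 8) (nat_lit 0xc000300008001000080000000000000000000000000000000) (nat_lit 0x0) (nat_lit 0x200018000e0073003c00014000000000000000000000000000000000000000) := Q_23 (nat_lit 179) (C_23 L16257 (C_23 L16262 (C_23 L16264 (C_23 L16270 N_23)))) (by decide +kernel)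
theorem L16272 : W_23 (nat_lit 10) (nat_lit 0x4000300008001000080000000000000000000000000000000) (nat_lit 0x0) (nat_lit 0x200070003e003f007b003cc0016000100000000000000000000000000000000000) := Q_23 (nat_lit 195) (C_23 L15074 (C_23 L16251 (C_23 L16254 (C_23 L16271 N_23)))) (by decide +kernel)
theorem L16273 : W_23 (nat_lit 12) (nat_lit 0x4000300000001000080000000000000000000000000000000) (nat_lit 0x0) (nat_lit 0x200070003e003f007b003ce001f0007c0038000000000000000000000000000000) := Q_23 (nat_lit 159) (C_23 L14840 (C_23 L14838 (C_23 L16211 (C_23 L16213 (C_23 L16272 N_23))))) (by decide +kernel)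
theorem L16274 : W_23 (nat_lit 16) (nat_lit 0x300000001000080000000000000000000000000000000) (nat_lit 0x0) (nat_lit 0x3e001fe01ff00ff807f003ce01df000fc017c001000080000000000000000000000) := Q_23 (nat_lit 194) (C_23 L16064 (C_23 L16124 (C_23 L15824 (C_23 L16140 (C_23 L16171 (C_23 L15344 (C_23 L16273 (C_23 L12488 N_23)))))))) (by decide +kernel)
theorem L16275 : W_23 (nat_lit 7) (nat_lit 0xe000300000001000080000000000000000000000000000000) (nat_lit 0x0) (nat_lit 0x8000400370001c00ce0008000400000000000000000000000000000000000) := Q_23 (nat_lit 192) (C_23 L16049 (C_23 L11632 (C_23 L11603 N_23))) (by decide +kernel)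
theorem L16276 : W_23 (nat_lit 2) (nat_lit 0xe000340000001f00080000000000000000000000000000000) (nat_lit 0x0) (nat_lit 0x1c000000000000000000000000000000) := D_23 (nat_lit 123) (nat_lit 122) (nat_lit 124) (nat_lit 0) (nat_lit 7) (nat_lit 8) (nat_lit 0) (nat_lit 8) (nat_lit 8) (by decide +kernel)
theorem L16277 : W_23 (nat_lit 3) (nat_lit 0xe000340000001e00080000000000000000000000000000000) (nat_lit 0x0) (nat_lit 0x10005c000000000000000000000000000000) := T_23 (nat_lit 140) (nat_lit 126) (nat_lit 2) (nat_lit 4) (nat_lit 8) L16276 (by decide +kernel)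
theorem L16278 : W_23 (nat_lit 4) (nat_lit 0xe000340000001c00080000000000000000000000000000000) (nat_lit 0x0) (nat_lit 0x30015c000000000000000000000000000000) := T_23 (nat_lit 141) (nat_lit 128) (nat_lit 2) (nat_lit 5) (nat_lit 8) L16277 (by decide +kernel)
theorem L16279 : W_23 (nat_lit 5) (nat_lit 0xe000340000001400080000000000000000000000000000000) (nat_lit 0x0) (nat_lit 0x10000b0015c000000000000000000000000000000) := T_23 (nat_lit 143) (nat_lit 160) (nat_lit 6) (nat_lit 7) (nat_lit 11) L16278 (by decide +kernel)
theorem L16280 : W_23 (nat_lit 6) (nat_lit 0xe000300000001400080000000000000000000000000000000) (nat_lit 0x0) (nat_lit 0xc0010000b0015c000000000000000000000000000000) := T_23 (nat_lit 174) (nat_lit 175) (nat_lit 3) (nat_lit 4) (nat_lit 10) L16279 (by decide +kernel)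
theorem L16281 : W_23 (nat_lit 2) (nat_lit 0x4000e000300018001400080000000000000000000000000000000) (nat_lit 0x0) (nat_lit 0x4000200010000000000000000000000000000000) := D_23 (nat_lit 141) (nat_lit 124) (nat_lit 158) (nat_lit 4) (nat_lit 6) (nat_lit 11) (nat_lit 4) (nat_lit 6) (nat_lit 12) (by decide +kernel)
theorem L16282 : W_23 (nat_lit 3) (nat_lit 0x4000e000300010001400080000000000000000000000000000000) (nat_lit 0x0) (nat_lit 0xc000200030000000000000000000000000000000) := T_23 (nat_lit 159) (nat_lit 125) (nat_lit 7) (nat_lit 6) (nat_lit 7) L16281 (by decide +kernel)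
theorem L16283 : W_23 (nat_lit 4) (nat_lit 0xe000300010001400080000000000000000000000000000000) (nat_lit 0x0) (nat_lit 0x80004000000000000c000200030000000000000000000000000000000) := T_23 (nat_lit 210) (nat_lit 227) (nat_lit 6) (nat_lit 6) (nat_lit 13) L16282 (by decide +kernel)
theorem L16284 : W_23 (nat_lit 5) (nat_lit 0xe000300000001400080000000000000000000000000000000) (nat_lit 0x0) (nat_lit 0x80004000000000001c000a00030000000000000000000000000000000) := T_23 (nat_lit 160) (nat_lit 143) (nat_lit 6) (nat_lit 7) (nat_lit 11) L16283 (by decide +kernel)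
theorem L16285 : W_23 (nat_lit 5) (nat_lit 0xe000340000001400080000000000000000000000000000000) (nat_lit 0x0) (nat_lit 0x1000080004000000000001c000200030000000000000000000000000000000) := T_23 (nat_lit 159) (nat_lit 125) (nat_lit 7) (nat_lit 6) (nat_lit 7) L15026 (by decide +kernel)
theorem L16286 : W_23 (nat_lit 6) (nat_lit 0xe000300000001400080000000000000000000000000000000) (nat_lit 0x0) (nat_lit 0x100008000400000000c001c000200030000000000000000000000000000000) := T_23 (nat_lit 174) (nat_lit 175) (nat_lit 3) (nat_lit 4) (nat_lit 10) L16285 (by decide +kernel)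
theorem L16287 : W_23 (nat_lit 4) (nat_lit 0xe000300008001400080000000000000000000000000000000) (nat_lit 0x0) (nat_lit 0xc0000000a00150000000000000000000000000000000) := T_23 (nat_lit 174) (nat_lit 175) (nat_lit 3) (nat_lit 4) (nat_lit 10) L15030 (by decide +kernel)
theorem L16288 : W_23 (nat_lit 5) (nat_lit 0xe000300000001400080000000000000000000000000000000) (nat_lit 0x0) (nat_lit 0xc0008000a00170000000000000000000000000000000) := T_23 (nat_lit 159) (nat_lit 125) (nat_lit 7) (nat_lit 6) (nat_lit 7) L16287 (by decide +kernel)
theorem L16289 : W_23 (nat_lit 7) (nat_lit 0xe000300000001000080000000000000000000000000000000) (nat_lit 0x0) (nat_lit 0x100008000400000000c001c000f0017c000000000000000000000000000000) := Q_23 (nat_lit 142) (C_23 L15916 (C_23 L16280 (C_23 L16284 (C_23 L16286 (C_23 L16288 N_23))))) (by decide +kernel)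
theorem L16290 : W_23 (nat_lit 9) (nat_lit 0xc000300000001000080000000000000000000000000000000) (nat_lit 0x0) (nat_lit 0x18002c00378003c01ce001c000f0017c000000000000000000000000000000) := Q_23 (nat_lit 193) (C_23 L11870 (C_23 L16168 (C_23 L15921 (C_23 L16275 (C_23 L16289 N_23))))) (by decide +kernel)
theorem L16291 : W_23 (nat_lit 10) (nat_lit 0x4000300000001000080000000000000000000000000000000) (nat_lit 0x0) (nat_lit 0x18002c0077803bc01ce001c000f0017c000000000000000000000000000000) := Q_23 (nat_lit 195) (C_23 L14831 (C_23 L16290 (C_23 L5316 (C_23 L10838 (C_23 L16170 N_23))))) (by decide +kernel)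
theorem L16292 : W_23 (nat_lit 2) (nat_lit 0x1c00040006000300008001000080000000000000000000000000000000) (nat_lit 0x0) (nat_lit 0x80004000200000000000000000000000000000000000) := D_23 (nat_lit 158) (nat_lit 175) (nat_lit 141) (nat_lit 4) (nat_lit 6) (nat_lit 13) (nat_lit 4) (nat_lit 6) (nat_lit 12) (by decide +kernel)
theorem L16293 : W_23 (nat_lit 3) (nat_lit 0x1c00040006000300000001000080000000000000000000000000000000) (nat_lit 0x0) (nat_lit 0x8000000008000c000200000000000000000000000000000000000) := T_23 (nat_lit 159) (nat_lit 211) (nat_lit 7) (nat_lit 6) (nat_lit 9) L16292 (by decide +kernel)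
theorem L16294 : W_23 (nat_lit 4) (nat_lit 0xc00040006000300000001000080000000000000000000000000000000) (nat_lit 0x0) (nat_lit 0x2000100008000000008000c000200000000000000000000000000000000000) := T_23 (nat_lit 228) (nat_lit 245) (nat_lit 7) (nat_lit 6) (nat_lit 10) L16293 (by decide +kernel)
theorem L16295 : W_23 (nat_lit 5) (nat_lit 0x800040006000300000001000080000000000000000000000000000000) (nat_lit 0x0) (nat_lit 0x2800140008000000008000c000200000000000000000000000000000000000) := T_23 (nat_lit 226) (nat_lit 243) (nat_lit 5) (nat_lit 6) (nat_lit 10) L16294 (by decide +kernel)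
theorem L16296 : W_23 (nat_lit 6) (nat_lit 0x40006000300000001000080000000000000000000000000000000) (nat_lit 0x0) (nat_lit 0x38001c0008000000008000c000200000000000000000000000000000000000) := T_23 (nat_lit 227) (nat_lit 244) (nat_lit 6) (nat_lit 6) (nat_lit 14) L16295 (by decide +kernel)
theorem L16297 : W_23 (nat_lit 2) (nat_lit 0x40006000300000001400080000000000000000000000000000000) (nat_lit 0x0) (nat_lit 0x80000000000008000000020000000000000000000000000000000) := D_23 (nat_lit 159) (nat_lit 125) (nat_lit 211) (nat_lit 7) (nat_lit 6) (nat_lit 7) (nat_lit 7) (nat_lit 6) (nat_lit 8) (by decide +kernel)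
theorem L16298 : W_23 (nat_lit 2) (nat_lit 0x40006000300000001f00080000000000000000000000000000000) (nat_lit 0x0) (nat_lit 0x1c000000000000000000000000000000) := D_23 (nat_lit 123) (nat_lit 122) (nat_lit 124) (nat_lit 0) (nat_lit 7) (nat_lit 8) (nat_lit 0) (nat_lit 8) (nat_lit 8) (by decide +kernel)
theorem L16299 : W_23 (nat_lit 3) (nat_lit 0x40006000300000001e00080000000000000000000000000000000) (nat_lit 0x0) (nat_lit 0x10005c000000000000000000000000000000) := T_23 (nat_lit 140) (nat_lit 126) (nat_lit 2) (nat_lit 4) (nat_lit 8) L16298 (by decide +kernel)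
theorem L16300 : W_23 (nat_lit 4) (nat_lit 0x40006000300000001c00080000000000000000000000000000000) (nat_lit 0x0) (nat_lit 0x30015c000000000000000000000000000000) := T_23 (nat_lit 141) (nat_lit 128) (nat_lit 2) (nat_lit 5) (nat_lit 8) L16299 (by decide +kernel)
theorem L16301 : W_23 (nat_lit 5) (nat_lit 0x40006000300000001400080000000000000000000000000000000) (nat_lit 0x0) (nat_lit 0x10000b0015c000000000000000000000000000000) := T_23 (nat_lit 143) (nat_lit 160) (nat_lit 6) (nat_lit 7) (nat_lit 11) L16300 (by decide +kernel)
theorem L16302 : W_23 (nat_lit 6) (nat_lit 0x40006000300000001000080000000000000000000000000000000) (nat_lit 0x0) (nat_lit 0x80000000000018000f0017c000000000000000000000000000000) := Q_23 (nat_lit 142) (C_23 L16297 (C_23 L16301 N_23)) (by decide +kernel)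
theorem L16303 : W_23 (nat_lit 7) (nat_lit 0x6000300000001000080000000000000000000000000000000) (nat_lit 0x0) (nat_lit 0x38001c000c000000008001c000f0017c000000000000000000000000000000) := Q_23 (nat_lit 210) (C_23 L12034 (C_23 L16296 (C_23 L16302 N_23))) (by decide +kernel)
theorem L16304 : W_23 (nat_lit 9) (nat_lit 0x4000300000001000080000000000000000000000000000000) (nat_lit 0x0) (nat_lit 0x38001c000f803bc01ce001c000f0017c000000000000000000000000000000) := Q_23 (nat_lit 193) (C_23 L15185 (C_23 L15286 (C_23 L12351 (C_23 L15059 (C_23 L16303 N_23))))) (by decide +kernel)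
theorem L16305 : W_23 (nat_lit 2) (nat_lit 0x100008000e000340010001000080000000000000000000000000000000) (nat_lit 0x0) (nat_lit 0x40002000100000000000000000000000000000000000000000000000000000) := D_23 (nat_lit 229) (nat_lit 212) (nat_lit 246) (nat_lit 7) (nat_lit 7) (nat_lit 9) (nat_lit 7) (nat_lit 7) (nat_lit 10) (by decide +kernel)
theorem L16306 : W_23 (nat_lit 3) (nat_lit 0x100008000e000340000001000080000000000000000000000000000000) (nat_lit 0x0) (nat_lit 0x40002000100000000000010000800000000000000000000000000000000000) := T_23 (nat_lit 160) (nat_lit 143) (nat_lit 6) (nat_lit 7) (nat_lit 11) L16305 (by decide +kernel)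
theorem L16307 : W_23 (nat_lit 4) (nat_lit 0x8000e000340000001000080000000000000000000000000000000) (nat_lit 0x0) (nat_lit 0x60003000100000000000010000800000000000000000000000000000000000) := T_23 (nat_lit 228) (nat_lit 245) (nat_lit 4) (nat_lit 7) (nat_lit 14) L16306 (by decide +kernel)
theorem L16308 : W_23 (nat_lit 5) (nat_lit 0x8000e000300000001000080000000000000000000000000000000) (nat_lit 0x0) (nat_lit 0x600030001000000000c0010000800000000000000000000000000000000000) := T_23 (nat_lit 174) (nat_lit 175) (nat_lit 3) (nat_lit 4) (nat_lit 10) L16307 (by decide +kernel)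
theorem L16309 : W_23 (nat_lit 7) (nat_lit 0xe000300000001000080000000000000000000000000000000) (nat_lit 0x0) (nat_lit 0x600030001800000000c0018000f0015c000000000000000000000000000000) := Q_23 (nat_lit 211) (C_23 L11830 (C_23 L15377 (C_23 L16308 N_23))) (by decide +kernel)
theorem L16310 : W_23 (nat_lit 5) (nat_lit 0xe000300000001000080000000000000000000000000000000) (nat_lit 0x0) (nat_lit 0x8000400038001c000e0018000800000000000000000000000000000000000) := Q_23 (nat_lit 192) (C_23 L15920 (C_23 L11632 (C_23 L11603 N_23))) (by decide +kernel)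
theorem L16311 : W_23 (nat_lit 8) (nat_lit 0xc000300000001000080000000000000000000000000000000) (nat_lit 0x0) (nat_lit 0x680034003f8003c00ce0018000f0015c000000000000000000000000000000) := Q_23 (nat_lit 193) (C_23 L15921 (C_23 L11876 (C_23 L16275 (C_23 L16309 (C_23 L16310 N_23))))) (by decide +kernel)
theorem L16312 : W_23 (nat_lit 11) (nat_lit 0x4000300000001000080000000000000000000000000000000) (nat_lit 0x0) (nat_lit 0x20001e800f4007f803bc01ce0018000f0015c000000000000000000000000000000) := Q_23 (nat_lit 195) (C_23 L14831 (C_23 L16311 (C_23 L5316 (C_23 L10838 (C_23 L15755 N_23))))) (by decide +kernel)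
theorem L16313 : W_23 (nat_lit 16) (nat_lit 0x300000001000080000000000000000000000000000000) (nat_lit 0x0) (nat_lit 0x3c001ff01ff80ff807fc03ce01dc000f0017c000000000000000000000000000000) := Q_23 (nat_lit 194) (C_23 L15209 (C_23 L15232 (C_23 L15992 (C_23 L11878 (C_23 L15292 (C_23 L15304 (C_23 L16291 (C_23 L15332 (C_23 L15344 (C_23 L16304 (C_23 L16312 (C_23 L15370 (C_23 L15406 N_23))))))))))))) (by decide +kernel)
theorem L16314 : W_23 (nat_lit 6) (nat_lit 0xc000700000001000080000000000000000000000000000000) (nat_lit 0x0) (nat_lit 0x400038008c0006000200010000000000000000000000000000000) := T_23 (nat_lit 175) (nat_lit 174) (nat_lit 3) (nat_lit 4) (nat_lit 10) L11053 (by decide +kernel)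
theorem L16315 : W_23 (nat_lit 7) (nat_lit 0xc000700000001000080000000000000000000000000000000) (nat_lit 0x0) (nat_lit 0x18038c01ce000000000000000000000000000000000000000) := T_23 (nat_lit 175) (nat_lit 174) (nat_lit 3) (nat_lit 4) (nat_lit 10) L7402 (by decide +kernel)
theorem L16316 : W_23 (nat_lit 2) (nat_lit 0xe000f00008001000080000000000000000000000000000000) (nat_lit 0x0) (nat_lit 0x1000080000000000000000400000000000000000000000000000000000) := D_23 (nat_lit 211) (nat_lit 228) (nat_lit 142) (nat_lit 4) (nat_lit 7) (nat_lit 13) (nat_lit 7) (nat_lit 6) (nat_lit 8) (by decide +kernel)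
theorem L16317 : W_23 (nat_lit 3) (nat_lit 0xe000f00000001000080000000000000000000000000000000) (nat_lit 0x0) (nat_lit 0x100008000000000000c000400000000000000000000000000000000000) := T_23 (nat_lit 159) (nat_lit 158) (nat_lit 0) (nat_lit 9) (nat_lit 10) L16316 (by decide +kernel)
theorem L16318 : W_23 (nat_lit 4) (nat_lit 0xc000f00000001000080000000000000000000000000000000) (nat_lit 0x0) (nat_lit 0x100008000300000000c000400000000000000000000000000000000000) := T_23 (nat_lit 193) (nat_lit 192) (nat_lit 2) (nat_lit 5) (nat_lit 11) L16317 (by decide +kernel)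
theorem L16319 : W_23 (nat_lit 5) (nat_lit 0xc000700000001000080000000000000000000000000000000) (nat_lit 0x0) (nat_lit 0x10000800030038001cc000400000000000000000000000000000000000) := Q_23 (nat_lit 179) (C_23 L15828 (C_23 L15465 (C_23 L16318 N_23))) (by decide +kernel)
theorem L16320 : W_23 (nat_lit 4) (nat_lit 0xe000780000001000080000000000000000000000000000000) (nat_lit 0x0) (nat_lit 0x40001800000006000200010000000000000000000000000000000) := T_23 (nat_lit 192) (nat_lit 191) (nat_lit 2) (nat_lit 4) (nat_lit 11) L11727 (by decide +kernel)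
theorem L16321 : W_23 (nat_lit 5) (nat_lit 0xe000700000001000080000000000000000000000000000000) (nat_lit 0x0) (nat_lit 0x400018000c0006000200010000000000000000000000000000000) := T_23 (nat_lit 175) (nat_lit 174) (nat_lit 3) (nat_lit 4) (nat_lit 10) L16320 (by decide +kernel)
theorem L16328 : W_23 (nat_lit 8) (nat_lit 0xe000700000001000080000000000000000000000000000000) (nat_lit 0x0) (nat_lit 0xe001f0003c0001800000008000000000000000000000000000000000000000) := T_23 (nat_lit 192) (nat_lit 191) (nat_lit 2) (nat_lit 4) (nat_lit 11) L16327 (by decide +kernel)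
theorem L16329 : W_23 (nat_lit 8) (nat_lit 0x10000f000740000001000080000000000000000000000000000000) (nat_lit 0x0) (nat_lit 0xe0007000080000000000008000e00170000000000000000000000000000000) := T_23 (nat_lit 229) (nat_lit 246) (nat_lit 4) (nat_lit 8) (nat_lit 14) L15612 (by decide +kernel)
theorem L16330 : W_23 (nat_lit 9) (nat_lit 0xf000740000001000080000000000000000000000000000000) (nat_lit 0x0) (nat_lit 0xe0007000380000000000008000e00170000000000000000000000000000000) := T_23 (nat_lit 212) (nat_lit 213) (nat_lit 3) (nat_lit 5) (nat_lit 11) L16329 (by decide +kernel)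
theorem L16331 : W_23 (nat_lit 10) (nat_lit 0xf000700000001000080000000000000000000000000000000) (nat_lit 0x0) (nat_lit 0xe00070003800000000c0008000e00170000000000000000000000000000000) := T_23 (nat_lit 174) (nat_lit 175) (nat_lit 3) (nat_lit 4) (nat_lit 10) L16330 (by decide +kernel)
theorem L16332 : W_23 (nat_lit 11) (nat_lit 0xe000700000001000080000000000000000000000000000000) (nat_lit 0x0) (nat_lit 0xe00070003800018000c0008000e00170000000000000000000000000000000) := T_23 (nat_lit 192) (nat_lit 191) (nat_lit 2) (nat_lit 4) (nat_lit 11) L16331 (by decide +kernel)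
theorem L16333 : W_23 (nat_lit 12) (nat_lit 0xc000700000001000080000000000000000000000000000000) (nat_lit 0x0) (nat_lit 0xe001f8003c00038000c000e000e00170000000000000000000000000000000) := Q_23 (nat_lit 193) (C_23 L16060 (C_23 L16321 (C_23 L16328 (C_23 L16332 N_23)))) (by decide +kernel)
theorem L16334 : W_23 (nat_lit 6) (nat_lit 0xc000700000001000080000000000000000000000000000000) (nat_lit 0x0) (nat_lit 0x10000800020008c000e000400020000000000000000000000000000000) := T_23 (nat_lit 175) (nat_lit 174) (nat_lit 3) (nat_lit 4) (nat_lit 10) L14806 (by decide +kernel)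
theorem L16335 : W_23 (nat_lit 6) (nat_lit 0xc000700000001000080000000000000000000000000000000) (nat_lit 0x0) (nat_lit 0x38038c01c0000000000000000000000000000000000000000) := T_23 (nat_lit 175) (nat_lit 174) (nat_lit 3) (nat_lit 4) (nat_lit 10) L7661 (by decide +kernel)
theorem L16336 : W_23 (nat_lit 13) (nat_lit 0xc000300000001000080000000000000000000000000000000) (nat_lit 0x0) (nat_lit 0xe001f8003c0003803cc01ce000e00170000000000000000000000000000000) := Q_23 (nat_lit 178) (C_23 L16314 (C_23 L16315 (C_23 L16319 (C_23 L16333 (C_23 L16334 (C_23 L16335 N_23)))))) (by decide +kernel)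
theorem L16349 : W_23 (nat_lit 10) (nat_lit 0xe000300000001000080000000000000000000000000000000) (nat_lit 0x0) (nat_lit 0xf0007c00780030001c000cc000400000000000000000000000000000000000) := Q_23 (nat_lit 211) (C_23 L11830 (C_23 L15635 (C_23 L16348 N_23))) (by decide +kernel)
theorem L16350 : W_23 (nat_lit 8) (nat_lit 0xf000300000001000080000000000000000000000000000000) (nat_lit 0x0) (nat_lit 0xe001f0003c0000000c00008000000000000000000000000000000000000000) := T_23 (nat_lit 178) (nat_lit 179) (nat_lit 2) (nat_lit 5) (nat_lit 11) L16327 (by decide +kernel)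
theorem L16351 : W_23 (nat_lit 9) (nat_lit 0xe000300000001000080000000000000000000000000000000) (nat_lit 0x0) (nat_lit 0xe001f0003c0001c00c00008000000000000000000000000000000000000000) := Q_23 (nat_lit 192) (C_23 L11587 (C_23 L11585 (C_23 L16350 N_23))) (by decide +kernel)
theorem L16357 : W_23 (nat_lit 11) (nat_lit 0xc000300000001000080000000000000000000000000000000) (nat_lit 0x0) (nat_lit 0xf001fc007c0033c01c000cc000400000000000000000000000000000000000) := Q_23 (nat_lit 193) (C_23 L15642 (C_23 L16341 (C_23 L16349 (C_23 L16351 (C_23 L16356 N_23))))) (by decide +kernel)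
theorem L16358 : W_23 (nat_lit 14) (nat_lit 0x4000300000001000080000000000000000000000000000000) (nat_lit 0x0) (nat_lit 0xf001fc007c003bc03cc01ce000e00170000000000000000000000000000000) := Q_23 (nat_lit 195) (C_23 L16336 (C_23 L5316 (C_23 L10838 (C_23 L16357 N_23)))) (by decide +kernel)
theorem L16359 : W_23 (nat_lit 2) (nat_lit 0x10000f000340010001000080000000000000000000000000000000) (nat_lit 0x0) (nat_lit 0x40002000080000000000000000000000000000000000000000000000000000) := D_23 (nat_lit 229) (nat_lit 211) (nat_lit 246) (nat_lit 7) (nat_lit 7) (nat_lit 9) (nat_lit 4) (nat_lit 8) (nat_lit 14) (by decide +kernel)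
theorem L16360 : W_23 (nat_lit 3) (nat_lit 0x10000f000340000001000080000000000000000000000000000000) (nat_lit 0x0) (nat_lit 0x40002000080000000000010000800000000000000000000000000000000000) := T_23 (nat_lit 160) (nat_lit 143) (nat_lit 7) (nat_lit 7) (nat_lit 8) L16359 (by decide +kernel)
theorem L16361 : W_23 (nat_lit 4) (nat_lit 0xf000340000001000080000000000000000000000000000000) (nat_lit 0x0) (nat_lit 0x40002000380000000000010000800000000000000000000000000000000000) := T_23 (nat_lit 212) (nat_lit 213) (nat_lit 3) (nat_lit 5) (nat_lit 11) L16360 (by decide +kernel)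
theorem L16362 : W_23 (nat_lit 5) (nat_lit 0xf000300000001000080000000000000000000000000000000) (nat_lit 0x0) (nat_lit 0x400020003800000000c0010000800000000000000000000000000000000000) := T_23 (nat_lit 174) (nat_lit 175) (nat_lit 3) (nat_lit 4) (nat_lit 10) L16361 (by decide +kernel)
theorem L16363 : W_23 (nat_lit 6) (nat_lit 0xd000300000001000080000000000000000000000000000000) (nat_lit 0x0) (nat_lit 0x40002000380002c000e0010000800000000000000000000000000000000000) := Q_23 (nat_lit 193) (C_23 L11603 (C_23 L11587 (C_23 L16362 N_23))) (by decide +kernel)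
theorem L16364 : W_23 (nat_lit 6) (nat_lit 0xd000300000001000080000000000000000000000000000000) (nat_lit 0x0) (nat_lit 0x400020003c0002000cc0016000a00010000000000000000000000000000000) := Q_23 (nat_lit 193) (C_23 L16362 (C_23 L11732 (C_23 L11729 N_23))) (by decide +kernel)
theorem L16365 : W_23 (nat_lit 12) (nat_lit 0xc000300000001000080000000000000000000000000000000) (nat_lit 0x0) (nat_lit 0x400020003c0003c03ce01d7000f0017c001c00020000000000000000000000) := Q_23 (nat_lit 192) (C_23 L15658 (C_23 L15709 (C_23 L16363 (C_23 L15708 (C_23 L11601 (C_23 L16364 N_23)))))) (by decide +kernel)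
theorem L16366 : W_23 (nat_lit 2) (nat_lit 0x100008002e000300010001000080000000000000000000000000000000) (nat_lit 0x0) (nat_lit 0x10000800040000000000000000000000000000000000000000000000000000) := D_23 (nat_lit 227) (nat_lit 210) (nat_lit 244) (nat_lit 6) (nat_lit 6) (nat_lit 13) (nat_lit 5) (nat_lit 7) (nat_lit 10) (by decide +kernel)
theorem L16367 : W_23 (nat_lit 3) (nat_lit 0x100008002e000300000001000080000000000000000000000000000000) (nat_lit 0x0) (nat_lit 0x10000800040000000000010000800000000000000000000000000000000000) := T_23 (nat_lit 160) (nat_lit 143) (nat_lit 6) (nat_lit 7) (nat_lit 11) L16366 (by decide +kernel)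
theorem L16368 : W_23 (nat_lit 4) (nat_lit 0x100000002e000300000001000080000000000000000000000000000000) (nat_lit 0x0) (nat_lit 0x300008000c0000000000010000800000000000000000000000000000000000) := T_23 (nat_lit 211) (nat_lit 245) (nat_lit 4) (nat_lit 7) (nat_lit 14) L16367 (by decide +kernel)
theorem L16369 : W_23 (nat_lit 5) (nat_lit 0x100000000e000300000001000080000000000000000000000000000000) (nat_lit 0x0) (nat_lit 0x300008000c0030000000010000800000000000000000000000000000000000) := T_23 (nat_lit 197) (nat_lit 196) (nat_lit 0) (nat_lit 10) (nat_lit 11) L16368 (by decide +kernel)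
theorem L16370 : W_23 (nat_lit 2) (nat_lit 0x1000780020001e000f00050001000080000000000000000000000000000000) (nat_lit 0x0) (nat_lit 0x120008000000000000000000000000000000000000000000000000000000000) := D_23 (nat_lit 231) (nat_lit 248) (nat_lit 245) (nat_lit 7) (nat_lit 9) (nat_lit 10) (nat_lit 1) (nat_lit 10) (nat_lit 13) (by decide +kernel)
theorem L16371 : W_23 (nat_lit 3) (nat_lit 0x780020001e000f00050001000080000000000000000000000000000000) (nat_lit 0x0) (nat_lit 0x138008000000000000000000000000000000000000000000000000000000000) := T_23 (nat_lit 244) (nat_lit 243) (nat_lit 1) (nat_lit 9) (nat_lit 13) L16370 (by decide +kernel)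
theorem L16372 : W_23 (nat_lit 4) (nat_lit 0x580020001e000f00050001000080000000000000000000000000000000) (nat_lit 0x0) (nat_lit 0x17800a000000000000000000000000000000000000000000000000000000000) := T_23 (nat_lit 229) (nat_lit 246) (nat_lit 5) (nat_lit 9) (nat_lit 10) L16371 (by decide +kernel)
theorem L16373 : W_23 (nat_lit 5) (nat_lit 0x180020001e000f00050001000080000000000000000000000000000000) (nat_lit 0x0) (nat_lit 0x1f800e000000000000000000000000000000000000000000000000000000000) := T_23 (nat_lit 230) (nat_lit 247) (nat_lit 4) (nat_lit 9) (nat_lit 14) L16372 (by decide +kernel)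
theorem L16374 : W_23 (nat_lit 6) (nat_lit 0x180000001e000f00050001000080000000000000000000000000000000) (nat_lit 0x0) (nat_lit 0x1f800e000600000000000000000000000000000000000000000000000000000) := T_23 (nat_lit 213) (nat_lit 214) (nat_lit 3) (nat_lit 6) (nat_lit 11) L16373 (by decide +kernel)
theorem L16375 : W_23 (nat_lit 7) (nat_lit 0x180000001e000f00010001000080000000000000000000000000000000) (nat_lit 0x0) (nat_lit 0x1f800e0006000000000000c0000000000000000000000000000000000000000) := T_23 (nat_lit 162) (nat_lit 163) (nat_lit 2) (nat_lit 6) (nat_lit 10) L16374 (by decide +kernel)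
theorem L16376 : W_23 (nat_lit 8) (nat_lit 0x180000001e000b00010001000080000000000000000000000000000000) (nat_lit 0x0) (nat_lit 0x1f800e0006000010004000c0000000000000000000000000000000000000000) := T_23 (nat_lit 178) (nat_lit 192) (nat_lit 2) (nat_lit 5) (nat_lit 11) L16375 (by decide +kernel)
theorem L16377 : W_23 (nat_lit 9) (nat_lit 0x180000001e000300010001000080000000000000000000000000000000) (nat_lit 0x0) (nat_lit 0x1f800e000600001001c000c0000000000000000000000000000000000000000) := T_23 (nat_lit 179) (nat_lit 180) (nat_lit 2) (nat_lit 6) (nat_lit 11) L16376 (by decide +kernel)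
theorem L16378 : W_23 (nat_lit 10) (nat_lit 0x180000000e000300010001000080000000000000000000000000000000) (nat_lit 0x0) (nat_lit 0x1f800e000600031001c000c0000000000000000000000000000000000000000) := T_23 (nat_lit 196) (nat_lit 197) (nat_lit 0) (nat_lit 10) (nat_lit 11) L16377 (by decide +kernel)
theorem L16379 : W_23 (nat_lit 11) (nat_lit 0x100000000e000300010001000080000000000000000000000000000000) (nat_lit 0x0) (nat_lit 0x1f800e800640031001c000c0000000000000000000000000000000000000000) := T_23 (nat_lit 227) (nat_lit 210) (nat_lit 6) (nat_lit 6) (nat_lit 13) L16378 (by decide +kernel)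
theorem L16380 : W_23 (nat_lit 12) (nat_lit 0x100000000e000300000001000080000000000000000000000000000000) (nat_lit 0x0) (nat_lit 0x1f800e800640031001c000d0000800000000000000000000000000000000000) := T_23 (nat_lit 160) (nat_lit 143) (nat_lit 6) (nat_lit 7) (nat_lit 11) L16379 (by decide +kernel)
theorem L16381 : W_23 (nat_lit 2) (nat_lit 0x2000d00024001e000f00040001000080000000000000000000000000000000) (nat_lit 0x0) (nat_lit 0x50002000000000000000000000000000000000000000000000000000000000) := D_23 (nat_lit 229) (nat_lit 244) (nat_lit 246) (nat_lit 1) (nat_lit 10) (nat_lit 13) (nat_lit 5) (nat_lit 9) (nat_lit 10) (by decide +kernel)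
theorem L16382 : W_23 (nat_lit 3) (nat_lit 0x2000500024001e000f00040001000080000000000000000000000000000000) (nat_lit 0x0) (nat_lit 0x15000a000000000000000000000000000000000000000000000000000000000) := T_23 (nat_lit 231) (nat_lit 248) (nat_lit 7) (nat_lit 9) (nat_lit 10) L16381 (by decide +kernel)
theorem L16383 : W_23 (nat_lit 4) (nat_lit 0x2000500024001e000f00000001000080000000000000000000000000000000) (nat_lit 0x0) (nat_lit 0x15000a0000000000000000c0000000000000000000000000000000000000000) := T_23 (nat_lit 162) (nat_lit 163) (nat_lit 2) (nat_lit 6) (nat_lit 10) L16382 (by decide +kernel)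
theorem L16384 : W_23 (nat_lit 5) (nat_lit 0x2000100024001e000f00000001000080000000000000000000000000000000) (nat_lit 0x0) (nat_lit 0x1d000e0000000000000000c0000000000000000000000000000000000000000) := T_23 (nat_lit 230) (nat_lit 247) (nat_lit 4) (nat_lit 9) (nat_lit 14) L16383 (by decide +kernel)
theorem L16385 : W_23 (nat_lit 6) (nat_lit 0x2000100024001e000b00000001000080000000000000000000000000000000) (nat_lit 0x0) (nat_lit 0x1d000e0000000010004000c0000000000000000000000000000000000000000) := T_23 (nat_lit 178) (nat_lit 192) (nat_lit 2) (nat_lit 5) (nat_lit 11) L16384 (by decide +kernel)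
theorem L16386 : W_23 (nat_lit 7) (nat_lit 0x2000100024001e000300000001000080000000000000000000000000000000) (nat_lit 0x0) (nat_lit 0x1d000e000000001001c000c0000000000000000000000000000000000000000) := T_23 (nat_lit 179) (nat_lit 180) (nat_lit 2) (nat_lit 6) (nat_lit 11) L16385 (by decide +kernel)
theorem L16387 : W_23 (nat_lit 8) (nat_lit 0x2000100020001e000300000001000080000000000000000000000000000000) (nat_lit 0x0) (nat_lit 0x1d000e800040001001c000c0000000000000000000000000000000000000000) := T_23 (nat_lit 210) (nat_lit 227) (nat_lit 7) (nat_lit 6) (nat_lit 10) L16386 (by decide +kernel)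
theorem L16388 : W_23 (nat_lit 9) (nat_lit 0x2000100000001e000300000001000080000000000000000000000000000000) (nat_lit 0x0) (nat_lit 0x1d000e800640001001c000c0000000000000000000000000000000000000000) := T_23 (nat_lit 213) (nat_lit 214) (nat_lit 3) (nat_lit 6) (nat_lit 11) L16387 (by decide +kernel)
theorem L16389 : W_23 (nat_lit 10) (nat_lit 0x100000001e000300000001000080000000000000000000000000000000) (nat_lit 0x0) (nat_lit 0x1f000e8006c0001001c000c0000000000000000000000000000000000000000) := T_23 (nat_lit 245) (nat_lit 211) (nat_lit 4) (nat_lit 7) (nat_lit 14) L16388 (by decide +kernel)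
theorem L16390 : W_23 (nat_lit 11) (nat_lit 0x100000000e000300000001000080000000000000000000000000000000) (nat_lit 0x0) (nat_lit 0x1f000e8006c0031001c000c0000000000000000000000000000000000000000) := T_23 (nat_lit 196) (nat_lit 197) (nat_lit 0) (nat_lit 10) (nat_lit 11) L16389 (by decide +kernel)
theorem L16391 : W_23 (nat_lit 2) (nat_lit 0x180000000e000300010001000080000000000000000000000000000000) (nat_lit 0x0) (nat_lit 0x30000000080000000000000000000000000000000000000000000000000000) := D_23 (nat_lit 211) (nat_lit 244) (nat_lit 245) (nat_lit 5) (nat_lit 7) (nat_lit 10) (nat_lit 4) (nat_lit 7) (nat_lit 14) (by decide +kernel)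
theorem L16392 : W_23 (nat_lit 3) (nat_lit 0x100000000e000300010001000080000000000000000000000000000000) (nat_lit 0x0) (nat_lit 0x300008000c0000000000000000000000000000000000000000000000000000) := T_23 (nat_lit 227) (nat_lit 210) (nat_lit 6) (nat_lit 6) (nat_lit 13) L16391 (by decide +kernel)
theorem L16393 : W_23 (nat_lit 4) (nat_lit 0x100000000e000300000001000080000000000000000000000000000000) (nat_lit 0x0) (nat_lit 0x300008000c0000000000010000800000000000000000000000000000000000) := T_23 (nat_lit 160) (nat_lit 143) (nat_lit 6) (nat_lit 7) (nat_lit 11) L16392 (by decide +kernel)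
theorem L16394 : W_23 (nat_lit 2) (nat_lit 0x2000d00020001e000f00050001000080000000000000000000000000000000) (nat_lit 0x0) (nat_lit 0x50002000000000000000000000000000000000000000000000000000000000) := D_23 (nat_lit 229) (nat_lit 244) (nat_lit 246) (nat_lit 1) (nat_lit 10) (nat_lit 13) (nat_lit 5) (nat_lit 9) (nat_lit 10) (by decide +kernel)
theorem L16395 : W_23 (nat_lit 3) (nat_lit 0x2000500020001e000f00050001000080000000000000000000000000000000) (nat_lit 0x0) (nat_lit 0x15000a000000000000000000000000000000000000000000000000000000000) := T_23 (nat_lit 231) (nat_lit 248) (nat_lit 7) (nat_lit 9) (nat_lit 10) L16394 (by decide +kernel)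
theorem L16396 : W_23 (nat_lit 4) (nat_lit 0x2000500020001e000f00010001000080000000000000000000000000000000) (nat_lit 0x0) (nat_lit 0x15000a0000000000000000c0000000000000000000000000000000000000000) := T_23 (nat_lit 162) (nat_lit 163) (nat_lit 2) (nat_lit 6) (nat_lit 10) L16395 (by decide +kernel)
theorem L16397 : W_23 (nat_lit 5) (nat_lit 0x2000100020001e000f00010001000080000000000000000000000000000000) (nat_lit 0x0) (nat_lit 0x1d000e0000000000000000c0000000000000000000000000000000000000000) := T_23 (nat_lit 230) (nat_lit 247) (nat_lit 4) (nat_lit 9) (nat_lit 14) L16396 (by decide +kernel)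
theorem L16398 : W_23 (nat_lit 6) (nat_lit 0x2000100020001e000b00010001000080000000000000000000000000000000) (nat_lit 0x0) (nat_lit 0x1d000e0000000010004000c0000000000000000000000000000000000000000) := T_23 (nat_lit 178) (nat_lit 192) (nat_lit 2) (nat_lit 5) (nat_lit 11) L16397 (by decide +kernel)
theorem L16399 : W_23 (nat_lit 7) (nat_lit 0x2000100020001e000300010001000080000000000000000000000000000000) (nat_lit 0x0) (nat_lit 0x1d000e000000001001c000c0000000000000000000000000000000000000000) := T_23 (nat_lit 179) (nat_lit 180) (nat_lit 2) (nat_lit 6) (nat_lit 11) L16398 (by decide +kernel)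
theorem L16400 : W_23 (nat_lit 8) (nat_lit 0x2000100000001e000300010001000080000000000000000000000000000000) (nat_lit 0x0) (nat_lit 0x1d000e000600001001c000c0000000000000000000000000000000000000000) := T_23 (nat_lit 213) (nat_lit 214) (nat_lit 3) (nat_lit 6) (nat_lit 11) L16399 (by decide +kernel)
theorem L16401 : W_23 (nat_lit 9) (nat_lit 0x100000001e000300010001000080000000000000000000000000000000) (nat_lit 0x0) (nat_lit 0x1f000e000680001001c000c0000000000000000000000000000000000000000) := T_23 (nat_lit 245) (nat_lit 211) (nat_lit 4) (nat_lit 7) (nat_lit 14) L16400 (by decide +kernel)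
theorem L16402 : W_23 (nat_lit 10) (nat_lit 0x100000000e000300010001000080000000000000000000000000000000) (nat_lit 0x0) (nat_lit 0x1f000e000680031001c000c0000000000000000000000000000000000000000) := T_23 (nat_lit 196) (nat_lit 197) (nat_lit 0) (nat_lit 10) (nat_lit 11) L16401 (by decide +kernel)
theorem L16403 : W_23 (nat_lit 11) (nat_lit 0x100000000e000300000001000080000000000000000000000000000000) (nat_lit 0x0) (nat_lit 0x1f000e000680031001c000d0000800000000000000000000000000000000000) := T_23 (nat_lit 160) (nat_lit 143) (nat_lit 6) (nat_lit 7) (nat_lit 11) L16402 (by decide +kernel)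
theorem L16404 : W_23 (nat_lit 2) (nat_lit 0x1000580020001e000f00010001000080000000000000000000000000000000) (nat_lit 0x0) (nat_lit 0x48002000000000000000000000000000000000000000000000000000000000) := D_23 (nat_lit 229) (nat_lit 243) (nat_lit 246) (nat_lit 1) (nat_lit 9) (nat_lit 13) (nat_lit 5) (nat_lit 9) (nat_lit 10) (by decide +kernel)
theorem L16405 : W_23 (nat_lit 3) (nat_lit 0x1000180020001e000f00010001000080000000000000000000000000000000) (nat_lit 0x0) (nat_lit 0xc8006000000000000000000000000000000000000000000000000000000000) := T_23 (nat_lit 230) (nat_lit 247) (nat_lit 4) (nat_lit 9) (nat_lit 14) L16404 (by decide +kernel)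
theorem L16406 : W_23 (nat_lit 4) (nat_lit 0x1000180020001e000b00010001000080000000000000000000000000000000) (nat_lit 0x0) (nat_lit 0xc8006000000001000400000000000000000000000000000000000000000000) := T_23 (nat_lit 178) (nat_lit 192) (nat_lit 2) (nat_lit 5) (nat_lit 11) L16405 (by decide +kernel)
theorem L16407 : W_23 (nat_lit 5) (nat_lit 0x1000180020001e000300010001000080000000000000000000000000000000) (nat_lit 0x0) (nat_lit 0xc8006000000001001c00000000000000000000000000000000000000000000) := T_23 (nat_lit 179) (nat_lit 180) (nat_lit 2) (nat_lit 6) (nat_lit 11) L16406 (by decide +kernel)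
theorem L16408 : W_23 (nat_lit 6) (nat_lit 0x1000180000001e000300010001000080000000000000000000000000000000) (nat_lit 0x0) (nat_lit 0xc8006000600001001c00000000000000000000000000000000000000000000) := T_23 (nat_lit 213) (nat_lit 214) (nat_lit 3) (nat_lit 6) (nat_lit 11) L16407 (by decide +kernel)
theorem L16409 : W_23 (nat_lit 7) (nat_lit 0x180000001e000300010001000080000000000000000000000000000000) (nat_lit 0x0) (nat_lit 0xd8006000680001001c00000000000000000000000000000000000000000000) := T_23 (nat_lit 244) (nat_lit 211) (nat_lit 5) (nat_lit 7) (nat_lit 10) L16408 (by decide +kernel)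
theorem L16410 : W_23 (nat_lit 8) (nat_lit 0x100000001e000300010001000080000000000000000000000000000000) (nat_lit 0x0) (nat_lit 0xd80068006c0001001c00000000000000000000000000000000000000000000) := T_23 (nat_lit 227) (nat_lit 210) (nat_lit 6) (nat_lit 6) (nat_lit 13) L16409 (by decide +kernel)
theorem L16411 : W_23 (nat_lit 9) (nat_lit 0x100000001e000300000001000080000000000000000000000000000000) (nat_lit 0x0) (nat_lit 0xd80068006c0001001c00010000800000000000000000000000000000000000) := T_23 (nat_lit 160) (nat_lit 143) (nat_lit 6) (nat_lit 7) (nat_lit 11) L16410 (by decide +kernel)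
theorem L16412 : W_23 (nat_lit 10) (nat_lit 0x100000000e000300000001000080000000000000000000000000000000) (nat_lit 0x0) (nat_lit 0xd80068006c0031001c00010000800000000000000000000000000000000000) := T_23 (nat_lit 196) (nat_lit 197) (nat_lit 0) (nat_lit 10) (nat_lit 11) L16411 (by decide +kernel)
theorem L16413 : W_23 (nat_lit 2) (nat_lit 0xe000180020001e000f00000001000080000000000000000000000000000000) (nat_lit 0x0) (nat_lit 0x2600000000000000000000000000000000000000000000000000000000) := D_23 (nat_lit 226) (nat_lit 225) (nat_lit 229) (nat_lit 3) (nat_lit 4) (nat_lit 13) (nat_lit 3) (nat_lit 5) (nat_lit 13) (by decide +kernel)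
theorem L16414 : W_23 (nat_lit 3) (nat_lit 0xa000180020001e000f00000001000080000000000000000000000000000000) (nat_lit 0x0) (nat_lit 0x140002600000000000000000000000000000000000000000000000000000000) := T_23 (nat_lit 246) (nat_lit 248) (nat_lit 0) (nat_lit 10) (nat_lit 14) L16413 (by decide +kernel)
theorem L16415 : W_23 (nat_lit 4) (nat_lit 0x2000180020001e000f00000001000080000000000000000000000000000000) (nat_lit 0x0) (nat_lit 0x1c0006600000000000000000000000000000000000000000000000000000000) := T_23 (nat_lit 247) (nat_lit 230) (nat_lit 4) (nat_lit 9) (nat_lit 14) L16414 (by decide +kernel)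
theorem L16416 : W_23 (nat_lit 5) (nat_lit 0x2000180020001e000b00000001000080000000000000000000000000000000) (nat_lit 0x0) (nat_lit 0x1c0006600000001000400000000000000000000000000000000000000000000) := T_23 (nat_lit 178) (nat_lit 192) (nat_lit 2) (nat_lit 5) (nat_lit 11) L16415 (by decide +kernel)
theorem L16417 : W_23 (nat_lit 6) (nat_lit 0x2000180020001e000300000001000080000000000000000000000000000000) (nat_lit 0x0) (nat_lit 0x1c0006600000001001c00000000000000000000000000000000000000000000) := T_23 (nat_lit 179) (nat_lit 180) (nat_lit 2) (nat_lit 6) (nat_lit 11) L16416 (by decide +kernel)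
theorem L16418 : W_23 (nat_lit 7) (nat_lit 0x2000100020001e000300000001000080000000000000000000000000000000) (nat_lit 0x0) (nat_lit 0x1c0006e00040001001c00000000000000000000000000000000000000000000) := T_23 (nat_lit 227) (nat_lit 210) (nat_lit 7) (nat_lit 6) (nat_lit 10) L16417 (by decide +kernel)
theorem L16419 : W_23 (nat_lit 8) (nat_lit 0x2000100000001e000300000001000080000000000000000000000000000000) (nat_lit 0x0) (nat_lit 0x1c0006e00640001001c00000000000000000000000000000000000000000000) := T_23 (nat_lit 213) (nat_lit 214) (nat_lit 3) (nat_lit 6) (nat_lit 11) L16418 (by decide +kernel)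
theorem L16420 : W_23 (nat_lit 9) (nat_lit 0x100000001e000300000001000080000000000000000000000000000000) (nat_lit 0x0) (nat_lit 0x1e0006e006c0001001c00000000000000000000000000000000000000000000) := T_23 (nat_lit 245) (nat_lit 211) (nat_lit 4) (nat_lit 7) (nat_lit 14) L16419 (by decide +kernel)
theorem L16421 : W_23 (nat_lit 10) (nat_lit 0x100000000e000300000001000080000000000000000000000000000000) (nat_lit 0x0) (nat_lit 0x1e0006e006c0031001c00000000000000000000000000000000000000000000) := T_23 (nat_lit 196) (nat_lit 197) (nat_lit 0) (nat_lit 10) (nat_lit 11) L16420 (by decide +kernel)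
theorem L16422 : W_23 (nat_lit 13) (nat_lit 0xe000300000001000080000000000000000000000000000000) (nat_lit 0x0) (nat_lit 0x1f800fe006c0031001c000d0000800000000000000000000000000000000000) := Q_23 (nat_lit 228) (C_23 L16369 (C_23 L16380 (C_23 L16390 (C_23 L16393 (C_23 L16403 (C_23 L16412 (C_23 L16421 N_23))))))) (by decide +kernel)
theorem L16423 : W_23 (nat_lit 2) (nat_lit 0x80009001f800b00010001000080000000000000000000000000000000) (nat_lit 0x0) (nat_lit 0x30001000000000000000000000000000000000000000000000000000000000) := D_23 (nat_lit 228) (nat_lit 245) (nat_lit 244) (nat_lit 4) (nat_lit 7) (nat_lit 14) (nat_lit 5) (nat_lit 7) (nat_lit 10) (by decide +kernel)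
theorem L16424 : W_23 (nat_lit 3) (nat_lit 0x80001001f800b00010001000080000000000000000000000000000000) (nat_lit 0x0) (nat_lit 0x30001000180000000000000000000000000000000000000000000000000000) := T_23 (nat_lit 211) (nat_lit 212) (nat_lit 3) (nat_lit 4) (nat_lit 11) L16423 (by decide +kernel)
theorem L16425 : W_23 (nat_lit 4) (nat_lit 0x80000001f800b00010001000080000000000000000000000000000000) (nat_lit 0x0) (nat_lit 0x30001000198000000000000000000000000000000000000000000000000000) := T_23 (nat_lit 208) (nat_lit 207) (nat_lit 1) (nat_lit 7) (nat_lit 11) L16424 (by decide +kernel)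
theorem L16426 : W_23 (nat_lit 5) (nat_lit 0x80000001f000b00010001000080000000000000000000000000000000) (nat_lit 0x0) (nat_lit 0x30001000198000c00000000000000000000000000000000000000000000000) := T_23 (nat_lit 191) (nat_lit 190) (nat_lit 2) (nat_lit 3) (nat_lit 11) L16425 (by decide +kernel)
theorem L16427 : W_23 (nat_lit 6) (nat_lit 0x80000001e000b00010001000080000000000000000000000000000000) (nat_lit 0x0) (nat_lit 0x30001000198001c00400000000000000000000000000000000000000000000) := T_23 (nat_lit 192) (nat_lit 178) (nat_lit 2) (nat_lit 5) (nat_lit 11) L16426 (by decide +kernel)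
theorem L16428 : W_23 (nat_lit 7) (nat_lit 0x80000001e000300010001000080000000000000000000000000000000) (nat_lit 0x0) (nat_lit 0x30001000198001c01c00000000000000000000000000000000000000000000) := T_23 (nat_lit 179) (nat_lit 180) (nat_lit 2) (nat_lit 6) (nat_lit 11) L16427 (by decide +kernel)
theorem L16429 : W_23 (nat_lit 8) (nat_lit 0x80000000e000300010001000080000000000000000000000000000000) (nat_lit 0x0) (nat_lit 0x30001000198031c01c00000000000000000000000000000000000000000000) := T_23 (nat_lit 196) (nat_lit 197) (nat_lit 0) (nat_lit 10) (nat_lit 11) L16428 (by decide +kernel)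
theorem L16430 : W_23 (nat_lit 9) (nat_lit 0xe000300010001000080000000000000000000000000000000) (nat_lit 0x0) (nat_lit 0x300018001d8031c01c00000000000000000000000000000000000000000000) := T_23 (nat_lit 227) (nat_lit 210) (nat_lit 6) (nat_lit 6) (nat_lit 13) L16429 (by decide +kernel)
theorem L16431 : W_23 (nat_lit 10) (nat_lit 0xe000300000001000080000000000000000000000000000000) (nat_lit 0x0) (nat_lit 0x300018001d8031c01c00010000800000000000000000000000000000000000) := T_23 (nat_lit 160) (nat_lit 143) (nat_lit 6) (nat_lit 7) (nat_lit 11) L16430 (by decide +kernel)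
theorem L16432 : W_23 (nat_lit 14) (nat_lit 0xc000300000001000080000000000000000000000000000000) (nat_lit 0x0) (nat_lit 0x20001f800fe007d8033c01c000d0000800000000000000000000000000000000000) := Q_23 (nat_lit 193) (C_23 L15642 (C_23 L16422 (C_23 L16341 (C_23 L15754 (C_23 L12385 (C_23 L16431 N_23)))))) (by decide +kernel)
theorem L16433 : W_23 (nat_lit 15) (nat_lit 0x4000300000001000080000000000000000000000000000000) (nat_lit 0x0) (nat_lit 0x20001f800fe007d803bc03ce01d7000f0017c001c00020000000000000000000000) := Q_23 (nat_lit 195) (C_23 L14831 (C_23 L16365 (C_23 L5316 (C_23 L10838 (C_23 L16432 N_23))))) (by decide +kernel)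
theorem L16434 : W_23 (nat_lit 2) (nat_lit 0x10000000058003c000a001700080000000000000000000000000000000) (nat_lit 0x0) (nat_lit 0x800140000000000000000000000000000000) := D_23 (nat_lit 143) (nat_lit 128) (nat_lit 126) (nat_lit 2) (nat_lit 5) (nat_lit 8) (nat_lit 2) (nat_lit 4) (nat_lit 8) (by decide +kernel)
theorem L16435 : W_23 (nat_lit 3) (nat_lit 0x10000000058003c000a001500080000000000000000000000000000000) (nat_lit 0x0) (nat_lit 0xa00150000000000000000000000000000000) := T_23 (nat_lit 141) (nat_lit 124) (nat_lit 6) (nat_lit 4) (nat_lit 11) L16434 (by decide +kernel)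
theorem L16436 : W_23 (nat_lit 4) (nat_lit 0x10000000058003c000a001400080000000000000000000000000000000) (nat_lit 0x0) (nat_lit 0xb00158000000000000000000000000000000) := T_23 (nat_lit 140) (nat_lit 123) (nat_lit 7) (nat_lit 4) (nat_lit 7) L16435 (by decide +kernel)
theorem L16437 : W_23 (nat_lit 5) (nat_lit 0x10000000058003c000a001000080000000000000000000000000000000) (nat_lit 0x0) (nat_lit 0xf00178000000000000000000000000000000) := T_23 (nat_lit 142) (nat_lit 125) (nat_lit 7) (nat_lit 6) (nat_lit 7) L16436 (by decide +kernel)
theorem L16438 : W_23 (nat_lit 6) (nat_lit 0x10000000058003c0008001000080000000000000000000000000000000) (nat_lit 0x0) (nat_lit 0x3000f00178000000000000000000000000000000) := T_23 (nat_lit 157) (nat_lit 156) (nat_lit 0) (nat_lit 7) (nat_lit 10) L16437 (by decide +kernel)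
theorem L16439 : W_23 (nat_lit 7) (nat_lit 0x10000000048003c0008001000080000000000000000000000000000000) (nat_lit 0x0) (nat_lit 0x1000400003000f00178000000000000000000000000000000) := T_23 (nat_lit 192) (nat_lit 178) (nat_lit 1) (nat_lit 8) (nat_lit 10) L16438 (by decide +kernel)
theorem L16440 : W_23 (nat_lit 8) (nat_lit 0x48003c0008001000080000000000000000000000000000000) (nat_lit 0x0) (nat_lit 0x1000080001000400003000f00178000000000000000000000000000000) := T_23 (nat_lit 228) (nat_lit 211) (nat_lit 4) (nat_lit 7) (nat_lit 13) L16439 (by decide +kernel)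
theorem L16441 : W_23 (nat_lit 9) (nat_lit 0x40003c0008001000080000000000000000000000000000000) (nat_lit 0x0) (nat_lit 0x1000080001c00400003000f00178000000000000000000000000000000) := T_23 (nat_lit 191) (nat_lit 190) (nat_lit 1) (nat_lit 7) (nat_lit 10) L16440 (by decide +kernel)
theorem L16442 : W_23 (nat_lit 2) (nat_lit 0x10000000040003d000e00160009c000000000000000000000000000000) (nat_lit 0x0) (nat_lit 0x1000000000000100000000200000000000000000000000000) := D_23 (nat_lit 140) (nat_lit 192) (nat_lit 105) (nat_lit 7) (nat_lit 4) (nat_lit 7) (nat_lit 4) (nat_lit 4) (nat_lit 10) (by decide +kernel)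
theorem L16443 : W_23 (nat_lit 3) (nat_lit 0x10000000040003d000e001600098000000000000000000000000000000) (nat_lit 0x0) (nat_lit 0x1000000000000100006000200000000000000000000000000) := T_23 (nat_lit 122) (nat_lit 121) (nat_lit 3) (nat_lit 2) (nat_lit 7) L16442 (by decide +kernel)
theorem L16444 : W_23 (nat_lit 4) (nat_lit 0x10000000040003d000e001600090000000000000000000000000000000) (nat_lit 0x0) (nat_lit 0x100000000000010000e000600000000000000000000000000) := T_23 (nat_lit 123) (nat_lit 106) (nat_lit 4) (nat_lit 5) (nat_lit 10) L16443 (by decide +kernel)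
theorem L16445 : W_23 (nat_lit 5) (nat_lit 0x10000000040003d000e001600080000000000000000000000000000000) (nat_lit 0x0) (nat_lit 0x100000000000010001e000e00000000000000000000000000) := T_23 (nat_lit 124) (nat_lit 107) (nat_lit 7) (nat_lit 5) (nat_lit 6) L16444 (by decide +kernel)
theorem L16446 : W_23 (nat_lit 6) (nat_lit 0x10000000040003c000e001600080000000000000000000000000000000) (nat_lit 0x0) (nat_lit 0x100003000000010001e000e00000000000000000000000000) := T_23 (nat_lit 172) (nat_lit 173) (nat_lit 2) (nat_lit 2) (nat_lit 10) L16445 (by decide +kernel)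
theorem L16447 : W_23 (nat_lit 7) (nat_lit 0x10000000040003c000e001400080000000000000000000000000000000) (nat_lit 0x0) (nat_lit 0x1000030000000b0001e000e00000000000000000000000000) := T_23 (nat_lit 141) (nat_lit 143) (nat_lit 1) (nat_lit 8) (nat_lit 8) L16446 (by decide +kernel)
theorem L16448 : W_23 (nat_lit 8) (nat_lit 0x40003c000e001400080000000000000000000000000000000) (nat_lit 0x0) (nat_lit 0x1000080001000030000000b0001e000e00000000000000000000000000) := T_23 (nat_lit 228) (nat_lit 211) (nat_lit 4) (nat_lit 7) (nat_lit 13) L16447 (by decide +kernel)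
theorem L16449 : W_23 (nat_lit 9) (nat_lit 0x40003c000a001400080000000000000000000000000000000) (nat_lit 0x0) (nat_lit 0x1000080001000430004000b0001e000e00000000000000000000000000) := T_23 (nat_lit 158) (nat_lit 178) (nat_lit 0) (nat_lit 8) (nat_lit 10) L16448 (by decide +kernel)
theorem L16450 : W_23 (nat_lit 10) (nat_lit 0x40003c000a001000080000000000000000000000000000000) (nat_lit 0x0) (nat_lit 0x1000080001000430004000f0003e000e00000000000000000000000000) := T_23 (nat_lit 142) (nat_lit 125) (nat_lit 7) (nat_lit 6) (nat_lit 7) L16449 (by decide +kernel)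
theorem L16451 : W_23 (nat_lit 11) (nat_lit 0x40003c0008001000080000000000000000000000000000000) (nat_lit 0x0) (nat_lit 0x1000080001000430007000f0003e000e00000000000000000000000000) := T_23 (nat_lit 157) (nat_lit 156) (nat_lit 0) (nat_lit 7) (nat_lit 10) L16450 (by decide +kernel)
theorem L16452 : W_23 (nat_lit 12) (nat_lit 0x4000380008001000080000000000000000000000000000000) (nat_lit 0x0) (nat_lit 0x1000090001e00c70007c00f0017e000e00000000000000000000000000) := Q_23 (nat_lit 174) (C_23 L14935 (C_23 L14931 (C_23 L14910 (C_23 L16441 (C_23 L16451 N_23))))) (by decide +kernel)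
theorem L16453 : W_23 (nat_lit 13) (nat_lit 0x4000380000001000080000000000000000000000000000000) (nat_lit 0x0) (nat_lit 0x1200090001e00c7001fc00f0017e000e00000000000000000000000000) := Q_23 (nat_lit 159) (C_23 L15817 (C_23 L14153 (C_23 L14097 (C_23 L16452 N_23)))) (by decide +kernel)
theorem L16454 : W_23 (nat_lit 2) (nat_lit 0x200008000d000780014001600080000000000000000000000000000000) (nat_lit 0x0) (nat_lit 0x60001000000000000000000000000000000000000000000000000000000000) := D_23 (nat_lit 228) (nat_lit 246) (nat_lit 245) (nat_lit 7) (nat_lit 7) (nat_lit 10) (nat_lit 6) (nat_lit 7) (nat_lit 14) (by decide +kernel)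
theorem L16455 : W_23 (nat_lit 3) (nat_lit 0x200000000d000780014001600080000000000000000000000000000000) (nat_lit 0x0) (nat_lit 0x60001000080000000000008000000000000000000000000000000000000000) := T_23 (nat_lit 211) (nat_lit 159) (nat_lit 4) (nat_lit 7) (nat_lit 12) L16454 (by decide +kernel)
theorem L16456 : W_23 (nat_lit 4) (nat_lit 0x200000000d000780014001200080000000000000000000000000000000) (nat_lit 0x0) (nat_lit 0x60001000080000000000008000400020000000000000000000000000000000) := T_23 (nat_lit 142) (nat_lit 125) (nat_lit 6) (nat_lit 5) (nat_lit 11) L16455 (by decide +kernel)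
theorem L16457 : W_23 (nat_lit 5) (nat_lit 0xd000780014001200080000000000000000000000000000000) (nat_lit 0x0) (nat_lit 0x60003000180000000000008000400020000000000000000000000000000000) := T_23 (nat_lit 229) (nat_lit 212) (nat_lit 4) (nat_lit 8) (nat_lit 13) L16456 (by decide +kernel)
theorem L16458 : W_23 (nat_lit 6) (nat_lit 0xd000780004001200080000000000000000000000000000000) (nat_lit 0x0) (nat_lit 0x60003000180000000000018000c00020000000000000000000000000000000) := T_23 (nat_lit 160) (nat_lit 143) (nat_lit 6) (nat_lit 7) (nat_lit 11) L16457 (by decide +kernel)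
theorem L16459 : W_23 (nat_lit 7) (nat_lit 0xd000780000001200080000000000000000000000000000000) (nat_lit 0x0) (nat_lit 0x6000300018000000000001e000c00020000000000000000000000000000000) := T_23 (nat_lit 158) (nat_lit 157) (nat_lit 0) (nat_lit 8) (nat_lit 10) L16458 (by decide +kernel)
theorem L16460 : W_23 (nat_lit 8) (nat_lit 0xc000780000001200080000000000000000000000000000000) (nat_lit 0x0) (nat_lit 0x6000300018000180000001e000c00020000000000000000000000000000000) := T_23 (nat_lit 192) (nat_lit 191) (nat_lit 1) (nat_lit 8) (nat_lit 10) L16459 (by decide +kernel)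
theorem L16461 : W_23 (nat_lit 9) (nat_lit 0x4000780000001200080000000000000000000000000000000) (nat_lit 0x0) (nat_lit 0x6000300018001980000001e000c00020000000000000000000000000000000) := T_23 (nat_lit 195) (nat_lit 196) (nat_lit 3) (nat_lit 5) (nat_lit 10) L16460 (by decide +kernel)
theorem L16462 : W_23 (nat_lit 11) (nat_lit 0x4000780000001000080000000000000000000000000000000) (nat_lit 0x0) (nat_lit 0x6000300018001980000001e000f0017c001c000a0000000000000000000000) := Q_23 (nat_lit 141) (C_23 L12960 (C_23 L15862 (C_23 L15845 (C_23 L12955 (C_23 L15853 (C_23 L16461 N_23)))))) (by decide +kernel)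
theorem L16463 : W_23 (nat_lit 3) (nat_lit 0x5000780004001000080000000000000000000000000000000) (nat_lit 0x0) (nat_lit 0x38000800008000000000000000000000000000000000000000) := T_23 (nat_lit 179) (nat_lit 159) (nat_lit 0) (nat_lit 9) (nat_lit 10) L7752 (by decide +kernel)
theorem L16464 : W_23 (nat_lit 4) (nat_lit 0x4000780004001000080000000000000000000000000000000) (nat_lit 0x0) (nat_lit 0x39800800008000000000000000000000000000000000000000) := T_23 (nat_lit 192) (nat_lit 191) (nat_lit 1) (nat_lit 8) (nat_lit 10) L16463 (by decide +kernel)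
theorem L16465 : W_23 (nat_lit 5) (nat_lit 0x4000780000001000080000000000000000000000000000000) (nat_lit 0x0) (nat_lit 0x3980080000e000000000000000000000000000000000000000) := T_23 (nat_lit 158) (nat_lit 157) (nat_lit 0) (nat_lit 8) (nat_lit 10) L16464 (by decide +kernel)
theorem L16466 : W_23 (nat_lit 12) (nat_lit 0x4000380000001000080000000000000000000000000000000) (nat_lit 0x0) (nat_lit 0x600030001800f9803c001de004f0077c001c000a0000000000000000000000) := Q_23 (nat_lit 178) (C_23 L15885 (C_23 L15842 (C_23 L12982 (C_23 L16462 (C_23 L16465 (C_23 L15878 N_23)))))) (by decide +kernel)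
theorem L16467 : W_23 (nat_lit 14) (nat_lit 0x4000300000001000080000000000000000000000000000000) (nat_lit 0x0) (nat_lit 0x600032001900f9e03cf01dfc04f0077e001e000a0000000000000000000000) := Q_23 (nat_lit 175) (C_23 L14148 (C_23 L14147 (C_23 L16453 (C_23 L16466 N_23)))) (by decide +kernel)
theorem L16468 : W_23 (nat_lit 2) (nat_lit 0x80010000e000700010001000080000000000000000000000000000000) (nat_lit 0x0) (nat_lit 0x200001800000000000000000000000000000000000000000000000) := D_23 (nat_lit 192) (nat_lit 191) (nat_lit 213) (nat_lit 2) (nat_lit 4) (nat_lit 11) (nat_lit 3) (nat_lit 5) (nat_lit 11) (by decide +kernel)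
theorem L16469 : W_23 (nat_lit 3) (nat_lit 0x80000000e000700010001000080000000000000000000000000000000) (nat_lit 0x0) (nat_lit 0x2000300001800000000000000000000000000000000000000000000000) := T_23 (nat_lit 212) (nat_lit 229) (nat_lit 4) (nat_lit 8) (nat_lit 13) L16468 (by decide +kernel)
theorem L16470 : W_23 (nat_lit 4) (nat_lit 0xe000700010001000080000000000000000000000000000000) (nat_lit 0x0) (nat_lit 0x2800340001800000000000000000000000000000000000000000000000) := T_23 (nat_lit 227) (nat_lit 210) (nat_lit 6) (nat_lit 6) (nat_lit 13) L16469 (by decide +kernel)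
theorem L16471 : W_23 (nat_lit 5) (nat_lit 0xe000700000001000080000000000000000000000000000000) (nat_lit 0x0) (nat_lit 0x2800340001800000010000800000000000000000000000000000000000) := T_23 (nat_lit 160) (nat_lit 143) (nat_lit 6) (nat_lit 7) (nat_lit 11) L16470 (by decide +kernel)
theorem L16472 : W_23 (nat_lit 6) (nat_lit 0xe000300000001000080000000000000000000000000000000) (nat_lit 0x0) (nat_lit 0x2800340001801c0001c000c00060000000000000000000000000000000) := Q_23 (nat_lit 178) (C_23 L16058 (C_23 L16161 (C_23 L16471 N_23))) (by decide +kernel)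
theorem L16473 : W_23 (nat_lit 2) (nat_lit 0x1e000f00008001800080000000000000000000000000000000) (nat_lit 0x0) (nat_lit 0x400060000000000000000000000000000000) := D_23 (nat_lit 142) (nat_lit 126) (nat_lit 125) (nat_lit 6) (nat_lit 6) (nat_lit 11) (nat_lit 7) (nat_lit 6) (nat_lit 7) (by decide +kernel)
theorem L16474 : W_23 (nat_lit 3) (nat_lit 0x1e000f00000001800080000000000000000000000000000000) (nat_lit 0x0) (nat_lit 0xc000400060000000000000000000000000000000) := T_23 (nat_lit 159) (nat_lit 158) (nat_lit 0) (nat_lit 9) (nat_lit 10) L16473 (by decide +kernel)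
theorem L16475 : W_23 (nat_lit 4) (nat_lit 0x1e000b00000001800080000000000000000000000000000000) (nat_lit 0x0) (nat_lit 0x100040000c000400060000000000000000000000000000000) := T_23 (nat_lit 178) (nat_lit 192) (nat_lit 2) (nat_lit 5) (nat_lit 11) L16474 (by decide +kernel)
theorem L16476 : W_23 (nat_lit 5) (nat_lit 0x1e000300000001800080000000000000000000000000000000) (nat_lit 0x0) (nat_lit 0x1001c0000c000400060000000000000000000000000000000) := T_23 (nat_lit 179) (nat_lit 180) (nat_lit 2) (nat_lit 6) (nat_lit 11) L16475 (by decide +kernel)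
theorem L16477 : W_23 (nat_lit 6) (nat_lit 0xe000300000001800080000000000000000000000000000000) (nat_lit 0x0) (nat_lit 0x31001c0000c000400060000000000000000000000000000000) := T_23 (nat_lit 196) (nat_lit 197) (nat_lit 0) (nat_lit 10) (nat_lit 11) L16476 (by decide +kernel)
theorem L16478 : W_23 (nat_lit 7) (nat_lit 0xe000300000001000080000000000000000000000000000000) (nat_lit 0x0) (nat_lit 0x31001c0001c000c00060000000000000000000000000000000) := T_23 (nat_lit 143) (nat_lit 160) (nat_lit 6) (nat_lit 7) (nat_lit 11) L16477 (by decide +kernel)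
theorem L16479 : W_23 (nat_lit 14) (nat_lit 0xc000300000001000080000000000000000000000000000000) (nat_lit 0x0) (nat_lit 0xc0006800740033c01c000df000f80170000000000000000000000000000000) := Q_23 (nat_lit 193) (C_23 L16341 (C_23 L15642 (C_23 L15917 (C_23 L16472 (C_23 L16478 N_23))))) (by decide +kernel)
theorem L16480 : W_23 (nat_lit 8) (nat_lit 0xc000300000001000080000000000000000000000000000000) (nat_lit 0x0) (nat_lit 0x10002800340003c01ce001e000f0017c000000000000000000000000000000) := Q_23 (nat_lit 193) (C_23 L16061 (C_23 L16289 (C_23 L16472 (C_23 L15372 N_23)))) (by decide +kernel)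
theorem L16481 : W_23 (nat_lit 15) (nat_lit 0x4000300000001000080000000000000000000000000000000) (nat_lit 0x0) (nat_lit 0xd000680074003bc03ce01df000f8017c000000000000000000000000000000) := Q_23 (nat_lit 195) (C_23 L16479 (C_23 L14831 (C_23 L5316 (C_23 L16139 (C_23 L16480 N_23))))) (by decide +kernel)
theorem L16482 : W_23 (nat_lit 2) (nat_lit 0x10000f000780004001000080000000000000000000000000000000) (nat_lit 0x0) (nat_lit 0x800040000000000000000200000000000000000000000000000000000) := D_23 (nat_lit 210) (nat_lit 227) (nat_lit 141) (nat_lit 4) (nat_lit 6) (nat_lit 13) (nat_lit 7) (nat_lit 5) (nat_lit 8) (by decide +kernel)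
theorem L16483 : W_23 (nat_lit 3) (nat_lit 0x10000d000780004001000080000000000000000000000000000000) (nat_lit 0x0) (nat_lit 0x800240002000000000000200000000000000000000000000000000000) := T_23 (nat_lit 193) (nat_lit 213) (nat_lit 3) (nat_lit 5) (nat_lit 11) L16482 (by decide +kernel)
theorem L16484 : W_23 (nat_lit 4) (nat_lit 0x10000d000780000001000080000000000000000000000000000000) (nat_lit 0x0) (nat_lit 0x800240002000000006000200000000000000000000000000000000000) := T_23 (nat_lit 158) (nat_lit 157) (nat_lit 0) (nat_lit 8) (nat_lit 10) L16483 (by decide +kernel)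
theorem L16485 : W_23 (nat_lit 5) (nat_lit 0x10000c000780000001000080000000000000000000000000000000) (nat_lit 0x0) (nat_lit 0x800240003800000006000200000000000000000000000000000000000) := T_23 (nat_lit 192) (nat_lit 191) (nat_lit 1) (nat_lit 8) (nat_lit 10) L16484 (by decide +kernel)
theorem L16486 : W_23 (nat_lit 6) (nat_lit 0x10000c000700000001000080000000000000000000000000000000) (nat_lit 0x0) (nat_lit 0x8002400038000c0006000200000000000000000000000000000000000) := T_23 (nat_lit 175) (nat_lit 174) (nat_lit 3) (nat_lit 4) (nat_lit 10) L16485 (by decide +kernel)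
theorem L16487 : W_23 (nat_lit 9) (nat_lit 0xc000700000001000080000000000000000000000000000000) (nat_lit 0x0) (nat_lit 0xf001fc007c00038000c001e000200000000000000000000000000000000000) := Q_23 (nat_lit 212) (C_23 L15835 (C_23 L15651 (C_23 L16486 N_23))) (by decide +kernel)
theorem L16488 : W_23 (nat_lit 10) (nat_lit 0xc000300000001000080000000000000000000000000000000) (nat_lit 0x0) (nat_lit 0xf001fc007c0003803cc01de000600020000000000000000000000000000000) := Q_23 (nat_lit 178) (C_23 L16335 (C_23 L16334 (C_23 L16315 (C_23 L16319 (C_23 L16487 N_23))))) (by decide +kernel)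
theorem L16489 : W_23 (nat_lit 12) (nat_lit 0x4000300000001000080000000000000000000000000000000) (nat_lit 0x0) (nat_lit 0xf001fc007c003bc03cc01de000600020000000000000000000000000000000) := Q_23 (nat_lit 195) (C_23 L14831 (C_23 L16357 (C_23 L5316 (C_23 L10838 (C_23 L16488 N_23))))) (by decide +kernel)
theorem L16490 : W_23 (nat_lit 16) (nat_lit 0x300000001000080000000000000000000000000000000) (nat_lit 0x0) (nat_lit 0x2c001f801fe00fd80ffe03cf01dfc04f8077e001e000a0000000000000000000000) := Q_23 (nat_lit 194) (C_23 L16358 (C_23 L16433 (C_23 L15824 (C_23 L16467 (C_23 L16481 (C_23 L15406 (C_23 L15567 (C_23 L16489 (C_23 L12265 N_23))))))))) (by decide +kernel)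
theorem L16491 : W_23 (nat_lit 18) (nat_lit 0x200000001000080000000000000000000000000000000) (nat_lit 0x0) (nat_lit 0x14003ec01ff01ff80ffc0fff83df81dfe0cfc077e03bf007e003f000000000000000000) := Q_23 (nat_lit 176) (C_23 L12489 (C_23 L12648 (C_23 L12655 (C_23 L13192 (C_23 L13989 (C_23 L14192 (C_23 L14281 (C_23 L14337 (C_23 L14490 (C_23 L14591 (C_23 L14773 (C_23 L15158 (C_23 L15407 (C_23 L15568 (C_23 L15993 (C_23 L16010 (C_23 L16274 (C_23 L16313 (C_23 L16490 N_23))))))))))))))))))) (by decide +kernel)
theorem L66739 : W_23 (nat_lit 2) (nat_lit 0xf00008001c000a0000000000000000000000000000000) (nat_lit 0x0) (nat_lit 0x2000000000000000040002000000000000000000000000000) := D_23 (nat_lit 126) (nat_lit 109) (nat_lit 193) (nat_lit 6) (nat_lit 6) (nat_lit 10) (nat_lit 6) (nat_lit 6) (nat_lit 11) (by decide +kernel)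
theorem L66740 : W_23 (nat_lit 3) (nat_lit 0xf00008001c00080000000000000000000000000000000) (nat_lit 0x0) (nat_lit 0x6000000000000000060002000000000000000000000000000) := T_23 (nat_lit 125) (nat_lit 194) (nat_lit 7) (nat_lit 6) (nat_lit 7) L66739 (by decide +kernel)
theorem L66741 : W_23 (nat_lit 4) (nat_lit 0x700008001c00080000000000000000000000000000000) (nat_lit 0x0) (nat_lit 0x6000800004000000060002000000000000000000000000000) := T_23 (nat_lit 179) (nat_lit 158) (nat_lit 0) (nat_lit 9) (nat_lit 10) L66740 (by decide +kernel)
theorem L66742 : W_23 (nat_lit 2) (nat_lit 0x2000f00008001c00080000000000000000000000000000000) (nat_lit 0x0) (nat_lit 0x80004001000000000000000000000000000000000000000000000) := D_23 (nat_lit 194) (nat_lit 180) (nat_lit 211) (nat_lit 1) (nat_lit 10) (nat_lit 10) (nat_lit 7) (nat_lit 6) (nat_lit 8) (by decide +kernel)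
theorem L66743 : W_23 (nat_lit 3) (nat_lit 0xf00008001c00080000000000000000000000000000000) (nat_lit 0x0) (nat_lit 0x80006001000000000000040000000000000000000000000000000) := T_23 (nat_lit 193) (nat_lit 126) (nat_lit 6) (nat_lit 6) (nat_lit 11) L66742 (by decide +kernel)
theorem L66744 : W_23 (nat_lit 4) (nat_lit 0x700008001c00080000000000000000000000000000000) (nat_lit 0x0) (nat_lit 0x80006001800004000000040000000000000000000000000000000) := T_23 (nat_lit 179) (nat_lit 158) (nat_lit 0) (nat_lit 9) (nat_lit 10) L66743 (by decide +kernel)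
theorem L66745 : W_23 (nat_lit 3) (nat_lit 0x700008001c00080000000000000000000000000000000) (nat_lit 0x0) (nat_lit 0x80006000000000000000060000000000000000000000000000000) := T_23 (nat_lit 193) (nat_lit 126) (nat_lit 6) (nat_lit 6) (nat_lit 11) L8318 (by decide +kernel)
theorem L66746 : W_23 (nat_lit 2) (nat_lit 0xf00008001c000b0000000000000000000000000000000) (nat_lit 0x0) (nat_lit 0x20000c000000000000000000000000000000) := D_23 (nat_lit 123) (nat_lit 122) (nat_lit 141) (nat_lit 3) (nat_lit 3) (nat_lit 7) (nat_lit 0) (nat_lit 8) (nat_lit 8) (by decide +kernel)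
theorem L66747 : W_23 (nat_lit 3) (nat_lit 0xf00008001c000a0000000000000000000000000000000) (nat_lit 0x0) (nat_lit 0x20001c000800000000000000000000000000) := T_23 (nat_lit 124) (nat_lit 107) (nat_lit 4) (nat_lit 6) (nat_lit 10) L66746 (by decide +kernel)
theorem L66748 : W_23 (nat_lit 4) (nat_lit 0xf00008001c00080000000000000000000000000000000) (nat_lit 0x0) (nat_lit 0x400000000000020003c000800000000000000000000000000) := T_23 (nat_lit 125) (nat_lit 194) (nat_lit 7) (nat_lit 6) (nat_lit 7) L66747 (by decide +kernel)
theorem L66749 : W_23 (nat_lit 5) (nat_lit 0x700008001c00080000000000000000000000000000000) (nat_lit 0x0) (nat_lit 0x400080000400020003c000800000000000000000000000000) := T_23 (nat_lit 179) (nat_lit 158) (nat_lit 0) (nat_lit 9) (nat_lit 10) L66748 (by decide +kernel)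
theorem L66750 : W_23 (nat_lit 2) (nat_lit 0x2000700008001e00080000000000000000000000000000000) (nat_lit 0x0) (nat_lit 0x800006000000000000000000000000000000000000000) := D_23 (nat_lit 158) (nat_lit 157) (nat_lit 179) (nat_lit 1) (nat_lit 8) (nat_lit 8) (nat_lit 0) (nat_lit 9) (nat_lit 10) (by decide +kernel)
theorem L66751 : W_23 (nat_lit 3) (nat_lit 0x2000700008001c00080000000000000000000000000000000) (nat_lit 0x0) (nat_lit 0x800006000200010000000000000000000000000000000) := T_23 (nat_lit 141) (nat_lit 124) (nat_lit 4) (nat_lit 6) (nat_lit 11) L66750 (by decide +kernel)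
theorem L66752 : W_23 (nat_lit 4) (nat_lit 0x700008001c00080000000000000000000000000000000) (nat_lit 0x0) (nat_lit 0x2000800006000200050000000000000000000000000000000) := T_23 (nat_lit 193) (nat_lit 126) (nat_lit 6) (nat_lit 6) (nat_lit 11) L66751 (by decide +kernel)
theorem L66753 : W_23 (nat_lit 6) (nat_lit 0x700000001c00080000000000000000000000000000000) (nat_lit 0x0) (nat_lit 0x8000600180000e00020007c002800000000000000000000000000) := Q_23 (nat_lit 159) (C_23 L66741 (C_23 L66744 (C_23 L66745 (C_23 L66749 (C_23 L66752 N_23))))) (by decide +kernel)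
theorem L66754 : W_23 (nat_lit 2) (nat_lit 0x700000001f00080000000000000000000000000000000) (nat_lit 0x0) (nat_lit 0x7000000000000000000000000000000000000000) := D_23 (nat_lit 157) (nat_lit 156) (nat_lit 158) (nat_lit 1) (nat_lit 7) (nat_lit 8) (nat_lit 1) (nat_lit 8) (nat_lit 8) (by decide +kernel)
theorem L66755 : W_23 (nat_lit 3) (nat_lit 0x700000001e00080000000000000000000000000000000) (nat_lit 0x0) (nat_lit 0x7000100040000000000000000000000000000000) := T_23 (nat_lit 140) (nat_lit 126) (nat_lit 2) (nat_lit 4) (nat_lit 8) L66754 (by decide +kernel)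
theorem L66756 : W_23 (nat_lit 4) (nat_lit 0x700000001c00080000000000000000000000000000000) (nat_lit 0x0) (nat_lit 0x7000300140000000000000000000000000000000) := T_23 (nat_lit 141) (nat_lit 128) (nat_lit 2) (nat_lit 5) (nat_lit 8) L66755 (by decide +kernel)
theorem L66757 : W_23 (nat_lit 2) (nat_lit 0x12000f00084001e00090000000000000000000000000000000) (nat_lit 0x0) (nat_lit 0x4001000100000000000000000000000000000000000000000) := D_23 (nat_lit 180) (nat_lit 194) (nat_lit 164) (nat_lit 1) (nat_lit 10) (nat_lit 10) (nat_lit 2) (nat_lit 7) (nat_lit 10) (by decide +kernel)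
theorem L66758 : W_23 (nat_lit 3) (nat_lit 0x12000f00004001e00090000000000000000000000000000000) (nat_lit 0x0) (nat_lit 0x40010001c0000000000000000000000000000000000000000) := T_23 (nat_lit 163) (nat_lit 162) (nat_lit 2) (nat_lit 6) (nat_lit 10) L66757 (by decide +kernel)
theorem L66759 : W_23 (nat_lit 4) (nat_lit 0x10000f00004001e00090000000000000000000000000000000) (nat_lit 0x0) (nat_lit 0x60010801c0000000000000000000000000000000000000000) := T_23 (nat_lit 193) (nat_lit 175) (nat_lit 7) (nat_lit 5) (nat_lit 7) L66758 (by decide +kernel)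
theorem L66760 : W_23 (nat_lit 5) (nat_lit 0xf00004001e00090000000000000000000000000000000) (nat_lit 0x0) (nat_lit 0x360010801c0000000000000000000000000000000000000000) := T_23 (nat_lit 196) (nat_lit 197) (nat_lit 3) (nat_lit 6) (nat_lit 10) L66759 (by decide +kernel)
theorem L66761 : W_23 (nat_lit 6) (nat_lit 0xf00004001e00080000000000000000000000000000000) (nat_lit 0x0) (nat_lit 0x360010801c0000000018000000000000000000000000000000) := T_23 (nat_lit 124) (nat_lit 123) (nat_lit 0) (nat_lit 8) (nat_lit 8) L66760 (by decide +kernel)
theorem L66762 : W_23 (nat_lit 7) (nat_lit 0x700004001e00080000000000000000000000000000000) (nat_lit 0x0) (nat_lit 0x360018801c8000000018000000000000000000000000000000) := T_23 (nat_lit 179) (nat_lit 159) (nat_lit 0) (nat_lit 9) (nat_lit 10) L66761 (by decide +kernel)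
theorem L66763 : W_23 (nat_lit 8) (nat_lit 0x700000001e00080000000000000000000000000000000) (nat_lit 0x0) (nat_lit 0x360018801ce000000018000000000000000000000000000000) := T_23 (nat_lit 158) (nat_lit 157) (nat_lit 1) (nat_lit 8) (nat_lit 8) L66762 (by decide +kernel)
theorem L66764 : W_23 (nat_lit 9) (nat_lit 0x700000001c00080000000000000000000000000000000) (nat_lit 0x0) (nat_lit 0x360018801ce000200118000000000000000000000000000000) := T_23 (nat_lit 141) (nat_lit 128) (nat_lit 2) (nat_lit 5) (nat_lit 8) L66763 (by decide +kernel)
theorem L66765 : W_23 (nat_lit 2) (nat_lit 0x20000f00088001c000b4000000000000000000000000000000) (nat_lit 0x0) (nat_lit 0x40001000100000000000000000000000000000000000000000) := D_23 (nat_lit 180) (nat_lit 198) (nat_lit 164) (nat_lit 3) (nat_lit 7) (nat_lit 10) (nat_lit 2) (nat_lit 7) (nat_lit 10) (by decide +kernel)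
theorem L66766 : W_23 (nat_lit 3) (nat_lit 0x20000f00008001c000b4000000000000000000000000000000) (nat_lit 0x0) (nat_lit 0x400010001c0000000000000000000000000000000000000000) := T_23 (nat_lit 163) (nat_lit 162) (nat_lit 2) (nat_lit 6) (nat_lit 10) L66765 (by decide +kernel)
theorem L66767 : W_23 (nat_lit 4) (nat_lit 0xf00008001c000b4000000000000000000000000000000) (nat_lit 0x0) (nat_lit 0x700010001c0000000000000000000000000000000000000000) := T_23 (nat_lit 197) (nat_lit 196) (nat_lit 3) (nat_lit 6) (nat_lit 10) L66766 (by decide +kernel)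
theorem L66768 : W_23 (nat_lit 5) (nat_lit 0xf00008001c000b0000000000000000000000000000000) (nat_lit 0x0) (nat_lit 0x700010001c000000000c000000000000000000000000000000) := T_23 (nat_lit 122) (nat_lit 123) (nat_lit 3) (nat_lit 3) (nat_lit 7) L66767 (by decide +kernel)
theorem L66769 : W_23 (nat_lit 6) (nat_lit 0xf00008001c000a0000000000000000000000000000000) (nat_lit 0x0) (nat_lit 0x700010001c000000001c000800000000000000000000000000) := T_23 (nat_lit 124) (nat_lit 107) (nat_lit 4) (nat_lit 6) (nat_lit 10) L66768 (by decide +kernel)
theorem L66770 : W_23 (nat_lit 7) (nat_lit 0xf00008001c00080000000000000000000000000000000) (nat_lit 0x0) (nat_lit 0x740010001c000000003c000800000000000000000000000000) := T_23 (nat_lit 125) (nat_lit 194) (nat_lit 7) (nat_lit 6) (nat_lit 7) L66769 (by decide +kernel)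
theorem L66771 : W_23 (nat_lit 8) (nat_lit 0x700008001c00080000000000000000000000000000000) (nat_lit 0x0) (nat_lit 0x740018001c400000003c000800000000000000000000000000) := T_23 (nat_lit 179) (nat_lit 158) (nat_lit 0) (nat_lit 9) (nat_lit 10) L66770 (by decide +kernel)
theorem L66772 : W_23 (nat_lit 2) (nat_lit 0x22000f00088001c00080000000000000000000000000000000) (nat_lit 0x0) (nat_lit 0x40001000100000000000000000000000000000000000000000) := D_23 (nat_lit 180) (nat_lit 164) (nat_lit 198) (nat_lit 2) (nat_lit 7) (nat_lit 10) (nat_lit 3) (nat_lit 7) (nat_lit 10) (by decide +kernel)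
theorem L66773 : W_23 (nat_lit 3) (nat_lit 0x2000f00088001c00080000000000000000000000000000000) (nat_lit 0x0) (nat_lit 0x70001000100000000000000000000000000000000000000000) := T_23 (nat_lit 197) (nat_lit 196) (nat_lit 3) (nat_lit 6) (nat_lit 10) L66772 (by decide +kernel)
theorem L66774 : W_23 (nat_lit 4) (nat_lit 0x2000f00008001c00080000000000000000000000000000000) (nat_lit 0x0) (nat_lit 0x700010001c0000000000000000000000000000000000000000) := T_23 (nat_lit 163) (nat_lit 162) (nat_lit 2) (nat_lit 6) (nat_lit 10) L66773 (by decide +kernel)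
theorem L66775 : W_23 (nat_lit 5) (nat_lit 0x2000700008001c00080000000000000000000000000000000) (nat_lit 0x0) (nat_lit 0x700018001c4000000000000000000000000000000000000000) := T_23 (nat_lit 179) (nat_lit 158) (nat_lit 0) (nat_lit 9) (nat_lit 10) L66774 (by decide +kernel)
theorem L66776 : W_23 (nat_lit 6) (nat_lit 0x700008001c00080000000000000000000000000000000) (nat_lit 0x0) (nat_lit 0x720018001c4000000040000000000000000000000000000000) := T_23 (nat_lit 193) (nat_lit 126) (nat_lit 6) (nat_lit 6) (nat_lit 11) L66775 (by decide +kernel)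
theorem L66777 : W_23 (nat_lit 9) (nat_lit 0x700000001c00080000000000000000000000000000000) (nat_lit 0x0) (nat_lit 0x800760018001cc00000007c002800000000000000000000000000) := Q_23 (nat_lit 159) (C_23 L66745 (C_23 L66741 (C_23 L66744 (C_23 L66771 (C_23 L66776 N_23))))) (by decide +kernel)
theorem L66778 : W_23 (nat_lit 2) (nat_lit 0x700000001f00080000000000000000000000000000000) (nat_lit 0x0) (nat_lit 0x1c000000000000000000000000000000) := D_23 (nat_lit 123) (nat_lit 124) (nat_lit 122) (nat_lit 0) (nat_lit 8) (nat_lit 8) (nat_lit 0) (nat_lit 7) (nat_lit 8) (by decide +kernel)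
theorem L66779 : W_23 (nat_lit 3) (nat_lit 0x700000001e00080000000000000000000000000000000) (nat_lit 0x0) (nat_lit 0x10005c000000000000000000000000000000) := T_23 (nat_lit 140) (nat_lit 126) (nat_lit 2) (nat_lit 4) (nat_lit 8) L66778 (by decide +kernel)
theorem L66780 : W_23 (nat_lit 4) (nat_lit 0x700000001c00080000000000000000000000000000000) (nat_lit 0x0) (nat_lit 0x30015c000000000000000000000000000000) := T_23 (nat_lit 141) (nat_lit 128) (nat_lit 2) (nat_lit 5) (nat_lit 8) L66779 (by decide +kernel)
theorem L66781 : W_23 (nat_lit 10) (nat_lit 0x700000001800080000000000000000000000000000000) (nat_lit 0x0) (nat_lit 0x800760018801cf00070017c002800000000000000000000000000) := Q_23 (nat_lit 142) (C_23 L66753 (C_23 L66756 (C_23 L66764 (C_23 L66777 (C_23 L66780 N_23))))) (by decide +kernel)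
theorem L66782 : W_23 (nat_lit 2) (nat_lit 0x44001f00088001800080000000000000000000000000000000) (nat_lit 0x0) (nat_lit 0x88002000000000000000000000000000000000000000000000) := D_23 (nat_lit 181) (nat_lit 195) (nat_lit 199) (nat_lit 1) (nat_lit 11) (nat_lit 10) (nat_lit 3) (nat_lit 8) (nat_lit 10) (by decide +kernel)
theorem L66783 : W_23 (nat_lit 3) (nat_lit 0x4001f00088001800080000000000000000000000000000000) (nat_lit 0x0) (nat_lit 0xe8002000000000000000000000000000000000000000000000) := T_23 (nat_lit 198) (nat_lit 197) (nat_lit 3) (nat_lit 7) (nat_lit 10) L66782 (by decide +kernel)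
theorem L66784 : W_23 (nat_lit 4) (nat_lit 0x1f00088001800080000000000000000000000000000000) (nat_lit 0x0) (nat_lit 0xee002000000000000000000000000000000000000000000000) := T_23 (nat_lit 194) (nat_lit 193) (nat_lit 1) (nat_lit 10) (nat_lit 10) L66783 (by decide +kernel)
theorem L66785 : W_23 (nat_lit 5) (nat_lit 0xf00088001800080000000000000000000000000000000) (nat_lit 0x0) (nat_lit 0xee003000100000000000000000000000000000000000000000) := T_23 (nat_lit 180) (nat_lit 164) (nat_lit 2) (nat_lit 7) (nat_lit 10) L66784 (by decide +kernel)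
theorem L66786 : W_23 (nat_lit 6) (nat_lit 0xf00008001800080000000000000000000000000000000) (nat_lit 0x0) (nat_lit 0xee0030001c0000000000000000000000000000000000000000) := T_23 (nat_lit 163) (nat_lit 162) (nat_lit 2) (nat_lit 6) (nat_lit 10) L66785 (by decide +kernel)
theorem L66787 : W_23 (nat_lit 7) (nat_lit 0xf00000001800080000000000000000000000000000000) (nat_lit 0x0) (nat_lit 0xee0030001cc000000000000000000000000000000000000000) := T_23 (nat_lit 159) (nat_lit 158) (nat_lit 0) (nat_lit 9) (nat_lit 10) L66786 (by decide +kernel)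
theorem L66788 : W_23 (nat_lit 2) (nat_lit 0x4000000014001f00088001800380000000000000000000000000000000) (nat_lit 0x0) (nat_lit 0x400060000000000000000000000000000000) := D_23 (nat_lit 142) (nat_lit 126) (nat_lit 125) (nat_lit 1) (nat_lit 10) (nat_lit 7) (nat_lit 7) (nat_lit 6) (nat_lit 7) (by decide +kernel)
theorem L66789 : W_23 (nat_lit 3) (nat_lit 0x4000000014001f00080001800380000000000000000000000000000000) (nat_lit 0x0) (nat_lit 0xc000400060000000000000000000000000000000) := T_23 (nat_lit 159) (nat_lit 158) (nat_lit 0) (nat_lit 9) (nat_lit 10) L66788 (by decide +kernel)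
theorem L66790 : W_23 (nat_lit 4) (nat_lit 0x4000000014001f00080001800280000000000000000000000000000000) (nat_lit 0x0) (nat_lit 0xc000400560000000000000000000000000000000) := T_23 (nat_lit 128) (nat_lit 130) (nat_lit 1) (nat_lit 11) (nat_lit 7) L66789 (by decide +kernel)
theorem L66791 : W_23 (nat_lit 5) (nat_lit 0x4000000014001f00080001800080000000000000000000000000000000) (nat_lit 0x0) (nat_lit 0xc004400760000000000000000000000000000000) := T_23 (nat_lit 129) (nat_lit 146) (nat_lit 5) (nat_lit 10) (nat_lit 7) L66790 (by decide +kernel)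
theorem L66792 : W_23 (nat_lit 6) (nat_lit 0x14001f00080001800080000000000000000000000000000000) (nat_lit 0x0) (nat_lit 0x400020000000000000c004400760000000000000000000000000000000) := T_23 (nat_lit 230) (nat_lit 213) (nat_lit 6) (nat_lit 9) (nat_lit 13) L66791 (by decide +kernel)
theorem L66793 : W_23 (nat_lit 7) (nat_lit 0x10001f00080001800080000000000000000000000000000000) (nat_lit 0x0) (nat_lit 0x400020000600000000c004400760000000000000000000000000000000) := T_23 (nat_lit 194) (nat_lit 193) (nat_lit 1) (nat_lit 10) (nat_lit 10) L66792 (by decide +kernel)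
theorem L66794 : W_23 (nat_lit 8) (nat_lit 0x10000f00080001800080000000000000000000000000000000) (nat_lit 0x0) (nat_lit 0x400020000600100010c004400760000000000000000000000000000000) := T_23 (nat_lit 180) (nat_lit 164) (nat_lit 2) (nat_lit 7) (nat_lit 10) L66793 (by decide +kernel)
theorem L66795 : W_23 (nat_lit 9) (nat_lit 0xf00080001800080000000000000000000000000000000) (nat_lit 0x0) (nat_lit 0x400020003600100010c004400760000000000000000000000000000000) := T_23 (nat_lit 196) (nat_lit 197) (nat_lit 3) (nat_lit 6) (nat_lit 10) L66794 (by decide +kernel)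
theorem L66796 : W_23 (nat_lit 10) (nat_lit 0xf00000001800080000000000000000000000000000000) (nat_lit 0x0) (nat_lit 0x40002000360010001cc004400760000000000000000000000000000000) := T_23 (nat_lit 163) (nat_lit 162) (nat_lit 2) (nat_lit 6) (nat_lit 10) L66795 (by decide +kernel)
theorem L66797 : W_23 (nat_lit 2) (nat_lit 0x4000000014001f800840018003c0011000000000000000000000000000) (nat_lit 0x0) (nat_lit 0x20008800000000000000000000000000) := D_23 (nat_lit 125) (nat_lit 111) (nat_lit 107) (nat_lit 2) (nat_lit 6) (nat_lit 7) (nat_lit 0) (nat_lit 9) (nat_lit 7) (by decide +kernel)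
theorem L66798 : W_23 (nat_lit 3) (nat_lit 0x4000000014001f800840018003c0001000000000000000000000000000) (nat_lit 0x0) (nat_lit 0x20038800000000000000000000000000) := T_23 (nat_lit 112) (nat_lit 113) (nat_lit 2) (nat_lit 7) (nat_lit 7) L66797 (by decide +kernel)
theorem L66799 : W_23 (nat_lit 4) (nat_lit 0x4000000014001f800840018003c0000000000000000000000000000000) (nat_lit 0x0) (nat_lit 0x2003b800000000000000000000000000) := T_23 (nat_lit 108) (nat_lit 109) (nat_lit 0) (nat_lit 10) (nat_lit 7) L66798 (by decide +kernel)
theorem L66800 : W_23 (nat_lit 5) (nat_lit 0x4000000014001f80084001800380000000000000000000000000000000) (nat_lit 0x0) (nat_lit 0x40006003b800000000000000000000000000) := T_23 (nat_lit 126) (nat_lit 142) (nat_lit 1) (nat_lit 10) (nat_lit 7) L66799 (by decide +kernel)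
theorem L66801 : W_23 (nat_lit 6) (nat_lit 0x4000000014001f80084001800280000000000000000000000000000000) (nat_lit 0x0) (nat_lit 0x40056003b800000000000000000000000000) := T_23 (nat_lit 128) (nat_lit 130) (nat_lit 1) (nat_lit 11) (nat_lit 7) L66800 (by decide +kernel)
theorem L66802 : W_23 (nat_lit 7) (nat_lit 0x4000000014001f80084001800080000000000000000000000000000000) (nat_lit 0x0) (nat_lit 0x440076003b800000000000000000000000000) := T_23 (nat_lit 129) (nat_lit 146) (nat_lit 5) (nat_lit 10) (nat_lit 7) L66801 (by decide +kernel)
theorem L66803 : W_23 (nat_lit 8) (nat_lit 0x14001f80084001800080000000000000000000000000000000) (nat_lit 0x0) (nat_lit 0x400020000000000000000440076003b800000000000000000000000000) := T_23 (nat_lit 230) (nat_lit 213) (nat_lit 6) (nat_lit 9) (nat_lit 13) L66802 (by decide +kernel)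
theorem L66804 : W_23 (nat_lit 9) (nat_lit 0x10001f80084001800080000000000000000000000000000000) (nat_lit 0x0) (nat_lit 0x400020000600000000000440076003b800000000000000000000000000) := T_23 (nat_lit 194) (nat_lit 193) (nat_lit 1) (nat_lit 10) (nat_lit 10) L66803 (by decide +kernel)
theorem L66805 : W_23 (nat_lit 10) (nat_lit 0x10000f80084001800080000000000000000000000000000000) (nat_lit 0x0) (nat_lit 0x400020000600100010000440076003b800000000000000000000000000) := T_23 (nat_lit 180) (nat_lit 164) (nat_lit 2) (nat_lit 7) (nat_lit 10) L66804 (by decide +kernel)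
theorem L66806 : W_23 (nat_lit 11) (nat_lit 0x10000f80004001800080000000000000000000000000000000) (nat_lit 0x0) (nat_lit 0x40002000060010001c000440076003b800000000000000000000000000) := T_23 (nat_lit 163) (nat_lit 162) (nat_lit 2) (nat_lit 6) (nat_lit 10) L66805 (by decide +kernel)
theorem L66807 : W_23 (nat_lit 12) (nat_lit 0x10000f80000001800080000000000000000000000000000000) (nat_lit 0x0) (nat_lit 0x40002000060010001c600440076003b800000000000000000000000000) := T_23 (nat_lit 158) (nat_lit 157) (nat_lit 0) (nat_lit 8) (nat_lit 10) L66806 (by decide +kernel)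
theorem L66808 : W_23 (nat_lit 13) (nat_lit 0x10000f00000001800080000000000000000000000000000000) (nat_lit 0x0) (nat_lit 0x400020000e0010801c600440076003b800000000000000000000000000) := T_23 (nat_lit 175) (nat_lit 195) (nat_lit 3) (nat_lit 5) (nat_lit 10) L66807 (by decide +kernel)
theorem L66809 : W_23 (nat_lit 14) (nat_lit 0xf00000001800080000000000000000000000000000000) (nat_lit 0x0) (nat_lit 0x400020003e0010801c600440076003b800000000000000000000000000) := T_23 (nat_lit 196) (nat_lit 197) (nat_lit 3) (nat_lit 6) (nat_lit 10) L66808 (by decide +kernel)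
theorem L66810 : W_23 (nat_lit 2) (nat_lit 0x10000f00044001800080000000000000000000000000000000) (nat_lit 0x0) (nat_lit 0x8000080002000000000000000000000000000000000000000) := D_23 (nat_lit 175) (nat_lit 195) (nat_lit 157) (nat_lit 3) (nat_lit 5) (nat_lit 10) (nat_lit 0) (nat_lit 8) (nat_lit 10) (by decide +kernel)
theorem L66811 : W_23 (nat_lit 3) (nat_lit 0xf00044001800080000000000000000000000000000000) (nat_lit 0x0) (nat_lit 0x38000080002000000000000000000000000000000000000000) := T_23 (nat_lit 196) (nat_lit 197) (nat_lit 3) (nat_lit 6) (nat_lit 10) L66810 (by decide +kernel)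
theorem L66812 : W_23 (nat_lit 4) (nat_lit 0xf00040001800080000000000000000000000000000000) (nat_lit 0x0) (nat_lit 0x3800008000e000000000000000000000000000000000000000) := T_23 (nat_lit 158) (nat_lit 159) (nat_lit 0) (nat_lit 9) (nat_lit 10) L66811 (by decide +kernel)
theorem L66813 : W_23 (nat_lit 5) (nat_lit 0xf00000001800080000000000000000000000000000000) (nat_lit 0x0) (nat_lit 0x380000800ce000000000000000000000000000000000000000) := T_23 (nat_lit 162) (nat_lit 163) (nat_lit 2) (nat_lit 6) (nat_lit 10) L66812 (by decide +kernel)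
theorem L66814 : W_23 (nat_lit 2) (nat_lit 0xc000f80044001800080000000000000000000000000000000) (nat_lit 0x0) (nat_lit 0x2003000000000000000000000000000000000000000000000) := D_23 (nat_lit 180) (nat_lit 181) (nat_lit 193) (nat_lit 1) (nat_lit 11) (nat_lit 10) (nat_lit 1) (nat_lit 10) (nat_lit 10) (by decide +kernel)
theorem L66815 : W_23 (nat_lit 3) (nat_lit 0x8000f80044001800080000000000000000000000000000000) (nat_lit 0x0) (nat_lit 0x6003040000000000000000000000000000000000000000000) := T_23 (nat_lit 194) (nat_lit 174) (nat_lit 3) (nat_lit 4) (nat_lit 10) L66814 (by decide +kernel)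
theorem L66816 : W_23 (nat_lit 4) (nat_lit 0xf80044001800080000000000000000000000000000000) (nat_lit 0x0) (nat_lit 0x1e003040000000000000000000000000000000000000000000) := T_23 (nat_lit 195) (nat_lit 196) (nat_lit 3) (nat_lit 5) (nat_lit 10) L66815 (by decide +kernel)
theorem L66817 : W_23 (nat_lit 5) (nat_lit 0xf00044001800080000000000000000000000000000000) (nat_lit 0x0) (nat_lit 0x1e0030c0002000000000000000000000000000000000000000) := T_23 (nat_lit 175) (nat_lit 157) (nat_lit 0) (nat_lit 8) (nat_lit 10) L66816 (by decide +kernel)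
theorem L66818 : W_23 (nat_lit 6) (nat_lit 0xf00040001800080000000000000000000000000000000) (nat_lit 0x0) (nat_lit 0x1e0030c000e000000000000000000000000000000000000000) := T_23 (nat_lit 158) (nat_lit 159) (nat_lit 0) (nat_lit 9) (nat_lit 10) L66817 (by decide +kernel)
theorem L66819 : W_23 (nat_lit 7) (nat_lit 0xf00000001800080000000000000000000000000000000) (nat_lit 0x0) (nat_lit 0x1e0030c00ce000000000000000000000000000000000000000) := T_23 (nat_lit 162) (nat_lit 163) (nat_lit 2) (nat_lit 6) (nat_lit 10) L66818 (by decide +kernel)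
theorem L66820 : W_23 (nat_lit 2) (nat_lit 0x24001f00108001800080000000000000000000000000000000) (nat_lit 0x0) (nat_lit 0x8002000200000000000000000000000000000000000000000) := D_23 (nat_lit 181) (nat_lit 165) (nat_lit 195) (nat_lit 2) (nat_lit 8) (nat_lit 10) (nat_lit 1) (nat_lit 11) (nat_lit 10) (by decide +kernel)
theorem L66821 : W_23 (nat_lit 3) (nat_lit 0x20001f00108001800080000000000000000000000000000000) (nat_lit 0x0) (nat_lit 0xe002000200000000000000000000000000000000000000000) := T_23 (nat_lit 194) (nat_lit 193) (nat_lit 1) (nat_lit 10) (nat_lit 10) L66820 (by decide +kernel)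
theorem L66822 : W_23 (nat_lit 4) (nat_lit 0x20001f00008001800080000000000000000000000000000000) (nat_lit 0x0) (nat_lit 0xe002000380000000000000000000000000000000000000000) := T_23 (nat_lit 164) (nat_lit 163) (nat_lit 2) (nat_lit 7) (nat_lit 10) L66821 (by decide +kernel)
theorem L66823 : W_23 (nat_lit 5) (nat_lit 0x20000f00008001800080000000000000000000000000000000) (nat_lit 0x0) (nat_lit 0x4e003000380000000000000000000000000000000000000000) := T_23 (nat_lit 180) (nat_lit 198) (nat_lit 3) (nat_lit 7) (nat_lit 10) L66822 (by decide +kernel)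
theorem L66824 : W_23 (nat_lit 6) (nat_lit 0xf00008001800080000000000000000000000000000000) (nat_lit 0x0) (nat_lit 0x7e003000380000000000000000000000000000000000000000) := T_23 (nat_lit 197) (nat_lit 196) (nat_lit 3) (nat_lit 6) (nat_lit 10) L66823 (by decide +kernel)
theorem L66825 : W_23 (nat_lit 7) (nat_lit 0xf00000001800080000000000000000000000000000000) (nat_lit 0x0) (nat_lit 0x7e00300038c000000000000000000000000000000000000000) := T_23 (nat_lit 159) (nat_lit 158) (nat_lit 0) (nat_lit 9) (nat_lit 10) L66824 (by decide +kernel)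
theorem L66826 : W_23 (nat_lit 2) (nat_lit 0x4000000014001f800800018003c0011000000000000000000000000000) (nat_lit 0x0) (nat_lit 0x20008800000000000000000000000000) := D_23 (nat_lit 125) (nat_lit 111) (nat_lit 107) (nat_lit 2) (nat_lit 6) (nat_lit 7) (nat_lit 0) (nat_lit 9) (nat_lit 7) (by decide +kernel)
theorem L66827 : W_23 (nat_lit 3) (nat_lit 0x4000000014001f800800018003c0001000000000000000000000000000) (nat_lit 0x0) (nat_lit 0x20038800000000000000000000000000) := T_23 (nat_lit 112) (nat_lit 113) (nat_lit 2) (nat_lit 7) (nat_lit 7) L66826 (by decide +kernel)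
theorem L66828 : W_23 (nat_lit 4) (nat_lit 0x4000000014001f800800018003c0000000000000000000000000000000) (nat_lit 0x0) (nat_lit 0x2003b800000000000000000000000000) := T_23 (nat_lit 108) (nat_lit 109) (nat_lit 0) (nat_lit 10) (nat_lit 7) L66827 (by decide +kernel)
theorem L66829 : W_23 (nat_lit 5) (nat_lit 0x4000000014001f80080001800380000000000000000000000000000000) (nat_lit 0x0) (nat_lit 0x40006003b800000000000000000000000000) := T_23 (nat_lit 126) (nat_lit 142) (nat_lit 1) (nat_lit 10) (nat_lit 7) L66828 (by decide +kernel)
theorem L66830 : W_23 (nat_lit 6) (nat_lit 0x4000000014001f80080001800280000000000000000000000000000000) (nat_lit 0x0) (nat_lit 0x40056003b800000000000000000000000000) := T_23 (nat_lit 128) (nat_lit 130) (nat_lit 1) (nat_lit 11) (nat_lit 7) L66829 (by decide +kernel)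
theorem L66831 : W_23 (nat_lit 7) (nat_lit 0x4000000014001f80080001800080000000000000000000000000000000) (nat_lit 0x0) (nat_lit 0x440076003b800000000000000000000000000) := T_23 (nat_lit 129) (nat_lit 146) (nat_lit 5) (nat_lit 10) (nat_lit 7) L66830 (by decide +kernel)
theorem L66832 : W_23 (nat_lit 8) (nat_lit 0x14001f80080001800080000000000000000000000000000000) (nat_lit 0x0) (nat_lit 0x400020000000000000000440076003b800000000000000000000000000) := T_23 (nat_lit 230) (nat_lit 213) (nat_lit 6) (nat_lit 9) (nat_lit 13) L66831 (by decide +kernel)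
theorem L66833 : W_23 (nat_lit 9) (nat_lit 0x10001f80080001800080000000000000000000000000000000) (nat_lit 0x0) (nat_lit 0x400020000600000000000440076003b800000000000000000000000000) := T_23 (nat_lit 194) (nat_lit 193) (nat_lit 1) (nat_lit 10) (nat_lit 10) L66832 (by decide +kernel)
theorem L66834 : W_23 (nat_lit 10) (nat_lit 0x10000f80080001800080000000000000000000000000000000) (nat_lit 0x0) (nat_lit 0x400020000600100010000440076003b800000000000000000000000000) := T_23 (nat_lit 180) (nat_lit 164) (nat_lit 2) (nat_lit 7) (nat_lit 10) L66833 (by decide +kernel)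
theorem L66835 : W_23 (nat_lit 11) (nat_lit 0x10000f80000001800080000000000000000000000000000000) (nat_lit 0x0) (nat_lit 0x40002000060010001c000440076003b800000000000000000000000000) := T_23 (nat_lit 163) (nat_lit 162) (nat_lit 2) (nat_lit 6) (nat_lit 10) L66834 (by decide +kernel)
theorem L66836 : W_23 (nat_lit 12) (nat_lit 0x10000f00000001800080000000000000000000000000000000) (nat_lit 0x0) (nat_lit 0x400020000e0010801c000440076003b800000000000000000000000000) := T_23 (nat_lit 175) (nat_lit 195) (nat_lit 3) (nat_lit 5) (nat_lit 10) L66835 (by decide +kernel)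
theorem L66837 : W_23 (nat_lit 13) (nat_lit 0xf00000001800080000000000000000000000000000000) (nat_lit 0x0) (nat_lit 0x400020003e0010801c000440076003b800000000000000000000000000) := T_23 (nat_lit 196) (nat_lit 197) (nat_lit 3) (nat_lit 6) (nat_lit 10) L66836 (by decide +kernel)
theorem L66838 : W_23 (nat_lit 15) (nat_lit 0x700000001800080000000000000000000000000000000) (nat_lit 0x0) (nat_lit 0x40002000fe0038c03ce00440076003b800000000000000000000000000) := Q_23 (nat_lit 179) (C_23 L66787 (C_23 L66796 (C_23 L66809 (C_23 L66813 (C_23 L66819 (C_23 L66825 (C_23 L66837 (C_23 L65765 N_23)))))))) (by decide +kernel)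
theorem L66839 : W_23 (nat_lit 2) (nat_lit 0x5000000014001f00088001c00180000000000000000000000000000000) (nat_lit 0x0) (nat_lit 0x4000600000000000000000000000000000000) := D_23 (nat_lit 129) (nat_lit 146) (nat_lit 130) (nat_lit 5) (nat_lit 10) (nat_lit 7) (nat_lit 1) (nat_lit 11) (nat_lit 7) (by decide +kernel)
theorem L66840 : W_23 (nat_lit 3) (nat_lit 0x5000000014001f00088001c00080000000000000000000000000000000) (nat_lit 0x0) (nat_lit 0x4200700000000000000000000000000000000) := T_23 (nat_lit 128) (nat_lit 141) (nat_lit 2) (nat_lit 5) (nat_lit 8) L66839 (by decide +kernel)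
theorem L66841 : W_23 (nat_lit 4) (nat_lit 0x4000000014001f00088001c00080000000000000000000000000000000) (nat_lit 0x0) (nat_lit 0x1000080000000000000004200700000000000000000000000000000000) := T_23 (nat_lit 228) (nat_lit 211) (nat_lit 4) (nat_lit 7) (nat_lit 13) L66840 (by decide +kernel)
theorem L66842 : W_23 (nat_lit 5) (nat_lit 0x4000000014001f00088001800080000000000000000000000000000000) (nat_lit 0x0) (nat_lit 0x1000080000000000000004600720000000000000000000000000000000) := T_23 (nat_lit 142) (nat_lit 125) (nat_lit 7) (nat_lit 6) (nat_lit 7) L66841 (by decide +kernel)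
theorem L66843 : W_23 (nat_lit 6) (nat_lit 0x14001f00088001800080000000000000000000000000000000) (nat_lit 0x0) (nat_lit 0x5000280000000000000004600720000000000000000000000000000000) := T_23 (nat_lit 230) (nat_lit 213) (nat_lit 6) (nat_lit 9) (nat_lit 13) L66842 (by decide +kernel)
theorem L66844 : W_23 (nat_lit 7) (nat_lit 0x10001f00088001800080000000000000000000000000000000) (nat_lit 0x0) (nat_lit 0x5000280006000000000004600720000000000000000000000000000000) := T_23 (nat_lit 194) (nat_lit 193) (nat_lit 1) (nat_lit 10) (nat_lit 10) L66843 (by decide +kernel)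
theorem L66845 : W_23 (nat_lit 8) (nat_lit 0x10000f00088001800080000000000000000000000000000000) (nat_lit 0x0) (nat_lit 0x5000280006001000100004600720000000000000000000000000000000) := T_23 (nat_lit 180) (nat_lit 164) (nat_lit 2) (nat_lit 7) (nat_lit 10) L66844 (by decide +kernel)
theorem L66846 : W_23 (nat_lit 9) (nat_lit 0x10000f00008001800080000000000000000000000000000000) (nat_lit 0x0) (nat_lit 0x50002800060010001c0004600720000000000000000000000000000000) := T_23 (nat_lit 163) (nat_lit 162) (nat_lit 2) (nat_lit 6) (nat_lit 10) L66845 (by decide +kernel)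
theorem L66847 : W_23 (nat_lit 10) (nat_lit 0xf00008001800080000000000000000000000000000000) (nat_lit 0x0) (nat_lit 0x50002800360010001c0004600720000000000000000000000000000000) := T_23 (nat_lit 196) (nat_lit 197) (nat_lit 3) (nat_lit 6) (nat_lit 10) L66846 (by decide +kernel)
theorem L66848 : W_23 (nat_lit 11) (nat_lit 0xf00000001800080000000000000000000000000000000) (nat_lit 0x0) (nat_lit 0x50002800360010001cc004600720000000000000000000000000000000) := T_23 (nat_lit 159) (nat_lit 158) (nat_lit 0) (nat_lit 9) (nat_lit 10) L66847 (by decide +kernel)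
theorem L66849 : W_23 (nat_lit 2) (nat_lit 0x4800000012001f80084001a00180000000000000000000000000000000) (nat_lit 0x0) (nat_lit 0x4000600000000000000000000000000000000) := D_23 (nat_lit 129) (nat_lit 146) (nat_lit 130) (nat_lit 5) (nat_lit 10) (nat_lit 7) (nat_lit 1) (nat_lit 11) (nat_lit 7) (by decide +kernel)
theorem L66850 : W_23 (nat_lit 3) (nat_lit 0x4800000012001f80084001a00080000000000000000000000000000000) (nat_lit 0x0) (nat_lit 0x4400700000000000000000000000000000000) := T_23 (nat_lit 128) (nat_lit 142) (nat_lit 2) (nat_lit 5) (nat_lit 8) L66849 (by decide +kernel)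
theorem L66851 : W_23 (nat_lit 4) (nat_lit 0x4000000012001f80084001a00080000000000000000000000000000000) (nat_lit 0x0) (nat_lit 0x800040000000000000004400700000000000000000000000000000000) := T_23 (nat_lit 227) (nat_lit 210) (nat_lit 4) (nat_lit 6) (nat_lit 13) L66850 (by decide +kernel)
theorem L66852 : W_23 (nat_lit 5) (nat_lit 0x4000000012001f80084001800080000000000000000000000000000000) (nat_lit 0x0) (nat_lit 0x800040000000000000004600710000000000000000000000000000000) := T_23 (nat_lit 141) (nat_lit 124) (nat_lit 7) (nat_lit 5) (nat_lit 7) L66851 (by decide +kernel)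
theorem L66853 : W_23 (nat_lit 6) (nat_lit 0x12001f80084001800080000000000000000000000000000000) (nat_lit 0x0) (nat_lit 0x4800240000000000000004600710000000000000000000000000000000) := T_23 (nat_lit 230) (nat_lit 213) (nat_lit 6) (nat_lit 9) (nat_lit 13) L66852 (by decide +kernel)
theorem L66854 : W_23 (nat_lit 7) (nat_lit 0x10001f80084001800080000000000000000000000000000000) (nat_lit 0x0) (nat_lit 0x4800240006000000000004600710000000000000000000000000000000) := T_23 (nat_lit 193) (nat_lit 194) (nat_lit 1) (nat_lit 10) (nat_lit 10) L66853 (by decide +kernel)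
theorem L66855 : W_23 (nat_lit 8) (nat_lit 0x10000f80084001800080000000000000000000000000000000) (nat_lit 0x0) (nat_lit 0x4800240006001000100004600710000000000000000000000000000000) := T_23 (nat_lit 180) (nat_lit 164) (nat_lit 2) (nat_lit 7) (nat_lit 10) L66854 (by decide +kernel)
theorem L66856 : W_23 (nat_lit 9) (nat_lit 0x10000f80080001800080000000000000000000000000000000) (nat_lit 0x0) (nat_lit 0x4800240006001000106004600710000000000000000000000000000000) := T_23 (nat_lit 158) (nat_lit 157) (nat_lit 0) (nat_lit 8) (nat_lit 10) L66855 (by decide +kernel)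
theorem L66857 : W_23 (nat_lit 10) (nat_lit 0x10000f00080001800080000000000000000000000000000000) (nat_lit 0x0) (nat_lit 0x480024000e001080106004600710000000000000000000000000000000) := T_23 (nat_lit 175) (nat_lit 195) (nat_lit 3) (nat_lit 5) (nat_lit 10) L66856 (by decide +kernel)
theorem L66858 : W_23 (nat_lit 11) (nat_lit 0xf00080001800080000000000000000000000000000000) (nat_lit 0x0) (nat_lit 0x480024003e001080106004600710000000000000000000000000000000) := T_23 (nat_lit 196) (nat_lit 197) (nat_lit 3) (nat_lit 6) (nat_lit 10) L66857 (by decide +kernel)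
theorem L66859 : W_23 (nat_lit 12) (nat_lit 0xf00000001800080000000000000000000000000000000) (nat_lit 0x0) (nat_lit 0x480024003e0010801c6004600710000000000000000000000000000000) := T_23 (nat_lit 163) (nat_lit 162) (nat_lit 2) (nat_lit 6) (nat_lit 10) L66858 (by decide +kernel)
theorem L66860 : W_23 (nat_lit 2) (nat_lit 0x18001f00080001800080000000000000000000000000000000) (nat_lit 0x0) (nat_lit 0x4006000000000000000000000000000000000000000000000) := D_23 (nat_lit 181) (nat_lit 182) (nat_lit 194) (nat_lit 1) (nat_lit 12) (nat_lit 10) (nat_lit 1) (nat_lit 11) (nat_lit 10) (by decide +kernel)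
theorem L66861 : W_23 (nat_lit 3) (nat_lit 0x18000f00080001800080000000000000000000000000000000) (nat_lit 0x0) (nat_lit 0x4007000100000000000000000000000000000000000000000) := T_23 (nat_lit 180) (nat_lit 164) (nat_lit 2) (nat_lit 7) (nat_lit 10) L66860 (by decide +kernel)
theorem L66862 : W_23 (nat_lit 4) (nat_lit 0x10000f00080001800080000000000000000000000000000000) (nat_lit 0x0) (nat_lit 0xc007080100000000000000000000000000000000000000000) := T_23 (nat_lit 195) (nat_lit 175) (nat_lit 3) (nat_lit 5) (nat_lit 10) L66861 (by decide +kernel)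
theorem L66863 : W_23 (nat_lit 5) (nat_lit 0xf00080001800080000000000000000000000000000000) (nat_lit 0x0) (nat_lit 0x3c007080100000000000000000000000000000000000000000) := T_23 (nat_lit 196) (nat_lit 197) (nat_lit 3) (nat_lit 6) (nat_lit 10) L66862 (by decide +kernel)
theorem L66864 : W_23 (nat_lit 6) (nat_lit 0xf00000001800080000000000000000000000000000000) (nat_lit 0x0) (nat_lit 0x3c0070801c0000000000000000000000000000000000000000) := T_23 (nat_lit 163) (nat_lit 162) (nat_lit 2) (nat_lit 6) (nat_lit 10) L66863 (by decide +kernel)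
theorem L66865 : W_23 (nat_lit 13) (nat_lit 0x700000001800080000000000000000000000000000000) (nat_lit 0x0) (nat_lit 0x58002c00fe0078c01ce004600730000000000000000000000000000000) := Q_23 (nat_lit 179) (C_23 L66787 (C_23 L65765 (C_23 L66848 (C_23 L66859 (C_23 L66819 (C_23 L66864 N_23)))))) (by decide +kernel)
theorem L66866 : W_23 (nat_lit 2) (nat_lit 0x20000f00088001800080000000000000000000000000000000) (nat_lit 0x0) (nat_lit 0x40001000100000000000000000000000000000000000000000) := D_23 (nat_lit 180) (nat_lit 198) (nat_lit 164) (nat_lit 3) (nat_lit 7) (nat_lit 10) (nat_lit 2) (nat_lit 7) (nat_lit 10) (by decide +kernel)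
theorem L66867 : W_23 (nat_lit 3) (nat_lit 0x20000f00008001800080000000000000000000000000000000) (nat_lit 0x0) (nat_lit 0x400010001c0000000000000000000000000000000000000000) := T_23 (nat_lit 163) (nat_lit 162) (nat_lit 2) (nat_lit 6) (nat_lit 10) L66866 (by decide +kernel)
theorem L66868 : W_23 (nat_lit 4) (nat_lit 0xf00008001800080000000000000000000000000000000) (nat_lit 0x0) (nat_lit 0x700010001c0000000000000000000000000000000000000000) := T_23 (nat_lit 197) (nat_lit 196) (nat_lit 3) (nat_lit 6) (nat_lit 10) L66867 (by decide +kernel)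
theorem L66869 : W_23 (nat_lit 5) (nat_lit 0xf00000001800080000000000000000000000000000000) (nat_lit 0x0) (nat_lit 0x700010001cc000000000000000000000000000000000000000) := T_23 (nat_lit 159) (nat_lit 158) (nat_lit 0) (nat_lit 9) (nat_lit 10) L66868 (by decide +kernel)
theorem L66870 : W_23 (nat_lit 8) (nat_lit 0x700000001800080000000000000000000000000000000) (nat_lit 0x0) (nat_lit 0xfe0078c01ce000000000000000000000000000000000000000) := Q_23 (nat_lit 179) (C_23 L66787 (C_23 L66864 (C_23 L66869 (C_23 L65765 (C_23 L66819 N_23))))) (by decide +kernel)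
theorem L66871 : W_23 (nat_lit 2) (nat_lit 0x44001f00080001800080000000000000000000000000000000) (nat_lit 0x0) (nat_lit 0x88002000000000000000000000000000000000000000000000) := D_23 (nat_lit 181) (nat_lit 195) (nat_lit 199) (nat_lit 1) (nat_lit 11) (nat_lit 10) (nat_lit 3) (nat_lit 8) (nat_lit 10) (by decide +kernel)
theorem L66872 : W_23 (nat_lit 3) (nat_lit 0x4001f00080001800080000000000000000000000000000000) (nat_lit 0x0) (nat_lit 0xe8002000000000000000000000000000000000000000000000) := T_23 (nat_lit 198) (nat_lit 197) (nat_lit 3) (nat_lit 7) (nat_lit 10) L66871 (by decide +kernel)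
theorem L66873 : W_23 (nat_lit 4) (nat_lit 0x1f00080001800080000000000000000000000000000000) (nat_lit 0x0) (nat_lit 0xee002000000000000000000000000000000000000000000000) := T_23 (nat_lit 194) (nat_lit 193) (nat_lit 1) (nat_lit 10) (nat_lit 10) L66872 (by decide +kernel)
theorem L66874 : W_23 (nat_lit 5) (nat_lit 0xf00080001800080000000000000000000000000000000) (nat_lit 0x0) (nat_lit 0xee003000100000000000000000000000000000000000000000) := T_23 (nat_lit 180) (nat_lit 164) (nat_lit 2) (nat_lit 7) (nat_lit 10) L66873 (by decide +kernel)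
theorem L66875 : W_23 (nat_lit 6) (nat_lit 0xf00000001800080000000000000000000000000000000) (nat_lit 0x0) (nat_lit 0xee0030001c0000000000000000000000000000000000000000) := T_23 (nat_lit 163) (nat_lit 162) (nat_lit 2) (nat_lit 6) (nat_lit 10) L66874 (by decide +kernel)
theorem L66876 : W_23 (nat_lit 2) (nat_lit 0x4000000014001f00080001800380000000000000000000000000000000) (nat_lit 0x0) (nat_lit 0x600040000000000000000000000000000000) := D_23 (nat_lit 142) (nat_lit 126) (nat_lit 141) (nat_lit 1) (nat_lit 10) (nat_lit 7) (nat_lit 2) (nat_lit 5) (nat_lit 8) (by decide +kernel)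
theorem L66877 : W_23 (nat_lit 3) (nat_lit 0x4000000014001f00080001800280000000000000000000000000000000) (nat_lit 0x0) (nat_lit 0x600540000000000000000000000000000000) := T_23 (nat_lit 128) (nat_lit 130) (nat_lit 1) (nat_lit 11) (nat_lit 7) L66876 (by decide +kernel)
theorem L66878 : W_23 (nat_lit 4) (nat_lit 0x4000000014001f00080001800080000000000000000000000000000000) (nat_lit 0x0) (nat_lit 0x4600740000000000000000000000000000000) := T_23 (nat_lit 129) (nat_lit 146) (nat_lit 5) (nat_lit 10) (nat_lit 7) L66877 (by decide +kernel)
theorem L66879 : W_23 (nat_lit 5) (nat_lit 0x14001f00080001800080000000000000000000000000000000) (nat_lit 0x0) (nat_lit 0x4000200000000000000004600740000000000000000000000000000000) := T_23 (nat_lit 230) (nat_lit 213) (nat_lit 6) (nat_lit 9) (nat_lit 13) L66878 (by decide +kernel)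
theorem L66880 : W_23 (nat_lit 6) (nat_lit 0x10001f00080001800080000000000000000000000000000000) (nat_lit 0x0) (nat_lit 0x4000200006000000000004600740000000000000000000000000000000) := T_23 (nat_lit 194) (nat_lit 193) (nat_lit 1) (nat_lit 10) (nat_lit 10) L66879 (by decide +kernel)
theorem L66881 : W_23 (nat_lit 7) (nat_lit 0x10000f00080001800080000000000000000000000000000000) (nat_lit 0x0) (nat_lit 0x4000200006001000100004600740000000000000000000000000000000) := T_23 (nat_lit 180) (nat_lit 164) (nat_lit 2) (nat_lit 7) (nat_lit 10) L66880 (by decide +kernel)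
theorem L66882 : W_23 (nat_lit 8) (nat_lit 0xf00080001800080000000000000000000000000000000) (nat_lit 0x0) (nat_lit 0x4000200036001000100004600740000000000000000000000000000000) := T_23 (nat_lit 196) (nat_lit 197) (nat_lit 3) (nat_lit 6) (nat_lit 10) L66881 (by decide +kernel)
theorem L66883 : W_23 (nat_lit 9) (nat_lit 0xf00000001800080000000000000000000000000000000) (nat_lit 0x0) (nat_lit 0x40002000360010001c0004600740000000000000000000000000000000) := T_23 (nat_lit 163) (nat_lit 162) (nat_lit 2) (nat_lit 6) (nat_lit 10) L66882 (by decide +kernel)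
theorem L66884 : W_23 (nat_lit 6) (nat_lit 0x10000f80080001800080000000000000000000000000000000) (nat_lit 0x0) (nat_lit 0x1000106004600740000000000000000000000000000000) := T_23 (nat_lit 158) (nat_lit 157) (nat_lit 0) (nat_lit 8) (nat_lit 10) L14648 (by decide +kernel)
theorem L66885 : W_23 (nat_lit 7) (nat_lit 0x10000f00080001800080000000000000000000000000000000) (nat_lit 0x0) (nat_lit 0x8001080106004600740000000000000000000000000000000) := T_23 (nat_lit 175) (nat_lit 195) (nat_lit 3) (nat_lit 5) (nat_lit 10) L66884 (by decide +kernel)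
theorem L66886 : W_23 (nat_lit 8) (nat_lit 0xf00080001800080000000000000000000000000000000) (nat_lit 0x0) (nat_lit 0x38001080106004600740000000000000000000000000000000) := T_23 (nat_lit 196) (nat_lit 197) (nat_lit 3) (nat_lit 6) (nat_lit 10) L66885 (by decide +kernel)
theorem L66887 : W_23 (nat_lit 9) (nat_lit 0xf00000001800080000000000000000000000000000000) (nat_lit 0x0) (nat_lit 0x380010801c6004600740000000000000000000000000000000) := T_23 (nat_lit 163) (nat_lit 162) (nat_lit 2) (nat_lit 6) (nat_lit 10) L66886 (by decide +kernel)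
theorem L66888 : W_23 (nat_lit 2) (nat_lit 0xf00040001f00080000000000000000000000000000000) (nat_lit 0x0) (nat_lit 0x7000000000000000000000000000000000000000) := D_23 (nat_lit 157) (nat_lit 156) (nat_lit 158) (nat_lit 1) (nat_lit 7) (nat_lit 8) (nat_lit 1) (nat_lit 8) (nat_lit 8) (by decide +kernel)
theorem L66889 : W_23 (nat_lit 3) (nat_lit 0xf00040001e00080000000000000000000000000000000) (nat_lit 0x0) (nat_lit 0x7000100040000000000000000000000000000000) := T_23 (nat_lit 140) (nat_lit 126) (nat_lit 2) (nat_lit 4) (nat_lit 8) L66888 (by decide +kernel)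
theorem L66890 : W_23 (nat_lit 4) (nat_lit 0xf00040001a00080000000000000000000000000000000) (nat_lit 0x0) (nat_lit 0x7000500140000000000000000000000000000000) := T_23 (nat_lit 142) (nat_lit 128) (nat_lit 2) (nat_lit 5) (nat_lit 8) L66889 (by decide +kernel)
theorem L66891 : W_23 (nat_lit 5) (nat_lit 0xf00000001a00080000000000000000000000000000000) (nat_lit 0x0) (nat_lit 0xc7000500140000000000000000000000000000000) := T_23 (nat_lit 162) (nat_lit 163) (nat_lit 2) (nat_lit 6) (nat_lit 10) L66890 (by decide +kernel)
theorem L66892 : W_23 (nat_lit 2) (nat_lit 0x10000f80044001a00090000000000000000000000000000000) (nat_lit 0x0) (nat_lit 0x400008000400000000000000000000000000) := D_23 (nat_lit 123) (nat_lit 142) (nat_lit 106) (nat_lit 0) (nat_lit 8) (nat_lit 8) (nat_lit 4) (nat_lit 5) (nat_lit 10) (by decide +kernel)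
theorem L66893 : W_23 (nat_lit 3) (nat_lit 0x10000f80044001a00080000000000000000000000000000000) (nat_lit 0x0) (nat_lit 0x2000000000000400018000400000000000000000000000000) := T_23 (nat_lit 124) (nat_lit 193) (nat_lit 7) (nat_lit 5) (nat_lit 7) L66892 (by decide +kernel)
theorem L66894 : W_23 (nat_lit 4) (nat_lit 0x10000f80004001a00080000000000000000000000000000000) (nat_lit 0x0) (nat_lit 0x20000000c0000400018000400000000000000000000000000) := T_23 (nat_lit 162) (nat_lit 163) (nat_lit 2) (nat_lit 6) (nat_lit 10) L66893 (by decide +kernel)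
theorem L66895 : W_23 (nat_lit 5) (nat_lit 0x10000f80000001a00080000000000000000000000000000000) (nat_lit 0x0) (nat_lit 0x20000000c6000400018000400000000000000000000000000) := T_23 (nat_lit 158) (nat_lit 157) (nat_lit 0) (nat_lit 8) (nat_lit 10) L66894 (by decide +kernel)
theorem L66896 : W_23 (nat_lit 6) (nat_lit 0x10000f00000001a00080000000000000000000000000000000) (nat_lit 0x0) (nat_lit 0xa0000800c6000400018000400000000000000000000000000) := T_23 (nat_lit 175) (nat_lit 195) (nat_lit 3) (nat_lit 5) (nat_lit 10) L66895 (by decide +kernel)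
theorem L66897 : W_23 (nat_lit 7) (nat_lit 0xf00000001a00080000000000000000000000000000000) (nat_lit 0x0) (nat_lit 0x3a0000800c6000400018000400000000000000000000000000) := T_23 (nat_lit 196) (nat_lit 197) (nat_lit 3) (nat_lit 6) (nat_lit 10) L66896 (by decide +kernel)
theorem L66898 : W_23 (nat_lit 2) (nat_lit 0x10000f80044001a000b0000000000000000000000000000000) (nat_lit 0x0) (nat_lit 0x48000400000000000000000000000000) := D_23 (nat_lit 123) (nat_lit 126) (nat_lit 106) (nat_lit 3) (nat_lit 4) (nat_lit 7) (nat_lit 4) (nat_lit 5) (nat_lit 10) (by decide +kernel)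
theorem L66899 : W_23 (nat_lit 3) (nat_lit 0x10000f80044001a00090000000000000000000000000000000) (nat_lit 0x0) (nat_lit 0x68001400000000000000000000000000) := T_23 (nat_lit 125) (nat_lit 108) (nat_lit 6) (nat_lit 5) (nat_lit 10) L66898 (by decide +kernel)
theorem L66900 : W_23 (nat_lit 4) (nat_lit 0x10000f80044001a00080000000000000000000000000000000) (nat_lit 0x0) (nat_lit 0x2000000000000000078001400000000000000000000000000) := T_23 (nat_lit 124) (nat_lit 193) (nat_lit 7) (nat_lit 5) (nat_lit 7) L66899 (by decide +kernel)
theorem L66901 : W_23 (nat_lit 5) (nat_lit 0x10000f80040001a00080000000000000000000000000000000) (nat_lit 0x0) (nat_lit 0x2000000006000000078001400000000000000000000000000) := T_23 (nat_lit 158) (nat_lit 157) (nat_lit 0) (nat_lit 8) (nat_lit 10) L66900 (by decide +kernel)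
theorem L66902 : W_23 (nat_lit 6) (nat_lit 0x10000f00040001a00080000000000000000000000000000000) (nat_lit 0x0) (nat_lit 0xa000080006000000078001400000000000000000000000000) := T_23 (nat_lit 175) (nat_lit 195) (nat_lit 3) (nat_lit 5) (nat_lit 10) L66901 (by decide +kernel)
theorem L66903 : W_23 (nat_lit 7) (nat_lit 0xf00040001a00080000000000000000000000000000000) (nat_lit 0x0) (nat_lit 0x3a000080006000000078001400000000000000000000000000) := T_23 (nat_lit 196) (nat_lit 197) (nat_lit 3) (nat_lit 6) (nat_lit 10) L66902 (by decide +kernel)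
theorem L66904 : W_23 (nat_lit 8) (nat_lit 0xf00000001a00080000000000000000000000000000000) (nat_lit 0x0) (nat_lit 0x3a0000800c6000000078001400000000000000000000000000) := T_23 (nat_lit 162) (nat_lit 163) (nat_lit 2) (nat_lit 6) (nat_lit 10) L66903 (by decide +kernel)
theorem L66905 : W_23 (nat_lit 2) (nat_lit 0x10000f80004001e00080000000000000000000000000000000) (nat_lit 0x0) (nat_lit 0x2000000000000000018000000000000000000000000000000) := D_23 (nat_lit 124) (nat_lit 193) (nat_lit 123) (nat_lit 7) (nat_lit 5) (nat_lit 7) (nat_lit 0) (nat_lit 8) (nat_lit 8) (by decide +kernel)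
theorem L66906 : W_23 (nat_lit 3) (nat_lit 0x10000f80004001a00080000000000000000000000000000000) (nat_lit 0x0) (nat_lit 0x2000000000000400118000000000000000000000000000000) := T_23 (nat_lit 142) (nat_lit 128) (nat_lit 2) (nat_lit 5) (nat_lit 8) L66905 (by decide +kernel)
theorem L66907 : W_23 (nat_lit 4) (nat_lit 0x10000f80000001a00080000000000000000000000000000000) (nat_lit 0x0) (nat_lit 0x2000000006000400118000000000000000000000000000000) := T_23 (nat_lit 158) (nat_lit 157) (nat_lit 0) (nat_lit 8) (nat_lit 10) L66906 (by decide +kernel)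
theorem L66908 : W_23 (nat_lit 5) (nat_lit 0x10000f00000001a00080000000000000000000000000000000) (nat_lit 0x0) (nat_lit 0xa000080006000400118000000000000000000000000000000) := T_23 (nat_lit 175) (nat_lit 195) (nat_lit 3) (nat_lit 5) (nat_lit 10) L66907 (by decide +kernel)
theorem L66909 : W_23 (nat_lit 6) (nat_lit 0xf00000001a00080000000000000000000000000000000) (nat_lit 0x0) (nat_lit 0x3a000080006000400118000000000000000000000000000000) := T_23 (nat_lit 196) (nat_lit 197) (nat_lit 3) (nat_lit 6) (nat_lit 10) L66908 (by decide +kernel)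
theorem L66910 : W_23 (nat_lit 2) (nat_lit 0xf00000001f00080000000000000000000000000000000) (nat_lit 0x0) (nat_lit 0x1c000000000000000000000000000000) := D_23 (nat_lit 123) (nat_lit 124) (nat_lit 122) (nat_lit 0) (nat_lit 8) (nat_lit 8) (nat_lit 0) (nat_lit 7) (nat_lit 8) (by decide +kernel)
theorem L66911 : W_23 (nat_lit 3) (nat_lit 0xf00000001e00080000000000000000000000000000000) (nat_lit 0x0) (nat_lit 0x10005c000000000000000000000000000000) := T_23 (nat_lit 140) (nat_lit 126) (nat_lit 2) (nat_lit 4) (nat_lit 8) L66910 (by decide +kernel)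
theorem L66912 : W_23 (nat_lit 4) (nat_lit 0xf00000001a00080000000000000000000000000000000) (nat_lit 0x0) (nat_lit 0x50015c000000000000000000000000000000) := T_23 (nat_lit 142) (nat_lit 128) (nat_lit 2) (nat_lit 5) (nat_lit 8) L66911 (by decide +kernel)
theorem L66913 : W_23 (nat_lit 9) (nat_lit 0xf00000001800080000000000000000000000000000000) (nat_lit 0x0) (nat_lit 0x3a0000800c700070017c001400000000000000000000000000) := Q_23 (nat_lit 141) (C_23 L66891 (C_23 L66897 (C_23 L66904 (C_23 L66909 (C_23 L66912 N_23))))) (by decide +kernel)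
theorem L66914 : W_23 (nat_lit 2) (nat_lit 0x10000000044003f00080001800380000000000000000000000000000000) (nat_lit 0x0) (nat_lit 0x600040000000000000000000000000000000) := D_23 (nat_lit 142) (nat_lit 126) (nat_lit 141) (nat_lit 1) (nat_lit 10) (nat_lit 7) (nat_lit 2) (nat_lit 5) (nat_lit 8) (by decide +kernel)
theorem L66915 : W_23 (nat_lit 3) (nat_lit 0x10000000044003f00080001800280000000000000000000000000000000) (nat_lit 0x0) (nat_lit 0x600540000000000000000000000000000000) := T_23 (nat_lit 128) (nat_lit 130) (nat_lit 1) (nat_lit 11) (nat_lit 7) L66914 (by decide +kernel)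
theorem L66916 : W_23 (nat_lit 4) (nat_lit 0x10000000044003f00080001800080000000000000000000000000000000) (nat_lit 0x0) (nat_lit 0x4600740000000000000000000000000000000) := T_23 (nat_lit 129) (nat_lit 146) (nat_lit 7) (nat_lit 10) (nat_lit 7) L66915 (by decide +kernel)
theorem L66917 : W_23 (nat_lit 5) (nat_lit 0x44003f00080001800080000000000000000000000000000000) (nat_lit 0x0) (nat_lit 0x10000800000000000000004600740000000000000000000000000000000) := T_23 (nat_lit 232) (nat_lit 215) (nat_lit 4) (nat_lit 11) (nat_lit 13) L66916 (by decide +kernel)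
theorem L66918 : W_23 (nat_lit 6) (nat_lit 0x4003f00080001800080000000000000000000000000000000) (nat_lit 0x0) (nat_lit 0x100008000c0000000000004600740000000000000000000000000000000) := T_23 (nat_lit 198) (nat_lit 199) (nat_lit 3) (nat_lit 8) (nat_lit 10) L66917 (by decide +kernel)
theorem L66919 : W_23 (nat_lit 7) (nat_lit 0x4001f00080001800080000000000000000000000000000000) (nat_lit 0x0) (nat_lit 0x100008000c8002000000004600740000000000000000000000000000000) := T_23 (nat_lit 181) (nat_lit 195) (nat_lit 1) (nat_lit 11) (nat_lit 10) L66918 (by decide +kernel)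
theorem L66920 : W_23 (nat_lit 8) (nat_lit 0x1f00080001800080000000000000000000000000000000) (nat_lit 0x0) (nat_lit 0x100008000ce002000000004600740000000000000000000000000000000) := T_23 (nat_lit 194) (nat_lit 193) (nat_lit 1) (nat_lit 10) (nat_lit 10) L66919 (by decide +kernel)
theorem L66921 : W_23 (nat_lit 9) (nat_lit 0xf00080001800080000000000000000000000000000000) (nat_lit 0x0) (nat_lit 0x100008000ce003000100004600740000000000000000000000000000000) := T_23 (nat_lit 180) (nat_lit 164) (nat_lit 2) (nat_lit 7) (nat_lit 10) L66920 (by decide +kernel)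
theorem L66922 : W_23 (nat_lit 10) (nat_lit 0xf00000001800080000000000000000000000000000000) (nat_lit 0x0) (nat_lit 0x100008000ce0030001c0004600740000000000000000000000000000000) := T_23 (nat_lit 163) (nat_lit 162) (nat_lit 2) (nat_lit 6) (nat_lit 10) L66921 (by decide +kernel)
theorem L66923 : W_23 (nat_lit 2) (nat_lit 0x24001f00100001800080000000000000000000000000000000) (nat_lit 0x0) (nat_lit 0x8002000200000000000000000000000000000000000000000) := D_23 (nat_lit 181) (nat_lit 165) (nat_lit 195) (nat_lit 2) (nat_lit 8) (nat_lit 10) (nat_lit 1) (nat_lit 11) (nat_lit 10) (by decide +kernel)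
theorem L66924 : W_23 (nat_lit 3) (nat_lit 0x20001f00100001800080000000000000000000000000000000) (nat_lit 0x0) (nat_lit 0xe002000200000000000000000000000000000000000000000) := T_23 (nat_lit 194) (nat_lit 193) (nat_lit 1) (nat_lit 10) (nat_lit 10) L66923 (by decide +kernel)
theorem L66925 : W_23 (nat_lit 4) (nat_lit 0x20001f00000001800080000000000000000000000000000000) (nat_lit 0x0) (nat_lit 0xe002000380000000000000000000000000000000000000000) := T_23 (nat_lit 164) (nat_lit 163) (nat_lit 2) (nat_lit 7) (nat_lit 10) L66924 (by decide +kernel)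
theorem L66926 : W_23 (nat_lit 5) (nat_lit 0x20000f00000001800080000000000000000000000000000000) (nat_lit 0x0) (nat_lit 0x4e003000380000000000000000000000000000000000000000) := T_23 (nat_lit 180) (nat_lit 198) (nat_lit 3) (nat_lit 7) (nat_lit 10) L66925 (by decide +kernel)
theorem L66927 : W_23 (nat_lit 6) (nat_lit 0xf00000001800080000000000000000000000000000000) (nat_lit 0x0) (nat_lit 0x7e003000380000000000000000000000000000000000000000) := T_23 (nat_lit 197) (nat_lit 196) (nat_lit 3) (nat_lit 6) (nat_lit 10) L66926 (by decide +kernel)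
theorem L66928 : W_23 (nat_lit 2) (nat_lit 0x1f00000001800080000000000000000000000000000000) (nat_lit 0x0) (nat_lit 0x70000000000000000000000000000000000000000000000000) := D_23 (nat_lit 197) (nat_lit 196) (nat_lit 198) (nat_lit 3) (nat_lit 6) (nat_lit 10) (nat_lit 3) (nat_lit 7) (nat_lit 10) (by decide +kernel)
theorem L66929 : W_23 (nat_lit 2) (nat_lit 0x44001f00000001800080000000000000000000000000000000) (nat_lit 0x0) (nat_lit 0x88002000000000000000000000000000000000000000000000) := D_23 (nat_lit 181) (nat_lit 199) (nat_lit 195) (nat_lit 3) (nat_lit 8) (nat_lit 10) (nat_lit 1) (nat_lit 11) (nat_lit 10) (by decide +kernel)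
theorem L66930 : W_23 (nat_lit 3) (nat_lit 0x40001f00000001800080000000000000000000000000000000) (nat_lit 0x0) (nat_lit 0x8e002000000000000000000000000000000000000000000000) := T_23 (nat_lit 194) (nat_lit 193) (nat_lit 1) (nat_lit 10) (nat_lit 10) L66929 (by decide +kernel)
theorem L66931 : W_23 (nat_lit 4) (nat_lit 0x1f00000001800080000000000000000000000000000000) (nat_lit 0x0) (nat_lit 0xee002000000000000000000000000000000000000000000000) := T_23 (nat_lit 198) (nat_lit 197) (nat_lit 3) (nat_lit 7) (nat_lit 10) L66930 (by decide +kernel)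
theorem L66932 : W_23 (nat_lit 2) (nat_lit 0x84003f00200001800080000000000000000000000000000000) (nat_lit 0x0) (nat_lit 0x100004000400000000000000000000000000000000000000000) := D_23 (nat_lit 182) (nat_lit 166) (nat_lit 200) (nat_lit 2) (nat_lit 9) (nat_lit 10) (nat_lit 3) (nat_lit 9) (nat_lit 10) (by decide +kernel)
theorem L66933 : W_23 (nat_lit 3) (nat_lit 0x4003f00200001800080000000000000000000000000000000) (nat_lit 0x0) (nat_lit 0x1c0004000400000000000000000000000000000000000000000) := T_23 (nat_lit 199) (nat_lit 198) (nat_lit 3) (nat_lit 8) (nat_lit 10) L66932 (by decide +kernel)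
theorem L66934 : W_23 (nat_lit 4) (nat_lit 0x4003f00000001800080000000000000000000000000000000) (nat_lit 0x0) (nat_lit 0x1c0004000700000000000000000000000000000000000000000) := T_23 (nat_lit 165) (nat_lit 164) (nat_lit 2) (nat_lit 8) (nat_lit 10) L66933 (by decide +kernel)
theorem L66935 : W_23 (nat_lit 5) (nat_lit 0x4001f00000001800080000000000000000000000000000000) (nat_lit 0x0) (nat_lit 0x1c8006000700000000000000000000000000000000000000000) := T_23 (nat_lit 181) (nat_lit 195) (nat_lit 1) (nat_lit 11) (nat_lit 10) L66934 (by decide +kernel)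
theorem L66936 : W_23 (nat_lit 6) (nat_lit 0x1f00000001800080000000000000000000000000000000) (nat_lit 0x0) (nat_lit 0x1ce006000700000000000000000000000000000000000000000) := T_23 (nat_lit 194) (nat_lit 193) (nat_lit 1) (nat_lit 10) (nat_lit 10) L66935 (by decide +kernel)
theorem L66937 : W_23 (nat_lit 2) (nat_lit 0x14001f00000001800080000000000000000000000000000000) (nat_lit 0x0) (nat_lit 0x8002080000000000000000000000000000000000000000000) := D_23 (nat_lit 195) (nat_lit 175) (nat_lit 181) (nat_lit 3) (nat_lit 5) (nat_lit 10) (nat_lit 1) (nat_lit 11) (nat_lit 10) (by decide +kernel)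
theorem L66938 : W_23 (nat_lit 3) (nat_lit 0x4001f00000001800080000000000000000000000000000000) (nat_lit 0x0) (nat_lit 0x38002080000000000000000000000000000000000000000000) := T_23 (nat_lit 196) (nat_lit 197) (nat_lit 3) (nat_lit 6) (nat_lit 10) L66937 (by decide +kernel)
theorem L66939 : W_23 (nat_lit 4) (nat_lit 0x1f00000001800080000000000000000000000000000000) (nat_lit 0x0) (nat_lit 0x3e002080000000000000000000000000000000000000000000) := T_23 (nat_lit 194) (nat_lit 193) (nat_lit 1) (nat_lit 10) (nat_lit 10) L66938 (by decide +kernel)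
theorem L66940 : W_23 (nat_lit 7) (nat_lit 0xf00000001800080000000000000000000000000000000) (nat_lit 0x0) (nat_lit 0x1fe007080700000000000000000000000000000000000000000) := Q_23 (nat_lit 180) (C_23 L66928 (C_23 L66931 (C_23 L66936 (C_23 L66939 N_23)))) (by decide +kernel)
theorem L66941 : W_23 (nat_lit 11) (nat_lit 0x700000001800080000000000000000000000000000000) (nat_lit 0x0) (nat_lit 0x14000a001fe0078807c700470077c001400000000000000000000000000) := Q_23 (nat_lit 179) (C_23 L66875 (C_23 L66883 (C_23 L66864 (C_23 L66887 (C_23 L66913 (C_23 L66922 (C_23 L66927 (C_23 L66940 N_23)))))))) (by decide +kernel)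
theorem L66942 : W_23 (nat_lit 2) (nat_lit 0x44007c0002001800080000000000000000000000000000000) (nat_lit 0x0) (nat_lit 0x2200020000000000000000000000000000000000000000000) := D_23 (nat_lit 173) (nat_lit 193) (nat_lit 189) (nat_lit 3) (nat_lit 3) (nat_lit 10) (nat_lit 1) (nat_lit 6) (nat_lit 10) (by decide +kernel)
theorem L66943 : W_23 (nat_lit 3) (nat_lit 0x4007c0002001800080000000000000000000000000000000) (nat_lit 0x0) (nat_lit 0xe200020000000000000000000000000000000000000000000) := T_23 (nat_lit 194) (nat_lit 195) (nat_lit 3) (nat_lit 4) (nat_lit 10) L66942 (by decide +kernel)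
theorem L66944 : W_23 (nat_lit 4) (nat_lit 0x7c0002001800080000000000000000000000000000000) (nat_lit 0x0) (nat_lit 0xee00020000000000000000000000000000000000000000000) := T_23 (nat_lit 190) (nat_lit 191) (nat_lit 1) (nat_lit 7) (nat_lit 10) L66943 (by decide +kernel)
theorem L66945 : W_23 (nat_lit 5) (nat_lit 0x780002001800080000000000000000000000000000000) (nat_lit 0x0) (nat_lit 0xee00060001000000000000000000000000000000000000000) := T_23 (nat_lit 174) (nat_lit 156) (nat_lit 0) (nat_lit 7) (nat_lit 10) L66944 (by decide +kernel)
theorem L66946 : W_23 (nat_lit 6) (nat_lit 0x780000001800080000000000000000000000000000000) (nat_lit 0x0) (nat_lit 0xee00060007000000000000000000000000000000000000000) := T_23 (nat_lit 157) (nat_lit 158) (nat_lit 0) (nat_lit 8) (nat_lit 10) L66945 (by decide +kernel)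
theorem L66947 : W_23 (nat_lit 2) (nat_lit 0x7c0000001800080000000000000000000000000000000) (nat_lit 0x0) (nat_lit 0x7000000000000000000000000000000000000000) := D_23 (nat_lit 157) (nat_lit 158) (nat_lit 156) (nat_lit 0) (nat_lit 8) (nat_lit 10) (nat_lit 0) (nat_lit 7) (nat_lit 10) (by decide +kernel)
theorem L66948 : W_23 (nat_lit 2) (nat_lit 0x4007c0001001800080000000000000000000000000000000) (nat_lit 0x0) (nat_lit 0x200020000800000000000000000000000000000000000000) := D_23 (nat_lit 173) (nat_lit 189) (nat_lit 155) (nat_lit 1) (nat_lit 6) (nat_lit 10) (nat_lit 0) (nat_lit 6) (nat_lit 10) (by decide +kernel)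
theorem L66949 : W_23 (nat_lit 3) (nat_lit 0x4007c0000001800080000000000000000000000000000000) (nat_lit 0x0) (nat_lit 0x200020003800000000000000000000000000000000000000) := T_23 (nat_lit 156) (nat_lit 157) (nat_lit 0) (nat_lit 7) (nat_lit 10) L66948 (by decide +kernel)
theorem L66950 : W_23 (nat_lit 4) (nat_lit 0x7c0000001800080000000000000000000000000000000) (nat_lit 0x0) (nat_lit 0xe00020003800000000000000000000000000000000000000) := T_23 (nat_lit 190) (nat_lit 191) (nat_lit 1) (nat_lit 7) (nat_lit 10) L66949 (by decide +kernel)
theorem L66951 : W_23 (nat_lit 2) (nat_lit 0x8000000024007f0004801f00082000000000000000000000000000000) (nat_lit 0x0) (nat_lit 0x8000c000000000000000000000000000000) := D_23 (nat_lit 122) (nat_lit 123) (nat_lit 139) (nat_lit 0) (nat_lit 7) (nat_lit 8) (nat_lit 0) (nat_lit 6) (nat_lit 8) (by decide +kernel)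
theorem L66952 : W_23 (nat_lit 3) (nat_lit 0x8000000024007f0004801e00082000000000000000000000000000000) (nat_lit 0x0) (nat_lit 0x18004c000000000000000000000000000000) := T_23 (nat_lit 140) (nat_lit 126) (nat_lit 2) (nat_lit 4) (nat_lit 8) L66951 (by decide +kernel)
theorem L66953 : W_23 (nat_lit 4) (nat_lit 0x8000000024007f0004801a00082000000000000000000000000000000) (nat_lit 0x0) (nat_lit 0x58014c000000000000000000000000000000) := T_23 (nat_lit 142) (nat_lit 128) (nat_lit 2) (nat_lit 5) (nat_lit 8) L66952 (by decide +kernel)
theorem L66954 : W_23 (nat_lit 5) (nat_lit 0x24007f0004801a00082000000000000000000000000000000) (nat_lit 0x0) (nat_lit 0x80004000000000000000058014c000000000000000000000000000000) := T_23 (nat_lit 227) (nat_lit 210) (nat_lit 4) (nat_lit 6) (nat_lit 13) L66953 (by decide +kernel)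
theorem L66955 : W_23 (nat_lit 6) (nat_lit 0x24007f0004801800082000000000000000000000000000000) (nat_lit 0x0) (nat_lit 0x80004000000000000000078015c000000000000000000000000000000) := T_23 (nat_lit 141) (nat_lit 124) (nat_lit 7) (nat_lit 5) (nat_lit 7) L66954 (by decide +kernel)
theorem L66956 : W_23 (nat_lit 7) (nat_lit 0x24007f0004801800080000000000000000000000000000000) (nat_lit 0x0) (nat_lit 0x8000400000000000000007c015e000000000000000000000000000000) := T_23 (nat_lit 121) (nat_lit 138) (nat_lit 7) (nat_lit 2) (nat_lit 7) L66955 (by decide +kernel)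
theorem L66957 : W_23 (nat_lit 8) (nat_lit 0x24007f0000801800080000000000000000000000000000000) (nat_lit 0x0) (nat_lit 0x80004000000000000c0007c015e000000000000000000000000000000) := T_23 (nat_lit 158) (nat_lit 159) (nat_lit 2) (nat_lit 2) (nat_lit 10) L66956 (by decide +kernel)
theorem L66958 : W_23 (nat_lit 9) (nat_lit 0x24007e0000801800080000000000000000000000000000000) (nat_lit 0x0) (nat_lit 0x80004000000001000c4007c015e000000000000000000000000000000) := T_23 (nat_lit 172) (nat_lit 154) (nat_lit 0) (nat_lit 5) (nat_lit 10) L66957 (by decide +kernel)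
theorem L66959 : W_23 (nat_lit 10) (nat_lit 0x4007e0000801800080000000000000000000000000000000) (nat_lit 0x0) (nat_lit 0x80004000600001000c4007c015e000000000000000000000000000000) := T_23 (nat_lit 193) (nat_lit 194) (nat_lit 3) (nat_lit 3) (nat_lit 10) L66958 (by decide +kernel)
theorem L66960 : W_23 (nat_lit 11) (nat_lit 0x4007e0000001800080000000000000000000000000000000) (nat_lit 0x0) (nat_lit 0x80004000600001000dc007c015e000000000000000000000000000000) := T_23 (nat_lit 155) (nat_lit 156) (nat_lit 0) (nat_lit 6) (nat_lit 10) L66959 (by decide +kernel)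
theorem L66961 : W_23 (nat_lit 12) (nat_lit 0x4007c0000001800080000000000000000000000000000000) (nat_lit 0x0) (nat_lit 0x80004000620003000dc007c015e000000000000000000000000000000) := T_23 (nat_lit 173) (nat_lit 189) (nat_lit 1) (nat_lit 6) (nat_lit 10) L66960 (by decide +kernel)
theorem L66962 : W_23 (nat_lit 13) (nat_lit 0x7c0000001800080000000000000000000000000000000) (nat_lit 0x0) (nat_lit 0x800040006e0003000dc007c015e000000000000000000000000000000) := T_23 (nat_lit 190) (nat_lit 191) (nat_lit 1) (nat_lit 7) (nat_lit 10) L66961 (by decide +kernel)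
theorem L66963 : W_23 (nat_lit 2) (nat_lit 0x2000000008007c000c001f80084000000000000000000000000000000) (nat_lit 0x0) (nat_lit 0x4000000000000000020001000000000000000000000000000) := D_23 (nat_lit 125) (nat_lit 108) (nat_lit 194) (nat_lit 5) (nat_lit 6) (nat_lit 6) (nat_lit 7) (nat_lit 6) (nat_lit 7) (by decide +kernel)
theorem L66964 : W_23 (nat_lit 3) (nat_lit 0x2000000008007c0004001f80084000000000000000000000000000000) (nat_lit 0x0) (nat_lit 0x4000000008000040020001000000000000000000000000000) := T_23 (nat_lit 159) (nat_lit 138) (nat_lit 3) (nat_lit 2) (nat_lit 8) L66963 (by decide +kernel)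
theorem L66965 : W_23 (nat_lit 4) (nat_lit 0x2000000008007c0004001f00084000000000000000000000000000000) (nat_lit 0x0) (nat_lit 0x40000000080000c0022001000000000000000000000000000) := T_23 (nat_lit 139) (nat_lit 121) (nat_lit 0) (nat_lit 6) (nat_lit 8) L66964 (by decide +kernel)
theorem L66966 : W_23 (nat_lit 5) (nat_lit 0x2000000008007c0004001f00080000000000000000000000000000000) (nat_lit 0x0) (nat_lit 0x40000000080000c002e001000000000000000000000000000) := T_23 (nat_lit 122) (nat_lit 123) (nat_lit 0) (nat_lit 7) (nat_lit 8) L66965 (by decide +kernel)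
theorem L66967 : W_23 (nat_lit 6) (nat_lit 0x2000000008007c0004001e00080000000000000000000000000000000) (nat_lit 0x0) (nat_lit 0x40000000080001c006e001000000000000000000000000000) := T_23 (nat_lit 140) (nat_lit 126) (nat_lit 2) (nat_lit 4) (nat_lit 8) L66966 (by decide +kernel)
theorem L66968 : W_23 (nat_lit 7) (nat_lit 0x2000000008007c0004001a00080000000000000000000000000000000) (nat_lit 0x0) (nat_lit 0x40000000080005c016e001000000000000000000000000000) := T_23 (nat_lit 142) (nat_lit 128) (nat_lit 2) (nat_lit 5) (nat_lit 8) L66967 (by decide +kernel)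
theorem L66969 : W_23 (nat_lit 8) (nat_lit 0x8007c0004001a00080000000000000000000000000000000) (nat_lit 0x0) (nat_lit 0x2000100040000000080005c016e001000000000000000000000000000) := T_23 (nat_lit 225) (nat_lit 208) (nat_lit 6) (nat_lit 4) (nat_lit 13) L66968 (by decide +kernel)
theorem L66970 : W_23 (nat_lit 9) (nat_lit 0x8007c0004001800080000000000000000000000000000000) (nat_lit 0x0) (nat_lit 0x2000100040000000080007c017e001000000000000000000000000000) := T_23 (nat_lit 141) (nat_lit 124) (nat_lit 5) (nat_lit 5) (nat_lit 7) L66969 (by decide +kernel)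
theorem L66971 : W_23 (nat_lit 10) (nat_lit 0x8007c0000001800080000000000000000000000000000000) (nat_lit 0x0) (nat_lit 0x20001000400000000e0007c017e001000000000000000000000000000) := T_23 (nat_lit 158) (nat_lit 157) (nat_lit 0) (nat_lit 8) (nat_lit 10) L66970 (by decide +kernel)
theorem L66972 : W_23 (nat_lit 11) (nat_lit 0x7c0000001800080000000000000000000000000000000) (nat_lit 0x0) (nat_lit 0x200010004c0000000e0007c017e001000000000000000000000000000) := T_23 (nat_lit 191) (nat_lit 190) (nat_lit 1) (nat_lit 7) (nat_lit 10) L66971 (by decide +kernel)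
theorem L66973 : W_23 (nat_lit 14) (nat_lit 0x780000001800080000000000000000000000000000000) (nat_lit 0x0) (nat_lit 0xa00050006e0007000fc007c017e001000000000000000000000000000) := Q_23 (nat_lit 174) (C_23 L66947 (C_23 L66950 (C_23 L66962 (C_23 L66972 N_23)))) (by decide +kernel)
theorem L66974 : W_23 (nat_lit 9) (nat_lit 0x80007c0004001800080000000000000000000000000000000) (nat_lit 0x0) (nat_lit 0x200010000c0002000180078015e000000000000000000000000000000) := T_23 (nat_lit 191) (nat_lit 190) (nat_lit 1) (nat_lit 7) (nat_lit 10) L65718 (by decide +kernel)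
theorem L66975 : W_23 (nat_lit 10) (nat_lit 0x8000780004001800080000000000000000000000000000000) (nat_lit 0x0) (nat_lit 0x200010004c0006000180078015e000000000000000000000000000000) := T_23 (nat_lit 174) (nat_lit 194) (nat_lit 3) (nat_lit 4) (nat_lit 10) L66974 (by decide +kernel)
theorem L66976 : W_23 (nat_lit 11) (nat_lit 0x780004001800080000000000000000000000000000000) (nat_lit 0x0) (nat_lit 0x20001001cc0006000180078015e000000000000000000000000000000) := T_23 (nat_lit 195) (nat_lit 196) (nat_lit 3) (nat_lit 5) (nat_lit 10) L66975 (by decide +kernel)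
theorem L66977 : W_23 (nat_lit 12) (nat_lit 0x780000001800080000000000000000000000000000000) (nat_lit 0x0) (nat_lit 0x20001001cc0006000780078015e000000000000000000000000000000) := T_23 (nat_lit 158) (nat_lit 157) (nat_lit 0) (nat_lit 8) (nat_lit 10) L66976 (by decide +kernel)
theorem L66978 : W_23 (nat_lit 2) (nat_lit 0x8000780000001f00080000000000000000000000000000000) (nat_lit 0x0) (nat_lit 0x7000000000000000000000000000000000000000) := D_23 (nat_lit 157) (nat_lit 156) (nat_lit 158) (nat_lit 1) (nat_lit 7) (nat_lit 8) (nat_lit 1) (nat_lit 8) (nat_lit 8) (by decide +kernel)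
theorem L66979 : W_23 (nat_lit 3) (nat_lit 0x8000780000001e00080000000000000000000000000000000) (nat_lit 0x0) (nat_lit 0x7000100040000000000000000000000000000000) := T_23 (nat_lit 140) (nat_lit 126) (nat_lit 2) (nat_lit 4) (nat_lit 8) L66978 (by decide +kernel)
theorem L66980 : W_23 (nat_lit 4) (nat_lit 0x8000780000001a00080000000000000000000000000000000) (nat_lit 0x0) (nat_lit 0x7000500140000000000000000000000000000000) := T_23 (nat_lit 142) (nat_lit 128) (nat_lit 2) (nat_lit 5) (nat_lit 8) L66979 (by decide +kernel)
theorem L66981 : W_23 (nat_lit 5) (nat_lit 0x780000001a00080000000000000000000000000000000) (nat_lit 0x0) (nat_lit 0x18000000007000500140000000000000000000000000000000) := T_23 (nat_lit 195) (nat_lit 196) (nat_lit 3) (nat_lit 5) (nat_lit 10) L66980 (by decide +kernel)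
theorem L66982 : W_23 (nat_lit 2) (nat_lit 0x780004001e00080000000000000000000000000000000) (nat_lit 0x0) (nat_lit 0x2000000000000000018000000000000000000000000000000) := D_23 (nat_lit 124) (nat_lit 193) (nat_lit 123) (nat_lit 7) (nat_lit 5) (nat_lit 7) (nat_lit 0) (nat_lit 8) (nat_lit 8) (by decide +kernel)
theorem L66983 : W_23 (nat_lit 3) (nat_lit 0x780004001a00080000000000000000000000000000000) (nat_lit 0x0) (nat_lit 0x2000000000000400118000000000000000000000000000000) := T_23 (nat_lit 142) (nat_lit 128) (nat_lit 2) (nat_lit 5) (nat_lit 8) L66982 (by decide +kernel)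
theorem L66984 : W_23 (nat_lit 4) (nat_lit 0x780000001a00080000000000000000000000000000000) (nat_lit 0x0) (nat_lit 0x2000000006000400118000000000000000000000000000000) := T_23 (nat_lit 158) (nat_lit 157) (nat_lit 0) (nat_lit 8) (nat_lit 10) L66983 (by decide +kernel)
theorem L66985 : W_23 (nat_lit 2) (nat_lit 0x8000780004001a00090000000000000000000000000000000) (nat_lit 0x0) (nat_lit 0x400008000400000000000000000000000000) := D_23 (nat_lit 123) (nat_lit 142) (nat_lit 106) (nat_lit 0) (nat_lit 8) (nat_lit 8) (nat_lit 4) (nat_lit 5) (nat_lit 10) (by decide +kernel)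
theorem L66986 : W_23 (nat_lit 3) (nat_lit 0x8000780004001a00080000000000000000000000000000000) (nat_lit 0x0) (nat_lit 0x2000000000000400018000400000000000000000000000000) := T_23 (nat_lit 124) (nat_lit 193) (nat_lit 7) (nat_lit 5) (nat_lit 7) L66985 (by decide +kernel)
theorem L66987 : W_23 (nat_lit 4) (nat_lit 0x780004001a00080000000000000000000000000000000) (nat_lit 0x0) (nat_lit 0x1a000000000000400018000400000000000000000000000000) := T_23 (nat_lit 195) (nat_lit 196) (nat_lit 3) (nat_lit 5) (nat_lit 10) L66986 (by decide +kernel)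
theorem L66988 : W_23 (nat_lit 5) (nat_lit 0x780000001a00080000000000000000000000000000000) (nat_lit 0x0) (nat_lit 0x1a000000006000400018000400000000000000000000000000) := T_23 (nat_lit 158) (nat_lit 157) (nat_lit 0) (nat_lit 8) (nat_lit 10) L66987 (by decide +kernel)
theorem L66989 : W_23 (nat_lit 2) (nat_lit 0x8000780004001a00090000800000000000000000000000000) (nat_lit 0x0) (nat_lit 0x20001000080000000000000000000000) := D_23 (nat_lit 108) (nat_lit 91) (nat_lit 125) (nat_lit 6) (nat_lit 5) (nat_lit 9) (nat_lit 6) (nat_lit 5) (nat_lit 10) (by decide +kernel)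
theorem L66990 : W_23 (nat_lit 3) (nat_lit 0x8000780004001a00090000000000000000000000000000000) (nat_lit 0x0) (nat_lit 0x8000000020001800080000000000000000000000) := T_23 (nat_lit 107) (nat_lit 159) (nat_lit 7) (nat_lit 5) (nat_lit 6) L66989 (by decide +kernel)
theorem L66991 : W_23 (nat_lit 4) (nat_lit 0x8000780004001a00080000000000000000000000000000000) (nat_lit 0x0) (nat_lit 0x2000000008000000030001800080000000000000000000000) := T_23 (nat_lit 124) (nat_lit 193) (nat_lit 7) (nat_lit 5) (nat_lit 7) L66990 (by decide +kernel)
theorem L66992 : W_23 (nat_lit 5) (nat_lit 0x780004001a00080000000000000000000000000000000) (nat_lit 0x0) (nat_lit 0x1a000000008000000030001800080000000000000000000000) := T_23 (nat_lit 195) (nat_lit 196) (nat_lit 3) (nat_lit 5) (nat_lit 10) L66991 (by decide +kernel)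
theorem L66993 : W_23 (nat_lit 6) (nat_lit 0x780000001a00080000000000000000000000000000000) (nat_lit 0x0) (nat_lit 0x1a00000000e000000030001800080000000000000000000000) := T_23 (nat_lit 158) (nat_lit 157) (nat_lit 0) (nat_lit 8) (nat_lit 10) L66992 (by decide +kernel)
theorem L66994 : W_23 (nat_lit 7) (nat_lit 0x780000001800080000000000000000000000000000000) (nat_lit 0x0) (nat_lit 0x1a00000000f00070017c001c00080000000000000000000000) := Q_23 (nat_lit 141) (C_23 L66981 (C_23 L66984 (C_23 L66988 (C_23 L66993 (C_23 L8555 N_23))))) (by decide +kernel)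
theorem L66995 : W_23 (nat_lit 2) (nat_lit 0x84007c0001001800080000000000000000000000000000000) (nat_lit 0x0) (nat_lit 0x200020000800000000000000000000000000000000000000) := D_23 (nat_lit 173) (nat_lit 189) (nat_lit 155) (nat_lit 1) (nat_lit 6) (nat_lit 10) (nat_lit 0) (nat_lit 6) (nat_lit 10) (by decide +kernel)
theorem L66996 : W_23 (nat_lit 3) (nat_lit 0x84007c0000001800080000000000000000000000000000000) (nat_lit 0x0) (nat_lit 0x200020003800000000000000000000000000000000000000) := T_23 (nat_lit 156) (nat_lit 157) (nat_lit 0) (nat_lit 7) (nat_lit 10) L66995 (by decide +kernel)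
theorem L66997 : W_23 (nat_lit 4) (nat_lit 0x80007c0000001800080000000000000000000000000000000) (nat_lit 0x0) (nat_lit 0xe00020003800000000000000000000000000000000000000) := T_23 (nat_lit 190) (nat_lit 191) (nat_lit 1) (nat_lit 7) (nat_lit 10) L66996 (by decide +kernel)
theorem L66998 : W_23 (nat_lit 5) (nat_lit 0x8000780000001800080000000000000000000000000000000) (nat_lit 0x0) (nat_lit 0x4e00060003800000000000000000000000000000000000000) := T_23 (nat_lit 174) (nat_lit 194) (nat_lit 3) (nat_lit 4) (nat_lit 10) L66997 (by decide +kernel)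
theorem L66999 : W_23 (nat_lit 6) (nat_lit 0x780000001800080000000000000000000000000000000) (nat_lit 0x0) (nat_lit 0x1ce00060003800000000000000000000000000000000000000) := T_23 (nat_lit 195) (nat_lit 196) (nat_lit 3) (nat_lit 5) (nat_lit 10) L66998 (by decide +kernel)
theorem L67000 : W_23 (nat_lit 2) (nat_lit 0x88007c0000001e00080000000000000000000000000000000) (nat_lit 0x0) (nat_lit 0x4000000018000000000000000000000000000000) := D_23 (nat_lit 124) (nat_lit 123) (nat_lit 158) (nat_lit 0) (nat_lit 8) (nat_lit 8) (nat_lit 5) (nat_lit 5) (nat_lit 7) (by decide +kernel)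
theorem L67001 : W_23 (nat_lit 3) (nat_lit 0x88007c0000001c00080000000000000000000000000000000) (nat_lit 0x0) (nat_lit 0x4000200118000000000000000000000000000000) := T_23 (nat_lit 141) (nat_lit 128) (nat_lit 2) (nat_lit 5) (nat_lit 8) L67000 (by decide +kernel)
theorem L67002 : W_23 (nat_lit 4) (nat_lit 0x80007c0000001c00080000000000000000000000000000000) (nat_lit 0x0) (nat_lit 0xc00000004000200118000000000000000000000000000000) := T_23 (nat_lit 191) (nat_lit 190) (nat_lit 1) (nat_lit 7) (nat_lit 10) L67001 (by decide +kernel)
theorem L67003 : W_23 (nat_lit 5) (nat_lit 0x8000780000001c00080000000000000000000000000000000) (nat_lit 0x0) (nat_lit 0x4c00040004000200118000000000000000000000000000000) := T_23 (nat_lit 174) (nat_lit 194) (nat_lit 3) (nat_lit 4) (nat_lit 10) L67002 (by decide +kernel)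
theorem L67004 : W_23 (nat_lit 6) (nat_lit 0x780000001c00080000000000000000000000000000000) (nat_lit 0x0) (nat_lit 0x1cc00040004000200118000000000000000000000000000000) := T_23 (nat_lit 195) (nat_lit 196) (nat_lit 3) (nat_lit 5) (nat_lit 10) L67003 (by decide +kernel)
theorem L67005 : W_23 (nat_lit 3) (nat_lit 0x84007f0008801c00082000000000000000000000000000000) (nat_lit 0x0) (nat_lit 0x2000000000000000060002000100000000000000000000000) := T_23 (nat_lit 126) (nat_lit 193) (nat_lit 6) (nat_lit 6) (nat_lit 11) L13956 (by decide +kernel)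
theorem L67006 : W_23 (nat_lit 4) (nat_lit 0x84007f0008801c00080000000000000000000000000000000) (nat_lit 0x0) (nat_lit 0x2000000000000040062002000100000000000000000000000) := T_23 (nat_lit 121) (nat_lit 138) (nat_lit 7) (nat_lit 2) (nat_lit 7) L67005 (by decide +kernel)
theorem L67007 : W_23 (nat_lit 5) (nat_lit 0x84007f0000801c00080000000000000000000000000000000) (nat_lit 0x0) (nat_lit 0x200000000c000040062002000100000000000000000000000) := T_23 (nat_lit 159) (nat_lit 158) (nat_lit 2) (nat_lit 2) (nat_lit 10) L67006 (by decide +kernel)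
theorem L67008 : W_23 (nat_lit 6) (nat_lit 0x84007e0000801c00080000000000000000000000000000000) (nat_lit 0x0) (nat_lit 0x200001000c400040062002000100000000000000000000000) := T_23 (nat_lit 172) (nat_lit 154) (nat_lit 0) (nat_lit 5) (nat_lit 10) L67007 (by decide +kernel)
theorem L67009 : W_23 (nat_lit 7) (nat_lit 0x84007e0000001c00080000000000000000000000000000000) (nat_lit 0x0) (nat_lit 0x200001000dc00040062002000100000000000000000000000) := T_23 (nat_lit 155) (nat_lit 156) (nat_lit 0) (nat_lit 6) (nat_lit 10) L67008 (by decide +kernel)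
theorem L67010 : W_23 (nat_lit 8) (nat_lit 0x84007c0000001c00080000000000000000000000000000000) (nat_lit 0x0) (nat_lit 0x220003000dc00040062002000100000000000000000000000) := T_23 (nat_lit 173) (nat_lit 189) (nat_lit 1) (nat_lit 6) (nat_lit 10) L67009 (by decide +kernel)
theorem L67011 : W_23 (nat_lit 9) (nat_lit 0x80007c0000001c00080000000000000000000000000000000) (nat_lit 0x0) (nat_lit 0x2e0003000dc00040062002000100000000000000000000000) := T_23 (nat_lit 190) (nat_lit 191) (nat_lit 1) (nat_lit 7) (nat_lit 10) L67010 (by decide +kernel)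
theorem L67012 : W_23 (nat_lit 10) (nat_lit 0x8000780000001c00080000000000000000000000000000000) (nat_lit 0x0) (nat_lit 0x6e0007000dc00040062002000100000000000000000000000) := T_23 (nat_lit 174) (nat_lit 194) (nat_lit 3) (nat_lit 4) (nat_lit 10) L67011 (by decide +kernel)
theorem L67013 : W_23 (nat_lit 11) (nat_lit 0x780000001c00080000000000000000000000000000000) (nat_lit 0x0) (nat_lit 0x1ee0007000dc00040062002000100000000000000000000000) := T_23 (nat_lit 195) (nat_lit 196) (nat_lit 3) (nat_lit 5) (nat_lit 10) L67012 (by decide +kernel)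
theorem L67014 : W_23 (nat_lit 12) (nat_lit 0x780000001800080000000000000000000000000000000) (nat_lit 0x0) (nat_lit 0x1ee0007000dc0074017e002000100000000000000000000000) := Q_23 (nat_lit 142) (C_23 L67004 (C_23 L8541 (C_23 L67013 N_23))) (by decide +kernel)
theorem L67015 : W_23 (nat_lit 2) (nat_lit 0x2000000088007c000c001e000c0000000000000000000000000000000) (nat_lit 0x0) (nat_lit 0x20003000000000000000000000000000) := D_23 (nat_lit 125) (nat_lit 109) (nat_lit 108) (nat_lit 6) (nat_lit 6) (nat_lit 10) (nat_lit 5) (nat_lit 6) (nat_lit 6) (by decide +kernel)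
theorem L67016 : W_23 (nat_lit 3) (nat_lit 0x2000000088007c0004001e000c0000000000000000000000000000000) (nat_lit 0x0) (nat_lit 0x2000000008000000020003000000000000000000000000000) := T_23 (nat_lit 159) (nat_lit 193) (nat_lit 6) (nat_lit 6) (nat_lit 11) L67015 (by decide +kernel)
theorem L67017 : W_23 (nat_lit 4) (nat_lit 0x2000000088007c0004001e00080000000000000000000000000000000) (nat_lit 0x0) (nat_lit 0x2000000008000100060003000000000000000000000000000) := T_23 (nat_lit 126) (nat_lit 140) (nat_lit 2) (nat_lit 4) (nat_lit 8) L67016 (by decide +kernel)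
theorem L67018 : W_23 (nat_lit 5) (nat_lit 0x2000000088007c0004001a00080000000000000000000000000000000) (nat_lit 0x0) (nat_lit 0x2000000008000500160003000000000000000000000000000) := T_23 (nat_lit 142) (nat_lit 128) (nat_lit 2) (nat_lit 5) (nat_lit 8) L67017 (by decide +kernel)
theorem L67019 : W_23 (nat_lit 6) (nat_lit 0x88007c0004001a00080000000000000000000000000000000) (nat_lit 0x0) (nat_lit 0x200010002000000008000500160003000000000000000000000000000) := T_23 (nat_lit 225) (nat_lit 208) (nat_lit 6) (nat_lit 4) (nat_lit 13) L67018 (by decide +kernel)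
theorem L67020 : W_23 (nat_lit 7) (nat_lit 0x88007c0004001800080000000000000000000000000000000) (nat_lit 0x0) (nat_lit 0x200010002000000008000700170003000000000000000000000000000) := T_23 (nat_lit 141) (nat_lit 124) (nat_lit 5) (nat_lit 5) (nat_lit 7) L67019 (by decide +kernel)
theorem L67021 : W_23 (nat_lit 8) (nat_lit 0x88007c0000001800080000000000000000000000000000000) (nat_lit 0x0) (nat_lit 0x20001000200000000e000700170003000000000000000000000000000) := T_23 (nat_lit 158) (nat_lit 157) (nat_lit 0) (nat_lit 8) (nat_lit 10) L67020 (by decide +kernel)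
theorem L67022 : W_23 (nat_lit 9) (nat_lit 0x80007c0000001800080000000000000000000000000000000) (nat_lit 0x0) (nat_lit 0x200010002c0000000e000700170003000000000000000000000000000) := T_23 (nat_lit 191) (nat_lit 190) (nat_lit 1) (nat_lit 7) (nat_lit 10) L67021 (by decide +kernel)
theorem L67023 : W_23 (nat_lit 10) (nat_lit 0x8000780000001800080000000000000000000000000000000) (nat_lit 0x0) (nat_lit 0x200010006c0004000e000700170003000000000000000000000000000) := T_23 (nat_lit 174) (nat_lit 194) (nat_lit 3) (nat_lit 4) (nat_lit 10) L67022 (by decide +kernel)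
theorem L67024 : W_23 (nat_lit 11) (nat_lit 0x780000001800080000000000000000000000000000000) (nat_lit 0x0) (nat_lit 0x20001001ec0004000e000700170003000000000000000000000000000) := T_23 (nat_lit 195) (nat_lit 196) (nat_lit 3) (nat_lit 5) (nat_lit 10) L67023 (by decide +kernel)
theorem L67025 : W_23 (nat_lit 15) (nat_lit 0x700000001800080000000000000000000000000000000) (nat_lit 0x0) (nat_lit 0xa0005001ee000f000fc007c017e003c00180000000000000000000000) := Q_23 (nat_lit 175) (C_23 L66946 (C_23 L66973 (C_23 L66977 (C_23 L66994 (C_23 L66999 (C_23 L67014 (C_23 L67024 N_23))))))) (by decide +kernel)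
theorem L67026 : W_23 (nat_lit 2) (nat_lit 0x48003f00088001800380000000000000000000000000000000) (nat_lit 0x0) (nat_lit 0x600040000000000000000000000000000000) := D_23 (nat_lit 142) (nat_lit 126) (nat_lit 141) (nat_lit 1) (nat_lit 10) (nat_lit 7) (nat_lit 2) (nat_lit 5) (nat_lit 8) (by decide +kernel)
theorem L67027 : W_23 (nat_lit 3) (nat_lit 0x48003f00088001800280000000000000000000000000000000) (nat_lit 0x0) (nat_lit 0x600540000000000000000000000000000000) := T_23 (nat_lit 128) (nat_lit 130) (nat_lit 1) (nat_lit 11) (nat_lit 7) L67026 (by decide +kernel)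
theorem L67028 : W_23 (nat_lit 4) (nat_lit 0x48003f00088001800080000000000000000000000000000000) (nat_lit 0x0) (nat_lit 0x4600740000000000000000000000000000000) := T_23 (nat_lit 129) (nat_lit 146) (nat_lit 7) (nat_lit 10) (nat_lit 7) L67027 (by decide +kernel)
theorem L67029 : W_23 (nat_lit 5) (nat_lit 0x40003f00088001800080000000000000000000000000000000) (nat_lit 0x0) (nat_lit 0xc000000000004600740000000000000000000000000000000) := T_23 (nat_lit 195) (nat_lit 194) (nat_lit 1) (nat_lit 11) (nat_lit 10) L67028 (by decide +kernel)
theorem L67030 : W_23 (nat_lit 6) (nat_lit 0x40001f00088001800080000000000000000000000000000000) (nat_lit 0x0) (nat_lit 0x8c002000000004600740000000000000000000000000000000) := T_23 (nat_lit 181) (nat_lit 199) (nat_lit 3) (nat_lit 8) (nat_lit 10) L67029 (by decide +kernel)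
theorem L67031 : W_23 (nat_lit 7) (nat_lit 0x1f00088001800080000000000000000000000000000000) (nat_lit 0x0) (nat_lit 0xec002000000004600740000000000000000000000000000000) := T_23 (nat_lit 198) (nat_lit 197) (nat_lit 3) (nat_lit 7) (nat_lit 10) L67030 (by decide +kernel)
theorem L67032 : W_23 (nat_lit 8) (nat_lit 0xf00088001800080000000000000000000000000000000) (nat_lit 0x0) (nat_lit 0xec003000100004600740000000000000000000000000000000) := T_23 (nat_lit 180) (nat_lit 164) (nat_lit 2) (nat_lit 7) (nat_lit 10) L67031 (by decide +kernel)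
theorem L67033 : W_23 (nat_lit 9) (nat_lit 0xf00008001800080000000000000000000000000000000) (nat_lit 0x0) (nat_lit 0xec0030001c0004600740000000000000000000000000000000) := T_23 (nat_lit 163) (nat_lit 162) (nat_lit 2) (nat_lit 6) (nat_lit 10) L67032 (by decide +kernel)
theorem L67034 : W_23 (nat_lit 10) (nat_lit 0xf00000001800080000000000000000000000000000000) (nat_lit 0x0) (nat_lit 0xec0030001cc004600740000000000000000000000000000000) := T_23 (nat_lit 159) (nat_lit 158) (nat_lit 0) (nat_lit 9) (nat_lit 10) L67033 (by decide +kernel)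
theorem L67035 : W_23 (nat_lit 2) (nat_lit 0x2000000008800fc0044001f80084000000000000000000000000000000) (nat_lit 0x0) (nat_lit 0x20001800000000000000000000000000000000000000) := D_23 (nat_lit 156) (nat_lit 155) (nat_lit 173) (nat_lit 1) (nat_lit 6) (nat_lit 8) (nat_lit 7) (nat_lit 3) (nat_lit 7) (by decide +kernel)
theorem L67036 : W_23 (nat_lit 3) (nat_lit 0x2000000008800fc0044001f00084000000000000000000000000000000) (nat_lit 0x0) (nat_lit 0x20001800080002000000000000000000000000000000) := T_23 (nat_lit 139) (nat_lit 121) (nat_lit 0) (nat_lit 6) (nat_lit 8) L67035 (by decide +kernel)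
theorem L67037 : W_23 (nat_lit 4) (nat_lit 0x2000000008800fc0044001f00080000000000000000000000000000000) (nat_lit 0x0) (nat_lit 0x2000180008000e000000000000000000000000000000) := T_23 (nat_lit 122) (nat_lit 123) (nat_lit 0) (nat_lit 7) (nat_lit 8) L67036 (by decide +kernel)
theorem L67038 : W_23 (nat_lit 5) (nat_lit 0x2000000008800fc0044001e00080000000000000000000000000000000) (nat_lit 0x0) (nat_lit 0x2000180018004e000000000000000000000000000000) := T_23 (nat_lit 140) (nat_lit 126) (nat_lit 2) (nat_lit 4) (nat_lit 8) L67037 (by decide +kernel)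
theorem L67039 : W_23 (nat_lit 6) (nat_lit 0x2000000008800fc0044001a00080000000000000000000000000000000) (nat_lit 0x0) (nat_lit 0x2000180058014e000000000000000000000000000000) := T_23 (nat_lit 142) (nat_lit 128) (nat_lit 2) (nat_lit 5) (nat_lit 8) L67038 (by decide +kernel)
theorem L67040 : W_23 (nat_lit 7) (nat_lit 0x2000000008800fc0044001800080000000000000000000000000000000) (nat_lit 0x0) (nat_lit 0x2000180078015e000000000000000000000000000000) := T_23 (nat_lit 141) (nat_lit 124) (nat_lit 5) (nat_lit 5) (nat_lit 7) L67039 (by decide +kernel)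
theorem L67041 : W_23 (nat_lit 8) (nat_lit 0x8800fc0044001800080000000000000000000000000000000) (nat_lit 0x0) (nat_lit 0x200010000000002000180078015e000000000000000000000000000000) := T_23 (nat_lit 229) (nat_lit 212) (nat_lit 6) (nat_lit 8) (nat_lit 13) L67040 (by decide +kernel)
theorem L67042 : W_23 (nat_lit 9) (nat_lit 0x8000fc0044001800080000000000000000000000000000000) (nat_lit 0x0) (nat_lit 0x2000100000c0002000180078015e000000000000000000000000000000) := T_23 (nat_lit 191) (nat_lit 190) (nat_lit 1) (nat_lit 7) (nat_lit 10) L67041 (by decide +kernel)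
theorem L67043 : W_23 (nat_lit 10) (nat_lit 0x8000f80044001800080000000000000000000000000000000) (nat_lit 0x0) (nat_lit 0x2000100004c0006000180078015e000000000000000000000000000000) := T_23 (nat_lit 174) (nat_lit 194) (nat_lit 3) (nat_lit 4) (nat_lit 10) L67042 (by decide +kernel)
theorem L67044 : W_23 (nat_lit 11) (nat_lit 0xf80044001800080000000000000000000000000000000) (nat_lit 0x0) (nat_lit 0x200010001cc0006000180078015e000000000000000000000000000000) := T_23 (nat_lit 195) (nat_lit 196) (nat_lit 3) (nat_lit 5) (nat_lit 10) L67043 (by decide +kernel)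
theorem L67045 : W_23 (nat_lit 12) (nat_lit 0xf00044001800080000000000000000000000000000000) (nat_lit 0x0) (nat_lit 0x200010001cc000e000380078015e000000000000000000000000000000) := T_23 (nat_lit 175) (nat_lit 157) (nat_lit 0) (nat_lit 8) (nat_lit 10) L67044 (by decide +kernel)
theorem L67046 : W_23 (nat_lit 13) (nat_lit 0xf00040001800080000000000000000000000000000000) (nat_lit 0x0) (nat_lit 0x200010001cc000e000f80078015e000000000000000000000000000000) := T_23 (nat_lit 158) (nat_lit 159) (nat_lit 0) (nat_lit 9) (nat_lit 10) L67045 (by decide +kernel)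
theorem L67047 : W_23 (nat_lit 14) (nat_lit 0xf00000001800080000000000000000000000000000000) (nat_lit 0x0) (nat_lit 0x200010001cc000e00cf80078015e000000000000000000000000000000) := T_23 (nat_lit 162) (nat_lit 163) (nat_lit 2) (nat_lit 6) (nat_lit 10) L67046 (by decide +kernel)
theorem L67048 : W_23 (nat_lit 15) (nat_lit 0x700000001800080000000000000000000000000000000) (nat_lit 0x0) (nat_lit 0x20001000fcc078e01cf80478075e000000000000000000000000000000) := Q_23 (nat_lit 179) (C_23 L67034 (C_23 L66869 (C_23 L66887 (C_23 L65765 (C_23 L67047 (C_23 L66864 N_23)))))) (by decide +kernel)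
theorem L67049 : W_23 (nat_lit 2) (nat_lit 0x2000f00084001e00090000000000000000000000000000000) (nat_lit 0x0) (nat_lit 0x4001000100000000000000000000000000000000000000000) := D_23 (nat_lit 180) (nat_lit 164) (nat_lit 194) (nat_lit 2) (nat_lit 7) (nat_lit 10) (nat_lit 1) (nat_lit 10) (nat_lit 10) (by decide +kernel)
theorem L67050 : W_23 (nat_lit 3) (nat_lit 0xf00084001e00090000000000000000000000000000000) (nat_lit 0x0) (nat_lit 0x6001080100000000000000000000000000000000000000000) := T_23 (nat_lit 193) (nat_lit 175) (nat_lit 7) (nat_lit 5) (nat_lit 7) L67049 (by decide +kernel)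
theorem L67051 : W_23 (nat_lit 4) (nat_lit 0xf00004001e00090000000000000000000000000000000) (nat_lit 0x0) (nat_lit 0x60010801c0000000000000000000000000000000000000000) := T_23 (nat_lit 163) (nat_lit 162) (nat_lit 2) (nat_lit 6) (nat_lit 10) L67050 (by decide +kernel)
theorem L67052 : W_23 (nat_lit 5) (nat_lit 0xf00004001e00080000000000000000000000000000000) (nat_lit 0x0) (nat_lit 0x60010801c0000000018000000000000000000000000000000) := T_23 (nat_lit 124) (nat_lit 123) (nat_lit 0) (nat_lit 8) (nat_lit 8) L67051 (by decide +kernel)
theorem L67053 : W_23 (nat_lit 6) (nat_lit 0x700004001e00080000000000000000000000000000000) (nat_lit 0x0) (nat_lit 0x60018801c8000000018000000000000000000000000000000) := T_23 (nat_lit 179) (nat_lit 159) (nat_lit 0) (nat_lit 9) (nat_lit 10) L67052 (by decide +kernel)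
theorem L67054 : W_23 (nat_lit 7) (nat_lit 0x700000001e00080000000000000000000000000000000) (nat_lit 0x0) (nat_lit 0x60018801ce000000018000000000000000000000000000000) := T_23 (nat_lit 158) (nat_lit 157) (nat_lit 1) (nat_lit 8) (nat_lit 8) L67053 (by decide +kernel)
theorem L67055 : W_23 (nat_lit 8) (nat_lit 0x700000001c00080000000000000000000000000000000) (nat_lit 0x0) (nat_lit 0x60018801ce000200118000000000000000000000000000000) := T_23 (nat_lit 141) (nat_lit 128) (nat_lit 2) (nat_lit 5) (nat_lit 8) L67054 (by decide +kernel)
theorem L67056 : W_23 (nat_lit 2) (nat_lit 0x4000f00008001c00080000000000000000000000000000000) (nat_lit 0x0) (nat_lit 0x1000080002000000000000000000000000000000000000000000000000) := D_23 (nat_lit 211) (nat_lit 228) (nat_lit 193) (nat_lit 4) (nat_lit 7) (nat_lit 13) (nat_lit 7) (nat_lit 6) (nat_lit 8) (by decide +kernel)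
theorem L67057 : W_23 (nat_lit 3) (nat_lit 0xf00008001c00080000000000000000000000000000000) (nat_lit 0x0) (nat_lit 0x1000080006000000000000000020000000000000000000000000000000) := T_23 (nat_lit 194) (nat_lit 125) (nat_lit 7) (nat_lit 6) (nat_lit 7) L67056 (by decide +kernel)
theorem L67058 : W_23 (nat_lit 4) (nat_lit 0x700008001c00080000000000000000000000000000000) (nat_lit 0x0) (nat_lit 0x1000080006000800004000000020000000000000000000000000000000) := T_23 (nat_lit 179) (nat_lit 158) (nat_lit 0) (nat_lit 9) (nat_lit 10) L67057 (by decide +kernel)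
theorem L67059 : W_23 (nat_lit 2) (nat_lit 0xf00008001c000e0000000000000000000000000000000) (nat_lit 0x0) (nat_lit 0x18000800000000000000000000000000) := D_23 (nat_lit 124) (nat_lit 123) (nat_lit 107) (nat_lit 3) (nat_lit 4) (nat_lit 7) (nat_lit 4) (nat_lit 6) (nat_lit 10) (by decide +kernel)
theorem L67060 : W_23 (nat_lit 3) (nat_lit 0xf00008001c000a0000000000000000000000000000000) (nat_lit 0x0) (nat_lit 0x58002800000000000000000000000000) := T_23 (nat_lit 126) (nat_lit 109) (nat_lit 6) (nat_lit 6) (nat_lit 10) L67059 (by decide +kernel)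
theorem L67061 : W_23 (nat_lit 4) (nat_lit 0xf00008001c00080000000000000000000000000000000) (nat_lit 0x0) (nat_lit 0x4000000000000000078002800000000000000000000000000) := T_23 (nat_lit 125) (nat_lit 194) (nat_lit 7) (nat_lit 6) (nat_lit 7) L67060 (by decide +kernel)
theorem L67062 : W_23 (nat_lit 5) (nat_lit 0x700008001c00080000000000000000000000000000000) (nat_lit 0x0) (nat_lit 0x4000800004000000078002800000000000000000000000000) := T_23 (nat_lit 179) (nat_lit 158) (nat_lit 0) (nat_lit 9) (nat_lit 10) L67061 (by decide +kernel)
theorem L67063 : W_23 (nat_lit 2) (nat_lit 0xf00008001c000c0000000000000000000000000000000) (nat_lit 0x0) (nat_lit 0x20002000100000000000000000000000) := D_23 (nat_lit 109) (nat_lit 125) (nat_lit 92) (nat_lit 6) (nat_lit 6) (nat_lit 10) (nat_lit 5) (nat_lit 7) (nat_lit 5) (by decide +kernel)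
theorem L67064 : W_23 (nat_lit 3) (nat_lit 0xf00008001c00080000000000000000000000000000000) (nat_lit 0x0) (nat_lit 0x2000000000000000060002000100000000000000000000000) := T_23 (nat_lit 126) (nat_lit 193) (nat_lit 6) (nat_lit 6) (nat_lit 11) L67063 (by decide +kernel)
theorem L67065 : W_23 (nat_lit 4) (nat_lit 0x700008001c00080000000000000000000000000000000) (nat_lit 0x0) (nat_lit 0x2000800004000000060002000100000000000000000000000) := T_23 (nat_lit 179) (nat_lit 158) (nat_lit 0) (nat_lit 9) (nat_lit 10) L67064 (by decide +kernel)
theorem L67066 : W_23 (nat_lit 6) (nat_lit 0x700000001c00080000000000000000000000000000000) (nat_lit 0x0) (nat_lit 0x100008000600180000c000000078002800100000000000000000000000) := Q_23 (nat_lit 159) (C_23 L66745 (C_23 L66741 (C_23 L66744 (C_23 L67058 (C_23 L67062 (C_23 L67065 N_23)))))) (by decide +kernel)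
theorem L67067 : W_23 (nat_lit 9) (nat_lit 0x700000001800080000000000000000000000000000000) (nat_lit 0x0) (nat_lit 0x10000800060018801cf00070017c002800100000000000000000000000) := Q_23 (nat_lit 142) (C_23 L66780 (C_23 L66753 (C_23 L67055 (C_23 L67066 (C_23 L66756 N_23))))) (by decide +kernel)
theorem L67068 : W_23 (nat_lit 2) (nat_lit 0x10000000040003f00088001800380000000000000000000000000000000) (nat_lit 0x0) (nat_lit 0x600040000000000000000000000000000000) := D_23 (nat_lit 142) (nat_lit 126) (nat_lit 141) (nat_lit 1) (nat_lit 10) (nat_lit 7) (nat_lit 2) (nat_lit 5) (nat_lit 8) (by decide +kernel)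
theorem L67069 : W_23 (nat_lit 3) (nat_lit 0x10000000040003f00088001800280000000000000000000000000000000) (nat_lit 0x0) (nat_lit 0x600540000000000000000000000000000000) := T_23 (nat_lit 128) (nat_lit 130) (nat_lit 1) (nat_lit 11) (nat_lit 7) L67068 (by decide +kernel)
theorem L67070 : W_23 (nat_lit 4) (nat_lit 0x10000000040003f00088001800080000000000000000000000000000000) (nat_lit 0x0) (nat_lit 0x4600740000000000000000000000000000000) := T_23 (nat_lit 129) (nat_lit 146) (nat_lit 7) (nat_lit 10) (nat_lit 7) L67069 (by decide +kernel)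
theorem L67071 : W_23 (nat_lit 5) (nat_lit 0x40003f00088001800080000000000000000000000000000000) (nat_lit 0x0) (nat_lit 0x10000800000000000000004600740000000000000000000000000000000) := T_23 (nat_lit 232) (nat_lit 215) (nat_lit 4) (nat_lit 11) (nat_lit 13) L67070 (by decide +kernel)
theorem L67072 : W_23 (nat_lit 6) (nat_lit 0x40001f00088001800080000000000000000000000000000000) (nat_lit 0x0) (nat_lit 0x10000800080002000000004600740000000000000000000000000000000) := T_23 (nat_lit 181) (nat_lit 199) (nat_lit 3) (nat_lit 8) (nat_lit 10) L67071 (by decide +kernel)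
theorem L67073 : W_23 (nat_lit 7) (nat_lit 0x1f00088001800080000000000000000000000000000000) (nat_lit 0x0) (nat_lit 0x100008000e0002000000004600740000000000000000000000000000000) := T_23 (nat_lit 198) (nat_lit 197) (nat_lit 3) (nat_lit 7) (nat_lit 10) L67072 (by decide +kernel)
theorem L67074 : W_23 (nat_lit 8) (nat_lit 0xf00088001800080000000000000000000000000000000) (nat_lit 0x0) (nat_lit 0x100008000e0003000100004600740000000000000000000000000000000) := T_23 (nat_lit 180) (nat_lit 164) (nat_lit 2) (nat_lit 7) (nat_lit 10) L67073 (by decide +kernel)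
theorem L67075 : W_23 (nat_lit 9) (nat_lit 0xf00008001800080000000000000000000000000000000) (nat_lit 0x0) (nat_lit 0x100008000e00030001c0004600740000000000000000000000000000000) := T_23 (nat_lit 163) (nat_lit 162) (nat_lit 2) (nat_lit 6) (nat_lit 10) L67074 (by decide +kernel)
theorem L67076 : W_23 (nat_lit 10) (nat_lit 0xf00000001800080000000000000000000000000000000) (nat_lit 0x0) (nat_lit 0x100008000e00030001cc004600740000000000000000000000000000000) := T_23 (nat_lit 159) (nat_lit 158) (nat_lit 0) (nat_lit 9) (nat_lit 10) L67075 (by decide +kernel)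
theorem L67077 : W_23 (nat_lit 5) (nat_lit 0x1f80084001800080000000000000000000000000000000) (nat_lit 0x0) (nat_lit 0x18000000000004600740000000000000000000000000000000) := T_23 (nat_lit 196) (nat_lit 195) (nat_lit 3) (nat_lit 5) (nat_lit 10) L14647 (by decide +kernel)
theorem L67078 : W_23 (nat_lit 6) (nat_lit 0x1f00084001800080000000000000000000000000000000) (nat_lit 0x0) (nat_lit 0x18000080002004600740000000000000000000000000000000) := T_23 (nat_lit 175) (nat_lit 157) (nat_lit 0) (nat_lit 8) (nat_lit 10) L67077 (by decide +kernel)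
theorem L67079 : W_23 (nat_lit 7) (nat_lit 0xf00084001800080000000000000000000000000000000) (nat_lit 0x0) (nat_lit 0x18001080102004600740000000000000000000000000000000) := T_23 (nat_lit 180) (nat_lit 164) (nat_lit 2) (nat_lit 7) (nat_lit 10) L67078 (by decide +kernel)
theorem L67080 : W_23 (nat_lit 8) (nat_lit 0xf00080001800080000000000000000000000000000000) (nat_lit 0x0) (nat_lit 0x1800108010e004600740000000000000000000000000000000) := T_23 (nat_lit 158) (nat_lit 159) (nat_lit 0) (nat_lit 9) (nat_lit 10) L67079 (by decide +kernel)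
theorem L67081 : W_23 (nat_lit 9) (nat_lit 0xf00000001800080000000000000000000000000000000) (nat_lit 0x0) (nat_lit 0x180010801ce004600740000000000000000000000000000000) := T_23 (nat_lit 163) (nat_lit 162) (nat_lit 2) (nat_lit 6) (nat_lit 10) L67080 (by decide +kernel)
theorem L67082 : W_23 (nat_lit 7) (nat_lit 0x10000f00000001800080000000000000000000000000000000) (nat_lit 0x0) (nat_lit 0x80010801c0004600740000000000000000000000000000000) := T_23 (nat_lit 175) (nat_lit 195) (nat_lit 3) (nat_lit 5) (nat_lit 10) L13407 (by decide +kernel)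
theorem L67083 : W_23 (nat_lit 8) (nat_lit 0xf00000001800080000000000000000000000000000000) (nat_lit 0x0) (nat_lit 0x380010801c0004600740000000000000000000000000000000) := T_23 (nat_lit 196) (nat_lit 197) (nat_lit 3) (nat_lit 6) (nat_lit 10) L67082 (by decide +kernel)
theorem L67084 : W_23 (nat_lit 11) (nat_lit 0x700000001800080000000000000000000000000000000) (nat_lit 0x0) (nat_lit 0x100008000fa0038801cf00470077c001400000000000000000000000000) := Q_23 (nat_lit 179) (C_23 L67076 (C_23 L66869 (C_23 L66913 (C_23 L67081 (C_23 L65765 (C_23 L67083 N_23)))))) (by decide +kernel)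
theorem L67085 : W_23 (nat_lit 4) (nat_lit 0xf00000001c00080000000000000000000000000000000) (nat_lit 0x0) (nat_lit 0x200000000c000000060002000100000000000000000000000) := T_23 (nat_lit 159) (nat_lit 158) (nat_lit 0) (nat_lit 9) (nat_lit 10) L67064 (by decide +kernel)
theorem L67086 : W_23 (nat_lit 4) (nat_lit 0xf00000001c00080000000000000000000000000000000) (nat_lit 0x0) (nat_lit 0x30015c000000000000000000000000000000) := T_23 (nat_lit 141) (nat_lit 128) (nat_lit 2) (nat_lit 5) (nat_lit 8) L66911 (by decide +kernel)
theorem L67087 : W_23 (nat_lit 2) (nat_lit 0x10000f00008001e00080000000000000000000000000000000) (nat_lit 0x0) (nat_lit 0x2000000000000000018000000000000000000000000000000) := D_23 (nat_lit 124) (nat_lit 123) (nat_lit 193) (nat_lit 0) (nat_lit 8) (nat_lit 8) (nat_lit 4) (nat_lit 6) (nat_lit 11) (by decide +kernel)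
theorem L67088 : W_23 (nat_lit 3) (nat_lit 0x10000f00008001c00080000000000000000000000000000000) (nat_lit 0x0) (nat_lit 0x2000000000000200118000000000000000000000000000000) := T_23 (nat_lit 141) (nat_lit 128) (nat_lit 2) (nat_lit 5) (nat_lit 8) L67087 (by decide +kernel)
theorem L67089 : W_23 (nat_lit 4) (nat_lit 0x10000f00000001c00080000000000000000000000000000000) (nat_lit 0x0) (nat_lit 0x200000000c000200118000000000000000000000000000000) := T_23 (nat_lit 159) (nat_lit 158) (nat_lit 0) (nat_lit 9) (nat_lit 10) L67088 (by decide +kernel)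
theorem L67090 : W_23 (nat_lit 5) (nat_lit 0xf00000001c00080000000000000000000000000000000) (nat_lit 0x0) (nat_lit 0x3200000000c000200118000000000000000000000000000000) := T_23 (nat_lit 196) (nat_lit 197) (nat_lit 3) (nat_lit 6) (nat_lit 10) L67089 (by decide +kernel)
theorem L67091 : W_23 (nat_lit 6) (nat_lit 0xf00000001800080000000000000000000000000000000) (nat_lit 0x0) (nat_lit 0x3200000000c00070017c002000100000000000000000000000) := Q_23 (nat_lit 142) (C_23 L67085 (C_23 L67086 (C_23 L67090 N_23))) (by decide +kernel)
theorem L67092 : W_23 (nat_lit 11) (nat_lit 0x700000001800080000000000000000000000000000000) (nat_lit 0x0) (nat_lit 0x100008000fe0038003cc00470077c002000100000000000000000000000) := Q_23 (nat_lit 179) (C_23 L67076 (C_23 L66927 (C_23 L67091 (C_23 L66922 N_23)))) (by decide +kernel)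
theorem L67093 : W_23 (nat_lit 2) (nat_lit 0x200020001e000f00048001e00080000000000000000000000000000000) (nat_lit 0x0) (nat_lit 0xc0004000000000000000000000000000000000000000000000000000000000) := D_23 (nat_lit 230) (nat_lit 247) (nat_lit 246) (nat_lit 4) (nat_lit 9) (nat_lit 14) (nat_lit 5) (nat_lit 9) (nat_lit 10) (by decide +kernel)
theorem L67094 : W_23 (nat_lit 3) (nat_lit 0x200000001e000f00048001e00080000000000000000000000000000000) (nat_lit 0x0) (nat_lit 0xc0004000600000000000000000000000000000000000000000000000000000) := T_23 (nat_lit 213) (nat_lit 214) (nat_lit 3) (nat_lit 6) (nat_lit 11) L67093 (by decide +kernel)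
theorem L67095 : W_23 (nat_lit 4) (nat_lit 0x1e000f00048001e00080000000000000000000000000000000) (nat_lit 0x0) (nat_lit 0xc0006000700000000000000000000000000000000000000000000000000000) := T_23 (nat_lit 229) (nat_lit 212) (nat_lit 6) (nat_lit 8) (nat_lit 13) L67094 (by decide +kernel)
theorem L67096 : W_23 (nat_lit 5) (nat_lit 0x16000f00048001e00080000000000000000000000000000000) (nat_lit 0x0) (nat_lit 0xc0006000700008000080000000000000000000000000000000000000000000) := T_23 (nat_lit 195) (nat_lit 175) (nat_lit 3) (nat_lit 5) (nat_lit 10) L67095 (by decide +kernel)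
theorem L67097 : W_23 (nat_lit 6) (nat_lit 0x6000f00048001e00080000000000000000000000000000000) (nat_lit 0x0) (nat_lit 0xc0006000700038000080000000000000000000000000000000000000000000) := T_23 (nat_lit 196) (nat_lit 197) (nat_lit 3) (nat_lit 6) (nat_lit 10) L67096 (by decide +kernel)
theorem L67098 : W_23 (nat_lit 7) (nat_lit 0x6000f00008001e00080000000000000000000000000000000) (nat_lit 0x0) (nat_lit 0xc00060007000380000800c0000000000000000000000000000000000000000) := T_23 (nat_lit 162) (nat_lit 163) (nat_lit 2) (nat_lit 6) (nat_lit 10) L67097 (by decide +kernel)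
theorem L67099 : W_23 (nat_lit 8) (nat_lit 0x6000700008001e00080000000000000000000000000000000) (nat_lit 0x0) (nat_lit 0xc00060007000380018800c0000000000000000000000000000000000000000) := T_23 (nat_lit 179) (nat_lit 180) (nat_lit 1) (nat_lit 10) (nat_lit 10) L67098 (by decide +kernel)
theorem L67100 : W_23 (nat_lit 9) (nat_lit 0x2000700008001e00080000000000000000000000000000000) (nat_lit 0x0) (nat_lit 0xc000600070003c0018800c0000000020000000000000000000000000000000) := T_23 (nat_lit 194) (nat_lit 125) (nat_lit 7) (nat_lit 6) (nat_lit 7) L67099 (by decide +kernel)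
theorem L67101 : W_23 (nat_lit 10) (nat_lit 0x2000700008001c00080000000000000000000000000000000) (nat_lit 0x0) (nat_lit 0xc000600070003c0018800c0000200030000000000000000000000000000000) := T_23 (nat_lit 141) (nat_lit 124) (nat_lit 4) (nat_lit 6) (nat_lit 11) L67100 (by decide +kernel)
theorem L67102 : W_23 (nat_lit 11) (nat_lit 0x700008001c00080000000000000000000000000000000) (nat_lit 0x0) (nat_lit 0xc000600070003e0018800c0000200070000000000000000000000000000000) := T_23 (nat_lit 193) (nat_lit 126) (nat_lit 6) (nat_lit 6) (nat_lit 11) L67101 (by decide +kernel)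
theorem L67103 : W_23 (nat_lit 9) (nat_lit 0x2000700008001e00080000000000000000000000000000000) (nat_lit 0x0) (nat_lit 0xc000600078003c0018800c0000000000000000000000000000000000000000) := T_23 (nat_lit 194) (nat_lit 211) (nat_lit 7) (nat_lit 6) (nat_lit 8) L67099 (by decide +kernel)
theorem L67104 : W_23 (nat_lit 10) (nat_lit 0x2000700008001c00080000000000000000000000000000000) (nat_lit 0x0) (nat_lit 0xc000600078003c0018800c0000200010000000000000000000000000000000) := T_23 (nat_lit 141) (nat_lit 124) (nat_lit 4) (nat_lit 6) (nat_lit 11) L67103 (by decide +kernel)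
theorem L67105 : W_23 (nat_lit 11) (nat_lit 0x700008001c00080000000000000000000000000000000) (nat_lit 0x0) (nat_lit 0xc000600078003e0018800c0000200050000000000000000000000000000000) := T_23 (nat_lit 193) (nat_lit 126) (nat_lit 6) (nat_lit 6) (nat_lit 11) L67104 (by decide +kernel)
theorem L67106 : W_23 (nat_lit 2) (nat_lit 0x700008001c000b0000000000000000000000000000000) (nat_lit 0x0) (nat_lit 0x20000c000000000000000000000000000000) := D_23 (nat_lit 123) (nat_lit 122) (nat_lit 141) (nat_lit 3) (nat_lit 3) (nat_lit 7) (nat_lit 0) (nat_lit 8) (nat_lit 8) (by decide +kernel)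
theorem L67107 : W_23 (nat_lit 3) (nat_lit 0x700008001c000a0000000000000000000000000000000) (nat_lit 0x0) (nat_lit 0x20001c000800000000000000000000000000) := T_23 (nat_lit 124) (nat_lit 107) (nat_lit 4) (nat_lit 6) (nat_lit 10) L67106 (by decide +kernel)
theorem L67108 : W_23 (nat_lit 4) (nat_lit 0x700008001c00080000000000000000000000000000000) (nat_lit 0x0) (nat_lit 0x400000000000020003c000800000000000000000000000000) := T_23 (nat_lit 125) (nat_lit 194) (nat_lit 7) (nat_lit 6) (nat_lit 7) L67107 (by decide +kernel)
theorem L67110 : W_23 (nat_lit 3) (nat_lit 0x700008001c00080000000000000000000000000000000) (nat_lit 0x0) (nat_lit 0x2000000000000000060002000100000000000000000000000) := T_23 (nat_lit 126) (nat_lit 193) (nat_lit 6) (nat_lit 6) (nat_lit 11) L67109 (by decide +kernel)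
theorem L67111 : W_23 (nat_lit 12) (nat_lit 0x700000001c00080000000000000000000000000000000) (nat_lit 0x0) (nat_lit 0xc000600078003e0018800c800020007c002800100000000000000000000000) := Q_23 (nat_lit 159) (C_23 L66745 (C_23 L67102 (C_23 L67105 (C_23 L67108 (C_23 L67110 N_23))))) (by decide +kernel)
theorem L67112 : W_23 (nat_lit 2) (nat_lit 0x700008001e00090000000000000000000000000000000) (nat_lit 0x0) (nat_lit 0x4000000000000000020000800000000000000000000000000) := D_23 (nat_lit 125) (nat_lit 107) (nat_lit 194) (nat_lit 4) (nat_lit 6) (nat_lit 10) (nat_lit 7) (nat_lit 6) (nat_lit 7) (by decide +kernel)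
theorem L67113 : W_23 (nat_lit 3) (nat_lit 0x700000001e00090000000000000000000000000000000) (nat_lit 0x0) (nat_lit 0x6000000008000000020000800000000000000000000000000) := T_23 (nat_lit 159) (nat_lit 193) (nat_lit 4) (nat_lit 6) (nat_lit 11) L67112 (by decide +kernel)
theorem L67114 : W_23 (nat_lit 4) (nat_lit 0x700000001e00080000000000000000000000000000000) (nat_lit 0x0) (nat_lit 0x6000000008000000038000800000000000000000000000000) := T_23 (nat_lit 124) (nat_lit 123) (nat_lit 0) (nat_lit 8) (nat_lit 8) L67113 (by decide +kernel)
theorem L67115 : W_23 (nat_lit 5) (nat_lit 0x700000001c00080000000000000000000000000000000) (nat_lit 0x0) (nat_lit 0x6000000008000200138000800000000000000000000000000) := T_23 (nat_lit 141) (nat_lit 128) (nat_lit 2) (nat_lit 5) (nat_lit 8) L67114 (by decide +kernel)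
theorem L67116 : W_23 (nat_lit 8) (nat_lit 0x6000700008001c00080000000000000000000000000000000) (nat_lit 0x0) (nat_lit 0xc00060007000380018800c0000000000000000000000000000000000000000) := T_23 (nat_lit 179) (nat_lit 180) (nat_lit 1) (nat_lit 10) (nat_lit 10) L65796 (by decide +kernel)
theorem L67117 : W_23 (nat_lit 9) (nat_lit 0x2000700008001c00080000000000000000000000000000000) (nat_lit 0x0) (nat_lit 0xc000600078003c0018800c0000000000000000000000000000000000000000) := T_23 (nat_lit 194) (nat_lit 211) (nat_lit 7) (nat_lit 6) (nat_lit 8) L67116 (by decide +kernel)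
theorem L67118 : W_23 (nat_lit 10) (nat_lit 0x700008001c00080000000000000000000000000000000) (nat_lit 0x0) (nat_lit 0xc000600078003e0018800c0000000040000000000000000000000000000000) := T_23 (nat_lit 193) (nat_lit 126) (nat_lit 6) (nat_lit 6) (nat_lit 11) L67117 (by decide +kernel)
theorem L67119 : W_23 (nat_lit 3) (nat_lit 0x700008001c00080000000000000000000000000000000) (nat_lit 0x0) (nat_lit 0x1000080006000000000000000020000000000000000000000000000000) := T_23 (nat_lit 194) (nat_lit 125) (nat_lit 7) (nat_lit 6) (nat_lit 7) L65684 (by decide +kernel)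
theorem L67120 : W_23 (nat_lit 2) (nat_lit 0x700008001c000e0000000000000000000000000000000) (nat_lit 0x0) (nat_lit 0x18000800000000000000000000000000) := D_23 (nat_lit 124) (nat_lit 123) (nat_lit 107) (nat_lit 3) (nat_lit 4) (nat_lit 7) (nat_lit 4) (nat_lit 6) (nat_lit 10) (by decide +kernel)
theorem L67121 : W_23 (nat_lit 3) (nat_lit 0x700008001c000a0000000000000000000000000000000) (nat_lit 0x0) (nat_lit 0x58002800000000000000000000000000) := T_23 (nat_lit 126) (nat_lit 109) (nat_lit 6) (nat_lit 6) (nat_lit 10) L67120 (by decide +kernel)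
theorem L67122 : W_23 (nat_lit 4) (nat_lit 0x700008001c00080000000000000000000000000000000) (nat_lit 0x0) (nat_lit 0x4000000000000000078002800000000000000000000000000) := T_23 (nat_lit 125) (nat_lit 194) (nat_lit 7) (nat_lit 6) (nat_lit 7) L67121 (by decide +kernel)
theorem L67123 : W_23 (nat_lit 11) (nat_lit 0x700000001c00080000000000000000000000000000000) (nat_lit 0x0) (nat_lit 0xc000700078003e0018800c8000000078002800100000000000000000000000) := Q_23 (nat_lit 159) (C_23 L67110 (C_23 L67118 (C_23 L67119 (C_23 L67122 N_23)))) (by decide +kernel)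
theorem L67124 : W_23 (nat_lit 2) (nat_lit 0x700001001f00084000000000000000000000000000000) (nat_lit 0x0) (nat_lit 0x800080002000000000000000000000000000000) := D_23 (nat_lit 139) (nat_lit 155) (nat_lit 121) (nat_lit 1) (nat_lit 6) (nat_lit 8) (nat_lit 0) (nat_lit 6) (nat_lit 8) (by decide +kernel)
theorem L67125 : W_23 (nat_lit 3) (nat_lit 0x700001001f00080000000000000000000000000000000) (nat_lit 0x0) (nat_lit 0x80008000e000000000000000000000000000000) := T_23 (nat_lit 122) (nat_lit 123) (nat_lit 0) (nat_lit 7) (nat_lit 8) L67124 (by decide +kernel)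
theorem L67126 : W_23 (nat_lit 4) (nat_lit 0x700000001f00080000000000000000000000000000000) (nat_lit 0x0) (nat_lit 0x380008000e000000000000000000000000000000) := T_23 (nat_lit 156) (nat_lit 157) (nat_lit 1) (nat_lit 7) (nat_lit 8) L67125 (by decide +kernel)
theorem L67127 : W_23 (nat_lit 5) (nat_lit 0x700000001e00080000000000000000000000000000000) (nat_lit 0x0) (nat_lit 0x380018004e000000000000000000000000000000) := T_23 (nat_lit 140) (nat_lit 126) (nat_lit 2) (nat_lit 4) (nat_lit 8) L67126 (by decide +kernel)
theorem L67128 : W_23 (nat_lit 6) (nat_lit 0x700000001c00080000000000000000000000000000000) (nat_lit 0x0) (nat_lit 0x380038014e000000000000000000000000000000) := T_23 (nat_lit 141) (nat_lit 128) (nat_lit 2) (nat_lit 5) (nat_lit 8) L67127 (by decide +kernel)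
theorem L67129 : W_23 (nat_lit 2) (nat_lit 0x700008001e000c0000000000000000000000000000000) (nat_lit 0x0) (nat_lit 0x4000000000000000020002000000000000000000000000000) := D_23 (nat_lit 125) (nat_lit 109) (nat_lit 194) (nat_lit 6) (nat_lit 6) (nat_lit 10) (nat_lit 7) (nat_lit 6) (nat_lit 7) (by decide +kernel)
theorem L67130 : W_23 (nat_lit 3) (nat_lit 0x700000001e000c0000000000000000000000000000000) (nat_lit 0x0) (nat_lit 0x6000000008000000020002000000000000000000000000000) := T_23 (nat_lit 159) (nat_lit 193) (nat_lit 6) (nat_lit 6) (nat_lit 11) L67129 (by decide +kernel)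
theorem L67131 : W_23 (nat_lit 4) (nat_lit 0x700000001e00080000000000000000000000000000000) (nat_lit 0x0) (nat_lit 0x6000000008000100060002000000000000000000000000000) := T_23 (nat_lit 126) (nat_lit 140) (nat_lit 2) (nat_lit 4) (nat_lit 8) L67130 (by decide +kernel)
theorem L67132 : W_23 (nat_lit 5) (nat_lit 0x700000001c00080000000000000000000000000000000) (nat_lit 0x0) (nat_lit 0x6000000008000300160002000000000000000000000000000) := T_23 (nat_lit 141) (nat_lit 128) (nat_lit 2) (nat_lit 5) (nat_lit 8) L67131 (by decide +kernel)
theorem L67133 : W_23 (nat_lit 13) (nat_lit 0x700000001800080000000000000000000000000000000) (nat_lit 0x0) (nat_lit 0xc000700078003e0018800cb80078017e002800100000000000000000000000) := Q_23 (nat_lit 142) (C_23 L66780 (C_23 L67111 (C_23 L67115 (C_23 L67123 (C_23 L67128 (C_23 L67132 N_23)))))) (by decide +kernel)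
theorem L67134 : W_23 (nat_lit 16) (nat_lit 0x600000001800080000000000000000000000000000000) (nat_lit 0x0) (nat_lit 0xc0017a00fd01fee079f07cfc047c077e03bc00180000000000000000000000) := Q_23 (nat_lit 176) (C_23 L66781 (C_23 L66838 (C_23 L66865 (C_23 L66870 (C_23 L66941 (C_23 L67025 (C_23 L67048 (C_23 L67067 (C_23 L67084 (C_23 L67092 (C_23 L67133 N_23))))))))))) (by decide +kernel)
theorem L67135 : W_23 (nat_lit 5) (nat_lit 0x6000000018000c0000000000000000000000000000000) (nat_lit 0x0) (nat_lit 0x6000100018000000020003000080000000000000000000000) := T_23 (nat_lit 160) (nat_lit 194) (nat_lit 6) (nat_lit 7) (nat_lit 11) L5845 (by decide +kernel)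
theorem L67136 : W_23 (nat_lit 2) (nat_lit 0x600010001e000f0000800000000000000000000000000) (nat_lit 0x0) (nat_lit 0x8000000000000000040002000000000000000000) := D_23 (nat_lit 90) (nat_lit 159) (nat_lit 73) (nat_lit 7) (nat_lit 5) (nat_lit 5) (nat_lit 7) (nat_lit 5) (nat_lit 4) (by decide +kernel)
theorem L67137 : W_23 (nat_lit 3) (nat_lit 0x600010001a000f0000800000000000000000000000000) (nat_lit 0x0) (nat_lit 0x8000400100000000040002000000000000000000) := T_23 (nat_lit 142) (nat_lit 128) (nat_lit 2) (nat_lit 5) (nat_lit 8) L67136 (by decide +kernel)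
theorem L67138 : W_23 (nat_lit 4) (nat_lit 0x600010001a000f0000000000000000000000000000000) (nat_lit 0x0) (nat_lit 0x8000400100000c00040002000000000000000000) := T_23 (nat_lit 107) (nat_lit 106) (nat_lit 0) (nat_lit 8) (nat_lit 7) L67137 (by decide +kernel)
theorem L67139 : W_23 (nat_lit 5) (nat_lit 0x6000100018000f0000000000000000000000000000000) (nat_lit 0x0) (nat_lit 0x8000700100000c00040002000000000000000000) := T_23 (nat_lit 141) (nat_lit 140) (nat_lit 1) (nat_lit 8) (nat_lit 7) L67138 (by decide +kernel)
theorem L67140 : W_23 (nat_lit 6) (nat_lit 0x6000100018000e0000000000000000000000000000000) (nat_lit 0x0) (nat_lit 0x8000700118000c00040002000000000000000000) := T_23 (nat_lit 124) (nat_lit 123) (nat_lit 3) (nat_lit 4) (nat_lit 7) L67139 (by decide +kernel)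
theorem L67141 : W_23 (nat_lit 7) (nat_lit 0x6000100018000c0000000000000000000000000000000) (nat_lit 0x0) (nat_lit 0x8000700138001c00040002000000000000000000) := T_23 (nat_lit 125) (nat_lit 108) (nat_lit 4) (nat_lit 7) (nat_lit 10) L67140 (by decide +kernel)
theorem L67142 : W_23 (nat_lit 8) (nat_lit 0x6000000018000c0000000000000000000000000000000) (nat_lit 0x0) (nat_lit 0x4000000018000700138001c00040002000000000000000000) := T_23 (nat_lit 160) (nat_lit 194) (nat_lit 6) (nat_lit 7) (nat_lit 11) L67141 (by decide +kernel)
theorem L67146 : W_23 (nat_lit 5) (nat_lit 0x700010001a000f0000000000000000000000000000000) (nat_lit 0x0) (nat_lit 0x400700038c00000000000000000000000000) := T_23 (nat_lit 107) (nat_lit 106) (nat_lit 0) (nat_lit 8) (nat_lit 7) L67145 (by decide +kernel)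
theorem L67147 : W_23 (nat_lit 6) (nat_lit 0x7000100018000f0000000000000000000000000000000) (nat_lit 0x0) (nat_lit 0x700700038c00000000000000000000000000) := T_23 (nat_lit 141) (nat_lit 140) (nat_lit 1) (nat_lit 8) (nat_lit 7) L67146 (by decide +kernel)
theorem L67148 : W_23 (nat_lit 7) (nat_lit 0x7000100018000e0000000000000000000000000000000) (nat_lit 0x0) (nat_lit 0x700718038c00000000000000000000000000) := T_23 (nat_lit 124) (nat_lit 123) (nat_lit 3) (nat_lit 4) (nat_lit 7) L67147 (by decide +kernel)
theorem L67149 : W_23 (nat_lit 8) (nat_lit 0x7000100018000c0000000000000000000000000000000) (nat_lit 0x0) (nat_lit 0x700738039c00000000000000000000000000) := T_23 (nat_lit 125) (nat_lit 108) (nat_lit 4) (nat_lit 7) (nat_lit 10) L67148 (by decide +kernel)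
theorem L67150 : W_23 (nat_lit 9) (nat_lit 0x6000100018000c0000000000000000000000000000000) (nat_lit 0x0) (nat_lit 0x2000100000000700738039c00000000000000000000000000) := T_23 (nat_lit 176) (nat_lit 193) (nat_lit 5) (nat_lit 7) (nat_lit 7) L67149 (by decide +kernel)
theorem L67151 : W_23 (nat_lit 10) (nat_lit 0x6000000018000c0000000000000000000000000000000) (nat_lit 0x0) (nat_lit 0x6000100010000700738039c00000000000000000000000000) := T_23 (nat_lit 160) (nat_lit 194) (nat_lit 6) (nat_lit 7) (nat_lit 11) L67150 (by decide +kernel)
theorem L67152 : W_23 (nat_lit 2) (nat_lit 0x7000100018000c0002000080000000000000000000000) (nat_lit 0x0) (nat_lit 0x10000c000000000000000000) := D_23 (nat_lit 92) (nat_lit 75) (nat_lit 74) (nat_lit 7) (nat_lit 7) (nat_lit 4) (nat_lit 4) (nat_lit 7) (nat_lit 8) (by decide +kernel)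
theorem L67153 : W_23 (nat_lit 3) (nat_lit 0x7000100018000c0002000000000000000000000000000) (nat_lit 0x0) (nat_lit 0x100018000c000000000000000000) := T_23 (nat_lit 91) (nat_lit 108) (nat_lit 4) (nat_lit 7) (nat_lit 9) L67152 (by decide +kernel)
theorem L67154 : W_23 (nat_lit 4) (nat_lit 0x7000100018000c0000000000000000000000000000000) (nat_lit 0x0) (nat_lit 0x800000000000300018000c000000000000000000) := T_23 (nat_lit 109) (nat_lit 159) (nat_lit 5) (nat_lit 7) (nat_lit 6) L67153 (by decide +kernel)
theorem L67155 : W_23 (nat_lit 5) (nat_lit 0x6000100018000c0000000000000000000000000000000) (nat_lit 0x0) (nat_lit 0x200010000800000000000300018000c000000000000000000) := T_23 (nat_lit 176) (nat_lit 193) (nat_lit 5) (nat_lit 7) (nat_lit 7) L67154 (by decide +kernel)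
theorem L67156 : W_23 (nat_lit 6) (nat_lit 0x6000000018000c0000000000000000000000000000000) (nat_lit 0x0) (nat_lit 0x600010001800000000000300018000c000000000000000000) := T_23 (nat_lit 160) (nat_lit 194) (nat_lit 6) (nat_lit 7) (nat_lit 11) L67155 (by decide +kernel)
theorem L67157 : W_23 (nat_lit 2) (nat_lit 0x6000000018001c0000000000000000000000000000000) (nat_lit 0x0) (nat_lit 0x400600000000000000000000000000000000) := D_23 (nat_lit 129) (nat_lit 142) (nat_lit 130) (nat_lit 1) (nat_lit 10) (nat_lit 7) (nat_lit 1) (nat_lit 11) (nat_lit 7) (by decide +kernel)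
theorem L67158 : W_23 (nat_lit 2) (nat_lit 0x6000000058003c001a000000008000000000000000000) (nat_lit 0x0) (nat_lit 0x1000080000000000000000400000000000000000000000) := D_23 (nat_lit 163) (nat_lit 94) (nat_lit 180) (nat_lit 4) (nat_lit 10) (nat_lit 9) (nat_lit 4) (nat_lit 10) (nat_lit 10) (by decide +kernel)
theorem L67159 : W_23 (nat_lit 3) (nat_lit 0x6000000058003c0012000000008000000000000000000) (nat_lit 0x0) (nat_lit 0x1000080000000020008000400000000000000000000000) := T_23 (nat_lit 111) (nat_lit 125) (nat_lit 2) (nat_lit 6) (nat_lit 7) L67158 (by decide +kernel)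
theorem L67160 : W_23 (nat_lit 4) (nat_lit 0x6000000058003c0002000000008000000000000000000) (nat_lit 0x0) (nat_lit 0x1000080000000020038000400000000000000000000000) := T_23 (nat_lit 112) (nat_lit 113) (nat_lit 2) (nat_lit 7) (nat_lit 7) L67159 (by decide +kernel)
theorem L67161 : W_23 (nat_lit 5) (nat_lit 0x6000000058003c0002000000000000000000000000000) (nat_lit 0x0) (nat_lit 0x1000080000000020038000500008000000000000000000) := T_23 (nat_lit 75) (nat_lit 92) (nat_lit 7) (nat_lit 7) (nat_lit 4) L67160 (by decide +kernel)
theorem L67162 : W_23 (nat_lit 6) (nat_lit 0x6000000018003c0002000000000000000000000000000) (nat_lit 0x0) (nat_lit 0x100008000c000020038000500008000000000000000000) := T_23 (nat_lit 146) (nat_lit 147) (nat_lit 3) (nat_lit 7) (nat_lit 7) L67161 (by decide +kernel)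
theorem L67163 : W_23 (nat_lit 7) (nat_lit 0x6000000018003c0000000000000000000000000000000) (nat_lit 0x0) (nat_lit 0x100008000c00002003b000500008000000000000000000) := T_23 (nat_lit 109) (nat_lit 108) (nat_lit 0) (nat_lit 10) (nat_lit 7) L67162 (by decide +kernel)
theorem L67164 : W_23 (nat_lit 8) (nat_lit 0x6000000018001c0000000000000000000000000000000) (nat_lit 0x0) (nat_lit 0x100008000c00062003b000500008000000000000000000) := T_23 (nat_lit 129) (nat_lit 130) (nat_lit 1) (nat_lit 11) (nat_lit 7) L67163 (by decide +kernel)
theorem L67165 : W_23 (nat_lit 2) (nat_lit 0x6000000018001e0000000000000000000000000000000) (nat_lit 0x0) (nat_lit 0x10000000000001800000000000000000000000000) := D_23 (nat_lit 108) (nat_lit 107) (nat_lit 160) (nat_lit 0) (nat_lit 9) (nat_lit 7) (nat_lit 4) (nat_lit 7) (nat_lit 10) (by decide +kernel)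
theorem L67166 : W_23 (nat_lit 2) (nat_lit 0x600000001a001e0000000000000000000000000000000) (nat_lit 0x0) (nat_lit 0x100018000000000000000000000000000000) := D_23 (nat_lit 124) (nat_lit 123) (nat_lit 140) (nat_lit 3) (nat_lit 4) (nat_lit 7) (nat_lit 1) (nat_lit 8) (nat_lit 7) (by decide +kernel)
theorem L67167 : W_23 (nat_lit 3) (nat_lit 0x6000000018001e0000000000000000000000000000000) (nat_lit 0x0) (nat_lit 0x700018000000000000000000000000000000) := T_23 (nat_lit 141) (nat_lit 142) (nat_lit 2) (nat_lit 5) (nat_lit 8) L67166 (by decide +kernel)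
theorem L67168 : W_23 (nat_lit 4) (nat_lit 0x6000000018001c0000000000000000000000000000000) (nat_lit 0x0) (nat_lit 0x10000700038001800000000000000000000000000) := Q_23 (nat_lit 125) (C_23 L67165 (C_23 L67167 N_23)) (by decide +kernel)
theorem L67169 : W_23 (nat_lit 9) (nat_lit 0x6000000018000c0000000000000000000000000000000) (nat_lit 0x0) (nat_lit 0x100009000c70073803b800500008000000000000000000) := Q_23 (nat_lit 128) (C_23 L67157 (C_23 L67164 (C_23 L67168 N_23))) (by decide +kernel)
theorem L67170 : W_23 (nat_lit 2) (nat_lit 0x6000000018001f0008000000000000000000000000000) (nat_lit 0x0) (nat_lit 0x1c00000000000000000000000000) := D_23 (nat_lit 107) (nat_lit 108) (nat_lit 106) (nat_lit 0) (nat_lit 9) (nat_lit 7) (nat_lit 0) (nat_lit 8) (nat_lit 7) (by decide +kernel)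
theorem L67171 : W_23 (nat_lit 3) (nat_lit 0x6000000018001e0008000000000000000000000000000) (nat_lit 0x0) (nat_lit 0x18001c00000000000000000000000000) := T_23 (nat_lit 124) (nat_lit 123) (nat_lit 3) (nat_lit 4) (nat_lit 7) L67170 (by decide +kernel)
theorem L67172 : W_23 (nat_lit 4) (nat_lit 0x6000000018001e0000000000000000000000000000000) (nat_lit 0x0) (nat_lit 0x18019c00000000000000000000000000) := T_23 (nat_lit 111) (nat_lit 112) (nat_lit 2) (nat_lit 6) (nat_lit 7) L67171 (by decide +kernel)
theorem L67173 : W_23 (nat_lit 2) (nat_lit 0x600008001c001e0009000180020000000000000000000) (nat_lit 0x0) (nat_lit 0x6000100000000000000000000000000000000000000000000) := D_23 (nat_lit 176) (nat_lit 194) (nat_lit 193) (nat_lit 7) (nat_lit 6) (nat_lit 7) (nat_lit 6) (nat_lit 6) (nat_lit 11) (by decide +kernel)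
theorem L67174 : W_23 (nat_lit 3) (nat_lit 0x600000001c001e0009000180020000000000000000000) (nat_lit 0x0) (nat_lit 0x6000100008000000000002000000000000000000000000000) := T_23 (nat_lit 159) (nat_lit 109) (nat_lit 6) (nat_lit 6) (nat_lit 9) L67173 (by decide +kernel)
theorem L67175 : W_23 (nat_lit 4) (nat_lit 0x600000001c001e0009000080020000000000000000000) (nat_lit 0x0) (nat_lit 0x6000100008000000000002000100008000000000000000000) := T_23 (nat_lit 92) (nat_lit 75) (nat_lit 6) (nat_lit 6) (nat_lit 8) L67174 (by decide +kernel)
theorem L67176 : W_23 (nat_lit 5) (nat_lit 0x600000001c001e0009000000020000000000000000000) (nat_lit 0x0) (nat_lit 0x600010000800000000000200018000c000000000000000000) := T_23 (nat_lit 91) (nat_lit 74) (nat_lit 7) (nat_lit 6) (nat_lit 4) L67175 (by decide +kernel)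
theorem L67177 : W_23 (nat_lit 6) (nat_lit 0x600000001c001e0008000000020000000000000000000) (nat_lit 0x0) (nat_lit 0x600010000800000000000380018000c000000000000000000) := T_23 (nat_lit 108) (nat_lit 107) (nat_lit 0) (nat_lit 9) (nat_lit 7) L67176 (by decide +kernel)
theorem L67178 : W_23 (nat_lit 7) (nat_lit 0x600000001c001e0008000000000000000000000000000) (nat_lit 0x0) (nat_lit 0x600010000800000000000380058002c000000000000000000) := T_23 (nat_lit 77) (nat_lit 94) (nat_lit 5) (nat_lit 9) (nat_lit 4) L67177 (by decide +kernel)
theorem L67179 : W_23 (nat_lit 8) (nat_lit 0x6000000018001e0008000000000000000000000000000) (nat_lit 0x0) (nat_lit 0x600010000800060000000380058002c000000000000000000) := T_23 (nat_lit 142) (nat_lit 141) (nat_lit 2) (nat_lit 5) (nat_lit 8) L67178 (by decide +kernel)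
theorem L67180 : W_23 (nat_lit 9) (nat_lit 0x6000000018001e0000000000000000000000000000000) (nat_lit 0x0) (nat_lit 0x600010000800060000001b80058002c000000000000000000) := T_23 (nat_lit 111) (nat_lit 112) (nat_lit 2) (nat_lit 6) (nat_lit 7) L67179 (by decide +kernel)
theorem L67181 : W_23 (nat_lit 10) (nat_lit 0x6000000018001c0000000000000000000000000000000) (nat_lit 0x0) (nat_lit 0x600010000800070003801bc0058002c000000000000000000) := Q_23 (nat_lit 125) (C_23 L67167 (C_23 L67172 (C_23 L67180 N_23))) (by decide +kernel)
theorem L67182 : W_23 (nat_lit 11) (nat_lit 0x6000000018000c0000000000000000000000000000000) (nat_lit 0x0) (nat_lit 0x600110008800c70073803bc0058002c000000000000000000) := Q_23 (nat_lit 128) (C_23 L67164 (C_23 L67157 (C_23 L67181 N_23))) (by decide +kernel)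
theorem L67183 : W_23 (nat_lit 3) (nat_lit 0x7000100018000c0000000000000000000000000000000) (nat_lit 0x0) (nat_lit 0x80000e000000000002000000000000000000000000000) := T_23 (nat_lit 159) (nat_lit 109) (nat_lit 5) (nat_lit 7) (nat_lit 6) L65956 (by decide +kernel)
theorem L67184 : W_23 (nat_lit 4) (nat_lit 0x6000100018000c0000000000000000000000000000000) (nat_lit 0x0) (nat_lit 0x200090000e000000000002000000000000000000000000000) := T_23 (nat_lit 176) (nat_lit 193) (nat_lit 5) (nat_lit 7) (nat_lit 7) L67183 (by decide +kernel)
theorem L67185 : W_23 (nat_lit 5) (nat_lit 0x6000000018000c0000000000000000000000000000000) (nat_lit 0x0) (nat_lit 0x600090001e000000000002000000000000000000000000000) := T_23 (nat_lit 160) (nat_lit 194) (nat_lit 6) (nat_lit 7) (nat_lit 11) L67184 (by decide +kernel)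
theorem L67186 : W_23 (nat_lit 12) (nat_lit 0x600000001800080000000000000000000000000000000) (nat_lit 0x0) (nat_lit 0x600190009e00c70077803bc005c002e000000000000000000) := Q_23 (nat_lit 126) (C_23 L67135 (C_23 L67142 (C_23 L67151 (C_23 L67156 (C_23 L67169 (C_23 L67182 (C_23 L67185 N_23))))))) (by decide +kernel)
theorem L67187 : W_23 (nat_lit 8) (nat_lit 0x600010001800080000000000000000000000000000000) (nat_lit 0x0) (nat_lit 0x8000000008000700178001c00040002000000000000000000) := T_23 (nat_lit 126) (nat_lit 195) (nat_lit 7) (nat_lit 7) (nat_lit 7) L67141 (by decide +kernel)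
theorem L67188 : W_23 (nat_lit 9) (nat_lit 0x600000001800080000000000000000000000000000000) (nat_lit 0x0) (nat_lit 0xc000000018000700178001c00040002000000000000000000) := T_23 (nat_lit 160) (nat_lit 194) (nat_lit 6) (nat_lit 7) (nat_lit 11) L67187 (by decide +kernel)
theorem L67189 : W_23 (nat_lit 5) (nat_lit 0x600010001800080000000000000000000000000000000) (nat_lit 0x0) (nat_lit 0xa00090000e000000040002000000000000000000000000000) := T_23 (nat_lit 126) (nat_lit 195) (nat_lit 7) (nat_lit 7) (nat_lit 7) L67184 (by decide +kernel)
theorem L67190 : W_23 (nat_lit 6) (nat_lit 0x600000001800080000000000000000000000000000000) (nat_lit 0x0) (nat_lit 0xe00090001e000000040002000000000000000000000000000) := T_23 (nat_lit 160) (nat_lit 194) (nat_lit 6) (nat_lit 7) (nat_lit 11) L67189 (by decide +kernel)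
theorem L67191 : W_23 (nat_lit 10) (nat_lit 0x600010001800080000000000000000000000000000000) (nat_lit 0x0) (nat_lit 0xa000100000000700778039c00000000000000000000000000) := T_23 (nat_lit 126) (nat_lit 195) (nat_lit 7) (nat_lit 7) (nat_lit 7) L67150 (by decide +kernel)
theorem L67192 : W_23 (nat_lit 11) (nat_lit 0x600000001800080000000000000000000000000000000) (nat_lit 0x0) (nat_lit 0xe000100010000700778039c00000000000000000000000000) := T_23 (nat_lit 160) (nat_lit 194) (nat_lit 6) (nat_lit 7) (nat_lit 11) L67191 (by decide +kernel)
theorem L67193 : W_23 (nat_lit 2) (nat_lit 0x4003e00000001c00080000000000000000000000000000000) (nat_lit 0x0) (nat_lit 0xe0000000000000000000000000000000000000000000000000) := D_23 (nat_lit 198) (nat_lit 197) (nat_lit 199) (nat_lit 3) (nat_lit 7) (nat_lit 10) (nat_lit 3) (nat_lit 8) (nat_lit 10) (by decide +kernel)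
theorem L67194 : W_23 (nat_lit 3) (nat_lit 0x4001e00000001c00080000000000000000000000000000000) (nat_lit 0x0) (nat_lit 0xe8002000000000000000000000000000000000000000000000) := T_23 (nat_lit 181) (nat_lit 195) (nat_lit 1) (nat_lit 11) (nat_lit 10) L67193 (by decide +kernel)
theorem L67195 : W_23 (nat_lit 4) (nat_lit 0x4000e00000001c00080000000000000000000000000000000) (nat_lit 0x0) (nat_lit 0xea003000000000000000000000000000000000000000000000) := T_23 (nat_lit 180) (nat_lit 193) (nat_lit 1) (nat_lit 10) (nat_lit 10) L67194 (by decide +kernel)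
theorem L67196 : W_23 (nat_lit 5) (nat_lit 0xe00000001c00080000000000000000000000000000000) (nat_lit 0x0) (nat_lit 0xee003000010000000000000000000000000000000000000000) := T_23 (nat_lit 194) (nat_lit 160) (nat_lit 6) (nat_lit 7) (nat_lit 11) L67195 (by decide +kernel)
theorem L67197 : W_23 (nat_lit 2) (nat_lit 0x4001f00080001c00080000000000000000000000000000000) (nat_lit 0x0) (nat_lit 0xc000000020000000000000000000000000000000) := D_23 (nat_lit 159) (nat_lit 158) (nat_lit 125) (nat_lit 0) (nat_lit 9) (nat_lit 10) (nat_lit 7) (nat_lit 6) (nat_lit 7) (by decide +kernel)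
theorem L67198 : W_23 (nat_lit 3) (nat_lit 0x4001e00080001c00080000000000000000000000000000000) (nat_lit 0x0) (nat_lit 0x10004c000000020000000000000000000000000000000) := T_23 (nat_lit 176) (nat_lit 162) (nat_lit 2) (nat_lit 6) (nat_lit 10) L67197 (by decide +kernel)
theorem L67199 : W_23 (nat_lit 4) (nat_lit 0x4001e00000001c00080000000000000000000000000000000) (nat_lit 0x0) (nat_lit 0x1001cc000000020000000000000000000000000000000) := T_23 (nat_lit 163) (nat_lit 164) (nat_lit 2) (nat_lit 7) (nat_lit 10) L67198 (by decide +kernel)
theorem L67200 : W_23 (nat_lit 5) (nat_lit 0x4000e00000001c00080000000000000000000000000000000) (nat_lit 0x0) (nat_lit 0x20011001cc000000020000000000000000000000000000000) := T_23 (nat_lit 180) (nat_lit 193) (nat_lit 1) (nat_lit 10) (nat_lit 10) L67199 (by decide +kernel)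
theorem L67201 : W_23 (nat_lit 6) (nat_lit 0xe00000001c00080000000000000000000000000000000) (nat_lit 0x0) (nat_lit 0x60011001dc000000020000000000000000000000000000000) := T_23 (nat_lit 194) (nat_lit 160) (nat_lit 6) (nat_lit 7) (nat_lit 11) L67200 (by decide +kernel)
theorem L67202 : W_23 (nat_lit 2) (nat_lit 0x1f00090001c00080000000000000000000000000000000) (nat_lit 0x0) (nat_lit 0x70000000000000000000000000000000000000000000000000) := D_23 (nat_lit 197) (nat_lit 198) (nat_lit 196) (nat_lit 3) (nat_lit 7) (nat_lit 10) (nat_lit 3) (nat_lit 6) (nat_lit 10) (by decide +kernel)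
theorem L67203 : W_23 (nat_lit 3) (nat_lit 0x1e00090001c00080000000000000000000000000000000) (nat_lit 0x0) (nat_lit 0x70000100040000000000000000000000000000000000000000) := T_23 (nat_lit 176) (nat_lit 162) (nat_lit 2) (nat_lit 6) (nat_lit 10) L67202 (by decide +kernel)
theorem L67204 : W_23 (nat_lit 4) (nat_lit 0x1e00010001c00080000000000000000000000000000000) (nat_lit 0x0) (nat_lit 0x700001001c0000000000000000000000000000000000000000) := T_23 (nat_lit 163) (nat_lit 164) (nat_lit 2) (nat_lit 7) (nat_lit 10) L67203 (by decide +kernel)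
theorem L67205 : W_23 (nat_lit 5) (nat_lit 0xe00010001c00080000000000000000000000000000000) (nat_lit 0x0) (nat_lit 0x700011001c8000000000000000000000000000000000000000) := T_23 (nat_lit 180) (nat_lit 159) (nat_lit 0) (nat_lit 10) (nat_lit 10) L67204 (by decide +kernel)
theorem L67206 : W_23 (nat_lit 6) (nat_lit 0xe00000001c00080000000000000000000000000000000) (nat_lit 0x0) (nat_lit 0x740011001d8000000000000000000000000000000000000000) := T_23 (nat_lit 160) (nat_lit 194) (nat_lit 6) (nat_lit 7) (nat_lit 11) L67205 (by decide +kernel)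
theorem L67207 : W_23 (nat_lit 5) (nat_lit 0x1e00000001c00080000000000000000000000000000000) (nat_lit 0x0) (nat_lit 0x700001001d8000000000000000000000000000000000000000) := T_23 (nat_lit 160) (nat_lit 159) (nat_lit 0) (nat_lit 10) (nat_lit 10) L67204 (by decide +kernel)
theorem L67208 : W_23 (nat_lit 2) (nat_lit 0x40003e00010001c00080000000000000000000000000000000) (nat_lit 0x0) (nat_lit 0x380000000000000000000000000000000000000000) := D_23 (nat_lit 164) (nat_lit 165) (nat_lit 163) (nat_lit 2) (nat_lit 8) (nat_lit 10) (nat_lit 2) (nat_lit 7) (nat_lit 10) (by decide +kernel)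
theorem L67209 : W_23 (nat_lit 3) (nat_lit 0x40001e00010001c00080000000000000000000000000000000) (nat_lit 0x0) (nat_lit 0x80002000380000000000000000000000000000000000000000) := T_23 (nat_lit 181) (nat_lit 199) (nat_lit 3) (nat_lit 8) (nat_lit 10) L67208 (by decide +kernel)
theorem L67210 : W_23 (nat_lit 4) (nat_lit 0x40001e00000001c00080000000000000000000000000000000) (nat_lit 0x0) (nat_lit 0x80002000398000000000000000000000000000000000000000) := T_23 (nat_lit 160) (nat_lit 159) (nat_lit 0) (nat_lit 10) (nat_lit 10) L67209 (by decide +kernel)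
theorem L67211 : W_23 (nat_lit 5) (nat_lit 0x1e00000001c00080000000000000000000000000000000) (nat_lit 0x0) (nat_lit 0xe0002000398000000000000000000000000000000000000000) := T_23 (nat_lit 198) (nat_lit 197) (nat_lit 3) (nat_lit 7) (nat_lit 10) L67210 (by decide +kernel)
theorem L67212 : W_23 (nat_lit 2) (nat_lit 0x1f00080001c00080000000000000000000000000000000) (nat_lit 0x0) (nat_lit 0x70000000000000000000000000000000000000000000000000) := D_23 (nat_lit 197) (nat_lit 198) (nat_lit 196) (nat_lit 3) (nat_lit 7) (nat_lit 10) (nat_lit 3) (nat_lit 6) (nat_lit 10) (by decide +kernel)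
theorem L67213 : W_23 (nat_lit 3) (nat_lit 0x1e00080001c00080000000000000000000000000000000) (nat_lit 0x0) (nat_lit 0x70000100040000000000000000000000000000000000000000) := T_23 (nat_lit 176) (nat_lit 162) (nat_lit 2) (nat_lit 6) (nat_lit 10) L67212 (by decide +kernel)
theorem L67214 : W_23 (nat_lit 4) (nat_lit 0x1e00000001c00080000000000000000000000000000000) (nat_lit 0x0) (nat_lit 0x700001001c0000000000000000000000000000000000000000) := T_23 (nat_lit 163) (nat_lit 164) (nat_lit 2) (nat_lit 7) (nat_lit 10) L67213 (by decide +kernel)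
theorem L67215 : W_23 (nat_lit 2) (nat_lit 0x1e00088001c00080000000000000000000000000000000) (nat_lit 0x0) (nat_lit 0x100044000000000000000000000000000000000000000) := D_23 (nat_lit 176) (nat_lit 162) (nat_lit 158) (nat_lit 2) (nat_lit 6) (nat_lit 10) (nat_lit 0) (nat_lit 9) (nat_lit 10) (by decide +kernel)
theorem L67216 : W_23 (nat_lit 3) (nat_lit 0x1e00008001c00080000000000000000000000000000000) (nat_lit 0x0) (nat_lit 0x1001c4000000000000000000000000000000000000000) := T_23 (nat_lit 163) (nat_lit 164) (nat_lit 2) (nat_lit 7) (nat_lit 10) L67215 (by decide +kernel)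
theorem L67217 : W_23 (nat_lit 4) (nat_lit 0x1e00000001c00080000000000000000000000000000000) (nat_lit 0x0) (nat_lit 0x1001dc000000000000000000000000000000000000000) := T_23 (nat_lit 159) (nat_lit 160) (nat_lit 0) (nat_lit 10) (nat_lit 10) L67216 (by decide +kernel)
theorem L67218 : W_23 (nat_lit 2) (nat_lit 0x20001f00000001c00080000000000000000000000000000000) (nat_lit 0x0) (nat_lit 0x1c000000000000000000000000000000000000000) := D_23 (nat_lit 159) (nat_lit 160) (nat_lit 158) (nat_lit 0) (nat_lit 10) (nat_lit 10) (nat_lit 0) (nat_lit 9) (nat_lit 10) (by decide +kernel)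
theorem L67219 : W_23 (nat_lit 3) (nat_lit 0x20001e00000001c00080000000000000000000000000000000) (nat_lit 0x0) (nat_lit 0x1000010001c000000000000000000000000000000000000000) := T_23 (nat_lit 176) (nat_lit 196) (nat_lit 3) (nat_lit 6) (nat_lit 10) L67218 (by decide +kernel)
theorem L67220 : W_23 (nat_lit 4) (nat_lit 0x1e00000001c00080000000000000000000000000000000) (nat_lit 0x0) (nat_lit 0x7000010001c000000000000000000000000000000000000000) := T_23 (nat_lit 197) (nat_lit 198) (nat_lit 3) (nat_lit 7) (nat_lit 10) L67219 (by decide +kernel)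
theorem L67221 : W_23 (nat_lit 6) (nat_lit 0xe00000001c00080000000000000000000000000000000) (nat_lit 0x0) (nat_lit 0xf00031003dc000000000000000000000000000000000000000) := Q_23 (nat_lit 180) (C_23 L67207 (C_23 L67211 (C_23 L67214 (C_23 L67217 (C_23 L67220 N_23))))) (by decide +kernel)
theorem L67222 : W_23 (nat_lit 4) (nat_lit 0x1e00000001c00080000000000000000000000000000000) (nat_lit 0x0) (nat_lit 0xee002000000000000000000000000000000000000000000000) := T_23 (nat_lit 194) (nat_lit 193) (nat_lit 1) (nat_lit 10) (nat_lit 10) L67194 (by decide +kernel)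
theorem L67223 : W_23 (nat_lit 5) (nat_lit 0x1e00000001c00080000000000000000000000000000000) (nat_lit 0x0) (nat_lit 0x60001001cc000000020000000000000000000000000000000) := T_23 (nat_lit 194) (nat_lit 193) (nat_lit 1) (nat_lit 10) (nat_lit 10) L67199 (by decide +kernel)
theorem L67224 : W_23 (nat_lit 6) (nat_lit 0xe00000001c00080000000000000000000000000000000) (nat_lit 0x0) (nat_lit 0xfe0031001cc000000020000000000000000000000000000000) := Q_23 (nat_lit 180) (C_23 L67214 (C_23 L67222 (C_23 L67223 N_23))) (by decide +kernel)
theorem L67225 : W_23 (nat_lit 2) (nat_lit 0x4000f00000001c00080000000000000000000000000000000) (nat_lit 0x0) (nat_lit 0xc000000020000000000000000000000000000000) := D_23 (nat_lit 159) (nat_lit 125) (nat_lit 158) (nat_lit 7) (nat_lit 6) (nat_lit 7) (nat_lit 0) (nat_lit 9) (nat_lit 10) (by decide +kernel)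
theorem L67226 : W_23 (nat_lit 3) (nat_lit 0xf00000001c00080000000000000000000000000000000) (nat_lit 0x0) (nat_lit 0x400000001c000000020000000000000000000000000000000) := T_23 (nat_lit 194) (nat_lit 160) (nat_lit 6) (nat_lit 7) (nat_lit 11) L67225 (by decide +kernel)
theorem L67227 : W_23 (nat_lit 2) (nat_lit 0x14400fc0042001c00080000000000000000000000000000000) (nat_lit 0x0) (nat_lit 0x2200020000000000000000000000000000000000000000000) := D_23 (nat_lit 173) (nat_lit 193) (nat_lit 189) (nat_lit 3) (nat_lit 3) (nat_lit 10) (nat_lit 1) (nat_lit 6) (nat_lit 10) (by decide +kernel)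
theorem L67228 : W_23 (nat_lit 3) (nat_lit 0x14000fc0042001c00080000000000000000000000000000000) (nat_lit 0x0) (nat_lit 0x2e00020000000000000000000000000000000000000000000) := T_23 (nat_lit 190) (nat_lit 191) (nat_lit 1) (nat_lit 7) (nat_lit 10) L67227 (by decide +kernel)
theorem L67229 : W_23 (nat_lit 4) (nat_lit 0x14000f80042001c00080000000000000000000000000000000) (nat_lit 0x0) (nat_lit 0x2e00060001000000000000000000000000000000000000000) := T_23 (nat_lit 174) (nat_lit 156) (nat_lit 0) (nat_lit 7) (nat_lit 10) L67228 (by decide +kernel)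
theorem L67230 : W_23 (nat_lit 5) (nat_lit 0x14000f80040001c00080000000000000000000000000000000) (nat_lit 0x0) (nat_lit 0x2e00060007000000000000000000000000000000000000000) := T_23 (nat_lit 157) (nat_lit 158) (nat_lit 0) (nat_lit 8) (nat_lit 10) L67229 (by decide +kernel)
theorem L67231 : W_23 (nat_lit 6) (nat_lit 0x14000f00040001c00080000000000000000000000000000000) (nat_lit 0x0) (nat_lit 0xae000e0007000000000000000000000000000000000000000) := T_23 (nat_lit 175) (nat_lit 195) (nat_lit 3) (nat_lit 5) (nat_lit 10) L67230 (by decide +kernel)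
theorem L67232 : W_23 (nat_lit 7) (nat_lit 0x4000f00040001c00080000000000000000000000000000000) (nat_lit 0x0) (nat_lit 0x3ae000e0007000000000000000000000000000000000000000) := T_23 (nat_lit 196) (nat_lit 197) (nat_lit 3) (nat_lit 6) (nat_lit 10) L67231 (by decide +kernel)
theorem L67233 : W_23 (nat_lit 8) (nat_lit 0x4000f00000001c00080000000000000000000000000000000) (nat_lit 0x0) (nat_lit 0x3ae000e00c7000000000000000000000000000000000000000) := T_23 (nat_lit 162) (nat_lit 163) (nat_lit 2) (nat_lit 6) (nat_lit 10) L67232 (by decide +kernel)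
theorem L67234 : W_23 (nat_lit 9) (nat_lit 0xf00000001c00080000000000000000000000000000000) (nat_lit 0x0) (nat_lit 0x3ee000e00d7000000000000000000000000000000000000000) := T_23 (nat_lit 194) (nat_lit 160) (nat_lit 6) (nat_lit 7) (nat_lit 11) L67233 (by decide +kernel)
theorem L67235 : W_23 (nat_lit 2) (nat_lit 0x10000f80000001c00080000000000000000000000000000000) (nat_lit 0x0) (nat_lit 0xe000000000000000000000000000000000000000) := D_23 (nat_lit 158) (nat_lit 157) (nat_lit 159) (nat_lit 0) (nat_lit 8) (nat_lit 10) (nat_lit 0) (nat_lit 9) (nat_lit 10) (by decide +kernel)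
theorem L67236 : W_23 (nat_lit 3) (nat_lit 0x10000f00000001c00080000000000000000000000000000000) (nat_lit 0x0) (nat_lit 0x800008000e000000000000000000000000000000000000000) := T_23 (nat_lit 175) (nat_lit 195) (nat_lit 3) (nat_lit 5) (nat_lit 10) L67235 (by decide +kernel)
theorem L67237 : W_23 (nat_lit 4) (nat_lit 0xf00000001c00080000000000000000000000000000000) (nat_lit 0x0) (nat_lit 0x3800008000e000000000000000000000000000000000000000) := T_23 (nat_lit 196) (nat_lit 197) (nat_lit 3) (nat_lit 6) (nat_lit 10) L67236 (by decide +kernel)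
theorem L67238 : W_23 (nat_lit 3) (nat_lit 0x4000f00000001c00080000000000000000000000000000000) (nat_lit 0x0) (nat_lit 0x1000080002000000008000000020000000000000000000000000000000) := T_23 (nat_lit 159) (nat_lit 125) (nat_lit 7) (nat_lit 6) (nat_lit 7) L67056 (by decide +kernel)
theorem L67239 : W_23 (nat_lit 4) (nat_lit 0xf00000001c00080000000000000000000000000000000) (nat_lit 0x0) (nat_lit 0x1000080006000000018000000020000000000000000000000000000000) := T_23 (nat_lit 194) (nat_lit 160) (nat_lit 6) (nat_lit 7) (nat_lit 11) L67238 (by decide +kernel)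
theorem L67240 : W_23 (nat_lit 10) (nat_lit 0xe00000001c00080000000000000000000000000000000) (nat_lit 0x0) (nat_lit 0x100008003ee001e00df000000020000000000000000000000000000000) := Q_23 (nat_lit 176) (C_23 L67226 (C_23 L67234 (C_23 L67237 (C_23 L67239 N_23)))) (by decide +kernel)
theorem L67241 : W_23 (nat_lit 11) (nat_lit 0x600000001c00080000000000000000000000000000000) (nat_lit 0x0) (nat_lit 0x10000800fee039e03df000000020000000000000000000000000000000) := Q_23 (nat_lit 179) (C_23 L67196 (C_23 L67201 (C_23 L67206 (C_23 L67221 (C_23 L67224 (C_23 L67240 N_23)))))) (by decide +kernel)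
theorem L67242 : W_23 (nat_lit 2) (nat_lit 0x4000600002001e00088000000000000000000000000000000) (nat_lit 0x0) (nat_lit 0x1000100004000000000000000000000000000000) := D_23 (nat_lit 140) (nat_lit 156) (nat_lit 122) (nat_lit 1) (nat_lit 7) (nat_lit 8) (nat_lit 0) (nat_lit 7) (nat_lit 8) (by decide +kernel)
theorem L67243 : W_23 (nat_lit 3) (nat_lit 0x4000600002001e00080000000000000000000000000000000) (nat_lit 0x0) (nat_lit 0x100010001c000000000000000000000000000000) := T_23 (nat_lit 123) (nat_lit 124) (nat_lit 0) (nat_lit 8) (nat_lit 8) L67242 (by decide +kernel)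
theorem L67244 : W_23 (nat_lit 4) (nat_lit 0x4000600000001e00080000000000000000000000000000000) (nat_lit 0x0) (nat_lit 0x700010001c000000000000000000000000000000) := T_23 (nat_lit 157) (nat_lit 158) (nat_lit 1) (nat_lit 8) (nat_lit 8) L67243 (by decide +kernel)
theorem L67245 : W_23 (nat_lit 5) (nat_lit 0x4000600000001c00080000000000000000000000000000000) (nat_lit 0x0) (nat_lit 0x700030011c000000000000000000000000000000) := T_23 (nat_lit 141) (nat_lit 128) (nat_lit 2) (nat_lit 5) (nat_lit 8) L67244 (by decide +kernel)
theorem L67246 : W_23 (nat_lit 6) (nat_lit 0x600000001c00080000000000000000000000000000000) (nat_lit 0x0) (nat_lit 0x400000001700030011c000000000000000000000000000000) := T_23 (nat_lit 194) (nat_lit 160) (nat_lit 6) (nat_lit 7) (nat_lit 11) L67245 (by decide +kernel)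
theorem L67247 : W_23 (nat_lit 2) (nat_lit 0x600002001e00088000000000000000000000000000000) (nat_lit 0x0) (nat_lit 0x1000100004000000000000000000000000000000) := D_23 (nat_lit 140) (nat_lit 156) (nat_lit 122) (nat_lit 1) (nat_lit 7) (nat_lit 8) (nat_lit 0) (nat_lit 7) (nat_lit 8) (by decide +kernel)
theorem L67248 : W_23 (nat_lit 3) (nat_lit 0x600002001e00080000000000000000000000000000000) (nat_lit 0x0) (nat_lit 0x100010001c000000000000000000000000000000) := T_23 (nat_lit 123) (nat_lit 124) (nat_lit 0) (nat_lit 8) (nat_lit 8) L67247 (by decide +kernel)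
theorem L67249 : W_23 (nat_lit 4) (nat_lit 0x600000001e00080000000000000000000000000000000) (nat_lit 0x0) (nat_lit 0x700010001c000000000000000000000000000000) := T_23 (nat_lit 157) (nat_lit 158) (nat_lit 1) (nat_lit 8) (nat_lit 8) L67248 (by decide +kernel)
theorem L67250 : W_23 (nat_lit 5) (nat_lit 0x600000001c00080000000000000000000000000000000) (nat_lit 0x0) (nat_lit 0x700030011c000000000000000000000000000000) := T_23 (nat_lit 141) (nat_lit 128) (nat_lit 2) (nat_lit 5) (nat_lit 8) L67249 (by decide +kernel)
theorem L67251 : W_23 (nat_lit 2) (nat_lit 0x600011001f00088000000000000000000000000000000) (nat_lit 0x0) (nat_lit 0x8800080000000000000000000000000000000000) := D_23 (nat_lit 139) (nat_lit 159) (nat_lit 155) (nat_lit 3) (nat_lit 3) (nat_lit 8) (nat_lit 1) (nat_lit 6) (nat_lit 8) (by decide +kernel)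
theorem L67252 : W_23 (nat_lit 3) (nat_lit 0x600010001f00088000000000000000000000000000000) (nat_lit 0x0) (nat_lit 0xb800080000000000000000000000000000000000) := T_23 (nat_lit 156) (nat_lit 157) (nat_lit 1) (nat_lit 7) (nat_lit 8) L67251 (by decide +kernel)
theorem L67253 : W_23 (nat_lit 4) (nat_lit 0x600010001e00088000000000000000000000000000000) (nat_lit 0x0) (nat_lit 0xb800180004000000000000000000000000000000) := T_23 (nat_lit 140) (nat_lit 122) (nat_lit 0) (nat_lit 7) (nat_lit 8) L67252 (by decide +kernel)
theorem L67254 : W_23 (nat_lit 5) (nat_lit 0x600000001e00088000000000000000000000000000000) (nat_lit 0x0) (nat_lit 0x400000001b800180004000000000000000000000000000000) := T_23 (nat_lit 160) (nat_lit 194) (nat_lit 6) (nat_lit 7) (nat_lit 11) L67253 (by decide +kernel)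
theorem L67255 : W_23 (nat_lit 6) (nat_lit 0x600000001e00080000000000000000000000000000000) (nat_lit 0x0) (nat_lit 0x400000001b80018001c000000000000000000000000000000) := T_23 (nat_lit 123) (nat_lit 124) (nat_lit 0) (nat_lit 8) (nat_lit 8) L67254 (by decide +kernel)
theorem L67256 : W_23 (nat_lit 7) (nat_lit 0x600000001c00080000000000000000000000000000000) (nat_lit 0x0) (nat_lit 0x400000001b80038011c000000000000000000000000000000) := T_23 (nat_lit 141) (nat_lit 128) (nat_lit 2) (nat_lit 5) (nat_lit 8) L67255 (by decide +kernel)
theorem L67257 : W_23 (nat_lit 2) (nat_lit 0x4000e00008001c00080000000000000000000000000000000) (nat_lit 0x0) (nat_lit 0x100004000000020000000000000000000000000000000) := D_23 (nat_lit 176) (nat_lit 125) (nat_lit 158) (nat_lit 7) (nat_lit 6) (nat_lit 7) (nat_lit 0) (nat_lit 9) (nat_lit 10) (by decide +kernel)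
theorem L67258 : W_23 (nat_lit 3) (nat_lit 0xe00008001c00080000000000000000000000000000000) (nat_lit 0x0) (nat_lit 0x4000100014000000020000000000000000000000000000000) := T_23 (nat_lit 194) (nat_lit 160) (nat_lit 6) (nat_lit 7) (nat_lit 11) L67257 (by decide +kernel)
theorem L67259 : W_23 (nat_lit 2) (nat_lit 0xe00018001e00088000000000000000000000000000000) (nat_lit 0x0) (nat_lit 0x180004000000000000000000000000000000) := D_23 (nat_lit 140) (nat_lit 139) (nat_lit 122) (nat_lit 3) (nat_lit 3) (nat_lit 8) (nat_lit 0) (nat_lit 7) (nat_lit 8) (by decide +kernel)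
theorem L67260 : W_23 (nat_lit 3) (nat_lit 0xe00018001e00080000000000000000000000000000000) (nat_lit 0x0) (nat_lit 0x18001c000000000000000000000000000000) := T_23 (nat_lit 123) (nat_lit 124) (nat_lit 0) (nat_lit 8) (nat_lit 8) L67259 (by decide +kernel)
theorem L67261 : W_23 (nat_lit 4) (nat_lit 0xe00018001c00080000000000000000000000000000000) (nat_lit 0x0) (nat_lit 0x38011c000000000000000000000000000000) := T_23 (nat_lit 141) (nat_lit 128) (nat_lit 2) (nat_lit 5) (nat_lit 8) L67260 (by decide +kernel)
theorem L67262 : W_23 (nat_lit 5) (nat_lit 0xe00008001c00080000000000000000000000000000000) (nat_lit 0x0) (nat_lit 0x400000001000038011c000000000000000000000000000000) := T_23 (nat_lit 160) (nat_lit 194) (nat_lit 6) (nat_lit 7) (nat_lit 11) L67261 (by decide +kernel)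
theorem L67263 : W_23 (nat_lit 2) (nat_lit 0xe00008001e00090000000000000000000000000000000) (nat_lit 0x0) (nat_lit 0x2000100004000000000000000000000000000000000000000) := D_23 (nat_lit 176) (nat_lit 158) (nat_lit 193) (nat_lit 0) (nat_lit 9) (nat_lit 10) (nat_lit 4) (nat_lit 6) (nat_lit 11) (by decide +kernel)
theorem L67264 : W_23 (nat_lit 3) (nat_lit 0xe00008001e00080000000000000000000000000000000) (nat_lit 0x0) (nat_lit 0x2000100004000000018000000000000000000000000000000) := T_23 (nat_lit 124) (nat_lit 123) (nat_lit 0) (nat_lit 8) (nat_lit 8) L67263 (by decide +kernel)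
theorem L67265 : W_23 (nat_lit 4) (nat_lit 0xe00008001c00080000000000000000000000000000000) (nat_lit 0x0) (nat_lit 0x2000100004000200118000000000000000000000000000000) := T_23 (nat_lit 141) (nat_lit 128) (nat_lit 2) (nat_lit 5) (nat_lit 8) L67264 (by decide +kernel)
theorem L67266 : W_23 (nat_lit 6) (nat_lit 0xe00000001c00080000000000000000000000000000000) (nat_lit 0x0) (nat_lit 0x600010001c00038013c000000000000000000000000000000) := Q_23 (nat_lit 159) (C_23 L67258 (C_23 L67262 (C_23 L67265 N_23))) (by decide +kernel)
theorem L67267 : W_23 (nat_lit 7) (nat_lit 0x600000001c00080000000000000000000000000000000) (nat_lit 0x0) (nat_lit 0xfe0039003dc00038013c000000000000000000000000000000) := Q_23 (nat_lit 179) (C_23 L67201 (C_23 L67224 (C_23 L67196 (C_23 L67221 (C_23 L67266 N_23))))) (by decide +kernel)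
theorem L67268 : W_23 (nat_lit 12) (nat_lit 0x600000001800080000000000000000000000000000000) (nat_lit 0x0) (nat_lit 0x10000800fee039e03df80078013c000000000000000000000000000000) := Q_23 (nat_lit 142) (C_23 L67241 (C_23 L67246 (C_23 L67250 (C_23 L67256 (C_23 L67267 N_23))))) (by decide +kernel)
theorem L67269 : W_23 (nat_lit 5) (nat_lit 0x6000000018000c0000000000000000000000000000000) (nat_lit 0x0) (nat_lit 0xa00090001e000000000002000000000000000000000000000) := T_23 (nat_lit 160) (nat_lit 195) (nat_lit 7) (nat_lit 7) (nat_lit 7) L67184 (by decide +kernel)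
theorem L67270 : W_23 (nat_lit 2) (nat_lit 0x60000c001c001e0009000180020000000000000000000) (nat_lit 0x0) (nat_lit 0x2000900000000000000000000000000000000000000000000) := D_23 (nat_lit 176) (nat_lit 193) (nat_lit 179) (nat_lit 6) (nat_lit 6) (nat_lit 11) (nat_lit 0) (nat_lit 9) (nat_lit 10) (by decide +kernel)
theorem L67271 : W_23 (nat_lit 3) (nat_lit 0x600008001c001e0009000180020000000000000000000) (nat_lit 0x0) (nat_lit 0x2000980004000000000000000000000000000000000000000) := T_23 (nat_lit 158) (nat_lit 175) (nat_lit 5) (nat_lit 6) (nat_lit 6) L67270 (by decide +kernel)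
theorem L67272 : W_23 (nat_lit 4) (nat_lit 0x600000001c001e0009000180020000000000000000000) (nat_lit 0x0) (nat_lit 0x200098000c000000000002000000000000000000000000000) := T_23 (nat_lit 159) (nat_lit 109) (nat_lit 6) (nat_lit 6) (nat_lit 9) L67271 (by decide +kernel)
theorem L67273 : W_23 (nat_lit 5) (nat_lit 0x600000001c001e0009000080020000000000000000000) (nat_lit 0x0) (nat_lit 0x200098000c000000000002000100008000000000000000000) := T_23 (nat_lit 92) (nat_lit 75) (nat_lit 6) (nat_lit 6) (nat_lit 8) L67272 (by decide +kernel)
theorem L67274 : W_23 (nat_lit 6) (nat_lit 0x600000001c001e0009000000020000000000000000000) (nat_lit 0x0) (nat_lit 0x200098000c00000000000200018000c000000000000000000) := T_23 (nat_lit 91) (nat_lit 74) (nat_lit 7) (nat_lit 6) (nat_lit 4) L67273 (by decide +kernel)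
theorem L67275 : W_23 (nat_lit 7) (nat_lit 0x600000001c001e0009000000000000000000000000000) (nat_lit 0x0) (nat_lit 0x200098000c00000000000200058002c000000000000000000) := T_23 (nat_lit 77) (nat_lit 94) (nat_lit 5) (nat_lit 9) (nat_lit 4) L67274 (by decide +kernel)
theorem L67276 : W_23 (nat_lit 8) (nat_lit 0x600000001c001e0008000000000000000000000000000) (nat_lit 0x0) (nat_lit 0x200098000c00000000000380058002c000000000000000000) := T_23 (nat_lit 108) (nat_lit 107) (nat_lit 0) (nat_lit 9) (nat_lit 7) L67275 (by decide +kernel)
theorem L67277 : W_23 (nat_lit 9) (nat_lit 0x600000001c001e0000000000000000000000000000000) (nat_lit 0x0) (nat_lit 0x200098000c00000000001b80058002c000000000000000000) := T_23 (nat_lit 111) (nat_lit 112) (nat_lit 2) (nat_lit 6) (nat_lit 7) L67276 (by decide +kernel)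
theorem L67278 : W_23 (nat_lit 10) (nat_lit 0x6000000018001e0000000000000000000000000000000) (nat_lit 0x0) (nat_lit 0x200098000c00060000001b80058002c000000000000000000) := T_23 (nat_lit 142) (nat_lit 141) (nat_lit 2) (nat_lit 5) (nat_lit 8) L67277 (by decide +kernel)
theorem L67279 : W_23 (nat_lit 11) (nat_lit 0x6000000018001c0000000000000000000000000000000) (nat_lit 0x0) (nat_lit 0x200098000c00070003801bc0058002c000000000000000000) := Q_23 (nat_lit 125) (C_23 L67172 (C_23 L67167 (C_23 L67278 N_23))) (by decide +kernel)
theorem L67280 : W_23 (nat_lit 12) (nat_lit 0x6000000018000c0000000000000000000000000000000) (nat_lit 0x0) (nat_lit 0x200198008c00c70073803bc0058002c000000000000000000) := Q_23 (nat_lit 128) (C_23 L67164 (C_23 L67157 (C_23 L67279 N_23))) (by decide +kernel)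
theorem L67281 : W_23 (nat_lit 10) (nat_lit 0x6000000018000c0000000000000000000000000000000) (nat_lit 0x0) (nat_lit 0xa000100010000700738039c00000000000000000000000000) := T_23 (nat_lit 160) (nat_lit 195) (nat_lit 7) (nat_lit 7) (nat_lit 7) L67150 (by decide +kernel)
theorem L67282 : W_23 (nat_lit 13) (nat_lit 0x600000001800080000000000000000000000000000000) (nat_lit 0x0) (nat_lit 0xa00198009e00c70077803bc0058002c000000000000000000) := Q_23 (nat_lit 126) (C_23 L67269 (C_23 L67169 (C_23 L67280 (C_23 L67281 N_23)))) (by decide +kernel)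
theorem L67283 : W_23 (nat_lit 17) (nat_lit 0x600000001000080000000000000000000000000000000) (nat_lit 0x0) (nat_lit 0xc0017a00fd01fee079f07dfc0cfc077e03bc005c002e000000000000000000) := Q_23 (nat_lit 143) (C_23 L67134 (C_23 L67186 (C_23 L67188 (C_23 L67190 (C_23 L67192 (C_23 L67268 (C_23 L67282 N_23))))))) (by decide +kernel)
theorem L67284 : W_23 (nat_lit 5) (nat_lit 0xe00000001000080000000000000000000000000000000) (nat_lit 0x0) (nat_lit 0x760011001d8000800000000000000000000000000000000000) := Q_23 (nat_lit 180) (C_23 L4777 (C_23 L5617 N_23)) (by decide +kernel)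
theorem L67285 : W_23 (nat_lit 2) (nat_lit 0x10000f00088001000080000000000000000000000000000000) (nat_lit 0x0) (nat_lit 0x1000110000000000000000000000000000000000000000) := D_23 (nat_lit 180) (nat_lit 164) (nat_lit 160) (nat_lit 2) (nat_lit 7) (nat_lit 10) (nat_lit 0) (nat_lit 10) (nat_lit 10) (by decide +kernel)
theorem L67286 : W_23 (nat_lit 3) (nat_lit 0x10000f00080001000080000000000000000000000000000000) (nat_lit 0x0) (nat_lit 0x100011c000000000000000000000000000000000000000) := T_23 (nat_lit 159) (nat_lit 158) (nat_lit 0) (nat_lit 9) (nat_lit 10) L67285 (by decide +kernel)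
theorem L67287 : W_23 (nat_lit 4) (nat_lit 0x10000f00000001000080000000000000000000000000000000) (nat_lit 0x0) (nat_lit 0x10001dc000000000000000000000000000000000000000) := T_23 (nat_lit 163) (nat_lit 162) (nat_lit 2) (nat_lit 6) (nat_lit 10) L67286 (by decide +kernel)
theorem L67288 : W_23 (nat_lit 5) (nat_lit 0x10000e00000001000080000000000000000000000000000000) (nat_lit 0x0) (nat_lit 0x200011001dc000000000000000000000000000000000000000) := T_23 (nat_lit 176) (nat_lit 197) (nat_lit 3) (nat_lit 6) (nat_lit 10) L67287 (by decide +kernel)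
theorem L67289 : W_23 (nat_lit 6) (nat_lit 0xe00000001000080000000000000000000000000000000) (nat_lit 0x0) (nat_lit 0x300011001fc000000000000000000000000000000000000000) := T_23 (nat_lit 196) (nat_lit 161) (nat_lit 7) (nat_lit 8) (nat_lit 7) L67288 (by decide +kernel)
theorem L67290 : W_23 (nat_lit 7) (nat_lit 0x600000001000080000000000000000000000000000000) (nat_lit 0x0) (nat_lit 0x760019001fc000800000000000000000000000000000000000) := Q_23 (nat_lit 179) (C_23 L4870 (C_23 L67284 (C_23 L5798 (C_23 L67289 N_23)))) (by decide +kernel)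
theorem L67294 : W_23 (nat_lit 6) (nat_lit 0x30001e00010001000080000000000000000000000000000000) (nat_lit 0x0) (nat_lit 0x100008000cc000e002000040000000000000000000000000000000000000000) := T_23 (nat_lit 194) (nat_lit 193) (nat_lit 1) (nat_lit 10) (nat_lit 10) L4817 (by decide +kernel)
theorem L67295 : W_23 (nat_lit 7) (nat_lit 0x20001e00010001000080000000000000000000000000000000) (nat_lit 0x0) (nat_lit 0x100008000cc001e002100040000000000000000000000000000000000000000) := T_23 (nat_lit 196) (nat_lit 176) (nat_lit 3) (nat_lit 6) (nat_lit 10) L67294 (by decide +kernel)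
theorem L67296 : W_23 (nat_lit 8) (nat_lit 0x1e00010001000080000000000000000000000000000000) (nat_lit 0x0) (nat_lit 0x100008000cc007e002100040000000000000000000000000000000000000000) := T_23 (nat_lit 197) (nat_lit 198) (nat_lit 3) (nat_lit 7) (nat_lit 10) L67295 (by decide +kernel)
theorem L67297 : W_23 (nat_lit 9) (nat_lit 0x1e00000001000080000000000000000000000000000000) (nat_lit 0x0) (nat_lit 0x100008000cc007e002100058000000000000000000000000000000000000000) := T_23 (nat_lit 160) (nat_lit 159) (nat_lit 0) (nat_lit 10) (nat_lit 10) L67296 (by decide +kernel)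
theorem L67298 : W_23 (nat_lit 10) (nat_lit 0xe00000001000080000000000000000000000000000000) (nat_lit 0x0) (nat_lit 0x100008000cc007e0031003dc000000000000000000000000000000000000000) := Q_23 (nat_lit 180) (C_23 L5617 (C_23 L8709 (C_23 L67293 (C_23 L67297 N_23)))) (by decide +kernel)
theorem L67299 : W_23 (nat_lit 12) (nat_lit 0x600000001000080000000000000000000000000000000) (nat_lit 0x0) (nat_lit 0x10001a000fc007e0039003fc000000000000000000000000000000000000000) := Q_23 (nat_lit 179) (C_23 L67298 (C_23 L67289 (C_23 L4870 (C_23 L4892 N_23)))) (by decide +kernel)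
theorem L67302 : W_23 (nat_lit 4) (nat_lit 0x600060001000080000000000000000000000000000000) (nat_lit 0x0) (nat_lit 0x180190000000040002000000000000000000000000000) := T_23 (nat_lit 126) (nat_lit 109) (nat_lit 4) (nat_lit 8) (nat_lit 10) L67301 (by decide +kernel)
theorem L67303 : W_23 (nat_lit 2) (nat_lit 0x1f00168001000180000000000000000000000000000000) (nat_lit 0x0) (nat_lit 0x6000200000000000000000000000000000000000000000) := D_23 (nat_lit 181) (nat_lit 165) (nat_lit 182) (nat_lit 2) (nat_lit 8) (nat_lit 10) (nat_lit 0) (nat_lit 12) (nat_lit 10) (by decide +kernel)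
theorem L67304 : W_23 (nat_lit 3) (nat_lit 0xf00168001000180000000000000000000000000000000) (nat_lit 0x0) (nat_lit 0x7000210000000000000000000000000000000000000000) := T_23 (nat_lit 180) (nat_lit 160) (nat_lit 3) (nat_lit 6) (nat_lit 9) L67303 (by decide +kernel)
theorem L67305 : W_23 (nat_lit 4) (nat_lit 0xf00168001000080000000000000000000000000000000) (nat_lit 0x0) (nat_lit 0x7000210000000100008000000000000000000000000000) := T_23 (nat_lit 128) (nat_lit 111) (nat_lit 6) (nat_lit 8) (nat_lit 10) L67304 (by decide +kernel)
theorem L67306 : W_23 (nat_lit 5) (nat_lit 0xf00160001000080000000000000000000000000000000) (nat_lit 0x0) (nat_lit 0x700021c000000100008000000000000000000000000000) := T_23 (nat_lit 159) (nat_lit 158) (nat_lit 0) (nat_lit 9) (nat_lit 10) L67305 (by decide +kernel)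
theorem L67307 : W_23 (nat_lit 6) (nat_lit 0x700160001000080000000000000000000000000000000) (nat_lit 0x0) (nat_lit 0x1000780021c000000100008000000000000000000000000000) := T_23 (nat_lit 179) (nat_lit 196) (nat_lit 7) (nat_lit 8) (nat_lit 7) L67306 (by decide +kernel)
theorem L67308 : W_23 (nat_lit 7) (nat_lit 0x600160001000080000000000000000000000000000000) (nat_lit 0x0) (nat_lit 0x1000798021c000000100008000000000000000000000000000) := T_23 (nat_lit 176) (nat_lit 175) (nat_lit 2) (nat_lit 5) (nat_lit 10) L67307 (by decide +kernel)
theorem L67309 : W_23 (nat_lit 8) (nat_lit 0x600060001000080000000000000000000000000000000) (nat_lit 0x0) (nat_lit 0x1000798039c000000100008000000000000000000000000000) := T_23 (nat_lit 164) (nat_lit 163) (nat_lit 1) (nat_lit 11) (nat_lit 9) L67308 (by decide +kernel)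
theorem L67310 : W_23 (nat_lit 2) (nat_lit 0x6000600090007c0010000000000000000000000000000) (nat_lit 0x0) (nat_lit 0x2000180000000000000000000000000000000000000000) := D_23 (nat_lit 164) (nat_lit 163) (nat_lit 181) (nat_lit 1) (nat_lit 11) (nat_lit 9) (nat_lit 4) (nat_lit 11) (nat_lit 10) (by decide +kernel)
theorem L67311 : W_23 (nat_lit 3) (nat_lit 0x6000600090003c0010000000000000000000000000000) (nat_lit 0x0) (nat_lit 0x2000180010000400000000000000000000000000000000) := T_23 (nat_lit 130) (nat_lit 148) (nat_lit 3) (nat_lit 8) (nat_lit 7) L67310 (by decide +kernel)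
theorem L67312 : W_23 (nat_lit 4) (nat_lit 0x6000600090003c0000000000000000000000000000000) (nat_lit 0x0) (nat_lit 0x2000180010000400030000000000000000000000000000) := T_23 (nat_lit 112) (nat_lit 113) (nat_lit 2) (nat_lit 7) (nat_lit 7) L67311 (by decide +kernel)
theorem L67313 : W_23 (nat_lit 5) (nat_lit 0x6000600090001c0000000000000000000000000000000) (nat_lit 0x0) (nat_lit 0x2000180014000600030000000000000000000000000000) := T_23 (nat_lit 129) (nat_lit 146) (nat_lit 3) (nat_lit 7) (nat_lit 7) L67312 (by decide +kernel)
theorem L67314 : W_23 (nat_lit 6) (nat_lit 0x600060009000180000000000000000000000000000000) (nat_lit 0x0) (nat_lit 0x2000180014000640032000000000000000000000000000) := T_23 (nat_lit 126) (nat_lit 109) (nat_lit 4) (nat_lit 8) (nat_lit 10) L67313 (by decide +kernel)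
theorem L67315 : W_23 (nat_lit 7) (nat_lit 0x600060009000080000000000000000000000000000000) (nat_lit 0x0) (nat_lit 0x200018001400074003a000000000000000000000000000) := T_23 (nat_lit 128) (nat_lit 111) (nat_lit 6) (nat_lit 8) (nat_lit 10) L67314 (by decide +kernel)
theorem L67316 : W_23 (nat_lit 2) (nat_lit 0xe000f0009000080000000000000000000000000000000) (nat_lit 0x0) (nat_lit 0x3000008000000000000000000000000000000000000000) := D_23 (nat_lit 180) (nat_lit 181) (nat_lit 159) (nat_lit 3) (nat_lit 7) (nat_lit 9) (nat_lit 3) (nat_lit 6) (nat_lit 9) (by decide +kernel)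
theorem L67317 : W_23 (nat_lit 3) (nat_lit 0xe000e0009000080000000000000000000000000000000) (nat_lit 0x0) (nat_lit 0x3000018004000000000000000000000000000000000000) := T_23 (nat_lit 160) (nat_lit 146) (nat_lit 2) (nat_lit 7) (nat_lit 9) L67316 (by decide +kernel)
theorem L67318 : W_23 (nat_lit 4) (nat_lit 0x6000e0009000080000000000000000000000000000000) (nat_lit 0x0) (nat_lit 0x10003800018004000000000000000000000000000000000000) := T_23 (nat_lit 179) (nat_lit 196) (nat_lit 7) (nat_lit 8) (nat_lit 7) L67317 (by decide +kernel)
theorem L67319 : W_23 (nat_lit 5) (nat_lit 0x600060009000080000000000000000000000000000000) (nat_lit 0x0) (nat_lit 0x10003800198004000000000000000000000000000000000000) := T_23 (nat_lit 163) (nat_lit 164) (nat_lit 1) (nat_lit 11) (nat_lit 9) L67318 (by decide +kernel)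
theorem L67320 : W_23 (nat_lit 2) (nat_lit 0xe001600090003c0020000000000000000000000000000) (nat_lit 0x0) (nat_lit 0x10000400040000000000000000000000000000) := D_23 (nat_lit 130) (nat_lit 148) (nat_lit 114) (nat_lit 3) (nat_lit 8) (nat_lit 7) (nat_lit 2) (nat_lit 8) (nat_lit 7) (by decide +kernel)
theorem L67321 : W_23 (nat_lit 3) (nat_lit 0xe001600090003c0000000000000000000000000000000) (nat_lit 0x0) (nat_lit 0x10000400070000000000000000000000000000) := T_23 (nat_lit 113) (nat_lit 112) (nat_lit 2) (nat_lit 7) (nat_lit 7) L67320 (by decide +kernel)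
theorem L67322 : W_23 (nat_lit 4) (nat_lit 0xe001600090001c0000000000000000000000000000000) (nat_lit 0x0) (nat_lit 0x14000600070000000000000000000000000000) := T_23 (nat_lit 129) (nat_lit 146) (nat_lit 3) (nat_lit 7) (nat_lit 7) L67321 (by decide +kernel)
theorem L67323 : W_23 (nat_lit 5) (nat_lit 0xe00160009000180000000000000000000000000000000) (nat_lit 0x0) (nat_lit 0x14000640072000000000000000000000000000) := T_23 (nat_lit 126) (nat_lit 109) (nat_lit 4) (nat_lit 8) (nat_lit 10) L67322 (by decide +kernel)
theorem L67324 : W_23 (nat_lit 6) (nat_lit 0x600160009000180000000000000000000000000000000) (nat_lit 0x0) (nat_lit 0x10000800000014000640072000000000000000000000000000) := T_23 (nat_lit 179) (nat_lit 196) (nat_lit 7) (nat_lit 8) (nat_lit 7) L67323 (by decide +kernel)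
theorem L67325 : W_23 (nat_lit 7) (nat_lit 0x600160009000080000000000000000000000000000000) (nat_lit 0x0) (nat_lit 0x1000080000001400074007a000000000000000000000000000) := T_23 (nat_lit 128) (nat_lit 111) (nat_lit 6) (nat_lit 8) (nat_lit 10) L67324 (by decide +kernel)
theorem L67326 : W_23 (nat_lit 8) (nat_lit 0x600060009000080000000000000000000000000000000) (nat_lit 0x0) (nat_lit 0x1000080018001400074007a000000000000000000000000000) := T_23 (nat_lit 164) (nat_lit 163) (nat_lit 1) (nat_lit 11) (nat_lit 9) L67325 (by decide +kernel)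
theorem L67327 : W_23 (nat_lit 2) (nat_lit 0x6000600090003c0020000000000000000000000000000) (nat_lit 0x0) (nat_lit 0x10000400040000000000000000000000000000) := D_23 (nat_lit 130) (nat_lit 148) (nat_lit 114) (nat_lit 3) (nat_lit 8) (nat_lit 7) (nat_lit 2) (nat_lit 8) (nat_lit 7) (by decide +kernel)
theorem L67328 : W_23 (nat_lit 3) (nat_lit 0x6000600090003c0000000000000000000000000000000) (nat_lit 0x0) (nat_lit 0x10000400070000000000000000000000000000) := T_23 (nat_lit 113) (nat_lit 112) (nat_lit 2) (nat_lit 7) (nat_lit 7) L67327 (by decide +kernel)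
theorem L67329 : W_23 (nat_lit 4) (nat_lit 0x6000600090001c0000000000000000000000000000000) (nat_lit 0x0) (nat_lit 0x14000600070000000000000000000000000000) := T_23 (nat_lit 129) (nat_lit 146) (nat_lit 3) (nat_lit 7) (nat_lit 7) L67328 (by decide +kernel)
theorem L67330 : W_23 (nat_lit 5) (nat_lit 0x6000600090000c0000000000000000000000000000000) (nat_lit 0x0) (nat_lit 0x14000700078000000000000000000000000000) := T_23 (nat_lit 128) (nat_lit 111) (nat_lit 6) (nat_lit 8) (nat_lit 10) L67329 (by decide +kernel)
theorem L67331 : W_23 (nat_lit 6) (nat_lit 0x600060009000080000000000000000000000000000000) (nat_lit 0x0) (nat_lit 0x1400074007a000000000000000000000000000) := T_23 (nat_lit 126) (nat_lit 109) (nat_lit 4) (nat_lit 8) (nat_lit 10) L67330 (by decide +kernel)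
theorem L67332 : W_23 (nat_lit 2) (nat_lit 0xe001600090007c0000000000000000000000000000000) (nat_lit 0x0) (nat_lit 0x70000000000000000000000000000) := D_23 (nat_lit 113) (nat_lit 114) (nat_lit 112) (nat_lit 2) (nat_lit 8) (nat_lit 7) (nat_lit 2) (nat_lit 7) (nat_lit 7) (by decide +kernel)
theorem L67333 : W_23 (nat_lit 3) (nat_lit 0xe001600090005c0000000000000000000000000000000) (nat_lit 0x0) (nat_lit 0x10000200070000000000000000000000000000) := T_23 (nat_lit 129) (nat_lit 148) (nat_lit 3) (nat_lit 8) (nat_lit 7) L67332 (by decide +kernel)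
theorem L67334 : W_23 (nat_lit 4) (nat_lit 0xe001600090004c0000000000000000000000000000000) (nat_lit 0x0) (nat_lit 0x10000300078000000000000000000000000000) := T_23 (nat_lit 128) (nat_lit 111) (nat_lit 6) (nat_lit 8) (nat_lit 10) L67333 (by decide +kernel)
theorem L67335 : W_23 (nat_lit 5) (nat_lit 0xe00160009000480000000000000000000000000000000) (nat_lit 0x0) (nat_lit 0x1000034007a000000000000000000000000000) := T_23 (nat_lit 126) (nat_lit 109) (nat_lit 4) (nat_lit 8) (nat_lit 10) L67334 (by decide +kernel)
theorem L67336 : W_23 (nat_lit 6) (nat_lit 0xe00060009000480000000000000000000000000000000) (nat_lit 0x0) (nat_lit 0x18001000034007a000000000000000000000000000) := T_23 (nat_lit 164) (nat_lit 163) (nat_lit 1) (nat_lit 11) (nat_lit 9) L67335 (by decide +kernel)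
theorem L67337 : W_23 (nat_lit 7) (nat_lit 0x600060009000480000000000000000000000000000000) (nat_lit 0x0) (nat_lit 0x1000080018001000034007a000000000000000000000000000) := T_23 (nat_lit 179) (nat_lit 196) (nat_lit 7) (nat_lit 8) (nat_lit 7) L67336 (by decide +kernel)
theorem L67338 : W_23 (nat_lit 2) (nat_lit 0x380066001600090006c0020000000000000000000000000000) (nat_lit 0x0) (nat_lit 0x800040002000000000000000000000000) := D_23 (nat_lit 114) (nat_lit 97) (nat_lit 131) (nat_lit 6) (nat_lit 11) (nat_lit 9) (nat_lit 6) (nat_lit 11) (nat_lit 10) (by decide +kernel)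
theorem L67339 : W_23 (nat_lit 3) (nat_lit 0x380066001600090006c0000000000000000000000000000000) (nat_lit 0x0) (nat_lit 0x200000000800060002000000000000000000000000) := T_23 (nat_lit 113) (nat_lit 165) (nat_lit 7) (nat_lit 11) (nat_lit 6) L67338 (by decide +kernel)
theorem L67340 : W_23 (nat_lit 4) (nat_lit 0x380026001600090006c0000000000000000000000000000000) (nat_lit 0x0) (nat_lit 0x80004000200000000800060002000000000000000000000000) := T_23 (nat_lit 182) (nat_lit 199) (nat_lit 7) (nat_lit 11) (nat_lit 7) L67339 (by decide +kernel)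
theorem L67341 : W_23 (nat_lit 5) (nat_lit 0x380026001600090004c0000000000000000000000000000000) (nat_lit 0x0) (nat_lit 0x80004000200000000a00070002000000000000000000000000) := T_23 (nat_lit 129) (nat_lit 112) (nat_lit 4) (nat_lit 11) (nat_lit 10) L67340 (by decide +kernel)
theorem L67342 : W_23 (nat_lit 6) (nat_lit 0x380006001600090004c0000000000000000000000000000000) (nat_lit 0x0) (nat_lit 0x80007000200000000a00070002000000000000000000000000) := T_23 (nat_lit 181) (nat_lit 180) (nat_lit 5) (nat_lit 11) (nat_lit 7) L67341 (by decide +kernel)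
theorem L67343 : W_23 (nat_lit 7) (nat_lit 0x38000600160009000480000000000000000000000000000000) (nat_lit 0x0) (nat_lit 0x80007000200000000a40072002000000000000000000000000) := T_23 (nat_lit 126) (nat_lit 109) (nat_lit 4) (nat_lit 8) (nat_lit 10) L67342 (by decide +kernel)
theorem L67344 : W_23 (nat_lit 8) (nat_lit 0x18000600160009000480000000000000000000000000000000) (nat_lit 0x0) (nat_lit 0xe0007000200000000a40072002000000000000000000000000) := T_23 (nat_lit 197) (nat_lit 198) (nat_lit 0) (nat_lit 11) (nat_lit 11) L67343 (by decide +kernel)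
theorem L67345 : W_23 (nat_lit 9) (nat_lit 0x10000600160009000480000000000000000000000000000000) (nat_lit 0x0) (nat_lit 0x2000e8007000200000000a40072002000000000000000000000000) := T_23 (nat_lit 195) (nat_lit 213) (nat_lit 7) (nat_lit 8) (nat_lit 8) L67344 (by decide +kernel)
theorem L67346 : W_23 (nat_lit 10) (nat_lit 0x10000600060009000480000000000000000000000000000000) (nat_lit 0x0) (nat_lit 0x2000e8007000380000000a40072002000000000000000000000000) := T_23 (nat_lit 164) (nat_lit 163) (nat_lit 1) (nat_lit 11) (nat_lit 9) L67345 (by decide +kernel)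
theorem L67347 : W_23 (nat_lit 11) (nat_lit 0x600060009000480000000000000000000000000000000) (nat_lit 0x0) (nat_lit 0x2000f8007800380000000a40072002000000000000000000000000) := T_23 (nat_lit 196) (nat_lit 179) (nat_lit 7) (nat_lit 8) (nat_lit 7) L67346 (by decide +kernel)
theorem L67348 : W_23 (nat_lit 2) (nat_lit 0x6001600090007c0000000000000000000000000000000) (nat_lit 0x0) (nat_lit 0x70000000000000000000000000000) := D_23 (nat_lit 113) (nat_lit 114) (nat_lit 112) (nat_lit 2) (nat_lit 8) (nat_lit 7) (nat_lit 2) (nat_lit 7) (nat_lit 7) (by decide +kernel)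
theorem L67349 : W_23 (nat_lit 3) (nat_lit 0x6001600090005c0000000000000000000000000000000) (nat_lit 0x0) (nat_lit 0x10000200070000000000000000000000000000) := T_23 (nat_lit 129) (nat_lit 148) (nat_lit 3) (nat_lit 8) (nat_lit 7) L67348 (by decide +kernel)
theorem L67350 : W_23 (nat_lit 4) (nat_lit 0x6001600090004c0000000000000000000000000000000) (nat_lit 0x0) (nat_lit 0x10000300078000000000000000000000000000) := T_23 (nat_lit 128) (nat_lit 111) (nat_lit 6) (nat_lit 8) (nat_lit 10) L67349 (by decide +kernel)
theorem L67351 : W_23 (nat_lit 5) (nat_lit 0x6000600090004c0000000000000000000000000000000) (nat_lit 0x0) (nat_lit 0x180010000300078000000000000000000000000000) := T_23 (nat_lit 164) (nat_lit 163) (nat_lit 1) (nat_lit 11) (nat_lit 9) L67350 (by decide +kernel)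
theorem L67352 : W_23 (nat_lit 6) (nat_lit 0x600060009000480000000000000000000000000000000) (nat_lit 0x0) (nat_lit 0x18001000034007a000000000000000000000000000) := T_23 (nat_lit 126) (nat_lit 109) (nat_lit 4) (nat_lit 8) (nat_lit 10) L67351 (by decide +kernel)
theorem L67353 : W_23 (nat_lit 3) (nat_lit 0xe00060009000780020000000000000000000000000000) (nat_lit 0x0) (nat_lit 0x2000180000000000010000800000000000000000000000) := T_23 (nat_lit 164) (nat_lit 163) (nat_lit 1) (nat_lit 11) (nat_lit 9) L11525 (by decide +kernel)
theorem L67354 : W_23 (nat_lit 4) (nat_lit 0x600060009000780020000000000000000000000000000) (nat_lit 0x0) (nat_lit 0x10002800180000000000010000800000000000000000000000) := T_23 (nat_lit 179) (nat_lit 196) (nat_lit 7) (nat_lit 8) (nat_lit 7) L67353 (by decide +kernel)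
theorem L67355 : W_23 (nat_lit 5) (nat_lit 0x600060009000780000000000000000000000000000000) (nat_lit 0x0) (nat_lit 0x10002800180000000000070000800000000000000000000000) := T_23 (nat_lit 113) (nat_lit 114) (nat_lit 2) (nat_lit 8) (nat_lit 7) L67354 (by decide +kernel)
theorem L67356 : W_23 (nat_lit 6) (nat_lit 0x600060009000580000000000000000000000000000000) (nat_lit 0x0) (nat_lit 0x10002800180010000200070000800000000000000000000000) := T_23 (nat_lit 129) (nat_lit 148) (nat_lit 3) (nat_lit 8) (nat_lit 7) L67355 (by decide +kernel)
theorem L67357 : W_23 (nat_lit 7) (nat_lit 0x600060009000480000000000000000000000000000000) (nat_lit 0x0) (nat_lit 0x10002800180010000300078000800000000000000000000000) := T_23 (nat_lit 128) (nat_lit 111) (nat_lit 6) (nat_lit 8) (nat_lit 10) L67356 (by decide +kernel)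
theorem L67358 : W_23 (nat_lit 2) (nat_lit 0x380066001600090005c0040000000000000000000000000000) (nat_lit 0x0) (nat_lit 0x200000000000020002000000000000000000000000) := D_23 (nat_lit 113) (nat_lit 165) (nat_lit 97) (nat_lit 7) (nat_lit 11) (nat_lit 6) (nat_lit 6) (nat_lit 11) (nat_lit 9) (by decide +kernel)
theorem L67359 : W_23 (nat_lit 3) (nat_lit 0x380026001600090005c0040000000000000000000000000000) (nat_lit 0x0) (nat_lit 0x80004000200000000000020002000000000000000000000000) := T_23 (nat_lit 182) (nat_lit 199) (nat_lit 7) (nat_lit 11) (nat_lit 7) L67358 (by decide +kernel)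
theorem L67360 : W_23 (nat_lit 4) (nat_lit 0x380026001600090005c0000000000000000000000000000000) (nat_lit 0x0) (nat_lit 0x80004000200000000800060002000000000000000000000000) := T_23 (nat_lit 114) (nat_lit 131) (nat_lit 6) (nat_lit 11) (nat_lit 10) L67359 (by decide +kernel)
theorem L67361 : W_23 (nat_lit 5) (nat_lit 0x380006001600090005c0000000000000000000000000000000) (nat_lit 0x0) (nat_lit 0x80007000200000000800060002000000000000000000000000) := T_23 (nat_lit 181) (nat_lit 180) (nat_lit 5) (nat_lit 11) (nat_lit 7) L67360 (by decide +kernel)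
theorem L67362 : W_23 (nat_lit 6) (nat_lit 0x180006001600090005c0000000000000000000000000000000) (nat_lit 0x0) (nat_lit 0xe0007000200000000800060002000000000000000000000000) := T_23 (nat_lit 197) (nat_lit 198) (nat_lit 0) (nat_lit 11) (nat_lit 11) L67361 (by decide +kernel)
theorem L67363 : W_23 (nat_lit 7) (nat_lit 0x100006001600090005c0000000000000000000000000000000) (nat_lit 0x0) (nat_lit 0x2000e8007000200000000800060002000000000000000000000000) := T_23 (nat_lit 195) (nat_lit 213) (nat_lit 7) (nat_lit 8) (nat_lit 8) L67362 (by decide +kernel)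
theorem L67364 : W_23 (nat_lit 8) (nat_lit 0x6001600090005c0000000000000000000000000000000) (nat_lit 0x0) (nat_lit 0x2000f8007800200000000800060002000000000000000000000000) := T_23 (nat_lit 196) (nat_lit 179) (nat_lit 7) (nat_lit 8) (nat_lit 7) L67363 (by decide +kernel)
theorem L67365 : W_23 (nat_lit 9) (nat_lit 0x6001600090004c0000000000000000000000000000000) (nat_lit 0x0) (nat_lit 0x2000f8007800200000000900068002000000000000000000000000) := T_23 (nat_lit 128) (nat_lit 111) (nat_lit 6) (nat_lit 8) (nat_lit 10) L67364 (by decide +kernel)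
theorem L67366 : W_23 (nat_lit 10) (nat_lit 0x600160009000480000000000000000000000000000000) (nat_lit 0x0) (nat_lit 0x2000f800780020000000094006a002000000000000000000000000) := T_23 (nat_lit 126) (nat_lit 109) (nat_lit 4) (nat_lit 8) (nat_lit 10) L67365 (by decide +kernel)
theorem L67367 : W_23 (nat_lit 11) (nat_lit 0x600060009000480000000000000000000000000000000) (nat_lit 0x0) (nat_lit 0x2000f800780038000000094006a002000000000000000000000000) := T_23 (nat_lit 164) (nat_lit 163) (nat_lit 1) (nat_lit 11) (nat_lit 9) L67366 (by decide +kernel)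
theorem L67368 : W_23 (nat_lit 2) (nat_lit 0x2e001600090007c0000000000000000000000000000000) (nat_lit 0x0) (nat_lit 0x1000210000000000000000000000000000000000000000) := D_23 (nat_lit 180) (nat_lit 165) (nat_lit 160) (nat_lit 2) (nat_lit 8) (nat_lit 10) (nat_lit 0) (nat_lit 11) (nat_lit 10) (by decide +kernel)
theorem L67369 : W_23 (nat_lit 3) (nat_lit 0xe001600090007c0000000000000000000000000000000) (nat_lit 0x0) (nat_lit 0x3000210000000000010000000000000000000000000000) := T_23 (nat_lit 181) (nat_lit 112) (nat_lit 4) (nat_lit 11) (nat_lit 10) L67368 (by decide +kernel)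
theorem L67370 : W_23 (nat_lit 4) (nat_lit 0xe001600090005c0000000000000000000000000000000) (nat_lit 0x0) (nat_lit 0x3000210010000200010000000000000000000000000000) := T_23 (nat_lit 129) (nat_lit 148) (nat_lit 3) (nat_lit 8) (nat_lit 7) L67369 (by decide +kernel)
theorem L67371 : W_23 (nat_lit 5) (nat_lit 0xe001600090004c0000000000000000000000000000000) (nat_lit 0x0) (nat_lit 0x3000210010000300018000000000000000000000000000) := T_23 (nat_lit 128) (nat_lit 111) (nat_lit 6) (nat_lit 8) (nat_lit 10) L67370 (by decide +kernel)
theorem L67372 : W_23 (nat_lit 6) (nat_lit 0xe00160009000480000000000000000000000000000000) (nat_lit 0x0) (nat_lit 0x300021001000034001a000000000000000000000000000) := T_23 (nat_lit 126) (nat_lit 109) (nat_lit 4) (nat_lit 8) (nat_lit 10) L67371 (by decide +kernel)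
theorem L67373 : W_23 (nat_lit 7) (nat_lit 0xe00060009000480000000000000000000000000000000) (nat_lit 0x0) (nat_lit 0x300039001000034001a000000000000000000000000000) := T_23 (nat_lit 164) (nat_lit 163) (nat_lit 1) (nat_lit 11) (nat_lit 9) L67372 (by decide +kernel)
theorem L67374 : W_23 (nat_lit 8) (nat_lit 0x600060009000480000000000000000000000000000000) (nat_lit 0x0) (nat_lit 0x1000380039001000034001a000000000000000000000000000) := T_23 (nat_lit 179) (nat_lit 196) (nat_lit 7) (nat_lit 8) (nat_lit 7) L67373 (by decide +kernel)
theorem L67375 : W_23 (nat_lit 2) (nat_lit 0x600060009000780020000000000000000000000000000) (nat_lit 0x0) (nat_lit 0x40012000000000000000000000000000) := D_23 (nat_lit 126) (nat_lit 112) (nat_lit 109) (nat_lit 2) (nat_lit 7) (nat_lit 7) (nat_lit 4) (nat_lit 8) (nat_lit 10) (by decide +kernel)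
theorem L67376 : W_23 (nat_lit 3) (nat_lit 0x600060009000780000000000000000000000000000000) (nat_lit 0x0) (nat_lit 0x40072000000000000000000000000000) := T_23 (nat_lit 113) (nat_lit 114) (nat_lit 2) (nat_lit 8) (nat_lit 7) L67375 (by decide +kernel)
theorem L67377 : W_23 (nat_lit 4) (nat_lit 0x600060009000580000000000000000000000000000000) (nat_lit 0x0) (nat_lit 0x10000240072000000000000000000000000000) := T_23 (nat_lit 129) (nat_lit 148) (nat_lit 3) (nat_lit 8) (nat_lit 7) L67376 (by decide +kernel)
theorem L67378 : W_23 (nat_lit 5) (nat_lit 0x600060009000480000000000000000000000000000000) (nat_lit 0x0) (nat_lit 0x1000034007a000000000000000000000000000) := T_23 (nat_lit 128) (nat_lit 111) (nat_lit 6) (nat_lit 8) (nat_lit 10) L67377 (by decide +kernel)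
theorem L67379 : W_23 (nat_lit 12) (nat_lit 0x600060009000080000000000000000000000000000000) (nat_lit 0x0) (nat_lit 0x2000f8007800390010000f4007a002800000000000000000000000) := Q_23 (nat_lit 130) (C_23 L67337 (C_23 L67347 (C_23 L67352 (C_23 L67357 (C_23 L67367 (C_23 L67374 (C_23 L67378 N_23))))))) (by decide +kernel)
theorem L67380 : W_23 (nat_lit 13) (nat_lit 0x600060001000080000000000000000000000000000000) (nat_lit 0x0) (nat_lit 0x2000f800780039801c000f4007a002800000000000000000000000) := Q_23 (nat_lit 147) (C_23 L67315 (C_23 L67319 (C_23 L67326 (C_23 L67331 (C_23 L67379 N_23))))) (by decide +kernel)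
theorem L67385 : W_23 (nat_lit 6) (nat_lit 0x7000600010001c0000000000000000000000000000000) (nat_lit 0x0) (nat_lit 0xf000780001c000000000000000000000000000000000000000) := T_23 (nat_lit 179) (nat_lit 196) (nat_lit 7) (nat_lit 8) (nat_lit 7) L67384 (by decide +kernel)
theorem L67386 : W_23 (nat_lit 7) (nat_lit 0x7000600010000c0000000000000000000000000000000) (nat_lit 0x0) (nat_lit 0xf000780001c000000100008000000000000000000000000000) := T_23 (nat_lit 128) (nat_lit 111) (nat_lit 6) (nat_lit 8) (nat_lit 10) L67385 (by decide +kernel)
theorem L67387 : W_23 (nat_lit 8) (nat_lit 0x700060001000080000000000000000000000000000000) (nat_lit 0x0) (nat_lit 0xf000780001c00000014000a000000000000000000000000000) := T_23 (nat_lit 126) (nat_lit 109) (nat_lit 4) (nat_lit 8) (nat_lit 10) L67386 (by decide +kernel)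
theorem L67388 : W_23 (nat_lit 9) (nat_lit 0x600060001000080000000000000000000000000000000) (nat_lit 0x0) (nat_lit 0xf000798001c00000014000a000000000000000000000000000) := T_23 (nat_lit 176) (nat_lit 175) (nat_lit 2) (nat_lit 5) (nat_lit 10) L67387 (by decide +kernel)
theorem L67389 : W_23 (nat_lit 14) (nat_lit 0x600020001000080000000000000000000000000000000) (nat_lit 0x0) (nat_lit 0x2000f80079803dc01c000f4007a002800000000000000000000000) := Q_23 (nat_lit 162) (C_23 L67302 (C_23 L67309 (C_23 L67380 (C_23 L4922 (C_23 L67388 N_23))))) (by decide +kernel)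
theorem L67392 : W_23 (nat_lit 2) (nat_lit 0xe000600058003c0000000000000000000000000000000) (nat_lit 0x0) (nat_lit 0x80000000000030000000000000000000000000000) := D_23 (nat_lit 112) (nat_lit 113) (nat_lit 163) (nat_lit 2) (nat_lit 7) (nat_lit 7) (nat_lit 5) (nat_lit 10) (nat_lit 6) (by decide +kernel)
theorem L67393 : W_23 (nat_lit 3) (nat_lit 0xe000600018003c0000000000000000000000000000000) (nat_lit 0x0) (nat_lit 0x8000c000000030000000000000000000000000000) := T_23 (nat_lit 146) (nat_lit 147) (nat_lit 3) (nat_lit 7) (nat_lit 7) L67392 (by decide +kernel)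
theorem L67394 : W_23 (nat_lit 4) (nat_lit 0xe00060001800380000000000000000000000000000000) (nat_lit 0x0) (nat_lit 0x8000c000040032000000000000000000000000000) := T_23 (nat_lit 126) (nat_lit 109) (nat_lit 4) (nat_lit 8) (nat_lit 10) L67393 (by decide +kernel)
theorem L67395 : W_23 (nat_lit 5) (nat_lit 0x600060001800380000000000000000000000000000000) (nat_lit 0x0) (nat_lit 0x1000080008000c000040032000000000000000000000000000) := T_23 (nat_lit 179) (nat_lit 196) (nat_lit 7) (nat_lit 8) (nat_lit 7) L67394 (by decide +kernel)
theorem L67396 : W_23 (nat_lit 6) (nat_lit 0x600060001800180000000000000000000000000000000) (nat_lit 0x0) (nat_lit 0x1000080008000c000640032000000000000000000000000000) := T_23 (nat_lit 129) (nat_lit 130) (nat_lit 1) (nat_lit 11) (nat_lit 7) L67395 (by decide +kernel)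
theorem L67397 : W_23 (nat_lit 7) (nat_lit 0x600060001800080000000000000000000000000000000) (nat_lit 0x0) (nat_lit 0x1000080008000c00074003a000000000000000000000000000) := T_23 (nat_lit 128) (nat_lit 111) (nat_lit 6) (nat_lit 8) (nat_lit 10) L67396 (by decide +kernel)
theorem L67398 : W_23 (nat_lit 2) (nat_lit 0xe000600018001c0000000000000000000000000000000) (nat_lit 0x0) (nat_lit 0x600200000000000000000000000000000000) := D_23 (nat_lit 142) (nat_lit 141) (nat_lit 129) (nat_lit 3) (nat_lit 5) (nat_lit 8) (nat_lit 1) (nat_lit 10) (nat_lit 7) (by decide +kernel)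
theorem L67399 : W_23 (nat_lit 3) (nat_lit 0xe000600018000c0000000000000000000000000000000) (nat_lit 0x0) (nat_lit 0x600300008000000000000000000000000000) := T_23 (nat_lit 128) (nat_lit 111) (nat_lit 6) (nat_lit 8) (nat_lit 10) L67398 (by decide +kernel)
theorem L67400 : W_23 (nat_lit 4) (nat_lit 0x6000600018000c0000000000000000000000000000000) (nat_lit 0x0) (nat_lit 0x10000800000000600300008000000000000000000000000000) := T_23 (nat_lit 179) (nat_lit 196) (nat_lit 7) (nat_lit 8) (nat_lit 7) L67399 (by decide +kernel)
theorem L67401 : W_23 (nat_lit 5) (nat_lit 0x600060001800080000000000000000000000000000000) (nat_lit 0x0) (nat_lit 0x1000080000000060034000a000000000000000000000000000) := T_23 (nat_lit 126) (nat_lit 109) (nat_lit 4) (nat_lit 8) (nat_lit 10) L67400 (by decide +kernel)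
theorem L67402 : W_23 (nat_lit 8) (nat_lit 0x600060001000080000000000000000000000000000000) (nat_lit 0x0) (nat_lit 0x1000080019000ce0074003a000000000000000000000000000) := Q_23 (nat_lit 143) (C_23 L67391 (C_23 L67397 (C_23 L67401 N_23))) (by decide +kernel)
theorem L67403 : W_23 (nat_lit 10) (nat_lit 0x600020001000080000000000000000000000000000000) (nat_lit 0x0) (nat_lit 0xf00079801dc00ce0074003a000000000000000000000000000) := Q_23 (nat_lit 162) (C_23 L67388 (C_23 L4922 (C_23 L67402 (C_23 L67302 N_23)))) (by decide +kernel)
theorem L67404 : W_23 (nat_lit 2) (nat_lit 0x300008000600160001000080000000000000000000000000000000) (nat_lit 0x0) (nat_lit 0x2000000000000000010000800000000000000000000000000000000000) := D_23 (nat_lit 160) (nat_lit 143) (nat_lit 229) (nat_lit 4) (nat_lit 8) (nat_lit 12) (nat_lit 4) (nat_lit 8) (nat_lit 13) (by decide +kernel)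
theorem L67405 : W_23 (nat_lit 3) (nat_lit 0x200008000600160001000080000000000000000000000000000000) (nat_lit 0x0) (nat_lit 0x6000100000000000010000800000000000000000000000000000000000) := T_23 (nat_lit 212) (nat_lit 230) (nat_lit 7) (nat_lit 8) (nat_lit 9) L67404 (by decide +kernel)
theorem L67406 : W_23 (nat_lit 4) (nat_lit 0x200008000600060001000080000000000000000000000000000000) (nat_lit 0x0) (nat_lit 0x6000100000000000190000800000000000000000000000000000000000) := T_23 (nat_lit 164) (nat_lit 163) (nat_lit 1) (nat_lit 11) (nat_lit 9) L67405 (by decide +kernel)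
theorem L67407 : W_23 (nat_lit 5) (nat_lit 0x8000600060001000080000000000000000000000000000000) (nat_lit 0x0) (nat_lit 0x6000300010000000190000800000000000000000000000000000000000) := T_23 (nat_lit 213) (nat_lit 196) (nat_lit 7) (nat_lit 8) (nat_lit 8) L67406 (by decide +kernel)
theorem L67408 : W_23 (nat_lit 2) (nat_lit 0x100008000600060001000080000000000000000000000000000000) (nat_lit 0x0) (nat_lit 0x2000000000000000010000800000000000000000000000000000000000) := D_23 (nat_lit 160) (nat_lit 143) (nat_lit 229) (nat_lit 4) (nat_lit 8) (nat_lit 12) (nat_lit 4) (nat_lit 8) (nat_lit 13) (by decide +kernel)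
theorem L67409 : W_23 (nat_lit 2) (nat_lit 0x100008000600060001000080000000000000000000000000000000) (nat_lit 0x0) (nat_lit 0x2000000000000800010000000000000000000000000000000000000000) := D_23 (nat_lit 229) (nat_lit 160) (nat_lit 179) (nat_lit 4) (nat_lit 8) (nat_lit 13) (nat_lit 6) (nat_lit 8) (nat_lit 13) (by decide +kernel)
theorem L67410 : W_23 (nat_lit 2) (nat_lit 0x2000180008000600060001000180000000000000000000000000000000) (nat_lit 0x0) (nat_lit 0x80004000200000000000000000000000000000000000000000000000000000) := D_23 (nat_lit 230) (nat_lit 213) (nat_lit 247) (nat_lit 7) (nat_lit 8) (nat_lit 9) (nat_lit 7) (nat_lit 8) (nat_lit 10) (by decide +kernel)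
theorem L67411 : W_23 (nat_lit 3) (nat_lit 0x180008000600060001000180000000000000000000000000000000) (nat_lit 0x0) (nat_lit 0x80006000200000000800000000000000000000000000000000000000000000) := T_23 (nat_lit 229) (nat_lit 179) (nat_lit 6) (nat_lit 8) (nat_lit 13) L67410 (by decide +kernel)
theorem L67412 : W_23 (nat_lit 4) (nat_lit 0x100008000600060001000180000000000000000000000000000000) (nat_lit 0x0) (nat_lit 0x80007000280000000800000000000000000000000000000000000000000000) := T_23 (nat_lit 211) (nat_lit 228) (nat_lit 5) (nat_lit 8) (nat_lit 9) L67411 (by decide +kernel)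
theorem L67413 : W_23 (nat_lit 5) (nat_lit 0x100008000600060001000080000000000000000000000000000000) (nat_lit 0x0) (nat_lit 0x80007000280000000800000000000100008000000000000000000000000000) := T_23 (nat_lit 128) (nat_lit 111) (nat_lit 6) (nat_lit 8) (nat_lit 10) L67412 (by decide +kernel)
theorem L67414 : W_23 (nat_lit 2) (nat_lit 0x3800080016000fc005000180000000000000000000000000000000) (nat_lit 0x0) (nat_lit 0x700000000000000000000000000000000000) := D_23 (nat_lit 141) (nat_lit 142) (nat_lit 140) (nat_lit 0) (nat_lit 9) (nat_lit 9) (nat_lit 0) (nat_lit 8) (nat_lit 9) (by decide +kernel)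
theorem L67415 : W_23 (nat_lit 3) (nat_lit 0x3800080016000f8005000180000000000000000000000000000000) (nat_lit 0x0) (nat_lit 0x6000700000000000000000000000000000000000) := T_23 (nat_lit 158) (nat_lit 157) (nat_lit 3) (nat_lit 4) (nat_lit 9) L67414 (by decide +kernel)
theorem L67416 : W_23 (nat_lit 4) (nat_lit 0x3800080016000f0005000180000000000000000000000000000000) (nat_lit 0x0) (nat_lit 0x80000e000700000000000000000000000000000000000) := T_23 (nat_lit 159) (nat_lit 179) (nat_lit 3) (nat_lit 6) (nat_lit 9) L67415 (by decide +kernel)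
theorem L67417 : W_23 (nat_lit 5) (nat_lit 0x3800080006000f0005000180000000000000000000000000000000) (nat_lit 0x0) (nat_lit 0x380000e000700000000000000000000000000000000000) := T_23 (nat_lit 180) (nat_lit 181) (nat_lit 3) (nat_lit 7) (nat_lit 9) L67416 (by decide +kernel)
theorem L67418 : W_23 (nat_lit 6) (nat_lit 0x3800080006000f0001000180000000000000000000000000000000) (nat_lit 0x0) (nat_lit 0x380000e00c700000000000000000000000000000000000) := T_23 (nat_lit 146) (nat_lit 147) (nat_lit 2) (nat_lit 7) (nat_lit 9) L67417 (by decide +kernel)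
theorem L67419 : W_23 (nat_lit 7) (nat_lit 0x380008000600070001000180000000000000000000000000000000) (nat_lit 0x0) (nat_lit 0x380018e00c700000000000000000000000000000000000) := T_23 (nat_lit 163) (nat_lit 164) (nat_lit 1) (nat_lit 11) (nat_lit 9) L67418 (by decide +kernel)
theorem L67420 : W_23 (nat_lit 8) (nat_lit 0x380008000600060001000180000000000000000000000000000000) (nat_lit 0x0) (nat_lit 0x380019e00cf00000000000000000000000000000000000) := T_23 (nat_lit 160) (nat_lit 143) (nat_lit 4) (nat_lit 8) (nat_lit 12) L67419 (by decide +kernel)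
theorem L67421 : W_23 (nat_lit 9) (nat_lit 0x300008000600060001000180000000000000000000000000000000) (nat_lit 0x0) (nat_lit 0x100008000000380019e00cf00000000000000000000000000000000000) := T_23 (nat_lit 211) (nat_lit 228) (nat_lit 5) (nat_lit 8) (nat_lit 9) L67420 (by decide +kernel)
theorem L67422 : W_23 (nat_lit 10) (nat_lit 0x300008000600060001000080000000000000000000000000000000) (nat_lit 0x0) (nat_lit 0x100008000000380019e00cf00100008000000000000000000000000000) := T_23 (nat_lit 128) (nat_lit 111) (nat_lit 6) (nat_lit 8) (nat_lit 10) L67421 (by decide +kernel)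
theorem L67423 : W_23 (nat_lit 11) (nat_lit 0x100008000600060001000080000000000000000000000000000000) (nat_lit 0x0) (nat_lit 0x500028000000380019e00cf00100008000000000000000000000000000) := T_23 (nat_lit 213) (nat_lit 230) (nat_lit 7) (nat_lit 8) (nat_lit 9) L67422 (by decide +kernel)
theorem L67424 : W_23 (nat_lit 12) (nat_lit 0x8000600060001000080000000000000000000000000000000) (nat_lit 0x0) (nat_lit 0x8000700038000000380019e00cf00100008000000000000000000000000000) := Q_23 (nat_lit 212) (C_23 L67408 (C_23 L67409 (C_23 L67413 (C_23 L67423 N_23)))) (by decide +kernel)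
theorem L67425 : W_23 (nat_lit 2) (nat_lit 0x8000600060001000080000000000000000000000000000000) (nat_lit 0x0) (nat_lit 0x200010000800000000000000000000000000000000000000000000) := D_23 (nat_lit 196) (nat_lit 179) (nat_lit 213) (nat_lit 7) (nat_lit 8) (nat_lit 7) (nat_lit 7) (nat_lit 8) (nat_lit 8) (by decide +kernel)
theorem L67426 : W_23 (nat_lit 2) (nat_lit 0x100008000e00170001000180000000000000000000000000000000) (nat_lit 0x0) (nat_lit 0x100000c000000000000000000000000000000000000000) := D_23 (nat_lit 159) (nat_lit 180) (nat_lit 158) (nat_lit 3) (nat_lit 6) (nat_lit 9) (nat_lit 3) (nat_lit 5) (nat_lit 9) (by decide +kernel)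
theorem L67427 : W_23 (nat_lit 3) (nat_lit 0x100008000e00160001000180000000000000000000000000000000) (nat_lit 0x0) (nat_lit 0x100001c000800000000000000000000000000000000000) := T_23 (nat_lit 160) (nat_lit 143) (nat_lit 4) (nat_lit 8) (nat_lit 12) L67426 (by decide +kernel)
theorem L67428 : W_23 (nat_lit 4) (nat_lit 0x100008000e00160001000080000000000000000000000000000000) (nat_lit 0x0) (nat_lit 0x100001c000800100008000000000000000000000000000) := T_23 (nat_lit 128) (nat_lit 111) (nat_lit 6) (nat_lit 8) (nat_lit 10) L67427 (by decide +kernel)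
theorem L67429 : W_23 (nat_lit 5) (nat_lit 0x8000e00160001000080000000000000000000000000000000) (nat_lit 0x0) (nat_lit 0x200010000000100001c000800100008000000000000000000000000000) := T_23 (nat_lit 212) (nat_lit 229) (nat_lit 6) (nat_lit 8) (nat_lit 13) L67428 (by decide +kernel)
theorem L67430 : W_23 (nat_lit 6) (nat_lit 0x8000600160001000080000000000000000000000000000000) (nat_lit 0x0) (nat_lit 0x200010001000180001c000800100008000000000000000000000000000) := T_23 (nat_lit 179) (nat_lit 196) (nat_lit 7) (nat_lit 8) (nat_lit 7) L67429 (by decide +kernel)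
theorem L67431 : W_23 (nat_lit 7) (nat_lit 0x8000600060001000080000000000000000000000000000000) (nat_lit 0x0) (nat_lit 0x200010001000180019c000800100008000000000000000000000000000) := T_23 (nat_lit 164) (nat_lit 163) (nat_lit 1) (nat_lit 11) (nat_lit 9) L67430 (by decide +kernel)
theorem L67432 : W_23 (nat_lit 13) (nat_lit 0x600060001000080000000000000000000000000000000) (nat_lit 0x0) (nat_lit 0x8000700038001800380019e00cf00100008000000000000000000000000000) := Q_23 (nat_lit 195) (C_23 L67407 (C_23 L67424 (C_23 L67425 (C_23 L67431 N_23)))) (by decide +kernel)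
theorem L67433 : W_23 (nat_lit 2) (nat_lit 0x6000e0001000180000000000000000000000000000000) (nat_lit 0x0) (nat_lit 0x180010000000000000000000000000000000000000000) := D_23 (nat_lit 176) (nat_lit 175) (nat_lit 160) (nat_lit 2) (nat_lit 5) (nat_lit 10) (nat_lit 1) (nat_lit 10) (nat_lit 9) (by decide +kernel)
theorem L67434 : W_23 (nat_lit 3) (nat_lit 0x600060001000180000000000000000000000000000000) (nat_lit 0x0) (nat_lit 0x180190000000000000000000000000000000000000000) := T_23 (nat_lit 163) (nat_lit 164) (nat_lit 1) (nat_lit 11) (nat_lit 9) L67433 (by decide +kernel)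
theorem L67435 : W_23 (nat_lit 4) (nat_lit 0x600060001000080000000000000000000000000000000) (nat_lit 0x0) (nat_lit 0x180190000000100008000000000000000000000000000) := T_23 (nat_lit 128) (nat_lit 111) (nat_lit 6) (nat_lit 8) (nat_lit 10) L67434 (by decide +kernel)
theorem L67436 : W_23 (nat_lit 2) (nat_lit 0x3f00068001000180000000000000000000000000000000) (nat_lit 0x0) (nat_lit 0xe0000000000000000000000000000000000000000000000000) := D_23 (nat_lit 198) (nat_lit 197) (nat_lit 199) (nat_lit 3) (nat_lit 7) (nat_lit 10) (nat_lit 3) (nat_lit 8) (nat_lit 10) (by decide +kernel)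
theorem L67437 : W_23 (nat_lit 3) (nat_lit 0x1f00068001000180000000000000000000000000000000) (nat_lit 0x0) (nat_lit 0xe0006000000000000000000000000000000000000000000000) := T_23 (nat_lit 181) (nat_lit 182) (nat_lit 0) (nat_lit 12) (nat_lit 10) L67436 (by decide +kernel)
theorem L67438 : W_23 (nat_lit 4) (nat_lit 0xf00068001000180000000000000000000000000000000) (nat_lit 0x0) (nat_lit 0xe0007000010000000000000000000000000000000000000000) := T_23 (nat_lit 180) (nat_lit 160) (nat_lit 3) (nat_lit 6) (nat_lit 9) L67437 (by decide +kernel)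
theorem L67439 : W_23 (nat_lit 5) (nat_lit 0xf00060001000180000000000000000000000000000000) (nat_lit 0x0) (nat_lit 0xe000700001c000000000000000000000000000000000000000) := T_23 (nat_lit 159) (nat_lit 158) (nat_lit 0) (nat_lit 9) (nat_lit 10) L67438 (by decide +kernel)
theorem L67440 : W_23 (nat_lit 6) (nat_lit 0x700060001000180000000000000000000000000000000) (nat_lit 0x0) (nat_lit 0xf000780001c000000000000000000000000000000000000000) := T_23 (nat_lit 179) (nat_lit 196) (nat_lit 7) (nat_lit 8) (nat_lit 7) L67439 (by decide +kernel)
theorem L67441 : W_23 (nat_lit 7) (nat_lit 0x700060001000080000000000000000000000000000000) (nat_lit 0x0) (nat_lit 0xf000780001c000000100008000000000000000000000000000) := T_23 (nat_lit 128) (nat_lit 111) (nat_lit 6) (nat_lit 8) (nat_lit 10) L67440 (by decide +kernel)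
theorem L67442 : W_23 (nat_lit 8) (nat_lit 0x600060001000080000000000000000000000000000000) (nat_lit 0x0) (nat_lit 0xf000798001c000000100008000000000000000000000000000) := T_23 (nat_lit 176) (nat_lit 175) (nat_lit 2) (nat_lit 5) (nat_lit 10) L67441 (by decide +kernel)
theorem L67443 : W_23 (nat_lit 14) (nat_lit 0x600020001000080000000000000000000000000000000) (nat_lit 0x0) (nat_lit 0x800070003800f80079801de00cf00100008000000000000000000000000000) := Q_23 (nat_lit 162) (C_23 L4922 (C_23 L67432 (C_23 L67435 (C_23 L67442 N_23)))) (by decide +kernel)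
theorem L67444 : W_23 (nat_lit 15) (nat_lit 0x600000001000080000000000000000000000000000000) (nat_lit 0x0) (nat_lit 0x800070003800f80079803fe01cf00f4007a002800000000000000000000000) := Q_23 (nat_lit 161) (C_23 L67389 (C_23 L67403 (C_23 L4895 (C_23 L4960 (C_23 L67443 N_23))))) (by decide +kernel)
theorem L67445 : W_23 (nat_lit 18) (nat_lit 0x200000001000080000000000000000000000000000000) (nat_lit 0x0) (nat_lit 0x1e001fa00fd01fee07df07ffc1cfc0f7e07bc02dc002e000000000000000000) := Q_23 (nat_lit 178) (C_23 L67283 (C_23 L4869 (C_23 L67290 (C_23 L67299 (C_23 L5932 (C_23 L4896 (C_23 L67444 N_23))))))) (by decide +kernel)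
end Crest.Agent.Helper32.Snaky.R1_0
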