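import Crest.Agent.Helper32.Snaky.Gen.R1_0_p2
set_option autoImplicit false
set_option maxRecDepth 100000
set_option linter.all false
set_option Elab.async false
namespace Crest.Agent.Helper32.Snaky.R1_0
@[reducible] def W_24 (d M Bz Z : Nat) : Prop := Crest.Agent.Helper32.Snaky.Wins (nat_lit 17) d M Bz Z
theorem D_24 {d M Bz Z : Nat} (m t1 t2 o1 x1 y1 o2 x2 y2 : Nat) (h : Crest.Agent.Helper32.Snaky.chkDoubleC (nat_lit 17) d M Bz Z m t1 t2 o1 x1 y1 o2 x2 y2 = true) : W_24 d M Bz Z := Crest.Agent.Helper32.Snaky.doubleC m t1 t2 o1 x1 y1 o2 x2 y2 h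
theorem T_24 {d M Bz Z cd cM cBz cZ : Nat} (m t o x y : Nat) (child : W_24 cd cM cBz cZ) (h : Crest.Agent.Helper32.Snaky.chkThreatC (nat_lit 17) d M Bz Z cd cM cBz cZ m t o x y = true) : W_24 d M Bz Z := Crest.Agent.Helper32.Snaky.threatC m t o x y child h
theorem Q_24 {d M Bz Z : Nat} (m : Nat) {l : List Crest.Agent.Helper32.Snaky.Spec} (kids : Crest.Agent.Helper32.Snaky.AllWins (nat_lit 17) l) (h : Crest.Agent.Helper32.Snaky.chkQuiet d M Bz Z m l = true) : W_24 d M Bz Z := Crest.Agent.Helper32.Snaky.quiet m kids h
theorem C_24 {cd cM cBz cZ : Nat} {l : List Crest.Agent.Helper32.Snaky.Spec} (h : W_24 cd cM cBz cZ) (hl : Crest.Agent.Helper32.Snaky.AllWins (nat_lit 17) l) : Crest.Agent.Helper32.Snaky.AllWins (nat_lit 17) ((cd, cM, cBz, cZ) :: l) := Crest.Agent.Helper32.Snaky.AllWins.cons h hl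
theorem N_24 : Crest.Agent.Helper32.Snaky.AllWins (nat_lit 17) [] := Crest.Agent.Helper32.Snaky.AllWins.nil
theorem L5703 : W_24 (nat_lit 4) (nat_lit 0x1000000014000f00058001000080000000000000000000000000000000) (nat_lit 0x0) (nat_lit 0xc0006000b000000000000000000000000000000000000000000000000) := T_24 (nat_lit 193) (nat_lit 192) (nat_lit 1) (nat_lit 9) (nat_lit 10) L4737 (by decide +kernel)
theorem L5704 : W_24 (nat_lit 5) (nat_lit 0x1000000014000f00018001000080000000000000000000000000000000) (nat_lit 0x0) (nat_lit 0xc0006000b0000000c0000000000000000000000000000000000000000) := T_24 (nat_lit 162) (nat_lit 163) (nat_lit 2) (nat_lit 6) (nat_lit 10) L5703 (by decide +kernel)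
theorem L5705 : W_24 (nat_lit 6) (nat_lit 0x1000000004000f00018001000080000000000000000000000000000000) (nat_lit 0x0) (nat_lit 0xc0006003b0000000c0000000000000000000000000000000000000000) := T_24 (nat_lit 196) (nat_lit 197) (nat_lit 3) (nat_lit 6) (nat_lit 10) L5704 (by decide +kernel)
theorem L5706 : W_24 (nat_lit 7) (nat_lit 0x4000f00018001000080000000000000000000000000000000) (nat_lit 0x0) (nat_lit 0x1c000e003b0000000c0000000000000000000000000000000000000000) := T_24 (nat_lit 228) (nat_lit 211) (nat_lit 4) (nat_lit 7) (nat_lit 13) L5705 (by decide +kernel)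
theorem L5707 : W_24 (nat_lit 8) (nat_lit 0xf00018001000080000000000000000000000000000000) (nat_lit 0x0) (nat_lit 0x1c000e003f0000000c0000800000000000000000000000000000000000) := T_24 (nat_lit 194) (nat_lit 143) (nat_lit 6) (nat_lit 7) (nat_lit 11) L5706 (by decide +kernel)
theorem L5708 : W_24 (nat_lit 9) (nat_lit 0xf00010001000080000000000000000000000000000000) (nat_lit 0x0) (nat_lit 0x1c000e003f0000000cc000800000000000000000000000000000000000) := T_24 (nat_lit 159) (nat_lit 158) (nat_lit 0) (nat_lit 9) (nat_lit 10) L5707 (by decide +kernel)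
theorem L5709 : W_24 (nat_lit 2) (nat_lit 0x2000f00010001000080000000000000000000000000000000) (nat_lit 0x0) (nat_lit 0x4000000000000800040000000000000000000000000000000) := D_24 (nat_lit 143) (nat_lit 194) (nat_lit 126) (nat_lit 6) (nat_lit 7) (nat_lit 11) (nat_lit 5) (nat_lit 7) (nat_lit 7) (by decide +kernel)
theorem L5710 : W_24 (nat_lit 3) (nat_lit 0xf00010001000080000000000000000000000000000000) (nat_lit 0x0) (nat_lit 0x7000000000000800040000000000000000000000000000000) := T_24 (nat_lit 193) (nat_lit 192) (nat_lit 1) (nat_lit 9) (nat_lit 10) L5709 (by decide +kernel)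
theorem L5711 : W_24 (nat_lit 2) (nat_lit 0x2001e0014800f00018001000080000000000000000000000000000000) (nat_lit 0x0) (nat_lit 0x100010000400000000000000000000000000000000000000000000000) := D_24 (nat_lit 208) (nat_lit 224) (nat_lit 190) (nat_lit 1) (nat_lit 7) (nat_lit 12) (nat_lit 0) (nat_lit 7) (nat_lit 12) (by decide +kernel)
theorem L5712 : W_24 (nat_lit 3) (nat_lit 0x2001e0014000f00018001000080000000000000000000000000000000) (nat_lit 0x0) (nat_lit 0x100010001c00000000000000000000000000000000000000000000000) := T_24 (nat_lit 191) (nat_lit 192) (nat_lit 0) (nat_lit 8) (nat_lit 12) L5711 (by decide +kernel)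
theorem L5713 : W_24 (nat_lit 4) (nat_lit 0x1e0014000f00018001000080000000000000000000000000000000) (nat_lit 0x0) (nat_lit 0x700010001c00000000000000000000000000000000000000000000000) := T_24 (nat_lit 225) (nat_lit 226) (nat_lit 1) (nat_lit 8) (nat_lit 12) L5712 (by decide +kernel)
theorem L5714 : W_24 (nat_lit 5) (nat_lit 0x1c0014000f00018001000080000000000000000000000000000000) (nat_lit 0x0) (nat_lit 0x700030009c00000000000000000000000000000000000000000000000) := T_24 (nat_lit 209) (nat_lit 195) (nat_lit 2) (nat_lit 5) (nat_lit 12) L5713 (by decide +kernel)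
theorem L5715 : W_24 (nat_lit 6) (nat_lit 0x180014000f00018001000080000000000000000000000000000000) (nat_lit 0x0) (nat_lit 0xf00070009c00000000000000000000000000000000000000000000000) := T_24 (nat_lit 210) (nat_lit 227) (nat_lit 5) (nat_lit 7) (nat_lit 9) L5714 (by decide +kernel)
theorem L5716 : W_24 (nat_lit 7) (nat_lit 0x80014000f00018001000080000000000000000000000000000000) (nat_lit 0x0) (nat_lit 0x2f00170009c00000000000000000000000000000000000000000000000) := T_24 (nat_lit 212) (nat_lit 229) (nat_lit 7) (nat_lit 7) (nat_lit 9) L5715 (by decide +kernel)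
theorem L5717 : W_24 (nat_lit 8) (nat_lit 0x80004000f00018001000080000000000000000000000000000000) (nat_lit 0x0) (nat_lit 0x2f00170039c00000000000000000000000000000000000000000000000) := T_24 (nat_lit 196) (nat_lit 197) (nat_lit 3) (nat_lit 6) (nat_lit 10) L5716 (by decide +kernel)
theorem L5718 : W_24 (nat_lit 9) (nat_lit 0x4000f00018001000080000000000000000000000000000000) (nat_lit 0x0) (nat_lit 0x3f001f0039c00000000000000000000000000000000000000000000000) := T_24 (nat_lit 211) (nat_lit 228) (nat_lit 4) (nat_lit 7) (nat_lit 13) L5717 (by decide +kernel)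
theorem L5719 : W_24 (nat_lit 10) (nat_lit 0xf00018001000080000000000000000000000000000000) (nat_lit 0x0) (nat_lit 0x3f001f003dc00000000000800000000000000000000000000000000000) := T_24 (nat_lit 194) (nat_lit 143) (nat_lit 6) (nat_lit 7) (nat_lit 11) L5718 (by decide +kernel)
theorem L5720 : W_24 (nat_lit 11) (nat_lit 0xf00010001000080000000000000000000000000000000) (nat_lit 0x0) (nat_lit 0x3f001f003dc0000000c000800000000000000000000000000000000000) := T_24 (nat_lit 159) (nat_lit 158) (nat_lit 0) (nat_lit 9) (nat_lit 10) L5719 (by decide +kernel)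
theorem L5721 : W_24 (nat_lit 2) (nat_lit 0x1e0014000f00058001000080000000000000000000000000000000) (nat_lit 0x0) (nat_lit 0x600000002000000000000000000000000000000000000000000000000) := D_24 (nat_lit 226) (nat_lit 225) (nat_lit 193) (nat_lit 1) (nat_lit 8) (nat_lit 12) (nat_lit 5) (nat_lit 6) (nat_lit 9) (by decide +kernel)
theorem L5722 : W_24 (nat_lit 3) (nat_lit 0x1c0014000f00058001000080000000000000000000000000000000) (nat_lit 0x0) (nat_lit 0x60002000a000000000000000000000000000000000000000000000000) := T_24 (nat_lit 209) (nat_lit 195) (nat_lit 2) (nat_lit 5) (nat_lit 12) L5721 (by decide +kernel)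
theorem L5723 : W_24 (nat_lit 4) (nat_lit 0x180014000f00058001000080000000000000000000000000000000) (nat_lit 0x0) (nat_lit 0xe0006000a000000000000000000000000000000000000000000000000) := T_24 (nat_lit 210) (nat_lit 227) (nat_lit 5) (nat_lit 7) (nat_lit 9) L5722 (by decide +kernel)
theorem L5724 : W_24 (nat_lit 5) (nat_lit 0x80014000f00058001000080000000000000000000000000000000) (nat_lit 0x0) (nat_lit 0x2e0016000a000000000000000000000000000000000000000000000000) := T_24 (nat_lit 212) (nat_lit 229) (nat_lit 7) (nat_lit 7) (nat_lit 9) L5723 (by decide +kernel)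
theorem L5725 : W_24 (nat_lit 6) (nat_lit 0x80004000f00058001000080000000000000000000000000000000) (nat_lit 0x0) (nat_lit 0x2e0016003a000000000000000000000000000000000000000000000000) := T_24 (nat_lit 196) (nat_lit 197) (nat_lit 3) (nat_lit 6) (nat_lit 10) L5724 (by decide +kernel)
theorem L5726 : W_24 (nat_lit 7) (nat_lit 0x4000f00058001000080000000000000000000000000000000) (nat_lit 0x0) (nat_lit 0x3e001e003a000000000000000000000000000000000000000000000000) := T_24 (nat_lit 211) (nat_lit 228) (nat_lit 4) (nat_lit 7) (nat_lit 13) L5725 (by decide +kernel)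
theorem L5727 : W_24 (nat_lit 8) (nat_lit 0xf00058001000080000000000000000000000000000000) (nat_lit 0x0) (nat_lit 0x3e001e003e000000000000800000000000000000000000000000000000) := T_24 (nat_lit 194) (nat_lit 143) (nat_lit 6) (nat_lit 7) (nat_lit 11) L5726 (by decide +kernel)
theorem L5728 : W_24 (nat_lit 9) (nat_lit 0xf00050001000080000000000000000000000000000000) (nat_lit 0x0) (nat_lit 0x3e001e003e00000000c000800000000000000000000000000000000000) := T_24 (nat_lit 159) (nat_lit 158) (nat_lit 0) (nat_lit 9) (nat_lit 10) L5727 (by decide +kernel)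
theorem L5729 : W_24 (nat_lit 10) (nat_lit 0xf00010001000080000000000000000000000000000000) (nat_lit 0x0) (nat_lit 0x3e001e003e0000000cc000800000000000000000000000000000000000) := T_24 (nat_lit 162) (nat_lit 163) (nat_lit 2) (nat_lit 6) (nat_lit 10) L5728 (by decide +kernel)
theorem L5730 : W_24 (nat_lit 2) (nat_lit 0x6001a000f00058001000080000000000000000000000000000000) (nat_lit 0x0) (nat_lit 0x1000180000000000000000000000000000000000000000000000000000) := D_24 (nat_lit 211) (nat_lit 228) (nat_lit 212) (nat_lit 7) (nat_lit 6) (nat_lit 9) (nat_lit 2) (nat_lit 5) (nat_lit 12) (by decide +kernel)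
theorem L5731 : W_24 (nat_lit 3) (nat_lit 0x60012000f00058001000080000000000000000000000000000000) (nat_lit 0x0) (nat_lit 0x100018000c000000000000000000000000000000000000000000000000) := T_24 (nat_lit 195) (nat_lit 194) (nat_lit 1) (nat_lit 9) (nat_lit 11) L5730 (by decide +kernel)
theorem L5732 : W_24 (nat_lit 4) (nat_lit 0x40012000f00058001000080000000000000000000000000000000) (nat_lit 0x0) (nat_lit 0x14001a000c000000000000000000000000000000000000000000000000) := T_24 (nat_lit 209) (nat_lit 226) (nat_lit 5) (nat_lit 6) (nat_lit 9) L5731 (by decide +kernel)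
theorem L5733 : W_24 (nat_lit 5) (nat_lit 0x12000f00058001000080000000000000000000000000000000) (nat_lit 0x0) (nat_lit 0x1c001e000c000000000000000000000000000000000000000000000000) := T_24 (nat_lit 210) (nat_lit 227) (nat_lit 6) (nat_lit 6) (nat_lit 13) L5732 (by decide +kernel)
theorem L5734 : W_24 (nat_lit 6) (nat_lit 0x10000f00058001000080000000000000000000000000000000) (nat_lit 0x0) (nat_lit 0x1c001e000f000000000000000000000000000000000000000000000000) := T_24 (nat_lit 193) (nat_lit 192) (nat_lit 1) (nat_lit 9) (nat_lit 10) L5733 (by decide +kernel)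
theorem L5735 : W_24 (nat_lit 7) (nat_lit 0x10000f00050001000080000000000000000000000000000000) (nat_lit 0x0) (nat_lit 0x1c001e000f00000000c000000000000000000000000000000000000000) := T_24 (nat_lit 159) (nat_lit 158) (nat_lit 0) (nat_lit 9) (nat_lit 10) L5734 (by decide +kernel)
theorem L5736 : W_24 (nat_lit 8) (nat_lit 0x10000f00010001000080000000000000000000000000000000) (nat_lit 0x0) (nat_lit 0x1c001e000f0000000cc000000000000000000000000000000000000000) := T_24 (nat_lit 162) (nat_lit 163) (nat_lit 2) (nat_lit 6) (nat_lit 10) L5735 (by decide +kernel)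
theorem L5737 : W_24 (nat_lit 9) (nat_lit 0xf00010001000080000000000000000000000000000000) (nat_lit 0x0) (nat_lit 0x1c001e003f0000000cc000000000000000000000000000000000000000) := T_24 (nat_lit 196) (nat_lit 197) (nat_lit 3) (nat_lit 6) (nat_lit 10) L5736 (by decide +kernel)
theorem L5738 : W_24 (nat_lit 2) (nat_lit 0x40012000f00010001000080000000000000000000000000000000) (nat_lit 0x0) (nat_lit 0x8000800040000000000000000000000000000000) := D_24 (nat_lit 143) (nat_lit 126) (nat_lit 159) (nat_lit 5) (nat_lit 7) (nat_lit 7) (nat_lit 6) (nat_lit 6) (nat_lit 12) (by decide +kernel)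
theorem L5739 : W_24 (nat_lit 3) (nat_lit 0x12000f00010001000080000000000000000000000000000000) (nat_lit 0x0) (nat_lit 0x800040000000000008000800040000000000000000000000000000000) := T_24 (nat_lit 210) (nat_lit 227) (nat_lit 6) (nat_lit 6) (nat_lit 13) L5738 (by decide +kernel)
theorem L5740 : W_24 (nat_lit 4) (nat_lit 0x2000f00010001000080000000000000000000000000000000) (nat_lit 0x0) (nat_lit 0x800040030000000008000800040000000000000000000000000000000) := T_24 (nat_lit 196) (nat_lit 197) (nat_lit 3) (nat_lit 6) (nat_lit 10) L5739 (by decide +kernel)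
theorem L5741 : W_24 (nat_lit 5) (nat_lit 0xf00010001000080000000000000000000000000000000) (nat_lit 0x0) (nat_lit 0x800040033000000008000800040000000000000000000000000000000) := T_24 (nat_lit 193) (nat_lit 192) (nat_lit 1) (nat_lit 9) (nat_lit 10) L5740 (by decide +kernel)
theorem L5742 : W_24 (nat_lit 12) (nat_lit 0xf00000001000080000000000000000000000000000000) (nat_lit 0x0) (nat_lit 0x3f001f003fc000000dc000800040000000000000000000000000000000) := Q_24 (nat_lit 160) (C_24 L5708 (C_24 L5710 (C_24 L5720 (C_24 L5729 (C_24 L5737 (C_24 L5741 N_24)))))) (by decide +kernel)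
theorem L5743 : W_24 (nat_lit 2) (nat_lit 0x1000f80040001000080000000000000000000000000000000) (nat_lit 0x0) (nat_lit 0x38000000000000000000000000000000000000000000000000) := D_24 (nat_lit 196) (nat_lit 197) (nat_lit 195) (nat_lit 3) (nat_lit 6) (nat_lit 10) (nat_lit 3) (nat_lit 5) (nat_lit 10) (by decide +kernel)
theorem L5744 : W_24 (nat_lit 3) (nat_lit 0x1000f00040001000080000000000000000000000000000000) (nat_lit 0x0) (nat_lit 0x38800080000000000000000000000000000000000000000000) := T_24 (nat_lit 175) (nat_lit 191) (nat_lit 1) (nat_lit 8) (nat_lit 10) L5743 (by decide +kernel)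
theorem L5745 : W_24 (nat_lit 4) (nat_lit 0x1000f00000001000080000000000000000000000000000000) (nat_lit 0x0) (nat_lit 0x388000800c0000000000000000000000000000000000000000) := T_24 (nat_lit 162) (nat_lit 163) (nat_lit 2) (nat_lit 6) (nat_lit 10) L5744 (by decide +kernel)
theorem L5746 : W_24 (nat_lit 5) (nat_lit 0xf00000001000080000000000000000000000000000000) (nat_lit 0x0) (nat_lit 0x3b8000800c0000000000000000000000000000000000000000) := T_24 (nat_lit 192) (nat_lit 193) (nat_lit 1) (nat_lit 9) (nat_lit 10) L5745 (by decide +kernel)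
theorem L5751 : W_24 (nat_lit 13) (nat_lit 0xe00000001000080000000000000000000000000000000) (nat_lit 0x0) (nat_lit 0x3f001f003fc001800de000800040000000000000000000000000000000) := Q_24 (nat_lit 176) (C_24 L5742 (C_24 L5746 (C_24 L5750 (C_24 L4767 (C_24 L5584 N_24))))) (by decide +kernel)
theorem L5752 : W_24 (nat_lit 2) (nat_lit 0x24001f00000001000080000000000000000000000000000000) (nat_lit 0x0) (nat_lit 0x1c0000000000000000000000000000000000000000) := D_24 (nat_lit 163) (nat_lit 162) (nat_lit 164) (nat_lit 2) (nat_lit 6) (nat_lit 10) (nat_lit 2) (nat_lit 7) (nat_lit 10) (by decide +kernel)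
theorem L5753 : W_24 (nat_lit 3) (nat_lit 0x24001e00000001000080000000000000000000000000000000) (nat_lit 0x0) (nat_lit 0x100001001c0000000000000000000000000000000000000000) := T_24 (nat_lit 176) (nat_lit 196) (nat_lit 3) (nat_lit 6) (nat_lit 10) L5752 (by decide +kernel)
theorem L5754 : W_24 (nat_lit 4) (nat_lit 0x4001e00000001000080000000000000000000000000000000) (nat_lit 0x0) (nat_lit 0x700001001c0000000000000000000000000000000000000000) := T_24 (nat_lit 197) (nat_lit 198) (nat_lit 3) (nat_lit 7) (nat_lit 10) L5753 (by decide +kernel)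
theorem L5755 : W_24 (nat_lit 5) (nat_lit 0x1e00000001000080000000000000000000000000000000) (nat_lit 0x0) (nat_lit 0x760001001c0000000000000000000000000000000000000000) := T_24 (nat_lit 194) (nat_lit 193) (nat_lit 1) (nat_lit 10) (nat_lit 10) L5754 (by decide +kernel)
theorem L5756 : W_24 (nat_lit 2) (nat_lit 0x24003e00000001000080000000000000000000000000000000) (nat_lit 0x0) (nat_lit 0x380000000000000000000000000000000000000000) := D_24 (nat_lit 164) (nat_lit 163) (nat_lit 165) (nat_lit 2) (nat_lit 7) (nat_lit 10) (nat_lit 2) (nat_lit 8) (nat_lit 10) (by decide +kernel)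
theorem L5757 : W_24 (nat_lit 3) (nat_lit 0x24001e00000001000080000000000000000000000000000000) (nat_lit 0x0) (nat_lit 0x8002000380000000000000000000000000000000000000000) := T_24 (nat_lit 181) (nat_lit 195) (nat_lit 1) (nat_lit 11) (nat_lit 10) L5756 (by decide +kernel)
theorem L5758 : W_24 (nat_lit 4) (nat_lit 0x4001e00000001000080000000000000000000000000000000) (nat_lit 0x0) (nat_lit 0x68002000380000000000000000000000000000000000000000) := T_24 (nat_lit 197) (nat_lit 198) (nat_lit 3) (nat_lit 7) (nat_lit 10) L5757 (by decide +kernel)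
theorem L5759 : W_24 (nat_lit 5) (nat_lit 0x1e00000001000080000000000000000000000000000000) (nat_lit 0x0) (nat_lit 0x6e002000380000000000000000000000000000000000000000) := T_24 (nat_lit 194) (nat_lit 193) (nat_lit 1) (nat_lit 10) (nat_lit 10) L5758 (by decide +kernel)
theorem L5760 : W_24 (nat_lit 2) (nat_lit 0x1f00080001000080000000000000000000000000000000) (nat_lit 0x0) (nat_lit 0x70000000000000000000000000000000000000000000000000) := D_24 (nat_lit 197) (nat_lit 198) (nat_lit 196) (nat_lit 3) (nat_lit 7) (nat_lit 10) (nat_lit 3) (nat_lit 6) (nat_lit 10) (by decide +kernel)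
theorem L5761 : W_24 (nat_lit 3) (nat_lit 0x1e00080001000080000000000000000000000000000000) (nat_lit 0x0) (nat_lit 0x70000100040000000000000000000000000000000000000000) := T_24 (nat_lit 176) (nat_lit 162) (nat_lit 2) (nat_lit 6) (nat_lit 10) L5760 (by decide +kernel)
theorem L5762 : W_24 (nat_lit 4) (nat_lit 0x1e00000001000080000000000000000000000000000000) (nat_lit 0x0) (nat_lit 0x700001001c0000000000000000000000000000000000000000) := T_24 (nat_lit 163) (nat_lit 164) (nat_lit 2) (nat_lit 7) (nat_lit 10) L5761 (by decide +kernel)
theorem L5763 : W_24 (nat_lit 8) (nat_lit 0xe00000001000080000000000000000000000000000000) (nat_lit 0x0) (nat_lit 0x7e0031c03ce000000000000000000000000000000000000000) := Q_24 (nat_lit 180) (C_24 L5755 (C_24 L5759 (C_24 L5762 (C_24 L4796 (C_24 L4802 N_24))))) (by decide +kernel)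
theorem L5764 : W_24 (nat_lit 5) (nat_lit 0xe00000001000080000000000000000000000000000000) (nat_lit 0x0) (nat_lit 0x760011001d8000800000000000000000000000000000000000) := Q_24 (nat_lit 180) (C_24 L5762 (C_24 L4777 N_24)) (by decide +kernel)
theorem L5765 : W_24 (nat_lit 2) (nat_lit 0x4003e00090001000080000000000000000000000000000000) (nat_lit 0x0) (nat_lit 0xe0000000000000000000000000000000000000000000000000) := D_24 (nat_lit 198) (nat_lit 197) (nat_lit 199) (nat_lit 3) (nat_lit 7) (nat_lit 10) (nat_lit 3) (nat_lit 8) (nat_lit 10) (by decide +kernel)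
theorem L5766 : W_24 (nat_lit 3) (nat_lit 0x4001e00090001000080000000000000000000000000000000) (nat_lit 0x0) (nat_lit 0xe8002000000000000000000000000000000000000000000000) := T_24 (nat_lit 181) (nat_lit 195) (nat_lit 1) (nat_lit 11) (nat_lit 10) L5765 (by decide +kernel)
theorem L5767 : W_24 (nat_lit 4) (nat_lit 0x1e00090001000080000000000000000000000000000000) (nat_lit 0x0) (nat_lit 0xec002000000000800000000000000000000000000000000000) := T_24 (nat_lit 194) (nat_lit 143) (nat_lit 6) (nat_lit 7) (nat_lit 11) L5766 (by decide +kernel)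
theorem L5768 : W_24 (nat_lit 5) (nat_lit 0x1e00010001000080000000000000000000000000000000) (nat_lit 0x0) (nat_lit 0xec002000180000800000000000000000000000000000000000) := T_24 (nat_lit 163) (nat_lit 164) (nat_lit 2) (nat_lit 7) (nat_lit 10) L5767 (by decide +kernel)
theorem L5769 : W_24 (nat_lit 6) (nat_lit 0x1e00000001000080000000000000000000000000000000) (nat_lit 0x0) (nat_lit 0xec002000198000800000000000000000000000000000000000) := T_24 (nat_lit 160) (nat_lit 159) (nat_lit 0) (nat_lit 10) (nat_lit 10) L5768 (by decide +kernel)
theorem L5770 : W_24 (nat_lit 7) (nat_lit 0xe00000001000080000000000000000000000000000000) (nat_lit 0x0) (nat_lit 0xee003000398000800000000000000000000000000000000000) := Q_24 (nat_lit 180) (C_24 L4777 (C_24 L5759 (C_24 L5769 (C_24 L4789 N_24)))) (by decide +kernel)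
theorem L5771 : W_24 (nat_lit 10) (nat_lit 0xe00000001000080000000000000000000000000000000) (nat_lit 0x0) (nat_lit 0x100008000cc00fc0031c03d8000800000000000000000000000000000000000) := Q_24 (nat_lit 180) (C_24 L4789 (C_24 L4813 (C_24 L4821 (C_24 L5762 N_24)))) (by decide +kernel)
theorem L5772 : W_24 (nat_lit 2) (nat_lit 0x200000000d000f80050001000080000000000000000000000000000000) (nat_lit 0x0) (nat_lit 0x3000008000000000000000000000000000000000000000) := D_24 (nat_lit 180) (nat_lit 159) (nat_lit 181) (nat_lit 0) (nat_lit 10) (nat_lit 10) (nat_lit 1) (nat_lit 11) (nat_lit 10) (by decide +kernel)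
theorem L5773 : W_24 (nat_lit 3) (nat_lit 0x200000000d000f80040001000080000000000000000000000000000000) (nat_lit 0x0) (nat_lit 0x3000018000800000000000000000000000000000000000) := T_24 (nat_lit 160) (nat_lit 143) (nat_lit 6) (nat_lit 7) (nat_lit 11) L5772 (by decide +kernel)
theorem L5774 : W_24 (nat_lit 4) (nat_lit 0xd000f80040001000080000000000000000000000000000000) (nat_lit 0x0) (nat_lit 0x2000100000003000018000800000000000000000000000000000000000) := T_24 (nat_lit 229) (nat_lit 212) (nat_lit 6) (nat_lit 8) (nat_lit 13) L5773 (by decide +kernel)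
theorem L5775 : W_24 (nat_lit 5) (nat_lit 0x9000f80040001000080000000000000000000000000000000) (nat_lit 0x0) (nat_lit 0x2000100004003040018000800000000000000000000000000000000000) := T_24 (nat_lit 194) (nat_lit 174) (nat_lit 3) (nat_lit 4) (nat_lit 10) L5774 (by decide +kernel)
theorem L5776 : W_24 (nat_lit 6) (nat_lit 0x1000f80040001000080000000000000000000000000000000) (nat_lit 0x0) (nat_lit 0x200010001c003040018000800000000000000000000000000000000000) := T_24 (nat_lit 195) (nat_lit 196) (nat_lit 3) (nat_lit 5) (nat_lit 10) L5775 (by decide +kernel)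
theorem L5777 : W_24 (nat_lit 7) (nat_lit 0x1000f00040001000080000000000000000000000000000000) (nat_lit 0x0) (nat_lit 0x200010001c8030c0018000800000000000000000000000000000000000) := T_24 (nat_lit 175) (nat_lit 191) (nat_lit 1) (nat_lit 8) (nat_lit 10) L5776 (by decide +kernel)
theorem L5778 : W_24 (nat_lit 8) (nat_lit 0xf00040001000080000000000000000000000000000000) (nat_lit 0x0) (nat_lit 0x200010001f8030c0018000800000000000000000000000000000000000) := T_24 (nat_lit 192) (nat_lit 193) (nat_lit 1) (nat_lit 9) (nat_lit 10) L5777 (by decide +kernel)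
theorem L5779 : W_24 (nat_lit 9) (nat_lit 0xf00000001000080000000000000000000000000000000) (nat_lit 0x0) (nat_lit 0x200010001f8030c00d8000800000000000000000000000000000000000) := T_24 (nat_lit 162) (nat_lit 163) (nat_lit 2) (nat_lit 6) (nat_lit 10) L5778 (by decide +kernel)
theorem L5785 : W_24 (nat_lit 10) (nat_lit 0xe00000001000080000000000000000000000000000000) (nat_lit 0x0) (nat_lit 0x200010001f8031c01de000800040002000000000000000000000000000) := Q_24 (nat_lit 176) (C_24 L5779 (C_24 L5584 (C_24 L5784 (C_24 L4847 N_24)))) (by decide +kernel)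
theorem L5786 : W_24 (nat_lit 10) (nat_lit 0xe00000001000080000000000000000000000000000000) (nat_lit 0x0) (nat_lit 0x100008000cc00fe0031c03d0000800000000000000000000000000000000000) := Q_24 (nat_lit 180) (C_24 L4789 (C_24 L4857 (C_24 L4861 (C_24 L5762 N_24)))) (by decide +kernel)
theorem L5787 : W_24 (nat_lit 5) (nat_lit 0x12000f00000001000080000000000000000000000000000000) (nat_lit 0x0) (nat_lit 0x400000010000dc000800040000000000000000000000000000000) := T_24 (nat_lit 162) (nat_lit 163) (nat_lit 2) (nat_lit 6) (nat_lit 10) L4873 (by decide +kernel)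
theorem L5788 : W_24 (nat_lit 6) (nat_lit 0x10000f00000001000080000000000000000000000000000000) (nat_lit 0x0) (nat_lit 0x400030010000dc000800040000000000000000000000000000000) := T_24 (nat_lit 193) (nat_lit 192) (nat_lit 1) (nat_lit 9) (nat_lit 10) L5787 (by decide +kernel)
theorem L5789 : W_24 (nat_lit 7) (nat_lit 0xf00000001000080000000000000000000000000000000) (nat_lit 0x0) (nat_lit 0x400330010000dc000800040000000000000000000000000000000) := T_24 (nat_lit 196) (nat_lit 197) (nat_lit 3) (nat_lit 6) (nat_lit 10) L5788 (by decide +kernel)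
theorem L5790 : W_24 (nat_lit 8) (nat_lit 0xe00000001000080000000000000000000000000000000) (nat_lit 0x0) (nat_lit 0x4003b8011800de000800040000000000000000000000000000000) := Q_24 (nat_lit 176) (C_24 L5746 (C_24 L5584 (C_24 L4767 (C_24 L5789 N_24)))) (by decide +kernel)
theorem L5794 : W_24 (nat_lit 5) (nat_lit 0xe00000001000080000000000000000000000000000000) (nat_lit 0x0) (nat_lit 0x3f80118001e000000000000000000000000000000000000000) := Q_24 (nat_lit 176) (C_24 L4774 (C_24 L5584 (C_24 L4767 (C_24 L5793 N_24)))) (by decide +kernel)
theorem L5795 : W_24 (nat_lit 14) (nat_lit 0x600000001000080000000000000000000000000000000) (nat_lit 0x0) (nat_lit 0x10000bf00df00ffc039c03de000800040002000000000000000000000000000) := Q_24 (nat_lit 179) (C_24 L5751 (C_24 L5763 (C_24 L5764 (C_24 L5770 (C_24 L5771 (C_24 L5785 (C_24 L5786 (C_24 L5790 (C_24 L5794 N_24))))))))) (by decide +kernel)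
theorem L5799 : W_24 (nat_lit 7) (nat_lit 0x10000e00000001000080000000000000000000000000000000) (nat_lit 0x0) (nat_lit 0x400230011000dc000800040000000000000000000000000000000) := T_24 (nat_lit 176) (nat_lit 197) (nat_lit 3) (nat_lit 6) (nat_lit 10) L5788 (by decide +kernel)
theorem L5800 : W_24 (nat_lit 8) (nat_lit 0xe00000001000080000000000000000000000000000000) (nat_lit 0x0) (nat_lit 0x400330011000fc000800040000000000000000000000000000000) := T_24 (nat_lit 196) (nat_lit 161) (nat_lit 7) (nat_lit 8) (nat_lit 7) L5799 (by decide +kernel)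
theorem L5801 : W_24 (nat_lit 9) (nat_lit 0x600000001000080000000000000000000000000000000) (nat_lit 0x0) (nat_lit 0x400770019001fc000800040000000000000000000000000000000) := Q_24 (nat_lit 179) (C_24 L4870 (C_24 L5798 (C_24 L5764 (C_24 L5800 N_24)))) (by decide +kernel)
theorem L5802 : W_24 (nat_lit 2) (nat_lit 0x600010001000080000000000000000000000000000000) (nat_lit 0x0) (nat_lit 0x4000000020000800000000000000000000000000000000000) := D_24 (nat_lit 194) (nat_lit 161) (nat_lit 143) (nat_lit 5) (nat_lit 8) (nat_lit 7) (nat_lit 6) (nat_lit 7) (nat_lit 11) (by decide +kernel)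
theorem L5803 : W_24 (nat_lit 2) (nat_lit 0xe00030001000080000000000000000000000000000000) (nat_lit 0x0) (nat_lit 0x3000008000000000000000000000000000000000000000) := D_24 (nat_lit 180) (nat_lit 159) (nat_lit 181) (nat_lit 0) (nat_lit 10) (nat_lit 10) (nat_lit 0) (nat_lit 11) (nat_lit 10) (by decide +kernel)
theorem L5804 : W_24 (nat_lit 3) (nat_lit 0xe00010001000080000000000000000000000000000000) (nat_lit 0x0) (nat_lit 0x4003000028000000000000000000000000000000000000000) := T_24 (nat_lit 161) (nat_lit 194) (nat_lit 5) (nat_lit 8) (nat_lit 7) L5803 (by decide +kernel)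
theorem L5805 : W_24 (nat_lit 2) (nat_lit 0xf00030001000080000000000000000000000000000000) (nat_lit 0x0) (nat_lit 0x800c0000000000000000000000000000000000000000) := D_24 (nat_lit 162) (nat_lit 163) (nat_lit 175) (nat_lit 2) (nat_lit 6) (nat_lit 10) (nat_lit 2) (nat_lit 5) (nat_lit 10) (by decide +kernel)
theorem L5806 : W_24 (nat_lit 3) (nat_lit 0xf00010001000080000000000000000000000000000000) (nat_lit 0x0) (nat_lit 0x40000800e0000000000000000000000000000000000000000) := T_24 (nat_lit 161) (nat_lit 194) (nat_lit 5) (nat_lit 8) (nat_lit 7) L5805 (by decide +kernel)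
theorem L5807 : W_24 (nat_lit 2) (nat_lit 0xe0006000f00058001000080000000000000000000000000000000) (nat_lit 0x0) (nat_lit 0x18008000000000000000000000000000000000000000000000000) := D_24 (nat_lit 208) (nat_lit 195) (nat_lit 207) (nat_lit 2) (nat_lit 4) (nat_lit 12) (nat_lit 2) (nat_lit 3) (nat_lit 12) (by decide +kernel)
theorem L5808 : W_24 (nat_lit 3) (nat_lit 0xc0006000f00058001000080000000000000000000000000000000) (nat_lit 0x0) (nat_lit 0x400038008000000000000000000000000000000000000000000000000) := T_24 (nat_lit 209) (nat_lit 226) (nat_lit 5) (nat_lit 6) (nat_lit 9) L5807 (by decide +kernel)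
theorem L5809 : W_24 (nat_lit 4) (nat_lit 0x40006000f00058001000080000000000000000000000000000000) (nat_lit 0x0) (nat_lit 0x14000b8008000000000000000000000000000000000000000000000000) := T_24 (nat_lit 211) (nat_lit 228) (nat_lit 7) (nat_lit 6) (nat_lit 9) L5808 (by decide +kernel)
theorem L5810 : W_24 (nat_lit 5) (nat_lit 0x6000f00058001000080000000000000000000000000000000) (nat_lit 0x0) (nat_lit 0x1c000f8008000000000000000000000000000000000000000000000000) := T_24 (nat_lit 210) (nat_lit 227) (nat_lit 6) (nat_lit 6) (nat_lit 13) L5809 (by decide +kernel)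
theorem L5811 : W_24 (nat_lit 6) (nat_lit 0x6000f00050001000080000000000000000000000000000000) (nat_lit 0x0) (nat_lit 0x1c000f800800000000c000000000000000000000000000000000000000) := T_24 (nat_lit 159) (nat_lit 158) (nat_lit 0) (nat_lit 9) (nat_lit 10) L5810 (by decide +kernel)
theorem L5812 : W_24 (nat_lit 7) (nat_lit 0x4000f00050001000080000000000000000000000000000000) (nat_lit 0x0) (nat_lit 0x1c000f800b00000000c000000000000000000000000000000000000000) := T_24 (nat_lit 193) (nat_lit 192) (nat_lit 1) (nat_lit 9) (nat_lit 10) L5811 (by decide +kernel)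
theorem L5813 : W_24 (nat_lit 8) (nat_lit 0x4000f00010001000080000000000000000000000000000000) (nat_lit 0x0) (nat_lit 0x1c000f800b0000000cc000000000000000000000000000000000000000) := T_24 (nat_lit 162) (nat_lit 163) (nat_lit 2) (nat_lit 6) (nat_lit 10) L5812 (by decide +kernel)
theorem L5814 : W_24 (nat_lit 9) (nat_lit 0xf00010001000080000000000000000000000000000000) (nat_lit 0x0) (nat_lit 0x1c000f800f0000000ec000000000000000000000000000000000000000) := T_24 (nat_lit 194) (nat_lit 161) (nat_lit 5) (nat_lit 8) (nat_lit 7) L5813 (by decide +kernel)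
theorem L5815 : W_24 (nat_lit 2) (nat_lit 0xf80054001000080000000000000000000000000000000) (nat_lit 0x0) (nat_lit 0x3800000000000000000000000000000000000000000000000) := D_24 (nat_lit 192) (nat_lit 193) (nat_lit 191) (nat_lit 1) (nat_lit 9) (nat_lit 10) (nat_lit 1) (nat_lit 8) (nat_lit 10) (by decide +kernel)
theorem L5816 : W_24 (nat_lit 3) (nat_lit 0xf00054001000080000000000000000000000000000000) (nat_lit 0x0) (nat_lit 0x3800080002000000000000000000000000000000000000000) := T_24 (nat_lit 175) (nat_lit 157) (nat_lit 0) (nat_lit 8) (nat_lit 10) L5815 (by decide +kernel)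
theorem L5817 : W_24 (nat_lit 4) (nat_lit 0xf00014001000080000000000000000000000000000000) (nat_lit 0x0) (nat_lit 0x38000800c2000000000000000000000000000000000000000) := T_24 (nat_lit 162) (nat_lit 163) (nat_lit 2) (nat_lit 6) (nat_lit 10) L5816 (by decide +kernel)
theorem L5818 : W_24 (nat_lit 5) (nat_lit 0xf00010001000080000000000000000000000000000000) (nat_lit 0x0) (nat_lit 0x38000800ce000000000000000000000000000000000000000) := T_24 (nat_lit 158) (nat_lit 159) (nat_lit 0) (nat_lit 9) (nat_lit 10) L5817 (by decide +kernel)
theorem L5819 : W_24 (nat_lit 2) (nat_lit 0x2000f000340010001c0000000000000000000000000000000) (nat_lit 0x0) (nat_lit 0xc0002000000000000000000000000000000000000000) := D_24 (nat_lit 175) (nat_lit 174) (nat_lit 157) (nat_lit 2) (nat_lit 4) (nat_lit 10) (nat_lit 0) (nat_lit 8) (nat_lit 10) (by decide +kernel)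
theorem L5820 : W_24 (nat_lit 3) (nat_lit 0x2000f000300010001c0000000000000000000000000000000) (nat_lit 0x0) (nat_lit 0xc000e000000000000000000000000000000000000000) := T_24 (nat_lit 158) (nat_lit 159) (nat_lit 3) (nat_lit 5) (nat_lit 9) L5819 (by decide +kernel)
theorem L5821 : W_24 (nat_lit 4) (nat_lit 0x2000f000300010000c0000000000000000000000000000000) (nat_lit 0x0) (nat_lit 0xc000e000000100008000000000000000000000000000) := T_24 (nat_lit 128) (nat_lit 111) (nat_lit 6) (nat_lit 8) (nat_lit 10) L5820 (by decide +kernel)
theorem L5822 : W_24 (nat_lit 5) (nat_lit 0x2000f00030001000080000000000000000000000000000000) (nat_lit 0x0) (nat_lit 0xc000e00000014000a000000000000000000000000000) := T_24 (nat_lit 126) (nat_lit 109) (nat_lit 4) (nat_lit 8) (nat_lit 10) L5821 (by decide +kernel)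
theorem L5823 : W_24 (nat_lit 6) (nat_lit 0x2000f00010001000080000000000000000000000000000000) (nat_lit 0x0) (nat_lit 0x40000c002e00000014000a000000000000000000000000000) := T_24 (nat_lit 161) (nat_lit 194) (nat_lit 5) (nat_lit 8) (nat_lit 7) L5822 (by decide +kernel)
theorem L5824 : W_24 (nat_lit 7) (nat_lit 0xf00010001000080000000000000000000000000000000) (nat_lit 0x0) (nat_lit 0x70000c002e00000014000a000000000000000000000000000) := T_24 (nat_lit 193) (nat_lit 192) (nat_lit 1) (nat_lit 9) (nat_lit 10) L5823 (by decide +kernel)
theorem L5825 : W_24 (nat_lit 10) (nat_lit 0xe00010001000080000000000000000000000000000000) (nat_lit 0x0) (nat_lit 0x1c000f800f8001c00ee00000014000a000000000000000000000000000) := Q_24 (nat_lit 176) (C_24 L5806 (C_24 L5814 (C_24 L5818 (C_24 L5824 N_24)))) (by decide +kernel)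
theorem L5826 : W_24 (nat_lit 2) (nat_lit 0x24003e00010001000080000000000000000000000000000000) (nat_lit 0x0) (nat_lit 0x380000000000000000000000000000000000000000) := D_24 (nat_lit 164) (nat_lit 163) (nat_lit 165) (nat_lit 2) (nat_lit 7) (nat_lit 10) (nat_lit 2) (nat_lit 8) (nat_lit 10) (by decide +kernel)
theorem L5827 : W_24 (nat_lit 3) (nat_lit 0x24001e00010001000080000000000000000000000000000000) (nat_lit 0x0) (nat_lit 0x8002000380000000000000000000000000000000000000000) := T_24 (nat_lit 181) (nat_lit 195) (nat_lit 1) (nat_lit 11) (nat_lit 10) L5826 (by decide +kernel)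
theorem L5828 : W_24 (nat_lit 4) (nat_lit 0x4001e00010001000080000000000000000000000000000000) (nat_lit 0x0) (nat_lit 0x68002000380000000000000000000000000000000000000000) := T_24 (nat_lit 197) (nat_lit 198) (nat_lit 3) (nat_lit 7) (nat_lit 10) L5827 (by decide +kernel)
theorem L5829 : W_24 (nat_lit 5) (nat_lit 0x1e00010001000080000000000000000000000000000000) (nat_lit 0x0) (nat_lit 0x6e002000380000000000000000000000000000000000000000) := T_24 (nat_lit 194) (nat_lit 193) (nat_lit 1) (nat_lit 10) (nat_lit 10) L5828 (by decide +kernel)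
theorem L5830 : W_24 (nat_lit 6) (nat_lit 0xe00010001000080000000000000000000000000000000) (nat_lit 0x0) (nat_lit 0x6e003000388000000000000000000000000000000000000000) := T_24 (nat_lit 180) (nat_lit 159) (nat_lit 0) (nat_lit 10) (nat_lit 10) L5829 (by decide +kernel)
theorem L5835 : W_24 (nat_lit 6) (nat_lit 0xe000300010001c0000000000000000000000000000000) (nat_lit 0x0) (nat_lit 0x38031c01c0000000000000000000000000000000000000000) := T_24 (nat_lit 180) (nat_lit 181) (nat_lit 0) (nat_lit 11) (nat_lit 10) L5834 (by decide +kernel)
theorem L5836 : W_24 (nat_lit 7) (nat_lit 0xe000300010000c0000000000000000000000000000000) (nat_lit 0x0) (nat_lit 0x38031c01c0000000100008000000000000000000000000000) := T_24 (nat_lit 128) (nat_lit 111) (nat_lit 6) (nat_lit 8) (nat_lit 10) L5835 (by decide +kernel)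
theorem L5837 : W_24 (nat_lit 8) (nat_lit 0xe00030001000080000000000000000000000000000000) (nat_lit 0x0) (nat_lit 0x38031c01c000000014000a000000000000000000000000000) := T_24 (nat_lit 126) (nat_lit 109) (nat_lit 4) (nat_lit 8) (nat_lit 10) L5836 (by decide +kernel)
theorem L5838 : W_24 (nat_lit 9) (nat_lit 0xe00010001000080000000000000000000000000000000) (nat_lit 0x0) (nat_lit 0x78031c01e000000014000a000000000000000000000000000) := T_24 (nat_lit 161) (nat_lit 194) (nat_lit 5) (nat_lit 8) (nat_lit 7) L5837 (by decide +kernel)
theorem L5839 : W_24 (nat_lit 2) (nat_lit 0x3e00010001000080000000000000000000000000000000) (nat_lit 0x0) (nat_lit 0xe0000000000000000000000000000000000000000000000000) := D_24 (nat_lit 198) (nat_lit 197) (nat_lit 199) (nat_lit 3) (nat_lit 7) (nat_lit 10) (nat_lit 3) (nat_lit 8) (nat_lit 10) (by decide +kernel)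
theorem L5840 : W_24 (nat_lit 3) (nat_lit 0x1e00010001000080000000000000000000000000000000) (nat_lit 0x0) (nat_lit 0xe0002000020000000000000000000000000000000000000000) := T_24 (nat_lit 181) (nat_lit 161) (nat_lit 0) (nat_lit 11) (nat_lit 10) L5839 (by decide +kernel)
theorem L5841 : W_24 (nat_lit 4) (nat_lit 0xe00010001000080000000000000000000000000000000) (nat_lit 0x0) (nat_lit 0xe0003000028000000000000000000000000000000000000000) := T_24 (nat_lit 180) (nat_lit 159) (nat_lit 0) (nat_lit 10) (nat_lit 10) L5840 (by decide +kernel)
theorem L5842 : W_24 (nat_lit 11) (nat_lit 0x600010001000080000000000000000000000000000000) (nat_lit 0x0) (nat_lit 0x1c000f80ef8039c03ee00000014000a000000000000000000000000000) := Q_24 (nat_lit 179) (C_24 L5804 (C_24 L5825 (C_24 L5830 (C_24 L5838 (C_24 L5841 N_24))))) (by decide +kernel)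
theorem L5847 : W_24 (nat_lit 6) (nat_lit 0x600010001000080000000000000000000000000000000) (nat_lit 0x0) (nat_lit 0xe000100008000800060003000080000000000000000000000) := T_24 (nat_lit 143) (nat_lit 194) (nat_lit 6) (nat_lit 7) (nat_lit 11) L5846 (by decide +kernel)
theorem L5848 : W_24 (nat_lit 2) (nat_lit 0x700030001000080000000000000000000000000000000) (nat_lit 0x0) (nat_lit 0x800c0000000000000000000000000000000000000000) := D_24 (nat_lit 162) (nat_lit 163) (nat_lit 175) (nat_lit 1) (nat_lit 10) (nat_lit 9) (nat_lit 2) (nat_lit 5) (nat_lit 10) (by decide +kernel)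
theorem L5849 : W_24 (nat_lit 2) (nat_lit 0x7000b00010000c0000000000000000000000000000000) (nat_lit 0x0) (nat_lit 0xa000000000000800000000000000000000000000000000000) := D_24 (nat_lit 143) (nat_lit 195) (nat_lit 193) (nat_lit 7) (nat_lit 7) (nat_lit 7) (nat_lit 5) (nat_lit 7) (nat_lit 7) (by decide +kernel)
theorem L5850 : W_24 (nat_lit 3) (nat_lit 0x7000b0001000080000000000000000000000000000000) (nat_lit 0x0) (nat_lit 0xa000000000000800040002000000000000000000000000000) := T_24 (nat_lit 126) (nat_lit 109) (nat_lit 4) (nat_lit 8) (nat_lit 10) L5849 (by decide +kernel)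
theorem L5851 : W_24 (nat_lit 4) (nat_lit 0x700030001000080000000000000000000000000000000) (nat_lit 0x0) (nat_lit 0xa0000000c0000800040002000000000000000000000000000) := T_24 (nat_lit 163) (nat_lit 162) (nat_lit 1) (nat_lit 10) (nat_lit 9) L5850 (by decide +kernel)
theorem L5852 : W_24 (nat_lit 2) (nat_lit 0x7400300010001c0000000000000000000000000000000) (nat_lit 0x0) (nat_lit 0xa000000000000800000000000000000000000000000000000) := D_24 (nat_lit 143) (nat_lit 195) (nat_lit 193) (nat_lit 7) (nat_lit 7) (nat_lit 7) (nat_lit 5) (nat_lit 7) (nat_lit 7) (by decide +kernel)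
theorem L5853 : W_24 (nat_lit 3) (nat_lit 0x740030001000180000000000000000000000000000000) (nat_lit 0x0) (nat_lit 0xa000000000000800040002000000000000000000000000000) := T_24 (nat_lit 126) (nat_lit 109) (nat_lit 4) (nat_lit 8) (nat_lit 10) L5852 (by decide +kernel)
theorem L5854 : W_24 (nat_lit 4) (nat_lit 0x700030001000180000000000000000000000000000000) (nat_lit 0x0) (nat_lit 0xa0000c0000000800040002000000000000000000000000000) := T_24 (nat_lit 174) (nat_lit 175) (nat_lit 2) (nat_lit 4) (nat_lit 10) L5853 (by decide +kernel)
theorem L5855 : W_24 (nat_lit 5) (nat_lit 0x700030001000080000000000000000000000000000000) (nat_lit 0x0) (nat_lit 0xa0000c000000080014000a000000000000000000000000000) := T_24 (nat_lit 128) (nat_lit 111) (nat_lit 6) (nat_lit 8) (nat_lit 10) L5854 (by decide +kernel)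
theorem L5856 : W_24 (nat_lit 6) (nat_lit 0x700010001000080000000000000000000000000000000) (nat_lit 0x0) (nat_lit 0xa0000c00e000080014000a000000000000000000000000000) := Q_24 (nat_lit 161) (C_24 L5848 (C_24 L5851 (C_24 L5855 N_24))) (by decide +kernel)
theorem L5857 : W_24 (nat_lit 2) (nat_lit 0x780010001000080000000000000000000000000000000) (nat_lit 0x0) (nat_lit 0x40060000000000000000000000000000000000000000) := D_24 (nat_lit 161) (nat_lit 162) (nat_lit 174) (nat_lit 2) (nat_lit 5) (nat_lit 10) (nat_lit 2) (nat_lit 4) (nat_lit 10) (by decide +kernel)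
theorem L5858 : W_24 (nat_lit 2) (nat_lit 0x10007800340010001c0000000000000000000000000000000) (nat_lit 0x0) (nat_lit 0x2000800008000000000000000000000000000000000000000) := D_24 (nat_lit 179) (nat_lit 159) (nat_lit 193) (nat_lit 3) (nat_lit 5) (nat_lit 9) (nat_lit 1) (nat_lit 9) (nat_lit 10) (by decide +kernel)
theorem L5859 : W_24 (nat_lit 3) (nat_lit 0x7800340010001c0000000000000000000000000000000) (nat_lit 0x0) (nat_lit 0x3800800008000000000000000000000000000000000000000) := T_24 (nat_lit 192) (nat_lit 191) (nat_lit 1) (nat_lit 8) (nat_lit 10) L5858 (by decide +kernel)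
theorem L5860 : W_24 (nat_lit 4) (nat_lit 0x7800300010001c0000000000000000000000000000000) (nat_lit 0x0) (nat_lit 0x380080000e000000000000000000000000000000000000000) := T_24 (nat_lit 158) (nat_lit 157) (nat_lit 0) (nat_lit 8) (nat_lit 10) L5859 (by decide +kernel)
theorem L5861 : W_24 (nat_lit 5) (nat_lit 0x7800300010000c0000000000000000000000000000000) (nat_lit 0x0) (nat_lit 0x380080000e000000100008000000000000000000000000000) := T_24 (nat_lit 128) (nat_lit 111) (nat_lit 6) (nat_lit 8) (nat_lit 10) L5860 (by decide +kernel)
theorem L5862 : W_24 (nat_lit 6) (nat_lit 0x780030001000080000000000000000000000000000000) (nat_lit 0x0) (nat_lit 0x380080000e00000014000a000000000000000000000000000) := T_24 (nat_lit 126) (nat_lit 109) (nat_lit 4) (nat_lit 8) (nat_lit 10) L5861 (by decide +kernel)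
theorem L5863 : W_24 (nat_lit 7) (nat_lit 0x780010001000080000000000000000000000000000000) (nat_lit 0x0) (nat_lit 0x380080006e00000014000a000000000000000000000000000) := T_24 (nat_lit 161) (nat_lit 162) (nat_lit 2) (nat_lit 5) (nat_lit 10) L5862 (by decide +kernel)
theorem L5864 : W_24 (nat_lit 2) (nat_lit 0x1000780014001000080000000000000000000000000000000) (nat_lit 0x0) (nat_lit 0x2000800008000000000000000000000000000000000000000) := D_24 (nat_lit 179) (nat_lit 193) (nat_lit 159) (nat_lit 1) (nat_lit 9) (nat_lit 10) (nat_lit 0) (nat_lit 9) (nat_lit 10) (by decide +kernel)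
theorem L5865 : W_24 (nat_lit 3) (nat_lit 0x1000780010001000080000000000000000000000000000000) (nat_lit 0x0) (nat_lit 0x200080000e000000000000000000000000000000000000000) := T_24 (nat_lit 158) (nat_lit 157) (nat_lit 0) (nat_lit 8) (nat_lit 10) L5864 (by decide +kernel)
theorem L5866 : W_24 (nat_lit 4) (nat_lit 0x780010001000080000000000000000000000000000000) (nat_lit 0x0) (nat_lit 0x380080000e000000000000000000000000000000000000000) := T_24 (nat_lit 192) (nat_lit 191) (nat_lit 1) (nat_lit 8) (nat_lit 10) L5865 (by decide +kernel)
theorem L5867 : W_24 (nat_lit 8) (nat_lit 0x700010001000080000000000000000000000000000000) (nat_lit 0x0) (nat_lit 0x38008c006e00000014000a000000000000000000000000000) := Q_24 (nat_lit 175) (C_24 L5857 (C_24 L5863 (C_24 L5866 N_24))) (by decide +kernel)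
theorem L5872 : W_24 (nat_lit 6) (nat_lit 0x7000b00018003e0000000000000000000000000000000) (nat_lit 0x0) (nat_lit 0x4000380010000c000018030000000000000000000000000000) := T_24 (nat_lit 123) (nat_lit 124) (nat_lit 3) (nat_lit 4) (nat_lit 7) L5871 (by decide +kernel)
theorem L5873 : W_24 (nat_lit 7) (nat_lit 0x7000b00018003c0000000000000000000000000000000) (nat_lit 0x0) (nat_lit 0x4000380010000c000038031000000000000000000000000000) := T_24 (nat_lit 125) (nat_lit 108) (nat_lit 4) (nat_lit 7) (nat_lit 10) L5872 (by decide +kernel)
theorem L5874 : W_24 (nat_lit 8) (nat_lit 0x7000b00018001c0000000000000000000000000000000) (nat_lit 0x0) (nat_lit 0x4000380010000c000638031000000000000000000000000000) := T_24 (nat_lit 129) (nat_lit 130) (nat_lit 1) (nat_lit 11) (nat_lit 7) L5873 (by decide +kernel)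
theorem L5875 : W_24 (nat_lit 9) (nat_lit 0x7000b00010001c0000000000000000000000000000000) (nat_lit 0x0) (nat_lit 0x4800380010000c800638031000000000000000000000000000) := T_24 (nat_lit 143) (nat_lit 195) (nat_lit 7) (nat_lit 7) (nat_lit 7) L5874 (by decide +kernel)
theorem L5876 : W_24 (nat_lit 10) (nat_lit 0x7000b00010000c0000000000000000000000000000000) (nat_lit 0x0) (nat_lit 0x4800380010000c800738039000000000000000000000000000) := T_24 (nat_lit 128) (nat_lit 111) (nat_lit 6) (nat_lit 8) (nat_lit 10) L5875 (by decide +kernel)
theorem L5877 : W_24 (nat_lit 11) (nat_lit 0x7000b0001000080000000000000000000000000000000) (nat_lit 0x0) (nat_lit 0x4800380010000c80077803b000000000000000000000000000) := T_24 (nat_lit 126) (nat_lit 109) (nat_lit 4) (nat_lit 8) (nat_lit 10) L5876 (by decide +kernel)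
theorem L5878 : W_24 (nat_lit 12) (nat_lit 0x700030001000080000000000000000000000000000000) (nat_lit 0x0) (nat_lit 0x480038001c000c80077803b000000000000000000000000000) := T_24 (nat_lit 163) (nat_lit 162) (nat_lit 1) (nat_lit 10) (nat_lit 9) L5877 (by decide +kernel)
theorem L5882 : W_24 (nat_lit 5) (nat_lit 0x7400300018001f0000000000000000000000000000000) (nat_lit 0x0) (nat_lit 0xe000300600000c00000000000000000000000000) := T_24 (nat_lit 130) (nat_lit 129) (nat_lit 1) (nat_lit 11) (nat_lit 7) L5881 (by decide +kernel)
theorem L5883 : W_24 (nat_lit 6) (nat_lit 0x7400300018000f0000000000000000000000000000000) (nat_lit 0x0) (nat_lit 0xe000300700008c00000000000000000000000000) := T_24 (nat_lit 128) (nat_lit 111) (nat_lit 6) (nat_lit 8) (nat_lit 10) L5882 (by decide +kernel)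
theorem L5884 : W_24 (nat_lit 7) (nat_lit 0x7400300018000e0000000000000000000000000000000) (nat_lit 0x0) (nat_lit 0xe000300718008c00000000000000000000000000) := T_24 (nat_lit 124) (nat_lit 123) (nat_lit 3) (nat_lit 4) (nat_lit 7) L5883 (by decide +kernel)
theorem L5885 : W_24 (nat_lit 8) (nat_lit 0x7400300018000c0000000000000000000000000000000) (nat_lit 0x0) (nat_lit 0xe000300738009c00000000000000000000000000) := T_24 (nat_lit 125) (nat_lit 108) (nat_lit 4) (nat_lit 7) (nat_lit 10) L5884 (by decide +kernel)
theorem L5886 : W_24 (nat_lit 9) (nat_lit 0x7400300010000c0000000000000000000000000000000) (nat_lit 0x0) (nat_lit 0x800000000e000b00738009c00000000000000000000000000) := T_24 (nat_lit 143) (nat_lit 195) (nat_lit 7) (nat_lit 7) (nat_lit 7) L5885 (by decide +kernel)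
theorem L5887 : W_24 (nat_lit 10) (nat_lit 0x7000300010000c0000000000000000000000000000000) (nat_lit 0x0) (nat_lit 0x80000c000e000b00738009c00000000000000000000000000) := T_24 (nat_lit 174) (nat_lit 175) (nat_lit 2) (nat_lit 4) (nat_lit 10) L5886 (by decide +kernel)
theorem L5888 : W_24 (nat_lit 11) (nat_lit 0x700030001000080000000000000000000000000000000) (nat_lit 0x0) (nat_lit 0x80000c000e000b0077800bc00000000000000000000000000) := T_24 (nat_lit 126) (nat_lit 109) (nat_lit 4) (nat_lit 8) (nat_lit 10) L5887 (by decide +kernel)
theorem L5889 : W_24 (nat_lit 13) (nat_lit 0x700010001000080000000000000000000000000000000) (nat_lit 0x0) (nat_lit 0x480038c01ee00cb0077803bc00000000000000000000000000) := Q_24 (nat_lit 161) (C_24 L5848 (C_24 L5878 (C_24 L5888 N_24))) (by decide +kernel)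
theorem L5890 : W_24 (nat_lit 2) (nat_lit 0xf00010001000080000000000000000000000000000000) (nat_lit 0x0) (nat_lit 0x100000c000000000000000000000000000000000000000) := D_24 (nat_lit 159) (nat_lit 158) (nat_lit 180) (nat_lit 0) (nat_lit 9) (nat_lit 10) (nat_lit 0) (nat_lit 10) (nat_lit 10) (by decide +kernel)
theorem L5891 : W_24 (nat_lit 2) (nat_lit 0x2000f00070001000080000000000000000000000000000000) (nat_lit 0x0) (nat_lit 0x800040002000000000000000000000000000) := D_24 (nat_lit 126) (nat_lit 143) (nat_lit 109) (nat_lit 5) (nat_lit 7) (nat_lit 7) (nat_lit 4) (nat_lit 8) (nat_lit 10) (by decide +kernel)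
theorem L5892 : W_24 (nat_lit 3) (nat_lit 0x2000f00050001000080000000000000000000000000000000) (nat_lit 0x0) (nat_lit 0x80020000800040002000000000000000000000000000) := T_24 (nat_lit 161) (nat_lit 175) (nat_lit 2) (nat_lit 5) (nat_lit 10) L5891 (by decide +kernel)
theorem L5893 : W_24 (nat_lit 4) (nat_lit 0x2000f00010001000080000000000000000000000000000000) (nat_lit 0x0) (nat_lit 0x800e0000800040002000000000000000000000000000) := T_24 (nat_lit 162) (nat_lit 163) (nat_lit 2) (nat_lit 6) (nat_lit 10) L5892 (by decide +kernel)
theorem L5894 : W_24 (nat_lit 5) (nat_lit 0xf00010001000080000000000000000000000000000000) (nat_lit 0x0) (nat_lit 0x30000800e0000800040002000000000000000000000000000) := T_24 (nat_lit 193) (nat_lit 192) (nat_lit 1) (nat_lit 9) (nat_lit 10) L5893 (by decide +kernel)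
theorem L5895 : W_24 (nat_lit 6) (nat_lit 0x700010001000080000000000000000000000000000000) (nat_lit 0x0) (nat_lit 0x38018800ee000800040002000000000000000000000000000) := Q_24 (nat_lit 179) (C_24 L5890 (C_24 L5818 (C_24 L5894 N_24))) (by decide +kernel)
theorem L5896 : W_24 (nat_lit 2) (nat_lit 0x2000f00018001000080000000000000000000000000000000) (nat_lit 0x0) (nat_lit 0x40000000000000000800040000000000000000000000000000000) := D_24 (nat_lit 143) (nat_lit 126) (nat_lit 210) (nat_lit 5) (nat_lit 7) (nat_lit 7) (nat_lit 6) (nat_lit 6) (nat_lit 12) (by decide +kernel)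
theorem L5897 : W_24 (nat_lit 3) (nat_lit 0xf00018001000080000000000000000000000000000000) (nat_lit 0x0) (nat_lit 0x40003000000000000800040000000000000000000000000000000) := T_24 (nat_lit 193) (nat_lit 192) (nat_lit 1) (nat_lit 9) (nat_lit 10) L5896 (by decide +kernel)
theorem L5898 : W_24 (nat_lit 4) (nat_lit 0xf00010001000080000000000000000000000000000000) (nat_lit 0x0) (nat_lit 0x4000300000000c000800040000000000000000000000000000000) := T_24 (nat_lit 159) (nat_lit 158) (nat_lit 0) (nat_lit 9) (nat_lit 10) L5897 (by decide +kernel)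
theorem L5899 : W_24 (nat_lit 2) (nat_lit 0x2003f00090001000080000000000000000000000000000000) (nat_lit 0x0) (nat_lit 0xe0000000000000000000000000000000000000000000000000) := D_24 (nat_lit 198) (nat_lit 197) (nat_lit 199) (nat_lit 3) (nat_lit 7) (nat_lit 10) (nat_lit 3) (nat_lit 8) (nat_lit 10) (by decide +kernel)
theorem L5900 : W_24 (nat_lit 3) (nat_lit 0x2001f00090001000080000000000000000000000000000000) (nat_lit 0x0) (nat_lit 0xe0002000020000000000000000000000000000000000000000) := T_24 (nat_lit 181) (nat_lit 161) (nat_lit 0) (nat_lit 11) (nat_lit 10) L5899 (by decide +kernel)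
theorem L5901 : W_24 (nat_lit 4) (nat_lit 0x2000f00090001000080000000000000000000000000000000) (nat_lit 0x0) (nat_lit 0xe0003000120000000000000000000000000000000000000000) := T_24 (nat_lit 180) (nat_lit 164) (nat_lit 2) (nat_lit 7) (nat_lit 10) L5900 (by decide +kernel)
theorem L5902 : W_24 (nat_lit 5) (nat_lit 0xf00090001000080000000000000000000000000000000) (nat_lit 0x0) (nat_lit 0xe3003000120000000000000000000000000000000000000000) := T_24 (nat_lit 193) (nat_lit 192) (nat_lit 1) (nat_lit 9) (nat_lit 10) L5901 (by decide +kernel)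
theorem L5903 : W_24 (nat_lit 6) (nat_lit 0xf00010001000080000000000000000000000000000000) (nat_lit 0x0) (nat_lit 0xe30030001e0000000000000000000000000000000000000000) := T_24 (nat_lit 163) (nat_lit 162) (nat_lit 2) (nat_lit 6) (nat_lit 10) L5902 (by decide +kernel)
theorem L5904 : W_24 (nat_lit 7) (nat_lit 0x700010001000080000000000000000000000000000000) (nat_lit 0x0) (nat_lit 0x400e30038001ec000800040000000000000000000000000000000) := Q_24 (nat_lit 179) (C_24 L5890 (C_24 L5898 (C_24 L5903 N_24))) (by decide +kernel)
theorem L5905 : W_24 (nat_lit 2) (nat_lit 0x2000f00010001000080000000000000000000000000000000) (nat_lit 0x0) (nat_lit 0x100000c000000000000000000000000000000000000000) := D_24 (nat_lit 159) (nat_lit 180) (nat_lit 158) (nat_lit 0) (nat_lit 10) (nat_lit 10) (nat_lit 0) (nat_lit 9) (nat_lit 10) (by decide +kernel)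
theorem L5906 : W_24 (nat_lit 3) (nat_lit 0x2000700010001000080000000000000000000000000000000) (nat_lit 0x0) (nat_lit 0x100180000c000000000000000000000000000000000000000) := T_24 (nat_lit 179) (nat_lit 192) (nat_lit 1) (nat_lit 9) (nat_lit 10) L5905 (by decide +kernel)
theorem L5907 : W_24 (nat_lit 2) (nat_lit 0x40002000700010001000080000000000000000000000000000000) (nat_lit 0x0) (nat_lit 0x8000800040000000000000000000000000000000) := D_24 (nat_lit 143) (nat_lit 126) (nat_lit 159) (nat_lit 5) (nat_lit 7) (nat_lit 7) (nat_lit 6) (nat_lit 6) (nat_lit 12) (by decide +kernel)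
theorem L5908 : W_24 (nat_lit 3) (nat_lit 0x2000700010001000080000000000000000000000000000000) (nat_lit 0x0) (nat_lit 0x800040000000000008000800040000000000000000000000000000000) := T_24 (nat_lit 210) (nat_lit 227) (nat_lit 6) (nat_lit 6) (nat_lit 13) L5907 (by decide +kernel)
theorem L5909 : W_24 (nat_lit 2) (nat_lit 0x30007000100010000c0000000000000000000000000000000) (nat_lit 0x0) (nat_lit 0xc00080000000000000000000000000000000000000000000) := D_24 (nat_lit 191) (nat_lit 175) (nat_lit 190) (nat_lit 1) (nat_lit 8) (nat_lit 10) (nat_lit 2) (nat_lit 3) (nat_lit 11) (by decide +kernel)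
theorem L5910 : W_24 (nat_lit 3) (nat_lit 0x20007000100010000c0000000000000000000000000000000) (nat_lit 0x0) (nat_lit 0x1c00880000000000000000000000000000000000000000000) := T_24 (nat_lit 192) (nat_lit 179) (nat_lit 1) (nat_lit 9) (nat_lit 10) L5909 (by decide +kernel)
theorem L5911 : W_24 (nat_lit 4) (nat_lit 0x2000700010001000080000000000000000000000000000000) (nat_lit 0x0) (nat_lit 0x1c00880000000800040000000000000000000000000000000) := T_24 (nat_lit 126) (nat_lit 143) (nat_lit 5) (nat_lit 7) (nat_lit 7) L5910 (by decide +kernel)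
theorem L5912 : W_24 (nat_lit 5) (nat_lit 0x700010001000080000000000000000000000000000000) (nat_lit 0x0) (nat_lit 0x800040003c0188000c000800040000000000000000000000000000000) := Q_24 (nat_lit 193) (C_24 L5906 (C_24 L5908 (C_24 L5911 N_24))) (by decide +kernel)
theorem L5913 : W_24 (nat_lit 5) (nat_lit 0x700010001000080000000000000000000000000000000) (nat_lit 0x0) (nat_lit 0x38008c006e000000000000000000000000000000000000000) := Q_24 (nat_lit 175) (C_24 L5857 (C_24 L5866 N_24)) (by decide +kernel)
theorem L5914 : W_24 (nat_lit 14) (nat_lit 0x600010001000080000000000000000000000000000000) (nat_lit 0x0) (nat_lit 0x8000400ebc039c01ee00cb0077803bc00000000000000000000000000) := Q_24 (nat_lit 176) (C_24 L5856 (C_24 L5867 (C_24 L5889 (C_24 L5895 (C_24 L5904 (C_24 L5912 (C_24 L5913 N_24))))))) (by decide +kernel)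
theorem L5915 : W_24 (nat_lit 15) (nat_lit 0x600000001000080000000000000000000000000000000) (nat_lit 0x0) (nat_lit 0x1c000f80efc039c03fe00cb0077803bc00080000000000000000000000) := Q_24 (nat_lit 160) (C_24 L5802 (C_24 L5842 (C_24 L5847 (C_24 L5914 N_24)))) (by decide +kernel)
theorem L5916 : W_24 (nat_lit 5) (nat_lit 0x4000e00000001000080000000000000000000000000000000) (nat_lit 0x0) (nat_lit 0x6a003000380000000000000000000000000000000000000000) := T_24 (nat_lit 180) (nat_lit 193) (nat_lit 1) (nat_lit 10) (nat_lit 10) L5758 (by decide +kernel)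
theorem L5917 : W_24 (nat_lit 6) (nat_lit 0xe00000001000080000000000000000000000000000000) (nat_lit 0x0) (nat_lit 0x6e0030003a0000000000000000000000000000000000000000) := T_24 (nat_lit 194) (nat_lit 161) (nat_lit 5) (nat_lit 8) (nat_lit 7) L5916 (by decide +kernel)
theorem L5920 : W_24 (nat_lit 7) (nat_lit 0x600000001000080000000000000000000000000000000) (nat_lit 0x0) (nat_lit 0x7f8039803be000000000000000000000000000000000000000) := Q_24 (nat_lit 179) (C_24 L4870 (C_24 L5917 (C_24 L5794 (C_24 L5919 N_24)))) (by decide +kernel)
theorem L5924 : W_24 (nat_lit 5) (nat_lit 0xe000200018003c0010000000000000000000000000000) (nat_lit 0x0) (nat_lit 0x30001800d000c000000000000000000000000000000000000) := T_24 (nat_lit 146) (nat_lit 147) (nat_lit 3) (nat_lit 7) (nat_lit 7) L5923 (by decide +kernel)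
theorem L5925 : W_24 (nat_lit 6) (nat_lit 0xe000200018003c0000000000000000000000000000000) (nat_lit 0x0) (nat_lit 0x30001800d000c000000030000000000000000000000000000) := T_24 (nat_lit 112) (nat_lit 113) (nat_lit 2) (nat_lit 7) (nat_lit 7) L5924 (by decide +kernel)
theorem L5926 : W_24 (nat_lit 7) (nat_lit 0xe000200018001c0000000000000000000000000000000) (nat_lit 0x0) (nat_lit 0x30001800d000c000600030000000000000000000000000000) := T_24 (nat_lit 129) (nat_lit 130) (nat_lit 1) (nat_lit 11) (nat_lit 7) L5925 (by decide +kernel)
theorem L5927 : W_24 (nat_lit 8) (nat_lit 0xe000200018000c0000000000000000000000000000000) (nat_lit 0x0) (nat_lit 0x30001800d000c000700038000000000000000000000000000) := T_24 (nat_lit 128) (nat_lit 111) (nat_lit 6) (nat_lit 8) (nat_lit 10) L5926 (by decide +kernel)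
theorem L5928 : W_24 (nat_lit 9) (nat_lit 0xe000200010000c0000000000000000000000000000000) (nat_lit 0x0) (nat_lit 0xb0001800d000c800700038000000000000000000000000000) := T_24 (nat_lit 143) (nat_lit 195) (nat_lit 4) (nat_lit 8) (nat_lit 11) L5927 (by decide +kernel)
theorem L5929 : W_24 (nat_lit 10) (nat_lit 0x6000200010000c0000000000000000000000000000000) (nat_lit 0x0) (nat_lit 0x1b0009800d000c800700038000000000000000000000000000) := T_24 (nat_lit 179) (nat_lit 196) (nat_lit 7) (nat_lit 8) (nat_lit 7) L5928 (by decide +kernel)
theorem L5930 : W_24 (nat_lit 11) (nat_lit 0x600020001000080000000000000000000000000000000) (nat_lit 0x0) (nat_lit 0x1b0009800d000c80074003a000000000000000000000000000) := T_24 (nat_lit 126) (nat_lit 109) (nat_lit 4) (nat_lit 8) (nat_lit 10) L5929 (by decide +kernel)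
theorem L5931 : W_24 (nat_lit 12) (nat_lit 0x600000001000080000000000000000000000000000000) (nat_lit 0x0) (nat_lit 0x1f0009800f000c80074003a000000000000000000000000000) := T_24 (nat_lit 161) (nat_lit 194) (nat_lit 5) (nat_lit 8) (nat_lit 7) L5930 (by decide +kernel)
theorem L5933 : W_24 (nat_lit 2) (nat_lit 0x7c00200010000c0000000000000000000000000000000) (nat_lit 0x0) (nat_lit 0x1c00000000000000000000000000000000000000000000000) := D_24 (nat_lit 191) (nat_lit 190) (nat_lit 192) (nat_lit 1) (nat_lit 7) (nat_lit 10) (nat_lit 1) (nat_lit 8) (nat_lit 10) (by decide +kernel)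
theorem L5934 : W_24 (nat_lit 3) (nat_lit 0x7800200010000c0000000000000000000000000000000) (nat_lit 0x0) (nat_lit 0x1c00040010000000000000000000000000000000000000000) := T_24 (nat_lit 174) (nat_lit 160) (nat_lit 2) (nat_lit 4) (nat_lit 10) L5933 (by decide +kernel)
theorem L5935 : W_24 (nat_lit 4) (nat_lit 0x7000200010000c0000000000000000000000000000000) (nat_lit 0x0) (nat_lit 0x1c000c0050000000000000000000000000000000000000000) := T_24 (nat_lit 175) (nat_lit 162) (nat_lit 2) (nat_lit 5) (nat_lit 10) L5934 (by decide +kernel)
theorem L5936 : W_24 (nat_lit 5) (nat_lit 0x700020001000080000000000000000000000000000000) (nat_lit 0x0) (nat_lit 0x1c000c0050000000040002000000000000000000000000000) := T_24 (nat_lit 126) (nat_lit 109) (nat_lit 4) (nat_lit 8) (nat_lit 10) L5935 (by decide +kernel)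
theorem L5937 : W_24 (nat_lit 2) (nat_lit 0x2000f000680010000c0000000000000000000000000000000) (nat_lit 0x0) (nat_lit 0x1000010000800000000000000000000000000000000000) := D_24 (nat_lit 160) (nat_lit 143) (nat_lit 180) (nat_lit 5) (nat_lit 7) (nat_lit 7) (nat_lit 3) (nat_lit 6) (nat_lit 9) (by decide +kernel)
theorem L5938 : W_24 (nat_lit 3) (nat_lit 0x2000f000600010000c0000000000000000000000000000000) (nat_lit 0x0) (nat_lit 0x100001c000800000000000000000000000000000000000) := T_24 (nat_lit 159) (nat_lit 158) (nat_lit 0) (nat_lit 9) (nat_lit 10) L5937 (by decide +kernel)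
theorem L5939 : W_24 (nat_lit 4) (nat_lit 0xf000600010000c0000000000000000000000000000000) (nat_lit 0x0) (nat_lit 0x300100001c000800000000000000000000000000000000000) := T_24 (nat_lit 193) (nat_lit 192) (nat_lit 1) (nat_lit 9) (nat_lit 10) L5938 (by decide +kernel)
theorem L5940 : W_24 (nat_lit 5) (nat_lit 0xf000200010000c0000000000000000000000000000000) (nat_lit 0x0) (nat_lit 0x30010000dc000800000000000000000000000000000000000) := T_24 (nat_lit 162) (nat_lit 163) (nat_lit 2) (nat_lit 6) (nat_lit 10) L5939 (by decide +kernel)
theorem L5941 : W_24 (nat_lit 6) (nat_lit 0x7000200010000c0000000000000000000000000000000) (nat_lit 0x0) (nat_lit 0x130018000dc000800000000000000000000000000000000000) := T_24 (nat_lit 179) (nat_lit 196) (nat_lit 7) (nat_lit 8) (nat_lit 7) L5940 (by decide +kernel)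
theorem L5942 : W_24 (nat_lit 7) (nat_lit 0x700020001000080000000000000000000000000000000) (nat_lit 0x0) (nat_lit 0x130018000dc000800040002000000000000000000000000000) := T_24 (nat_lit 126) (nat_lit 109) (nat_lit 4) (nat_lit 8) (nat_lit 10) L5941 (by decide +kernel)
theorem L5943 : W_24 (nat_lit 2) (nat_lit 0x2000f000280010001c0000000000000000000000000000000) (nat_lit 0x0) (nat_lit 0x1000010000800000000000000000000000000000000000) := D_24 (nat_lit 160) (nat_lit 143) (nat_lit 180) (nat_lit 5) (nat_lit 7) (nat_lit 7) (nat_lit 0) (nat_lit 10) (nat_lit 10) (by decide +kernel)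
theorem L5944 : W_24 (nat_lit 3) (nat_lit 0x2000f000200010001c0000000000000000000000000000000) (nat_lit 0x0) (nat_lit 0x100001c000800000000000000000000000000000000000) := T_24 (nat_lit 159) (nat_lit 158) (nat_lit 0) (nat_lit 9) (nat_lit 10) L5943 (by decide +kernel)
theorem L5945 : W_24 (nat_lit 4) (nat_lit 0xf000200010001c0000000000000000000000000000000) (nat_lit 0x0) (nat_lit 0x300100001c000800000000000000000000000000000000000) := T_24 (nat_lit 193) (nat_lit 192) (nat_lit 1) (nat_lit 9) (nat_lit 10) L5944 (by decide +kernel)
theorem L5946 : W_24 (nat_lit 5) (nat_lit 0x7000200010001c0000000000000000000000000000000) (nat_lit 0x0) (nat_lit 0x1300180001c000800000000000000000000000000000000000) := T_24 (nat_lit 179) (nat_lit 196) (nat_lit 7) (nat_lit 8) (nat_lit 7) L5945 (by decide +kernel)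
theorem L5947 : W_24 (nat_lit 6) (nat_lit 0x700020001000180000000000000000000000000000000) (nat_lit 0x0) (nat_lit 0x1300180001c000800040002000000000000000000000000000) := T_24 (nat_lit 126) (nat_lit 109) (nat_lit 4) (nat_lit 8) (nat_lit 10) L5946 (by decide +kernel)
theorem L5948 : W_24 (nat_lit 7) (nat_lit 0x700020001000080000000000000000000000000000000) (nat_lit 0x0) (nat_lit 0x1300180001c00080014000a000000000000000000000000000) := T_24 (nat_lit 128) (nat_lit 111) (nat_lit 6) (nat_lit 8) (nat_lit 10) L5947 (by decide +kernel)
theorem L5949 : W_24 (nat_lit 8) (nat_lit 0x600020001000080000000000000000000000000000000) (nat_lit 0x0) (nat_lit 0x13c019c00dc00080014000a000000000000000000000000000) := Q_24 (nat_lit 176) (C_24 L5936 (C_24 L5675 (C_24 L5942 (C_24 L5948 N_24)))) (by decide +kernel)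
theorem L5955 : W_24 (nat_lit 2) (nat_lit 0x80007c00200010001c0000000000000000000000000000000) (nat_lit 0x0) (nat_lit 0x7000000000000000000000000000000000000000) := D_24 (nat_lit 157) (nat_lit 158) (nat_lit 156) (nat_lit 0) (nat_lit 8) (nat_lit 10) (nat_lit 0) (nat_lit 7) (nat_lit 10) (by decide +kernel)
theorem L5956 : W_24 (nat_lit 3) (nat_lit 0x80007800200010001c0000000000000000000000000000000) (nat_lit 0x0) (nat_lit 0x40017000000000000000000000000000000000000000) := T_24 (nat_lit 174) (nat_lit 160) (nat_lit 2) (nat_lit 4) (nat_lit 10) L5955 (by decide +kernel)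
theorem L5957 : W_24 (nat_lit 4) (nat_lit 0x80007000200010001c0000000000000000000000000000000) (nat_lit 0x0) (nat_lit 0xc0057000000000000000000000000000000000000000) := T_24 (nat_lit 175) (nat_lit 162) (nat_lit 2) (nat_lit 5) (nat_lit 10) L5956 (by decide +kernel)
theorem L5958 : W_24 (nat_lit 5) (nat_lit 0x7000200010001c0000000000000000000000000000000) (nat_lit 0x0) (nat_lit 0x80000c0057000800000000000000000000000000000000000) := T_24 (nat_lit 195) (nat_lit 143) (nat_lit 4) (nat_lit 8) (nat_lit 11) L5957 (by decide +kernel)
theorem L5959 : W_24 (nat_lit 6) (nat_lit 0x7000200010000c0000000000000000000000000000000) (nat_lit 0x0) (nat_lit 0x80000c0057000800100008000000000000000000000000000) := T_24 (nat_lit 128) (nat_lit 111) (nat_lit 6) (nat_lit 8) (nat_lit 10) L5958 (by decide +kernel)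
theorem L5960 : W_24 (nat_lit 7) (nat_lit 0x700020001000080000000000000000000000000000000) (nat_lit 0x0) (nat_lit 0x80000c005700080014000a000000000000000000000000000) := T_24 (nat_lit 126) (nat_lit 109) (nat_lit 4) (nat_lit 8) (nat_lit 10) L5959 (by decide +kernel)
theorem L5967 : W_24 (nat_lit 12) (nat_lit 0x700020001000180000000000000000000000000000000) (nat_lit 0x0) (nat_lit 0x4a0038001d000c800678033000000000000000000000000000) := T_24 (nat_lit 126) (nat_lit 109) (nat_lit 4) (nat_lit 8) (nat_lit 10) L5966 (by decide +kernel)
theorem L5968 : W_24 (nat_lit 13) (nat_lit 0x700020001000080000000000000000000000000000000) (nat_lit 0x0) (nat_lit 0x4a0038001d000c80077803b000000000000000000000000000) := T_24 (nat_lit 128) (nat_lit 111) (nat_lit 6) (nat_lit 8) (nat_lit 10) L5967 (by decide +kernel)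
theorem L5975 : W_24 (nat_lit 11) (nat_lit 0x7000200010000c0000000000000000000000000000000) (nat_lit 0x0) (nat_lit 0xa0000c001e000b00738009c00000000000000000000000000) := T_24 (nat_lit 128) (nat_lit 111) (nat_lit 6) (nat_lit 8) (nat_lit 10) L5974 (by decide +kernel)
theorem L5976 : W_24 (nat_lit 12) (nat_lit 0x700020001000080000000000000000000000000000000) (nat_lit 0x0) (nat_lit 0xa0000c001e000b0077800bc00000000000000000000000000) := T_24 (nat_lit 126) (nat_lit 109) (nat_lit 4) (nat_lit 8) (nat_lit 10) L5975 (by decide +kernel)
theorem L5977 : W_24 (nat_lit 14) (nat_lit 0x600020001000080000000000000000000000000000000) (nat_lit 0x0) (nat_lit 0x4bc039c01df00cb0077803bc00000000000000000000000000) := Q_24 (nat_lit 176) (C_24 L5936 (C_24 L5954 (C_24 L5960 (C_24 L5968 (C_24 L5976 N_24))))) (by decide +kernel)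
theorem L5984 : W_24 (nat_lit 9) (nat_lit 0x700020001000180000000000000000000000000000000) (nat_lit 0x0) (nat_lit 0xf300380039c000000040002000000000000000000000000000) := T_24 (nat_lit 126) (nat_lit 109) (nat_lit 4) (nat_lit 8) (nat_lit 10) L4954 (by decide +kernel)
theorem L5985 : W_24 (nat_lit 10) (nat_lit 0x700020001000080000000000000000000000000000000) (nat_lit 0x0) (nat_lit 0xf300380039c00000014000a000000000000000000000000000) := T_24 (nat_lit 128) (nat_lit 111) (nat_lit 6) (nat_lit 8) (nat_lit 10) L5984 (by decide +kernel)
theorem L5986 : W_24 (nat_lit 11) (nat_lit 0x600020001000080000000000000000000000000000000) (nat_lit 0x0) (nat_lit 0xf3c079c03de00000014000a000000000000000000000000000) := Q_24 (nat_lit 176) (C_24 L5675 (C_24 L5954 (C_24 L5983 (C_24 L5936 (C_24 L5985 N_24))))) (by decide +kernel)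
theorem L5991 : W_24 (nat_lit 16) (nat_lit 0x600020001000080000000000000000000000000000000) (nat_lit 0x0) (nat_lit 0x100008000f3c079c01de03c800f000e8000000000000000000000000000) := Q_24 (nat_lit 176) (C_24 L5675 (C_24 L5954 (C_24 L5699 (C_24 L4938 (C_24 L5990 N_24))))) (by decide +kernel)
theorem L5992 : W_24 (nat_lit 17) (nat_lit 0x600000001000080000000000000000000000000000000) (nat_lit 0x0) (nat_lit 0x20017000b800fbc079c03ff03cb00f780fbc00000000000000000000000000) := Q_24 (nat_lit 161) (C_24 L4881 (C_24 L5949 (C_24 L5977 (C_24 L5986 (C_24 L4960 (C_24 L534 (C_24 L5991 N_24))))))) (by decide +kernel)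
theorem L5993 : W_24 (nat_lit 18) (nat_lit 0x200000001000080000000000000000000000000000000) (nat_lit 0x0) (nat_lit 0x12001ff00ff80ffc07dc03ff03cb00f780fbc00080000000000000000000000) := Q_24 (nat_lit 178) (C_24 L5795 (C_24 L4882 (C_24 L5801 (C_24 L5915 (C_24 L5920 (C_24 L5931 (C_24 L5932 (C_24 L5992 N_24)))))))) (by decide +kernel)
theorem L8748 : W_24 (nat_lit 2) (nat_lit 0xc0002000d0002c0004001000080000000000000000000000000000000) (nat_lit 0x0) (nat_lit 0x4000200010000000000000000000000000000000000000000000000000000) := D_24 (nat_lit 225) (nat_lit 208) (nat_lit 242) (nat_lit 5) (nat_lit 5) (nat_lit 9) (nat_lit 5) (nat_lit 5) (nat_lit 10) (by decide +kernel)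
theorem L8749 : W_24 (nat_lit 3) (nat_lit 0xc0002000d0002c0000001000080000000000000000000000000000000) (nat_lit 0x0) (nat_lit 0x4000200050000000000004000000000000000000000000000000000000000) := T_24 (nat_lit 158) (nat_lit 210) (nat_lit 7) (nat_lit 5) (nat_lit 9) L8748 (by decide +kernel)
theorem L8750 : W_24 (nat_lit 4) (nat_lit 0x40002000d0002c0000001000080000000000000000000000000000000) (nat_lit 0x0) (nat_lit 0x14000a00050000000000004000000000000000000000000000000000000000) := T_24 (nat_lit 227) (nat_lit 244) (nat_lit 7) (nat_lit 5) (nat_lit 10) L8749 (by decide +kernel)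
theorem L8751 : W_24 (nat_lit 5) (nat_lit 0x40002000d000280000001000080000000000000000000000000000000) (nat_lit 0x0) (nat_lit 0x14000a00050000000040006000000000000000000000000000000000000000) := T_24 (nat_lit 174) (nat_lit 157) (nat_lit 4) (nat_lit 5) (nat_lit 13) L8750 (by decide +kernel)
theorem L8752 : W_24 (nat_lit 2) (nat_lit 0x8000c0002000d0002c0000001000080000000000000000000000000000000) (nat_lit 0x0) (nat_lit 0x80004000200000000000000000000000000000000000000000000000000000000) := D_24 (nat_lit 242) (nat_lit 225) (nat_lit 259) (nat_lit 5) (nat_lit 5) (nat_lit 10) (nat_lit 5) (nat_lit 5) (nat_lit 11) (by decide +kernel)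
theorem L8753 : W_24 (nat_lit 3) (nat_lit 0xc0002000d0002c0000001000080000000000000000000000000000000) (nat_lit 0x0) (nat_lit 0x8000c000200000000800000000000000000000000000000000000000000000000) := T_24 (nat_lit 243) (nat_lit 191) (nat_lit 4) (nat_lit 5) (nat_lit 14) L8752 (by decide +kernel)
theorem L8754 : W_24 (nat_lit 4) (nat_lit 0x40002000d0002c0000001000080000000000000000000000000000000) (nat_lit 0x0) (nat_lit 0x8001c000a00000000800000000000000000000000000000000000000000000000) := T_24 (nat_lit 227) (nat_lit 244) (nat_lit 7) (nat_lit 5) (nat_lit 10) L8753 (by decide +kernel)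
theorem L8755 : W_24 (nat_lit 5) (nat_lit 0x40002000d000280000001000080000000000000000000000000000000) (nat_lit 0x0) (nat_lit 0x8001c000a00000000800040002000000000000000000000000000000000000000) := T_24 (nat_lit 174) (nat_lit 157) (nat_lit 4) (nat_lit 5) (nat_lit 13) L8754 (by decide +kernel)
theorem L8756 : W_24 (nat_lit 2) (nat_lit 0x60002000d000280004001000080000000000000000000000000000000) (nat_lit 0x0) (nat_lit 0x40002000100000000000000000000000000000000000) := D_24 (nat_lit 157) (nat_lit 140) (nat_lit 174) (nat_lit 4) (nat_lit 5) (nat_lit 12) (nat_lit 4) (nat_lit 5) (nat_lit 13) (by decide +kernel)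
theorem L8757 : W_24 (nat_lit 3) (nat_lit 0x60002000d000280000001000080000000000000000000000000000000) (nat_lit 0x0) (nat_lit 0x10000000040006000100000000000000000000000000000000000) := T_24 (nat_lit 158) (nat_lit 208) (nat_lit 5) (nat_lit 5) (nat_lit 9) L8756 (by decide +kernel)
theorem L8758 : W_24 (nat_lit 4) (nat_lit 0x40002000d000280000001000080000000000000000000000000000000) (nat_lit 0x0) (nat_lit 0x4000200010000000040006000100000000000000000000000000000000000) := T_24 (nat_lit 225) (nat_lit 242) (nat_lit 5) (nat_lit 5) (nat_lit 10) L8757 (by decide +kernel)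
theorem L8759 : W_24 (nat_lit 2) (nat_lit 0xc0002000d000280004001000080000000000000000000000000000000) (nat_lit 0x0) (nat_lit 0x4000200010000000000000000000000000000000000000000000000000000) := D_24 (nat_lit 225) (nat_lit 208) (nat_lit 242) (nat_lit 5) (nat_lit 5) (nat_lit 9) (nat_lit 5) (nat_lit 5) (nat_lit 10) (by decide +kernel)
theorem L8760 : W_24 (nat_lit 3) (nat_lit 0xc0002000d000280000001000080000000000000000000000000000000) (nat_lit 0x0) (nat_lit 0x4000200050000000000004000000000000000000000000000000000000000) := T_24 (nat_lit 158) (nat_lit 210) (nat_lit 7) (nat_lit 5) (nat_lit 9) L8759 (by decide +kernel)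
theorem L8761 : W_24 (nat_lit 4) (nat_lit 0x40002000d000280000001000080000000000000000000000000000000) (nat_lit 0x0) (nat_lit 0x14000a00050000000000004000000000000000000000000000000000000000) := T_24 (nat_lit 227) (nat_lit 244) (nat_lit 7) (nat_lit 5) (nat_lit 10) L8760 (by decide +kernel)
theorem L8762 : W_24 (nat_lit 2) (nat_lit 0xc0002000d8002c0004001000080000000000000000000000000000000) (nat_lit 0x0) (nat_lit 0x10000000000000000200010000000000000000000000000000000) := D_24 (nat_lit 141) (nat_lit 124) (nat_lit 208) (nat_lit 5) (nat_lit 5) (nat_lit 7) (nat_lit 5) (nat_lit 5) (nat_lit 8) (by decide +kernel)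
theorem L8763 : W_24 (nat_lit 3) (nat_lit 0xc0002000d0002c0004001000080000000000000000000000000000000) (nat_lit 0x0) (nat_lit 0x8000000010000800000000000200010000000000000000000000000000000) := T_24 (nat_lit 191) (nat_lit 243) (nat_lit 4) (nat_lit 5) (nat_lit 14) L8762 (by decide +kernel)
theorem L8764 : W_24 (nat_lit 4) (nat_lit 0xc0002000d0002c0000001000080000000000000000000000000000000) (nat_lit 0x0) (nat_lit 0x8000000050000800000004000200010000000000000000000000000000000) := T_24 (nat_lit 158) (nat_lit 210) (nat_lit 7) (nat_lit 5) (nat_lit 9) L8763 (by decide +kernel)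
theorem L8765 : W_24 (nat_lit 5) (nat_lit 0x40002000d0002c0000001000080000000000000000000000000000000) (nat_lit 0x0) (nat_lit 0x18000800050000800000004000200010000000000000000000000000000000) := T_24 (nat_lit 227) (nat_lit 244) (nat_lit 7) (nat_lit 5) (nat_lit 10) L8764 (by decide +kernel)
theorem L8766 : W_24 (nat_lit 6) (nat_lit 0x40002000d000280000001000080000000000000000000000000000000) (nat_lit 0x0) (nat_lit 0x18000800050000800040006000200010000000000000000000000000000000) := T_24 (nat_lit 174) (nat_lit 157) (nat_lit 4) (nat_lit 5) (nat_lit 13) L8765 (by decide +kernel)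
theorem L8767 : W_24 (nat_lit 7) (nat_lit 0x2000d000280000001000080000000000000000000000000000000) (nat_lit 0x0) (nat_lit 0x8001c000e00050000800040006000300010000000000000000000000000000000) := Q_24 (nat_lit 226) (C_24 L8751 (C_24 L8755 (C_24 L8758 (C_24 L8761 (C_24 L8766 N_24))))) (by decide +kernel)
theorem L8768 : W_24 (nat_lit 5) (nat_lit 0x2000d0002c0000001000080000000000000000000000000000000) (nat_lit 0x0) (nat_lit 0x8001c000e00000000800000002000000000000000000000000000000000000000) := T_24 (nat_lit 226) (nat_lit 157) (nat_lit 4) (nat_lit 5) (nat_lit 13) L8754 (by decide +kernel)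
theorem L8769 : W_24 (nat_lit 6) (nat_lit 0x2000d000280000001000080000000000000000000000000000000) (nat_lit 0x0) (nat_lit 0x8001c000e00000000800140002000000000000000000000000000000000000000) := T_24 (nat_lit 174) (nat_lit 176) (nat_lit 3) (nat_lit 4) (nat_lit 10) L8768 (by decide +kernel)
theorem L8770 : W_24 (nat_lit 2) (nat_lit 0x800040002000d0002c0000001000080000000000000000000000000000000) (nat_lit 0x0) (nat_lit 0x80004000200000000000000000000000000000000000000000000000000000000) := D_24 (nat_lit 242) (nat_lit 225) (nat_lit 259) (nat_lit 5) (nat_lit 5) (nat_lit 10) (nat_lit 5) (nat_lit 5) (nat_lit 11) (by decide +kernel)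
theorem L8771 : W_24 (nat_lit 3) (nat_lit 0x40002000d0002c0000001000080000000000000000000000000000000) (nat_lit 0x0) (nat_lit 0x8000c000200000000800000000000000000000000000000000000000000000000) := T_24 (nat_lit 243) (nat_lit 191) (nat_lit 4) (nat_lit 5) (nat_lit 14) L8770 (by decide +kernel)
theorem L8772 : W_24 (nat_lit 4) (nat_lit 0x2000d0002c0000001000080000000000000000000000000000000) (nat_lit 0x0) (nat_lit 0x8000c000600000000800000002000000000000000000000000000000000000000) := T_24 (nat_lit 226) (nat_lit 157) (nat_lit 4) (nat_lit 5) (nat_lit 13) L8771 (by decide +kernel)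
theorem L8773 : W_24 (nat_lit 5) (nat_lit 0x2000d000280000001000080000000000000000000000000000000) (nat_lit 0x0) (nat_lit 0x8000c000600000000800140002000000000000000000000000000000000000000) := T_24 (nat_lit 174) (nat_lit 176) (nat_lit 3) (nat_lit 4) (nat_lit 10) L8772 (by decide +kernel)
theorem L8774 : W_24 (nat_lit 5) (nat_lit 0x2000d0002c0000001000080000000000000000000000000000000) (nat_lit 0x0) (nat_lit 0x14000e00050000000000006000000000000000000000000000000000000000) := T_24 (nat_lit 226) (nat_lit 157) (nat_lit 4) (nat_lit 5) (nat_lit 13) L8750 (by decide +kernel)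
theorem L8775 : W_24 (nat_lit 6) (nat_lit 0x2000d000280000001000080000000000000000000000000000000) (nat_lit 0x0) (nat_lit 0x14000e00050000000140006000000000000000000000000000000000000000) := T_24 (nat_lit 174) (nat_lit 176) (nat_lit 3) (nat_lit 4) (nat_lit 10) L8774 (by decide +kernel)
theorem L8776 : W_24 (nat_lit 2) (nat_lit 0x6000d000280006001000080000000000000000000000000000000) (nat_lit 0x0) (nat_lit 0x200090000000000000000000000000000000000000000000000000000) := D_24 (nat_lit 208) (nat_lit 211) (nat_lit 225) (nat_lit 2) (nat_lit 4) (nat_lit 12) (nat_lit 5) (nat_lit 5) (nat_lit 9) (by decide +kernel)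
theorem L8777 : W_24 (nat_lit 3) (nat_lit 0x2000d000280006001000080000000000000000000000000000000) (nat_lit 0x0) (nat_lit 0xa000d0000000000000000000000000000000000000000000000000000) := T_24 (nat_lit 210) (nat_lit 227) (nat_lit 7) (nat_lit 5) (nat_lit 9) L8776 (by decide +kernel)
theorem L8778 : W_24 (nat_lit 4) (nat_lit 0x2000d000280004001000080000000000000000000000000000000) (nat_lit 0x0) (nat_lit 0xa000d0000000000002000100000000000000000000000000000000000) := T_24 (nat_lit 157) (nat_lit 140) (nat_lit 4) (nat_lit 5) (nat_lit 12) L8777 (by decide +kernel)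
theorem L8779 : W_24 (nat_lit 4) (nat_lit 0x2000d000280004001000080000000000000000000000000000000) (nat_lit 0x0) (nat_lit 0x200010000800000002000300008000000000000000000000000000000) := T_24 (nat_lit 208) (nat_lit 225) (nat_lit 5) (nat_lit 5) (nat_lit 9) L6841 (by decide +kernel)
theorem L8780 : W_24 (nat_lit 2) (nat_lit 0x3000d000280004001000080000000000000000000000000000000) (nat_lit 0x0) (nat_lit 0x8000c0000000000000000000000000000000000000000000000000000) := D_24 (nat_lit 210) (nat_lit 227) (nat_lit 211) (nat_lit 7) (nat_lit 5) (nat_lit 9) (nat_lit 2) (nat_lit 4) (nat_lit 12) (by decide +kernel)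
theorem L8781 : W_24 (nat_lit 3) (nat_lit 0x2000d000280004001000080000000000000000000000000000000) (nat_lit 0x0) (nat_lit 0xa000d0000000000000000000000000000000000000000000000000000) := T_24 (nat_lit 208) (nat_lit 225) (nat_lit 5) (nat_lit 5) (nat_lit 9) L8780 (by decide +kernel)
theorem L8782 : W_24 (nat_lit 2) (nat_lit 0x6000d000280004001700080000000000000000000000000000000) (nat_lit 0x0) (nat_lit 0x800140000000000000000000000000000000) := D_24 (nat_lit 143) (nat_lit 128) (nat_lit 126) (nat_lit 2) (nat_lit 5) (nat_lit 8) (nat_lit 2) (nat_lit 4) (nat_lit 8) (by decide +kernel)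
theorem L8783 : W_24 (nat_lit 3) (nat_lit 0x6000d000280004001300080000000000000000000000000000000) (nat_lit 0x0) (nat_lit 0xc00160000000000000000000000000000000) := T_24 (nat_lit 142) (nat_lit 125) (nat_lit 6) (nat_lit 5) (nat_lit 11) L8782 (by decide +kernel)
theorem L8784 : W_24 (nat_lit 4) (nat_lit 0x6000d000280004001100080000000000000000000000000000000) (nat_lit 0x0) (nat_lit 0xe00168000000000000000000000000000000) := T_24 (nat_lit 141) (nat_lit 123) (nat_lit 4) (nat_lit 5) (nat_lit 11) L8783 (by decide +kernel)
theorem L8785 : W_24 (nat_lit 5) (nat_lit 0x6000d000280004001000080000000000000000000000000000000) (nat_lit 0x0) (nat_lit 0x2000f00168000000000000000000000000000000) := T_24 (nat_lit 140) (nat_lit 157) (nat_lit 4) (nat_lit 5) (nat_lit 12) L8784 (by decide +kernel)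
theorem L8786 : W_24 (nat_lit 6) (nat_lit 0x2000d000280004001000080000000000000000000000000000000) (nat_lit 0x0) (nat_lit 0x800040000000000002000f00168000000000000000000000000000000) := T_24 (nat_lit 210) (nat_lit 227) (nat_lit 7) (nat_lit 5) (nat_lit 9) L8785 (by decide +kernel)
theorem L8787 : W_24 (nat_lit 7) (nat_lit 0x2000d000280000001000080000000000000000000000000000000) (nat_lit 0x0) (nat_lit 0xa000d0000800000006000f00168000000000000000000000000000000) := Q_24 (nat_lit 158) (C_24 L8778 (C_24 L8779 (C_24 L8781 (C_24 L8786 N_24)))) (by decide +kernel)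
theorem L8788 : W_24 (nat_lit 4) (nat_lit 0x40002000d000280000001000080000000000000000000000000000000) (nat_lit 0x0) (nat_lit 0x8000c000200000000800140000000000000000000000000000000000000000000) := T_24 (nat_lit 174) (nat_lit 176) (nat_lit 3) (nat_lit 4) (nat_lit 10) L8771 (by decide +kernel)
theorem L8789 : W_24 (nat_lit 4) (nat_lit 0xc0002000d000280004001000080000000000000000000000000000000) (nat_lit 0x0) (nat_lit 0x8000000010000800140000000200010000000000000000000000000000000) := T_24 (nat_lit 174) (nat_lit 176) (nat_lit 3) (nat_lit 4) (nat_lit 10) L8763 (by decide +kernel)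
theorem L8790 : W_24 (nat_lit 5) (nat_lit 0xc0002000d000280000001000080000000000000000000000000000000) (nat_lit 0x0) (nat_lit 0x8000000050000800140004000200010000000000000000000000000000000) := T_24 (nat_lit 158) (nat_lit 210) (nat_lit 7) (nat_lit 5) (nat_lit 9) L8789 (by decide +kernel)
theorem L8791 : W_24 (nat_lit 6) (nat_lit 0x40002000d000280000001000080000000000000000000000000000000) (nat_lit 0x0) (nat_lit 0x18000800050000800140004000200010000000000000000000000000000000) := T_24 (nat_lit 227) (nat_lit 244) (nat_lit 7) (nat_lit 5) (nat_lit 10) L8790 (by decide +kernel)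
theorem L8792 : W_24 (nat_lit 7) (nat_lit 0x2000d000280000001000080000000000000000000000000000000) (nat_lit 0x0) (nat_lit 0x8001c000e00050000800140004000200010000000000000000000000000000000) := Q_24 (nat_lit 226) (C_24 L8788 (C_24 L8761 (C_24 L8791 N_24))) (by decide +kernel)
theorem L8793 : W_24 (nat_lit 6) (nat_lit 0x2000d0002c0000001000080000000000000000000000000000000) (nat_lit 0x0) (nat_lit 0x18000c00050000800000006000200010000000000000000000000000000000) := T_24 (nat_lit 226) (nat_lit 157) (nat_lit 4) (nat_lit 5) (nat_lit 13) L8765 (by decide +kernel)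
theorem L8794 : W_24 (nat_lit 7) (nat_lit 0x2000d000280000001000080000000000000000000000000000000) (nat_lit 0x0) (nat_lit 0x18000c00050000800140006000200010000000000000000000000000000000) := T_24 (nat_lit 174) (nat_lit 176) (nat_lit 3) (nat_lit 4) (nat_lit 10) L8793 (by decide +kernel)
theorem L8795 : W_24 (nat_lit 8) (nat_lit 0xd000280000001000080000000000000000000000000000000) (nat_lit 0x0) (nat_lit 0x8001c000e000f0000800140006000f00178000000000000000000000000000000) := Q_24 (nat_lit 209) (C_24 L8767 (C_24 L8769 (C_24 L8773 (C_24 L8775 (C_24 L8787 (C_24 L8792 (C_24 L8794 N_24))))))) (by decide +kernel)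
theorem L8796 : W_24 (nat_lit 2) (nat_lit 0xe0002000d000280024001700080000000000000000000000000000000) (nat_lit 0x0) (nat_lit 0x40000800040000000000000000000000000000000) := D_24 (nat_lit 143) (nat_lit 162) (nat_lit 126) (nat_lit 3) (nat_lit 5) (nat_lit 8) (nat_lit 2) (nat_lit 4) (nat_lit 8) (by decide +kernel)
theorem L8797 : W_24 (nat_lit 3) (nat_lit 0xe0002000d000280024001300080000000000000000000000000000000) (nat_lit 0x0) (nat_lit 0x40000c00060000000000000000000000000000000) := T_24 (nat_lit 142) (nat_lit 125) (nat_lit 6) (nat_lit 5) (nat_lit 11) L8796 (by decide +kernel)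
theorem L8798 : W_24 (nat_lit 4) (nat_lit 0xe0002000d000280024001100080000000000000000000000000000000) (nat_lit 0x0) (nat_lit 0x40000e00068000000000000000000000000000000) := T_24 (nat_lit 141) (nat_lit 123) (nat_lit 4) (nat_lit 5) (nat_lit 11) L8797 (by decide +kernel)
theorem L8799 : W_24 (nat_lit 5) (nat_lit 0xe0002000d000280004001100080000000000000000000000000000000) (nat_lit 0x0) (nat_lit 0x400060000e00068000000000000000000000000000000) := T_24 (nat_lit 161) (nat_lit 178) (nat_lit 5) (nat_lit 8) (nat_lit 7) L8798 (by decide +kernel)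
theorem L8800 : W_24 (nat_lit 6) (nat_lit 0xe0002000d000280004001000080000000000000000000000000000000) (nat_lit 0x0) (nat_lit 0x400062000f00068000000000000000000000000000000) := T_24 (nat_lit 140) (nat_lit 157) (nat_lit 4) (nat_lit 5) (nat_lit 12) L8799 (by decide +kernel)
theorem L8801 : W_24 (nat_lit 7) (nat_lit 0xe0002000d000280000001000080000000000000000000000000000000) (nat_lit 0x0) (nat_lit 0x10000000400066000f00068000000000000000000000000000000) := T_24 (nat_lit 158) (nat_lit 208) (nat_lit 5) (nat_lit 5) (nat_lit 9) L8800 (by decide +kernel)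
theorem L8802 : W_24 (nat_lit 8) (nat_lit 0xc0002000d000280000001000080000000000000000000000000000000) (nat_lit 0x0) (nat_lit 0x4000200010000000400066000f00068000000000000000000000000000000) := T_24 (nat_lit 225) (nat_lit 242) (nat_lit 5) (nat_lit 5) (nat_lit 10) L8801 (by decide +kernel)
theorem L8803 : W_24 (nat_lit 9) (nat_lit 0x40002000d000280000001000080000000000000000000000000000000) (nat_lit 0x0) (nat_lit 0x14000a00010000000400066000f00068000000000000000000000000000000) := T_24 (nat_lit 227) (nat_lit 244) (nat_lit 7) (nat_lit 5) (nat_lit 10) L8802 (by decide +kernel)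
theorem L8804 : W_24 (nat_lit 2) (nat_lit 0xe0003000d000280020001000080000000000000000000000000000000) (nat_lit 0x0) (nat_lit 0x100000c000000000000000000000000000000000000000000000000000) := D_24 (nat_lit 207) (nat_lit 206) (nat_lit 228) (nat_lit 3) (nat_lit 2) (nat_lit 12) (nat_lit 0) (nat_lit 7) (nat_lit 13) (by decide +kernel)
theorem L8805 : W_24 (nat_lit 3) (nat_lit 0xe0002000d000280020001000080000000000000000000000000000000) (nat_lit 0x0) (nat_lit 0x100001c000000000004000000000000000000000000000000000000000) := T_24 (nat_lit 208) (nat_lit 158) (nat_lit 5) (nat_lit 5) (nat_lit 9) L8804 (by decide +kernel)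
theorem L8806 : W_24 (nat_lit 4) (nat_lit 0xc0002000d000280020001000080000000000000000000000000000000) (nat_lit 0x0) (nat_lit 0x400120001c000000000004000000000000000000000000000000000000000) := T_24 (nat_lit 225) (nat_lit 242) (nat_lit 5) (nat_lit 5) (nat_lit 10) L8805 (by decide +kernel)
theorem L8807 : W_24 (nat_lit 5) (nat_lit 0x40002000d000280020001000080000000000000000000000000000000) (nat_lit 0x0) (nat_lit 0x14001a0001c000000000004000000000000000000000000000000000000000) := T_24 (nat_lit 227) (nat_lit 244) (nat_lit 7) (nat_lit 5) (nat_lit 10) L8806 (by decide +kernel)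
theorem L8808 : W_24 (nat_lit 6) (nat_lit 0x40002000d000280000001000080000000000000000000000000000000) (nat_lit 0x0) (nat_lit 0x14001a0001c000000400024000000000000000000000000000000000000000) := T_24 (nat_lit 161) (nat_lit 178) (nat_lit 5) (nat_lit 8) (nat_lit 7) L8807 (by decide +kernel)
theorem L8809 : W_24 (nat_lit 2) (nat_lit 0x800040002000d0002c0020001000080000000000000000000000000000000) (nat_lit 0x0) (nat_lit 0x200010000800000000000000000000000000000000000000000000000000000000) := D_24 (nat_lit 244) (nat_lit 227) (nat_lit 261) (nat_lit 7) (nat_lit 5) (nat_lit 10) (nat_lit 7) (nat_lit 5) (nat_lit 11) (by decide +kernel)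
theorem L8810 : W_24 (nat_lit 3) (nat_lit 0x40002000d0002c0020001000080000000000000000000000000000000) (nat_lit 0x0) (nat_lit 0x200018000800000000800000000000000000000000000000000000000000000000) := T_24 (nat_lit 243) (nat_lit 191) (nat_lit 4) (nat_lit 5) (nat_lit 14) L8809 (by decide +kernel)
theorem L8811 : W_24 (nat_lit 4) (nat_lit 0x40002000d0002c0000001000080000000000000000000000000000000) (nat_lit 0x0) (nat_lit 0x200018000800000000800400020000000000000000000000000000000000000000) := T_24 (nat_lit 161) (nat_lit 178) (nat_lit 5) (nat_lit 8) (nat_lit 7) L8810 (by decide +kernel)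
theorem L8812 : W_24 (nat_lit 5) (nat_lit 0x40002000d000280000001000080000000000000000000000000000000) (nat_lit 0x0) (nat_lit 0x200018000800000000800440022000000000000000000000000000000000000000) := T_24 (nat_lit 174) (nat_lit 157) (nat_lit 4) (nat_lit 5) (nat_lit 13) L8811 (by decide +kernel)
theorem L8813 : W_24 (nat_lit 10) (nat_lit 0x2000d000280000001000080000000000000000000000000000000) (nat_lit 0x0) (nat_lit 0x28001c001e0001c000800440066000f00068000000000000000000000000000000) := Q_24 (nat_lit 226) (C_24 L8758 (C_24 L8755 (C_24 L8803 (C_24 L8808 (C_24 L8812 N_24))))) (by decide +kernel)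
theorem L8814 : W_24 (nat_lit 6) (nat_lit 0x2000d000280000001000080000000000000000000000000000000) (nat_lit 0x0) (nat_lit 0x20001c000e00050000800440026000100000000000000000000000000000000000) := Q_24 (nat_lit 226) (C_24 L8761 (C_24 L8812 (C_24 L8758 N_24))) (by decide +kernel)
theorem L8815 : W_24 (nat_lit 2) (nat_lit 0x400040002000d0002c0020001000080000000000000000000000000000000) (nat_lit 0x0) (nat_lit 0x80008000000000000800000000000000000000000000000000000000000000000) := D_24 (nat_lit 243) (nat_lit 259) (nat_lit 191) (nat_lit 5) (nat_lit 5) (nat_lit 11) (nat_lit 4) (nat_lit 5) (nat_lit 14) (by decide +kernel)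
theorem L8816 : W_24 (nat_lit 3) (nat_lit 0x400040002000d000280020001000080000000000000000000000000000000) (nat_lit 0x0) (nat_lit 0x80008000000000000800040002000000000000000000000000000000000000000) := T_24 (nat_lit 174) (nat_lit 157) (nat_lit 4) (nat_lit 5) (nat_lit 13) L8815 (by decide +kernel)
theorem L8817 : W_24 (nat_lit 4) (nat_lit 0x40002000d000280020001000080000000000000000000000000000000) (nat_lit 0x0) (nat_lit 0x8000c000200000000800040002000000000000000000000000000000000000000) := T_24 (nat_lit 242) (nat_lit 225) (nat_lit 5) (nat_lit 5) (nat_lit 10) L8816 (by decide +kernel)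
theorem L8818 : W_24 (nat_lit 5) (nat_lit 0x40002000d000280000001000080000000000000000000000000000000) (nat_lit 0x0) (nat_lit 0x8000c000200000000800440022000000000000000000000000000000000000000) := T_24 (nat_lit 161) (nat_lit 178) (nat_lit 5) (nat_lit 8) (nat_lit 7) L8817 (by decide +kernel)
theorem L8819 : W_24 (nat_lit 2) (nat_lit 0x60002000d000280024001700080000000000000000000000000000000) (nat_lit 0x0) (nat_lit 0x40000800040000000000000000000000000000000) := D_24 (nat_lit 143) (nat_lit 162) (nat_lit 126) (nat_lit 3) (nat_lit 5) (nat_lit 8) (nat_lit 2) (nat_lit 4) (nat_lit 8) (by decide +kernel)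
theorem L8820 : W_24 (nat_lit 3) (nat_lit 0x60002000d000280024001300080000000000000000000000000000000) (nat_lit 0x0) (nat_lit 0x40000c00060000000000000000000000000000000) := T_24 (nat_lit 142) (nat_lit 125) (nat_lit 6) (nat_lit 5) (nat_lit 11) L8819 (by decide +kernel)
theorem L8821 : W_24 (nat_lit 4) (nat_lit 0x60002000d000280024001100080000000000000000000000000000000) (nat_lit 0x0) (nat_lit 0x40000e00068000000000000000000000000000000) := T_24 (nat_lit 141) (nat_lit 123) (nat_lit 4) (nat_lit 5) (nat_lit 11) L8820 (by decide +kernel)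
theorem L8822 : W_24 (nat_lit 5) (nat_lit 0x60002000d000280004001100080000000000000000000000000000000) (nat_lit 0x0) (nat_lit 0x400060000e00068000000000000000000000000000000) := T_24 (nat_lit 161) (nat_lit 178) (nat_lit 5) (nat_lit 8) (nat_lit 7) L8821 (by decide +kernel)
theorem L8823 : W_24 (nat_lit 6) (nat_lit 0x60002000d000280004001000080000000000000000000000000000000) (nat_lit 0x0) (nat_lit 0x400062000f00068000000000000000000000000000000) := T_24 (nat_lit 140) (nat_lit 157) (nat_lit 4) (nat_lit 5) (nat_lit 12) L8822 (by decide +kernel)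
theorem L8824 : W_24 (nat_lit 7) (nat_lit 0x60002000d000280000001000080000000000000000000000000000000) (nat_lit 0x0) (nat_lit 0x10000000400066000f00068000000000000000000000000000000) := T_24 (nat_lit 158) (nat_lit 208) (nat_lit 5) (nat_lit 5) (nat_lit 9) L8823 (by decide +kernel)
theorem L8825 : W_24 (nat_lit 8) (nat_lit 0x40002000d000280000001000080000000000000000000000000000000) (nat_lit 0x0) (nat_lit 0x4000200010000000400066000f00068000000000000000000000000000000) := T_24 (nat_lit 225) (nat_lit 242) (nat_lit 5) (nat_lit 5) (nat_lit 10) L8824 (by decide +kernel)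
theorem L8826 : W_24 (nat_lit 2) (nat_lit 0x20000c00040002000d800280020001000080000000000000000000000000000000) (nat_lit 0x0) (nat_lit 0x4000100000000000010000000000000000000000000000000000000000000000000000) := D_24 (nat_lit 260) (nat_lit 208) (nat_lit 278) (nat_lit 4) (nat_lit 5) (nat_lit 15) (nat_lit 7) (nat_lit 5) (nat_lit 12) (by decide +kernel)
theorem L8827 : W_24 (nat_lit 3) (nat_lit 0xc00040002000d800280020001000080000000000000000000000000000000) (nat_lit 0x0) (nat_lit 0x4000300010000000010000000000000000000000000000000000000000000000000000) := T_24 (nat_lit 261) (nat_lit 244) (nat_lit 7) (nat_lit 5) (nat_lit 11) L8826 (by decide +kernel)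
theorem L8828 : W_24 (nat_lit 4) (nat_lit 0xc00040002000d000280020001000080000000000000000000000000000000) (nat_lit 0x0) (nat_lit 0x4000300010000000010000800040000000000000000000000000000000000000000000) := T_24 (nat_lit 191) (nat_lit 174) (nat_lit 4) (nat_lit 5) (nat_lit 14) L8827 (by decide +kernel)
theorem L8829 : W_24 (nat_lit 5) (nat_lit 0x400040002000d000280020001000080000000000000000000000000000000) (nat_lit 0x0) (nat_lit 0x4000380018000000010000800040000000000000000000000000000000000000000000) := T_24 (nat_lit 243) (nat_lit 259) (nat_lit 5) (nat_lit 5) (nat_lit 11) L8828 (by decide +kernel)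
theorem L8830 : W_24 (nat_lit 6) (nat_lit 0x40002000d000280020001000080000000000000000000000000000000) (nat_lit 0x0) (nat_lit 0x400038001c000200010000800040000000000000000000000000000000000000000000) := T_24 (nat_lit 242) (nat_lit 225) (nat_lit 5) (nat_lit 5) (nat_lit 10) L8829 (by decide +kernel)
theorem L8831 : W_24 (nat_lit 7) (nat_lit 0x40002000d000280000001000080000000000000000000000000000000) (nat_lit 0x0) (nat_lit 0x400038001c000200010000800440020000000000000000000000000000000000000000) := T_24 (nat_lit 161) (nat_lit 178) (nat_lit 5) (nat_lit 8) (nat_lit 7) L8830 (by decide +kernel)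
theorem L8832 : W_24 (nat_lit 2) (nat_lit 0x28000800040002000d0002c0020001000080000000000000000000000000000000) (nat_lit 0x0) (nat_lit 0x5000100000000000000000000000000000000000000000000000000000000000000000) := D_24 (nat_lit 260) (nat_lit 276) (nat_lit 278) (nat_lit 5) (nat_lit 5) (nat_lit 12) (nat_lit 7) (nat_lit 5) (nat_lit 12) (by decide +kernel)
theorem L8833 : W_24 (nat_lit 3) (nat_lit 0x8000800040002000d0002c0020001000080000000000000000000000000000000) (nat_lit 0x0) (nat_lit 0x5000300010000000000000000000000000000000000000000000000000000000000000) := T_24 (nat_lit 261) (nat_lit 244) (nat_lit 7) (nat_lit 5) (nat_lit 11) L8832 (by decide +kernel)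
theorem L8834 : W_24 (nat_lit 4) (nat_lit 0x800040002000d0002c0020001000080000000000000000000000000000000) (nat_lit 0x0) (nat_lit 0x5000380014000000000000000000000000000000000000000000000000000000000000) := T_24 (nat_lit 259) (nat_lit 242) (nat_lit 5) (nat_lit 5) (nat_lit 11) L8833 (by decide +kernel)
theorem L8835 : W_24 (nat_lit 5) (nat_lit 0x40002000d0002c0020001000080000000000000000000000000000000) (nat_lit 0x0) (nat_lit 0x500038001c000000000000800000000000000000000000000000000000000000000000) := T_24 (nat_lit 243) (nat_lit 191) (nat_lit 4) (nat_lit 5) (nat_lit 14) L8834 (by decide +kernel)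
theorem L8836 : W_24 (nat_lit 6) (nat_lit 0x40002000d0002c0000001000080000000000000000000000000000000) (nat_lit 0x0) (nat_lit 0x500038001c000000000000800400020000000000000000000000000000000000000000) := T_24 (nat_lit 161) (nat_lit 178) (nat_lit 5) (nat_lit 8) (nat_lit 7) L8835 (by decide +kernel)
theorem L8837 : W_24 (nat_lit 7) (nat_lit 0x40002000d000280000001000080000000000000000000000000000000) (nat_lit 0x0) (nat_lit 0x500038001c000000000000800440022000000000000000000000000000000000000000) := T_24 (nat_lit 174) (nat_lit 157) (nat_lit 4) (nat_lit 5) (nat_lit 13) L8836 (by decide +kernel)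
theorem L8838 : W_24 (nat_lit 2) (nat_lit 0x40003000d000280026001200080000000000000000000000000000000) (nat_lit 0x0) (nat_lit 0xc00020000000000000000000000000000000) := D_24 (nat_lit 142) (nat_lit 143) (nat_lit 125) (nat_lit 1) (nat_lit 8) (nat_lit 8) (nat_lit 6) (nat_lit 5) (nat_lit 11) (by decide +kernel)
theorem L8839 : W_24 (nat_lit 3) (nat_lit 0x40003000d000280026001000080000000000000000000000000000000) (nat_lit 0x0) (nat_lit 0x800000000000e00020000000000000000000000000000000) := T_24 (nat_lit 141) (nat_lit 191) (nat_lit 5) (nat_lit 5) (nat_lit 8) L8838 (by decide +kernel)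
theorem L8840 : W_24 (nat_lit 4) (nat_lit 0x40002000d000280026001000080000000000000000000000000000000) (nat_lit 0x0) (nat_lit 0x200010000800000000000e00020000000000000000000000000000000) := T_24 (nat_lit 208) (nat_lit 225) (nat_lit 5) (nat_lit 5) (nat_lit 9) L8839 (by decide +kernel)
theorem L8841 : W_24 (nat_lit 5) (nat_lit 0x40002000d000280022001000080000000000000000000000000000000) (nat_lit 0x0) (nat_lit 0x200010000800000004000f00020000000000000000000000000000000) := T_24 (nat_lit 158) (nat_lit 140) (nat_lit 4) (nat_lit 5) (nat_lit 12) L8840 (by decide +kernel)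
theorem L8842 : W_24 (nat_lit 6) (nat_lit 0x40002000d000280002001000080000000000000000000000000000000) (nat_lit 0x0) (nat_lit 0x200010000800400024000f00020000000000000000000000000000000) := T_24 (nat_lit 161) (nat_lit 178) (nat_lit 5) (nat_lit 8) (nat_lit 7) L8841 (by decide +kernel)
theorem L8843 : W_24 (nat_lit 7) (nat_lit 0x40002000d000280000001000080000000000000000000000000000000) (nat_lit 0x0) (nat_lit 0x200010000800440026000f00020000000000000000000000000000000) := T_24 (nat_lit 157) (nat_lit 174) (nat_lit 4) (nat_lit 5) (nat_lit 13) L8842 (by decide +kernel)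
theorem L8844 : W_24 (nat_lit 9) (nat_lit 0x2000d000280000001000080000000000000000000000000000000) (nat_lit 0x0) (nat_lit 0x500038001c000600010000800440066000f00068000000000000000000000000000000) := Q_24 (nat_lit 226) (C_24 L8758 (C_24 L8818 (C_24 L8825 (C_24 L8831 (C_24 L8837 (C_24 L8843 N_24)))))) (by decide +kernel)
theorem L8845 : W_24 (nat_lit 2) (nat_lit 0x1400040002000d000280020001000080000000000000000000000000000000) (nat_lit 0x0) (nat_lit 0x280008000000000000000000000000000000000000000000000000000000000000) := D_24 (nat_lit 243) (nat_lit 261) (nat_lit 259) (nat_lit 7) (nat_lit 5) (nat_lit 11) (nat_lit 5) (nat_lit 5) (nat_lit 11) (by decide +kernel)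
theorem L8846 : W_24 (nat_lit 3) (nat_lit 0x1000040002000d000280020001000080000000000000000000000000000000) (nat_lit 0x0) (nat_lit 0x28000c000200000000000000000000000000000000000000000000000000000000) := T_24 (nat_lit 242) (nat_lit 225) (nat_lit 5) (nat_lit 5) (nat_lit 10) L8845 (by decide +kernel)
theorem L8847 : W_24 (nat_lit 4) (nat_lit 0x40002000d000280020001000080000000000000000000000000000000) (nat_lit 0x0) (nat_lit 0x28001c000a00000000000000000000000000000000000000000000000000000000) := T_24 (nat_lit 244) (nat_lit 227) (nat_lit 7) (nat_lit 5) (nat_lit 10) L8846 (by decide +kernel)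
theorem L8848 : W_24 (nat_lit 5) (nat_lit 0x40002000d000280000001000080000000000000000000000000000000) (nat_lit 0x0) (nat_lit 0x28001c000a00000000000400020000000000000000000000000000000000000000) := T_24 (nat_lit 161) (nat_lit 178) (nat_lit 5) (nat_lit 8) (nat_lit 7) L8847 (by decide +kernel)
theorem L8849 : W_24 (nat_lit 2) (nat_lit 0xc0002000d000280004001000080000000000000000000000000000000) (nat_lit 0x0) (nat_lit 0x40002000100000000000000000000000000000000000) := D_24 (nat_lit 157) (nat_lit 140) (nat_lit 174) (nat_lit 4) (nat_lit 5) (nat_lit 12) (nat_lit 4) (nat_lit 5) (nat_lit 13) (by decide +kernel)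
theorem L8850 : W_24 (nat_lit 3) (nat_lit 0xc0002000d000280000001000080000000000000000000000000000000) (nat_lit 0x0) (nat_lit 0x40000000040006000100000000000000000000000000000000000) := T_24 (nat_lit 158) (nat_lit 210) (nat_lit 7) (nat_lit 5) (nat_lit 9) L8849 (by decide +kernel)
theorem L8851 : W_24 (nat_lit 4) (nat_lit 0x40002000d000280000001000080000000000000000000000000000000) (nat_lit 0x0) (nat_lit 0x10000800040000000040006000100000000000000000000000000000000000) := T_24 (nat_lit 227) (nat_lit 244) (nat_lit 7) (nat_lit 5) (nat_lit 10) L8850 (by decide +kernel)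
theorem L8852 : W_24 (nat_lit 9) (nat_lit 0x2000d000280000001000080000000000000000000000000000000) (nat_lit 0x0) (nat_lit 0x28001c000e00050000000440066000f00068000000000000000000000000000000) := Q_24 (nat_lit 226) (C_24 L8825 (C_24 L8848 (C_24 L8761 (C_24 L8851 N_24)))) (by decide +kernel)
theorem L8853 : W_24 (nat_lit 7) (nat_lit 0x2000d000280000001000080000000000000000000000000000000) (nat_lit 0x0) (nat_lit 0x28001c001e0005c000800440026000200010000000000000000000000000000000) := Q_24 (nat_lit 226) (C_24 L8848 (C_24 L8766 (C_24 L8818 (C_24 L8808 N_24)))) (by decide +kernel)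
theorem L8854 : W_24 (nat_lit 2) (nat_lit 0x1e000d000280020001000080000000000000000000000000000000) (nat_lit 0x0) (nat_lit 0x40006000000000000000000000000000000000000000000000000000000000) := D_24 (nat_lit 229) (nat_lit 230) (nat_lit 246) (nat_lit 3) (nat_lit 5) (nat_lit 12) (nat_lit 4) (nat_lit 8) (nat_lit 14) (by decide +kernel)
theorem L8855 : W_24 (nat_lit 3) (nat_lit 0xe000d000280020001000080000000000000000000000000000000) (nat_lit 0x0) (nat_lit 0x40006000100000800000000000000000000000000000000000000000000000) := T_24 (nat_lit 212) (nat_lit 191) (nat_lit 0) (nat_lit 8) (nat_lit 12) L8854 (by decide +kernel)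
theorem L8856 : W_24 (nat_lit 4) (nat_lit 0xa000d000280020001000080000000000000000000000000000000) (nat_lit 0x0) (nat_lit 0x40006000150000800000000000000000000000000000000000000000000000) := T_24 (nat_lit 210) (nat_lit 208) (nat_lit 2) (nat_lit 4) (nat_lit 12) L8855 (by decide +kernel)
theorem L8857 : W_24 (nat_lit 5) (nat_lit 0xa000d000280000001000080000000000000000000000000000000) (nat_lit 0x0) (nat_lit 0x40006000150000800400020000000000000000000000000000000000000000) := T_24 (nat_lit 161) (nat_lit 178) (nat_lit 5) (nat_lit 8) (nat_lit 7) L8856 (by decide +kernel)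
theorem L8863 : W_24 (nat_lit 7) (nat_lit 0xa000d000280000001000080000000000000000000000000000000) (nat_lit 0x0) (nat_lit 0x7c003e00010000000400020000000000000000000000000000000000000000) := T_24 (nat_lit 178) (nat_lit 161) (nat_lit 5) (nat_lit 8) (nat_lit 7) L8862 (by decide +kernel)
theorem L8864 : W_24 (nat_lit 2) (nat_lit 0x1e000d000280000001000080000000000000000000000000000000) (nat_lit 0x0) (nat_lit 0x40006000000000000000000000000000000000000000000000000000000000) := D_24 (nat_lit 229) (nat_lit 230) (nat_lit 246) (nat_lit 3) (nat_lit 5) (nat_lit 12) (nat_lit 4) (nat_lit 8) (nat_lit 14) (by decide +kernel)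
theorem L8865 : W_24 (nat_lit 3) (nat_lit 0xe000d000280000001000080000000000000000000000000000000) (nat_lit 0x0) (nat_lit 0x40006000100000800000000000000000000000000000000000000000000000) := T_24 (nat_lit 212) (nat_lit 191) (nat_lit 0) (nat_lit 8) (nat_lit 12) L8864 (by decide +kernel)
theorem L8866 : W_24 (nat_lit 4) (nat_lit 0xa000d000280000001000080000000000000000000000000000000) (nat_lit 0x0) (nat_lit 0x40006000150000800000000000000000000000000000000000000000000000) := T_24 (nat_lit 210) (nat_lit 208) (nat_lit 2) (nat_lit 4) (nat_lit 12) L8865 (by decide +kernel)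
theorem L8867 : W_24 (nat_lit 2) (nat_lit 0x4001e000d000280020001000080000000000000000000000000000000) (nat_lit 0x0) (nat_lit 0x10000800200000000000000000000000000000000000000000000000000000) := D_24 (nat_lit 227) (nat_lit 213) (nat_lit 244) (nat_lit 1) (nat_lit 9) (nat_lit 12) (nat_lit 7) (nat_lit 5) (nat_lit 10) (by decide +kernel)
theorem L8868 : W_24 (nat_lit 3) (nat_lit 0x1e000d000280020001000080000000000000000000000000000000) (nat_lit 0x0) (nat_lit 0x10000e00200000000000000000000000000000000000000000000000000000) := T_24 (nat_lit 226) (nat_lit 225) (nat_lit 1) (nat_lit 8) (nat_lit 12) L8867 (by decide +kernel)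
theorem L8869 : W_24 (nat_lit 4) (nat_lit 0xe000d000280020001000080000000000000000000000000000000) (nat_lit 0x0) (nat_lit 0x10000e00300000800000000000000000000000000000000000000000000000) := T_24 (nat_lit 212) (nat_lit 191) (nat_lit 0) (nat_lit 8) (nat_lit 12) L8868 (by decide +kernel)
theorem L8870 : W_24 (nat_lit 5) (nat_lit 0xe000d000280000001000080000000000000000000000000000000) (nat_lit 0x0) (nat_lit 0x10000e00300000800400020000000000000000000000000000000000000000) := T_24 (nat_lit 161) (nat_lit 178) (nat_lit 5) (nat_lit 8) (nat_lit 7) L8869 (by decide +kernel)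
theorem L8871 : W_24 (nat_lit 6) (nat_lit 0xa000d000280000001000080000000000000000000000000000000) (nat_lit 0x0) (nat_lit 0x10000e00350000800400020000000000000000000000000000000000000000) := T_24 (nat_lit 210) (nat_lit 208) (nat_lit 2) (nat_lit 4) (nat_lit 12) L8870 (by decide +kernel)
theorem L8877 : W_24 (nat_lit 7) (nat_lit 0xa000d000280000001000080000000000000000000000000000000) (nat_lit 0x0) (nat_lit 0x1f0007800140000000400020000000000000000000000000000000000000000) := T_24 (nat_lit 178) (nat_lit 161) (nat_lit 5) (nat_lit 8) (nat_lit 7) L8876 (by decide +kernel)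
theorem L8878 : W_24 (nat_lit 8) (nat_lit 0x2000d000280000001000080000000000000000000000000000000) (nat_lit 0x0) (nat_lit 0x1fc007e003d0000800400020000000000000000000000000000000000000000) := Q_24 (nat_lit 211) (C_24 L8857 (C_24 L8863 (C_24 L8866 (C_24 L8871 (C_24 L8877 N_24))))) (by decide +kernel)
theorem L8879 : W_24 (nat_lit 6) (nat_lit 0x2000d000280000001000080000000000000000000000000000000) (nat_lit 0x0) (nat_lit 0x28001c000e00040000800440026000100000000000000000000000000000000000) := Q_24 (nat_lit 226) (C_24 L8851 (C_24 L8848 (C_24 L8818 N_24))) (by decide +kernel)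
theorem L8880 : W_24 (nat_lit 2) (nat_lit 0x8003c000a000d000680000001000080000000000000000000000000000000) (nat_lit 0x0) (nat_lit 0x800040002000000000000000000000000000000000000000) := D_24 (nat_lit 174) (nat_lit 157) (nat_lit 191) (nat_lit 4) (nat_lit 5) (nat_lit 13) (nat_lit 4) (nat_lit 5) (nat_lit 14) (by decide +kernel)
theorem L8881 : W_24 (nat_lit 3) (nat_lit 0x3c000a000d000680000001000080000000000000000000000000000000) (nat_lit 0x0) (nat_lit 0xc000000000000800040002000000000000000000000000000000000000000) := T_24 (nat_lit 243) (nat_lit 242) (nat_lit 1) (nat_lit 8) (nat_lit 13) L8880 (by decide +kernel)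
theorem L8882 : W_24 (nat_lit 4) (nat_lit 0x38000a000d000680000001000080000000000000000000000000000000) (nat_lit 0x0) (nat_lit 0xc000400010000800040002000000000000000000000000000000000000000) := T_24 (nat_lit 226) (nat_lit 208) (nat_lit 0) (nat_lit 8) (nat_lit 13) L8881 (by decide +kernel)
theorem L8883 : W_24 (nat_lit 5) (nat_lit 0x18000a000d000680000001000080000000000000000000000000000000) (nat_lit 0x0) (nat_lit 0x4c002400010000800040002000000000000000000000000000000000000000) := T_24 (nat_lit 229) (nat_lit 246) (nat_lit 7) (nat_lit 7) (nat_lit 10) L8882 (by decide +kernel)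
theorem L8884 : W_24 (nat_lit 6) (nat_lit 0x10000a000d000680000001000080000000000000000000000000000000) (nat_lit 0x0) (nat_lit 0x5c002c00010000800040002000000000000000000000000000000000000000) := T_24 (nat_lit 227) (nat_lit 244) (nat_lit 5) (nat_lit 7) (nat_lit 10) L8883 (by decide +kernel)
theorem L8885 : W_24 (nat_lit 7) (nat_lit 0xa000d000680000001000080000000000000000000000000000000) (nat_lit 0x0) (nat_lit 0x7c003c00010000800040002000000000000000000000000000000000000000) := T_24 (nat_lit 228) (nat_lit 245) (nat_lit 6) (nat_lit 7) (nat_lit 14) L8884 (by decide +kernel)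
theorem L8886 : W_24 (nat_lit 8) (nat_lit 0xa000d000280000001000080000000000000000000000000000000) (nat_lit 0x0) (nat_lit 0x7c003c00010000800440022000000000000000000000000000000000000000) := T_24 (nat_lit 178) (nat_lit 161) (nat_lit 5) (nat_lit 8) (nat_lit 7) L8885 (by decide +kernel)
theorem L8887 : W_24 (nat_lit 2) (nat_lit 0x1e000d000280024001700080000000000000000000000000000000) (nat_lit 0x0) (nat_lit 0x40000800040000000000000000000000000000000) := D_24 (nat_lit 143) (nat_lit 162) (nat_lit 126) (nat_lit 3) (nat_lit 5) (nat_lit 8) (nat_lit 2) (nat_lit 4) (nat_lit 8) (by decide +kernel)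
theorem L8888 : W_24 (nat_lit 3) (nat_lit 0x1e000d000280024001300080000000000000000000000000000000) (nat_lit 0x0) (nat_lit 0x40000c00060000000000000000000000000000000) := T_24 (nat_lit 142) (nat_lit 125) (nat_lit 6) (nat_lit 5) (nat_lit 11) L8887 (by decide +kernel)
theorem L8889 : W_24 (nat_lit 4) (nat_lit 0x1e000d000280024001100080000000000000000000000000000000) (nat_lit 0x0) (nat_lit 0x40000e00068000000000000000000000000000000) := T_24 (nat_lit 141) (nat_lit 123) (nat_lit 4) (nat_lit 5) (nat_lit 11) L8888 (by decide +kernel)
theorem L8890 : W_24 (nat_lit 5) (nat_lit 0x1e000d000280024001000080000000000000000000000000000000) (nat_lit 0x0) (nat_lit 0x42000f00068000000000000000000000000000000) := T_24 (nat_lit 140) (nat_lit 157) (nat_lit 4) (nat_lit 5) (nat_lit 12) L8889 (by decide +kernel)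
theorem L8891 : W_24 (nat_lit 6) (nat_lit 0x1e000d000280020001000080000000000000000000000000000000) (nat_lit 0x0) (nat_lit 0x800000000000000046000f00068000000000000000000000000000000) := T_24 (nat_lit 158) (nat_lit 227) (nat_lit 7) (nat_lit 5) (nat_lit 9) L8890 (by decide +kernel)
theorem L8892 : W_24 (nat_lit 7) (nat_lit 0xe000d000280020001000080000000000000000000000000000000) (nat_lit 0x0) (nat_lit 0x800100000800000046000f00068000000000000000000000000000000) := T_24 (nat_lit 212) (nat_lit 191) (nat_lit 0) (nat_lit 8) (nat_lit 12) L8891 (by decide +kernel)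
theorem L8893 : W_24 (nat_lit 8) (nat_lit 0xe000d000280000001000080000000000000000000000000000000) (nat_lit 0x0) (nat_lit 0x800100000800400066000f00068000000000000000000000000000000) := T_24 (nat_lit 161) (nat_lit 178) (nat_lit 5) (nat_lit 8) (nat_lit 7) L8892 (by decide +kernel)
theorem L8894 : W_24 (nat_lit 9) (nat_lit 0xa000d000280000001000080000000000000000000000000000000) (nat_lit 0x0) (nat_lit 0x800150000800400066000f00068000000000000000000000000000000) := T_24 (nat_lit 210) (nat_lit 208) (nat_lit 2) (nat_lit 4) (nat_lit 12) L8893 (by decide +kernel)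
theorem L8895 : W_24 (nat_lit 10) (nat_lit 0x2000d000280000001000080000000000000000000000000000000) (nat_lit 0x0) (nat_lit 0x1fc007c001d0000800440066000f00068000000000000000000000000000000) := Q_24 (nat_lit 211) (C_24 L8877 (C_24 L8886 (C_24 L8866 (C_24 L8894 N_24)))) (by decide +kernel)
theorem L8896 : W_24 (nat_lit 11) (nat_lit 0xd000280000001000080000000000000000000000000000000) (nat_lit 0x0) (nat_lit 0x50003801fc007e003fc000800440066000f00178000000000000000000000000000000) := Q_24 (nat_lit 209) (C_24 L8787 (C_24 L8767 (C_24 L8813 (C_24 L8814 (C_24 L8844 (C_24 L8852 (C_24 L8853 (C_24 L8878 (C_24 L8879 (C_24 L8895 N_24)))))))))) (by decide +kernel)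
theorem L8897 : W_24 (nat_lit 2) (nat_lit 0xd000680000001000080000000000000000000000000000000) (nat_lit 0x0) (nat_lit 0x800140000000000000000000000000000000000000000000) := D_24 (nat_lit 176) (nat_lit 174) (nat_lit 191) (nat_lit 3) (nat_lit 4) (nat_lit 10) (nat_lit 1) (nat_lit 8) (nat_lit 10) (by decide +kernel)
theorem L8898 : W_24 (nat_lit 3) (nat_lit 0xd000280000001000080000000000000000000000000000000) (nat_lit 0x0) (nat_lit 0x800540020000000000000000000000000000000000000000) := T_24 (nat_lit 178) (nat_lit 161) (nat_lit 5) (nat_lit 8) (nat_lit 7) L8897 (by decide +kernel)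
theorem L8899 : W_24 (nat_lit 2) (nat_lit 0xe0003000d0002c0020001000080000000000000000000000000000000) (nat_lit 0x0) (nat_lit 0x100000c000000000000000000000000000000000000000000000000000) := D_24 (nat_lit 207) (nat_lit 206) (nat_lit 228) (nat_lit 3) (nat_lit 2) (nat_lit 12) (nat_lit 0) (nat_lit 7) (nat_lit 13) (by decide +kernel)
theorem L8900 : W_24 (nat_lit 3) (nat_lit 0x60003000d0002c0020001000080000000000000000000000000000000) (nat_lit 0x0) (nat_lit 0x1000180000c000000000000000000000000000000000000000000000000000) := T_24 (nat_lit 227) (nat_lit 244) (nat_lit 7) (nat_lit 5) (nat_lit 10) L8899 (by decide +kernel)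
theorem L8901 : W_24 (nat_lit 4) (nat_lit 0x60002000d0002c0020001000080000000000000000000000000000000) (nat_lit 0x0) (nat_lit 0x1000180001c000000000004000000000000000000000000000000000000000) := T_24 (nat_lit 208) (nat_lit 158) (nat_lit 5) (nat_lit 5) (nat_lit 9) L8900 (by decide +kernel)
theorem L8902 : W_24 (nat_lit 5) (nat_lit 0x40002000d0002c0020001000080000000000000000000000000000000) (nat_lit 0x0) (nat_lit 0x14001a0001c000000000004000000000000000000000000000000000000000) := T_24 (nat_lit 225) (nat_lit 242) (nat_lit 5) (nat_lit 5) (nat_lit 10) L8901 (by decide +kernel)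
theorem L8903 : W_24 (nat_lit 6) (nat_lit 0x2000d0002c0020001000080000000000000000000000000000000) (nat_lit 0x0) (nat_lit 0x14001e0001c000000000006000000000000000000000000000000000000000) := T_24 (nat_lit 226) (nat_lit 157) (nat_lit 4) (nat_lit 5) (nat_lit 13) L8902 (by decide +kernel)
theorem L8904 : W_24 (nat_lit 7) (nat_lit 0x2000d0002c0000001000080000000000000000000000000000000) (nat_lit 0x0) (nat_lit 0x14001e0001c000000400026000000000000000000000000000000000000000) := T_24 (nat_lit 161) (nat_lit 178) (nat_lit 5) (nat_lit 8) (nat_lit 7) L8903 (by decide +kernel)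
theorem L8905 : W_24 (nat_lit 8) (nat_lit 0x2000d000280000001000080000000000000000000000000000000) (nat_lit 0x0) (nat_lit 0x14001e0001c000000540026000000000000000000000000000000000000000) := T_24 (nat_lit 174) (nat_lit 176) (nat_lit 3) (nat_lit 4) (nat_lit 10) L8904 (by decide +kernel)
theorem L8906 : W_24 (nat_lit 2) (nat_lit 0x2000d0002c0022001000080000000000000000000000000000000) (nat_lit 0x0) (nat_lit 0x4000100008000000000000000000000000000000) := D_24 (nat_lit 140) (nat_lit 158) (nat_lit 123) (nat_lit 4) (nat_lit 5) (nat_lit 12) (nat_lit 7) (nat_lit 4) (nat_lit 7) (by decide +kernel)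
theorem L8907 : W_24 (nat_lit 3) (nat_lit 0x2000d0002c0020001000080000000000000000000000000000000) (nat_lit 0x0) (nat_lit 0x400000000000000006000100008000000000000000000000000000000) := T_24 (nat_lit 157) (nat_lit 226) (nat_lit 4) (nat_lit 5) (nat_lit 13) L8906 (by decide +kernel)
theorem L8908 : W_24 (nat_lit 4) (nat_lit 0x2000d0002c0000001000080000000000000000000000000000000) (nat_lit 0x0) (nat_lit 0x400000000000400026000100008000000000000000000000000000000) := T_24 (nat_lit 161) (nat_lit 178) (nat_lit 5) (nat_lit 8) (nat_lit 7) L8907 (by decide +kernel)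
theorem L8909 : W_24 (nat_lit 5) (nat_lit 0x2000d000280000001000080000000000000000000000000000000) (nat_lit 0x0) (nat_lit 0x400000000000540026000100008000000000000000000000000000000) := T_24 (nat_lit 174) (nat_lit 176) (nat_lit 3) (nat_lit 4) (nat_lit 10) L8908 (by decide +kernel)
theorem L8910 : W_24 (nat_lit 2) (nat_lit 0x3000d000280024001700080000000000000000000000000000000) (nat_lit 0x0) (nat_lit 0x40000800040000000000000000000000000000000) := D_24 (nat_lit 143) (nat_lit 162) (nat_lit 126) (nat_lit 3) (nat_lit 5) (nat_lit 8) (nat_lit 2) (nat_lit 4) (nat_lit 8) (by decide +kernel)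
theorem L8911 : W_24 (nat_lit 3) (nat_lit 0x3000d000280024001300080000000000000000000000000000000) (nat_lit 0x0) (nat_lit 0x40000c00060000000000000000000000000000000) := T_24 (nat_lit 142) (nat_lit 125) (nat_lit 6) (nat_lit 5) (nat_lit 11) L8910 (by decide +kernel)
theorem L8912 : W_24 (nat_lit 4) (nat_lit 0x3000d000280024001100080000000000000000000000000000000) (nat_lit 0x0) (nat_lit 0x40000e00068000000000000000000000000000000) := T_24 (nat_lit 141) (nat_lit 123) (nat_lit 4) (nat_lit 5) (nat_lit 11) L8911 (by decide +kernel)
theorem L8913 : W_24 (nat_lit 5) (nat_lit 0x3000d000280024001000080000000000000000000000000000000) (nat_lit 0x0) (nat_lit 0x42000f00068000000000000000000000000000000) := T_24 (nat_lit 140) (nat_lit 157) (nat_lit 4) (nat_lit 5) (nat_lit 12) L8912 (by decide +kernel)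
theorem L8914 : W_24 (nat_lit 6) (nat_lit 0x2000d000280024001000080000000000000000000000000000000) (nat_lit 0x0) (nat_lit 0x200010000000000042000f00068000000000000000000000000000000) := T_24 (nat_lit 208) (nat_lit 225) (nat_lit 5) (nat_lit 5) (nat_lit 9) L8913 (by decide +kernel)
theorem L8915 : W_24 (nat_lit 7) (nat_lit 0x2000d000280004001000080000000000000000000000000000000) (nat_lit 0x0) (nat_lit 0x200010000000400062000f00068000000000000000000000000000000) := T_24 (nat_lit 161) (nat_lit 178) (nat_lit 5) (nat_lit 8) (nat_lit 7) L8914 (by decide +kernel)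
theorem L8916 : W_24 (nat_lit 8) (nat_lit 0x2000d000280000001000080000000000000000000000000000000) (nat_lit 0x0) (nat_lit 0xa000d0000000400066000f00168000000000000000000000000000000) := Q_24 (nat_lit 158) (C_24 L8786 (C_24 L8915 (C_24 L8781 N_24))) (by decide +kernel)
theorem L8917 : W_24 (nat_lit 2) (nat_lit 0x1400040002000d0002c0020001000080000000000000000000000000000000) (nat_lit 0x0) (nat_lit 0x280008000000000000000000000000000000000000000000000000000000000000) := D_24 (nat_lit 243) (nat_lit 259) (nat_lit 261) (nat_lit 5) (nat_lit 5) (nat_lit 11) (nat_lit 7) (nat_lit 5) (nat_lit 11) (by decide +kernel)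
theorem L8918 : W_24 (nat_lit 3) (nat_lit 0x400040002000d0002c0020001000080000000000000000000000000000000) (nat_lit 0x0) (nat_lit 0x280018000800000000000000000000000000000000000000000000000000000000) := T_24 (nat_lit 244) (nat_lit 227) (nat_lit 7) (nat_lit 5) (nat_lit 10) L8917 (by decide +kernel)
theorem L8919 : W_24 (nat_lit 4) (nat_lit 0x40002000d0002c0020001000080000000000000000000000000000000) (nat_lit 0x0) (nat_lit 0x28001c000a00000000000000000000000000000000000000000000000000000000) := T_24 (nat_lit 242) (nat_lit 225) (nat_lit 5) (nat_lit 5) (nat_lit 10) L8918 (by decide +kernel)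
theorem L8920 : W_24 (nat_lit 5) (nat_lit 0x2000d0002c0020001000080000000000000000000000000000000) (nat_lit 0x0) (nat_lit 0x28001c000e00000000000000002000000000000000000000000000000000000000) := T_24 (nat_lit 226) (nat_lit 157) (nat_lit 4) (nat_lit 5) (nat_lit 13) L8919 (by decide +kernel)
theorem L8921 : W_24 (nat_lit 6) (nat_lit 0x2000d000280020001000080000000000000000000000000000000) (nat_lit 0x0) (nat_lit 0x28001c000e00000000000140002000000000000000000000000000000000000000) := T_24 (nat_lit 174) (nat_lit 176) (nat_lit 3) (nat_lit 4) (nat_lit 10) L8920 (by decide +kernel)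
theorem L8922 : W_24 (nat_lit 7) (nat_lit 0x2000d000280000001000080000000000000000000000000000000) (nat_lit 0x0) (nat_lit 0x28001c000e00000000000540022000000000000000000000000000000000000000) := T_24 (nat_lit 161) (nat_lit 178) (nat_lit 5) (nat_lit 8) (nat_lit 7) L8921 (by decide +kernel)
theorem L8923 : W_24 (nat_lit 2) (nat_lit 0x2000b000d0002c0000001000080000000000000000000000000000000) (nat_lit 0x0) (nat_lit 0x80004000400000000000000000000000000000000000000000000000000000000) := D_24 (nat_lit 242) (nat_lit 226) (nat_lit 259) (nat_lit 5) (nat_lit 5) (nat_lit 10) (nat_lit 6) (nat_lit 4) (nat_lit 15) (by decide +kernel)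
theorem L8924 : W_24 (nat_lit 3) (nat_lit 0xb000d0002c0000001000080000000000000000000000000000000) (nat_lit 0x0) (nat_lit 0x80004000600000000000000004000000000000000000000000000000000000000) := T_24 (nat_lit 225) (nat_lit 158) (nat_lit 5) (nat_lit 5) (nat_lit 9) L8923 (by decide +kernel)
theorem L8925 : W_24 (nat_lit 4) (nat_lit 0xa000d0002c0000001000080000000000000000000000000000000) (nat_lit 0x0) (nat_lit 0x80004000600050000000000004000000000000000000000000000000000000000) := T_24 (nat_lit 208) (nat_lit 210) (nat_lit 2) (nat_lit 4) (nat_lit 12) L8924 (by decide +kernel)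
theorem L8926 : W_24 (nat_lit 5) (nat_lit 0xa000d000280000001000080000000000000000000000000000000) (nat_lit 0x0) (nat_lit 0x80004000600050000000140004000000000000000000000000000000000000000) := T_24 (nat_lit 174) (nat_lit 176) (nat_lit 3) (nat_lit 4) (nat_lit 10) L8925 (by decide +kernel)
theorem L8927 : W_24 (nat_lit 8) (nat_lit 0x2000d000280000001000080000000000000000000000000000000) (nat_lit 0x0) (nat_lit 0x801fc007e001d0000000540024000000000000000000000000000000000000000) := Q_24 (nat_lit 211) (C_24 L8877 (C_24 L8863 (C_24 L8926 N_24))) (by decide +kernel)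
theorem L8928 : W_24 (nat_lit 10) (nat_lit 0xd000280000001000080000000000000000000000000000000) (nat_lit 0x0) (nat_lit 0x2801fc007e001fc000000540066000f00168000000000000000000000000000000) := Q_24 (nat_lit 209) (C_24 L8852 (C_24 L8775 (C_24 L8905 (C_24 L8909 (C_24 L8916 (C_24 L8922 (C_24 L8927 N_24))))))) (by decide +kernel)
theorem L8929 : W_24 (nat_lit 2) (nat_lit 0xd000680004001000080000000000000000000000000000000) (nat_lit 0x0) (nat_lit 0x800100002000000000000000000000000000000000000000) := D_24 (nat_lit 176) (nat_lit 191) (nat_lit 157) (nat_lit 1) (nat_lit 8) (nat_lit 10) (nat_lit 0) (nat_lit 8) (nat_lit 10) (by decide +kernel)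
theorem L8930 : W_24 (nat_lit 3) (nat_lit 0xd000280004001000080000000000000000000000000000000) (nat_lit 0x0) (nat_lit 0x800500022000000000000000000000000000000000000000) := T_24 (nat_lit 178) (nat_lit 161) (nat_lit 5) (nat_lit 8) (nat_lit 7) L8929 (by decide +kernel)
theorem L8931 : W_24 (nat_lit 2) (nat_lit 0xd000280004001700080000000000000000000000000000000) (nat_lit 0x0) (nat_lit 0x2000800100000000000000000000000000000000) := D_24 (nat_lit 143) (nat_lit 128) (nat_lit 157) (nat_lit 2) (nat_lit 5) (nat_lit 8) (nat_lit 1) (nat_lit 8) (nat_lit 8) (by decide +kernel)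
theorem L8932 : W_24 (nat_lit 3) (nat_lit 0xd000280004001300080000000000000000000000000000000) (nat_lit 0x0) (nat_lit 0x2000c00120000000000000000000000000000000) := T_24 (nat_lit 142) (nat_lit 125) (nat_lit 6) (nat_lit 5) (nat_lit 11) L8931 (by decide +kernel)
theorem L8933 : W_24 (nat_lit 4) (nat_lit 0xd000280004001200080000000000000000000000000000000) (nat_lit 0x0) (nat_lit 0x2000d00128000000000000000000000000000000) := T_24 (nat_lit 140) (nat_lit 123) (nat_lit 4) (nat_lit 5) (nat_lit 11) L8932 (by decide +kernel)
theorem L8934 : W_24 (nat_lit 2) (nat_lit 0xd000280004001700080000000000000000000000000000000) (nat_lit 0x0) (nat_lit 0x2000800040000000000000000000000000000000) := D_24 (nat_lit 143) (nat_lit 126) (nat_lit 157) (nat_lit 2) (nat_lit 4) (nat_lit 8) (nat_lit 1) (nat_lit 8) (nat_lit 8) (by decide +kernel)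
theorem L8935 : W_24 (nat_lit 3) (nat_lit 0xd000280004001300080000000000000000000000000000000) (nat_lit 0x0) (nat_lit 0x2000c00060000000000000000000000000000000) := T_24 (nat_lit 142) (nat_lit 125) (nat_lit 6) (nat_lit 5) (nat_lit 11) L8934 (by decide +kernel)
theorem L8936 : W_24 (nat_lit 4) (nat_lit 0xd000280004001200080000000000000000000000000000000) (nat_lit 0x0) (nat_lit 0x2000d00068000000000000000000000000000000) := T_24 (nat_lit 140) (nat_lit 123) (nat_lit 4) (nat_lit 5) (nat_lit 11) L8935 (by decide +kernel)
theorem L8937 : W_24 (nat_lit 2) (nat_lit 0x1000d000280004001300080000000000000000000000000000000) (nat_lit 0x0) (nat_lit 0x200020000000000002000000000000000000000000000000000000000) := D_24 (nat_lit 209) (nat_lit 157) (nat_lit 225) (nat_lit 4) (nat_lit 5) (nat_lit 12) (nat_lit 5) (nat_lit 5) (nat_lit 9) (by decide +kernel)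
theorem L8938 : W_24 (nat_lit 3) (nat_lit 0xd000280004001300080000000000000000000000000000000) (nat_lit 0x0) (nat_lit 0x200030000800000002000000000000000000000000000000000000000) := T_24 (nat_lit 208) (nat_lit 191) (nat_lit 5) (nat_lit 5) (nat_lit 8) L8937 (by decide +kernel)
theorem L8939 : W_24 (nat_lit 4) (nat_lit 0xd000280004001200080000000000000000000000000000000) (nat_lit 0x0) (nat_lit 0x200030000800000002000100008000000000000000000000000000000) := T_24 (nat_lit 140) (nat_lit 123) (nat_lit 4) (nat_lit 5) (nat_lit 11) L8938 (by decide +kernel)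
theorem L8940 : W_24 (nat_lit 2) (nat_lit 0xd000280004001600080000000000000000000000000000000) (nat_lit 0x0) (nat_lit 0x2000800100000000000000000000000000000000) := D_24 (nat_lit 143) (nat_lit 128) (nat_lit 157) (nat_lit 2) (nat_lit 5) (nat_lit 8) (nat_lit 1) (nat_lit 8) (nat_lit 8) (by decide +kernel)
theorem L8941 : W_24 (nat_lit 3) (nat_lit 0xd000280004001200080000000000000000000000000000000) (nat_lit 0x0) (nat_lit 0x2000c00120000000000000000000000000000000) := T_24 (nat_lit 142) (nat_lit 125) (nat_lit 6) (nat_lit 5) (nat_lit 11) L8940 (by decide +kernel)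
theorem L8942 : W_24 (nat_lit 2) (nat_lit 0xd800280004001700080000000000000000000000000000000) (nat_lit 0x0) (nat_lit 0x800140000000000000000000000000000000) := D_24 (nat_lit 143) (nat_lit 128) (nat_lit 126) (nat_lit 2) (nat_lit 5) (nat_lit 8) (nat_lit 2) (nat_lit 4) (nat_lit 8) (by decide +kernel)
theorem L8943 : W_24 (nat_lit 3) (nat_lit 0xd800280004001300080000000000000000000000000000000) (nat_lit 0x0) (nat_lit 0xc00160000000000000000000000000000000) := T_24 (nat_lit 142) (nat_lit 125) (nat_lit 6) (nat_lit 5) (nat_lit 11) L8942 (by decide +kernel)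
theorem L8944 : W_24 (nat_lit 4) (nat_lit 0xd800280004001200080000000000000000000000000000000) (nat_lit 0x0) (nat_lit 0xd00168000000000000000000000000000000) := T_24 (nat_lit 140) (nat_lit 123) (nat_lit 4) (nat_lit 5) (nat_lit 11) L8943 (by decide +kernel)
theorem L8945 : W_24 (nat_lit 5) (nat_lit 0xd000280004001200080000000000000000000000000000000) (nat_lit 0x0) (nat_lit 0x10000800000000000d00168000000000000000000000000000000) := T_24 (nat_lit 191) (nat_lit 208) (nat_lit 5) (nat_lit 5) (nat_lit 8) L8944 (by decide +kernel)
theorem L8946 : W_24 (nat_lit 6) (nat_lit 0xd000280004001000080000000000000000000000000000000) (nat_lit 0x0) (nat_lit 0x200030000800000002000f00168000000000000000000000000000000) := Q_24 (nat_lit 141) (C_24 L8933 (C_24 L8936 (C_24 L8939 (C_24 L8941 (C_24 L8945 N_24))))) (by decide +kernel)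
theorem L8947 : W_24 (nat_lit 2) (nat_lit 0x3000d000680006001000080000000000000000000000000000000) (nat_lit 0x0) (nat_lit 0x8000c0000000000000000000000000000000000000000000000000000) := D_24 (nat_lit 210) (nat_lit 211) (nat_lit 227) (nat_lit 2) (nat_lit 4) (nat_lit 12) (nat_lit 7) (nat_lit 5) (nat_lit 9) (by decide +kernel)
theorem L8948 : W_24 (nat_lit 3) (nat_lit 0x2000d000680006001000080000000000000000000000000000000) (nat_lit 0x0) (nat_lit 0xa000d0000000000000000000000000000000000000000000000000000) := T_24 (nat_lit 208) (nat_lit 225) (nat_lit 5) (nat_lit 5) (nat_lit 9) L8947 (by decide +kernel)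
theorem L8949 : W_24 (nat_lit 4) (nat_lit 0xd000680006001000080000000000000000000000000000000) (nat_lit 0x0) (nat_lit 0xa000f0000000000000000100000000000000000000000000000000000) := T_24 (nat_lit 209) (nat_lit 140) (nat_lit 4) (nat_lit 5) (nat_lit 12) L8948 (by decide +kernel)
theorem L8950 : W_24 (nat_lit 5) (nat_lit 0xd000680004001000080000000000000000000000000000000) (nat_lit 0x0) (nat_lit 0xa000f0000000100002000100000000000000000000000000000000000) := T_24 (nat_lit 157) (nat_lit 176) (nat_lit 0) (nat_lit 8) (nat_lit 10) L8949 (by decide +kernel)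
theorem L8951 : W_24 (nat_lit 6) (nat_lit 0xd000280004001000080000000000000000000000000000000) (nat_lit 0x0) (nat_lit 0xa000f0000000500022000100000000000000000000000000000000000) := T_24 (nat_lit 178) (nat_lit 161) (nat_lit 5) (nat_lit 8) (nat_lit 7) L8950 (by decide +kernel)
theorem L8952 : W_24 (nat_lit 2) (nat_lit 0xd800680004001700080000000000000000000000000000000) (nat_lit 0x0) (nat_lit 0x800140000000000000000000000000000000) := D_24 (nat_lit 143) (nat_lit 128) (nat_lit 126) (nat_lit 2) (nat_lit 5) (nat_lit 8) (nat_lit 2) (nat_lit 4) (nat_lit 8) (by decide +kernel)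
theorem L8953 : W_24 (nat_lit 3) (nat_lit 0xd800680004001300080000000000000000000000000000000) (nat_lit 0x0) (nat_lit 0xc00160000000000000000000000000000000) := T_24 (nat_lit 142) (nat_lit 125) (nat_lit 6) (nat_lit 5) (nat_lit 11) L8952 (by decide +kernel)
theorem L8954 : W_24 (nat_lit 4) (nat_lit 0xd800680004001200080000000000000000000000000000000) (nat_lit 0x0) (nat_lit 0xd00168000000000000000000000000000000) := T_24 (nat_lit 140) (nat_lit 123) (nat_lit 4) (nat_lit 5) (nat_lit 11) L8953 (by decide +kernel)
theorem L8955 : W_24 (nat_lit 5) (nat_lit 0xd800680004001000080000000000000000000000000000000) (nat_lit 0x0) (nat_lit 0x10000000000000000f00168000000000000000000000000000000) := T_24 (nat_lit 141) (nat_lit 208) (nat_lit 5) (nat_lit 5) (nat_lit 8) L8954 (by decide +kernel)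
theorem L8956 : W_24 (nat_lit 6) (nat_lit 0xd000680004001000080000000000000000000000000000000) (nat_lit 0x0) (nat_lit 0x10000800100000000f00168000000000000000000000000000000) := T_24 (nat_lit 191) (nat_lit 176) (nat_lit 1) (nat_lit 8) (nat_lit 10) L8955 (by decide +kernel)
theorem L8957 : W_24 (nat_lit 7) (nat_lit 0xd000280004001000080000000000000000000000000000000) (nat_lit 0x0) (nat_lit 0x10000800500020000f00168000000000000000000000000000000) := T_24 (nat_lit 178) (nat_lit 161) (nat_lit 5) (nat_lit 8) (nat_lit 7) L8956 (by decide +kernel)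
theorem L8958 : W_24 (nat_lit 8) (nat_lit 0xd000280000001000080000000000000000000000000000000) (nat_lit 0x0) (nat_lit 0xa000f0000800500026000f00168000000000000000000000000000000) := Q_24 (nat_lit 158) (C_24 L8930 (C_24 L8946 (C_24 L8951 (C_24 L8957 N_24)))) (by decide +kernel)
theorem L8959 : W_24 (nat_lit 12) (nat_lit 0xd000200000001000080000000000000000000000000000000) (nat_lit 0x0) (nat_lit 0x50003801fc007e003fc0008005c0066000f00178000000000000000000000000000000) := Q_24 (nat_lit 175) (C_24 L8795 (C_24 L8896 (C_24 L8898 (C_24 L8928 (C_24 L8958 N_24))))) (by decide +kernel)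
theorem L8960 : W_24 (nat_lit 2) (nat_lit 0x2000fc00240000001000080000000000000000000000000000000) (nat_lit 0x0) (nat_lit 0xc0000200000000000000000000000000000000000000000000000) := D_24 (nat_lit 210) (nat_lit 189) (nat_lit 211) (nat_lit 3) (nat_lit 2) (nat_lit 11) (nat_lit 3) (nat_lit 3) (nat_lit 11) (by decide +kernel)
theorem L8961 : W_24 (nat_lit 3) (nat_lit 0x2000f800240000001000080000000000000000000000000000000) (nat_lit 0x0) (nat_lit 0xc0000600100000000000000000000000000000000000000000000) := T_24 (nat_lit 190) (nat_lit 176) (nat_lit 2) (nat_lit 3) (nat_lit 11) L8960 (by decide +kernel)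
theorem L8962 : W_24 (nat_lit 4) (nat_lit 0x2000f000240000001000080000000000000000000000000000000) (nat_lit 0x0) (nat_lit 0xc0000e00120000000000000000000000000000000000000000000) := T_24 (nat_lit 191) (nat_lit 173) (nat_lit 0) (nat_lit 7) (nat_lit 11) L8961 (by decide +kernel)
theorem L8963 : W_24 (nat_lit 5) (nat_lit 0xf000240000001000080000000000000000000000000000000) (nat_lit 0x0) (nat_lit 0xf0000e00120000000000000000000000000000000000000000000) := T_24 (nat_lit 209) (nat_lit 208) (nat_lit 1) (nat_lit 8) (nat_lit 11) L8962 (by decide +kernel)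
theorem L8964 : W_24 (nat_lit 6) (nat_lit 0xf000200000001000080000000000000000000000000000000) (nat_lit 0x0) (nat_lit 0xf0000e001e0000000000000000000000000000000000000000000) := T_24 (nat_lit 174) (nat_lit 175) (nat_lit 0) (nat_lit 8) (nat_lit 11) L8963 (by decide +kernel)
theorem L8965 : W_24 (nat_lit 2) (nat_lit 0x4000000010000f800240000001000080000000000000000000000000000000) (nat_lit 0x0) (nat_lit 0x38000000000000000000000000000000000000000000000000000) := D_24 (nat_lit 208) (nat_lit 209) (nat_lit 207) (nat_lit 1) (nat_lit 8) (nat_lit 11) (nat_lit 1) (nat_lit 7) (nat_lit 11) (by decide +kernel)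
theorem L8966 : W_24 (nat_lit 3) (nat_lit 0x4000000010000f000240000001000080000000000000000000000000000000) (nat_lit 0x0) (nat_lit 0x38000800020000000000000000000000000000000000000000000) := T_24 (nat_lit 191) (nat_lit 173) (nat_lit 0) (nat_lit 7) (nat_lit 11) L8965 (by decide +kernel)
theorem L8967 : W_24 (nat_lit 4) (nat_lit 0x10000f000240000001000080000000000000000000000000000000) (nat_lit 0x0) (nat_lit 0x40002000038000800020000000000000000000000000000000000000000000) := T_24 (nat_lit 246) (nat_lit 229) (nat_lit 4) (nat_lit 8) (nat_lit 14) L8966 (by decide +kernel)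
theorem L8968 : W_24 (nat_lit 5) (nat_lit 0x10000f000200000001000080000000000000000000000000000000) (nat_lit 0x0) (nat_lit 0x400020000380008000e0000000000000000000000000000000000000000000) := T_24 (nat_lit 174) (nat_lit 175) (nat_lit 0) (nat_lit 8) (nat_lit 11) L8967 (by decide +kernel)
theorem L8969 : W_24 (nat_lit 6) (nat_lit 0xf000200000001000080000000000000000000000000000000) (nat_lit 0x0) (nat_lit 0x400020003380008000e0000000000000000000000000000000000000000000) := T_24 (nat_lit 212) (nat_lit 213) (nat_lit 3) (nat_lit 5) (nat_lit 11) L8968 (by decide +kernel)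
theorem L8970 : W_24 (nat_lit 2) (nat_lit 0x12000fc00200000001000080000000000000000000000000000000) (nat_lit 0x0) (nat_lit 0x70000000000000000000000000000000000000000000) := D_24 (nat_lit 173) (nat_lit 174) (nat_lit 172) (nat_lit 0) (nat_lit 7) (nat_lit 11) (nat_lit 0) (nat_lit 6) (nat_lit 11) (by decide +kernel)
theorem L8971 : W_24 (nat_lit 3) (nat_lit 0x12000f800200000001000080000000000000000000000000000000) (nat_lit 0x0) (nat_lit 0x400170000000000000000000000000000000000000000000) := T_24 (nat_lit 190) (nat_lit 176) (nat_lit 2) (nat_lit 3) (nat_lit 11) L8970 (by decide +kernel)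
theorem L8972 : W_24 (nat_lit 4) (nat_lit 0x12000f000200000001000080000000000000000000000000000000) (nat_lit 0x0) (nat_lit 0x80000c00170000000000000000000000000000000000000000000) := T_24 (nat_lit 191) (nat_lit 211) (nat_lit 3) (nat_lit 4) (nat_lit 11) L8971 (by decide +kernel)
theorem L8973 : W_24 (nat_lit 5) (nat_lit 0x2000f000200000001000080000000000000000000000000000000) (nat_lit 0x0) (nat_lit 0x380000c00170000000000000000000000000000000000000000000) := T_24 (nat_lit 212) (nat_lit 213) (nat_lit 3) (nat_lit 5) (nat_lit 11) L8972 (by decide +kernel)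
theorem L8974 : W_24 (nat_lit 6) (nat_lit 0xf000200000001000080000000000000000000000000000000) (nat_lit 0x0) (nat_lit 0x3b0000c00170000000000000000000000000000000000000000000) := T_24 (nat_lit 209) (nat_lit 208) (nat_lit 1) (nat_lit 8) (nat_lit 11) L8973 (by decide +kernel)
theorem L8975 : W_24 (nat_lit 2) (nat_lit 0x4000080014000f000280000001000080000000000000000000000000000000) (nat_lit 0x0) (nat_lit 0x100004000200000000000000000000000000000000000) := D_24 (nat_lit 158) (nat_lit 141) (nat_lit 176) (nat_lit 7) (nat_lit 5) (nat_lit 8) (nat_lit 4) (nat_lit 6) (nat_lit 13) (by decide +kernel)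
theorem L8976 : W_24 (nat_lit 3) (nat_lit 0x4000000014000f000280000001000080000000000000000000000000000000) (nat_lit 0x0) (nat_lit 0x10000800000000000100004000200000000000000000000000000000000000) := T_24 (nat_lit 227) (nat_lit 244) (nat_lit 6) (nat_lit 6) (nat_lit 14) L8975 (by decide +kernel)
theorem L8977 : W_24 (nat_lit 4) (nat_lit 0x4000000014000f000200000001000080000000000000000000000000000000) (nat_lit 0x0) (nat_lit 0x100008000000000001c0004000200000000000000000000000000000000000) := T_24 (nat_lit 175) (nat_lit 174) (nat_lit 0) (nat_lit 8) (nat_lit 11) L8976 (by decide +kernel)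
theorem L8978 : W_24 (nat_lit 5) (nat_lit 0x14000f000200000001000080000000000000000000000000000000) (nat_lit 0x0) (nat_lit 0x500028000000000001c0004000200000000000000000000000000000000000) := T_24 (nat_lit 246) (nat_lit 229) (nat_lit 4) (nat_lit 8) (nat_lit 14) L8977 (by decide +kernel)
theorem L8979 : W_24 (nat_lit 6) (nat_lit 0x4000f000200000001000080000000000000000000000000000000) (nat_lit 0x0) (nat_lit 0x500028003000000001c0004000200000000000000000000000000000000000) := T_24 (nat_lit 212) (nat_lit 213) (nat_lit 3) (nat_lit 5) (nat_lit 11) L8978 (by decide +kernel)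
theorem L8980 : W_24 (nat_lit 2) (nat_lit 0x6000f000280000001000080000000000000000000000000000000) (nat_lit 0x0) (nat_lit 0x800000000000000004000200000000000000000000000000000000000) := D_24 (nat_lit 158) (nat_lit 141) (nat_lit 227) (nat_lit 7) (nat_lit 5) (nat_lit 8) (nat_lit 7) (nat_lit 5) (nat_lit 9) (by decide +kernel)
theorem L8981 : W_24 (nat_lit 3) (nat_lit 0x4000f000280000001000080000000000000000000000000000000) (nat_lit 0x0) (nat_lit 0x800030000000000004000200000000000000000000000000000000000) := T_24 (nat_lit 209) (nat_lit 208) (nat_lit 1) (nat_lit 8) (nat_lit 11) L8980 (by decide +kernel)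
theorem L8982 : W_24 (nat_lit 4) (nat_lit 0x4000f000200000001000080000000000000000000000000000000) (nat_lit 0x0) (nat_lit 0x8000300000000c0004000200000000000000000000000000000000000) := T_24 (nat_lit 175) (nat_lit 174) (nat_lit 0) (nat_lit 8) (nat_lit 11) L8981 (by decide +kernel)
theorem L8984 : W_24 (nat_lit 3) (nat_lit 0x6000f000200000001000080000000000000000000000000000000) (nat_lit 0x0) (nat_lit 0x100008000000000000c0004000000000000000000000000000000000000000) := T_24 (nat_lit 175) (nat_lit 174) (nat_lit 0) (nat_lit 8) (nat_lit 11) L8983 (by decide +kernel)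
theorem L8985 : W_24 (nat_lit 4) (nat_lit 0x4000f000200000001000080000000000000000000000000000000) (nat_lit 0x0) (nat_lit 0x100008000300000000c0004000000000000000000000000000000000000000) := T_24 (nat_lit 209) (nat_lit 208) (nat_lit 1) (nat_lit 8) (nat_lit 11) L8984 (by decide +kernel)
theorem L8986 : W_24 (nat_lit 2) (nat_lit 0x100024001e000f000200000001000080000000000000000000000000000000) (nat_lit 0x0) (nat_lit 0x100008000000000000000100000000000000000000000000000000000000000000) := D_24 (nat_lit 243) (nat_lit 176) (nat_lit 260) (nat_lit 6) (nat_lit 5) (nat_lit 14) (nat_lit 6) (nat_lit 5) (nat_lit 15) (by decide +kernel)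
theorem L8987 : W_24 (nat_lit 3) (nat_lit 0x100020001e000f000200000001000080000000000000000000000000000000) (nat_lit 0x0) (nat_lit 0x100008000600000000000100000000000000000000000000000000000000000000) := T_24 (nat_lit 226) (nat_lit 225) (nat_lit 1) (nat_lit 8) (nat_lit 12) L8986 (by decide +kernel)
theorem L8988 : W_24 (nat_lit 4) (nat_lit 0x1000200016000f000200000001000080000000000000000000000000000000) (nat_lit 0x0) (nat_lit 0x100008004600080000000100000000000000000000000000000000000000000000) := T_24 (nat_lit 211) (nat_lit 230) (nat_lit 3) (nat_lit 5) (nat_lit 12) L8987 (by decide +kernel)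
theorem L8989 : W_24 (nat_lit 5) (nat_lit 0x200016000f000200000001000080000000000000000000000000000000) (nat_lit 0x0) (nat_lit 0x100018004e00080000000100000000000000000000000000000000000000000000) := T_24 (nat_lit 244) (nat_lit 227) (nat_lit 6) (nat_lit 6) (nat_lit 14) L8988 (by decide +kernel)
theorem L8990 : W_24 (nat_lit 6) (nat_lit 0x200014000f000200000001000080000000000000000000000000000000) (nat_lit 0x0) (nat_lit 0x100018004e000b0000000100000000000000000000000000000000000000000000) := T_24 (nat_lit 209) (nat_lit 208) (nat_lit 1) (nat_lit 8) (nat_lit 11) L8989 (by decide +kernel)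
theorem L8991 : W_24 (nat_lit 7) (nat_lit 0x14000f000200000001000080000000000000000000000000000000) (nat_lit 0x0) (nat_lit 0x100058006e000b0000000100000000000000000000000000000000000000000000) := T_24 (nat_lit 229) (nat_lit 246) (nat_lit 4) (nat_lit 8) (nat_lit 14) L8990 (by decide +kernel)
theorem L8992 : W_24 (nat_lit 8) (nat_lit 0x4000f000200000001000080000000000000000000000000000000) (nat_lit 0x0) (nat_lit 0x100058006e003b0000000100000000000000000000000000000000000000000000) := T_24 (nat_lit 212) (nat_lit 213) (nat_lit 3) (nat_lit 5) (nat_lit 11) L8991 (by decide +kernel)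
theorem L8993 : W_24 (nat_lit 2) (nat_lit 0x24001e000f000280000001000080000000000000000000000000000000) (nat_lit 0x0) (nat_lit 0x100008000000000000000100000000000000000000000000000000000000000000) := D_24 (nat_lit 243) (nat_lit 260) (nat_lit 176) (nat_lit 6) (nat_lit 5) (nat_lit 15) (nat_lit 6) (nat_lit 5) (nat_lit 14) (by decide +kernel)
theorem L8994 : W_24 (nat_lit 3) (nat_lit 0x20001e000f000280000001000080000000000000000000000000000000) (nat_lit 0x0) (nat_lit 0x100008000600000000000100000000000000000000000000000000000000000000) := T_24 (nat_lit 226) (nat_lit 225) (nat_lit 1) (nat_lit 8) (nat_lit 12) L8993 (by decide +kernel)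
theorem L8995 : W_24 (nat_lit 4) (nat_lit 0x200016000f000280000001000080000000000000000000000000000000) (nat_lit 0x0) (nat_lit 0x100008004600080000000100000000000000000000000000000000000000000000) := T_24 (nat_lit 211) (nat_lit 230) (nat_lit 3) (nat_lit 5) (nat_lit 12) L8994 (by decide +kernel)
theorem L8996 : W_24 (nat_lit 5) (nat_lit 0x200016000f000200000001000080000000000000000000000000000000) (nat_lit 0x0) (nat_lit 0x1000080046000800000001c0000000000000000000000000000000000000000000) := T_24 (nat_lit 175) (nat_lit 174) (nat_lit 0) (nat_lit 8) (nat_lit 11) L8995 (by decide +kernel)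
theorem L8997 : W_24 (nat_lit 6) (nat_lit 0x16000f000200000001000080000000000000000000000000000000) (nat_lit 0x0) (nat_lit 0x1000480066000800000001c0000000000000000000000000000000000000000000) := T_24 (nat_lit 229) (nat_lit 246) (nat_lit 4) (nat_lit 8) (nat_lit 14) L8996 (by decide +kernel)
theorem L8998 : W_24 (nat_lit 7) (nat_lit 0x6000f000200000001000080000000000000000000000000000000) (nat_lit 0x0) (nat_lit 0x1000480066003800000001c0000000000000000000000000000000000000000000) := T_24 (nat_lit 212) (nat_lit 213) (nat_lit 3) (nat_lit 5) (nat_lit 11) L8997 (by decide +kernel)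
theorem L8999 : W_24 (nat_lit 8) (nat_lit 0x4000f000200000001000080000000000000000000000000000000) (nat_lit 0x0) (nat_lit 0x1000480066003b00000001c0000000000000000000000000000000000000000000) := T_24 (nat_lit 209) (nat_lit 208) (nat_lit 1) (nat_lit 8) (nat_lit 11) L8998 (by decide +kernel)
theorem L9000 : W_24 (nat_lit 9) (nat_lit 0xf000200000001000080000000000000000000000000000000) (nat_lit 0x0) (nat_lit 0x100058006e003f00000001c0004000200000000000000000000000000000000000) := Q_24 (nat_lit 210) (C_24 L8979 (C_24 L8982 (C_24 L8985 (C_24 L8992 (C_24 L8999 N_24))))) (by decide +kernel)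
theorem L9001 : W_24 (nat_lit 2) (nat_lit 0x10000fc00280000001000080000000000000000000000000000000) (nat_lit 0x0) (nat_lit 0x1c000000000000000000000000000000000000000000000000000) := D_24 (nat_lit 207) (nat_lit 206) (nat_lit 208) (nat_lit 1) (nat_lit 6) (nat_lit 11) (nat_lit 1) (nat_lit 7) (nat_lit 11) (by decide +kernel)
theorem L9002 : W_24 (nat_lit 3) (nat_lit 0x10000f800280000001000080000000000000000000000000000000) (nat_lit 0x0) (nat_lit 0x1c000400100000000000000000000000000000000000000000000) := T_24 (nat_lit 190) (nat_lit 176) (nat_lit 2) (nat_lit 3) (nat_lit 11) L9001 (by decide +kernel)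
theorem L9003 : W_24 (nat_lit 4) (nat_lit 0x10000f000280000001000080000000000000000000000000000000) (nat_lit 0x0) (nat_lit 0x9c000c00100000000000000000000000000000000000000000000) := T_24 (nat_lit 191) (nat_lit 211) (nat_lit 3) (nat_lit 4) (nat_lit 11) L9002 (by decide +kernel)
theorem L9004 : W_24 (nat_lit 5) (nat_lit 0xf000280000001000080000000000000000000000000000000) (nat_lit 0x0) (nat_lit 0x39c000c00100000000000000000000000000000000000000000000) := T_24 (nat_lit 212) (nat_lit 213) (nat_lit 3) (nat_lit 5) (nat_lit 11) L9003 (by decide +kernel)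
theorem L9005 : W_24 (nat_lit 6) (nat_lit 0xf000200000001000080000000000000000000000000000000) (nat_lit 0x0) (nat_lit 0x39c000c001c0000000000000000000000000000000000000000000) := T_24 (nat_lit 175) (nat_lit 174) (nat_lit 0) (nat_lit 8) (nat_lit 11) L9004 (by decide +kernel)
theorem L9006 : W_24 (nat_lit 2) (nat_lit 0x10000f800200000001000080000000000000000000000000000000) (nat_lit 0x0) (nat_lit 0x38000000000000000000000000000000000000000000000000000) := D_24 (nat_lit 208) (nat_lit 209) (nat_lit 207) (nat_lit 1) (nat_lit 8) (nat_lit 11) (nat_lit 1) (nat_lit 7) (nat_lit 11) (by decide +kernel)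
theorem L9007 : W_24 (nat_lit 3) (nat_lit 0x10000f000200000001000080000000000000000000000000000000) (nat_lit 0x0) (nat_lit 0xb8000800000000000000000000000000000000000000000000000) := T_24 (nat_lit 191) (nat_lit 211) (nat_lit 3) (nat_lit 4) (nat_lit 11) L9006 (by decide +kernel)
theorem L9008 : W_24 (nat_lit 4) (nat_lit 0xf000200000001000080000000000000000000000000000000) (nat_lit 0x0) (nat_lit 0x3b8000800000000000000000000000000000000000000000000000) := T_24 (nat_lit 212) (nat_lit 213) (nat_lit 3) (nat_lit 5) (nat_lit 11) L9007 (by decide +kernel)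
theorem L9009 : W_24 (nat_lit 10) (nat_lit 0xd000200000001000080000000000000000000000000000000) (nat_lit 0x0) (nat_lit 0x100058006e003fc002e001f0004000200000000000000000000000000000000000) := Q_24 (nat_lit 193) (C_24 L8964 (C_24 L5217 (C_24 L8969 (C_24 L8974 (C_24 L9000 (C_24 L9005 (C_24 L9008 (C_24 L5312 N_24)))))))) (by decide +kernel)
theorem L9010 : W_24 (nat_lit 2) (nat_lit 0xd000600000001000080000000000000000000000000000000) (nat_lit 0x0) (nat_lit 0x2800800000000000000000000000000000000000000000000) := D_24 (nat_lit 193) (nat_lit 179) (nat_lit 191) (nat_lit 2) (nat_lit 5) (nat_lit 11) (nat_lit 2) (nat_lit 4) (nat_lit 11) (by decide +kernel)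
theorem L9011 : W_24 (nat_lit 3) (nat_lit 0xd000200000001000080000000000000000000000000000000) (nat_lit 0x0) (nat_lit 0x2800c00020000000000000000000000000000000000000000) := T_24 (nat_lit 178) (nat_lit 161) (nat_lit 5) (nat_lit 8) (nat_lit 7) L9010 (by decide +kernel)
theorem L9017 : W_24 (nat_lit 7) (nat_lit 0x2000f000600000001000080000000000000000000000000000000) (nat_lit 0x0) (nat_lit 0xe00078003c00000000c0000000000000000000000000000000000000000000) := T_24 (nat_lit 212) (nat_lit 213) (nat_lit 3) (nat_lit 5) (nat_lit 11) L9016 (by decide +kernel)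
theorem L9018 : W_24 (nat_lit 8) (nat_lit 0xf000600000001000080000000000000000000000000000000) (nat_lit 0x0) (nat_lit 0xe00078003f00000000c0000000000000000000000000000000000000000000) := T_24 (nat_lit 209) (nat_lit 208) (nat_lit 1) (nat_lit 8) (nat_lit 11) L9017 (by decide +kernel)
theorem L9019 : W_24 (nat_lit 9) (nat_lit 0xd000600000001000080000000000000000000000000000000) (nat_lit 0x0) (nat_lit 0xe00078003f00020008c0000000000000000000000000000000000000000000) := T_24 (nat_lit 193) (nat_lit 179) (nat_lit 2) (nat_lit 5) (nat_lit 11) L9018 (by decide +kernel)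
theorem L9020 : W_24 (nat_lit 10) (nat_lit 0xd000200000001000080000000000000000000000000000000) (nat_lit 0x0) (nat_lit 0xe00078003f0002000cc0020000000000000000000000000000000000000000) := T_24 (nat_lit 178) (nat_lit 161) (nat_lit 5) (nat_lit 8) (nat_lit 7) L9019 (by decide +kernel)
theorem L9021 : W_24 (nat_lit 13) (nat_lit 0xc000200000001000080000000000000000000000000000000) (nat_lit 0x0) (nat_lit 0x50003801fc007e003fc003e00df0066000f00178000000000000000000000000000000) := Q_24 (nat_lit 192) (C_24 L8959 (C_24 L9009 (C_24 L9011 (C_24 L9020 N_24)))) (by decide +kernel)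
theorem L9022 : W_24 (nat_lit 2) (nat_lit 0x48003e000600000001000080000000000000000000000000000000) (nat_lit 0x0) (nat_lit 0x1001800000000000000000000000000000000000000000000) := D_24 (nat_lit 179) (nat_lit 180) (nat_lit 192) (nat_lit 2) (nat_lit 6) (nat_lit 11) (nat_lit 2) (nat_lit 5) (nat_lit 11) (by decide +kernel)
theorem L9023 : W_24 (nat_lit 3) (nat_lit 0x48003c000600000001000080000000000000000000000000000000) (nat_lit 0x0) (nat_lit 0x200003001800000000000000000000000000000000000000000000) := T_24 (nat_lit 193) (nat_lit 213) (nat_lit 3) (nat_lit 6) (nat_lit 11) L9022 (by decide +kernel)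
theorem L9024 : W_24 (nat_lit 4) (nat_lit 0x8003c000600000001000080000000000000000000000000000000) (nat_lit 0x0) (nat_lit 0xe00003001800000000000000000000000000000000000000000000) := T_24 (nat_lit 214) (nat_lit 215) (nat_lit 3) (nat_lit 7) (nat_lit 11) L9023 (by decide +kernel)
theorem L9025 : W_24 (nat_lit 5) (nat_lit 0x3c000600000001000080000000000000000000000000000000) (nat_lit 0x0) (nat_lit 0xec0003001800000000000000000000000000000000000000000000) := T_24 (nat_lit 211) (nat_lit 210) (nat_lit 1) (nat_lit 10) (nat_lit 11) L9024 (by decide +kernel)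
theorem L9026 : W_24 (nat_lit 6) (nat_lit 0x1c000600000001000080000000000000000000000000000000) (nat_lit 0x0) (nat_lit 0xec0063001800000000000000000000000000000000000000000000) := T_24 (nat_lit 197) (nat_lit 198) (nat_lit 0) (nat_lit 11) (nat_lit 11) L9025 (by decide +kernel)
theorem L9027 : W_24 (nat_lit 7) (nat_lit 0x1c000200000001000080000000000000000000000000000000) (nat_lit 0x0) (nat_lit 0xec0063001c00020000000000000000000000000000000000000000) := T_24 (nat_lit 178) (nat_lit 161) (nat_lit 5) (nat_lit 8) (nat_lit 7) L9026 (by decide +kernel)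
theorem L9028 : W_24 (nat_lit 6) (nat_lit 0x1c000200020001000080000000000000000000000000000000) (nat_lit 0x0) (nat_lit 0xdc0060007100000000000000000000000000000000000000000000) := T_24 (nat_lit 197) (nat_lit 176) (nat_lit 0) (nat_lit 10) (nat_lit 11) L5122 (by decide +kernel)
theorem L9029 : W_24 (nat_lit 7) (nat_lit 0x1c000200000001000080000000000000000000000000000000) (nat_lit 0x0) (nat_lit 0xdc0060007500020000000000000000000000000000000000000000) := T_24 (nat_lit 161) (nat_lit 178) (nat_lit 5) (nat_lit 8) (nat_lit 7) L9028 (by decide +kernel)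
theorem L9030 : W_24 (nat_lit 2) (nat_lit 0x1e000a00020001000080000000000000000000000000000000) (nat_lit 0x0) (nat_lit 0x600000000000040000000000000000000000000000000000000000) := D_24 (nat_lit 213) (nat_lit 162) (nat_lit 214) (nat_lit 4) (nat_lit 9) (nat_lit 12) (nat_lit 3) (nat_lit 6) (nat_lit 11) (by decide +kernel)
theorem L9031 : W_24 (nat_lit 3) (nat_lit 0x1e000a00000001000080000000000000000000000000000000) (nat_lit 0x0) (nat_lit 0x600000000400060000000000000000000000000000000000000000) := T_24 (nat_lit 161) (nat_lit 178) (nat_lit 7) (nat_lit 8) (nat_lit 7) L9030 (by decide +kernel)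
theorem L9032 : W_24 (nat_lit 4) (nat_lit 0x1e000200000001000080000000000000000000000000000000) (nat_lit 0x0) (nat_lit 0x600000001c00060000000000000000000000000000000000000000) := T_24 (nat_lit 179) (nat_lit 180) (nat_lit 2) (nat_lit 6) (nat_lit 11) L9031 (by decide +kernel)
theorem L9033 : W_24 (nat_lit 5) (nat_lit 0x1c000200000001000080000000000000000000000000000000) (nat_lit 0x0) (nat_lit 0x770003001c00060000000000000000000000000000000000000000) := Q_24 (nat_lit 193) (C_24 L7805 (C_24 L7899 (C_24 L9032 N_24))) (by decide +kernel)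
theorem L9034 : W_24 (nat_lit 8) (nat_lit 0xc000200000001000080000000000000000000000000000000) (nat_lit 0x0) (nat_lit 0xff0073007d00060000000000000000000000000000000000000000) := Q_24 (nat_lit 196) (C_24 L5039 (C_24 L9027 (C_24 L9029 (C_24 L5194 (C_24 L9033 N_24))))) (by decide +kernel)
theorem L9037 : W_24 (nat_lit 2) (nat_lit 0x8000c000c000200000001000080000000000000000000000000000000) (nat_lit 0x0) (nat_lit 0x200010001000000000000000000000000000000000000000000000000000000000) := D_24 (nat_lit 244) (nat_lit 261) (nat_lit 228) (nat_lit 6) (nat_lit 6) (nat_lit 15) (nat_lit 5) (nat_lit 7) (nat_lit 10) (by decide +kernel)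
theorem L9039 : W_24 (nat_lit 2) (nat_lit 0x400008003d000c000200000001000080000000000000000000000000000000) (nat_lit 0x0) (nat_lit 0xc00002000000000000000000000000000000000000000000000000) := D_24 (nat_lit 214) (nat_lit 215) (nat_lit 193) (nat_lit 0) (nat_lit 11) (nat_lit 12) (nat_lit 0) (nat_lit 10) (nat_lit 12) (by decide +kernel)
theorem L9040 : W_24 (nat_lit 3) (nat_lit 0x400008001d000c000200000001000080000000000000000000000000000000) (nat_lit 0x0) (nat_lit 0x400e00002000000000000000000000000000000000000000000000000) := T_24 (nat_lit 213) (nat_lit 226) (nat_lit 1) (nat_lit 9) (nat_lit 12) L9039 (by decide +kernel)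
theorem L9041 : W_24 (nat_lit 4) (nat_lit 0x8001d000c000200000001000080000000000000000000000000000000) (nat_lit 0x0) (nat_lit 0x40002400e00002000000000000000000000000000000000000000000000000) := T_24 (nat_lit 246) (nat_lit 229) (nat_lit 4) (nat_lit 8) (nat_lit 14) L9040 (by decide +kernel)
theorem L9042 : W_24 (nat_lit 5) (nat_lit 0x8001c000c000200000001000080000000000000000000000000000000) (nat_lit 0x0) (nat_lit 0x40002400e30002000000000000000000000000000000000000000000000000) := T_24 (nat_lit 208) (nat_lit 209) (nat_lit 2) (nat_lit 4) (nat_lit 12) L9041 (by decide +kernel)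
theorem L9043 : W_24 (nat_lit 2) (nat_lit 0x8003c000c000200000001000080000000000000000000000000000000) (nat_lit 0x0) (nat_lit 0x1000c00000000000000000000000000000000000000000000000000000) := D_24 (nat_lit 214) (nat_lit 215) (nat_lit 228) (nat_lit 0) (nat_lit 11) (nat_lit 12) (nat_lit 1) (nat_lit 10) (nat_lit 12) (by decide +kernel)
theorem L9044 : W_24 (nat_lit 3) (nat_lit 0x8001c000c000200000001000080000000000000000000000000000000) (nat_lit 0x0) (nat_lit 0x1400e00000000000000000000000000000000000000000000000000000) := T_24 (nat_lit 213) (nat_lit 226) (nat_lit 1) (nat_lit 9) (nat_lit 12) L9043 (by decide +kernel)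
theorem L9047 : W_24 (nat_lit 6) (nat_lit 0x8000c000c000200000001000080000000000000000000000000000000) (nat_lit 0x0) (nat_lit 0x40007400f30002000000000000000000000000000000000000000000000000) := Q_24 (nat_lit 212) (C_24 L9042 (C_24 L9044 (C_24 L9046 N_24))) (by decide +kernel)
theorem L9048 : W_24 (nat_lit 7) (nat_lit 0xc000c000200000001000080000000000000000000000000000000) (nat_lit 0x0) (nat_lit 0x200050007c00f30002000000000000000000000000000000000000000000000000) := Q_24 (nat_lit 227) (C_24 L9037 (C_24 L9038 (C_24 L9047 N_24))) (by decide +kernel)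
theorem L9049 : W_24 (nat_lit 2) (nat_lit 0xe000c000200000001000080000000000000000000000000000000) (nat_lit 0x0) (nat_lit 0x100030000000000000000000000000000000000000000000000000) := D_24 (nat_lit 196) (nat_lit 197) (nat_lit 212) (nat_lit 1) (nat_lit 10) (nat_lit 11) (nat_lit 2) (nat_lit 5) (nat_lit 12) (by decide +kernel)
theorem L9050 : W_24 (nat_lit 3) (nat_lit 0xc000c000200000001000080000000000000000000000000000000) (nat_lit 0x0) (nat_lit 0x130030000000000000000000000000000000000000000000000000) := T_24 (nat_lit 209) (nat_lit 208) (nat_lit 2) (nat_lit 4) (nat_lit 12) L9049 (by decide +kernel)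
theorem L9051 : W_24 (nat_lit 2) (nat_lit 0x3c000c000200000001000080000000000000000000000000000000) (nat_lit 0x0) (nat_lit 0x400003000000000000000000000000000000000000000000000000) := D_24 (nat_lit 193) (nat_lit 192) (nat_lit 214) (nat_lit 3) (nat_lit 5) (nat_lit 11) (nat_lit 0) (nat_lit 10) (nat_lit 12) (by decide +kernel)
theorem L9052 : W_24 (nat_lit 2) (nat_lit 0x3c002c000200000001000080000000000000000000000000000000) (nat_lit 0x0) (nat_lit 0xc00040000000000000000000000000000000000000000000000000) := D_24 (nat_lit 214) (nat_lit 198) (nat_lit 215) (nat_lit 2) (nat_lit 7) (nat_lit 12) (nat_lit 0) (nat_lit 11) (nat_lit 12) (by decide +kernel)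
theorem L9053 : W_24 (nat_lit 3) (nat_lit 0x3c000c000200000001000080000000000000000000000000000000) (nat_lit 0x0) (nat_lit 0xc00070000000000000000000000000000000000000000000000000) := T_24 (nat_lit 197) (nat_lit 196) (nat_lit 2) (nat_lit 6) (nat_lit 12) L9052 (by decide +kernel)
theorem L9054 : W_24 (nat_lit 2) (nat_lit 0x48003c001e000a00000001000080000000000000000000000000000000) (nat_lit 0x0) (nat_lit 0x40002000000000000000040000000000000000000000000000000000000000) := D_24 (nat_lit 229) (nat_lit 246) (nat_lit 162) (nat_lit 6) (nat_lit 8) (nat_lit 14) (nat_lit 5) (nat_lit 9) (nat_lit 9) (by decide +kernel)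
theorem L9055 : W_24 (nat_lit 3) (nat_lit 0x48003c001e000200000001000080000000000000000000000000000000) (nat_lit 0x0) (nat_lit 0x40002000000000001800040000000000000000000000000000000000000000) := T_24 (nat_lit 179) (nat_lit 180) (nat_lit 2) (nat_lit 6) (nat_lit 11) L9054 (by decide +kernel)
theorem L9056 : W_24 (nat_lit 4) (nat_lit 0x8003c001e000200000001000080000000000000000000000000000000) (nat_lit 0x0) (nat_lit 0x4000e000000000001800040000000000000000000000000000000000000000) := T_24 (nat_lit 230) (nat_lit 231) (nat_lit 3) (nat_lit 6) (nat_lit 12) L9055 (by decide +kernel)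
theorem L9057 : W_24 (nat_lit 5) (nat_lit 0x8003c000e000200000001000080000000000000000000000000000000) (nat_lit 0x0) (nat_lit 0x4000e000000030001800040000000000000000000000000000000000000000) := T_24 (nat_lit 196) (nat_lit 197) (nat_lit 2) (nat_lit 6) (nat_lit 12) L9056 (by decide +kernel)
theorem L9058 : W_24 (nat_lit 6) (nat_lit 0x8003c000c000200000001000080000000000000000000000000000000) (nat_lit 0x0) (nat_lit 0x4000e000000033001800040000000000000000000000000000000000000000) := T_24 (nat_lit 193) (nat_lit 192) (nat_lit 3) (nat_lit 5) (nat_lit 11) L9057 (by decide +kernel)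
theorem L9059 : W_24 (nat_lit 7) (nat_lit 0x3c000c000200000001000080000000000000000000000000000000) (nat_lit 0x0) (nat_lit 0x4000ec00000033001800040000000000000000000000000000000000000000) := T_24 (nat_lit 227) (nat_lit 226) (nat_lit 1) (nat_lit 9) (nat_lit 12) L9058 (by decide +kernel)
theorem L9060 : W_24 (nat_lit 8) (nat_lit 0x1c000c000200000001000080000000000000000000000000000000) (nat_lit 0x0) (nat_lit 0x4000ec00e00073001800040000000000000000000000000000000000000000) := Q_24 (nat_lit 213) (C_24 L9051 (C_24 L9053 (C_24 L9059 N_24))) (by decide +kernel)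
theorem L9072 : W_24 (nat_lit 2) (nat_lit 0x600018000c000c000200000001000080000000000000000000000000000000) (nat_lit 0x0) (nat_lit 0x8000400000000000000002000000000000000000000000000000000000000000000000) := D_24 (nat_lit 262) (nat_lit 279) (nat_lit 193) (nat_lit 4) (nat_lit 7) (nat_lit 16) (nat_lit 4) (nat_lit 7) (nat_lit 15) (by decide +kernel)
theorem L9073 : W_24 (nat_lit 3) (nat_lit 0x400018000c000c000200000001000080000000000000000000000000000000) (nat_lit 0x0) (nat_lit 0x8000c00020000000000002000000000000000000000000000000000000000000000000) := T_24 (nat_lit 245) (nat_lit 263) (nat_lit 7) (nat_lit 7) (nat_lit 11) L9072 (by decide +kernel)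
theorem L9074 : W_24 (nat_lit 4) (nat_lit 0x400010000c000c000200000001000080000000000000000000000000000000) (nat_lit 0x0) (nat_lit 0x8000c00030000800000002000000000000000000000000000000000000000000000000) := T_24 (nat_lit 227) (nat_lit 244) (nat_lit 5) (nat_lit 7) (nat_lit 10) L9073 (by decide +kernel)
theorem L9075 : W_24 (nat_lit 5) (nat_lit 0x10000c000c000200000001000080000000000000000000000000000000) (nat_lit 0x0) (nat_lit 0x8000c00070002800000002000000000000000000000000000000000000000000000000) := T_24 (nat_lit 246) (nat_lit 229) (nat_lit 7) (nat_lit 7) (nat_lit 10) L9074 (by decide +kernel)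
theorem L9082 : W_24 (nat_lit 8) (nat_lit 0x10000c002c000200000001000080000000000000000000000000000000) (nat_lit 0x0) (nat_lit 0x5e00ef00700000000000000000000000000000000000000000000000000000) := T_24 (nat_lit 227) (nat_lit 244) (nat_lit 5) (nat_lit 7) (nat_lit 10) L9081 (by decide +kernel)
theorem L9083 : W_24 (nat_lit 9) (nat_lit 0x10000c000c000200000001000080000000000000000000000000000000) (nat_lit 0x0) (nat_lit 0x5e00ef00700030000000000000000000000000000000000000000000000000) := T_24 (nat_lit 197) (nat_lit 196) (nat_lit 1) (nat_lit 10) (nat_lit 11) L9082 (by decide +kernel)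
theorem L9084 : W_24 (nat_lit 4) (nat_lit 0x10000c002c000200000001000080000000000000000000000000000000) (nat_lit 0x0) (nat_lit 0x600030000800100002000000000000000000000000000000000000000000000000) := T_24 (nat_lit 244) (nat_lit 227) (nat_lit 5) (nat_lit 7) (nat_lit 10) L9067 (by decide +kernel)
theorem L9085 : W_24 (nat_lit 5) (nat_lit 0x10000c000c000200000001000080000000000000000000000000000000) (nat_lit 0x0) (nat_lit 0x600030000800100032000000000000000000000000000000000000000000000000) := T_24 (nat_lit 197) (nat_lit 196) (nat_lit 1) (nat_lit 10) (nat_lit 11) L9084 (by decide +kernel)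
theorem L9086 : W_24 (nat_lit 10) (nat_lit 0xc000c000200000001000080000000000000000000000000000000) (nat_lit 0x0) (nat_lit 0x8000e0007e00ff00700032000000000000000000000000000000000000000000000000) := Q_24 (nat_lit 228) (C_24 L9071 (C_24 L9075 (C_24 L9083 (C_24 L9085 N_24)))) (by decide +kernel)
theorem L9087 : W_24 (nat_lit 11) (nat_lit 0x8000c000200000001000080000000000000000000000000000000) (nat_lit 0x0) (nat_lit 0x8000e0007e00ff00f70032000000000000000000000000000000000000000000000000) := Q_24 (nat_lit 210) (C_24 L9036 (C_24 L9048 (C_24 L9050 (C_24 L9086 N_24)))) (by decide +kernel)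
theorem L9088 : W_24 (nat_lit 2) (nat_lit 0x5000100008000c000200000001000080000000000000000000000000000000) (nat_lit 0x0) (nat_lit 0xa00020000000000000000000000000000000000000000000000000000000000000) := D_24 (nat_lit 245) (nat_lit 263) (nat_lit 261) (nat_lit 7) (nat_lit 7) (nat_lit 11) (nat_lit 5) (nat_lit 7) (nat_lit 11) (by decide +kernel)
theorem L9089 : W_24 (nat_lit 3) (nat_lit 0x4000100008000c000200000001000080000000000000000000000000000000) (nat_lit 0x0) (nat_lit 0xa00030000800000000000000000000000000000000000000000000000000000000) := T_24 (nat_lit 244) (nat_lit 227) (nat_lit 5) (nat_lit 7) (nat_lit 10) L9088 (by decide +kernel)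
theorem L9090 : W_24 (nat_lit 4) (nat_lit 0x100008000c000200000001000080000000000000000000000000000000) (nat_lit 0x0) (nat_lit 0xa00070002800000000000000000000000000000000000000000000000000000000) := T_24 (nat_lit 246) (nat_lit 229) (nat_lit 7) (nat_lit 7) (nat_lit 10) L9089 (by decide +kernel)
theorem L9091 : W_24 (nat_lit 2) (nat_lit 0x100008000c000200000001000080000000000000000000000000000000) (nat_lit 0x0) (nat_lit 0x20000000000000000400020000000000000000000000000000000000000000) := D_24 (nat_lit 178) (nat_lit 245) (nat_lit 161) (nat_lit 6) (nat_lit 7) (nat_lit 14) (nat_lit 6) (nat_lit 7) (nat_lit 13) (by decide +kernel)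
theorem L9092 : W_24 (nat_lit 5) (nat_lit 0x30000d001c000600000001000080000000000000000000000000000000) (nat_lit 0x0) (nat_lit 0x8000c000600003001800000000000000000000000000000000000000000000) := T_24 (nat_lit 230) (nat_lit 231) (nat_lit 0) (nat_lit 10) (nat_lit 13) L6533 (by decide +kernel)
theorem L9093 : W_24 (nat_lit 6) (nat_lit 0x30000d001c000200000001000080000000000000000000000000000000) (nat_lit 0x0) (nat_lit 0x8000c000600003001c00020000000000000000000000000000000000000000) := T_24 (nat_lit 178) (nat_lit 161) (nat_lit 6) (nat_lit 7) (nat_lit 13) L9092 (by decide +kernel)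
theorem L9094 : W_24 (nat_lit 7) (nat_lit 0x30000d000c000200000001000080000000000000000000000000000000) (nat_lit 0x0) (nat_lit 0x8000c000600033001c00020000000000000000000000000000000000000000) := T_24 (nat_lit 196) (nat_lit 197) (nat_lit 1) (nat_lit 10) (nat_lit 11) L9093 (by decide +kernel)
theorem L9095 : W_24 (nat_lit 8) (nat_lit 0x30000c000c000200000001000080000000000000000000000000000000) (nat_lit 0x0) (nat_lit 0x8000c000630033001c00020000000000000000000000000000000000000000) := T_24 (nat_lit 208) (nat_lit 209) (nat_lit 3) (nat_lit 4) (nat_lit 12) L9094 (by decide +kernel)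
theorem L9096 : W_24 (nat_lit 9) (nat_lit 0x10000c000c000200000001000080000000000000000000000000000000) (nat_lit 0x0) (nat_lit 0xc000e000630033001c00020000000000000000000000000000000000000000) := T_24 (nat_lit 229) (nat_lit 246) (nat_lit 7) (nat_lit 7) (nat_lit 10) L9095 (by decide +kernel)
theorem L9098 : W_24 (nat_lit 3) (nat_lit 0x10000c000c000200000001000080000000000000000000000000000000) (nat_lit 0x0) (nat_lit 0x30032000000000000000000000000000000000000000000000000) := T_24 (nat_lit 209) (nat_lit 208) (nat_lit 2) (nat_lit 4) (nat_lit 12) L9097 (by decide +kernel)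
theorem L9099 : W_24 (nat_lit 2) (nat_lit 0x800078002c001c000a00020001000080000000000000000000000000000000) (nat_lit 0x0) (nat_lit 0x2001000080000000000000000000000000000000000000000) := D_24 (nat_lit 180) (nat_lit 193) (nat_lit 163) (nat_lit 2) (nat_lit 6) (nat_lit 11) (nat_lit 6) (nat_lit 9) (nat_lit 13) (by decide +kernel)
theorem L9100 : W_24 (nat_lit 3) (nat_lit 0x800078002c001c000200020001000080000000000000000000000000000000) (nat_lit 0x0) (nat_lit 0x20018000c0000000000000000000000000000000000000000) := T_24 (nat_lit 179) (nat_lit 162) (nat_lit 4) (nat_lit 9) (nat_lit 12) L9099 (by decide +kernel)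
theorem L9101 : W_24 (nat_lit 4) (nat_lit 0x800078000c001c000200020001000080000000000000000000000000000000) (nat_lit 0x0) (nat_lit 0x6000020018000c0000000000000000000000000000000000000000) := T_24 (nat_lit 213) (nat_lit 214) (nat_lit 2) (nat_lit 6) (nat_lit 13) L9100 (by decide +kernel)
theorem L9102 : W_24 (nat_lit 5) (nat_lit 0x78000c001c000200020001000080000000000000000000000000000000) (nat_lit 0x0) (nat_lit 0x1800000006000020018000c0000000000000000000000000000000000000000) := T_24 (nat_lit 247) (nat_lit 248) (nat_lit 3) (nat_lit 6) (nat_lit 13) L9101 (by decide +kernel)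
theorem L9103 : W_24 (nat_lit 6) (nat_lit 0x70000c001c000200020001000080000000000000000000000000000000) (nat_lit 0x0) (nat_lit 0x1900008006000020018000c0000000000000000000000000000000000000000) := T_24 (nat_lit 227) (nat_lit 244) (nat_lit 5) (nat_lit 7) (nat_lit 10) L9102 (by decide +kernel)
theorem L9104 : W_24 (nat_lit 7) (nat_lit 0x70000c001c000200000001000080000000000000000000000000000000) (nat_lit 0x0) (nat_lit 0x190000800600002001c000e0000000000000000000000000000000000000000) := T_24 (nat_lit 161) (nat_lit 178) (nat_lit 6) (nat_lit 7) (nat_lit 13) L9103 (by decide +kernel)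
theorem L9105 : W_24 (nat_lit 8) (nat_lit 0x70000c000c000200000001000080000000000000000000000000000000) (nat_lit 0x0) (nat_lit 0x190000800600032001c000e0000000000000000000000000000000000000000) := T_24 (nat_lit 196) (nat_lit 197) (nat_lit 1) (nat_lit 10) (nat_lit 11) L9104 (by decide +kernel)
theorem L9106 : W_24 (nat_lit 9) (nat_lit 0x30000c000c000200000001000080000000000000000000000000000000) (nat_lit 0x0) (nat_lit 0x19000c800600032001c000e0000000000000000000000000000000000000000) := T_24 (nat_lit 230) (nat_lit 231) (nat_lit 0) (nat_lit 10) (nat_lit 13) L9105 (by decide +kernel)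
theorem L9107 : W_24 (nat_lit 10) (nat_lit 0x10000c000c000200000001000080000000000000000000000000000000) (nat_lit 0x0) (nat_lit 0x1d000e800600032001c000e0000000000000000000000000000000000000000) := T_24 (nat_lit 229) (nat_lit 246) (nat_lit 7) (nat_lit 7) (nat_lit 10) L9106 (by decide +kernel)
theorem L9108 : W_24 (nat_lit 11) (nat_lit 0x100008000c000200000001000080000000000000000000000000000000) (nat_lit 0x0) (nat_lit 0x1d000e800670033001c000e0000000000000000000000000000000000000000) := Q_24 (nat_lit 210) (C_24 L9096 (C_24 L9098 (C_24 L6524 (C_24 L9107 N_24)))) (by decide +kernel)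
theorem L9109 : W_24 (nat_lit 12) (nat_lit 0x8000c000200000001000080000000000000000000000000000000) (nat_lit 0x0) (nat_lit 0xa001f000f800670033001c000e0000000000000000000000000000000000000000) := Q_24 (nat_lit 228) (C_24 L9090 (C_24 L9091 (C_24 L9108 N_24))) (by decide +kernel)
theorem L9113 : W_24 (nat_lit 6) (nat_lit 0x100008000c000200000001000080000000000000000000000000000000) (nat_lit 0x0) (nat_lit 0x50002e00740003001c00060000000000000000000000000000000000000000) := Q_24 (nat_lit 212) (C_24 L6567 (C_24 L9112 (C_24 L6165 N_24))) (by decide +kernel)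
theorem L9114 : W_24 (nat_lit 7) (nat_lit 0x8000c000200000001000080000000000000000000000000000000) (nat_lit 0x0) (nat_lit 0xa00070003e00740003001c00060000000000000000000000000000000000000000) := Q_24 (nat_lit 228) (C_24 L9090 (C_24 L9091 (C_24 L9113 N_24))) (by decide +kernel)
theorem L9115 : W_24 (nat_lit 8) (nat_lit 0x100008000c000200000001000080000000000000000000000000000000) (nat_lit 0x0) (nat_lit 0xd000ee00760000003c00060000000000000000000000000000000000000000) := Q_24 (nat_lit 212) (C_24 L6178 (C_24 L6165 (C_24 L9112 N_24))) (by decide +kernel)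
theorem L9116 : W_24 (nat_lit 9) (nat_lit 0x8000c000200000001000080000000000000000000000000000000) (nat_lit 0x0) (nat_lit 0xa000f000fe00760000003c00060000000000000000000000000000000000000000) := Q_24 (nat_lit 228) (C_24 L9090 (C_24 L9091 (C_24 L9115 N_24))) (by decide +kernel)
theorem L9117 : W_24 (nat_lit 5) (nat_lit 0x8001c000200000001000080000000000000000000000000000000) (nat_lit 0x0) (nat_lit 0xe40022003800000000000000000000000000000000000000000000) := T_24 (nat_lit 197) (nat_lit 210) (nat_lit 1) (nat_lit 10) (nat_lit 11) L5037 (by decide +kernel)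
theorem L9119 : W_24 (nat_lit 3) (nat_lit 0x8001c000200000001000080000000000000000000000000000000) (nat_lit 0x0) (nat_lit 0x140060000400000000000000000000000000000000000000000000) := T_24 (nat_lit 197) (nat_lit 210) (nat_lit 1) (nat_lit 10) (nat_lit 11) L9118 (by decide +kernel)
theorem L9123 : W_24 (nat_lit 2) (nat_lit 0x100000002c001f800a00000001000080000000000000000000000000000000) (nat_lit 0x0) (nat_lit 0xe0000000000000000000000000000000000000000000) := D_24 (nat_lit 174) (nat_lit 175) (nat_lit 173) (nat_lit 0) (nat_lit 8) (nat_lit 11) (nat_lit 0) (nat_lit 7) (nat_lit 11) (by decide +kernel)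
theorem L9124 : W_24 (nat_lit 3) (nat_lit 0x100000002c001f000a00000001000080000000000000000000000000000000) (nat_lit 0x0) (nat_lit 0xc000e0000000000000000000000000000000000000000000) := T_24 (nat_lit 191) (nat_lit 190) (nat_lit 3) (nat_lit 3) (nat_lit 11) L9123 (by decide +kernel)
theorem L9125 : W_24 (nat_lit 4) (nat_lit 0x100000002c001e000a00000001000080000000000000000000000000000000) (nat_lit 0x0) (nat_lit 0x100001c000e0000000000000000000000000000000000000000000) := T_24 (nat_lit 192) (nat_lit 212) (nat_lit 3) (nat_lit 5) (nat_lit 11) L9124 (by decide +kernel)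
theorem L9126 : W_24 (nat_lit 5) (nat_lit 0x100000000c001e000a00000001000080000000000000000000000000000000) (nat_lit 0x0) (nat_lit 0x700001c000e0000000000000000000000000000000000000000000) := T_24 (nat_lit 213) (nat_lit 214) (nat_lit 3) (nat_lit 6) (nat_lit 11) L9125 (by decide +kernel)
theorem L9127 : W_24 (nat_lit 6) (nat_lit 0xc001e000a00000001000080000000000000000000000000000000) (nat_lit 0x0) (nat_lit 0x10000800700001c000e0000000000000000000000000000000000000000000) := T_24 (nat_lit 244) (nat_lit 227) (nat_lit 6) (nat_lit 6) (nat_lit 14) L9126 (by decide +kernel)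
theorem L9128 : W_24 (nat_lit 7) (nat_lit 0xc001e000200000001000080000000000000000000000000000000) (nat_lit 0x0) (nat_lit 0x10000800700001c018e0000000000000000000000000000000000000000000) := T_24 (nat_lit 179) (nat_lit 180) (nat_lit 2) (nat_lit 6) (nat_lit 11) L9127 (by decide +kernel)
theorem L9129 : W_24 (nat_lit 8) (nat_lit 0x8001e000200000001000080000000000000000000000000000000) (nat_lit 0x0) (nat_lit 0x10000800760001c018e0000000000000000000000000000000000000000000) := T_24 (nat_lit 210) (nat_lit 209) (nat_lit 1) (nat_lit 9) (nat_lit 11) L9128 (by decide +kernel)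
theorem L9133 : W_24 (nat_lit 2) (nat_lit 0x8001e000a00000001000080000000000000000000000000000000) (nat_lit 0x0) (nat_lit 0x1000400020000000000000000000000000000000000000000) := D_24 (nat_lit 178) (nat_lit 192) (nat_lit 161) (nat_lit 2) (nat_lit 5) (nat_lit 11) (nat_lit 7) (nat_lit 8) (nat_lit 7) (by decide +kernel)
theorem L9134 : W_24 (nat_lit 3) (nat_lit 0x8001e000200000001000080000000000000000000000000000000) (nat_lit 0x0) (nat_lit 0x1001c00020000000000000000000000000000000000000000) := T_24 (nat_lit 179) (nat_lit 180) (nat_lit 2) (nat_lit 6) (nat_lit 11) L9133 (by decide +kernel)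
theorem L9135 : W_24 (nat_lit 9) (nat_lit 0x8001c000200000001000080000000000000000000000000000000) (nat_lit 0x0) (nat_lit 0x10000800760003c01ce0060000000000000000000000000000000000000000) := Q_24 (nat_lit 193) (C_24 L9122 (C_24 L9129 (C_24 L9132 (C_24 L9134 N_24)))) (by decide +kernel)
theorem L9136 : W_24 (nat_lit 5) (nat_lit 0x8001c000600000001000080000000000000000000000000000000) (nat_lit 0x0) (nat_lit 0xe00063001800000000000000000000000000000000000000000000) := T_24 (nat_lit 197) (nat_lit 198) (nat_lit 0) (nat_lit 11) (nat_lit 11) L9024 (by decide +kernel)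
theorem L9137 : W_24 (nat_lit 6) (nat_lit 0x8001c000200000001000080000000000000000000000000000000) (nat_lit 0x0) (nat_lit 0xe00063001c00020000000000000000000000000000000000000000) := T_24 (nat_lit 178) (nat_lit 161) (nat_lit 5) (nat_lit 8) (nat_lit 7) L9136 (by decide +kernel)
theorem L9138 : W_24 (nat_lit 10) (nat_lit 0x8000c000200000001000080000000000000000000000000000000) (nat_lit 0x0) (nat_lit 0x10000800f60073c03ce0060000000000000000000000000000000000000000) := Q_24 (nat_lit 196) (C_24 L9117 (C_24 L9119 (C_24 L9135 (C_24 L9137 N_24)))) (by decide +kernel)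
theorem L9139 : W_24 (nat_lit 2) (nat_lit 0x180018003c000200020001000080000000000000000000000000000000) (nat_lit 0x0) (nat_lit 0xe00000000000000000000000000000000000000000000000000000) := D_24 (nat_lit 214) (nat_lit 215) (nat_lit 213) (nat_lit 3) (nat_lit 7) (nat_lit 11) (nat_lit 1) (nat_lit 10) (nat_lit 12) (by decide +kernel)
theorem L9140 : W_24 (nat_lit 3) (nat_lit 0x100018003c000200020001000080000000000000000000000000000000) (nat_lit 0x0) (nat_lit 0x10000800e00000000000000000000000000000000000000000000000000000) := T_24 (nat_lit 227) (nat_lit 244) (nat_lit 5) (nat_lit 7) (nat_lit 10) L9139 (by decide +kernel)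
theorem L9141 : W_24 (nat_lit 4) (nat_lit 0x100018001c000200020001000080000000000000000000000000000000) (nat_lit 0x0) (nat_lit 0x10000800e00060000000000000000000000000000000000000000000000000) := T_24 (nat_lit 197) (nat_lit 198) (nat_lit 1) (nat_lit 11) (nat_lit 11) L9140 (by decide +kernel)
theorem L9142 : W_24 (nat_lit 5) (nat_lit 0x100018001c000200000001000080000000000000000000000000000000) (nat_lit 0x0) (nat_lit 0x10000800e00060000400020000000000000000000000000000000000000000) := T_24 (nat_lit 161) (nat_lit 178) (nat_lit 6) (nat_lit 7) (nat_lit 13) L9141 (by decide +kernel)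
theorem L9143 : W_24 (nat_lit 2) (nat_lit 0x1a0058003c001a00020001000080000000000000000000000000000000) (nat_lit 0x0) (nat_lit 0x100008000000000000000040000000000000000000000000000000000000000) := D_24 (nat_lit 231) (nat_lit 162) (nat_lit 248) (nat_lit 4) (nat_lit 10) (nat_lit 13) (nat_lit 4) (nat_lit 10) (nat_lit 14) (by decide +kernel)
theorem L9144 : W_24 (nat_lit 3) (nat_lit 0x1a0018003c001a00020001000080000000000000000000000000000000) (nat_lit 0x0) (nat_lit 0x100008000c00000000000040000000000000000000000000000000000000000) := T_24 (nat_lit 214) (nat_lit 215) (nat_lit 3) (nat_lit 7) (nat_lit 11) L9143 (by decide +kernel)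
theorem L9145 : W_24 (nat_lit 4) (nat_lit 0x1a0018003c001200020001000080000000000000000000000000000000) (nat_lit 0x0) (nat_lit 0x100008000c00002000800040000000000000000000000000000000000000000) := T_24 (nat_lit 179) (nat_lit 193) (nat_lit 2) (nat_lit 6) (nat_lit 11) L9144 (by decide +kernel)
theorem L9146 : W_24 (nat_lit 5) (nat_lit 0x1a0018003c000200020001000080000000000000000000000000000000) (nat_lit 0x0) (nat_lit 0x100008000c00002003800040000000000000000000000000000000000000000) := T_24 (nat_lit 180) (nat_lit 181) (nat_lit 2) (nat_lit 7) (nat_lit 11) L9145 (by decide +kernel)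
theorem L9147 : W_24 (nat_lit 6) (nat_lit 0x1a0018001c000200020001000080000000000000000000000000000000) (nat_lit 0x0) (nat_lit 0x100008000c00062003800040000000000000000000000000000000000000000) := T_24 (nat_lit 197) (nat_lit 198) (nat_lit 1) (nat_lit 11) (nat_lit 11) L9146 (by decide +kernel)
theorem L9148 : W_24 (nat_lit 7) (nat_lit 0x1a0018001c000200000001000080000000000000000000000000000000) (nat_lit 0x0) (nat_lit 0x100008000c00062003c00060000000000000000000000000000000000000000) := T_24 (nat_lit 161) (nat_lit 178) (nat_lit 6) (nat_lit 7) (nat_lit 13) L9147 (by decide +kernel)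
theorem L9149 : W_24 (nat_lit 8) (nat_lit 0x180018001c000200000001000080000000000000000000000000000000) (nat_lit 0x0) (nat_lit 0x100008600c00062003c00060000000000000000000000000000000000000000) := T_24 (nat_lit 225) (nat_lit 226) (nat_lit 2) (nat_lit 4) (nat_lit 13) L9148 (by decide +kernel)
theorem L9150 : W_24 (nat_lit 9) (nat_lit 0x100018001c000200000001000080000000000000000000000000000000) (nat_lit 0x0) (nat_lit 0x110008e00c00062003c00060000000000000000000000000000000000000000) := T_24 (nat_lit 227) (nat_lit 244) (nat_lit 5) (nat_lit 7) (nat_lit 10) L9149 (by decide +kernel)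
theorem L9151 : W_24 (nat_lit 2) (nat_lit 0x180018003c000200000001000080000000000000000000000000000000) (nat_lit 0x0) (nat_lit 0xe00000000000000000000000000000000000000000000000000000) := D_24 (nat_lit 214) (nat_lit 215) (nat_lit 213) (nat_lit 3) (nat_lit 7) (nat_lit 11) (nat_lit 1) (nat_lit 10) (nat_lit 12) (by decide +kernel)
theorem L9152 : W_24 (nat_lit 3) (nat_lit 0x100018003c000200000001000080000000000000000000000000000000) (nat_lit 0x0) (nat_lit 0x10000800e00000000000000000000000000000000000000000000000000000) := T_24 (nat_lit 227) (nat_lit 244) (nat_lit 5) (nat_lit 7) (nat_lit 10) L9151 (by decide +kernel)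
theorem L9153 : W_24 (nat_lit 4) (nat_lit 0x100018001c000200000001000080000000000000000000000000000000) (nat_lit 0x0) (nat_lit 0x10000800e00060000000000000000000000000000000000000000000000000) := T_24 (nat_lit 197) (nat_lit 198) (nat_lit 1) (nat_lit 11) (nat_lit 11) L9152 (by decide +kernel)
theorem L9154 : W_24 (nat_lit 2) (nat_lit 0x1a0038001e000200020001000080000000000000000000000000000000) (nat_lit 0x0) (nat_lit 0x1800040000000000000000000000000000000000000000) := D_24 (nat_lit 179) (nat_lit 162) (nat_lit 180) (nat_lit 4) (nat_lit 9) (nat_lit 12) (nat_lit 2) (nat_lit 6) (nat_lit 11) (by decide +kernel)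
theorem L9155 : W_24 (nat_lit 3) (nat_lit 0x1a0038001c000200020001000080000000000000000000000000000000) (nat_lit 0x0) (nat_lit 0x3001800040000000000000000000000000000000000000000) := T_24 (nat_lit 193) (nat_lit 192) (nat_lit 3) (nat_lit 5) (nat_lit 11) L9154 (by decide +kernel)
theorem L9156 : W_24 (nat_lit 4) (nat_lit 0x1a0038001c000200000001000080000000000000000000000000000000) (nat_lit 0x0) (nat_lit 0x3001c00060000000000000000000000000000000000000000) := T_24 (nat_lit 161) (nat_lit 178) (nat_lit 7) (nat_lit 8) (nat_lit 8) L9155 (by decide +kernel)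
theorem L9157 : W_24 (nat_lit 5) (nat_lit 0x1a0018001c000200000001000080000000000000000000000000000000) (nat_lit 0x0) (nat_lit 0x600003001c00060000000000000000000000000000000000000000) := T_24 (nat_lit 213) (nat_lit 214) (nat_lit 1) (nat_lit 10) (nat_lit 12) L9156 (by decide +kernel)
theorem L9158 : W_24 (nat_lit 6) (nat_lit 0x180018001c000200000001000080000000000000000000000000000000) (nat_lit 0x0) (nat_lit 0x600600003001c00060000000000000000000000000000000000000000) := T_24 (nat_lit 225) (nat_lit 226) (nat_lit 2) (nat_lit 4) (nat_lit 13) L9157 (by decide +kernel)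
theorem L9159 : W_24 (nat_lit 7) (nat_lit 0x100018001c000200000001000080000000000000000000000000000000) (nat_lit 0x0) (nat_lit 0x10000e00600003001c00060000000000000000000000000000000000000000) := T_24 (nat_lit 227) (nat_lit 244) (nat_lit 5) (nat_lit 7) (nat_lit 10) L9158 (by decide +kernel)
theorem L9160 : W_24 (nat_lit 2) (nat_lit 0x100018003e001200020001000080000000000000000000000000000000) (nat_lit 0x0) (nat_lit 0xe00000000000000000000000000000000000000000000000000000) := D_24 (nat_lit 214) (nat_lit 213) (nat_lit 215) (nat_lit 3) (nat_lit 6) (nat_lit 11) (nat_lit 3) (nat_lit 7) (nat_lit 11) (by decide +kernel)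
theorem L9161 : W_24 (nat_lit 3) (nat_lit 0x100018003c001200020001000080000000000000000000000000000000) (nat_lit 0x0) (nat_lit 0xe00002000800000000000000000000000000000000000000000000) := T_24 (nat_lit 193) (nat_lit 179) (nat_lit 2) (nat_lit 6) (nat_lit 11) L9160 (by decide +kernel)
theorem L9162 : W_24 (nat_lit 4) (nat_lit 0x100018003c000200020001000080000000000000000000000000000000) (nat_lit 0x0) (nat_lit 0xe00002003800000000000000000000000000000000000000000000) := T_24 (nat_lit 180) (nat_lit 181) (nat_lit 2) (nat_lit 7) (nat_lit 11) L9161 (by decide +kernel)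
theorem L9163 : W_24 (nat_lit 5) (nat_lit 0x100018001c000200020001000080000000000000000000000000000000) (nat_lit 0x0) (nat_lit 0xe00062003800000000000000000000000000000000000000000000) := T_24 (nat_lit 197) (nat_lit 198) (nat_lit 1) (nat_lit 11) (nat_lit 11) L9162 (by decide +kernel)
theorem L9164 : W_24 (nat_lit 6) (nat_lit 0x100018001c000200000001000080000000000000000000000000000000) (nat_lit 0x0) (nat_lit 0xe00062003c00020000000000000000000000000000000000000000) := T_24 (nat_lit 161) (nat_lit 178) (nat_lit 6) (nat_lit 7) (nat_lit 13) L9163 (by decide +kernel)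
theorem L9165 : W_24 (nat_lit 2) (nat_lit 0x1a0018003e001200000001000080000000000000000000000000000000) (nat_lit 0x0) (nat_lit 0x200001800000000000000000000000000000000000000000000000) := D_24 (nat_lit 192) (nat_lit 213) (nat_lit 191) (nat_lit 3) (nat_lit 5) (nat_lit 11) (nat_lit 3) (nat_lit 4) (nat_lit 11) (by decide +kernel)
theorem L9166 : W_24 (nat_lit 3) (nat_lit 0x1a0018003c001200000001000080000000000000000000000000000000) (nat_lit 0x0) (nat_lit 0x200003800800000000000000000000000000000000000000000000) := T_24 (nat_lit 193) (nat_lit 179) (nat_lit 2) (nat_lit 6) (nat_lit 11) L9165 (by decide +kernel)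
theorem L9167 : W_24 (nat_lit 4) (nat_lit 0x1a0018003c000200000001000080000000000000000000000000000000) (nat_lit 0x0) (nat_lit 0x200003803800000000000000000000000000000000000000000000) := T_24 (nat_lit 180) (nat_lit 181) (nat_lit 2) (nat_lit 7) (nat_lit 11) L9166 (by decide +kernel)
theorem L9168 : W_24 (nat_lit 5) (nat_lit 0x180018003c000200000001000080000000000000000000000000000000) (nat_lit 0x0) (nat_lit 0x600200003803800000000000000000000000000000000000000000000) := T_24 (nat_lit 225) (nat_lit 226) (nat_lit 2) (nat_lit 4) (nat_lit 13) L9167 (by decide +kernel)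
theorem L9169 : W_24 (nat_lit 6) (nat_lit 0x100018003c000200000001000080000000000000000000000000000000) (nat_lit 0x0) (nat_lit 0x10000e00200003803800000000000000000000000000000000000000000000) := T_24 (nat_lit 227) (nat_lit 244) (nat_lit 5) (nat_lit 7) (nat_lit 10) L9168 (by decide +kernel)
theorem L9170 : W_24 (nat_lit 7) (nat_lit 0x100018001c000200000001000080000000000000000000000000000000) (nat_lit 0x0) (nat_lit 0x10000e00200063803800000000000000000000000000000000000000000000) := T_24 (nat_lit 197) (nat_lit 198) (nat_lit 1) (nat_lit 11) (nat_lit 11) L9169 (by decide +kernel)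
theorem L9171 : W_24 (nat_lit 10) (nat_lit 0x100018000c000200000001000080000000000000000000000000000000) (nat_lit 0x0) (nat_lit 0x110008e00e00073803c00060000000000000000000000000000000000000000) := Q_24 (nat_lit 196) (C_24 L9142 (C_24 L9150 (C_24 L9153 (C_24 L9159 (C_24 L9164 (C_24 L9170 N_24)))))) (by decide +kernel)
theorem L9172 : W_24 (nat_lit 11) (nat_lit 0x100008000c000200000001000080000000000000000000000000000000) (nat_lit 0x0) (nat_lit 0x15000ae00f00073803c00060000000000000000000000000000000000000000) := Q_24 (nat_lit 212) (C_24 L9171 (C_24 L6567 (C_24 L9112 N_24))) (by decide +kernel)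
theorem L9173 : W_24 (nat_lit 12) (nat_lit 0x8000c000200000001000080000000000000000000000000000000) (nat_lit 0x0) (nat_lit 0xa0017000be00f00073803c00060000000000000000000000000000000000000000) := Q_24 (nat_lit 228) (C_24 L9172 (C_24 L9090 (C_24 L9091 N_24))) (by decide +kernel)
theorem L9174 : W_24 (nat_lit 2) (nat_lit 0x800078000c000c000200000001000080000000000000000000000000000000) (nat_lit 0x0) (nat_lit 0x100000000400020000000000000000000000000000000000000000) := D_24 (nat_lit 178) (nat_lit 161) (nat_lit 212) (nat_lit 6) (nat_lit 7) (nat_lit 13) (nat_lit 7) (nat_lit 8) (nat_lit 10) (by decide +kernel)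
theorem L9175 : W_24 (nat_lit 3) (nat_lit 0x78000c000c000200000001000080000000000000000000000000000000) (nat_lit 0x0) (nat_lit 0x180000000100000000400020000000000000000000000000000000000000000) := T_24 (nat_lit 247) (nat_lit 248) (nat_lit 3) (nat_lit 6) (nat_lit 13) L9174 (by decide +kernel)
theorem L9176 : W_24 (nat_lit 4) (nat_lit 0x70000c000c000200000001000080000000000000000000000000000000) (nat_lit 0x0) (nat_lit 0x190000800100000000400020000000000000000000000000000000000000000) := T_24 (nat_lit 227) (nat_lit 244) (nat_lit 5) (nat_lit 7) (nat_lit 10) L9175 (by decide +kernel)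
theorem L9177 : W_24 (nat_lit 5) (nat_lit 0x30000c000c000200000001000080000000000000000000000000000000) (nat_lit 0x0) (nat_lit 0x19000c800100000000400020000000000000000000000000000000000000000) := T_24 (nat_lit 230) (nat_lit 231) (nat_lit 0) (nat_lit 10) (nat_lit 13) L9176 (by decide +kernel)
theorem L9178 : W_24 (nat_lit 6) (nat_lit 0x10000c000c000200000001000080000000000000000000000000000000) (nat_lit 0x0) (nat_lit 0x1d000e800100000000400020000000000000000000000000000000000000000) := T_24 (nat_lit 229) (nat_lit 246) (nat_lit 7) (nat_lit 7) (nat_lit 10) L9177 (by decide +kernel)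
theorem L9179 : W_24 (nat_lit 7) (nat_lit 0x100008000c000200000001000080000000000000000000000000000000) (nat_lit 0x0) (nat_lit 0x1d000e800170032000400020000000000000000000000000000000000000000) := Q_24 (nat_lit 210) (C_24 L9098 (C_24 L6524 (C_24 L9178 N_24))) (by decide +kernel)
theorem L9180 : W_24 (nat_lit 8) (nat_lit 0x8000c000200000001000080000000000000000000000000000000) (nat_lit 0x0) (nat_lit 0xa001f000f800170032000400020000000000000000000000000000000000000000) := Q_24 (nat_lit 228) (C_24 L9090 (C_24 L9091 (C_24 L9179 N_24))) (by decide +kernel)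
theorem L9181 : W_24 (nat_lit 2) (nat_lit 0x1c000c000200000001000080000000000000000000000000000000) (nat_lit 0x0) (nat_lit 0x20030000000000000000000000000000000000000000000000000) := D_24 (nat_lit 196) (nat_lit 197) (nat_lit 209) (nat_lit 1) (nat_lit 10) (nat_lit 11) (nat_lit 2) (nat_lit 5) (nat_lit 12) (by decide +kernel)
theorem L9182 : W_24 (nat_lit 2) (nat_lit 0x400004001e000d000200000001000080000000000000000000000000000000) (nat_lit 0x0) (nat_lit 0x800200002000000000000000000000000000000000000000000000000) := D_24 (nat_lit 213) (nat_lit 227) (nat_lit 193) (nat_lit 1) (nat_lit 9) (nat_lit 12) (nat_lit 3) (nat_lit 5) (nat_lit 11) (by decide +kernel)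
theorem L9183 : W_24 (nat_lit 3) (nat_lit 0x400004001e000c000200000001000080000000000000000000000000000000) (nat_lit 0x0) (nat_lit 0x800200003800000000000000000000000000000000000000000000000) := T_24 (nat_lit 192) (nat_lit 191) (nat_lit 0) (nat_lit 8) (nat_lit 12) L9182 (by decide +kernel)
theorem L9184 : W_24 (nat_lit 4) (nat_lit 0x400000001e000c000200000001000080000000000000000000000000000000) (nat_lit 0x0) (nat_lit 0xe00200003800000000000000000000000000000000000000000000000) := T_24 (nat_lit 226) (nat_lit 225) (nat_lit 1) (nat_lit 8) (nat_lit 12) L9183 (by decide +kernel)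
theorem L9185 : W_24 (nat_lit 5) (nat_lit 0x400000001c000c000200000001000080000000000000000000000000000000) (nat_lit 0x0) (nat_lit 0xe00230003800000000000000000000000000000000000000000000000) := T_24 (nat_lit 209) (nat_lit 208) (nat_lit 2) (nat_lit 4) (nat_lit 12) L9184 (by decide +kernel)
theorem L9186 : W_24 (nat_lit 6) (nat_lit 0x1c000c000200000001000080000000000000000000000000000000) (nat_lit 0x0) (nat_lit 0x40002e00230003800000000000000000000000000000000000000000000000) := T_24 (nat_lit 246) (nat_lit 229) (nat_lit 4) (nat_lit 8) (nat_lit 14) L9185 (by decide +kernel)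
theorem L9187 : W_24 (nat_lit 9) (nat_lit 0x18000c000200000001000080000000000000000000000000000000) (nat_lit 0x0) (nat_lit 0x4000ee00e70073801800040000000000000000000000000000000000000000) := Q_24 (nat_lit 210) (C_24 L9181 (C_24 L9186 (C_24 L9060 N_24))) (by decide +kernel)
theorem L9188 : W_24 (nat_lit 2) (nat_lit 0x160001a000c000e00000001000080000000000000000000000000000000) (nat_lit 0x0) (nat_lit 0x3001000000000000000000000000000000000000000000000) := D_24 (nat_lit 193) (nat_lit 192) (nat_lit 180) (nat_lit 2) (nat_lit 5) (nat_lit 11) (nat_lit 1) (nat_lit 10) (nat_lit 10) (by decide +kernel)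
theorem L9189 : W_24 (nat_lit 3) (nat_lit 0x160001a000c000600000001000080000000000000000000000000000000) (nat_lit 0x0) (nat_lit 0x3001800040000000000000000000000000000000000000000) := T_24 (nat_lit 179) (nat_lit 162) (nat_lit 6) (nat_lit 8) (nat_lit 13) L9188 (by decide +kernel)
theorem L9190 : W_24 (nat_lit 4) (nat_lit 0x60001a000c000600000001000080000000000000000000000000000000) (nat_lit 0x0) (nat_lit 0x18000000003001800040000000000000000000000000000000000000000) := T_24 (nat_lit 232) (nat_lit 231) (nat_lit 0) (nat_lit 11) (nat_lit 13) L9189 (by decide +kernel)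
theorem L9191 : W_24 (nat_lit 5) (nat_lit 0x600018000c000600000001000080000000000000000000000000000000) (nat_lit 0x0) (nat_lit 0x18000060003001800040000000000000000000000000000000000000000) := T_24 (nat_lit 209) (nat_lit 210) (nat_lit 3) (nat_lit 5) (nat_lit 12) L9190 (by decide +kernel)
theorem L9192 : W_24 (nat_lit 6) (nat_lit 0x200018000c000600000001000080000000000000000000000000000000) (nat_lit 0x0) (nat_lit 0x8001c000060003001800040000000000000000000000000000000000000000) := T_24 (nat_lit 230) (nat_lit 247) (nat_lit 7) (nat_lit 8) (nat_lit 10) L9191 (by decide +kernel)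
theorem L9193 : W_24 (nat_lit 7) (nat_lit 0x200018000c000200000001000080000000000000000000000000000000) (nat_lit 0x0) (nat_lit 0x8001c000060003001c00060000000000000000000000000000000000000000) := T_24 (nat_lit 178) (nat_lit 161) (nat_lit 5) (nat_lit 8) (nat_lit 7) L9192 (by decide +kernel)
theorem L9194 : W_24 (nat_lit 8) (nat_lit 0x18000c000200000001000080000000000000000000000000000000) (nat_lit 0x0) (nat_lit 0xc001e000060003001c00060000000000000000000000000000000000000000) := T_24 (nat_lit 229) (nat_lit 246) (nat_lit 4) (nat_lit 8) (nat_lit 14) L9193 (by decide +kernel)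
theorem L9195 : W_24 (nat_lit 2) (nat_lit 0x200060001c000c002e00000001000080000000000000000000000000000000) (nat_lit 0x0) (nat_lit 0x18000200000000000000000000000000000000000000000000000000000) := D_24 (nat_lit 231) (nat_lit 232) (nat_lit 213) (nat_lit 0) (nat_lit 11) (nat_lit 13) (nat_lit 3) (nat_lit 6) (nat_lit 12) (by decide +kernel)
theorem L9196 : W_24 (nat_lit 3) (nat_lit 0x2000600018000c002e00000001000080000000000000000000000000000000) (nat_lit 0x0) (nat_lit 0x18000260000000000000000000000000000000000000000000000000000) := T_24 (nat_lit 210) (nat_lit 209) (nat_lit 3) (nat_lit 5) (nat_lit 12) L9195 (by decide +kernel)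
theorem L9197 : W_24 (nat_lit 4) (nat_lit 0x2000200018000c002e00000001000080000000000000000000000000000000) (nat_lit 0x0) (nat_lit 0x8001c000260000000000000000000000000000000000000000000000000000) := T_24 (nat_lit 230) (nat_lit 247) (nat_lit 7) (nat_lit 8) (nat_lit 10) L9196 (by decide +kernel)
theorem L9198 : W_24 (nat_lit 5) (nat_lit 0x2000200018000c000e00000001000080000000000000000000000000000000) (nat_lit 0x0) (nat_lit 0x8001c000260000003000000000000000000000000000000000000000000000) := T_24 (nat_lit 181) (nat_lit 180) (nat_lit 1) (nat_lit 11) (nat_lit 10) L9197 (by decide +kernel)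
theorem L9199 : W_24 (nat_lit 6) (nat_lit 0x2000200018000c000600000001000080000000000000000000000000000000) (nat_lit 0x0) (nat_lit 0x8001c000260000003800040000000000000000000000000000000000000000) := T_24 (nat_lit 179) (nat_lit 162) (nat_lit 6) (nat_lit 8) (nat_lit 13) L9198 (by decide +kernel)
theorem L9200 : W_24 (nat_lit 7) (nat_lit 0x200018000c000600000001000080000000000000000000000000000000) (nat_lit 0x0) (nat_lit 0xa001d000260000003800040000000000000000000000000000000000000000) := T_24 (nat_lit 245) (nat_lit 228) (nat_lit 6) (nat_lit 7) (nat_lit 14) L9199 (by decide +kernel)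
theorem L9201 : W_24 (nat_lit 8) (nat_lit 0x18000c000600000001000080000000000000000000000000000000) (nat_lit 0x0) (nat_lit 0xe001f000260000003800040000000000000000000000000000000000000000) := T_24 (nat_lit 229) (nat_lit 246) (nat_lit 4) (nat_lit 8) (nat_lit 14) L9200 (by decide +kernel)
theorem L9202 : W_24 (nat_lit 9) (nat_lit 0x18000c000200000001000080000000000000000000000000000000) (nat_lit 0x0) (nat_lit 0xe001f000260000003c00060000000000000000000000000000000000000000) := T_24 (nat_lit 178) (nat_lit 161) (nat_lit 5) (nat_lit 8) (nat_lit 7) L9201 (by decide +kernel)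
theorem L9203 : W_24 (nat_lit 2) (nat_lit 0x200060001c000d000e00000001000080000000000000000000000000000000) (nat_lit 0x0) (nat_lit 0x18000200000000000000000000000000000000000000000000000000000) := D_24 (nat_lit 231) (nat_lit 232) (nat_lit 213) (nat_lit 0) (nat_lit 11) (nat_lit 13) (nat_lit 3) (nat_lit 6) (nat_lit 12) (by decide +kernel)
theorem L9204 : W_24 (nat_lit 3) (nat_lit 0x2000600018000d000e00000001000080000000000000000000000000000000) (nat_lit 0x0) (nat_lit 0x18000260000000000000000000000000000000000000000000000000000) := T_24 (nat_lit 210) (nat_lit 209) (nat_lit 3) (nat_lit 5) (nat_lit 12) L9203 (by decide +kernel)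
theorem L9205 : W_24 (nat_lit 4) (nat_lit 0x2000200018000d000e00000001000080000000000000000000000000000000) (nat_lit 0x0) (nat_lit 0x8001c000260000000000000000000000000000000000000000000000000000) := T_24 (nat_lit 230) (nat_lit 247) (nat_lit 7) (nat_lit 8) (nat_lit 10) L9204 (by decide +kernel)
theorem L9206 : W_24 (nat_lit 5) (nat_lit 0x2000200018000c000e00000001000080000000000000000000000000000000) (nat_lit 0x0) (nat_lit 0x8001c000260003000000000000000000000000000000000000000000000000) := T_24 (nat_lit 192) (nat_lit 193) (nat_lit 2) (nat_lit 5) (nat_lit 11) L9205 (by decide +kernel)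
theorem L9207 : W_24 (nat_lit 6) (nat_lit 0x2000200018000c000600000001000080000000000000000000000000000000) (nat_lit 0x0) (nat_lit 0x8001c000260003000800040000000000000000000000000000000000000000) := T_24 (nat_lit 179) (nat_lit 162) (nat_lit 6) (nat_lit 8) (nat_lit 13) L9206 (by decide +kernel)
theorem L9208 : W_24 (nat_lit 7) (nat_lit 0x200018000c000600000001000080000000000000000000000000000000) (nat_lit 0x0) (nat_lit 0xa001d000260003000800040000000000000000000000000000000000000000) := T_24 (nat_lit 245) (nat_lit 228) (nat_lit 6) (nat_lit 7) (nat_lit 14) L9207 (by decide +kernel)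
theorem L9209 : W_24 (nat_lit 8) (nat_lit 0x18000c000600000001000080000000000000000000000000000000) (nat_lit 0x0) (nat_lit 0xe001f000260003000800040000000000000000000000000000000000000000) := T_24 (nat_lit 229) (nat_lit 246) (nat_lit 4) (nat_lit 8) (nat_lit 14) L9208 (by decide +kernel)
theorem L9210 : W_24 (nat_lit 9) (nat_lit 0x18000c000200000001000080000000000000000000000000000000) (nat_lit 0x0) (nat_lit 0xe001f000260003000c00060000000000000000000000000000000000000000) := T_24 (nat_lit 178) (nat_lit 161) (nat_lit 5) (nat_lit 8) (nat_lit 7) L9209 (by decide +kernel)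
theorem L9211 : W_24 (nat_lit 2) (nat_lit 0x2000200018000c000e00000001000080000000000000000000000000000000) (nat_lit 0x0) (nat_lit 0x3001000000000000000000000000000000000000000000000) := D_24 (nat_lit 193) (nat_lit 192) (nat_lit 180) (nat_lit 2) (nat_lit 5) (nat_lit 11) (nat_lit 1) (nat_lit 10) (nat_lit 10) (by decide +kernel)
theorem L9212 : W_24 (nat_lit 3) (nat_lit 0x2000200018000c000600000001000080000000000000000000000000000000) (nat_lit 0x0) (nat_lit 0x3001800040000000000000000000000000000000000000000) := T_24 (nat_lit 179) (nat_lit 162) (nat_lit 6) (nat_lit 8) (nat_lit 13) L9211 (by decide +kernel)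
theorem L9213 : W_24 (nat_lit 4) (nat_lit 0x200018000c000600000001000080000000000000000000000000000000) (nat_lit 0x0) (nat_lit 0x20001000000003001800040000000000000000000000000000000000000000) := T_24 (nat_lit 245) (nat_lit 228) (nat_lit 6) (nat_lit 7) (nat_lit 14) L9212 (by decide +kernel)
theorem L9214 : W_24 (nat_lit 5) (nat_lit 0x18000c000600000001000080000000000000000000000000000000) (nat_lit 0x0) (nat_lit 0x60003000000003001800040000000000000000000000000000000000000000) := T_24 (nat_lit 229) (nat_lit 246) (nat_lit 4) (nat_lit 8) (nat_lit 14) L9213 (by decide +kernel)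
theorem L9215 : W_24 (nat_lit 6) (nat_lit 0x18000c000200000001000080000000000000000000000000000000) (nat_lit 0x0) (nat_lit 0x60003000000003001c00060000000000000000000000000000000000000000) := T_24 (nat_lit 178) (nat_lit 161) (nat_lit 5) (nat_lit 8) (nat_lit 7) L9214 (by decide +kernel)
theorem L9216 : W_24 (nat_lit 2) (nat_lit 0x200060001c000c000600000001000080000000000000000000000000000000) (nat_lit 0x0) (nat_lit 0x18000200000000000000000000000000000000000000000000000000000) := D_24 (nat_lit 231) (nat_lit 232) (nat_lit 213) (nat_lit 0) (nat_lit 11) (nat_lit 13) (nat_lit 3) (nat_lit 6) (nat_lit 12) (by decide +kernel)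
theorem L9217 : W_24 (nat_lit 3) (nat_lit 0x2000600018000c000600000001000080000000000000000000000000000000) (nat_lit 0x0) (nat_lit 0x18000260000000000000000000000000000000000000000000000000000) := T_24 (nat_lit 210) (nat_lit 209) (nat_lit 3) (nat_lit 5) (nat_lit 12) L9216 (by decide +kernel)
theorem L9218 : W_24 (nat_lit 4) (nat_lit 0x2000200018000c000600000001000080000000000000000000000000000000) (nat_lit 0x0) (nat_lit 0x8001c000260000000000000000000000000000000000000000000000000000) := T_24 (nat_lit 230) (nat_lit 247) (nat_lit 7) (nat_lit 8) (nat_lit 10) L9217 (by decide +kernel)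
theorem L9219 : W_24 (nat_lit 5) (nat_lit 0x200018000c000600000001000080000000000000000000000000000000) (nat_lit 0x0) (nat_lit 0xa001d000260000000000000000000000000000000000000000000000000000) := T_24 (nat_lit 245) (nat_lit 228) (nat_lit 6) (nat_lit 7) (nat_lit 14) L9218 (by decide +kernel)
theorem L9220 : W_24 (nat_lit 6) (nat_lit 0x18000c000600000001000080000000000000000000000000000000) (nat_lit 0x0) (nat_lit 0xe001f000260000000000000000000000000000000000000000000000000000) := T_24 (nat_lit 229) (nat_lit 246) (nat_lit 4) (nat_lit 8) (nat_lit 14) L9219 (by decide +kernel)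
theorem L9221 : W_24 (nat_lit 7) (nat_lit 0x18000c000200000001000080000000000000000000000000000000) (nat_lit 0x0) (nat_lit 0xe001f000260000000400020000000000000000000000000000000000000000) := T_24 (nat_lit 178) (nat_lit 161) (nat_lit 5) (nat_lit 8) (nat_lit 7) L9220 (by decide +kernel)
theorem L9222 : W_24 (nat_lit 2) (nat_lit 0x48003c001c000a00020001000080000000000000000000000000000000) (nat_lit 0x0) (nat_lit 0x3001000000000000000000000000000000000000000000000) := D_24 (nat_lit 193) (nat_lit 180) (nat_lit 192) (nat_lit 2) (nat_lit 6) (nat_lit 11) (nat_lit 3) (nat_lit 5) (nat_lit 11) (by decide +kernel)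
theorem L9223 : W_24 (nat_lit 3) (nat_lit 0x48003c001c000200020001000080000000000000000000000000000000) (nat_lit 0x0) (nat_lit 0x3001800040000000000000000000000000000000000000000) := T_24 (nat_lit 179) (nat_lit 162) (nat_lit 4) (nat_lit 9) (nat_lit 12) L9222 (by decide +kernel)
theorem L9224 : W_24 (nat_lit 4) (nat_lit 0x8003c001c000200020001000080000000000000000000000000000000) (nat_lit 0x0) (nat_lit 0xc000000003001800040000000000000000000000000000000000000000) := T_24 (nat_lit 230) (nat_lit 231) (nat_lit 3) (nat_lit 6) (nat_lit 12) L9223 (by decide +kernel)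
theorem L9225 : W_24 (nat_lit 5) (nat_lit 0x8003c000c000200020001000080000000000000000000000000000000) (nat_lit 0x0) (nat_lit 0xc000000033001800040000000000000000000000000000000000000000) := T_24 (nat_lit 196) (nat_lit 197) (nat_lit 2) (nat_lit 6) (nat_lit 12) L9224 (by decide +kernel)
theorem L9226 : W_24 (nat_lit 6) (nat_lit 0x3c000c000200020001000080000000000000000000000000000000) (nat_lit 0x0) (nat_lit 0xcc00000033001800040000000000000000000000000000000000000000) := T_24 (nat_lit 227) (nat_lit 226) (nat_lit 1) (nat_lit 9) (nat_lit 12) L9225 (by decide +kernel)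
theorem L9227 : W_24 (nat_lit 7) (nat_lit 0x3c000c000200000001000080000000000000000000000000000000) (nat_lit 0x0) (nat_lit 0xcc00000033001c00060000000000000000000000000000000000000000) := T_24 (nat_lit 161) (nat_lit 178) (nat_lit 5) (nat_lit 8) (nat_lit 7) L9226 (by decide +kernel)
theorem L9228 : W_24 (nat_lit 8) (nat_lit 0x1c000c000200000001000080000000000000000000000000000000) (nat_lit 0x0) (nat_lit 0xcc00e00073001c00060000000000000000000000000000000000000000) := Q_24 (nat_lit 213) (C_24 L9053 (C_24 L9051 (C_24 L9227 N_24))) (by decide +kernel)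
theorem L9229 : W_24 (nat_lit 2) (nat_lit 0x4001e000d000200020001000080000000000000000000000000000000) (nat_lit 0x0) (nat_lit 0x800200002000000000000000000000000000000000000000000000000) := D_24 (nat_lit 213) (nat_lit 227) (nat_lit 193) (nat_lit 1) (nat_lit 9) (nat_lit 12) (nat_lit 3) (nat_lit 5) (nat_lit 11) (by decide +kernel)
theorem L9230 : W_24 (nat_lit 3) (nat_lit 0x4001e000c000200020001000080000000000000000000000000000000) (nat_lit 0x0) (nat_lit 0x800200003800000000000000000000000000000000000000000000000) := T_24 (nat_lit 192) (nat_lit 191) (nat_lit 0) (nat_lit 8) (nat_lit 12) L9229 (by decide +kernel)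
theorem L9231 : W_24 (nat_lit 4) (nat_lit 0x1e000c000200020001000080000000000000000000000000000000) (nat_lit 0x0) (nat_lit 0xe00200003800000000000000000000000000000000000000000000000) := T_24 (nat_lit 226) (nat_lit 225) (nat_lit 1) (nat_lit 8) (nat_lit 12) L9230 (by decide +kernel)
theorem L9232 : W_24 (nat_lit 5) (nat_lit 0x1c000c000200020001000080000000000000000000000000000000) (nat_lit 0x0) (nat_lit 0xe00230003800000000000000000000000000000000000000000000000) := T_24 (nat_lit 209) (nat_lit 208) (nat_lit 2) (nat_lit 4) (nat_lit 12) L9231 (by decide +kernel)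
theorem L9233 : W_24 (nat_lit 6) (nat_lit 0x1c000c000200000001000080000000000000000000000000000000) (nat_lit 0x0) (nat_lit 0xe00230003800400020000000000000000000000000000000000000000) := T_24 (nat_lit 161) (nat_lit 178) (nat_lit 5) (nat_lit 8) (nat_lit 7) L9232 (by decide +kernel)
theorem L9234 : W_24 (nat_lit 9) (nat_lit 0x18000c000200000001000080000000000000000000000000000000) (nat_lit 0x0) (nat_lit 0xce00e70073801c00060000000000000000000000000000000000000000) := Q_24 (nat_lit 210) (C_24 L9228 (C_24 L9181 (C_24 L9233 N_24))) (by decide +kernel)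
theorem L9235 : W_24 (nat_lit 10) (nat_lit 0x8000c000200000001000080000000000000000000000000000000) (nat_lit 0x0) (nat_lit 0xe001fe00f70073803c00060000000000000000000000000000000000000000) := Q_24 (nat_lit 212) (C_24 L9187 (C_24 L9194 (C_24 L9202 (C_24 L9210 (C_24 L9215 (C_24 L9221 (C_24 L9234 N_24))))))) (by decide +kernel)
theorem L9240 : W_24 (nat_lit 2) (nat_lit 0x300048003e000200000001000080000000000000000000000000000000) (nat_lit 0x0) (nat_lit 0x3800000000000000000000000000000000000000000000) := D_24 (nat_lit 180) (nat_lit 179) (nat_lit 181) (nat_lit 2) (nat_lit 6) (nat_lit 11) (nat_lit 2) (nat_lit 7) (nat_lit 11) (by decide +kernel)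
theorem L9241 : W_24 (nat_lit 3) (nat_lit 0x300048003c000200000001000080000000000000000000000000000000) (nat_lit 0x0) (nat_lit 0x200002003800000000000000000000000000000000000000000000) := T_24 (nat_lit 193) (nat_lit 213) (nat_lit 3) (nat_lit 6) (nat_lit 11) L9240 (by decide +kernel)
theorem L9242 : W_24 (nat_lit 4) (nat_lit 0x300008003c000200000001000080000000000000000000000000000000) (nat_lit 0x0) (nat_lit 0xe00002003800000000000000000000000000000000000000000000) := T_24 (nat_lit 214) (nat_lit 215) (nat_lit 3) (nat_lit 7) (nat_lit 11) L9241 (by decide +kernel)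
theorem L9243 : W_24 (nat_lit 5) (nat_lit 0x100008003c000200000001000080000000000000000000000000000000) (nat_lit 0x0) (nat_lit 0x40002000e00002003800000000000000000000000000000000000000000000) := T_24 (nat_lit 229) (nat_lit 246) (nat_lit 7) (nat_lit 7) (nat_lit 10) L9242 (by decide +kernel)
theorem L9244 : W_24 (nat_lit 6) (nat_lit 0x100008001c000200000001000080000000000000000000000000000000) (nat_lit 0x0) (nat_lit 0x40002000e40022003800000000000000000000000000000000000000000000) := T_24 (nat_lit 197) (nat_lit 210) (nat_lit 1) (nat_lit 10) (nat_lit 11) L9243 (by decide +kernel)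
theorem L9245 : W_24 (nat_lit 2) (nat_lit 0x300008001c000600000001000080000000000000000000000000000000) (nat_lit 0x0) (nat_lit 0x40060000000000000000000000000000000000000000000000000) := D_24 (nat_lit 197) (nat_lit 198) (nat_lit 210) (nat_lit 0) (nat_lit 11) (nat_lit 11) (nat_lit 1) (nat_lit 10) (nat_lit 11) (by decide +kernel)
theorem L9246 : W_24 (nat_lit 3) (nat_lit 0x300008001c000200000001000080000000000000000000000000000000) (nat_lit 0x0) (nat_lit 0x40060000400020000000000000000000000000000000000000000) := T_24 (nat_lit 178) (nat_lit 161) (nat_lit 6) (nat_lit 7) (nat_lit 13) L9245 (by decide +kernel)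
theorem L9247 : W_24 (nat_lit 4) (nat_lit 0x100008001c000200000001000080000000000000000000000000000000) (nat_lit 0x0) (nat_lit 0x40002000040060000400020000000000000000000000000000000000000000) := T_24 (nat_lit 229) (nat_lit 246) (nat_lit 7) (nat_lit 7) (nat_lit 10) L9246 (by decide +kernel)
theorem L9248 : W_24 (nat_lit 2) (nat_lit 0x100028001f000a00000001000080000000000000000000000000000000) (nat_lit 0x0) (nat_lit 0x70000000000000000000000000000000000000000000000000000) := D_24 (nat_lit 209) (nat_lit 208) (nat_lit 210) (nat_lit 1) (nat_lit 8) (nat_lit 11) (nat_lit 1) (nat_lit 9) (nat_lit 11) (by decide +kernel)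
theorem L9249 : W_24 (nat_lit 3) (nat_lit 0x100028001e000a00000001000080000000000000000000000000000000) (nat_lit 0x0) (nat_lit 0x170001000000000000000000000000000000000000000000000000) := T_24 (nat_lit 192) (nat_lit 212) (nat_lit 3) (nat_lit 5) (nat_lit 11) L9248 (by decide +kernel)
theorem L9250 : W_24 (nat_lit 4) (nat_lit 0x100008001e000a00000001000080000000000000000000000000000000) (nat_lit 0x0) (nat_lit 0x770001000000000000000000000000000000000000000000000000) := T_24 (nat_lit 213) (nat_lit 214) (nat_lit 3) (nat_lit 6) (nat_lit 11) L9249 (by decide +kernel)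
theorem L9251 : W_24 (nat_lit 5) (nat_lit 0x100008001e000200000001000080000000000000000000000000000000) (nat_lit 0x0) (nat_lit 0x770001001800000000000000000000000000000000000000000000) := T_24 (nat_lit 179) (nat_lit 180) (nat_lit 2) (nat_lit 6) (nat_lit 11) L9250 (by decide +kernel)
theorem L9252 : W_24 (nat_lit 2) (nat_lit 0x100028001e000600000001000080000000000000000000000000000000) (nat_lit 0x0) (nat_lit 0x1800800000000000000000000000000000000000000000000) := D_24 (nat_lit 192) (nat_lit 191) (nat_lit 179) (nat_lit 2) (nat_lit 4) (nat_lit 11) (nat_lit 2) (nat_lit 5) (nat_lit 11) (by decide +kernel)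
theorem L9253 : W_24 (nat_lit 3) (nat_lit 0x100028001e000200000001000080000000000000000000000000000000) (nat_lit 0x0) (nat_lit 0x1800c00020000000000000000000000000000000000000000) := T_24 (nat_lit 178) (nat_lit 161) (nat_lit 7) (nat_lit 8) (nat_lit 8) L9252 (by decide +kernel)
theorem L9254 : W_24 (nat_lit 4) (nat_lit 0x100008001e000200000001000080000000000000000000000000000000) (nat_lit 0x0) (nat_lit 0x600001800c00020000000000000000000000000000000000000000) := T_24 (nat_lit 213) (nat_lit 214) (nat_lit 3) (nat_lit 6) (nat_lit 11) L9253 (by decide +kernel)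
theorem L9255 : W_24 (nat_lit 2) (nat_lit 0x700028001e000600000001000080000000000000000000000000000000) (nat_lit 0x0) (nat_lit 0x8000060000000000000000000000000000000000000000000000000000) := D_24 (nat_lit 210) (nat_lit 231) (nat_lit 209) (nat_lit 0) (nat_lit 10) (nat_lit 13) (nat_lit 1) (nat_lit 9) (nat_lit 11) (by decide +kernel)
theorem L9256 : W_24 (nat_lit 3) (nat_lit 0x500028001e000600000001000080000000000000000000000000000000) (nat_lit 0x0) (nat_lit 0x4000a000060000000000000000000000000000000000000000000000000000) := T_24 (nat_lit 229) (nat_lit 246) (nat_lit 7) (nat_lit 7) (nat_lit 10) L9255 (by decide +kernel)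
theorem L9257 : W_24 (nat_lit 4) (nat_lit 0x100028001e000600000001000080000000000000000000000000000000) (nat_lit 0x0) (nat_lit 0xc000e000060000000000000000000000000000000000000000000000000000) := T_24 (nat_lit 230) (nat_lit 247) (nat_lit 4) (nat_lit 9) (nat_lit 14) L9256 (by decide +kernel)
theorem L9258 : W_24 (nat_lit 5) (nat_lit 0x100008001e000600000001000080000000000000000000000000000000) (nat_lit 0x0) (nat_lit 0xc000e000660000000000000000000000000000000000000000000000000000) := T_24 (nat_lit 213) (nat_lit 214) (nat_lit 3) (nat_lit 6) (nat_lit 11) L9257 (by decide +kernel)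
theorem L9259 : W_24 (nat_lit 6) (nat_lit 0x100008001e000200000001000080000000000000000000000000000000) (nat_lit 0x0) (nat_lit 0xc000e000660000000400020000000000000000000000000000000000000000) := T_24 (nat_lit 178) (nat_lit 161) (nat_lit 6) (nat_lit 7) (nat_lit 13) L9258 (by decide +kernel)
theorem L9260 : W_24 (nat_lit 2) (nat_lit 0x10000c001e000600000001000080000000000000000000000000000000) (nat_lit 0x0) (nat_lit 0x1001800000000000000000000000000000000000000000000) := D_24 (nat_lit 179) (nat_lit 180) (nat_lit 192) (nat_lit 2) (nat_lit 6) (nat_lit 11) (nat_lit 2) (nat_lit 5) (nat_lit 11) (by decide +kernel)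
theorem L9261 : W_24 (nat_lit 3) (nat_lit 0x10000c001e000200000001000080000000000000000000000000000000) (nat_lit 0x0) (nat_lit 0x1001c00020000000000000000000000000000000000000000) := T_24 (nat_lit 178) (nat_lit 161) (nat_lit 6) (nat_lit 7) (nat_lit 13) L9260 (by decide +kernel)
theorem L9262 : W_24 (nat_lit 4) (nat_lit 0x100008001e000200000001000080000000000000000000000000000000) (nat_lit 0x0) (nat_lit 0x60001001c00020000000000000000000000000000000000000000) := T_24 (nat_lit 210) (nat_lit 209) (nat_lit 1) (nat_lit 9) (nat_lit 11) L9261 (by decide +kernel)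
theorem L9263 : W_24 (nat_lit 7) (nat_lit 0x100008001c000200000001000080000000000000000000000000000000) (nat_lit 0x0) (nat_lit 0xc000e000770003801c00020000000000000000000000000000000000000000) := Q_24 (nat_lit 193) (C_24 L9251 (C_24 L9254 (C_24 L9259 (C_24 L9262 N_24)))) (by decide +kernel)
theorem L9264 : W_24 (nat_lit 2) (nat_lit 0x300048003e000600000001000080000000000000000000000000000000) (nat_lit 0x0) (nat_lit 0x1001800000000000000000000000000000000000000000000) := D_24 (nat_lit 179) (nat_lit 180) (nat_lit 192) (nat_lit 2) (nat_lit 6) (nat_lit 11) (nat_lit 2) (nat_lit 5) (nat_lit 11) (by decide +kernel)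
theorem L9265 : W_24 (nat_lit 3) (nat_lit 0x300048003c000600000001000080000000000000000000000000000000) (nat_lit 0x0) (nat_lit 0x200003001800000000000000000000000000000000000000000000) := T_24 (nat_lit 193) (nat_lit 213) (nat_lit 3) (nat_lit 6) (nat_lit 11) L9264 (by decide +kernel)
theorem L9266 : W_24 (nat_lit 4) (nat_lit 0x300008003c000600000001000080000000000000000000000000000000) (nat_lit 0x0) (nat_lit 0xe00003001800000000000000000000000000000000000000000000) := T_24 (nat_lit 214) (nat_lit 215) (nat_lit 3) (nat_lit 7) (nat_lit 11) L9265 (by decide +kernel)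
theorem L9267 : W_24 (nat_lit 5) (nat_lit 0x300008001c000600000001000080000000000000000000000000000000) (nat_lit 0x0) (nat_lit 0xe00063001800000000000000000000000000000000000000000000) := T_24 (nat_lit 197) (nat_lit 198) (nat_lit 0) (nat_lit 11) (nat_lit 11) L9266 (by decide +kernel)
theorem L9268 : W_24 (nat_lit 6) (nat_lit 0x300008001c000200000001000080000000000000000000000000000000) (nat_lit 0x0) (nat_lit 0xe00063001c00020000000000000000000000000000000000000000) := T_24 (nat_lit 178) (nat_lit 161) (nat_lit 6) (nat_lit 7) (nat_lit 13) L9267 (by decide +kernel)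
theorem L9269 : W_24 (nat_lit 7) (nat_lit 0x100008001c000200000001000080000000000000000000000000000000) (nat_lit 0x0) (nat_lit 0x40002000e00063001c00020000000000000000000000000000000000000000) := T_24 (nat_lit 229) (nat_lit 246) (nat_lit 7) (nat_lit 7) (nat_lit 10) L9268 (by decide +kernel)
theorem L9270 : W_24 (nat_lit 2) (nat_lit 0x100008007c000200020001000080000000000000000000000000000000) (nat_lit 0x0) (nat_lit 0x1c00000000000000000000000000000000000000000000000000000) := D_24 (nat_lit 215) (nat_lit 214) (nat_lit 216) (nat_lit 3) (nat_lit 7) (nat_lit 11) (nat_lit 3) (nat_lit 8) (nat_lit 11) (by decide +kernel)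
theorem L9271 : W_24 (nat_lit 3) (nat_lit 0x100008003c000200020001000080000000000000000000000000000000) (nat_lit 0x0) (nat_lit 0x1d00040000000000000000000000000000000000000000000000000) := T_24 (nat_lit 198) (nat_lit 212) (nat_lit 1) (nat_lit 11) (nat_lit 11) L9270 (by decide +kernel)
theorem L9272 : W_24 (nat_lit 4) (nat_lit 0x100008001c000200020001000080000000000000000000000000000000) (nat_lit 0x0) (nat_lit 0x1d40060000000000000000000000000000000000000000000000000) := T_24 (nat_lit 197) (nat_lit 210) (nat_lit 1) (nat_lit 10) (nat_lit 11) L9271 (by decide +kernel)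
theorem L9273 : W_24 (nat_lit 5) (nat_lit 0x100008001c000200000001000080000000000000000000000000000000) (nat_lit 0x0) (nat_lit 0x1d40060000400020000000000000000000000000000000000000000) := T_24 (nat_lit 161) (nat_lit 178) (nat_lit 6) (nat_lit 7) (nat_lit 13) L9272 (by decide +kernel)
theorem L9274 : W_24 (nat_lit 8) (nat_lit 0x100008000c000200000001000080000000000000000000000000000000) (nat_lit 0x0) (nat_lit 0xc000e001f70073803c00020000000000000000000000000000000000000000) := Q_24 (nat_lit 196) (C_24 L9244 (C_24 L9247 (C_24 L9263 (C_24 L9269 (C_24 L9273 N_24))))) (by decide +kernel)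
theorem L9275 : W_24 (nat_lit 9) (nat_lit 0x8000c000200000001000080000000000000000000000000000000) (nat_lit 0x0) (nat_lit 0x4000e000f000f001f70073803c00020000000000000000000000000000000000000000) := Q_24 (nat_lit 228) (C_24 L9239 (C_24 L9091 (C_24 L9274 N_24))) (by decide +kernel)
theorem L9276 : W_24 (nat_lit 13) (nat_lit 0xc000200000001000080000000000000000000000000000000) (nat_lit 0x0) (nat_lit 0xc000e001fe01ff01ff0073c03ce00e0000000000000000000000000000000000000000) := Q_24 (nat_lit 211) (C_24 L9087 (C_24 L9109 (C_24 L9114 (C_24 L9116 (C_24 L9138 (C_24 L9173 (C_24 L9180 (C_24 L9235 (C_24 L9275 N_24))))))))) (by decide +kernel)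
theorem L9277 : W_24 (nat_lit 7) (nat_lit 0x1c000200000001000080000000000000000000000000000000) (nat_lit 0x0) (nat_lit 0xfe0063807800000000000000000000000000000000000000000000) := Q_24 (nat_lit 197) (C_24 L5038 (C_24 L5043 (C_24 L5046 (C_24 L5049 (C_24 L5059 N_24))))) (by decide +kernel)
theorem L9278 : W_24 (nat_lit 2) (nat_lit 0x20001f000280000001000080000000000000000000000000000000) (nat_lit 0x0) (nat_lit 0x70000000000000000000000000000000000000000000000000000) := D_24 (nat_lit 209) (nat_lit 210) (nat_lit 208) (nat_lit 1) (nat_lit 9) (nat_lit 11) (nat_lit 1) (nat_lit 8) (nat_lit 11) (by decide +kernel)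
theorem L9279 : W_24 (nat_lit 3) (nat_lit 0x20001e000280000001000080000000000000000000000000000000) (nat_lit 0x0) (nat_lit 0x70001000040000000000000000000000000000000000000000000) := T_24 (nat_lit 192) (nat_lit 174) (nat_lit 0) (nat_lit 8) (nat_lit 11) L9278 (by decide +kernel)
theorem L9280 : W_24 (nat_lit 4) (nat_lit 0x1e000280000001000080000000000000000000000000000000) (nat_lit 0x0) (nat_lit 0x670001000040000000000000000000000000000000000000000000) := T_24 (nat_lit 213) (nat_lit 214) (nat_lit 3) (nat_lit 6) (nat_lit 11) L9279 (by decide +kernel)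
theorem L9281 : W_24 (nat_lit 5) (nat_lit 0x1e000200000001000080000000000000000000000000000000) (nat_lit 0x0) (nat_lit 0x6700010001c0000000000000000000000000000000000000000000) := T_24 (nat_lit 175) (nat_lit 176) (nat_lit 0) (nat_lit 9) (nat_lit 11) L9280 (by decide +kernel)
theorem L9282 : W_24 (nat_lit 10) (nat_lit 0x1e000b00000001000080000000000000000000000000000000) (nat_lit 0x0) (nat_lit 0x17000f8007e00000000000e0004000000000000000000000000000000000000) := T_24 (nat_lit 213) (nat_lit 214) (nat_lit 3) (nat_lit 6) (nat_lit 11) L5000 (by decide +kernel)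
theorem L9283 : W_24 (nat_lit 11) (nat_lit 0x1e000a00000001000080000000000000000000000000000000) (nat_lit 0x0) (nat_lit 0x17000f8007e00000001800e0004000000000000000000000000000000000000) := T_24 (nat_lit 176) (nat_lit 175) (nat_lit 0) (nat_lit 9) (nat_lit 11) L9282 (by decide +kernel)
theorem L9284 : W_24 (nat_lit 12) (nat_lit 0x1e000200000001000080000000000000000000000000000000) (nat_lit 0x0) (nat_lit 0x17000f8007e00000019800e0004000000000000000000000000000000000000) := T_24 (nat_lit 179) (nat_lit 180) (nat_lit 2) (nat_lit 6) (nat_lit 11) L9283 (by decide +kernel)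
theorem L9288 : W_24 (nat_lit 2) (nat_lit 0x2001e000280000001000080000000000000000000000000000000) (nat_lit 0x0) (nat_lit 0x10001000040000000000000000000000000000000000000000000) := D_24 (nat_lit 192) (nat_lit 174) (nat_lit 208) (nat_lit 0) (nat_lit 8) (nat_lit 11) (nat_lit 1) (nat_lit 8) (nat_lit 11) (by decide +kernel)
theorem L9289 : W_24 (nat_lit 3) (nat_lit 0x1e000280000001000080000000000000000000000000000000) (nat_lit 0x0) (nat_lit 0x70001000040000000000000000000000000000000000000000000) := T_24 (nat_lit 209) (nat_lit 210) (nat_lit 1) (nat_lit 9) (nat_lit 11) L9288 (by decide +kernel)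
theorem L9290 : W_24 (nat_lit 4) (nat_lit 0x1e000200000001000080000000000000000000000000000000) (nat_lit 0x0) (nat_lit 0x700010001c0000000000000000000000000000000000000000000) := T_24 (nat_lit 175) (nat_lit 176) (nat_lit 0) (nat_lit 9) (nat_lit 11) L9289 (by decide +kernel)
theorem L9291 : W_24 (nat_lit 13) (nat_lit 0x1c000200000001000080000000000000000000000000000000) (nat_lit 0x0) (nat_lit 0x17000f8007f00030019c00e0004000000000000000000000000000000000000) := Q_24 (nat_lit 193) (C_24 L9281 (C_24 L7805 (C_24 L9284 (C_24 L9287 (C_24 L9290 N_24))))) (by decide +kernel)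
theorem L9292 : W_24 (nat_lit 14) (nat_lit 0xc000200000001000080000000000000000000000000000000) (nat_lit 0x0) (nat_lit 0x17000f800ff00738079c00e0004000000000000000000000000000000000000) := Q_24 (nat_lit 196) (C_24 L5039 (C_24 L9277 (C_24 L5061 (C_24 L5062 (C_24 L5063 (C_24 L9291 (C_24 L5064 N_24))))))) (by decide +kernel)
theorem L9293 : W_24 (nat_lit 5) (nat_lit 0x1c000200000001000080000000000000000000000000000000) (nat_lit 0x0) (nat_lit 0x670003001dc0060000000000000000000000000000000000000000) := Q_24 (nat_lit 193) (C_24 L9290 (C_24 L9032 N_24)) (by decide +kernel)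
theorem L9294 : W_24 (nat_lit 8) (nat_lit 0xc000200000001000080000000000000000000000000000000) (nat_lit 0x0) (nat_lit 0xef0073001dc0060000000000000000000000000000000000000000) := Q_24 (nat_lit 196) (C_24 L5063 (C_24 L9027 (C_24 L5194 (C_24 L9293 N_24)))) (by decide +kernel)
theorem L9295 : W_24 (nat_lit 2) (nat_lit 0x700050002c001e00080001000080000000000000000000000000000000) (nat_lit 0x0) (nat_lit 0x18000800000000000000000000000000000000000000000000000000000) := D_24 (nat_lit 215) (nat_lit 231) (nat_lit 232) (nat_lit 2) (nat_lit 7) (nat_lit 13) (nat_lit 7) (nat_lit 10) (nat_lit 9) (by decide +kernel)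
theorem L9296 : W_24 (nat_lit 3) (nat_lit 0x700010002c001e00080001000080000000000000000000000000000000) (nat_lit 0x0) (nat_lit 0x18000e00000000000000000000000000000000000000000000000000000) := T_24 (nat_lit 214) (nat_lit 213) (nat_lit 5) (nat_lit 10) (nat_lit 9) L9295 (by decide +kernel)
theorem L9297 : W_24 (nat_lit 4) (nat_lit 0x700010000c001e00080001000080000000000000000000000000000000) (nat_lit 0x0) (nat_lit 0x18000e00060000000000000000000000000000000000000000000000000) := T_24 (nat_lit 197) (nat_lit 198) (nat_lit 3) (nat_lit 7) (nat_lit 10) L9296 (by decide +kernel)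
theorem L9298 : W_24 (nat_lit 5) (nat_lit 0x700010000c001e00000001000080000000000000000000000000000000) (nat_lit 0x0) (nat_lit 0x18000e00060000000180000000000000000000000000000000000000000) := T_24 (nat_lit 163) (nat_lit 164) (nat_lit 2) (nat_lit 7) (nat_lit 10) L9297 (by decide +kernel)
theorem L9299 : W_24 (nat_lit 6) (nat_lit 0x700010000c000e00000001000080000000000000000000000000000000) (nat_lit 0x0) (nat_lit 0x18000e00060003000180000000000000000000000000000000000000000) := T_24 (nat_lit 180) (nat_lit 181) (nat_lit 1) (nat_lit 11) (nat_lit 10) L9298 (by decide +kernel)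
theorem L9300 : W_24 (nat_lit 7) (nat_lit 0x700010000c000600000001000080000000000000000000000000000000) (nat_lit 0x0) (nat_lit 0x18000e000600038001c0000000000000000000000000000000000000000) := T_24 (nat_lit 179) (nat_lit 162) (nat_lit 6) (nat_lit 8) (nat_lit 13) L9299 (by decide +kernel)
theorem L9301 : W_24 (nat_lit 8) (nat_lit 0x300010000c000600000001000080000000000000000000000000000000) (nat_lit 0x0) (nat_lit 0x8001c000e000600038001c0000000000000000000000000000000000000000) := T_24 (nat_lit 230) (nat_lit 247) (nat_lit 7) (nat_lit 8) (nat_lit 10) L9300 (by decide +kernel)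
theorem L9302 : W_24 (nat_lit 9) (nat_lit 0x200010000c000600000001000080000000000000000000000000000000) (nat_lit 0x0) (nat_lit 0xa001d000e000600038001c0000000000000000000000000000000000000000) := T_24 (nat_lit 228) (nat_lit 245) (nat_lit 5) (nat_lit 8) (nat_lit 10) L9301 (by decide +kernel)
theorem L9303 : W_24 (nat_lit 10) (nat_lit 0x200000000c000600000001000080000000000000000000000000000000) (nat_lit 0x0) (nat_lit 0xe001d000f000600038001c0000000000000000000000000000000000000000) := T_24 (nat_lit 212) (nat_lit 246) (nat_lit 4) (nat_lit 8) (nat_lit 14) L9302 (by decide +kernel)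
theorem L9304 : W_24 (nat_lit 11) (nat_lit 0x200000000c000200000001000080000000000000000000000000000000) (nat_lit 0x0) (nat_lit 0xe001d000f00060003c001e0000000000000000000000000000000000000000) := T_24 (nat_lit 178) (nat_lit 161) (nat_lit 5) (nat_lit 8) (nat_lit 7) L9303 (by decide +kernel)
theorem L9306 : W_24 (nat_lit 2) (nat_lit 0x80007c0004000c000200000001000080000000000000000000000000000000) (nat_lit 0x0) (nat_lit 0x1c000000000000000000000000000000000000000000000000000000000000) := D_24 (nat_lit 243) (nat_lit 242) (nat_lit 244) (nat_lit 1) (nat_lit 8) (nat_lit 13) (nat_lit 1) (nat_lit 9) (nat_lit 13) (by decide +kernel)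
theorem L9307 : W_24 (nat_lit 3) (nat_lit 0x8000780004000c000200000001000080000000000000000000000000000000) (nat_lit 0x0) (nat_lit 0x5c000400000000000000000000000000000000000000000000000000000000) := T_24 (nat_lit 226) (nat_lit 246) (nat_lit 3) (nat_lit 5) (nat_lit 13) L9306 (by decide +kernel)
theorem L9308 : W_24 (nat_lit 4) (nat_lit 0x780004000c000200000001000080000000000000000000000000000000) (nat_lit 0x0) (nat_lit 0x1dc000400000000000000000000000000000000000000000000000000000000) := T_24 (nat_lit 247) (nat_lit 248) (nat_lit 3) (nat_lit 6) (nat_lit 13) L9307 (by decide +kernel)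
theorem L9309 : W_24 (nat_lit 5) (nat_lit 0x780000000c000200000001000080000000000000000000000000000000) (nat_lit 0x0) (nat_lit 0x1dc000400060000000000000000000000000000000000000000000000000000) := T_24 (nat_lit 210) (nat_lit 209) (nat_lit 0) (nat_lit 9) (nat_lit 13) L9308 (by decide +kernel)
theorem L9310 : W_24 (nat_lit 2) (nat_lit 0x80007c0020000c000200000001000080000000000000000000000000000000) (nat_lit 0x0) (nat_lit 0x1c000000000000000000000000000000000000000000000000000000000000) := D_24 (nat_lit 243) (nat_lit 242) (nat_lit 244) (nat_lit 1) (nat_lit 8) (nat_lit 13) (nat_lit 1) (nat_lit 9) (nat_lit 13) (by decide +kernel)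
theorem L9311 : W_24 (nat_lit 3) (nat_lit 0x8000780020000c000200000001000080000000000000000000000000000000) (nat_lit 0x0) (nat_lit 0x5c000400000000000000000000000000000000000000000000000000000000) := T_24 (nat_lit 226) (nat_lit 246) (nat_lit 3) (nat_lit 5) (nat_lit 13) L9310 (by decide +kernel)
theorem L9312 : W_24 (nat_lit 4) (nat_lit 0x780020000c000200000001000080000000000000000000000000000000) (nat_lit 0x0) (nat_lit 0x1dc000400000000000000000000000000000000000000000000000000000000) := T_24 (nat_lit 247) (nat_lit 248) (nat_lit 3) (nat_lit 6) (nat_lit 13) L9311 (by decide +kernel)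
theorem L9313 : W_24 (nat_lit 5) (nat_lit 0x780000000c000200000001000080000000000000000000000000000000) (nat_lit 0x0) (nat_lit 0x1dc000400600000000000000000000000000000000000000000000000000000) := T_24 (nat_lit 213) (nat_lit 214) (nat_lit 2) (nat_lit 6) (nat_lit 13) L9312 (by decide +kernel)
theorem L9314 : W_24 (nat_lit 2) (nat_lit 0xc000780024000c000200000001000080000000000000000000000000000000) (nat_lit 0x0) (nat_lit 0x800000000000000010000800000000000000000000000000000000000000000000) := D_24 (nat_lit 196) (nat_lit 179) (nat_lit 263) (nat_lit 5) (nat_lit 9) (nat_lit 10) (nat_lit 5) (nat_lit 9) (nat_lit 11) (by decide +kernel)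
theorem L9315 : W_24 (nat_lit 3) (nat_lit 0x8000780024000c000200000001000080000000000000000000000000000000) (nat_lit 0x0) (nat_lit 0x800040000400000010000800000000000000000000000000000000000000000000) := T_24 (nat_lit 246) (nat_lit 226) (nat_lit 3) (nat_lit 5) (nat_lit 13) L9314 (by decide +kernel)
theorem L9316 : W_24 (nat_lit 4) (nat_lit 0x780024000c000200000001000080000000000000000000000000000000) (nat_lit 0x0) (nat_lit 0x8001c0000400000010000800000000000000000000000000000000000000000000) := T_24 (nat_lit 247) (nat_lit 248) (nat_lit 3) (nat_lit 6) (nat_lit 13) L9315 (by decide +kernel)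
theorem L9317 : W_24 (nat_lit 5) (nat_lit 0x780004000c000200000001000080000000000000000000000000000000) (nat_lit 0x0) (nat_lit 0x8001c0000400600010000800000000000000000000000000000000000000000000) := T_24 (nat_lit 213) (nat_lit 214) (nat_lit 2) (nat_lit 6) (nat_lit 13) L9316 (by decide +kernel)
theorem L9318 : W_24 (nat_lit 6) (nat_lit 0x780000000c000200000001000080000000000000000000000000000000) (nat_lit 0x0) (nat_lit 0x8001c0000400660010000800000000000000000000000000000000000000000000) := T_24 (nat_lit 210) (nat_lit 209) (nat_lit 0) (nat_lit 9) (nat_lit 13) L9317 (by decide +kernel)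
theorem L9319 : W_24 (nat_lit 2) (nat_lit 0x9000f80004000c000200000001000080000000000000000000000000000000) (nat_lit 0x0) (nat_lit 0xe00000000000000000000000000000000000000000000000000000) := D_24 (nat_lit 214) (nat_lit 213) (nat_lit 215) (nat_lit 2) (nat_lit 6) (nat_lit 13) (nat_lit 2) (nat_lit 7) (nat_lit 13) (by decide +kernel)
theorem L9320 : W_24 (nat_lit 3) (nat_lit 0x9000780004000c000200000001000080000000000000000000000000000000) (nat_lit 0x0) (nat_lit 0x20008000e00000000000000000000000000000000000000000000000000000) := T_24 (nat_lit 231) (nat_lit 245) (nat_lit 1) (nat_lit 10) (nat_lit 13) L9319 (by decide +kernel)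
theorem L9321 : W_24 (nat_lit 4) (nat_lit 0x9000780000000c000200000001000080000000000000000000000000000000) (nat_lit 0x0) (nat_lit 0x20008000e60000000000000000000000000000000000000000000000000000) := T_24 (nat_lit 210) (nat_lit 209) (nat_lit 0) (nat_lit 9) (nat_lit 13) L9320 (by decide +kernel)
theorem L9322 : W_24 (nat_lit 5) (nat_lit 0x8000780000000c000200000001000080000000000000000000000000000000) (nat_lit 0x0) (nat_lit 0x38008000e60000000000000000000000000000000000000000000000000000) := T_24 (nat_lit 244) (nat_lit 243) (nat_lit 1) (nat_lit 9) (nat_lit 13) L9321 (by decide +kernel)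
theorem L9323 : W_24 (nat_lit 6) (nat_lit 0x780000000c000200000001000080000000000000000000000000000000) (nat_lit 0x0) (nat_lit 0x1b8008000e60000000000000000000000000000000000000000000000000000) := T_24 (nat_lit 247) (nat_lit 248) (nat_lit 3) (nat_lit 6) (nat_lit 13) L9322 (by decide +kernel)
theorem L9324 : W_24 (nat_lit 2) (nat_lit 0x4000000011000f80024007c002200000001000080000000000000000000000000000000) (nat_lit 0x0) (nat_lit 0x10001800000000000000000000000000000000000000000000000000000) := D_24 (nat_lit 215) (nat_lit 216) (nat_lit 232) (nat_lit 3) (nat_lit 8) (nat_lit 11) (nat_lit 5) (nat_lit 11) (nat_lit 10) (by decide +kernel)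
theorem L9325 : W_24 (nat_lit 3) (nat_lit 0x4000000011000f80024003c002200000001000080000000000000000000000000000000) (nat_lit 0x0) (nat_lit 0x10001800040004000000000000000000000000000000000000000000000) := T_24 (nat_lit 198) (nat_lit 182) (nat_lit 2) (nat_lit 8) (nat_lit 11) L9324 (by decide +kernel)
theorem L9326 : W_24 (nat_lit 4) (nat_lit 0x4000000011000f80024003c000200000001000080000000000000000000000000000000) (nat_lit 0x0) (nat_lit 0x10001800040007000000000000000000000000000000000000000000000) := T_24 (nat_lit 181) (nat_lit 180) (nat_lit 2) (nat_lit 7) (nat_lit 11) L9325 (by decide +kernel)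
theorem L9327 : W_24 (nat_lit 5) (nat_lit 0x4000000011000f80024001c000200000001000080000000000000000000000000000000) (nat_lit 0x0) (nat_lit 0x10001800060007100000000000000000000000000000000000000000000) := T_24 (nat_lit 197) (nat_lit 176) (nat_lit 0) (nat_lit 10) (nat_lit 11) L9326 (by decide +kernel)
theorem L9328 : W_24 (nat_lit 6) (nat_lit 0x4000000011000f80024000c000200000001000080000000000000000000000000000000) (nat_lit 0x0) (nat_lit 0x10001800070007900000000000000000000000000000000000000000000) := T_24 (nat_lit 196) (nat_lit 179) (nat_lit 7) (nat_lit 9) (nat_lit 10) L9327 (by decide +kernel)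
theorem L9329 : W_24 (nat_lit 7) (nat_lit 0x11000f80024000c000200000001000080000000000000000000000000000000) (nat_lit 0x0) (nat_lit 0x40002000000010001800070007900000000000000000000000000000000000000000000) := T_24 (nat_lit 282) (nat_lit 265) (nat_lit 4) (nat_lit 10) (nat_lit 16) L9328 (by decide +kernel)
theorem L9330 : W_24 (nat_lit 8) (nat_lit 0x1000f80024000c000200000001000080000000000000000000000000000000) (nat_lit 0x0) (nat_lit 0x40002000300010001800070007900000000000000000000000000000000000000000000) := T_24 (nat_lit 248) (nat_lit 249) (nat_lit 3) (nat_lit 7) (nat_lit 13) L9329 (by decide +kernel)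
theorem L9331 : W_24 (nat_lit 9) (nat_lit 0x1000780024000c000200000001000080000000000000000000000000000000) (nat_lit 0x0) (nat_lit 0x40002000320018001800070007900000000000000000000000000000000000000000000) := T_24 (nat_lit 231) (nat_lit 245) (nat_lit 1) (nat_lit 10) (nat_lit 13) L9330 (by decide +kernel)
theorem L9332 : W_24 (nat_lit 10) (nat_lit 0x780024000c000200000001000080000000000000000000000000000000) (nat_lit 0x0) (nat_lit 0x40002000338018001800070007900000000000000000000000000000000000000000000) := T_24 (nat_lit 244) (nat_lit 243) (nat_lit 1) (nat_lit 9) (nat_lit 13) L9331 (by decide +kernel)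
theorem L9333 : W_24 (nat_lit 11) (nat_lit 0x780020000c000200000001000080000000000000000000000000000000) (nat_lit 0x0) (nat_lit 0x40002000338018001860070007900000000000000000000000000000000000000000000) := T_24 (nat_lit 210) (nat_lit 209) (nat_lit 0) (nat_lit 9) (nat_lit 13) L9332 (by decide +kernel)
theorem L9334 : W_24 (nat_lit 12) (nat_lit 0x780000000c000200000001000080000000000000000000000000000000) (nat_lit 0x0) (nat_lit 0x40002000338018001e60070007900000000000000000000000000000000000000000000) := T_24 (nat_lit 213) (nat_lit 214) (nat_lit 2) (nat_lit 6) (nat_lit 13) L9333 (by decide +kernel)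
theorem L9335 : W_24 (nat_lit 2) (nat_lit 0x5000fc0022000c000380000001000080000000000000000000000000000000) (nat_lit 0x0) (nat_lit 0x30000800000000000000000000000000000000000000000000) := D_24 (nat_lit 196) (nat_lit 179) (nat_lit 197) (nat_lit 5) (nat_lit 9) (nat_lit 10) (nat_lit 0) (nat_lit 10) (nat_lit 11) (by decide +kernel)
theorem L9336 : W_24 (nat_lit 3) (nat_lit 0x5000fc0022000c000280000001000080000000000000000000000000000000) (nat_lit 0x0) (nat_lit 0x30000940000000000000000000000000000000000000000000) := T_24 (nat_lit 176) (nat_lit 174) (nat_lit 3) (nat_lit 4) (nat_lit 10) L9335 (by decide +kernel)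
theorem L9337 : W_24 (nat_lit 4) (nat_lit 0x5000fc0022000c000200000001000080000000000000000000000000000000) (nat_lit 0x0) (nat_lit 0x310009c0000000000000000000000000000000000000000000) := T_24 (nat_lit 175) (nat_lit 192) (nat_lit 7) (nat_lit 5) (nat_lit 10) L9336 (by decide +kernel)
theorem L9338 : W_24 (nat_lit 5) (nat_lit 0x1000fc0022000c000200000001000080000000000000000000000000000000) (nat_lit 0x0) (nat_lit 0xc00000000000310009c0000000000000000000000000000000000000000000) := T_24 (nat_lit 246) (nat_lit 247) (nat_lit 3) (nat_lit 5) (nat_lit 13) L9337 (by decide +kernel)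
theorem L9339 : W_24 (nat_lit 6) (nat_lit 0x1000f80022000c000200000001000080000000000000000000000000000000) (nat_lit 0x0) (nat_lit 0xc00004000100310009c0000000000000000000000000000000000000000000) := T_24 (nat_lit 226) (nat_lit 208) (nat_lit 0) (nat_lit 8) (nat_lit 13) L9338 (by decide +kernel)
theorem L9340 : W_24 (nat_lit 7) (nat_lit 0x1000f80020000c000200000001000080000000000000000000000000000000) (nat_lit 0x0) (nat_lit 0xc00004000700310009c0000000000000000000000000000000000000000000) := T_24 (nat_lit 209) (nat_lit 210) (nat_lit 0) (nat_lit 9) (nat_lit 13) L9339 (by decide +kernel)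
theorem L9341 : W_24 (nat_lit 8) (nat_lit 0x1000780020000c000200000001000080000000000000000000000000000000) (nat_lit 0x0) (nat_lit 0xe00084000700310009c0000000000000000000000000000000000000000000) := T_24 (nat_lit 231) (nat_lit 245) (nat_lit 1) (nat_lit 10) (nat_lit 13) L9340 (by decide +kernel)
theorem L9342 : W_24 (nat_lit 9) (nat_lit 0x1000780000000c000200000001000080000000000000000000000000000000) (nat_lit 0x0) (nat_lit 0xe00084006700310009c0000000000000000000000000000000000000000000) := T_24 (nat_lit 213) (nat_lit 214) (nat_lit 2) (nat_lit 6) (nat_lit 13) L9341 (by decide +kernel)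
theorem L9343 : W_24 (nat_lit 10) (nat_lit 0x780000000c000200000001000080000000000000000000000000000000) (nat_lit 0x0) (nat_lit 0xf80084006700310009c0000000000000000000000000000000000000000000) := T_24 (nat_lit 244) (nat_lit 243) (nat_lit 1) (nat_lit 9) (nat_lit 13) L9342 (by decide +kernel)
theorem L9344 : W_24 (nat_lit 13) (nat_lit 0x380000000c000200000001000080000000000000000000000000000000) (nat_lit 0x0) (nat_lit 0x400028003fc01c401e700710079c0000000000000000000000000000000000000000000) := Q_24 (nat_lit 230) (C_24 L9309 (C_24 L9313 (C_24 L9318 (C_24 L9323 (C_24 L9334 (C_24 L9343 N_24)))))) (by decide +kernel)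
theorem L9345 : W_24 (nat_lit 2) (nat_lit 0x40003e0000000c000200000001000080000000000000000000000000000000) (nat_lit 0x0) (nat_lit 0xe000000000000000000000000000000000000000000000000000000000000) := D_24 (nat_lit 242) (nat_lit 241) (nat_lit 243) (nat_lit 1) (nat_lit 7) (nat_lit 13) (nat_lit 1) (nat_lit 8) (nat_lit 13) (by decide +kernel)
theorem L9346 : W_24 (nat_lit 3) (nat_lit 0x40003c0000000c000200000001000080000000000000000000000000000000) (nat_lit 0x0) (nat_lit 0x2e000200000000000000000000000000000000000000000000000000000000) := T_24 (nat_lit 225) (nat_lit 245) (nat_lit 3) (nat_lit 4) (nat_lit 13) L9345 (by decide +kernel)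
theorem L9347 : W_24 (nat_lit 4) (nat_lit 0x4000380000000c000200000001000080000000000000000000000000000000) (nat_lit 0x0) (nat_lit 0xae000600000000000000000000000000000000000000000000000000000000) := T_24 (nat_lit 226) (nat_lit 247) (nat_lit 3) (nat_lit 5) (nat_lit 13) L9346 (by decide +kernel)
theorem L9348 : W_24 (nat_lit 5) (nat_lit 0x380000000c000200000001000080000000000000000000000000000000) (nat_lit 0x0) (nat_lit 0xee000600080000000000000000000000000000000000000000000000000000) := T_24 (nat_lit 246) (nat_lit 211) (nat_lit 7) (nat_lit 7) (nat_lit 10) L9347 (by decide +kernel)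
theorem L9349 : W_24 (nat_lit 4) (nat_lit 0x1000780004000c000200000001000080000000000000000000000000000000) (nat_lit 0x0) (nat_lit 0x1a0008000e00000000000000000000000000000000000000000000000000000) := T_24 (nat_lit 247) (nat_lit 248) (nat_lit 3) (nat_lit 6) (nat_lit 13) L9320 (by decide +kernel)
theorem L9350 : W_24 (nat_lit 5) (nat_lit 0x1000780000000c000200000001000080000000000000000000000000000000) (nat_lit 0x0) (nat_lit 0x1a0008000e60000000000000000000000000000000000000000000000000000) := T_24 (nat_lit 210) (nat_lit 209) (nat_lit 0) (nat_lit 9) (nat_lit 13) L9349 (by decide +kernel)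
theorem L9351 : W_24 (nat_lit 6) (nat_lit 0x1000380000000c000200000001000080000000000000000000000000000000) (nat_lit 0x0) (nat_lit 0x1a800c000e60000000000000000000000000000000000000000000000000000) := T_24 (nat_lit 230) (nat_lit 243) (nat_lit 1) (nat_lit 9) (nat_lit 13) L9350 (by decide +kernel)
theorem L9352 : W_24 (nat_lit 7) (nat_lit 0x380000000c000200000001000080000000000000000000000000000000) (nat_lit 0x0) (nat_lit 0x1b800c000ee0000000000000000000000000000000000000000000000000000) := T_24 (nat_lit 244) (nat_lit 211) (nat_lit 5) (nat_lit 7) (nat_lit 10) L9351 (by decide +kernel)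
theorem L9353 : W_24 (nat_lit 14) (nat_lit 0x300000000c000200000001000080000000000000000000000000000000) (nat_lit 0x0) (nat_lit 0x400028003fe01ce01ef00710079c0000000000000000000000000000000000000000000) := Q_24 (nat_lit 227) (C_24 L9305 (C_24 L9344 (C_24 L9348 (C_24 L9352 N_24)))) (by decide +kernel)
theorem L9354 : W_24 (nat_lit 2) (nat_lit 0x300000000c000200000001000080000000000000000000000000000000) (nat_lit 0x0) (nat_lit 0x40000000180000000000000000000000000000000000000000000000000000) := D_24 (nat_lit 246) (nat_lit 211) (nat_lit 212) (nat_lit 7) (nat_lit 7) (nat_lit 10) (nat_lit 4) (nat_lit 8) (nat_lit 14) (by decide +kernel)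
theorem L9355 : W_24 (nat_lit 2) (nat_lit 0x4000700020003c000200000001000080000000000000000000000000000000) (nat_lit 0x0) (nat_lit 0x80000000000000003000000000000000000000000000000000000000000000) := D_24 (nat_lit 180) (nat_lit 181) (nat_lit 247) (nat_lit 2) (nat_lit 7) (nat_lit 11) (nat_lit 6) (nat_lit 9) (nat_lit 14) (by decide +kernel)
theorem L9356 : W_24 (nat_lit 3) (nat_lit 0x4000700000003c000200000001000080000000000000000000000000000000) (nat_lit 0x0) (nat_lit 0x80000000200000003800000000000000000000000000000000000000000000) := T_24 (nat_lit 213) (nat_lit 179) (nat_lit 5) (nat_lit 9) (nat_lit 10) L9355 (by decide +kernel)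
theorem L9357 : W_24 (nat_lit 4) (nat_lit 0x4000700000001c000200000001000080000000000000000000000000000000) (nat_lit 0x0) (nat_lit 0x80000000200020003900000000000000000000000000000000000000000000) := T_24 (nat_lit 197) (nat_lit 176) (nat_lit 0) (nat_lit 10) (nat_lit 11) L9356 (by decide +kernel)
theorem L9358 : W_24 (nat_lit 5) (nat_lit 0x700000001c000200000001000080000000000000000000000000000000) (nat_lit 0x0) (nat_lit 0xc0000000300020003900000000000000000000000000000000000000000000) := T_24 (nat_lit 246) (nat_lit 212) (nat_lit 4) (nat_lit 8) (nat_lit 14) L9357 (by decide +kernel)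
theorem L9359 : W_24 (nat_lit 2) (nat_lit 0x4000700020001c000200000001000080000000000000000000000000000000) (nat_lit 0x0) (nat_lit 0x10000800080000000000000000000000000000000000000000000000000000000000000) := D_24 (nat_lit 263) (nat_lit 247) (nat_lit 280) (nat_lit 5) (nat_lit 9) (nat_lit 11) (nat_lit 6) (nat_lit 8) (nat_lit 16) (by decide +kernel)
theorem L9360 : W_24 (nat_lit 3) (nat_lit 0x4000700000001c000200000001000080000000000000000000000000000000) (nat_lit 0x0) (nat_lit 0x10000800080000000200000000800000000000000000000000000000000000000000000) := T_24 (nat_lit 213) (nat_lit 179) (nat_lit 5) (nat_lit 9) (nat_lit 10) L9359 (by decide +kernel)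
theorem L9361 : W_24 (nat_lit 4) (nat_lit 0x700000001c000200000001000080000000000000000000000000000000) (nat_lit 0x0) (nat_lit 0x100008000c0000000300000000800000000000000000000000000000000000000000000) := T_24 (nat_lit 246) (nat_lit 212) (nat_lit 4) (nat_lit 8) (nat_lit 14) L9360 (by decide +kernel)
theorem L9362 : W_24 (nat_lit 2) (nat_lit 0x700040003c001200000001000080000000000000000000000000000000) (nat_lit 0x0) (nat_lit 0x80008000200000000000000000000000000000000000000000000000000000) := D_24 (nat_lit 247) (nat_lit 231) (nat_lit 213) (nat_lit 5) (nat_lit 10) (nat_lit 10) (nat_lit 6) (nat_lit 9) (nat_lit 14) (by decide +kernel)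
theorem L9363 : W_24 (nat_lit 3) (nat_lit 0x700000003c001200000001000080000000000000000000000000000000) (nat_lit 0x0) (nat_lit 0x80008000e00000000000000000000000000000000000000000000000000000) := T_24 (nat_lit 214) (nat_lit 215) (nat_lit 3) (nat_lit 7) (nat_lit 11) L9362 (by decide +kernel)
theorem L9364 : W_24 (nat_lit 4) (nat_lit 0x700000003c000200000001000080000000000000000000000000000000) (nat_lit 0x0) (nat_lit 0x80008000e00000003000000000000000000000000000000000000000000000) := T_24 (nat_lit 180) (nat_lit 181) (nat_lit 2) (nat_lit 7) (nat_lit 11) L9363 (by decide +kernel)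
theorem L9365 : W_24 (nat_lit 5) (nat_lit 0x700000001c000200000001000080000000000000000000000000000000) (nat_lit 0x0) (nat_lit 0x80008000e00020003100000000000000000000000000000000000000000000) := T_24 (nat_lit 197) (nat_lit 176) (nat_lit 0) (nat_lit 10) (nat_lit 11) L9364 (by decide +kernel)
theorem L9366 : W_24 (nat_lit 2) (nat_lit 0x4000f00040003c001200000001000080000000000000000000000000000000) (nat_lit 0x0) (nat_lit 0x300000000000000000800000000000000000000000000000000000000000000) := D_24 (nat_lit 248) (nat_lit 179) (nat_lit 249) (nat_lit 4) (nat_lit 10) (nat_lit 14) (nat_lit 3) (nat_lit 7) (nat_lit 13) (by decide +kernel)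
theorem L9367 : W_24 (nat_lit 3) (nat_lit 0x4000700040003c001200000001000080000000000000000000000000000000) (nat_lit 0x0) (nat_lit 0x380008000000000000800000000000000000000000000000000000000000000) := T_24 (nat_lit 231) (nat_lit 247) (nat_lit 5) (nat_lit 10) (nat_lit 10) L9366 (by decide +kernel)
theorem L9368 : W_24 (nat_lit 4) (nat_lit 0x4000700040003c000200000001000080000000000000000000000000000000) (nat_lit 0x0) (nat_lit 0x380008000000000003800000000000000000000000000000000000000000000) := T_24 (nat_lit 180) (nat_lit 181) (nat_lit 2) (nat_lit 7) (nat_lit 11) L9367 (by decide +kernel)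
theorem L9369 : W_24 (nat_lit 5) (nat_lit 0x4000700000003c000200000001000080000000000000000000000000000000) (nat_lit 0x0) (nat_lit 0x380008000c00000003800000000000000000000000000000000000000000000) := T_24 (nat_lit 214) (nat_lit 215) (nat_lit 3) (nat_lit 7) (nat_lit 11) L9368 (by decide +kernel)
theorem L9370 : W_24 (nat_lit 6) (nat_lit 0x700000003c000200000001000080000000000000000000000000000000) (nat_lit 0x0) (nat_lit 0x3c0008000d00000003800000000000000000000000000000000000000000000) := T_24 (nat_lit 246) (nat_lit 212) (nat_lit 4) (nat_lit 8) (nat_lit 14) L9369 (by decide +kernel)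
theorem L9371 : W_24 (nat_lit 7) (nat_lit 0x700000001c000200000001000080000000000000000000000000000000) (nat_lit 0x0) (nat_lit 0x3c0008000d00020003900000000000000000000000000000000000000000000) := T_24 (nat_lit 197) (nat_lit 176) (nat_lit 0) (nat_lit 10) (nat_lit 11) L9370 (by decide +kernel)
theorem L9372 : W_24 (nat_lit 2) (nat_lit 0x4000f00040003c000a00000001000080000000000000000000000000000000) (nat_lit 0x0) (nat_lit 0x3000040000000000000000000000000000000000000000) := D_24 (nat_lit 180) (nat_lit 181) (nat_lit 162) (nat_lit 2) (nat_lit 7) (nat_lit 11) (nat_lit 4) (nat_lit 10) (nat_lit 13) (by decide +kernel)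
theorem L9373 : W_24 (nat_lit 3) (nat_lit 0x4000700040003c000a00000001000080000000000000000000000000000000) (nat_lit 0x0) (nat_lit 0x100008000000000003000040000000000000000000000000000000000000000) := T_24 (nat_lit 231) (nat_lit 248) (nat_lit 4) (nat_lit 10) (nat_lit 14) L9372 (by decide +kernel)
theorem L9374 : W_24 (nat_lit 4) (nat_lit 0x4000700040003c000200000001000080000000000000000000000000000000) (nat_lit 0x0) (nat_lit 0x100008000200000003800040000000000000000000000000000000000000000) := T_24 (nat_lit 179) (nat_lit 213) (nat_lit 5) (nat_lit 9) (nat_lit 10) L9373 (by decide +kernel)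
theorem L9375 : W_24 (nat_lit 5) (nat_lit 0x4000700000003c000200000001000080000000000000000000000000000000) (nat_lit 0x0) (nat_lit 0x100008000e00000003800040000000000000000000000000000000000000000) := T_24 (nat_lit 214) (nat_lit 215) (nat_lit 3) (nat_lit 7) (nat_lit 11) L9374 (by decide +kernel)
theorem L9376 : W_24 (nat_lit 6) (nat_lit 0x700000003c000200000001000080000000000000000000000000000000) (nat_lit 0x0) (nat_lit 0x140008000f00000003800040000000000000000000000000000000000000000) := T_24 (nat_lit 246) (nat_lit 212) (nat_lit 4) (nat_lit 8) (nat_lit 14) L9375 (by decide +kernel)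
theorem L9377 : W_24 (nat_lit 7) (nat_lit 0x700000001c000200000001000080000000000000000000000000000000) (nat_lit 0x0) (nat_lit 0x140008000f00020003900040000000000000000000000000000000000000000) := T_24 (nat_lit 197) (nat_lit 176) (nat_lit 0) (nat_lit 10) (nat_lit 11) L9376 (by decide +kernel)
theorem L9378 : W_24 (nat_lit 8) (nat_lit 0x700000000c000200000001000080000000000000000000000000000000) (nat_lit 0x0) (nat_lit 0x100008003c0008000f00030003900040000000000000000000000000000000000000000) := Q_24 (nat_lit 196) (C_24 L9358 (C_24 L9361 (C_24 L9365 (C_24 L9371 (C_24 L9377 N_24))))) (by decide +kernel)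
theorem L9379 : W_24 (nat_lit 2) (nat_lit 0x5000f80004000c000200000001000080000000000000000000000000000000) (nat_lit 0x0) (nat_lit 0xe00000000000000000000000000000000000000000000000000000) := D_24 (nat_lit 214) (nat_lit 213) (nat_lit 215) (nat_lit 2) (nat_lit 6) (nat_lit 13) (nat_lit 2) (nat_lit 7) (nat_lit 13) (by decide +kernel)
theorem L9380 : W_24 (nat_lit 3) (nat_lit 0x5000780004000c000200000001000080000000000000000000000000000000) (nat_lit 0x0) (nat_lit 0x20008000e00000000000000000000000000000000000000000000000000000) := T_24 (nat_lit 231) (nat_lit 245) (nat_lit 1) (nat_lit 10) (nat_lit 13) L9379 (by decide +kernel)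
theorem L9381 : W_24 (nat_lit 4) (nat_lit 0x5000780000000c000200000001000080000000000000000000000000000000) (nat_lit 0x0) (nat_lit 0x20008000e60000000000000000000000000000000000000000000000000000) := T_24 (nat_lit 210) (nat_lit 209) (nat_lit 0) (nat_lit 9) (nat_lit 13) L9380 (by decide +kernel)
theorem L9382 : W_24 (nat_lit 5) (nat_lit 0x4000780000000c000200000001000080000000000000000000000000000000) (nat_lit 0x0) (nat_lit 0x38008000e60000000000000000000000000000000000000000000000000000) := T_24 (nat_lit 244) (nat_lit 243) (nat_lit 1) (nat_lit 9) (nat_lit 13) L9381 (by decide +kernel)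
theorem L9383 : W_24 (nat_lit 6) (nat_lit 0x780000000c000200000001000080000000000000000000000000000000) (nat_lit 0x0) (nat_lit 0x78008000f60000000000000000000000000000000000000000000000000000) := T_24 (nat_lit 246) (nat_lit 212) (nat_lit 4) (nat_lit 8) (nat_lit 14) L9382 (by decide +kernel)
theorem L9384 : W_24 (nat_lit 7) (nat_lit 0x700000000c000200000001000080000000000000000000000000000000) (nat_lit 0x0) (nat_lit 0x8001fc008c00f60010000800000000000000000000000000000000000000000000) := Q_24 (nat_lit 227) (C_24 L9309 (C_24 L9323 (C_24 L9313 (C_24 L9318 (C_24 L9383 N_24))))) (by decide +kernel)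
theorem L9385 : W_24 (nat_lit 13) (nat_lit 0x700000000c000200000001000080000000000000000000000000000000) (nat_lit 0x0) (nat_lit 0x400028003fc018c01e700710079c0000000000000000000000000000000000000000000) := Q_24 (nat_lit 227) (C_24 L9309 (C_24 L9343 (C_24 L9313 (C_24 L9318 (C_24 L9334 N_24))))) (by decide +kernel)
theorem L9386 : W_24 (nat_lit 2) (nat_lit 0x4000780000000c000200000001000080000000000000000000000000000000) (nat_lit 0x0) (nat_lit 0x180000400000000000000000000000000000000000000000000000000000000) := D_24 (nat_lit 247) (nat_lit 226) (nat_lit 248) (nat_lit 3) (nat_lit 5) (nat_lit 13) (nat_lit 3) (nat_lit 6) (nat_lit 13) (by decide +kernel)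
theorem L9387 : W_24 (nat_lit 3) (nat_lit 0x780000000c000200000001000080000000000000000000000000000000) (nat_lit 0x0) (nat_lit 0x1c0000400100000000000000000000000000000000000000000000000000000) := T_24 (nat_lit 246) (nat_lit 212) (nat_lit 4) (nat_lit 8) (nat_lit 14) L9386 (by decide +kernel)
theorem L9388 : W_24 (nat_lit 7) (nat_lit 0x700000000c000200000001000080000000000000000000000000000000) (nat_lit 0x0) (nat_lit 0x1fc008c00f60000000000000000000000000000000000000000000000000000) := Q_24 (nat_lit 227) (C_24 L9309 (C_24 L9383 (C_24 L9313 (C_24 L9387 (C_24 L9323 N_24))))) (by decide +kernel)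
theorem L9389 : W_24 (nat_lit 2) (nat_lit 0x4000f00000000c000200000001000080000000000000000000000000000000) (nat_lit 0x0) (nat_lit 0x30010000000000000000000000000000000000000000000000000000000000) := D_24 (nat_lit 245) (nat_lit 232) (nat_lit 244) (nat_lit 1) (nat_lit 11) (nat_lit 13) (nat_lit 1) (nat_lit 10) (nat_lit 13) (by decide +kernel)
theorem L9390 : W_24 (nat_lit 3) (nat_lit 0xf00000000c000200000001000080000000000000000000000000000000) (nat_lit 0x0) (nat_lit 0x70010000100000000000000000000000000000000000000000000000000000) := T_24 (nat_lit 246) (nat_lit 212) (nat_lit 4) (nat_lit 8) (nat_lit 14) L9389 (by decide +kernel)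
theorem L9394 : W_24 (nat_lit 2) (nat_lit 0x4001f00040000c000200000001000080000000000000000000000000000000) (nat_lit 0x0) (nat_lit 0x700000000000000000000000000000000000000000000000000000000000000) := D_24 (nat_lit 249) (nat_lit 248) (nat_lit 250) (nat_lit 3) (nat_lit 7) (nat_lit 13) (nat_lit 3) (nat_lit 8) (nat_lit 13) (by decide +kernel)
theorem L9395 : W_24 (nat_lit 3) (nat_lit 0x4000f00040000c000200000001000080000000000000000000000000000000) (nat_lit 0x0) (nat_lit 0x720010000000000000000000000000000000000000000000000000000000000) := T_24 (nat_lit 232) (nat_lit 245) (nat_lit 1) (nat_lit 11) (nat_lit 13) L9394 (by decide +kernel)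
theorem L9396 : W_24 (nat_lit 4) (nat_lit 0xf00040000c000200000001000080000000000000000000000000000000) (nat_lit 0x0) (nat_lit 0x760010000100000000000000000000000000000000000000000000000000000) := T_24 (nat_lit 246) (nat_lit 212) (nat_lit 4) (nat_lit 8) (nat_lit 14) L9395 (by decide +kernel)
theorem L9397 : W_24 (nat_lit 5) (nat_lit 0xf00000000c000200000001000080000000000000000000000000000000) (nat_lit 0x0) (nat_lit 0x760010000d00000000000000000000000000000000000000000000000000000) := T_24 (nat_lit 214) (nat_lit 215) (nat_lit 2) (nat_lit 7) (nat_lit 13) L9396 (by decide +kernel)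
theorem L9398 : W_24 (nat_lit 2) (nat_lit 0x10800f80002000c000200000001000080000000000000000000000000000000) (nat_lit 0x0) (nat_lit 0x4000400010000000000000000000000000000000000000000000000000000) := D_24 (nat_lit 226) (nat_lit 242) (nat_lit 208) (nat_lit 1) (nat_lit 8) (nat_lit 13) (nat_lit 0) (nat_lit 8) (nat_lit 13) (by decide +kernel)
theorem L9399 : W_24 (nat_lit 3) (nat_lit 0x10800f80000000c000200000001000080000000000000000000000000000000) (nat_lit 0x0) (nat_lit 0x4000400070000000000000000000000000000000000000000000000000000) := T_24 (nat_lit 209) (nat_lit 210) (nat_lit 0) (nat_lit 9) (nat_lit 13) L9398 (by decide +kernel)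
theorem L9400 : W_24 (nat_lit 4) (nat_lit 0x10000f80000000c000200000001000080000000000000000000000000000000) (nat_lit 0x0) (nat_lit 0x1c000400070000000000000000000000000000000000000000000000000000) := T_24 (nat_lit 243) (nat_lit 244) (nat_lit 1) (nat_lit 9) (nat_lit 13) L9399 (by decide +kernel)
theorem L9401 : W_24 (nat_lit 5) (nat_lit 0x10000f00000000c000200000001000080000000000000000000000000000000) (nat_lit 0x0) (nat_lit 0x9c000c00070000000000000000000000000000000000000000000000000000) := T_24 (nat_lit 227) (nat_lit 247) (nat_lit 3) (nat_lit 6) (nat_lit 13) L9400 (by decide +kernel)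
theorem L9402 : W_24 (nat_lit 6) (nat_lit 0xf00000000c000200000001000080000000000000000000000000000000) (nat_lit 0x0) (nat_lit 0x39c000c00070000000000000000000000000000000000000000000000000000) := T_24 (nat_lit 248) (nat_lit 249) (nat_lit 3) (nat_lit 7) (nat_lit 13) L9401 (by decide +kernel)
theorem L9403 : W_24 (nat_lit 7) (nat_lit 0x700000000c000200000001000080000000000000000000000000000000) (nat_lit 0x0) (nat_lit 0x7fc018c00d70000000000000000000000000000000000000000000000000000) := Q_24 (nat_lit 231) (C_24 L9390 (C_24 L9393 (C_24 L9397 (C_24 L9402 N_24)))) (by decide +kernel)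
theorem L9404 : W_24 (nat_lit 2) (nat_lit 0x11000780004000c000200000001000080000000000000000000000000000000) (nat_lit 0x0) (nat_lit 0x220008000000000000000000000000000000000000000000000000000000000) := D_24 (nat_lit 231) (nat_lit 249) (nat_lit 245) (nat_lit 3) (nat_lit 7) (nat_lit 13) (nat_lit 1) (nat_lit 10) (nat_lit 13) (by decide +kernel)
theorem L9405 : W_24 (nat_lit 3) (nat_lit 0x10000780004000c000200000001000080000000000000000000000000000000) (nat_lit 0x0) (nat_lit 0x238008000000000000000000000000000000000000000000000000000000000) := T_24 (nat_lit 244) (nat_lit 243) (nat_lit 1) (nat_lit 9) (nat_lit 13) L9404 (by decide +kernel)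
theorem L9406 : W_24 (nat_lit 4) (nat_lit 0x780004000c000200000001000080000000000000000000000000000000) (nat_lit 0x0) (nat_lit 0x3b8008000000000000000000000000000000000000000000000000000000000) := T_24 (nat_lit 248) (nat_lit 247) (nat_lit 3) (nat_lit 6) (nat_lit 13) L9405 (by decide +kernel)
theorem L9407 : W_24 (nat_lit 5) (nat_lit 0x780000000c000200000001000080000000000000000000000000000000) (nat_lit 0x0) (nat_lit 0x3b8008000060000000000000000000000000000000000000000000000000000) := T_24 (nat_lit 210) (nat_lit 209) (nat_lit 0) (nat_lit 9) (nat_lit 13) L9406 (by decide +kernel)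
theorem L9408 : W_24 (nat_lit 2) (nat_lit 0x8000780020000c000200000001000080000000000000000000000000000000) (nat_lit 0x0) (nat_lit 0x1000000000400100000000000000000000000000000000000000000000000000000) := D_24 (nat_lit 212) (nat_lit 226) (nat_lit 264) (nat_lit 2) (nat_lit 5) (nat_lit 13) (nat_lit 4) (nat_lit 9) (nat_lit 15) (by decide +kernel)
theorem L9409 : W_24 (nat_lit 3) (nat_lit 0x8000780000000c000200000001000080000000000000000000000000000000) (nat_lit 0x0) (nat_lit 0x1000000000400700000000000000000000000000000000000000000000000000000) := T_24 (nat_lit 213) (nat_lit 214) (nat_lit 2) (nat_lit 6) (nat_lit 13) L9408 (by decide +kernel)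
theorem L9410 : W_24 (nat_lit 4) (nat_lit 0x780000000c000200000001000080000000000000000000000000000000) (nat_lit 0x0) (nat_lit 0x1000180000400700000000000000000000000000000000000000000000000000000) := T_24 (nat_lit 247) (nat_lit 248) (nat_lit 3) (nat_lit 6) (nat_lit 13) L9409 (by decide +kernel)
theorem L9411 : W_24 (nat_lit 2) (nat_lit 0x7c0020000c000200000001000080000000000000000000000000000000) (nat_lit 0x0) (nat_lit 0x1c000000000000000000000000000000000000000000000000000000000000) := D_24 (nat_lit 243) (nat_lit 242) (nat_lit 244) (nat_lit 1) (nat_lit 8) (nat_lit 13) (nat_lit 1) (nat_lit 9) (nat_lit 13) (by decide +kernel)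
theorem L9412 : W_24 (nat_lit 3) (nat_lit 0x780020000c000200000001000080000000000000000000000000000000) (nat_lit 0x0) (nat_lit 0x1c000400100000000000000000000000000000000000000000000000000000) := T_24 (nat_lit 226) (nat_lit 212) (nat_lit 2) (nat_lit 5) (nat_lit 13) L9411 (by decide +kernel)
theorem L9413 : W_24 (nat_lit 4) (nat_lit 0x780000000c000200000001000080000000000000000000000000000000) (nat_lit 0x0) (nat_lit 0x1c000400700000000000000000000000000000000000000000000000000000) := T_24 (nat_lit 213) (nat_lit 214) (nat_lit 2) (nat_lit 6) (nat_lit 13) L9412 (by decide +kernel)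
theorem L9414 : W_24 (nat_lit 13) (nat_lit 0x700000000c000200000001000080000000000000000000000000000000) (nat_lit 0x0) (nat_lit 0x400030003bc018c01f60070007900000000000000000000000000000000000000000000) := Q_24 (nat_lit 227) (C_24 L9407 (C_24 L9410 (C_24 L9334 (C_24 L9413 N_24)))) (by decide +kernel)
theorem L9415 : W_24 (nat_lit 2) (nat_lit 0x7000780002000c000200000001000080000000000000000000000000000000) (nat_lit 0x0) (nat_lit 0x600010000000000000000000000000000000000000000000000000000) := D_24 (nat_lit 226) (nat_lit 208) (nat_lit 225) (nat_lit 0) (nat_lit 8) (nat_lit 13) (nat_lit 3) (nat_lit 4) (nat_lit 13) (by decide +kernel)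
theorem L9416 : W_24 (nat_lit 3) (nat_lit 0x5000780002000c000200000001000080000000000000000000000000000000) (nat_lit 0x0) (nat_lit 0x20008600010000000000000000000000000000000000000000000000000000) := T_24 (nat_lit 245) (nat_lit 231) (nat_lit 1) (nat_lit 10) (nat_lit 13) L9415 (by decide +kernel)
theorem L9417 : W_24 (nat_lit 4) (nat_lit 0x5000780000000c000200000001000080000000000000000000000000000000) (nat_lit 0x0) (nat_lit 0x20008600070000000000000000000000000000000000000000000000000000) := T_24 (nat_lit 209) (nat_lit 210) (nat_lit 0) (nat_lit 9) (nat_lit 13) L9416 (by decide +kernel)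
theorem L9418 : W_24 (nat_lit 5) (nat_lit 0x4000780000000c000200000001000080000000000000000000000000000000) (nat_lit 0x0) (nat_lit 0x38008600070000000000000000000000000000000000000000000000000000) := T_24 (nat_lit 244) (nat_lit 243) (nat_lit 1) (nat_lit 9) (nat_lit 13) L9417 (by decide +kernel)
theorem L9419 : W_24 (nat_lit 6) (nat_lit 0x780000000c000200000001000080000000000000000000000000000000) (nat_lit 0x0) (nat_lit 0x78008600170000000000000000000000000000000000000000000000000000) := T_24 (nat_lit 246) (nat_lit 212) (nat_lit 4) (nat_lit 8) (nat_lit 14) L9418 (by decide +kernel)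
theorem L9420 : W_24 (nat_lit 7) (nat_lit 0x700000000c000200000001000080000000000000000000000000000000) (nat_lit 0x0) (nat_lit 0x3f8008e00170000000000000000000000000000000000000000000000000000) := Q_24 (nat_lit 227) (C_24 L9407 (C_24 L9387 (C_24 L9419 N_24))) (by decide +kernel)
theorem L9421 : W_24 (nat_lit 2) (nat_lit 0x4000f80040000c000200000001000080000000000000000000000000000000) (nat_lit 0x0) (nat_lit 0x38000000000000000000000000000000000000000000000000000000000000) := D_24 (nat_lit 244) (nat_lit 243) (nat_lit 245) (nat_lit 1) (nat_lit 9) (nat_lit 13) (nat_lit 1) (nat_lit 10) (nat_lit 13) (by decide +kernel)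
theorem L9422 : W_24 (nat_lit 3) (nat_lit 0x4000f00040000c000200000001000080000000000000000000000000000000) (nat_lit 0x0) (nat_lit 0x38000800200000000000000000000000000000000000000000000000000000) := T_24 (nat_lit 227) (nat_lit 213) (nat_lit 2) (nat_lit 6) (nat_lit 13) L9421 (by decide +kernel)
theorem L9423 : W_24 (nat_lit 4) (nat_lit 0x4000f00000000c000200000001000080000000000000000000000000000000) (nat_lit 0x0) (nat_lit 0x38000800e00000000000000000000000000000000000000000000000000000) := T_24 (nat_lit 214) (nat_lit 215) (nat_lit 2) (nat_lit 7) (nat_lit 13) L9422 (by decide +kernel)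
theorem L9424 : W_24 (nat_lit 5) (nat_lit 0xf00000000c000200000001000080000000000000000000000000000000) (nat_lit 0x0) (nat_lit 0x78000800f00000000000000000000000000000000000000000000000000000) := T_24 (nat_lit 246) (nat_lit 212) (nat_lit 4) (nat_lit 8) (nat_lit 14) L9423 (by decide +kernel)
theorem L9425 : W_24 (nat_lit 2) (nat_lit 0x10000f80040000c000200000001000080000000000000000000000000000000) (nat_lit 0x0) (nat_lit 0x38000000000000000000000000000000000000000000000000000000000000) := D_24 (nat_lit 244) (nat_lit 243) (nat_lit 245) (nat_lit 1) (nat_lit 9) (nat_lit 13) (nat_lit 1) (nat_lit 10) (nat_lit 13) (by decide +kernel)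
theorem L9426 : W_24 (nat_lit 3) (nat_lit 0x10000f00040000c000200000001000080000000000000000000000000000000) (nat_lit 0x0) (nat_lit 0x38000800200000000000000000000000000000000000000000000000000000) := T_24 (nat_lit 227) (nat_lit 213) (nat_lit 2) (nat_lit 6) (nat_lit 13) L9425 (by decide +kernel)
theorem L9427 : W_24 (nat_lit 4) (nat_lit 0x10000f00000000c000200000001000080000000000000000000000000000000) (nat_lit 0x0) (nat_lit 0x38000800e00000000000000000000000000000000000000000000000000000) := T_24 (nat_lit 214) (nat_lit 215) (nat_lit 2) (nat_lit 7) (nat_lit 13) L9426 (by decide +kernel)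
theorem L9428 : W_24 (nat_lit 5) (nat_lit 0xf00000000c000200000001000080000000000000000000000000000000) (nat_lit 0x0) (nat_lit 0x338000800e00000000000000000000000000000000000000000000000000000) := T_24 (nat_lit 248) (nat_lit 249) (nat_lit 3) (nat_lit 7) (nat_lit 13) L9427 (by decide +kernel)
theorem L9429 : W_24 (nat_lit 2) (nat_lit 0x14800f80042000c000200000001000080000000000000000000000000000000) (nat_lit 0x0) (nat_lit 0x4000400010000000000000000000000000000000000000000000000000000) := D_24 (nat_lit 226) (nat_lit 242) (nat_lit 208) (nat_lit 1) (nat_lit 8) (nat_lit 13) (nat_lit 0) (nat_lit 8) (nat_lit 13) (by decide +kernel)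
theorem L9430 : W_24 (nat_lit 3) (nat_lit 0x14800f80040000c000200000001000080000000000000000000000000000000) (nat_lit 0x0) (nat_lit 0x4000400070000000000000000000000000000000000000000000000000000) := T_24 (nat_lit 209) (nat_lit 210) (nat_lit 0) (nat_lit 9) (nat_lit 13) L9429 (by decide +kernel)
theorem L9431 : W_24 (nat_lit 4) (nat_lit 0x14000f80040000c000200000001000080000000000000000000000000000000) (nat_lit 0x0) (nat_lit 0x1c000400070000000000000000000000000000000000000000000000000000) := T_24 (nat_lit 243) (nat_lit 244) (nat_lit 1) (nat_lit 9) (nat_lit 13) L9430 (by decide +kernel)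
theorem L9432 : W_24 (nat_lit 5) (nat_lit 0x14000f00040000c000200000001000080000000000000000000000000000000) (nat_lit 0x0) (nat_lit 0x1c000c00270000000000000000000000000000000000000000000000000000) := T_24 (nat_lit 227) (nat_lit 213) (nat_lit 2) (nat_lit 6) (nat_lit 13) L9431 (by decide +kernel)
theorem L9433 : W_24 (nat_lit 6) (nat_lit 0x14000f00000000c000200000001000080000000000000000000000000000000) (nat_lit 0x0) (nat_lit 0x1c000c00e70000000000000000000000000000000000000000000000000000) := T_24 (nat_lit 214) (nat_lit 215) (nat_lit 2) (nat_lit 7) (nat_lit 13) L9432 (by decide +kernel)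
theorem L9434 : W_24 (nat_lit 7) (nat_lit 0x4000f00000000c000200000001000080000000000000000000000000000000) (nat_lit 0x0) (nat_lit 0x31c000c00e70000000000000000000000000000000000000000000000000000) := T_24 (nat_lit 248) (nat_lit 249) (nat_lit 3) (nat_lit 7) (nat_lit 13) L9433 (by decide +kernel)
theorem L9435 : W_24 (nat_lit 8) (nat_lit 0xf00000000c000200000001000080000000000000000000000000000000) (nat_lit 0x0) (nat_lit 0x35c000c00f70000000000000000000000000000000000000000000000000000) := T_24 (nat_lit 246) (nat_lit 212) (nat_lit 4) (nat_lit 8) (nat_lit 14) L9434 (by decide +kernel)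
theorem L9436 : W_24 (nat_lit 9) (nat_lit 0x700000000c000200000001000080000000000000000000000000000000) (nat_lit 0x0) (nat_lit 0x77c018c00f70000000000000000000000000000000000000000000000000000) := Q_24 (nat_lit 231) (C_24 L9390 (C_24 L9424 (C_24 L9428 (C_24 L9397 (C_24 L9435 N_24))))) (by decide +kernel)
theorem L9437 : W_24 (nat_lit 2) (nat_lit 0x780020000c000200000001000080000000000000000000000000000000) (nat_lit 0x0) (nat_lit 0x40000400100000000000000000000000000000000000000000000000000000) := D_24 (nat_lit 212) (nat_lit 226) (nat_lit 246) (nat_lit 2) (nat_lit 5) (nat_lit 13) (nat_lit 4) (nat_lit 8) (nat_lit 14) (by decide +kernel)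
theorem L9438 : W_24 (nat_lit 3) (nat_lit 0x780000000c000200000001000080000000000000000000000000000000) (nat_lit 0x0) (nat_lit 0x40000400700000000000000000000000000000000000000000000000000000) := T_24 (nat_lit 213) (nat_lit 214) (nat_lit 2) (nat_lit 6) (nat_lit 13) L9437 (by decide +kernel)
theorem L9439 : W_24 (nat_lit 11) (nat_lit 0x700000000c000200000001000080000000000000000000000000000000) (nat_lit 0x0) (nat_lit 0xfc008e00f700310009c0000000000000000000000000000000000000000000) := Q_24 (nat_lit 227) (C_24 L9419 (C_24 L9343 (C_24 L9413 (C_24 L9438 (C_24 L9383 N_24))))) (by decide +kernel)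
theorem L9440 : W_24 (nat_lit 2) (nat_lit 0xc000780020000c000200000001000080000000000000000000000000000000) (nat_lit 0x0) (nat_lit 0x800000000000000010000800000000000000000000000000000000000000000000) := D_24 (nat_lit 196) (nat_lit 263) (nat_lit 179) (nat_lit 5) (nat_lit 9) (nat_lit 11) (nat_lit 5) (nat_lit 9) (nat_lit 10) (by decide +kernel)
theorem L9441 : W_24 (nat_lit 3) (nat_lit 0x4000780020000c000200000001000080000000000000000000000000000000) (nat_lit 0x0) (nat_lit 0x800180000000000010000800000000000000000000000000000000000000000000) := T_24 (nat_lit 247) (nat_lit 248) (nat_lit 3) (nat_lit 6) (nat_lit 13) L9440 (by decide +kernel)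
theorem L9442 : W_24 (nat_lit 4) (nat_lit 0x780020000c000200000001000080000000000000000000000000000000) (nat_lit 0x0) (nat_lit 0x8001c0000000100010000800000000000000000000000000000000000000000000) := T_24 (nat_lit 246) (nat_lit 212) (nat_lit 4) (nat_lit 8) (nat_lit 14) L9441 (by decide +kernel)
theorem L9443 : W_24 (nat_lit 5) (nat_lit 0x780000000c000200000001000080000000000000000000000000000000) (nat_lit 0x0) (nat_lit 0x8001c0000000700010000800000000000000000000000000000000000000000000) := T_24 (nat_lit 213) (nat_lit 214) (nat_lit 2) (nat_lit 6) (nat_lit 13) L9442 (by decide +kernel)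
theorem L9444 : W_24 (nat_lit 7) (nat_lit 0x700000000c000200000001000080000000000000000000000000000000) (nat_lit 0x0) (nat_lit 0x8001dc000c00760010000800000000000000000000000000000000000000000000) := Q_24 (nat_lit 227) (C_24 L9387 (C_24 L9438 (C_24 L9318 (C_24 L9413 (C_24 L9443 N_24))))) (by decide +kernel)
theorem L9445 : W_24 (nat_lit 14) (nat_lit 0x300000000c000200000001000080000000000000000000000000000000) (nat_lit 0x0) (nat_lit 0x500038007fc01ce01f700710079c0040000000000000000000000000000000000000000) := Q_24 (nat_lit 230) (C_24 L9378 (C_24 L9384 (C_24 L9385 (C_24 L9388 (C_24 L9403 (C_24 L9414 (C_24 L9420 (C_24 L9436 (C_24 L9439 (C_24 L9444 N_24)))))))))) (by decide +kernel)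
theorem L9446 : W_24 (nat_lit 6) (nat_lit 0x380000000c000200000001000080000000000000000000000000000000) (nat_lit 0x0) (nat_lit 0x10003bc00c400760000000000000000000000000000000000000000000000000000) := Q_24 (nat_lit 230) (C_24 L9407 (C_24 L9413 (C_24 L9410 N_24))) (by decide +kernel)
theorem L9447 : W_24 (nat_lit 2) (nat_lit 0x1000f80000000c000200000001000080000000000000000000000000000000) (nat_lit 0x0) (nat_lit 0x380000000000000000000000000000000000000000000000000000000000000) := D_24 (nat_lit 248) (nat_lit 247) (nat_lit 249) (nat_lit 3) (nat_lit 6) (nat_lit 13) (nat_lit 3) (nat_lit 7) (nat_lit 13) (by decide +kernel)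
theorem L9448 : W_24 (nat_lit 3) (nat_lit 0x1000780000000c000200000001000080000000000000000000000000000000) (nat_lit 0x0) (nat_lit 0x3a0008000000000000000000000000000000000000000000000000000000000) := T_24 (nat_lit 231) (nat_lit 245) (nat_lit 1) (nat_lit 10) (nat_lit 13) L9447 (by decide +kernel)
theorem L9449 : W_24 (nat_lit 4) (nat_lit 0x1000380000000c000200000001000080000000000000000000000000000000) (nat_lit 0x0) (nat_lit 0x3a800c000000000000000000000000000000000000000000000000000000000) := T_24 (nat_lit 230) (nat_lit 243) (nat_lit 1) (nat_lit 9) (nat_lit 13) L9448 (by decide +kernel)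
theorem L9450 : W_24 (nat_lit 5) (nat_lit 0x380000000c000200000001000080000000000000000000000000000000) (nat_lit 0x0) (nat_lit 0x3b800c000080000000000000000000000000000000000000000000000000000) := T_24 (nat_lit 244) (nat_lit 211) (nat_lit 5) (nat_lit 7) (nat_lit 10) L9449 (by decide +kernel)
theorem L9451 : W_24 (nat_lit 2) (nat_lit 0x10000780004000c000200000001000080000000000000000000000000000000) (nat_lit 0x0) (nat_lit 0x200008000080000000000000000000000000000000000000000000000000000) := D_24 (nat_lit 231) (nat_lit 211) (nat_lit 249) (nat_lit 0) (nat_lit 10) (nat_lit 13) (nat_lit 3) (nat_lit 7) (nat_lit 13) (by decide +kernel)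
theorem L9452 : W_24 (nat_lit 3) (nat_lit 0x780004000c000200000001000080000000000000000000000000000000) (nat_lit 0x0) (nat_lit 0x380008000080000000000000000000000000000000000000000000000000000) := T_24 (nat_lit 248) (nat_lit 247) (nat_lit 3) (nat_lit 6) (nat_lit 13) L9451 (by decide +kernel)
theorem L9453 : W_24 (nat_lit 4) (nat_lit 0x780000000c000200000001000080000000000000000000000000000000) (nat_lit 0x0) (nat_lit 0x3800080000e0000000000000000000000000000000000000000000000000000) := T_24 (nat_lit 210) (nat_lit 209) (nat_lit 0) (nat_lit 9) (nat_lit 13) L9452 (by decide +kernel)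
theorem L9454 : W_24 (nat_lit 2) (nat_lit 0x10800fc0024007c002200000001000080000000000000000000000000000000) (nat_lit 0x0) (nat_lit 0x10001800000000000000000000000000000000000000000000000000000) := D_24 (nat_lit 215) (nat_lit 216) (nat_lit 232) (nat_lit 3) (nat_lit 8) (nat_lit 11) (nat_lit 5) (nat_lit 11) (nat_lit 10) (by decide +kernel)
theorem L9455 : W_24 (nat_lit 3) (nat_lit 0x10800fc0024003c002200000001000080000000000000000000000000000000) (nat_lit 0x0) (nat_lit 0x10001800040004000000000000000000000000000000000000000000000) := T_24 (nat_lit 198) (nat_lit 182) (nat_lit 2) (nat_lit 8) (nat_lit 11) L9454 (by decide +kernel)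
theorem L9456 : W_24 (nat_lit 4) (nat_lit 0x10800fc0024003c000200000001000080000000000000000000000000000000) (nat_lit 0x0) (nat_lit 0x10001800040007000000000000000000000000000000000000000000000) := T_24 (nat_lit 181) (nat_lit 180) (nat_lit 2) (nat_lit 7) (nat_lit 11) L9455 (by decide +kernel)
theorem L9457 : W_24 (nat_lit 5) (nat_lit 0x10800fc0024001c000200000001000080000000000000000000000000000000) (nat_lit 0x0) (nat_lit 0x10001800060007100000000000000000000000000000000000000000000) := T_24 (nat_lit 197) (nat_lit 176) (nat_lit 0) (nat_lit 10) (nat_lit 11) L9456 (by decide +kernel)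
theorem L9458 : W_24 (nat_lit 6) (nat_lit 0x10800fc0024000c000200000001000080000000000000000000000000000000) (nat_lit 0x0) (nat_lit 0x10001800070007900000000000000000000000000000000000000000000) := T_24 (nat_lit 196) (nat_lit 179) (nat_lit 7) (nat_lit 9) (nat_lit 10) L9457 (by decide +kernel)
theorem L9459 : W_24 (nat_lit 7) (nat_lit 0x800fc0024000c000200000001000080000000000000000000000000000000) (nat_lit 0x0) (nat_lit 0x300010001800070007900000000000000000000000000000000000000000000) := T_24 (nat_lit 248) (nat_lit 249) (nat_lit 3) (nat_lit 7) (nat_lit 13) L9458 (by decide +kernel)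
theorem L9460 : W_24 (nat_lit 8) (nat_lit 0x8007c0024000c000200000001000080000000000000000000000000000000) (nat_lit 0x0) (nat_lit 0x300018001880070007900000000000000000000000000000000000000000000) := T_24 (nat_lit 231) (nat_lit 211) (nat_lit 0) (nat_lit 10) (nat_lit 13) L9459 (by decide +kernel)
theorem L9461 : W_24 (nat_lit 9) (nat_lit 0x7c0024000c000200000001000080000000000000000000000000000000) (nat_lit 0x0) (nat_lit 0x30c018001880070007900000000000000000000000000000000000000000000) := T_24 (nat_lit 243) (nat_lit 242) (nat_lit 1) (nat_lit 8) (nat_lit 13) L9460 (by decide +kernel)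
theorem L9462 : W_24 (nat_lit 10) (nat_lit 0x780024000c000200000001000080000000000000000000000000000000) (nat_lit 0x0) (nat_lit 0x30c018401980070007900000000000000000000000000000000000000000000) := T_24 (nat_lit 226) (nat_lit 212) (nat_lit 2) (nat_lit 5) (nat_lit 13) L9461 (by decide +kernel)
theorem L9463 : W_24 (nat_lit 11) (nat_lit 0x780004000c000200000001000080000000000000000000000000000000) (nat_lit 0x0) (nat_lit 0x30c018401f80070007900000000000000000000000000000000000000000000) := T_24 (nat_lit 213) (nat_lit 214) (nat_lit 2) (nat_lit 6) (nat_lit 13) L9462 (by decide +kernel)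
theorem L9464 : W_24 (nat_lit 12) (nat_lit 0x780000000c000200000001000080000000000000000000000000000000) (nat_lit 0x0) (nat_lit 0x30c018401fe0070007900000000000000000000000000000000000000000000) := T_24 (nat_lit 210) (nat_lit 209) (nat_lit 0) (nat_lit 9) (nat_lit 13) L9463 (by decide +kernel)
theorem L9465 : W_24 (nat_lit 2) (nat_lit 0x4007c002c000c000200000001000080000000000000000000000000000000) (nat_lit 0x0) (nat_lit 0x2000300000000000000000000000000000000000000000000000000000000) := D_24 (nat_lit 225) (nat_lit 241) (nat_lit 224) (nat_lit 1) (nat_lit 7) (nat_lit 13) (nat_lit 2) (nat_lit 3) (nat_lit 13) (by decide +kernel)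
theorem L9466 : W_24 (nat_lit 3) (nat_lit 0x4007c0024000c000200000001000080000000000000000000000000000000) (nat_lit 0x0) (nat_lit 0x2008300080000000000000000000000000000000000000000000000000000) := T_24 (nat_lit 211) (nat_lit 231) (nat_lit 0) (nat_lit 10) (nat_lit 13) L9465 (by decide +kernel)
theorem L9467 : W_24 (nat_lit 4) (nat_lit 0x7c0024000c000200000001000080000000000000000000000000000000) (nat_lit 0x0) (nat_lit 0xe008300080000000000000000000000000000000000000000000000000000) := T_24 (nat_lit 242) (nat_lit 243) (nat_lit 1) (nat_lit 8) (nat_lit 13) L9466 (by decide +kernel)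
theorem L9468 : W_24 (nat_lit 5) (nat_lit 0x780024000c000200000001000080000000000000000000000000000000) (nat_lit 0x0) (nat_lit 0xe008700180000000000000000000000000000000000000000000000000000) := T_24 (nat_lit 226) (nat_lit 212) (nat_lit 2) (nat_lit 5) (nat_lit 13) L9467 (by decide +kernel)
theorem L9469 : W_24 (nat_lit 6) (nat_lit 0x780004000c000200000001000080000000000000000000000000000000) (nat_lit 0x0) (nat_lit 0xe008700780000000000000000000000000000000000000000000000000000) := T_24 (nat_lit 213) (nat_lit 214) (nat_lit 2) (nat_lit 6) (nat_lit 13) L9468 (by decide +kernel)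
theorem L9470 : W_24 (nat_lit 7) (nat_lit 0x780000000c000200000001000080000000000000000000000000000000) (nat_lit 0x0) (nat_lit 0xe0087007e0000000000000000000000000000000000000000000000000000) := T_24 (nat_lit 210) (nat_lit 209) (nat_lit 0) (nat_lit 9) (nat_lit 13) L9469 (by decide +kernel)
theorem L9471 : W_24 (nat_lit 13) (nat_lit 0x380000000c000200000001000080000000000000000000000000000000) (nat_lit 0x0) (nat_lit 0x100038e01c701fe0070007900000000000000000000000000000000000000000000) := Q_24 (nat_lit 230) (C_24 L9453 (C_24 L9410 (C_24 L9464 (C_24 L9470 N_24)))) (by decide +kernel)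
theorem L9472 : W_24 (nat_lit 2) (nat_lit 0x3c0008000c000200000001000080000000000000000000000000000000) (nat_lit 0x0) (nat_lit 0x200300000000000000000000000000000000000000000000000000000) := D_24 (nat_lit 212) (nat_lit 225) (nat_lit 213) (nat_lit 2) (nat_lit 4) (nat_lit 13) (nat_lit 2) (nat_lit 5) (nat_lit 13) (by decide +kernel)
theorem L9473 : W_24 (nat_lit 3) (nat_lit 0x3c0000000c000200000001000080000000000000000000000000000000) (nat_lit 0x0) (nat_lit 0x10000200380000000000000000000000000000000000000000000000000000) := T_24 (nat_lit 211) (nat_lit 244) (nat_lit 5) (nat_lit 7) (nat_lit 10) L9472 (by decide +kernel)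
theorem L9474 : W_24 (nat_lit 2) (nat_lit 0x4003c0009000c000200000001000080000000000000000000000000000000) (nat_lit 0x0) (nat_lit 0x2000200008000000000000000000000000000000000000000000000000000) := D_24 (nat_lit 225) (nat_lit 241) (nat_lit 207) (nat_lit 1) (nat_lit 7) (nat_lit 13) (nat_lit 0) (nat_lit 7) (nat_lit 13) (by decide +kernel)
theorem L9475 : W_24 (nat_lit 3) (nat_lit 0x4003c0008000c000200000001000080000000000000000000000000000000) (nat_lit 0x0) (nat_lit 0x2000200038000000000000000000000000000000000000000000000000000) := T_24 (nat_lit 208) (nat_lit 209) (nat_lit 0) (nat_lit 8) (nat_lit 13) L9474 (by decide +kernel)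
theorem L9476 : W_24 (nat_lit 4) (nat_lit 0x3c0008000c000200000001000080000000000000000000000000000000) (nat_lit 0x0) (nat_lit 0xe000200038000000000000000000000000000000000000000000000000000) := T_24 (nat_lit 242) (nat_lit 243) (nat_lit 1) (nat_lit 8) (nat_lit 13) L9475 (by decide +kernel)
theorem L9477 : W_24 (nat_lit 5) (nat_lit 0x3c0000000c000200000001000080000000000000000000000000000000) (nat_lit 0x0) (nat_lit 0x1e0002000b8000000000000000000000000000000000000000000000000000) := T_24 (nat_lit 211) (nat_lit 244) (nat_lit 5) (nat_lit 7) (nat_lit 10) L9476 (by decide +kernel)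
theorem L9478 : W_24 (nat_lit 2) (nat_lit 0x3e0011000c000200000001000080000000000000000000000000000000) (nat_lit 0x0) (nat_lit 0xe000000000000000000000000000000000000000000000000000000000000) := D_24 (nat_lit 242) (nat_lit 243) (nat_lit 241) (nat_lit 1) (nat_lit 8) (nat_lit 13) (nat_lit 1) (nat_lit 7) (nat_lit 13) (by decide +kernel)
theorem L9479 : W_24 (nat_lit 3) (nat_lit 0x3c0011000c000200000001000080000000000000000000000000000000) (nat_lit 0x0) (nat_lit 0xe000200008000000000000000000000000000000000000000000000000000) := T_24 (nat_lit 225) (nat_lit 207) (nat_lit 0) (nat_lit 7) (nat_lit 13) L9478 (by decide +kernel)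
theorem L9480 : W_24 (nat_lit 4) (nat_lit 0x3c0001000c000200000001000080000000000000000000000000000000) (nat_lit 0x0) (nat_lit 0xe000200308000000000000000000000000000000000000000000000000000) := T_24 (nat_lit 212) (nat_lit 213) (nat_lit 2) (nat_lit 5) (nat_lit 13) L9479 (by decide +kernel)
theorem L9481 : W_24 (nat_lit 5) (nat_lit 0x3c0000000c000200000001000080000000000000000000000000000000) (nat_lit 0x0) (nat_lit 0xe000200338000000000000000000000000000000000000000000000000000) := T_24 (nat_lit 208) (nat_lit 209) (nat_lit 0) (nat_lit 8) (nat_lit 13) L9480 (by decide +kernel)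
theorem L9482 : W_24 (nat_lit 2) (nat_lit 0x2000400008003c001e000d000280000001000080000000000000000000000000000000) (nat_lit 0x0) (nat_lit 0x140002000000000000000000000000000000000000000) := D_24 (nat_lit 174) (nat_lit 157) (nat_lit 176) (nat_lit 4) (nat_lit 5) (nat_lit 13) (nat_lit 3) (nat_lit 4) (nat_lit 10) (by decide +kernel)
theorem L9483 : W_24 (nat_lit 3) (nat_lit 0x2000400008003c001e000d000200000001000080000000000000000000000000000000) (nat_lit 0x0) (nat_lit 0x1c0006000000000000000000000000000000000000000) := T_24 (nat_lit 175) (nat_lit 158) (nat_lit 7) (nat_lit 5) (nat_lit 9) L9482 (by decide +kernel)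
theorem L9484 : W_24 (nat_lit 4) (nat_lit 0x2000000008003c001e000d000200000001000080000000000000000000000000000000) (nat_lit 0x0) (nat_lit 0x4000200000000000000001c0006000000000000000000000000000000000000000) := T_24 (nat_lit 262) (nat_lit 245) (nat_lit 6) (nat_lit 7) (nat_lit 15) L9483 (by decide +kernel)
theorem L9485 : W_24 (nat_lit 5) (nat_lit 0x2000000008003c001e000c000200000001000080000000000000000000000000000000) (nat_lit 0x0) (nat_lit 0x4000200000000000018001c0006000000000000000000000000000000000000000) := T_24 (nat_lit 192) (nat_lit 191) (nat_lit 0) (nat_lit 8) (nat_lit 12) L9484 (by decide +kernel)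
theorem L9486 : W_24 (nat_lit 6) (nat_lit 0x8003c001e000c000200000001000080000000000000000000000000000000) (nat_lit 0x0) (nat_lit 0x20005000200000000000018001c0006000000000000000000000000000000000000000) := T_24 (nat_lit 277) (nat_lit 260) (nat_lit 6) (nat_lit 5) (nat_lit 16) L9485 (by decide +kernel)
theorem L9487 : W_24 (nat_lit 7) (nat_lit 0x8003c001a000c000200000001000080000000000000000000000000000000) (nat_lit 0x0) (nat_lit 0x20005000200000000400118001c0006000000000000000000000000000000000000000) := T_24 (nat_lit 210) (nat_lit 196) (nat_lit 2) (nat_lit 5) (nat_lit 12) L9486 (by decide +kernel)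
theorem L9488 : W_24 (nat_lit 8) (nat_lit 0x8003c000a000c000200000001000080000000000000000000000000000000) (nat_lit 0x0) (nat_lit 0x20005000200000003400118001c0006000000000000000000000000000000000000000) := T_24 (nat_lit 212) (nat_lit 213) (nat_lit 2) (nat_lit 5) (nat_lit 13) L9487 (by decide +kernel)
theorem L9489 : W_24 (nat_lit 9) (nat_lit 0x8003c0008000c000200000001000080000000000000000000000000000000) (nat_lit 0x0) (nat_lit 0x20005000200000003700118001c0006000000000000000000000000000000000000000) := T_24 (nat_lit 209) (nat_lit 208) (nat_lit 0) (nat_lit 8) (nat_lit 13) L9488 (by decide +kernel)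
theorem L9490 : W_24 (nat_lit 10) (nat_lit 0x8003c0000000c000200000001000080000000000000000000000000000000) (nat_lit 0x0) (nat_lit 0x20005000300000003f00118001c0006000000000000000000000000000000000000000) := T_24 (nat_lit 211) (nat_lit 244) (nat_lit 5) (nat_lit 7) (nat_lit 10) L9489 (by decide +kernel)
theorem L9491 : W_24 (nat_lit 11) (nat_lit 0x3c0000000c000200000001000080000000000000000000000000000000) (nat_lit 0x0) (nat_lit 0x200050003c0000003f00118001c0006000000000000000000000000000000000000000) := T_24 (nat_lit 243) (nat_lit 242) (nat_lit 1) (nat_lit 8) (nat_lit 13) L9490 (by decide +kernel)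
theorem L9492 : W_24 (nat_lit 12) (nat_lit 0x380000000c000200000001000080000000000000000000000000000000) (nat_lit 0x0) (nat_lit 0x200050003e0006003f80118001c0006000000000000000000000000000000000000000) := Q_24 (nat_lit 226) (C_24 L9473 (C_24 L9477 (C_24 L9481 (C_24 L9491 N_24)))) (by decide +kernel)
theorem L9493 : W_24 (nat_lit 2) (nat_lit 0x7c0020000c000200000001000080000000000000000000000000000000) (nat_lit 0x0) (nat_lit 0x70000000000000000000000000000000000000000000000000000) := D_24 (nat_lit 209) (nat_lit 208) (nat_lit 210) (nat_lit 0) (nat_lit 8) (nat_lit 13) (nat_lit 0) (nat_lit 9) (nat_lit 13) (by decide +kernel)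
theorem L9494 : W_24 (nat_lit 3) (nat_lit 0x780020000c000200000001000080000000000000000000000000000000) (nat_lit 0x0) (nat_lit 0x400170000000000000000000000000000000000000000000000000000) := T_24 (nat_lit 226) (nat_lit 212) (nat_lit 2) (nat_lit 5) (nat_lit 13) L9493 (by decide +kernel)
theorem L9495 : W_24 (nat_lit 4) (nat_lit 0x780000000c000200000001000080000000000000000000000000000000) (nat_lit 0x0) (nat_lit 0x400770000000000000000000000000000000000000000000000000000) := T_24 (nat_lit 213) (nat_lit 214) (nat_lit 2) (nat_lit 6) (nat_lit 13) L9494 (by decide +kernel)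
theorem L9496 : W_24 (nat_lit 5) (nat_lit 0x380000000c000200000001000080000000000000000000000000000000) (nat_lit 0x0) (nat_lit 0x100038000c4007f0000000000000000000000000000000000000000000000000000) := Q_24 (nat_lit 230) (C_24 L9453 (C_24 L9410 (C_24 L9495 N_24))) (by decide +kernel)
theorem L9497 : W_24 (nat_lit 14) (nat_lit 0x300000000c000200000001000080000000000000000000000000000000) (nat_lit 0x0) (nat_lit 0x20015003be01cf01ff80718079c0006000000000000000000000000000000000000000) := Q_24 (nat_lit 227) (C_24 L9352 (C_24 L9446 (C_24 L9450 (C_24 L9471 (C_24 L9492 (C_24 L9496 N_24)))))) (by decide +kernel)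
theorem L9498 : W_24 (nat_lit 15) (nat_lit 0x200000000c000200000001000080000000000000000000000000000000) (nat_lit 0x0) (nat_lit 0x52003d007fe01df01ff80718079c0046000000000000000000000000000000000000000) := Q_24 (nat_lit 228) (C_24 L9353 (C_24 L9354 (C_24 L9445 (C_24 L9497 N_24)))) (by decide +kernel)
theorem L9499 : W_24 (nat_lit 2) (nat_lit 0x300008000c000200000001000080000000000000000000000000000000) (nat_lit 0x0) (nat_lit 0x20000000000000000400020000000000000000000000000000000000000000) := D_24 (nat_lit 178) (nat_lit 245) (nat_lit 161) (nat_lit 6) (nat_lit 7) (nat_lit 14) (nat_lit 6) (nat_lit 7) (nat_lit 13) (by decide +kernel)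
theorem L9500 : W_24 (nat_lit 3) (nat_lit 0x300000000c000200000001000080000000000000000000000000000000) (nat_lit 0x0) (nat_lit 0x60000000080000000400020000000000000000000000000000000000000000) := T_24 (nat_lit 211) (nat_lit 246) (nat_lit 7) (nat_lit 7) (nat_lit 10) L9499 (by decide +kernel)
theorem L9501 : W_24 (nat_lit 2) (nat_lit 0x700020003c001200020001000080000000000000000000000000000000) (nat_lit 0x0) (nat_lit 0x8000c0000000000000000000000000000000000000000) := D_24 (nat_lit 179) (nat_lit 163) (nat_lit 162) (nat_lit 6) (nat_lit 9) (nat_lit 13) (nat_lit 4) (nat_lit 9) (nat_lit 12) (by decide +kernel)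
theorem L9502 : W_24 (nat_lit 3) (nat_lit 0x700000003c001200020001000080000000000000000000000000000000) (nat_lit 0x0) (nat_lit 0x800000002000000008000c0000000000000000000000000000000000000000) := T_24 (nat_lit 213) (nat_lit 247) (nat_lit 6) (nat_lit 9) (nat_lit 14) L9501 (by decide +kernel)
theorem L9503 : W_24 (nat_lit 4) (nat_lit 0x700000003c000200020001000080000000000000000000000000000000) (nat_lit 0x0) (nat_lit 0x800000002000000038000c0000000000000000000000000000000000000000) := T_24 (nat_lit 180) (nat_lit 181) (nat_lit 2) (nat_lit 7) (nat_lit 11) L9502 (by decide +kernel)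
theorem L9504 : W_24 (nat_lit 5) (nat_lit 0x700000001c000200020001000080000000000000000000000000000000) (nat_lit 0x0) (nat_lit 0x800000002000200039000c0000000000000000000000000000000000000000) := T_24 (nat_lit 197) (nat_lit 176) (nat_lit 0) (nat_lit 10) (nat_lit 11) L9503 (by decide +kernel)
theorem L9505 : W_24 (nat_lit 6) (nat_lit 0x700000001c000200000001000080000000000000000000000000000000) (nat_lit 0x0) (nat_lit 0x80000000200020003d000e0000000000000000000000000000000000000000) := T_24 (nat_lit 161) (nat_lit 178) (nat_lit 5) (nat_lit 8) (nat_lit 7) L9504 (by decide +kernel)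
theorem L9506 : W_24 (nat_lit 2) (nat_lit 0x8000700000003c001600000001000080000000000000000000000000000000) (nat_lit 0x0) (nat_lit 0x8000c00000000000000000000000000000000000000000000000000000) := D_24 (nat_lit 214) (nat_lit 231) (nat_lit 215) (nat_lit 5) (nat_lit 10) (nat_lit 10) (nat_lit 3) (nat_lit 7) (nat_lit 11) (by decide +kernel)
theorem L9507 : W_24 (nat_lit 3) (nat_lit 0x8000700000003c000600000001000080000000000000000000000000000000) (nat_lit 0x0) (nat_lit 0x8000c00000003000000000000000000000000000000000000000000000) := T_24 (nat_lit 180) (nat_lit 181) (nat_lit 2) (nat_lit 7) (nat_lit 11) L9506 (by decide +kernel)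
theorem L9508 : W_24 (nat_lit 4) (nat_lit 0x8000700000001c000600000001000080000000000000000000000000000000) (nat_lit 0x0) (nat_lit 0x8000c00060003000000000000000000000000000000000000000000000) := T_24 (nat_lit 197) (nat_lit 198) (nat_lit 0) (nat_lit 11) (nat_lit 11) L9507 (by decide +kernel)
theorem L9509 : W_24 (nat_lit 5) (nat_lit 0x700000001c000600000001000080000000000000000000000000000000) (nat_lit 0x0) (nat_lit 0x80008000e00060003000000000000000000000000000000000000000000000) := T_24 (nat_lit 247) (nat_lit 213) (nat_lit 4) (nat_lit 9) (nat_lit 14) L9508 (by decide +kernel)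
theorem L9510 : W_24 (nat_lit 6) (nat_lit 0x700000001c000200000001000080000000000000000000000000000000) (nat_lit 0x0) (nat_lit 0x80008000e00060003400020000000000000000000000000000000000000000) := T_24 (nat_lit 178) (nat_lit 161) (nat_lit 5) (nat_lit 8) (nat_lit 7) L9509 (by decide +kernel)
theorem L9511 : W_24 (nat_lit 2) (nat_lit 0x3000070008000fc004200020011000080000000000000000000000000000000) (nat_lit 0x0) (nat_lit 0x4c0000000000000000000000000000000000000000000000000000000000000) := D_24 (nat_lit 247) (nat_lit 250) (nat_lit 246) (nat_lit 0) (nat_lit 12) (nat_lit 14) (nat_lit 0) (nat_lit 11) (nat_lit 14) (by decide +kernel)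
theorem L9512 : W_24 (nat_lit 3) (nat_lit 0x2000070008000fc004200020011000080000000000000000000000000000000) (nat_lit 0x0) (nat_lit 0x5c0008000000000000000000000000000000000000000000000000000000000) := T_24 (nat_lit 248) (nat_lit 231) (nat_lit 3) (nat_lit 7) (nat_lit 13) L9511 (by decide +kernel)
theorem L9513 : W_24 (nat_lit 4) (nat_lit 0x70008000fc004200020011000080000000000000000000000000000000) (nat_lit 0x0) (nat_lit 0x7c0018000000000000000000000000000000000000000000000000000000000) := T_24 (nat_lit 249) (nat_lit 232) (nat_lit 6) (nat_lit 11) (nat_lit 14) L9512 (by decide +kernel)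
theorem L9514 : W_24 (nat_lit 5) (nat_lit 0x70008000fc004200020001000080000000000000000000000000000000) (nat_lit 0x0) (nat_lit 0x7c0018000000000000000200010000000000000000000000000000000000000) := T_24 (nat_lit 148) (nat_lit 165) (nat_lit 5) (nat_lit 12) (nat_lit 8) L9513 (by decide +kernel)
theorem L9515 : W_24 (nat_lit 6) (nat_lit 0x700080007c004200020001000080000000000000000000000000000000) (nat_lit 0x0) (nat_lit 0x7c0018000000080008000200010000000000000000000000000000000000000) := T_24 (nat_lit 199) (nat_lit 183) (nat_lit 2) (nat_lit 9) (nat_lit 11) L9514 (by decide +kernel)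
theorem L9516 : W_24 (nat_lit 7) (nat_lit 0x700080007c000200020001000080000000000000000000000000000000) (nat_lit 0x0) (nat_lit 0x7c001800000008000e000200010000000000000000000000000000000000000) := T_24 (nat_lit 182) (nat_lit 181) (nat_lit 2) (nat_lit 8) (nat_lit 11) L9515 (by decide +kernel)
theorem L9517 : W_24 (nat_lit 8) (nat_lit 0x700080003c000200020001000080000000000000000000000000000000) (nat_lit 0x0) (nat_lit 0x7c00180010000c000e000200010000000000000000000000000000000000000) := T_24 (nat_lit 198) (nat_lit 216) (nat_lit 3) (nat_lit 8) (nat_lit 11) L9516 (by decide +kernel)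
theorem L9518 : W_24 (nat_lit 9) (nat_lit 0x700000003c000200020001000080000000000000000000000000000000) (nat_lit 0x0) (nat_lit 0x7c0018001c000c000e000200010000000000000000000000000000000000000) := T_24 (nat_lit 215) (nat_lit 214) (nat_lit 3) (nat_lit 7) (nat_lit 11) L9517 (by decide +kernel)
theorem L9519 : W_24 (nat_lit 10) (nat_lit 0x700000001c000200020001000080000000000000000000000000000000) (nat_lit 0x0) (nat_lit 0x7c0018001c000e000e100200010000000000000000000000000000000000000) := T_24 (nat_lit 197) (nat_lit 176) (nat_lit 0) (nat_lit 10) (nat_lit 11) L9518 (by decide +kernel)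
theorem L9520 : W_24 (nat_lit 11) (nat_lit 0x700000001c000200000001000080000000000000000000000000000000) (nat_lit 0x0) (nat_lit 0x7c0018001c000e000e500220010000000000000000000000000000000000000) := T_24 (nat_lit 161) (nat_lit 178) (nat_lit 5) (nat_lit 8) (nat_lit 7) L9519 (by decide +kernel)
theorem L9521 : W_24 (nat_lit 2) (nat_lit 0x700020001c000e80000001000080000000000000000000000000000000) (nat_lit 0x0) (nat_lit 0x3000080000000000000000000000000000000000000000) := D_24 (nat_lit 180) (nat_lit 181) (nat_lit 163) (nat_lit 1) (nat_lit 11) (nat_lit 10) (nat_lit 6) (nat_lit 9) (nat_lit 13) (by decide +kernel)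
theorem L9522 : W_24 (nat_lit 3) (nat_lit 0x700020001c000680000001000080000000000000000000000000000000) (nat_lit 0x0) (nat_lit 0x40000000000000003800080000000000000000000000000000000000000000) := T_24 (nat_lit 179) (nat_lit 246) (nat_lit 5) (nat_lit 9) (nat_lit 10) L9521 (by decide +kernel)
theorem L9523 : W_24 (nat_lit 4) (nat_lit 0x700020001c000600000001000080000000000000000000000000000000) (nat_lit 0x0) (nat_lit 0x40000000000000003980080000000000000000000000000000000000000000) := T_24 (nat_lit 175) (nat_lit 176) (nat_lit 3) (nat_lit 5) (nat_lit 10) L9522 (by decide +kernel)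
theorem L9524 : W_24 (nat_lit 5) (nat_lit 0x700000001c000600000001000080000000000000000000000000000000) (nat_lit 0x0) (nat_lit 0xc0000000200000003980080000000000000000000000000000000000000000) := T_24 (nat_lit 213) (nat_lit 247) (nat_lit 4) (nat_lit 9) (nat_lit 14) L9523 (by decide +kernel)
theorem L9525 : W_24 (nat_lit 6) (nat_lit 0x700000001c000200000001000080000000000000000000000000000000) (nat_lit 0x0) (nat_lit 0xc0000000200000003d800a0000000000000000000000000000000000000000) := T_24 (nat_lit 178) (nat_lit 161) (nat_lit 5) (nat_lit 8) (nat_lit 7) L9524 (by decide +kernel)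
theorem L9526 : W_24 (nat_lit 2) (nat_lit 0x12000f001a0003c000200020001000080000000000000000000000000000000) (nat_lit 0x0) (nat_lit 0x2000080000000000000001000000000000000000000000000000000000000000000) := D_24 (nat_lit 247) (nat_lit 180) (nat_lit 265) (nat_lit 6) (nat_lit 9) (nat_lit 14) (nat_lit 7) (nat_lit 9) (nat_lit 11) (by decide +kernel)
theorem L9527 : W_24 (nat_lit 3) (nat_lit 0x12000f00180003c000200020001000080000000000000000000000000000000) (nat_lit 0x0) (nat_lit 0x2000080000000200000001800000000000000000000000000000000000000000000) := T_24 (nat_lit 213) (nat_lit 179) (nat_lit 7) (nat_lit 9) (nat_lit 10) L9526 (by decide +kernel)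
theorem L9528 : W_24 (nat_lit 4) (nat_lit 0x2000f00180003c000200020001000080000000000000000000000000000000) (nat_lit 0x0) (nat_lit 0x2000380000000200000001800000000000000000000000000000000000000000000) := T_24 (nat_lit 248) (nat_lit 249) (nat_lit 3) (nat_lit 7) (nat_lit 13) L9527 (by decide +kernel)
theorem L9529 : W_24 (nat_lit 5) (nat_lit 0xf00180003c000200020001000080000000000000000000000000000000) (nat_lit 0x0) (nat_lit 0x20003b0000000200000001800000000000000000000000000000000000000000000) := T_24 (nat_lit 245) (nat_lit 244) (nat_lit 1) (nat_lit 10) (nat_lit 13) L9528 (by decide +kernel)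
theorem L9530 : W_24 (nat_lit 6) (nat_lit 0x700180003c000200020001000080000000000000000000000000000000) (nat_lit 0x0) (nat_lit 0x20003b0018000200000001800000000000000000000000000000000000000000000) := T_24 (nat_lit 231) (nat_lit 232) (nat_lit 2) (nat_lit 8) (nat_lit 13) L9529 (by decide +kernel)
theorem L9531 : W_24 (nat_lit 7) (nat_lit 0x700080003c000200020001000080000000000000000000000000000000) (nat_lit 0x0) (nat_lit 0x20003b0018001200040001800000000000000000000000000000000000000000000) := T_24 (nat_lit 216) (nat_lit 198) (nat_lit 3) (nat_lit 8) (nat_lit 11) L9530 (by decide +kernel)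
theorem L9532 : W_24 (nat_lit 8) (nat_lit 0x700000003c000200020001000080000000000000000000000000000000) (nat_lit 0x0) (nat_lit 0x20003b0018001e00040001800000000000000000000000000000000000000000000) := T_24 (nat_lit 215) (nat_lit 214) (nat_lit 3) (nat_lit 7) (nat_lit 11) L9531 (by decide +kernel)
theorem L9533 : W_24 (nat_lit 9) (nat_lit 0x700000001c000200020001000080000000000000000000000000000000) (nat_lit 0x0) (nat_lit 0x20003b0018001e00060001900000000000000000000000000000000000000000000) := T_24 (nat_lit 197) (nat_lit 176) (nat_lit 0) (nat_lit 10) (nat_lit 11) L9532 (by decide +kernel)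
theorem L9534 : W_24 (nat_lit 10) (nat_lit 0x700000001c000200000001000080000000000000000000000000000000) (nat_lit 0x0) (nat_lit 0x20003b0018001e00060001d00020000000000000000000000000000000000000000) := T_24 (nat_lit 161) (nat_lit 178) (nat_lit 5) (nat_lit 8) (nat_lit 7) L9533 (by decide +kernel)
theorem L9535 : W_24 (nat_lit 2) (nat_lit 0x700000003c000200000001000080000000000000000000000000000000) (nat_lit 0x0) (nat_lit 0x40000400020000000000000000000000000000000000000000) := D_24 (nat_lit 178) (nat_lit 161) (nat_lit 198) (nat_lit 5) (nat_lit 8) (nat_lit 7) (nat_lit 0) (nat_lit 11) (nat_lit 11) (by decide +kernel)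
theorem L9536 : W_24 (nat_lit 3) (nat_lit 0x700000001c000200000001000080000000000000000000000000000000) (nat_lit 0x0) (nat_lit 0x60000500020000000000000000000000000000000000000000) := T_24 (nat_lit 197) (nat_lit 176) (nat_lit 0) (nat_lit 10) (nat_lit 11) L9535 (by decide +kernel)
theorem L9537 : W_24 (nat_lit 12) (nat_lit 0x700000000c000200000001000080000000000000000000000000000000) (nat_lit 0x0) (nat_lit 0x20007f0018001e000f000fd802e0010000000000000000000000000000000000000) := Q_24 (nat_lit 196) (C_24 L9365 (C_24 L9505 (C_24 L9510 (C_24 L9520 (C_24 L9525 (C_24 L9534 (C_24 L9536 N_24))))))) (by decide +kernel)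
theorem L9538 : W_24 (nat_lit 2) (nat_lit 0x30007c0022000c000200020001000080000000000000000000000000000000) (nat_lit 0x0) (nat_lit 0x40000300000000000000000000000000000000000000000000000000000000) := D_24 (nat_lit 225) (nat_lit 224) (nat_lit 246) (nat_lit 3) (nat_lit 3) (nat_lit 13) (nat_lit 3) (nat_lit 4) (nat_lit 13) (by decide +kernel)
theorem L9539 : W_24 (nat_lit 3) (nat_lit 0x10007c0022000c000200020001000080000000000000000000000000000000) (nat_lit 0x0) (nat_lit 0x60008300000000000000000000000000000000000000000000000000000000) := T_24 (nat_lit 245) (nat_lit 231) (nat_lit 1) (nat_lit 10) (nat_lit 13) L9538 (by decide +kernel)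
theorem L9540 : W_24 (nat_lit 4) (nat_lit 0x1000780022000c000200020001000080000000000000000000000000000000) (nat_lit 0x0) (nat_lit 0x60008700010000000000000000000000000000000000000000000000000000) := T_24 (nat_lit 226) (nat_lit 208) (nat_lit 0) (nat_lit 8) (nat_lit 13) L9539 (by decide +kernel)
theorem L9541 : W_24 (nat_lit 5) (nat_lit 0x780022000c000200020001000080000000000000000000000000000000) (nat_lit 0x0) (nat_lit 0x78008700010000000000000000000000000000000000000000000000000000) := T_24 (nat_lit 244) (nat_lit 243) (nat_lit 1) (nat_lit 9) (nat_lit 13) L9540 (by decide +kernel)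
theorem L9542 : W_24 (nat_lit 6) (nat_lit 0x780020000c000200020001000080000000000000000000000000000000) (nat_lit 0x0) (nat_lit 0x78008700070000000000000000000000000000000000000000000000000000) := T_24 (nat_lit 209) (nat_lit 210) (nat_lit 0) (nat_lit 9) (nat_lit 13) L9541 (by decide +kernel)
theorem L9543 : W_24 (nat_lit 7) (nat_lit 0x780000000c000200020001000080000000000000000000000000000000) (nat_lit 0x0) (nat_lit 0x78008700670000000000000000000000000000000000000000000000000000) := T_24 (nat_lit 213) (nat_lit 214) (nat_lit 2) (nat_lit 6) (nat_lit 13) L9542 (by decide +kernel)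
theorem L9544 : W_24 (nat_lit 8) (nat_lit 0x780000000c000200000001000080000000000000000000000000000000) (nat_lit 0x0) (nat_lit 0x78008700670000000400020000000000000000000000000000000000000000) := T_24 (nat_lit 161) (nat_lit 178) (nat_lit 5) (nat_lit 8) (nat_lit 7) L9543 (by decide +kernel)
theorem L9545 : W_24 (nat_lit 9) (nat_lit 0x700000000c000200000001000080000000000000000000000000000000) (nat_lit 0x0) (nat_lit 0x8003fc008f00670010000c00020000000000000000000000000000000000000000) := Q_24 (nat_lit 227) (C_24 L9407 (C_24 L9313 (C_24 L9318 (C_24 L9544 N_24)))) (by decide +kernel)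
theorem L9546 : W_24 (nat_lit 2) (nat_lit 0x80007c0000000c000200020001000080000000000000000000000000000000) (nat_lit 0x0) (nat_lit 0x70000000000000000000000000000000000000000000000000000) := D_24 (nat_lit 209) (nat_lit 210) (nat_lit 208) (nat_lit 0) (nat_lit 9) (nat_lit 13) (nat_lit 0) (nat_lit 8) (nat_lit 13) (by decide +kernel)
theorem L9547 : W_24 (nat_lit 3) (nat_lit 0x8000780000000c000200020001000080000000000000000000000000000000) (nat_lit 0x0) (nat_lit 0x40000400070000000000000000000000000000000000000000000000000000) := T_24 (nat_lit 226) (nat_lit 246) (nat_lit 3) (nat_lit 5) (nat_lit 13) L9546 (by decide +kernel)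
theorem L9548 : W_24 (nat_lit 4) (nat_lit 0x780000000c000200020001000080000000000000000000000000000000) (nat_lit 0x0) (nat_lit 0x1c0000400070000000000000000000000000000000000000000000000000000) := T_24 (nat_lit 247) (nat_lit 248) (nat_lit 3) (nat_lit 6) (nat_lit 13) L9547 (by decide +kernel)
theorem L9549 : W_24 (nat_lit 5) (nat_lit 0x780000000c000200000001000080000000000000000000000000000000) (nat_lit 0x0) (nat_lit 0x1c0000400070000000400020000000000000000000000000000000000000000) := T_24 (nat_lit 161) (nat_lit 178) (nat_lit 5) (nat_lit 8) (nat_lit 7) L9548 (by decide +kernel)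
theorem L9550 : W_24 (nat_lit 9) (nat_lit 0x700000000c000200000001000080000000000000000000000000000000) (nat_lit 0x0) (nat_lit 0x3fc008f00670000000400020000000000000000000000000000000000000000) := Q_24 (nat_lit 227) (C_24 L9544 (C_24 L9407 (C_24 L9313 (C_24 L9549 N_24)))) (by decide +kernel)
theorem L9551 : W_24 (nat_lit 2) (nat_lit 0x18000f00040000c000200020001000080000000000000000000000000000000) (nat_lit 0x0) (nat_lit 0x1000000000000000020001000000000000000000000000000000000000000000000) := D_24 (nat_lit 197) (nat_lit 180) (nat_lit 264) (nat_lit 5) (nat_lit 10) (nat_lit 10) (nat_lit 5) (nat_lit 10) (nat_lit 11) (by decide +kernel)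
theorem L9552 : W_24 (nat_lit 3) (nat_lit 0x10000f00040000c000200020001000080000000000000000000000000000000) (nat_lit 0x0) (nat_lit 0x1000080000800000020001000000000000000000000000000000000000000000000) := T_24 (nat_lit 247) (nat_lit 227) (nat_lit 3) (nat_lit 6) (nat_lit 13) L9551 (by decide +kernel)
theorem L9553 : W_24 (nat_lit 4) (nat_lit 0xf00040000c000200020001000080000000000000000000000000000000) (nat_lit 0x0) (nat_lit 0x1000380000800000020001000000000000000000000000000000000000000000000) := T_24 (nat_lit 248) (nat_lit 249) (nat_lit 3) (nat_lit 7) (nat_lit 13) L9552 (by decide +kernel)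
theorem L9554 : W_24 (nat_lit 5) (nat_lit 0xf00000000c000200020001000080000000000000000000000000000000) (nat_lit 0x0) (nat_lit 0x1000380000800c00020001000000000000000000000000000000000000000000000) := T_24 (nat_lit 214) (nat_lit 215) (nat_lit 2) (nat_lit 7) (nat_lit 13) L9553 (by decide +kernel)
theorem L9555 : W_24 (nat_lit 6) (nat_lit 0xf00000000c000200000001000080000000000000000000000000000000) (nat_lit 0x0) (nat_lit 0x1000380000800c00020001400020000000000000000000000000000000000000000) := T_24 (nat_lit 161) (nat_lit 178) (nat_lit 5) (nat_lit 8) (nat_lit 7) L9554 (by decide +kernel)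
theorem L9556 : W_24 (nat_lit 2) (nat_lit 0x12001f00000000c000200020001000080000000000000000000000000000000) (nat_lit 0x0) (nat_lit 0x1c00000000000000000000000000000000000000000000000000000) := D_24 (nat_lit 215) (nat_lit 214) (nat_lit 216) (nat_lit 2) (nat_lit 7) (nat_lit 13) (nat_lit 2) (nat_lit 8) (nat_lit 13) (by decide +kernel)
theorem L9557 : W_24 (nat_lit 3) (nat_lit 0x12000f00000000c000200020001000080000000000000000000000000000000) (nat_lit 0x0) (nat_lit 0x40010001c00000000000000000000000000000000000000000000000000000) := T_24 (nat_lit 232) (nat_lit 246) (nat_lit 1) (nat_lit 11) (nat_lit 13) L9556 (by decide +kernel)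
theorem L9558 : W_24 (nat_lit 4) (nat_lit 0x12000f00000000c000200000001000080000000000000000000000000000000) (nat_lit 0x0) (nat_lit 0x40010001c00000000400020000000000000000000000000000000000000000) := T_24 (nat_lit 161) (nat_lit 178) (nat_lit 5) (nat_lit 8) (nat_lit 7) L9557 (by decide +kernel)
theorem L9559 : W_24 (nat_lit 5) (nat_lit 0x10000f00000000c000200000001000080000000000000000000000000000000) (nat_lit 0x0) (nat_lit 0x70010001c00000000400020000000000000000000000000000000000000000) := T_24 (nat_lit 245) (nat_lit 244) (nat_lit 1) (nat_lit 10) (nat_lit 13) L9558 (by decide +kernel)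
theorem L9560 : W_24 (nat_lit 6) (nat_lit 0xf00000000c000200000001000080000000000000000000000000000000) (nat_lit 0x0) (nat_lit 0x370010001c00000000400020000000000000000000000000000000000000000) := T_24 (nat_lit 248) (nat_lit 249) (nat_lit 3) (nat_lit 7) (nat_lit 13) L9559 (by decide +kernel)
theorem L9561 : W_24 (nat_lit 2) (nat_lit 0x9000fc0042000c000380020001000080000000000000000000000000000000) (nat_lit 0x0) (nat_lit 0x30001000000000000000000000000000000000000000000000) := D_24 (nat_lit 197) (nat_lit 180) (nat_lit 196) (nat_lit 5) (nat_lit 10) (nat_lit 10) (nat_lit 0) (nat_lit 10) (nat_lit 11) (by decide +kernel)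
theorem L9562 : W_24 (nat_lit 3) (nat_lit 0x9000fc0042000c000280020001000080000000000000000000000000000000) (nat_lit 0x0) (nat_lit 0x30001140000000000000000000000000000000000000000000) := T_24 (nat_lit 176) (nat_lit 174) (nat_lit 3) (nat_lit 4) (nat_lit 10) L9561 (by decide +kernel)
theorem L9563 : W_24 (nat_lit 4) (nat_lit 0x9000fc0042000c000200020001000080000000000000000000000000000000) (nat_lit 0x0) (nat_lit 0x310011c0000000000000000000000000000000000000000000) := T_24 (nat_lit 175) (nat_lit 192) (nat_lit 7) (nat_lit 5) (nat_lit 10) L9562 (by decide +kernel)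
theorem L9564 : W_24 (nat_lit 5) (nat_lit 0x1000fc0042000c000200020001000080000000000000000000000000000000) (nat_lit 0x0) (nat_lit 0xc00000000000310011c0000000000000000000000000000000000000000000) := T_24 (nat_lit 247) (nat_lit 246) (nat_lit 3) (nat_lit 5) (nat_lit 13) L9563 (by decide +kernel)
theorem L9565 : W_24 (nat_lit 6) (nat_lit 0x1000f80042000c000200020001000080000000000000000000000000000000) (nat_lit 0x0) (nat_lit 0xc00004000100310011c0000000000000000000000000000000000000000000) := T_24 (nat_lit 226) (nat_lit 208) (nat_lit 0) (nat_lit 8) (nat_lit 13) L9564 (by decide +kernel)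
theorem L9566 : W_24 (nat_lit 7) (nat_lit 0x1000f80040000c000200020001000080000000000000000000000000000000) (nat_lit 0x0) (nat_lit 0xc00004000700310011c0000000000000000000000000000000000000000000) := T_24 (nat_lit 209) (nat_lit 210) (nat_lit 0) (nat_lit 9) (nat_lit 13) L9565 (by decide +kernel)
theorem L9567 : W_24 (nat_lit 8) (nat_lit 0x1000f00040000c000200020001000080000000000000000000000000000000) (nat_lit 0x0) (nat_lit 0xc8000c000700310011c0000000000000000000000000000000000000000000) := T_24 (nat_lit 227) (nat_lit 243) (nat_lit 1) (nat_lit 9) (nat_lit 13) L9566 (by decide +kernel)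
theorem L9568 : W_24 (nat_lit 9) (nat_lit 0xf00040000c000200020001000080000000000000000000000000000000) (nat_lit 0x0) (nat_lit 0xf8000c000700310011c0000000000000000000000000000000000000000000) := T_24 (nat_lit 244) (nat_lit 245) (nat_lit 1) (nat_lit 10) (nat_lit 13) L9567 (by decide +kernel)
theorem L9569 : W_24 (nat_lit 10) (nat_lit 0xf00040000c000200000001000080000000000000000000000000000000) (nat_lit 0x0) (nat_lit 0xf8000c000700310015c0020000000000000000000000000000000000000000) := T_24 (nat_lit 161) (nat_lit 178) (nat_lit 5) (nat_lit 8) (nat_lit 7) L9568 (by decide +kernel)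
theorem L9570 : W_24 (nat_lit 11) (nat_lit 0xf00000000c000200000001000080000000000000000000000000000000) (nat_lit 0x0) (nat_lit 0xf8000c00c700310015c0020000000000000000000000000000000000000000) := T_24 (nat_lit 214) (nat_lit 215) (nat_lit 2) (nat_lit 7) (nat_lit 13) L9569 (by decide +kernel)
theorem L9571 : W_24 (nat_lit 12) (nat_lit 0x700000000c000200000001000080000000000000000000000000000000) (nat_lit 0x0) (nat_lit 0x10003fc018c01c700310015c0020000000000000000000000000000000000000000) := Q_24 (nat_lit 231) (C_24 L9402 (C_24 L9393 (C_24 L9555 (C_24 L9560 (C_24 L9570 N_24))))) (by decide +kernel)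
theorem L9572 : W_24 (nat_lit 2) (nat_lit 0x88007c0022000c000200000001000080000000000000000000000000000000) (nat_lit 0x0) (nat_lit 0x10000400020000000000000000000000000000000000000000) := D_24 (nat_lit 178) (nat_lit 161) (nat_lit 196) (nat_lit 5) (nat_lit 8) (nat_lit 7) (nat_lit 4) (nat_lit 9) (nat_lit 14) (by decide +kernel)
theorem L9573 : W_24 (nat_lit 3) (nat_lit 0x88007c0002000c000200000001000080000000000000000000000000000000) (nat_lit 0x0) (nat_lit 0x600010000400020000000000000000000000000000000000000000) := T_24 (nat_lit 213) (nat_lit 214) (nat_lit 2) (nat_lit 6) (nat_lit 13) L9572 (by decide +kernel)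
theorem L9574 : W_24 (nat_lit 4) (nat_lit 0x88007c0000000c000200000001000080000000000000000000000000000000) (nat_lit 0x0) (nat_lit 0x630010000400020000000000000000000000000000000000000000) := T_24 (nat_lit 209) (nat_lit 208) (nat_lit 0) (nat_lit 8) (nat_lit 13) L9573 (by decide +kernel)
theorem L9575 : W_24 (nat_lit 5) (nat_lit 0x80007c0000000c000200000001000080000000000000000000000000000000) (nat_lit 0x0) (nat_lit 0xc000000630010000400020000000000000000000000000000000000000000) := T_24 (nat_lit 243) (nat_lit 242) (nat_lit 1) (nat_lit 8) (nat_lit 13) L9574 (by decide +kernel)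
theorem L9576 : W_24 (nat_lit 6) (nat_lit 0x8000780000000c000200000001000080000000000000000000000000000000) (nat_lit 0x0) (nat_lit 0x4c000400630010000400020000000000000000000000000000000000000000) := T_24 (nat_lit 226) (nat_lit 246) (nat_lit 3) (nat_lit 5) (nat_lit 13) L9575 (by decide +kernel)
theorem L9577 : W_24 (nat_lit 7) (nat_lit 0x780000000c000200000001000080000000000000000000000000000000) (nat_lit 0x0) (nat_lit 0x1cc000400630010000400020000000000000000000000000000000000000000) := T_24 (nat_lit 247) (nat_lit 248) (nat_lit 3) (nat_lit 6) (nat_lit 13) L9576 (by decide +kernel)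
theorem L9578 : W_24 (nat_lit 2) (nat_lit 0x4000000010000f80024007c002200020001000080000000000000000000000000000000) (nat_lit 0x0) (nat_lit 0x10001800000000000000000000000000000000000000000000000000000) := D_24 (nat_lit 215) (nat_lit 216) (nat_lit 232) (nat_lit 3) (nat_lit 8) (nat_lit 11) (nat_lit 5) (nat_lit 11) (nat_lit 10) (by decide +kernel)
theorem L9579 : W_24 (nat_lit 3) (nat_lit 0x4000000010000f80024003c002200020001000080000000000000000000000000000000) (nat_lit 0x0) (nat_lit 0x10001800040004000000000000000000000000000000000000000000000) := T_24 (nat_lit 198) (nat_lit 182) (nat_lit 2) (nat_lit 8) (nat_lit 11) L9578 (by decide +kernel)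
theorem L9580 : W_24 (nat_lit 4) (nat_lit 0x4000000010000f80024003c000200020001000080000000000000000000000000000000) (nat_lit 0x0) (nat_lit 0x10001800040007000000000000000000000000000000000000000000000) := T_24 (nat_lit 181) (nat_lit 180) (nat_lit 2) (nat_lit 7) (nat_lit 11) L9579 (by decide +kernel)
theorem L9581 : W_24 (nat_lit 5) (nat_lit 0x4000000010000f80024001c000200020001000080000000000000000000000000000000) (nat_lit 0x0) (nat_lit 0x10001800060007100000000000000000000000000000000000000000000) := T_24 (nat_lit 197) (nat_lit 176) (nat_lit 0) (nat_lit 10) (nat_lit 11) L9580 (by decide +kernel)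
theorem L9582 : W_24 (nat_lit 6) (nat_lit 0x4000000010000f80024000c000200020001000080000000000000000000000000000000) (nat_lit 0x0) (nat_lit 0x10001800070007900000000000000000000000000000000000000000000) := T_24 (nat_lit 196) (nat_lit 179) (nat_lit 7) (nat_lit 9) (nat_lit 10) L9581 (by decide +kernel)
theorem L9583 : W_24 (nat_lit 7) (nat_lit 0x10000f80024000c000200020001000080000000000000000000000000000000) (nat_lit 0x0) (nat_lit 0x40002000000010001800070007900000000000000000000000000000000000000000000) := T_24 (nat_lit 282) (nat_lit 265) (nat_lit 4) (nat_lit 10) (nat_lit 16) L9582 (by decide +kernel)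
theorem L9584 : W_24 (nat_lit 8) (nat_lit 0x10000780024000c000200020001000080000000000000000000000000000000) (nat_lit 0x0) (nat_lit 0x40002000200018001800070007900000000000000000000000000000000000000000000) := T_24 (nat_lit 231) (nat_lit 249) (nat_lit 3) (nat_lit 7) (nat_lit 13) L9583 (by decide +kernel)
theorem L9585 : W_24 (nat_lit 9) (nat_lit 0x10000780004000c000200020001000080000000000000000000000000000000) (nat_lit 0x0) (nat_lit 0x40002000200018001e00070007900000000000000000000000000000000000000000000) := T_24 (nat_lit 213) (nat_lit 214) (nat_lit 2) (nat_lit 6) (nat_lit 13) L9584 (by decide +kernel)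
theorem L9586 : W_24 (nat_lit 10) (nat_lit 0x780004000c000200020001000080000000000000000000000000000000) (nat_lit 0x0) (nat_lit 0x40002000380018001e00070007900000000000000000000000000000000000000000000) := T_24 (nat_lit 248) (nat_lit 247) (nat_lit 3) (nat_lit 6) (nat_lit 13) L9585 (by decide +kernel)
theorem L9587 : W_24 (nat_lit 11) (nat_lit 0x780000000c000200020001000080000000000000000000000000000000) (nat_lit 0x0) (nat_lit 0x40002000380018001e60070007900000000000000000000000000000000000000000000) := T_24 (nat_lit 210) (nat_lit 209) (nat_lit 0) (nat_lit 9) (nat_lit 13) L9586 (by decide +kernel)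
theorem L9588 : W_24 (nat_lit 12) (nat_lit 0x780000000c000200000001000080000000000000000000000000000000) (nat_lit 0x0) (nat_lit 0x40002000380018001e60070007d00020000000000000000000000000000000000000000) := T_24 (nat_lit 161) (nat_lit 178) (nat_lit 5) (nat_lit 8) (nat_lit 7) L9587 (by decide +kernel)
theorem L9589 : W_24 (nat_lit 2) (nat_lit 0x88007c0000000c000600000001000080000000000000000000000000000000) (nat_lit 0x0) (nat_lit 0x600010000000000000000000000000000000000000000000000000) := D_24 (nat_lit 213) (nat_lit 214) (nat_lit 196) (nat_lit 2) (nat_lit 6) (nat_lit 13) (nat_lit 4) (nat_lit 9) (nat_lit 14) (by decide +kernel)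
theorem L9590 : W_24 (nat_lit 3) (nat_lit 0x88007c0000000c000200000001000080000000000000000000000000000000) (nat_lit 0x0) (nat_lit 0x600010000400020000000000000000000000000000000000000000) := T_24 (nat_lit 178) (nat_lit 161) (nat_lit 5) (nat_lit 8) (nat_lit 7) L9589 (by decide +kernel)
theorem L9591 : W_24 (nat_lit 4) (nat_lit 0x80007c0000000c000200000001000080000000000000000000000000000000) (nat_lit 0x0) (nat_lit 0xc000000600010000400020000000000000000000000000000000000000000) := T_24 (nat_lit 243) (nat_lit 242) (nat_lit 1) (nat_lit 8) (nat_lit 13) L9590 (by decide +kernel)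
theorem L9592 : W_24 (nat_lit 5) (nat_lit 0x8000780000000c000200000001000080000000000000000000000000000000) (nat_lit 0x0) (nat_lit 0x4c000400600010000400020000000000000000000000000000000000000000) := T_24 (nat_lit 226) (nat_lit 246) (nat_lit 3) (nat_lit 5) (nat_lit 13) L9591 (by decide +kernel)
theorem L9593 : W_24 (nat_lit 6) (nat_lit 0x780000000c000200000001000080000000000000000000000000000000) (nat_lit 0x0) (nat_lit 0x1cc000400600010000400020000000000000000000000000000000000000000) := T_24 (nat_lit 247) (nat_lit 248) (nat_lit 3) (nat_lit 6) (nat_lit 13) L9592 (by decide +kernel)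
theorem L9594 : W_24 (nat_lit 2) (nat_lit 0x1000000044007e0022001c000280020001000080000000000000000000000000000000) (nat_lit 0x0) (nat_lit 0x20000140000000000000000000000000000000000000000000) := D_24 (nat_lit 176) (nat_lit 174) (nat_lit 197) (nat_lit 3) (nat_lit 4) (nat_lit 10) (nat_lit 0) (nat_lit 10) (nat_lit 11) (by decide +kernel)
theorem L9595 : W_24 (nat_lit 3) (nat_lit 0x1000000044007e0022000c000280020001000080000000000000000000000000000000) (nat_lit 0x0) (nat_lit 0x30000940000000000000000000000000000000000000000000) := T_24 (nat_lit 196) (nat_lit 179) (nat_lit 5) (nat_lit 9) (nat_lit 10) L9594 (by decide +kernel)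
theorem L9596 : W_24 (nat_lit 4) (nat_lit 0x1000000044007e0022000c000200020001000080000000000000000000000000000000) (nat_lit 0x0) (nat_lit 0x310009c0000000000000000000000000000000000000000000) := T_24 (nat_lit 175) (nat_lit 192) (nat_lit 5) (nat_lit 5) (nat_lit 10) L9595 (by decide +kernel)
theorem L9597 : W_24 (nat_lit 5) (nat_lit 0x44007e0022000c000200020001000080000000000000000000000000000000) (nat_lit 0x0) (nat_lit 0x10000800000000000000310009c0000000000000000000000000000000000000000000) := T_24 (nat_lit 276) (nat_lit 259) (nat_lit 6) (nat_lit 4) (nat_lit 16) L9596 (by decide +kernel)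
theorem L9598 : W_24 (nat_lit 6) (nat_lit 0x4007e0022000c000200020001000080000000000000000000000000000000) (nat_lit 0x0) (nat_lit 0x10000800600000000000310009c0000000000000000000000000000000000000000000) := T_24 (nat_lit 246) (nat_lit 245) (nat_lit 3) (nat_lit 4) (nat_lit 13) L9597 (by decide +kernel)
theorem L9599 : W_24 (nat_lit 7) (nat_lit 0x4007c0022000c000200020001000080000000000000000000000000000000) (nat_lit 0x0) (nat_lit 0x10000800620002000000310009c0000000000000000000000000000000000000000000) := T_24 (nat_lit 225) (nat_lit 241) (nat_lit 1) (nat_lit 7) (nat_lit 13) L9598 (by decide +kernel)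
theorem L9600 : W_24 (nat_lit 8) (nat_lit 0x7c0022000c000200020001000080000000000000000000000000000000) (nat_lit 0x0) (nat_lit 0x100008006e0002000000310009c0000000000000000000000000000000000000000000) := T_24 (nat_lit 242) (nat_lit 243) (nat_lit 1) (nat_lit 8) (nat_lit 13) L9599 (by decide +kernel)
theorem L9601 : W_24 (nat_lit 9) (nat_lit 0x780022000c000200020001000080000000000000000000000000000000) (nat_lit 0x0) (nat_lit 0x100008006e0006000100310009c0000000000000000000000000000000000000000000) := T_24 (nat_lit 226) (nat_lit 208) (nat_lit 0) (nat_lit 8) (nat_lit 13) L9600 (by decide +kernel)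
theorem L9602 : W_24 (nat_lit 10) (nat_lit 0x780022000c000200000001000080000000000000000000000000000000) (nat_lit 0x0) (nat_lit 0x100008006e000600010031000dc0020000000000000000000000000000000000000000) := T_24 (nat_lit 161) (nat_lit 178) (nat_lit 5) (nat_lit 8) (nat_lit 7) L9601 (by decide +kernel)
theorem L9603 : W_24 (nat_lit 11) (nat_lit 0x780020000c000200000001000080000000000000000000000000000000) (nat_lit 0x0) (nat_lit 0x100008006e000600070031000dc0020000000000000000000000000000000000000000) := T_24 (nat_lit 209) (nat_lit 210) (nat_lit 0) (nat_lit 9) (nat_lit 13) L9602 (by decide +kernel)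
theorem L9604 : W_24 (nat_lit 12) (nat_lit 0x780000000c000200000001000080000000000000000000000000000000) (nat_lit 0x0) (nat_lit 0x100008006e000600670031000dc0020000000000000000000000000000000000000000) := T_24 (nat_lit 213) (nat_lit 214) (nat_lit 2) (nat_lit 6) (nat_lit 13) L9603 (by decide +kernel)
theorem L9605 : W_24 (nat_lit 13) (nat_lit 0x700000000c000200000001000080000000000000000000000000000000) (nat_lit 0x0) (nat_lit 0x410028803ee018e01e70071007dc0020000000000000000000000000000000000000000) := Q_24 (nat_lit 227) (C_24 L9549 (C_24 L9318 (C_24 L9577 (C_24 L9588 (C_24 L9593 (C_24 L9604 N_24)))))) (by decide +kernel)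
theorem L9606 : W_24 (nat_lit 2) (nat_lit 0x11000780020000c000200020001000080000000000000000000000000000000) (nat_lit 0x0) (nat_lit 0x220008000000000000000000000000000000000000000000000000000000000) := D_24 (nat_lit 231) (nat_lit 245) (nat_lit 249) (nat_lit 1) (nat_lit 10) (nat_lit 13) (nat_lit 3) (nat_lit 7) (nat_lit 13) (by decide +kernel)
theorem L9607 : W_24 (nat_lit 3) (nat_lit 0x1000780020000c000200020001000080000000000000000000000000000000) (nat_lit 0x0) (nat_lit 0x3a0008000000000000000000000000000000000000000000000000000000000) := T_24 (nat_lit 248) (nat_lit 247) (nat_lit 3) (nat_lit 6) (nat_lit 13) L9606 (by decide +kernel)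
theorem L9608 : W_24 (nat_lit 4) (nat_lit 0x780020000c000200020001000080000000000000000000000000000000) (nat_lit 0x0) (nat_lit 0x3b8008000000000000000000000000000000000000000000000000000000000) := T_24 (nat_lit 244) (nat_lit 243) (nat_lit 1) (nat_lit 9) (nat_lit 13) L9607 (by decide +kernel)
theorem L9609 : W_24 (nat_lit 5) (nat_lit 0x780000000c000200020001000080000000000000000000000000000000) (nat_lit 0x0) (nat_lit 0x3b8008000600000000000000000000000000000000000000000000000000000) := T_24 (nat_lit 213) (nat_lit 214) (nat_lit 2) (nat_lit 6) (nat_lit 13) L9608 (by decide +kernel)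
theorem L9610 : W_24 (nat_lit 6) (nat_lit 0x780000000c000200000001000080000000000000000000000000000000) (nat_lit 0x0) (nat_lit 0x3b8008000600000000400020000000000000000000000000000000000000000) := T_24 (nat_lit 161) (nat_lit 178) (nat_lit 5) (nat_lit 8) (nat_lit 7) L9609 (by decide +kernel)
theorem L9611 : W_24 (nat_lit 2) (nat_lit 0x1000f80000000c000200020001000080000000000000000000000000000000) (nat_lit 0x0) (nat_lit 0xe00000000000000000000000000000000000000000000000000000) := D_24 (nat_lit 214) (nat_lit 213) (nat_lit 215) (nat_lit 2) (nat_lit 6) (nat_lit 13) (nat_lit 2) (nat_lit 7) (nat_lit 13) (by decide +kernel)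
theorem L9612 : W_24 (nat_lit 3) (nat_lit 0x1000780000000c000200020001000080000000000000000000000000000000) (nat_lit 0x0) (nat_lit 0x20008000e00000000000000000000000000000000000000000000000000000) := T_24 (nat_lit 231) (nat_lit 245) (nat_lit 1) (nat_lit 10) (nat_lit 13) L9611 (by decide +kernel)
theorem L9613 : W_24 (nat_lit 4) (nat_lit 0x1000780000000c000200000001000080000000000000000000000000000000) (nat_lit 0x0) (nat_lit 0x20008000e00000000400020000000000000000000000000000000000000000) := T_24 (nat_lit 161) (nat_lit 178) (nat_lit 5) (nat_lit 8) (nat_lit 7) L9612 (by decide +kernel)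
theorem L9614 : W_24 (nat_lit 5) (nat_lit 0x780000000c000200000001000080000000000000000000000000000000) (nat_lit 0x0) (nat_lit 0x38008000e00000000400020000000000000000000000000000000000000000) := T_24 (nat_lit 244) (nat_lit 243) (nat_lit 1) (nat_lit 9) (nat_lit 13) L9613 (by decide +kernel)
theorem L9615 : W_24 (nat_lit 2) (nat_lit 0x8000780020000c000200000001000080000000000000000000000000000000) (nat_lit 0x0) (nat_lit 0x10000400020000000000000000000000000000000000000000) := D_24 (nat_lit 178) (nat_lit 161) (nat_lit 196) (nat_lit 5) (nat_lit 8) (nat_lit 7) (nat_lit 4) (nat_lit 9) (nat_lit 14) (by decide +kernel)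
theorem L9616 : W_24 (nat_lit 3) (nat_lit 0x780020000c000200000001000080000000000000000000000000000000) (nat_lit 0x0) (nat_lit 0x180000000000010000400020000000000000000000000000000000000000000) := T_24 (nat_lit 247) (nat_lit 248) (nat_lit 3) (nat_lit 6) (nat_lit 13) L9615 (by decide +kernel)
theorem L9617 : W_24 (nat_lit 4) (nat_lit 0x780000000c000200000001000080000000000000000000000000000000) (nat_lit 0x0) (nat_lit 0x180000000600010000400020000000000000000000000000000000000000000) := T_24 (nat_lit 213) (nat_lit 214) (nat_lit 2) (nat_lit 6) (nat_lit 13) L9616 (by decide +kernel)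
theorem L9618 : W_24 (nat_lit 13) (nat_lit 0x700000000c000200000001000080000000000000000000000000000000) (nat_lit 0x0) (nat_lit 0x400020003b8018801e60070007d00020000000000000000000000000000000000000000) := Q_24 (nat_lit 227) (C_24 L9407 (C_24 L9588 (C_24 L9610 (C_24 L9334 (C_24 L9614 (C_24 L9617 N_24)))))) (by decide +kernel)
theorem L9619 : W_24 (nat_lit 2) (nat_lit 0x4000000010007c0022001c000380020001000080000000000000000000000000000000) (nat_lit 0x0) (nat_lit 0x40000000000000000800040000000000000000000000000000000000000000) := D_24 (nat_lit 179) (nat_lit 162) (nat_lit 246) (nat_lit 4) (nat_lit 9) (nat_lit 12) (nat_lit 5) (nat_lit 9) (nat_lit 10) (by decide +kernel)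
theorem L9620 : W_24 (nat_lit 3) (nat_lit 0x4000000010007c0022000c000380020001000080000000000000000000000000000000) (nat_lit 0x0) (nat_lit 0x40000000000030000800040000000000000000000000000000000000000000) := T_24 (nat_lit 196) (nat_lit 197) (nat_lit 0) (nat_lit 10) (nat_lit 11) L9619 (by decide +kernel)
theorem L9621 : W_24 (nat_lit 4) (nat_lit 0x4000000010007c0022000c000280020001000080000000000000000000000000000000) (nat_lit 0x0) (nat_lit 0x40000000000030000940040000000000000000000000000000000000000000) := T_24 (nat_lit 176) (nat_lit 174) (nat_lit 3) (nat_lit 4) (nat_lit 10) L9620 (by decide +kernel)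
theorem L9622 : W_24 (nat_lit 5) (nat_lit 0x4000000010007c0022000c000200020001000080000000000000000000000000000000) (nat_lit 0x0) (nat_lit 0x400000000000310009c0040000000000000000000000000000000000000000) := T_24 (nat_lit 175) (nat_lit 192) (nat_lit 7) (nat_lit 5) (nat_lit 10) L9621 (by decide +kernel)
theorem L9623 : W_24 (nat_lit 6) (nat_lit 0x10007c0022000c000200020001000080000000000000000000000000000000) (nat_lit 0x0) (nat_lit 0x40002000400000000000310009c0040000000000000000000000000000000000000000) := T_24 (nat_lit 278) (nat_lit 261) (nat_lit 4) (nat_lit 6) (nat_lit 16) L9622 (by decide +kernel)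
theorem L9624 : W_24 (nat_lit 7) (nat_lit 0x1000780022000c000200020001000080000000000000000000000000000000) (nat_lit 0x0) (nat_lit 0x40002000400004000100310009c0040000000000000000000000000000000000000000) := T_24 (nat_lit 226) (nat_lit 208) (nat_lit 0) (nat_lit 8) (nat_lit 13) L9623 (by decide +kernel)
theorem L9625 : W_24 (nat_lit 8) (nat_lit 0x1000780020000c000200020001000080000000000000000000000000000000) (nat_lit 0x0) (nat_lit 0x40002000400004000700310009c0040000000000000000000000000000000000000000) := T_24 (nat_lit 209) (nat_lit 210) (nat_lit 0) (nat_lit 9) (nat_lit 13) L9624 (by decide +kernel)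
theorem L9626 : W_24 (nat_lit 9) (nat_lit 0x780020000c000200020001000080000000000000000000000000000000) (nat_lit 0x0) (nat_lit 0x40002000580004000700310009c0040000000000000000000000000000000000000000) := T_24 (nat_lit 244) (nat_lit 243) (nat_lit 1) (nat_lit 9) (nat_lit 13) L9625 (by decide +kernel)
theorem L9627 : W_24 (nat_lit 10) (nat_lit 0x780020000c000200000001000080000000000000000000000000000000) (nat_lit 0x0) (nat_lit 0x4000200058000400070031000dc0060000000000000000000000000000000000000000) := T_24 (nat_lit 161) (nat_lit 178) (nat_lit 5) (nat_lit 8) (nat_lit 7) L9626 (by decide +kernel)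
theorem L9628 : W_24 (nat_lit 11) (nat_lit 0x780000000c000200000001000080000000000000000000000000000000) (nat_lit 0x0) (nat_lit 0x4000200058000400670031000dc0060000000000000000000000000000000000000000) := T_24 (nat_lit 213) (nat_lit 214) (nat_lit 2) (nat_lit 6) (nat_lit 13) L9627 (by decide +kernel)
theorem L9629 : W_24 (nat_lit 12) (nat_lit 0x700000000c000200000001000080000000000000000000000000000000) (nat_lit 0x0) (nat_lit 0x4000a001d8000c00670031000dc0060000000000000000000000000000000000000000) := Q_24 (nat_lit 227) (C_24 L9617 (C_24 L9549 (C_24 L9318 (C_24 L9628 N_24)))) (by decide +kernel)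
theorem L9633 : W_24 (nat_lit 2) (nat_lit 0x11000fc0002000c000380000001000080000000000000000000000000000000) (nat_lit 0x0) (nat_lit 0x10000400020000000000000000000000000000000000000000) := D_24 (nat_lit 178) (nat_lit 161) (nat_lit 196) (nat_lit 5) (nat_lit 8) (nat_lit 7) (nat_lit 3) (nat_lit 5) (nat_lit 10) (by decide +kernel)
theorem L9634 : W_24 (nat_lit 3) (nat_lit 0x11000fc0002000c000280000001000080000000000000000000000000000000) (nat_lit 0x0) (nat_lit 0x10000540020000000000000000000000000000000000000000) := T_24 (nat_lit 176) (nat_lit 174) (nat_lit 3) (nat_lit 4) (nat_lit 10) L9633 (by decide +kernel)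
theorem L9635 : W_24 (nat_lit 4) (nat_lit 0x11000fc0002000c000200000001000080000000000000000000000000000000) (nat_lit 0x0) (nat_lit 0x110005c0020000000000000000000000000000000000000000) := T_24 (nat_lit 175) (nat_lit 192) (nat_lit 7) (nat_lit 5) (nat_lit 10) L9634 (by decide +kernel)
theorem L9636 : W_24 (nat_lit 5) (nat_lit 0x1000fc0002000c000200000001000080000000000000000000000000000000) (nat_lit 0x0) (nat_lit 0x3000000000000110005c0020000000000000000000000000000000000000000) := T_24 (nat_lit 248) (nat_lit 249) (nat_lit 3) (nat_lit 7) (nat_lit 13) L9635 (by decide +kernel)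
theorem L9637 : W_24 (nat_lit 6) (nat_lit 0x1000f80002000c000200000001000080000000000000000000000000000000) (nat_lit 0x0) (nat_lit 0x3000004000100110005c0020000000000000000000000000000000000000000) := T_24 (nat_lit 226) (nat_lit 208) (nat_lit 0) (nat_lit 8) (nat_lit 13) L9636 (by decide +kernel)
theorem L9638 : W_24 (nat_lit 7) (nat_lit 0x1000780002000c000200000001000080000000000000000000000000000000) (nat_lit 0x0) (nat_lit 0x3200084000100110005c0020000000000000000000000000000000000000000) := T_24 (nat_lit 231) (nat_lit 245) (nat_lit 1) (nat_lit 10) (nat_lit 13) L9637 (by decide +kernel)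
theorem L9639 : W_24 (nat_lit 8) (nat_lit 0x1000780000000c000200000001000080000000000000000000000000000000) (nat_lit 0x0) (nat_lit 0x3200084000700110005c0020000000000000000000000000000000000000000) := T_24 (nat_lit 209) (nat_lit 210) (nat_lit 0) (nat_lit 9) (nat_lit 13) L9638 (by decide +kernel)
theorem L9640 : W_24 (nat_lit 9) (nat_lit 0x780000000c000200000001000080000000000000000000000000000000) (nat_lit 0x0) (nat_lit 0x3380084000700110005c0020000000000000000000000000000000000000000) := T_24 (nat_lit 244) (nat_lit 243) (nat_lit 1) (nat_lit 9) (nat_lit 13) L9639 (by decide +kernel)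
theorem L9641 : W_24 (nat_lit 2) (nat_lit 0x1000fc0002000c000680000001000080000000000000000000000000000000) (nat_lit 0x0) (nat_lit 0x10000140000000000000000000000000000000000000000000) := D_24 (nat_lit 176) (nat_lit 196) (nat_lit 174) (nat_lit 3) (nat_lit 5) (nat_lit 10) (nat_lit 3) (nat_lit 4) (nat_lit 10) (by decide +kernel)
theorem L9642 : W_24 (nat_lit 3) (nat_lit 0x1000fc0002000c000600000001000080000000000000000000000000000000) (nat_lit 0x0) (nat_lit 0x110001c0000000000000000000000000000000000000000000) := T_24 (nat_lit 175) (nat_lit 192) (nat_lit 7) (nat_lit 5) (nat_lit 10) L9641 (by decide +kernel)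
theorem L9643 : W_24 (nat_lit 4) (nat_lit 0x1000fc0002000c000200000001000080000000000000000000000000000000) (nat_lit 0x0) (nat_lit 0x110005c0020000000000000000000000000000000000000000) := T_24 (nat_lit 178) (nat_lit 161) (nat_lit 5) (nat_lit 8) (nat_lit 7) L9642 (by decide +kernel)
theorem L9644 : W_24 (nat_lit 5) (nat_lit 0x1000f80002000c000200000001000080000000000000000000000000000000) (nat_lit 0x0) (nat_lit 0x4000100110005c0020000000000000000000000000000000000000000) := T_24 (nat_lit 226) (nat_lit 208) (nat_lit 0) (nat_lit 8) (nat_lit 13) L9643 (by decide +kernel)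
theorem L9645 : W_24 (nat_lit 6) (nat_lit 0x1000780002000c000200000001000080000000000000000000000000000000) (nat_lit 0x0) (nat_lit 0x200084000100110005c0020000000000000000000000000000000000000000) := T_24 (nat_lit 231) (nat_lit 245) (nat_lit 1) (nat_lit 10) (nat_lit 13) L9644 (by decide +kernel)
theorem L9646 : W_24 (nat_lit 7) (nat_lit 0x1000780000000c000200000001000080000000000000000000000000000000) (nat_lit 0x0) (nat_lit 0x200084000700110005c0020000000000000000000000000000000000000000) := T_24 (nat_lit 209) (nat_lit 210) (nat_lit 0) (nat_lit 9) (nat_lit 13) L9645 (by decide +kernel)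
theorem L9647 : W_24 (nat_lit 8) (nat_lit 0x780000000c000200000001000080000000000000000000000000000000) (nat_lit 0x0) (nat_lit 0x380084000700110005c0020000000000000000000000000000000000000000) := T_24 (nat_lit 244) (nat_lit 243) (nat_lit 1) (nat_lit 9) (nat_lit 13) L9646 (by decide +kernel)
theorem L9648 : W_24 (nat_lit 10) (nat_lit 0x700000000c000200000001000080000000000000000000000000000000) (nat_lit 0x0) (nat_lit 0x3fc008c000700110005c0020000000000000000000000000000000000000000) := Q_24 (nat_lit 227) (C_24 L9549 (C_24 L9407 (C_24 L9632 (C_24 L9640 (C_24 L9647 N_24))))) (by decide +kernel)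
theorem L9649 : W_24 (nat_lit 2) (nat_lit 0x22000f00000000c000200020001000080000000000000000000000000000000) (nat_lit 0x0) (nat_lit 0x440010000000000000000000000000000000000000000000000000000000000) := D_24 (nat_lit 232) (nat_lit 250) (nat_lit 246) (nat_lit 3) (nat_lit 8) (nat_lit 13) (nat_lit 1) (nat_lit 11) (nat_lit 13) (by decide +kernel)
theorem L9650 : W_24 (nat_lit 3) (nat_lit 0x20000f00000000c000200020001000080000000000000000000000000000000) (nat_lit 0x0) (nat_lit 0x470010000000000000000000000000000000000000000000000000000000000) := T_24 (nat_lit 245) (nat_lit 244) (nat_lit 1) (nat_lit 10) (nat_lit 13) L9649 (by decide +kernel)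
theorem L9651 : W_24 (nat_lit 4) (nat_lit 0xf00000000c000200020001000080000000000000000000000000000000) (nat_lit 0x0) (nat_lit 0x770010000000000000000000000000000000000000000000000000000000000) := T_24 (nat_lit 249) (nat_lit 248) (nat_lit 3) (nat_lit 7) (nat_lit 13) L9650 (by decide +kernel)
theorem L9652 : W_24 (nat_lit 5) (nat_lit 0xf00000000c000200000001000080000000000000000000000000000000) (nat_lit 0x0) (nat_lit 0x770010000000000000400020000000000000000000000000000000000000000) := T_24 (nat_lit 161) (nat_lit 178) (nat_lit 5) (nat_lit 8) (nat_lit 7) L9651 (by decide +kernel)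
theorem L9653 : W_24 (nat_lit 2) (nat_lit 0x10000f00060000c000200020001000080000000000000000000000000000000) (nat_lit 0x0) (nat_lit 0x40002000000000000000010000000000000000000000000000000000000000000000000) := D_24 (nat_lit 265) (nat_lit 196) (nat_lit 282) (nat_lit 4) (nat_lit 10) (nat_lit 15) (nat_lit 4) (nat_lit 10) (nat_lit 16) (by decide +kernel)
theorem L9654 : W_24 (nat_lit 3) (nat_lit 0x10000f00040000c000200020001000080000000000000000000000000000000) (nat_lit 0x0) (nat_lit 0x40002000000000800200010000000000000000000000000000000000000000000000000) := T_24 (nat_lit 213) (nat_lit 227) (nat_lit 2) (nat_lit 6) (nat_lit 13) L9653 (by decide +kernel)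
theorem L9655 : W_24 (nat_lit 4) (nat_lit 0x10000f00000000c000200020001000080000000000000000000000000000000) (nat_lit 0x0) (nat_lit 0x40002000000000800e00010000000000000000000000000000000000000000000000000) := T_24 (nat_lit 214) (nat_lit 215) (nat_lit 2) (nat_lit 7) (nat_lit 13) L9654 (by decide +kernel)
theorem L9656 : W_24 (nat_lit 5) (nat_lit 0x10000f00000000c000200000001000080000000000000000000000000000000) (nat_lit 0x0) (nat_lit 0x40002000000000800e00010000400020000000000000000000000000000000000000000) := T_24 (nat_lit 161) (nat_lit 178) (nat_lit 5) (nat_lit 8) (nat_lit 7) L9655 (by decide +kernel)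
theorem L9657 : W_24 (nat_lit 6) (nat_lit 0xf00000000c000200000001000080000000000000000000000000000000) (nat_lit 0x0) (nat_lit 0x40002000300000800e00010000400020000000000000000000000000000000000000000) := T_24 (nat_lit 248) (nat_lit 249) (nat_lit 3) (nat_lit 7) (nat_lit 13) L9656 (by decide +kernel)
theorem L9658 : W_24 (nat_lit 2) (nat_lit 0xf80040000c000200000001000080000000000000000000000000000000) (nat_lit 0x0) (nat_lit 0x38000000000000000000000000000000000000000000000000000000000000) := D_24 (nat_lit 244) (nat_lit 243) (nat_lit 245) (nat_lit 1) (nat_lit 9) (nat_lit 13) (nat_lit 1) (nat_lit 10) (nat_lit 13) (by decide +kernel)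
theorem L9659 : W_24 (nat_lit 3) (nat_lit 0xf00040000c000200000001000080000000000000000000000000000000) (nat_lit 0x0) (nat_lit 0x38000800200000000000000000000000000000000000000000000000000000) := T_24 (nat_lit 227) (nat_lit 213) (nat_lit 2) (nat_lit 6) (nat_lit 13) L9658 (by decide +kernel)
theorem L9660 : W_24 (nat_lit 4) (nat_lit 0xf00000000c000200000001000080000000000000000000000000000000) (nat_lit 0x0) (nat_lit 0x38000800e00000000000000000000000000000000000000000000000000000) := T_24 (nat_lit 214) (nat_lit 215) (nat_lit 2) (nat_lit 7) (nat_lit 13) L9659 (by decide +kernel)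
theorem L9661 : W_24 (nat_lit 7) (nat_lit 0x700000000c000200000001000080000000000000000000000000000000) (nat_lit 0x0) (nat_lit 0x40002000778018800e00010000400020000000000000000000000000000000000000000) := Q_24 (nat_lit 231) (C_24 L9428 (C_24 L9652 (C_24 L9657 (C_24 L9660 N_24)))) (by decide +kernel)
theorem L9662 : W_24 (nat_lit 6) (nat_lit 0x40007e0022000c000200020001000080000000000000000000000000000000) (nat_lit 0x0) (nat_lit 0x10000800060000000000310009c0000000000000000000000000000000000000000000) := T_24 (nat_lit 242) (nat_lit 241) (nat_lit 1) (nat_lit 7) (nat_lit 13) L9597 (by decide +kernel)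
theorem L9663 : W_24 (nat_lit 7) (nat_lit 0x40007c0022000c000200020001000080000000000000000000000000000000) (nat_lit 0x0) (nat_lit 0x10000800260002000000310009c0000000000000000000000000000000000000000000) := T_24 (nat_lit 225) (nat_lit 245) (nat_lit 3) (nat_lit 4) (nat_lit 13) L9662 (by decide +kernel)
theorem L9664 : W_24 (nat_lit 8) (nat_lit 0x7c0022000c000200020001000080000000000000000000000000000000) (nat_lit 0x0) (nat_lit 0x10000800e60002000000310009c0000000000000000000000000000000000000000000) := T_24 (nat_lit 246) (nat_lit 247) (nat_lit 3) (nat_lit 5) (nat_lit 13) L9663 (by decide +kernel)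
theorem L9665 : W_24 (nat_lit 9) (nat_lit 0x780022000c000200020001000080000000000000000000000000000000) (nat_lit 0x0) (nat_lit 0x10000800e60006000100310009c0000000000000000000000000000000000000000000) := T_24 (nat_lit 226) (nat_lit 208) (nat_lit 0) (nat_lit 8) (nat_lit 13) L9664 (by decide +kernel)
theorem L9666 : W_24 (nat_lit 10) (nat_lit 0x780020000c000200020001000080000000000000000000000000000000) (nat_lit 0x0) (nat_lit 0x10000800e60006000700310009c0000000000000000000000000000000000000000000) := T_24 (nat_lit 209) (nat_lit 210) (nat_lit 0) (nat_lit 9) (nat_lit 13) L9665 (by decide +kernel)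
theorem L9667 : W_24 (nat_lit 11) (nat_lit 0x780020000c000200000001000080000000000000000000000000000000) (nat_lit 0x0) (nat_lit 0x10000800e6000600070031000dc0020000000000000000000000000000000000000000) := T_24 (nat_lit 161) (nat_lit 178) (nat_lit 5) (nat_lit 8) (nat_lit 7) L9666 (by decide +kernel)
theorem L9668 : W_24 (nat_lit 12) (nat_lit 0x780000000c000200000001000080000000000000000000000000000000) (nat_lit 0x0) (nat_lit 0x10000800e6000600670031000dc0020000000000000000000000000000000000000000) := T_24 (nat_lit 213) (nat_lit 214) (nat_lit 2) (nat_lit 6) (nat_lit 13) L9667 (by decide +kernel)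
theorem L9669 : W_24 (nat_lit 13) (nat_lit 0x700000000c000200000001000080000000000000000000000000000000) (nat_lit 0x0) (nat_lit 0x50002800fe008e00e70031000dc0060000000000000000000000000000000000000000) := Q_24 (nat_lit 227) (C_24 L9647 (C_24 L9614 (C_24 L9343 (C_24 L9604 (C_24 L9628 (C_24 L9668 N_24)))))) (by decide +kernel)
theorem L9670 : W_24 (nat_lit 14) (nat_lit 0x300000000c000200000001000080000000000000000000000000000000) (nat_lit 0x0) (nat_lit 0x45003a807fe01cf01e700f100fdc02e0010000000000000000000000000000000000000) := Q_24 (nat_lit 230) (C_24 L9385 (C_24 L9537 (C_24 L9545 (C_24 L9550 (C_24 L9571 (C_24 L9605 (C_24 L9618 (C_24 L9629 (C_24 L9648 (C_24 L9661 (C_24 L9669 N_24))))))))))) (by decide +kernel)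
theorem L9671 : W_24 (nat_lit 9) (nat_lit 0x380000000c000200000001000080000000000000000000000000000000) (nat_lit 0x0) (nat_lit 0x3b800c4006700110005c0020000000000000000000000000000000000000000) := Q_24 (nat_lit 230) (C_24 L9647 (C_24 L9617 (C_24 L9407 N_24))) (by decide +kernel)
theorem L9672 : W_24 (nat_lit 8) (nat_lit 0xf80024000c000200020001000080000000000000000000000000000000) (nat_lit 0x0) (nat_lit 0x40002000300010001800070007900000000000000000000000000000000000000000000) := T_24 (nat_lit 248) (nat_lit 249) (nat_lit 3) (nat_lit 7) (nat_lit 13) L9583 (by decide +kernel)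
theorem L9673 : W_24 (nat_lit 9) (nat_lit 0x780024000c000200020001000080000000000000000000000000000000) (nat_lit 0x0) (nat_lit 0x40002000300018001880070007900000000000000000000000000000000000000000000) := T_24 (nat_lit 231) (nat_lit 211) (nat_lit 0) (nat_lit 10) (nat_lit 13) L9672 (by decide +kernel)
theorem L9674 : W_24 (nat_lit 10) (nat_lit 0x780020000c000200020001000080000000000000000000000000000000) (nat_lit 0x0) (nat_lit 0x400020003000180018e0070007900000000000000000000000000000000000000000000) := T_24 (nat_lit 210) (nat_lit 209) (nat_lit 0) (nat_lit 9) (nat_lit 13) L9673 (by decide +kernel)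
theorem L9675 : W_24 (nat_lit 11) (nat_lit 0x780000000c000200020001000080000000000000000000000000000000) (nat_lit 0x0) (nat_lit 0x40002000300018001ee0070007900000000000000000000000000000000000000000000) := T_24 (nat_lit 213) (nat_lit 214) (nat_lit 2) (nat_lit 6) (nat_lit 13) L9674 (by decide +kernel)
theorem L9676 : W_24 (nat_lit 12) (nat_lit 0x780000000c000200000001000080000000000000000000000000000000) (nat_lit 0x0) (nat_lit 0x40002000300018001ee0070007d00020000000000000000000000000000000000000000) := T_24 (nat_lit 161) (nat_lit 178) (nat_lit 5) (nat_lit 8) (nat_lit 7) L9675 (by decide +kernel)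
theorem L9677 : W_24 (nat_lit 2) (nat_lit 0xf80004000c000200020001000080000000000000000000000000000000) (nat_lit 0x0) (nat_lit 0xe00000000000000000000000000000000000000000000000000000) := D_24 (nat_lit 214) (nat_lit 213) (nat_lit 215) (nat_lit 2) (nat_lit 6) (nat_lit 13) (nat_lit 2) (nat_lit 7) (nat_lit 13) (by decide +kernel)
theorem L9678 : W_24 (nat_lit 3) (nat_lit 0x780004000c000200020001000080000000000000000000000000000000) (nat_lit 0x0) (nat_lit 0x8000e80000000000000000000000000000000000000000000000000000) := T_24 (nat_lit 231) (nat_lit 211) (nat_lit 0) (nat_lit 10) (nat_lit 13) L9677 (by decide +kernel)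
theorem L9679 : W_24 (nat_lit 4) (nat_lit 0x780004000c000200000001000080000000000000000000000000000000) (nat_lit 0x0) (nat_lit 0x8000e80000000400020000000000000000000000000000000000000000) := T_24 (nat_lit 161) (nat_lit 178) (nat_lit 5) (nat_lit 8) (nat_lit 7) L9678 (by decide +kernel)
theorem L9680 : W_24 (nat_lit 5) (nat_lit 0x780000000c000200000001000080000000000000000000000000000000) (nat_lit 0x0) (nat_lit 0x8000ee0000000400020000000000000000000000000000000000000000) := T_24 (nat_lit 210) (nat_lit 209) (nat_lit 0) (nat_lit 9) (nat_lit 13) L9679 (by decide +kernel)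
theorem L9681 : W_24 (nat_lit 13) (nat_lit 0x380000000c000200000001000080000000000000000000000000000000) (nat_lit 0x0) (nat_lit 0x4000200038001c001ee0070007d00020000000000000000000000000000000000000000) := Q_24 (nat_lit 230) (C_24 L9617 (C_24 L9453 (C_24 L9676 (C_24 L9680 N_24)))) (by decide +kernel)
theorem L9682 : W_24 (nat_lit 2) (nat_lit 0x380000000c000600000001000080000000000000000000000000000000) (nat_lit 0x0) (nat_lit 0x30000000080000000000000000000000000000000000000000000000000000) := D_24 (nat_lit 211) (nat_lit 244) (nat_lit 245) (nat_lit 5) (nat_lit 7) (nat_lit 10) (nat_lit 6) (nat_lit 7) (nat_lit 14) (by decide +kernel)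
theorem L9683 : W_24 (nat_lit 3) (nat_lit 0x380000000c000200000001000080000000000000000000000000000000) (nat_lit 0x0) (nat_lit 0x30000000080000000400020000000000000000000000000000000000000000) := T_24 (nat_lit 178) (nat_lit 161) (nat_lit 5) (nat_lit 8) (nat_lit 7) L9682 (by decide +kernel)
theorem L9684 : W_24 (nat_lit 14) (nat_lit 0x300000000c000200000001000080000000000000000000000000000000) (nat_lit 0x0) (nat_lit 0x400020003b801cc01ef0071007dc0020000000000000000000000000000000000000000) := Q_24 (nat_lit 227) (C_24 L9450 (C_24 L9671 (C_24 L9681 (C_24 L9683 N_24)))) (by decide +kernel)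
theorem L9685 : W_24 (nat_lit 2) (nat_lit 0x300000003c000200000001000080000000000000000000000000000000) (nat_lit 0x0) (nat_lit 0x400000000c0000000000000000000000000000000000000000000000000000) := D_24 (nat_lit 211) (nat_lit 246) (nat_lit 210) (nat_lit 7) (nat_lit 7) (nat_lit 10) (nat_lit 1) (nat_lit 10) (nat_lit 11) (by decide +kernel)
theorem L9686 : W_24 (nat_lit 3) (nat_lit 0x300000001c000200000001000080000000000000000000000000000000) (nat_lit 0x0) (nat_lit 0x400000000c0020000100000000000000000000000000000000000000000000) := T_24 (nat_lit 197) (nat_lit 176) (nat_lit 0) (nat_lit 10) (nat_lit 11) L9685 (by decide +kernel)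
theorem L9687 : W_24 (nat_lit 4) (nat_lit 0x300000001c000200000001000080000000000000000000000000000000) (nat_lit 0x0) (nat_lit 0x400000000c0060000400020000000000000000000000000000000000000000) := T_24 (nat_lit 211) (nat_lit 246) (nat_lit 7) (nat_lit 7) (nat_lit 10) L9246 (by decide +kernel)
theorem L9688 : W_24 (nat_lit 2) (nat_lit 0x300080003c002200020001000080000000000000000000000000000000) (nat_lit 0x0) (nat_lit 0x1000040004000000000000000000000000000000000000000000000) := D_24 (nat_lit 198) (nat_lit 182) (nat_lit 216) (nat_lit 2) (nat_lit 8) (nat_lit 11) (nat_lit 3) (nat_lit 8) (nat_lit 11) (by decide +kernel)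
theorem L9689 : W_24 (nat_lit 3) (nat_lit 0x300000003c002200020001000080000000000000000000000000000000) (nat_lit 0x0) (nat_lit 0x1c00040004000000000000000000000000000000000000000000000) := T_24 (nat_lit 215) (nat_lit 214) (nat_lit 3) (nat_lit 7) (nat_lit 11) L9688 (by decide +kernel)
theorem L9690 : W_24 (nat_lit 4) (nat_lit 0x300000003c000200020001000080000000000000000000000000000000) (nat_lit 0x0) (nat_lit 0x1c00040007000000000000000000000000000000000000000000000) := T_24 (nat_lit 181) (nat_lit 180) (nat_lit 2) (nat_lit 7) (nat_lit 11) L9689 (by decide +kernel)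
theorem L9691 : W_24 (nat_lit 5) (nat_lit 0x300000001c000200020001000080000000000000000000000000000000) (nat_lit 0x0) (nat_lit 0x1c00060007100000000000000000000000000000000000000000000) := T_24 (nat_lit 197) (nat_lit 176) (nat_lit 0) (nat_lit 10) (nat_lit 11) L9690 (by decide +kernel)
theorem L9692 : W_24 (nat_lit 6) (nat_lit 0x300000001c000200000001000080000000000000000000000000000000) (nat_lit 0x0) (nat_lit 0x1c00060007500020000000000000000000000000000000000000000) := T_24 (nat_lit 161) (nat_lit 178) (nat_lit 5) (nat_lit 8) (nat_lit 7) L9691 (by decide +kernel)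
theorem L9693 : W_24 (nat_lit 2) (nat_lit 0x780008001c000200020001000080000000000000000000000000000000) (nat_lit 0x0) (nat_lit 0x8000060000000000000000000000000000000000000000000000000000) := D_24 (nat_lit 210) (nat_lit 231) (nat_lit 209) (nat_lit 0) (nat_lit 10) (nat_lit 13) (nat_lit 0) (nat_lit 9) (nat_lit 13) (by decide +kernel)
theorem L9694 : W_24 (nat_lit 3) (nat_lit 0x700008001c000200020001000080000000000000000000000000000000) (nat_lit 0x0) (nat_lit 0x10008800060000000000000000000000000000000000000000000000000000) := T_24 (nat_lit 227) (nat_lit 244) (nat_lit 5) (nat_lit 7) (nat_lit 10) L9693 (by decide +kernel)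
theorem L9695 : W_24 (nat_lit 4) (nat_lit 0x700000001c000200020001000080000000000000000000000000000000) (nat_lit 0x0) (nat_lit 0x500088000e0000000000000000000000000000000000000000000000000000) := T_24 (nat_lit 211) (nat_lit 246) (nat_lit 7) (nat_lit 7) (nat_lit 10) L9694 (by decide +kernel)
theorem L9696 : W_24 (nat_lit 5) (nat_lit 0x700000001c000200000001000080000000000000000000000000000000) (nat_lit 0x0) (nat_lit 0x500088000e0000000400020000000000000000000000000000000000000000) := T_24 (nat_lit 161) (nat_lit 178) (nat_lit 5) (nat_lit 8) (nat_lit 7) L9695 (by decide +kernel)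
theorem L9697 : W_24 (nat_lit 2) (nat_lit 0x780008001c000200000001000080000000000000000000000000000000) (nat_lit 0x0) (nat_lit 0x8000060000000000000000000000000000000000000000000000000000) := D_24 (nat_lit 210) (nat_lit 231) (nat_lit 209) (nat_lit 0) (nat_lit 10) (nat_lit 13) (nat_lit 0) (nat_lit 9) (nat_lit 13) (by decide +kernel)
theorem L9698 : W_24 (nat_lit 3) (nat_lit 0x700008001c000200000001000080000000000000000000000000000000) (nat_lit 0x0) (nat_lit 0x10008800060000000000000000000000000000000000000000000000000000) := T_24 (nat_lit 227) (nat_lit 244) (nat_lit 5) (nat_lit 7) (nat_lit 10) L9697 (by decide +kernel)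
theorem L9699 : W_24 (nat_lit 4) (nat_lit 0x700000001c000200000001000080000000000000000000000000000000) (nat_lit 0x0) (nat_lit 0x500088000e0000000000000000000000000000000000000000000000000000) := T_24 (nat_lit 211) (nat_lit 246) (nat_lit 7) (nat_lit 7) (nat_lit 10) L9698 (by decide +kernel)
theorem L9700 : W_24 (nat_lit 2) (nat_lit 0x8000780000001c000600000001000080000000000000000000000000000000) (nat_lit 0x0) (nat_lit 0x18000000080000000000000000000000000000000000000000000000000000) := D_24 (nat_lit 244) (nat_lit 243) (nat_lit 211) (nat_lit 1) (nat_lit 9) (nat_lit 13) (nat_lit 5) (nat_lit 7) (nat_lit 10) (by decide +kernel)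
theorem L9701 : W_24 (nat_lit 3) (nat_lit 0x8000700000001c000600000001000080000000000000000000000000000000) (nat_lit 0x0) (nat_lit 0x118000800080000000000000000000000000000000000000000000000000000) := T_24 (nat_lit 227) (nat_lit 248) (nat_lit 3) (nat_lit 6) (nat_lit 13) L9700 (by decide +kernel)
theorem L9702 : W_24 (nat_lit 4) (nat_lit 0x700000001c000600000001000080000000000000000000000000000000) (nat_lit 0x0) (nat_lit 0x198000800280000000000000000000000000000000000000000000000000000) := T_24 (nat_lit 247) (nat_lit 213) (nat_lit 4) (nat_lit 9) (nat_lit 14) L9701 (by decide +kernel)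
theorem L9703 : W_24 (nat_lit 5) (nat_lit 0x700000001c000200000001000080000000000000000000000000000000) (nat_lit 0x0) (nat_lit 0x198000800280000000400020000000000000000000000000000000000000000) := T_24 (nat_lit 178) (nat_lit 161) (nat_lit 5) (nat_lit 8) (nat_lit 7) L9702 (by decide +kernel)
theorem L9704 : W_24 (nat_lit 7) (nat_lit 0x300000001c000200000001000080000000000000000000000000000000) (nat_lit 0x0) (nat_lit 0x1d800c8002e0000003d800a0000000000000000000000000000000000000000) := Q_24 (nat_lit 230) (C_24 L9525 (C_24 L9696 (C_24 L9699 (C_24 L9703 N_24)))) (by decide +kernel)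
theorem L9705 : W_24 (nat_lit 8) (nat_lit 0x300000000c000200000001000080000000000000000000000000000000) (nat_lit 0x0) (nat_lit 0x1d800c801ee0070007d800a0000000000000000000000000000000000000000) := Q_24 (nat_lit 196) (C_24 L9686 (C_24 L9687 (C_24 L9692 (C_24 L9704 N_24)))) (by decide +kernel)
theorem L9706 : W_24 (nat_lit 15) (nat_lit 0x200000000c000200000001000080000000000000000000000000000000) (nat_lit 0x0) (nat_lit 0x45003a807fe01df01ef00f100fdc02e0010000000000000000000000000000000000000) := Q_24 (nat_lit 228) (C_24 L9353 (C_24 L9500 (C_24 L9670 (C_24 L9684 (C_24 L9705 N_24))))) (by decide +kernel)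
theorem L9707 : W_24 (nat_lit 2) (nat_lit 0x1600050002c001f40080001000080000000000000000000000000000000) (nat_lit 0x0) (nat_lit 0x200008000080000000000000000000000000000000000000000000000000000) := D_24 (nat_lit 231) (nat_lit 211) (nat_lit 249) (nat_lit 0) (nat_lit 11) (nat_lit 13) (nat_lit 7) (nat_lit 10) (nat_lit 10) (by decide +kernel)
theorem L9708 : W_24 (nat_lit 3) (nat_lit 0x600050002c001f40080001000080000000000000000000000000000000) (nat_lit 0x0) (nat_lit 0x200018000880000000000000000000000000000000000000000000000000000) := T_24 (nat_lit 232) (nat_lit 215) (nat_lit 7) (nat_lit 10) (nat_lit 9) L9707 (by decide +kernel)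
theorem L9709 : W_24 (nat_lit 4) (nat_lit 0x600010002c001f40080001000080000000000000000000000000000000) (nat_lit 0x0) (nat_lit 0x200018000e80000000000000000000000000000000000000000000000000000) := T_24 (nat_lit 214) (nat_lit 213) (nat_lit 5) (nat_lit 10) (nat_lit 9) L9708 (by decide +kernel)
theorem L9710 : W_24 (nat_lit 5) (nat_lit 0x600010002c001f40000001000080000000000000000000000000000000) (nat_lit 0x0) (nat_lit 0x200018000e80000000000180000000000000000000000000000000000000000) := T_24 (nat_lit 163) (nat_lit 164) (nat_lit 2) (nat_lit 7) (nat_lit 10) L9709 (by decide +kernel)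
theorem L9711 : W_24 (nat_lit 6) (nat_lit 0x600010002c001f00000001000080000000000000000000000000000000) (nat_lit 0x0) (nat_lit 0x200018000e800000000c0180000000000000000000000000000000000000000) := T_24 (nat_lit 174) (nat_lit 175) (nat_lit 3) (nat_lit 4) (nat_lit 10) L9710 (by decide +kernel)
theorem L9712 : W_24 (nat_lit 7) (nat_lit 0x600010002c001e00000001000080000000000000000000000000000000) (nat_lit 0x0) (nat_lit 0x200018000e800100001c0180000000000000000000000000000000000000000) := T_24 (nat_lit 176) (nat_lit 196) (nat_lit 3) (nat_lit 6) (nat_lit 10) L9711 (by decide +kernel)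
theorem L9713 : W_24 (nat_lit 8) (nat_lit 0x600010000c001e00000001000080000000000000000000000000000000) (nat_lit 0x0) (nat_lit 0x200018000e800700001c0180000000000000000000000000000000000000000) := T_24 (nat_lit 197) (nat_lit 198) (nat_lit 3) (nat_lit 7) (nat_lit 10) L9712 (by decide +kernel)
theorem L9714 : W_24 (nat_lit 9) (nat_lit 0x200010000c001e00000001000080000000000000000000000000000000) (nat_lit 0x0) (nat_lit 0x28001c000e800700001c0180000000000000000000000000000000000000000) := T_24 (nat_lit 230) (nat_lit 247) (nat_lit 7) (nat_lit 8) (nat_lit 10) L9713 (by decide +kernel)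
theorem L9715 : W_24 (nat_lit 10) (nat_lit 0x200010000c000e00000001000080000000000000000000000000000000) (nat_lit 0x0) (nat_lit 0x28001c000e800700031c0180000000000000000000000000000000000000000) := T_24 (nat_lit 180) (nat_lit 181) (nat_lit 1) (nat_lit 11) (nat_lit 10) L9714 (by decide +kernel)
theorem L9716 : W_24 (nat_lit 11) (nat_lit 0x200010000c000600000001000080000000000000000000000000000000) (nat_lit 0x0) (nat_lit 0x28001c000e800700039c01c0000000000000000000000000000000000000000) := T_24 (nat_lit 179) (nat_lit 162) (nat_lit 6) (nat_lit 8) (nat_lit 13) L9715 (by decide +kernel)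
theorem L9717 : W_24 (nat_lit 12) (nat_lit 0x200000000c000600000001000080000000000000000000000000000000) (nat_lit 0x0) (nat_lit 0x2c001c000f800700039c01c0000000000000000000000000000000000000000) := T_24 (nat_lit 212) (nat_lit 246) (nat_lit 4) (nat_lit 8) (nat_lit 14) L9716 (by decide +kernel)
theorem L9718 : W_24 (nat_lit 13) (nat_lit 0x200000000c000200000001000080000000000000000000000000000000) (nat_lit 0x0) (nat_lit 0x2c001c000f80070003dc01e0000000000000000000000000000000000000000) := T_24 (nat_lit 178) (nat_lit 161) (nat_lit 5) (nat_lit 8) (nat_lit 7) L9717 (by decide +kernel)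
theorem L9719 : W_24 (nat_lit 2) (nat_lit 0x200008000c000200000001000080000000000000000000000000000000) (nat_lit 0x0) (nat_lit 0x40001000100000000000000000000000000000000000000000000000000000) := D_24 (nat_lit 246) (nat_lit 212) (nat_lit 228) (nat_lit 4) (nat_lit 8) (nat_lit 14) (nat_lit 7) (nat_lit 7) (nat_lit 10) (by decide +kernel)
theorem L9720 : W_24 (nat_lit 2) (nat_lit 0x200008000c000600000001000080000000000000000000000000000000) (nat_lit 0x0) (nat_lit 0x60001000000000000000000000000000000000000000000000000000000000) := D_24 (nat_lit 228) (nat_lit 246) (nat_lit 245) (nat_lit 7) (nat_lit 7) (nat_lit 10) (nat_lit 6) (nat_lit 7) (nat_lit 14) (by decide +kernel)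
theorem L9721 : W_24 (nat_lit 3) (nat_lit 0x200008000c000200000001000080000000000000000000000000000000) (nat_lit 0x0) (nat_lit 0x60001000000000000400020000000000000000000000000000000000000000) := T_24 (nat_lit 178) (nat_lit 161) (nat_lit 5) (nat_lit 8) (nat_lit 7) L9720 (by decide +kernel)
theorem L9722 : W_24 (nat_lit 2) (nat_lit 0x60001c000c000e00000001000080000000000000000000000000000000) (nat_lit 0x0) (nat_lit 0x18000200000000000000000000000000000000000000000000000000000) := D_24 (nat_lit 231) (nat_lit 232) (nat_lit 213) (nat_lit 0) (nat_lit 11) (nat_lit 13) (nat_lit 3) (nat_lit 6) (nat_lit 12) (by decide +kernel)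
theorem L9723 : W_24 (nat_lit 3) (nat_lit 0x600018000c000e00000001000080000000000000000000000000000000) (nat_lit 0x0) (nat_lit 0x18000260000000000000000000000000000000000000000000000000000) := T_24 (nat_lit 210) (nat_lit 209) (nat_lit 3) (nat_lit 5) (nat_lit 12) L9722 (by decide +kernel)
theorem L9724 : W_24 (nat_lit 4) (nat_lit 0x200018000c000e00000001000080000000000000000000000000000000) (nat_lit 0x0) (nat_lit 0x8001c000260000000000000000000000000000000000000000000000000000) := T_24 (nat_lit 230) (nat_lit 247) (nat_lit 7) (nat_lit 8) (nat_lit 10) L9723 (by decide +kernel)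
theorem L9725 : W_24 (nat_lit 5) (nat_lit 0x200018000c000600000001000080000000000000000000000000000000) (nat_lit 0x0) (nat_lit 0x8001c000260000000800040000000000000000000000000000000000000000) := T_24 (nat_lit 179) (nat_lit 162) (nat_lit 6) (nat_lit 8) (nat_lit 13) L9724 (by decide +kernel)
theorem L9726 : W_24 (nat_lit 6) (nat_lit 0x200018000c000200000001000080000000000000000000000000000000) (nat_lit 0x0) (nat_lit 0x8001c000260000000c00060000000000000000000000000000000000000000) := T_24 (nat_lit 178) (nat_lit 161) (nat_lit 5) (nat_lit 8) (nat_lit 7) L9725 (by decide +kernel)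
theorem L9727 : W_24 (nat_lit 7) (nat_lit 0x200008000c000200000001000080000000000000000000000000000000) (nat_lit 0x0) (nat_lit 0xc001c000360000000c00060000000000000000000000000000000000000000) := T_24 (nat_lit 212) (nat_lit 246) (nat_lit 4) (nat_lit 8) (nat_lit 14) L9726 (by decide +kernel)
theorem L9728 : W_24 (nat_lit 7) (nat_lit 0x30000c000c000200000001000080000000000000000000000000000000) (nat_lit 0x0) (nat_lit 0x1e00cf00700000000000000000000000000000000000000000000000000000) := T_24 (nat_lit 227) (nat_lit 244) (nat_lit 5) (nat_lit 7) (nat_lit 10) L9065 (by decide +kernel)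
theorem L9729 : W_24 (nat_lit 2) (nat_lit 0x38000c000c000200000001000080000000000000000000000000000000) (nat_lit 0x0) (nat_lit 0xc000020000000000000000000000000000000000000000000000000000) := D_24 (nat_lit 230) (nat_lit 209) (nat_lit 231) (nat_lit 0) (nat_lit 9) (nat_lit 13) (nat_lit 0) (nat_lit 10) (nat_lit 13) (by decide +kernel)
theorem L9730 : W_24 (nat_lit 3) (nat_lit 0x30000c000c000200000001000080000000000000000000000000000000) (nat_lit 0x0) (nat_lit 0x1000c800020000000000000000000000000000000000000000000000000000) := T_24 (nat_lit 227) (nat_lit 244) (nat_lit 5) (nat_lit 7) (nat_lit 10) L9729 (by decide +kernel)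
theorem L9731 : W_24 (nat_lit 2) (nat_lit 0x30000e000c000200000001000080000000000000000000000000000000) (nat_lit 0x0) (nat_lit 0x100030000000000000000000000000000000000000000000000000) := D_24 (nat_lit 196) (nat_lit 197) (nat_lit 212) (nat_lit 1) (nat_lit 10) (nat_lit 11) (nat_lit 2) (nat_lit 5) (nat_lit 12) (by decide +kernel)
theorem L9732 : W_24 (nat_lit 3) (nat_lit 0x30000c000c000200000001000080000000000000000000000000000000) (nat_lit 0x0) (nat_lit 0x130030000000000000000000000000000000000000000000000000) := T_24 (nat_lit 209) (nat_lit 208) (nat_lit 3) (nat_lit 4) (nat_lit 12) L9731 (by decide +kernel)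
theorem L9733 : W_24 (nat_lit 8) (nat_lit 0x300008000c000200000001000080000000000000000000000000000000) (nat_lit 0x0) (nat_lit 0x1e00cf00770030000000000000000000000000000000000000000000000000) := Q_24 (nat_lit 210) (C_24 L9728 (C_24 L9730 (C_24 L9732 N_24))) (by decide +kernel)
theorem L9734 : W_24 (nat_lit 9) (nat_lit 0x200008000c000200000001000080000000000000000000000000000000) (nat_lit 0x0) (nat_lit 0x3e00df00770030000400020000000000000000000000000000000000000000) := Q_24 (nat_lit 228) (C_24 L9733 (C_24 L9499 N_24)) (by decide +kernel)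
theorem L9735 : W_24 (nat_lit 10) (nat_lit 0x200000000c000200000001000080000000000000000000000000000000) (nat_lit 0x0) (nat_lit 0xfe01df007f0030000c00060000000000000000000000000000000000000000) := Q_24 (nat_lit 211) (C_24 L9719 (C_24 L9721 (C_24 L9727 (C_24 L9734 N_24)))) (by decide +kernel)
theorem L9736 : W_24 (nat_lit 2) (nat_lit 0x700030000c001e00080001000080000000000000000000000000000000) (nat_lit 0x0) (nat_lit 0xc00400000000000000000000000000000000000000000000000000000) := D_24 (nat_lit 227) (nat_lit 214) (nat_lit 226) (nat_lit 2) (nat_lit 6) (nat_lit 13) (nat_lit 2) (nat_lit 5) (nat_lit 13) (by decide +kernel)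
theorem L9737 : W_24 (nat_lit 3) (nat_lit 0x700010000c001e00080001000080000000000000000000000000000000) (nat_lit 0x0) (nat_lit 0xc00600010000000000000000000000000000000000000000000000000) := T_24 (nat_lit 213) (nat_lit 196) (nat_lit 6) (nat_lit 9) (nat_lit 13) L9736 (by decide +kernel)
theorem L9738 : W_24 (nat_lit 4) (nat_lit 0x700010000c001e00000001000080000000000000000000000000000000) (nat_lit 0x0) (nat_lit 0xc00600010000000180000000000000000000000000000000000000000) := T_24 (nat_lit 163) (nat_lit 164) (nat_lit 2) (nat_lit 7) (nat_lit 10) L9737 (by decide +kernel)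
theorem L9739 : W_24 (nat_lit 5) (nat_lit 0x600010000c001e00000001000080000000000000000000000000000000) (nat_lit 0x0) (nat_lit 0x20001c00600010000000180000000000000000000000000000000000000000) := T_24 (nat_lit 228) (nat_lit 245) (nat_lit 5) (nat_lit 8) (nat_lit 10) L9738 (by decide +kernel)
theorem L9740 : W_24 (nat_lit 6) (nat_lit 0x600010000c000e00000001000080000000000000000000000000000000) (nat_lit 0x0) (nat_lit 0x20001c00600010003000180000000000000000000000000000000000000000) := T_24 (nat_lit 180) (nat_lit 181) (nat_lit 1) (nat_lit 11) (nat_lit 10) L9739 (by decide +kernel)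
theorem L9741 : W_24 (nat_lit 7) (nat_lit 0x600010000c000600000001000080000000000000000000000000000000) (nat_lit 0x0) (nat_lit 0x20001c006000100038001c0000000000000000000000000000000000000000) := T_24 (nat_lit 179) (nat_lit 162) (nat_lit 6) (nat_lit 8) (nat_lit 13) L9740 (by decide +kernel)
theorem L9742 : W_24 (nat_lit 8) (nat_lit 0x200010000c000600000001000080000000000000000000000000000000) (nat_lit 0x0) (nat_lit 0xa0005c006000100038001c0000000000000000000000000000000000000000) := T_24 (nat_lit 230) (nat_lit 247) (nat_lit 7) (nat_lit 8) (nat_lit 10) L9741 (by decide +kernel)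
theorem L9743 : W_24 (nat_lit 9) (nat_lit 0x200010000c000200000001000080000000000000000000000000000000) (nat_lit 0x0) (nat_lit 0xa0005c00600010003c001e0000000000000000000000000000000000000000) := T_24 (nat_lit 178) (nat_lit 161) (nat_lit 5) (nat_lit 8) (nat_lit 7) L9742 (by decide +kernel)
theorem L9744 : W_24 (nat_lit 10) (nat_lit 0x200000000c000200000001000080000000000000000000000000000000) (nat_lit 0x0) (nat_lit 0xe0005c00700010003c001e0000000000000000000000000000000000000000) := T_24 (nat_lit 212) (nat_lit 246) (nat_lit 4) (nat_lit 8) (nat_lit 14) L9743 (by decide +kernel)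
theorem L9748 : W_24 (nat_lit 5) (nat_lit 0x200018000c000200000001000080000000000000000000000000000000) (nat_lit 0x0) (nat_lit 0x8001c000260000000400020000000000000000000000000000000000000000) := T_24 (nat_lit 178) (nat_lit 161) (nat_lit 5) (nat_lit 8) (nat_lit 7) L9747 (by decide +kernel)
theorem L9749 : W_24 (nat_lit 6) (nat_lit 0x200008000c000200000001000080000000000000000000000000000000) (nat_lit 0x0) (nat_lit 0xc001c000360000000400020000000000000000000000000000000000000000) := T_24 (nat_lit 212) (nat_lit 246) (nat_lit 4) (nat_lit 8) (nat_lit 14) L9748 (by decide +kernel)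
theorem L9750 : W_24 (nat_lit 10) (nat_lit 0x200000000c000200000001000080000000000000000000000000000000) (nat_lit 0x0) (nat_lit 0xfe01df007f0030000400020000000000000000000000000000000000000000) := Q_24 (nat_lit 211) (C_24 L9719 (C_24 L9721 (C_24 L9734 (C_24 L9749 N_24)))) (by decide +kernel)
theorem L9751 : W_24 (nat_lit 2) (nat_lit 0xf00050003c001e00000001000080000000000000000000000000000000) (nat_lit 0x0) (nat_lit 0x100000c0000000000000000000000000000000000000000000000000000) := D_24 (nat_lit 211) (nat_lit 210) (nat_lit 232) (nat_lit 1) (nat_lit 10) (nat_lit 11) (nat_lit 0) (nat_lit 11) (nat_lit 13) (by decide +kernel)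
theorem L9752 : W_24 (nat_lit 3) (nat_lit 0x700050003c001e00000001000080000000000000000000000000000000) (nat_lit 0x0) (nat_lit 0x1000180000c0000000000000000000000000000000000000000000000000000) := T_24 (nat_lit 231) (nat_lit 248) (nat_lit 4) (nat_lit 10) (nat_lit 14) L9751 (by decide +kernel)
theorem L9753 : W_24 (nat_lit 4) (nat_lit 0x700010003c001e00000001000080000000000000000000000000000000) (nat_lit 0x0) (nat_lit 0x100018000cc0000000000000000000000000000000000000000000000000000) := T_24 (nat_lit 214) (nat_lit 215) (nat_lit 3) (nat_lit 7) (nat_lit 11) L9752 (by decide +kernel)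
theorem L9754 : W_24 (nat_lit 5) (nat_lit 0x700010002c001e00000001000080000000000000000000000000000000) (nat_lit 0x0) (nat_lit 0x100018000cc0010000100000000000000000000000000000000000000000000) := T_24 (nat_lit 196) (nat_lit 176) (nat_lit 3) (nat_lit 6) (nat_lit 10) L9753 (by decide +kernel)
theorem L9755 : W_24 (nat_lit 6) (nat_lit 0x700010000c001e00000001000080000000000000000000000000000000) (nat_lit 0x0) (nat_lit 0x100018000cc0070000100000000000000000000000000000000000000000000) := T_24 (nat_lit 197) (nat_lit 198) (nat_lit 3) (nat_lit 7) (nat_lit 10) L9754 (by decide +kernel)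
theorem L9756 : W_24 (nat_lit 7) (nat_lit 0x600010000c001e00000001000080000000000000000000000000000000) (nat_lit 0x0) (nat_lit 0x120019000cc0070000100000000000000000000000000000000000000000000) := T_24 (nat_lit 228) (nat_lit 245) (nat_lit 5) (nat_lit 8) (nat_lit 10) L9755 (by decide +kernel)
theorem L9757 : W_24 (nat_lit 8) (nat_lit 0x600010000c000e00000001000080000000000000000000000000000000) (nat_lit 0x0) (nat_lit 0x120019000cc0070003100000000000000000000000000000000000000000000) := T_24 (nat_lit 180) (nat_lit 181) (nat_lit 1) (nat_lit 11) (nat_lit 10) L9756 (by decide +kernel)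
theorem L9758 : W_24 (nat_lit 9) (nat_lit 0x600010000c000600000001000080000000000000000000000000000000) (nat_lit 0x0) (nat_lit 0x120019000cc0070003900040000000000000000000000000000000000000000) := T_24 (nat_lit 179) (nat_lit 162) (nat_lit 6) (nat_lit 8) (nat_lit 13) L9757 (by decide +kernel)
theorem L9759 : W_24 (nat_lit 10) (nat_lit 0x200010000c000600000001000080000000000000000000000000000000) (nat_lit 0x0) (nat_lit 0x1a001d000cc0070003900040000000000000000000000000000000000000000) := T_24 (nat_lit 230) (nat_lit 247) (nat_lit 7) (nat_lit 8) (nat_lit 10) L9758 (by decide +kernel)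
theorem L9760 : W_24 (nat_lit 11) (nat_lit 0x200010000c000200000001000080000000000000000000000000000000) (nat_lit 0x0) (nat_lit 0x1a001d000cc0070003d00060000000000000000000000000000000000000000) := T_24 (nat_lit 178) (nat_lit 161) (nat_lit 5) (nat_lit 8) (nat_lit 7) L9759 (by decide +kernel)
theorem L9761 : W_24 (nat_lit 12) (nat_lit 0x200000000c000200000001000080000000000000000000000000000000) (nat_lit 0x0) (nat_lit 0x1e001d000dc0070003d00060000000000000000000000000000000000000000) := T_24 (nat_lit 212) (nat_lit 246) (nat_lit 4) (nat_lit 8) (nat_lit 14) L9760 (by decide +kernel)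
theorem L9764 : W_24 (nat_lit 2) (nat_lit 0x70000c000c000200000001000080000000000000000000000000000000) (nat_lit 0x0) (nat_lit 0x130000000000000000000000000000000000000000000000000000) := D_24 (nat_lit 209) (nat_lit 208) (nat_lit 212) (nat_lit 3) (nat_lit 4) (nat_lit 12) (nat_lit 3) (nat_lit 5) (nat_lit 12) (by decide +kernel)
theorem L9765 : W_24 (nat_lit 3) (nat_lit 0x30000c000c000200000001000080000000000000000000000000000000) (nat_lit 0x0) (nat_lit 0xc000130000000000000000000000000000000000000000000000000000) := T_24 (nat_lit 230) (nat_lit 231) (nat_lit 0) (nat_lit 10) (nat_lit 13) L9764 (by decide +kernel)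
theorem L9766 : W_24 (nat_lit 2) (nat_lit 0x780008000c000200000001000080000000000000000000000000000000) (nat_lit 0x0) (nat_lit 0x8000060000000000000000000000000000000000000000000000000000) := D_24 (nat_lit 210) (nat_lit 231) (nat_lit 209) (nat_lit 0) (nat_lit 10) (nat_lit 13) (nat_lit 0) (nat_lit 9) (nat_lit 13) (by decide +kernel)
theorem L9767 : W_24 (nat_lit 3) (nat_lit 0x700008000c000200000001000080000000000000000000000000000000) (nat_lit 0x0) (nat_lit 0x10008800060000000000000000000000000000000000000000000000000000) := T_24 (nat_lit 227) (nat_lit 244) (nat_lit 5) (nat_lit 7) (nat_lit 10) L9766 (by decide +kernel)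
theorem L9768 : W_24 (nat_lit 2) (nat_lit 0x8000780028000c000200000001000080000000000000000000000000000000) (nat_lit 0x0) (nat_lit 0x1000000000400100000000000000000000000000000000000000000000000000000) := D_24 (nat_lit 212) (nat_lit 226) (nat_lit 264) (nat_lit 2) (nat_lit 5) (nat_lit 13) (nat_lit 4) (nat_lit 9) (nat_lit 15) (by decide +kernel)
theorem L9769 : W_24 (nat_lit 3) (nat_lit 0x8000780008000c000200000001000080000000000000000000000000000000) (nat_lit 0x0) (nat_lit 0x1000000000400700000000000000000000000000000000000000000000000000000) := T_24 (nat_lit 213) (nat_lit 214) (nat_lit 2) (nat_lit 6) (nat_lit 13) L9768 (by decide +kernel)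
theorem L9770 : W_24 (nat_lit 4) (nat_lit 0x780008000c000200000001000080000000000000000000000000000000) (nat_lit 0x0) (nat_lit 0x1000180000400700000000000000000000000000000000000000000000000000000) := T_24 (nat_lit 247) (nat_lit 248) (nat_lit 3) (nat_lit 6) (nat_lit 13) L9769 (by decide +kernel)
theorem L9771 : W_24 (nat_lit 5) (nat_lit 0x700008000c000200000001000080000000000000000000000000000000) (nat_lit 0x0) (nat_lit 0x1000190000c00700000000000000000000000000000000000000000000000000000) := T_24 (nat_lit 227) (nat_lit 244) (nat_lit 5) (nat_lit 7) (nat_lit 10) L9770 (by decide +kernel)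
theorem L9772 : W_24 (nat_lit 2) (nat_lit 0x1f00008000c000200000001000080000000000000000000000000000000) (nat_lit 0x0) (nat_lit 0x700000000000000000000000000000000000000000000000000000000000000) := D_24 (nat_lit 249) (nat_lit 248) (nat_lit 250) (nat_lit 3) (nat_lit 7) (nat_lit 13) (nat_lit 3) (nat_lit 8) (nat_lit 13) (by decide +kernel)
theorem L9773 : W_24 (nat_lit 3) (nat_lit 0xf00008000c000200000001000080000000000000000000000000000000) (nat_lit 0x0) (nat_lit 0x700010000100000000000000000000000000000000000000000000000000000) := T_24 (nat_lit 232) (nat_lit 212) (nat_lit 0) (nat_lit 11) (nat_lit 13) L9772 (by decide +kernel)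
theorem L9774 : W_24 (nat_lit 4) (nat_lit 0x700008000c000200000001000080000000000000000000000000000000) (nat_lit 0x0) (nat_lit 0x700018000140000000000000000000000000000000000000000000000000000) := T_24 (nat_lit 231) (nat_lit 210) (nat_lit 0) (nat_lit 10) (nat_lit 13) L9773 (by decide +kernel)
theorem L9775 : W_24 (nat_lit 6) (nat_lit 0x300008000c000200000001000080000000000000000000000000000000) (nat_lit 0x0) (nat_lit 0x100079001cc00760000000000000000000000000000000000000000000000000000) := Q_24 (nat_lit 230) (C_24 L9767 (C_24 L9771 (C_24 L9774 N_24))) (by decide +kernel)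
theorem L9776 : W_24 (nat_lit 2) (nat_lit 0x300000000c000600000001000080000000000000000000000000000000) (nat_lit 0x0) (nat_lit 0x20000000180000000000000000000000000000000000000000000000000000) := D_24 (nat_lit 245) (nat_lit 211) (nat_lit 212) (nat_lit 6) (nat_lit 7) (nat_lit 14) (nat_lit 5) (nat_lit 8) (nat_lit 10) (by decide +kernel)
theorem L9777 : W_24 (nat_lit 3) (nat_lit 0x300000000c000200000001000080000000000000000000000000000000) (nat_lit 0x0) (nat_lit 0x20000000180000000400020000000000000000000000000000000000000000) := T_24 (nat_lit 178) (nat_lit 161) (nat_lit 5) (nat_lit 8) (nat_lit 7) L9776 (by decide +kernel)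
theorem L9778 : W_24 (nat_lit 9) (nat_lit 0x300000000c000600000001000080000000000000000000000000000000) (nat_lit 0x0) (nat_lit 0xa001c000f000600038001c0000000000000000000000000000000000000000) := T_24 (nat_lit 212) (nat_lit 245) (nat_lit 5) (nat_lit 8) (nat_lit 10) L9301 (by decide +kernel)
theorem L9779 : W_24 (nat_lit 10) (nat_lit 0x300000000c000200000001000080000000000000000000000000000000) (nat_lit 0x0) (nat_lit 0xa001c000f00060003c001e0000000000000000000000000000000000000000) := T_24 (nat_lit 178) (nat_lit 161) (nat_lit 5) (nat_lit 8) (nat_lit 7) L9778 (by decide +kernel)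
theorem L9780 : W_24 (nat_lit 2) (nat_lit 0x8000780028000c000200000001000080000000000000000000000000000000) (nat_lit 0x0) (nat_lit 0x10000400020000000000000000000000000000000000000000) := D_24 (nat_lit 178) (nat_lit 161) (nat_lit 196) (nat_lit 6) (nat_lit 7) (nat_lit 13) (nat_lit 4) (nat_lit 9) (nat_lit 14) (by decide +kernel)
theorem L9781 : W_24 (nat_lit 3) (nat_lit 0x8000780008000c000200000001000080000000000000000000000000000000) (nat_lit 0x0) (nat_lit 0x600010000400020000000000000000000000000000000000000000) := T_24 (nat_lit 213) (nat_lit 214) (nat_lit 2) (nat_lit 6) (nat_lit 13) L9780 (by decide +kernel)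
theorem L9782 : W_24 (nat_lit 4) (nat_lit 0x780008000c000200000001000080000000000000000000000000000000) (nat_lit 0x0) (nat_lit 0x180000000600010000400020000000000000000000000000000000000000000) := T_24 (nat_lit 247) (nat_lit 248) (nat_lit 3) (nat_lit 6) (nat_lit 13) L9781 (by decide +kernel)
theorem L9783 : W_24 (nat_lit 5) (nat_lit 0x700008000c000200000001000080000000000000000000000000000000) (nat_lit 0x0) (nat_lit 0x190000800600010000400020000000000000000000000000000000000000000) := T_24 (nat_lit 227) (nat_lit 244) (nat_lit 5) (nat_lit 7) (nat_lit 10) L9782 (by decide +kernel)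
theorem L9784 : W_24 (nat_lit 2) (nat_lit 0xf80048000c000200020001000080000000000000000000000000000000) (nat_lit 0x0) (nat_lit 0x380000000000000000000000000000000000000000000000000000000000000) := D_24 (nat_lit 248) (nat_lit 249) (nat_lit 247) (nat_lit 3) (nat_lit 7) (nat_lit 13) (nat_lit 3) (nat_lit 6) (nat_lit 13) (by decide +kernel)
theorem L9785 : W_24 (nat_lit 3) (nat_lit 0xf00048000c000200020001000080000000000000000000000000000000) (nat_lit 0x0) (nat_lit 0x380000800200000000000000000000000000000000000000000000000000000) := T_24 (nat_lit 227) (nat_lit 213) (nat_lit 2) (nat_lit 6) (nat_lit 13) L9784 (by decide +kernel)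
theorem L9786 : W_24 (nat_lit 4) (nat_lit 0xf00008000c000200020001000080000000000000000000000000000000) (nat_lit 0x0) (nat_lit 0x380000800e00000000000000000000000000000000000000000000000000000) := T_24 (nat_lit 214) (nat_lit 215) (nat_lit 2) (nat_lit 7) (nat_lit 13) L9785 (by decide +kernel)
theorem L9787 : W_24 (nat_lit 5) (nat_lit 0x700008000c000200020001000080000000000000000000000000000000) (nat_lit 0x0) (nat_lit 0x380008800e40000000000000000000000000000000000000000000000000000) := T_24 (nat_lit 231) (nat_lit 210) (nat_lit 0) (nat_lit 10) (nat_lit 13) L9786 (by decide +kernel)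
theorem L9788 : W_24 (nat_lit 6) (nat_lit 0x700008000c000200000001000080000000000000000000000000000000) (nat_lit 0x0) (nat_lit 0x380008800e40000000400020000000000000000000000000000000000000000) := T_24 (nat_lit 161) (nat_lit 178) (nat_lit 6) (nat_lit 7) (nat_lit 13) L9787 (by decide +kernel)
theorem L9789 : W_24 (nat_lit 2) (nat_lit 0x8000000020001f00048000c001f00080001000080000000000000000000000000000000) (nat_lit 0x0) (nat_lit 0x200010000080000000000000000000000000000000000000000000) := D_24 (nat_lit 196) (nat_lit 213) (nat_lit 175) (nat_lit 6) (nat_lit 9) (nat_lit 13) (nat_lit 3) (nat_lit 5) (nat_lit 10) (by decide +kernel)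
theorem L9790 : W_24 (nat_lit 3) (nat_lit 0x8000000020001f00048000c001e00080001000080000000000000000000000000000000) (nat_lit 0x0) (nat_lit 0x200010000180040000000000000000000000000000000000000000) := T_24 (nat_lit 176) (nat_lit 162) (nat_lit 2) (nat_lit 6) (nat_lit 10) L9789 (by decide +kernel)
theorem L9791 : W_24 (nat_lit 4) (nat_lit 0x8000000020001f00048000c001e00000001000080000000000000000000000000000000) (nat_lit 0x0) (nat_lit 0x2000100001801c0000000000000000000000000000000000000000) := T_24 (nat_lit 163) (nat_lit 164) (nat_lit 2) (nat_lit 7) (nat_lit 10) L9790 (by decide +kernel)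
theorem L9792 : W_24 (nat_lit 5) (nat_lit 0x8000000020001f00048000c001600000001000080000000000000000000000000000000) (nat_lit 0x0) (nat_lit 0x2000100029801c0000000000000000000000000000000000000000) := T_24 (nat_lit 179) (nat_lit 181) (nat_lit 1) (nat_lit 11) (nat_lit 10) L9791 (by decide +kernel)
theorem L9793 : W_24 (nat_lit 6) (nat_lit 0x8000000020001f00048000c000600000001000080000000000000000000000000000000) (nat_lit 0x0) (nat_lit 0x2000300039801c0000000000000000000000000000000000000000) := T_24 (nat_lit 180) (nat_lit 197) (nat_lit 7) (nat_lit 10) (nat_lit 10) L9792 (by decide +kernel)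
theorem L9794 : W_24 (nat_lit 7) (nat_lit 0x20001f00048000c000600000001000080000000000000000000000000000000) (nat_lit 0x0) (nat_lit 0x800040000000000002000300039801c0000000000000000000000000000000000000000) := T_24 (nat_lit 283) (nat_lit 266) (nat_lit 4) (nat_lit 11) (nat_lit 16) L9793 (by decide +kernel)
theorem L9795 : W_24 (nat_lit 8) (nat_lit 0x20000f00048000c000600000001000080000000000000000000000000000000) (nat_lit 0x0) (nat_lit 0x800040004000100002000300039801c0000000000000000000000000000000000000000) := T_24 (nat_lit 232) (nat_lit 250) (nat_lit 3) (nat_lit 8) (nat_lit 13) L9794 (by decide +kernel)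
theorem L9796 : W_24 (nat_lit 9) (nat_lit 0xf00048000c000600000001000080000000000000000000000000000000) (nat_lit 0x0) (nat_lit 0x800040007000100002000300039801c0000000000000000000000000000000000000000) := T_24 (nat_lit 249) (nat_lit 248) (nat_lit 3) (nat_lit 7) (nat_lit 13) L9795 (by decide +kernel)
theorem L9797 : W_24 (nat_lit 10) (nat_lit 0xf00008000c000600000001000080000000000000000000000000000000) (nat_lit 0x0) (nat_lit 0x80004000700010000e000300039801c0000000000000000000000000000000000000000) := T_24 (nat_lit 214) (nat_lit 215) (nat_lit 2) (nat_lit 7) (nat_lit 13) L9796 (by decide +kernel)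
theorem L9798 : W_24 (nat_lit 11) (nat_lit 0xf00008000c000200000001000080000000000000000000000000000000) (nat_lit 0x0) (nat_lit 0x80004000700010000e00030003d801e0000000000000000000000000000000000000000) := T_24 (nat_lit 178) (nat_lit 161) (nat_lit 6) (nat_lit 7) (nat_lit 13) L9797 (by decide +kernel)
theorem L9799 : W_24 (nat_lit 12) (nat_lit 0x700008000c000200000001000080000000000000000000000000000000) (nat_lit 0x0) (nat_lit 0x80004000700018000e40030003d801e0000000000000000000000000000000000000000) := T_24 (nat_lit 231) (nat_lit 210) (nat_lit 0) (nat_lit 10) (nat_lit 13) L9798 (by decide +kernel)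
theorem L9800 : W_24 (nat_lit 13) (nat_lit 0x300008000c000200000001000080000000000000000000000000000000) (nat_lit 0x0) (nat_lit 0x8000400079001c800e60030003d801e0000000000000000000000000000000000000000) := Q_24 (nat_lit 230) (C_24 L9767 (C_24 L9783 (C_24 L9788 (C_24 L9799 N_24)))) (by decide +kernel)
theorem L9801 : W_24 (nat_lit 2) (nat_lit 0x10000fa0058000c002e00000001000080000000000000000000000000000000) (nat_lit 0x0) (nat_lit 0x70000000000000000000000000000000000000000000000000) := D_24 (nat_lit 197) (nat_lit 196) (nat_lit 198) (nat_lit 4) (nat_lit 10) (nat_lit 14) (nat_lit 6) (nat_lit 10) (nat_lit 14) (by decide +kernel)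
theorem L9802 : W_24 (nat_lit 3) (nat_lit 0xfa0058000c002e00000001000080000000000000000000000000000000) (nat_lit 0x0) (nat_lit 0x300000000000070000000000000000000000000000000000000000000000000) := T_24 (nat_lit 248) (nat_lit 249) (nat_lit 3) (nat_lit 7) (nat_lit 13) L9801 (by decide +kernel)
theorem L9803 : W_24 (nat_lit 4) (nat_lit 0xfa0018000c002e00000001000080000000000000000000000000000000) (nat_lit 0x0) (nat_lit 0x300000000c00070000000000000000000000000000000000000000000000000) := T_24 (nat_lit 214) (nat_lit 215) (nat_lit 2) (nat_lit 7) (nat_lit 13) L9802 (by decide +kernel)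
theorem L9804 : W_24 (nat_lit 5) (nat_lit 0x7a0018000c002e00000001000080000000000000000000000000000000) (nat_lit 0x0) (nat_lit 0x300018000c00070000000000000000000000000000000000000000000000000) := T_24 (nat_lit 231) (nat_lit 232) (nat_lit 0) (nat_lit 11) (nat_lit 13) L9803 (by decide +kernel)
theorem L9805 : W_24 (nat_lit 6) (nat_lit 0x3a0018000c002e00000001000080000000000000000000000000000000) (nat_lit 0x0) (nat_lit 0x38001c000c00070000000000000000000000000000000000000000000000000) := T_24 (nat_lit 230) (nat_lit 247) (nat_lit 7) (nat_lit 8) (nat_lit 10) L9804 (by decide +kernel)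
theorem L9806 : W_24 (nat_lit 7) (nat_lit 0x3a0018000c000e00000001000080000000000000000000000000000000) (nat_lit 0x0) (nat_lit 0x38001c000c00070003000000000000000000000000000000000000000000000) := T_24 (nat_lit 181) (nat_lit 180) (nat_lit 1) (nat_lit 11) (nat_lit 10) L9805 (by decide +kernel)
theorem L9807 : W_24 (nat_lit 8) (nat_lit 0x3a0018000c000600000001000080000000000000000000000000000000) (nat_lit 0x0) (nat_lit 0x38001c000c00070003800040000000000000000000000000000000000000000) := T_24 (nat_lit 179) (nat_lit 162) (nat_lit 6) (nat_lit 8) (nat_lit 13) L9806 (by decide +kernel)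
theorem L9808 : W_24 (nat_lit 9) (nat_lit 0x3a0018000c000200000001000080000000000000000000000000000000) (nat_lit 0x0) (nat_lit 0x38001c000c00070003c00060000000000000000000000000000000000000000) := T_24 (nat_lit 178) (nat_lit 161) (nat_lit 6) (nat_lit 7) (nat_lit 13) L9807 (by decide +kernel)
theorem L9809 : W_24 (nat_lit 10) (nat_lit 0x380018000c000200000001000080000000000000000000000000000000) (nat_lit 0x0) (nat_lit 0x38001c600c00070003c00060000000000000000000000000000000000000000) := T_24 (nat_lit 225) (nat_lit 226) (nat_lit 2) (nat_lit 4) (nat_lit 13) L9808 (by decide +kernel)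
theorem L9810 : W_24 (nat_lit 11) (nat_lit 0x300018000c000200000001000080000000000000000000000000000000) (nat_lit 0x0) (nat_lit 0x39001ce00c00070003c00060000000000000000000000000000000000000000) := T_24 (nat_lit 227) (nat_lit 244) (nat_lit 5) (nat_lit 7) (nat_lit 10) L9809 (by decide +kernel)
theorem L9811 : W_24 (nat_lit 4) (nat_lit 0xf80058000c002e00000001000080000000000000000000000000000000) (nat_lit 0x0) (nat_lit 0x300000600000070000000000000000000000000000000000000000000000000) := T_24 (nat_lit 225) (nat_lit 226) (nat_lit 2) (nat_lit 4) (nat_lit 13) L9802 (by decide +kernel)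
theorem L9812 : W_24 (nat_lit 5) (nat_lit 0xf00058000c002e00000001000080000000000000000000000000000000) (nat_lit 0x0) (nat_lit 0x300000e00200070000000000000000000000000000000000000000000000000) := T_24 (nat_lit 227) (nat_lit 213) (nat_lit 2) (nat_lit 6) (nat_lit 13) L9811 (by decide +kernel)
theorem L9813 : W_24 (nat_lit 6) (nat_lit 0xf00018000c002e00000001000080000000000000000000000000000000) (nat_lit 0x0) (nat_lit 0x300000e00e00070000000000000000000000000000000000000000000000000) := T_24 (nat_lit 214) (nat_lit 215) (nat_lit 2) (nat_lit 7) (nat_lit 13) L9812 (by decide +kernel)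
theorem L9814 : W_24 (nat_lit 7) (nat_lit 0x700018000c002e00000001000080000000000000000000000000000000) (nat_lit 0x0) (nat_lit 0x300018e00e00070000000000000000000000000000000000000000000000000) := T_24 (nat_lit 231) (nat_lit 232) (nat_lit 0) (nat_lit 11) (nat_lit 13) L9813 (by decide +kernel)
theorem L9815 : W_24 (nat_lit 8) (nat_lit 0x300018000c002e00000001000080000000000000000000000000000000) (nat_lit 0x0) (nat_lit 0x38001ce00e00070000000000000000000000000000000000000000000000000) := T_24 (nat_lit 230) (nat_lit 247) (nat_lit 7) (nat_lit 8) (nat_lit 10) L9814 (by decide +kernel)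
theorem L9816 : W_24 (nat_lit 9) (nat_lit 0x300018000c000e00000001000080000000000000000000000000000000) (nat_lit 0x0) (nat_lit 0x38001ce00e00070003000000000000000000000000000000000000000000000) := T_24 (nat_lit 181) (nat_lit 180) (nat_lit 1) (nat_lit 11) (nat_lit 10) L9815 (by decide +kernel)
theorem L9817 : W_24 (nat_lit 10) (nat_lit 0x300018000c000600000001000080000000000000000000000000000000) (nat_lit 0x0) (nat_lit 0x38001ce00e00070003800040000000000000000000000000000000000000000) := T_24 (nat_lit 179) (nat_lit 162) (nat_lit 6) (nat_lit 8) (nat_lit 13) L9816 (by decide +kernel)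
theorem L9818 : W_24 (nat_lit 11) (nat_lit 0x300018000c000200000001000080000000000000000000000000000000) (nat_lit 0x0) (nat_lit 0x38001ce00e00070003c00060000000000000000000000000000000000000000) := T_24 (nat_lit 178) (nat_lit 161) (nat_lit 6) (nat_lit 7) (nat_lit 13) L9817 (by decide +kernel)
theorem L9827 : W_24 (nat_lit 12) (nat_lit 0x300008000c000200000001000080000000000000000000000000000000) (nat_lit 0x0) (nat_lit 0x39001ce00f00070003c00060000000000000000000000000000000000000000) := Q_24 (nat_lit 212) (C_24 L9111 (C_24 L9810 (C_24 L9818 (C_24 L9826 N_24)))) (by decide +kernel)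
theorem L9828 : W_24 (nat_lit 6) (nat_lit 0x300008000c000200000001000080000000000000000000000000000000) (nat_lit 0x0) (nat_lit 0x19000c800170030000400020000000000000000000000000000000000000000) := Q_24 (nat_lit 210) (C_24 L9765 (C_24 L9763 (C_24 L9177 (C_24 L9732 N_24)))) (by decide +kernel)
theorem L9829 : W_24 (nat_lit 2) (nat_lit 0x70001c002c000e00000001000080000000000000000000000000000000) (nat_lit 0x0) (nat_lit 0x40003000000000000000000000000000000000000000000000) := D_24 (nat_lit 180) (nat_lit 198) (nat_lit 181) (nat_lit 3) (nat_lit 7) (nat_lit 10) (nat_lit 1) (nat_lit 11) (nat_lit 10) (by decide +kernel)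
theorem L9830 : W_24 (nat_lit 3) (nat_lit 0x70001c002c000600000001000080000000000000000000000000000000) (nat_lit 0x0) (nat_lit 0x40003800040000000000000000000000000000000000000000) := T_24 (nat_lit 179) (nat_lit 162) (nat_lit 6) (nat_lit 8) (nat_lit 13) L9829 (by decide +kernel)
theorem L9831 : W_24 (nat_lit 4) (nat_lit 0x70000c002c000600000001000080000000000000000000000000000000) (nat_lit 0x0) (nat_lit 0x80000000100040003800040000000000000000000000000000000000000000) := T_24 (nat_lit 212) (nat_lit 247) (nat_lit 7) (nat_lit 8) (nat_lit 10) L9830 (by decide +kernel)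
theorem L9832 : W_24 (nat_lit 5) (nat_lit 0x30000c002c000600000001000080000000000000000000000000000000) (nat_lit 0x0) (nat_lit 0x8000c000100040003800040000000000000000000000000000000000000000) := T_24 (nat_lit 230) (nat_lit 231) (nat_lit 0) (nat_lit 10) (nat_lit 13) L9831 (by decide +kernel)
theorem L9833 : W_24 (nat_lit 6) (nat_lit 0x30000c000c000600000001000080000000000000000000000000000000) (nat_lit 0x0) (nat_lit 0x8000c000100070003800040000000000000000000000000000000000000000) := T_24 (nat_lit 197) (nat_lit 196) (nat_lit 1) (nat_lit 10) (nat_lit 11) L9832 (by decide +kernel)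
theorem L9834 : W_24 (nat_lit 7) (nat_lit 0x30000c000c000200000001000080000000000000000000000000000000) (nat_lit 0x0) (nat_lit 0x8000c000100070003c00060000000000000000000000000000000000000000) := T_24 (nat_lit 178) (nat_lit 161) (nat_lit 6) (nat_lit 7) (nat_lit 13) L9833 (by decide +kernel)
theorem L9835 : W_24 (nat_lit 8) (nat_lit 0x300008000c000200000001000080000000000000000000000000000000) (nat_lit 0x0) (nat_lit 0x8000c800170070003c00060000000000000000000000000000000000000000) := Q_24 (nat_lit 210) (C_24 L9765 (C_24 L9763 (C_24 L9834 (C_24 L9732 N_24)))) (by decide +kernel)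
theorem L9836 : W_24 (nat_lit 6) (nat_lit 0x700018000c000e00000001000080000000000000000000000000000000) (nat_lit 0x0) (nat_lit 0x300018000c00070003000000000000000000000000000000000000000000000) := T_24 (nat_lit 181) (nat_lit 180) (nat_lit 1) (nat_lit 11) (nat_lit 10) L9822 (by decide +kernel)
theorem L9837 : W_24 (nat_lit 7) (nat_lit 0x700018000c000600000001000080000000000000000000000000000000) (nat_lit 0x0) (nat_lit 0x300018000c00070003800040000000000000000000000000000000000000000) := T_24 (nat_lit 179) (nat_lit 162) (nat_lit 6) (nat_lit 8) (nat_lit 13) L9836 (by decide +kernel)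
theorem L9838 : W_24 (nat_lit 8) (nat_lit 0x700008000c000600000001000080000000000000000000000000000000) (nat_lit 0x0) (nat_lit 0x380018000d00070003800040000000000000000000000000000000000000000) := T_24 (nat_lit 212) (nat_lit 247) (nat_lit 7) (nat_lit 8) (nat_lit 10) L9837 (by decide +kernel)
theorem L9839 : W_24 (nat_lit 9) (nat_lit 0x700008000c000200000001000080000000000000000000000000000000) (nat_lit 0x0) (nat_lit 0x380018000d00070003c00060000000000000000000000000000000000000000) := T_24 (nat_lit 178) (nat_lit 161) (nat_lit 6) (nat_lit 7) (nat_lit 13) L9838 (by decide +kernel)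
theorem L9840 : W_24 (nat_lit 2) (nat_lit 0x700018000c000600000001000080000000000000000000000000000000) (nat_lit 0x0) (nat_lit 0x8000060000000000000000000000000000000000000000000000000000) := D_24 (nat_lit 210) (nat_lit 231) (nat_lit 209) (nat_lit 0) (nat_lit 10) (nat_lit 13) (nat_lit 3) (nat_lit 5) (nat_lit 12) (by decide +kernel)
theorem L9841 : W_24 (nat_lit 3) (nat_lit 0x700008000c000600000001000080000000000000000000000000000000) (nat_lit 0x0) (nat_lit 0x80008000160000000000000000000000000000000000000000000000000000) := T_24 (nat_lit 212) (nat_lit 247) (nat_lit 7) (nat_lit 8) (nat_lit 10) L9840 (by decide +kernel)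
theorem L9842 : W_24 (nat_lit 4) (nat_lit 0x700008000c000200000001000080000000000000000000000000000000) (nat_lit 0x0) (nat_lit 0x80008000160000000400020000000000000000000000000000000000000000) := T_24 (nat_lit 178) (nat_lit 161) (nat_lit 6) (nat_lit 7) (nat_lit 13) L9841 (by decide +kernel)
theorem L9843 : W_24 (nat_lit 2) (nat_lit 0x70001a003c001e00000001000080000000000000000000000000000000) (nat_lit 0x0) (nat_lit 0x200000000000180000000000000000000000000000000000000000) := D_24 (nat_lit 163) (nat_lit 213) (nat_lit 164) (nat_lit 6) (nat_lit 9) (nat_lit 13) (nat_lit 2) (nat_lit 7) (nat_lit 10) (by decide +kernel)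
theorem L9844 : W_24 (nat_lit 3) (nat_lit 0x70001a002c001e00000001000080000000000000000000000000000000) (nat_lit 0x0) (nat_lit 0x200010000100180000000000000000000000000000000000000000) := T_24 (nat_lit 196) (nat_lit 176) (nat_lit 3) (nat_lit 6) (nat_lit 10) L9843 (by decide +kernel)
theorem L9845 : W_24 (nat_lit 4) (nat_lit 0x70001a000c001e00000001000080000000000000000000000000000000) (nat_lit 0x0) (nat_lit 0x200070000100180000000000000000000000000000000000000000) := T_24 (nat_lit 197) (nat_lit 198) (nat_lit 3) (nat_lit 7) (nat_lit 10) L9844 (by decide +kernel)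
theorem L9846 : W_24 (nat_lit 5) (nat_lit 0x700018000c001e00000001000080000000000000000000000000000000) (nat_lit 0x0) (nat_lit 0x260070000100180000000000000000000000000000000000000000) := T_24 (nat_lit 209) (nat_lit 210) (nat_lit 3) (nat_lit 5) (nat_lit 12) L9845 (by decide +kernel)
theorem L9847 : W_24 (nat_lit 6) (nat_lit 0x700018000c000e00000001000080000000000000000000000000000000) (nat_lit 0x0) (nat_lit 0x260070003100180000000000000000000000000000000000000000) := T_24 (nat_lit 180) (nat_lit 181) (nat_lit 1) (nat_lit 11) (nat_lit 10) L9846 (by decide +kernel)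
theorem L9848 : W_24 (nat_lit 7) (nat_lit 0x700018000c000600000001000080000000000000000000000000000000) (nat_lit 0x0) (nat_lit 0x2600700039001c0000000000000000000000000000000000000000) := T_24 (nat_lit 179) (nat_lit 162) (nat_lit 6) (nat_lit 8) (nat_lit 13) L9847 (by decide +kernel)
theorem L9849 : W_24 (nat_lit 8) (nat_lit 0x700008000c000600000001000080000000000000000000000000000000) (nat_lit 0x0) (nat_lit 0x800000003600700039001c0000000000000000000000000000000000000000) := T_24 (nat_lit 212) (nat_lit 247) (nat_lit 7) (nat_lit 8) (nat_lit 10) L9848 (by decide +kernel)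
theorem L9850 : W_24 (nat_lit 9) (nat_lit 0x700008000c000200000001000080000000000000000000000000000000) (nat_lit 0x0) (nat_lit 0x80000000360070003d001e0000000000000000000000000000000000000000) := T_24 (nat_lit 178) (nat_lit 161) (nat_lit 6) (nat_lit 7) (nat_lit 13) L9849 (by decide +kernel)
theorem L9851 : W_24 (nat_lit 13) (nat_lit 0x300008000c000200000001000080000000000000000000000000000000) (nat_lit 0x0) (nat_lit 0x8000400078001c000f60070003d801e0000000000000000000000000000000000000000) := Q_24 (nat_lit 230) (C_24 L9799 (C_24 L9774 (C_24 L9839 (C_24 L9842 (C_24 L9850 N_24))))) (by decide +kernel)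
theorem L9852 : W_24 (nat_lit 2) (nat_lit 0x2000000008003c001e000d000280020001000080000000000000000000000000000000) (nat_lit 0x0) (nat_lit 0x140002000000000000000000000000000000000000000) := D_24 (nat_lit 174) (nat_lit 157) (nat_lit 176) (nat_lit 4) (nat_lit 5) (nat_lit 13) (nat_lit 3) (nat_lit 4) (nat_lit 10) (by decide +kernel)
theorem L9853 : W_24 (nat_lit 3) (nat_lit 0x2000000008003c001e000d000200020001000080000000000000000000000000000000) (nat_lit 0x0) (nat_lit 0x1c0006000000000000000000000000000000000000000) := T_24 (nat_lit 175) (nat_lit 158) (nat_lit 7) (nat_lit 5) (nat_lit 9) L9852 (by decide +kernel)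
theorem L9854 : W_24 (nat_lit 4) (nat_lit 0x2000000008003c001e000c000200020001000080000000000000000000000000000000) (nat_lit 0x0) (nat_lit 0x18001c0006000000000000000000000000000000000000000) := T_24 (nat_lit 192) (nat_lit 191) (nat_lit 0) (nat_lit 8) (nat_lit 12) L9853 (by decide +kernel)
theorem L9855 : W_24 (nat_lit 5) (nat_lit 0x8003c001e000c000200020001000080000000000000000000000000000000) (nat_lit 0x0) (nat_lit 0x20001000000000000000018001c0006000000000000000000000000000000000000000) := T_24 (nat_lit 277) (nat_lit 260) (nat_lit 6) (nat_lit 5) (nat_lit 16) L9854 (by decide +kernel)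
theorem L9856 : W_24 (nat_lit 6) (nat_lit 0x8003c001a000c000200020001000080000000000000000000000000000000) (nat_lit 0x0) (nat_lit 0x20001000000000000400118001c0006000000000000000000000000000000000000000) := T_24 (nat_lit 210) (nat_lit 196) (nat_lit 2) (nat_lit 5) (nat_lit 12) L9855 (by decide +kernel)
theorem L9857 : W_24 (nat_lit 7) (nat_lit 0x8003c0018000c000200020001000080000000000000000000000000000000) (nat_lit 0x0) (nat_lit 0x20001000000000000700118001c0006000000000000000000000000000000000000000) := T_24 (nat_lit 209) (nat_lit 208) (nat_lit 0) (nat_lit 8) (nat_lit 13) L9856 (by decide +kernel)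
theorem L9858 : W_24 (nat_lit 8) (nat_lit 0x3c0018000c000200020001000080000000000000000000000000000000) (nat_lit 0x0) (nat_lit 0x200010000c0000000700118001c0006000000000000000000000000000000000000000) := T_24 (nat_lit 243) (nat_lit 242) (nat_lit 1) (nat_lit 8) (nat_lit 13) L9857 (by decide +kernel)
theorem L9859 : W_24 (nat_lit 9) (nat_lit 0x380018000c000200020001000080000000000000000000000000000000) (nat_lit 0x0) (nat_lit 0x200010000c0006000700118001c0006000000000000000000000000000000000000000) := T_24 (nat_lit 226) (nat_lit 225) (nat_lit 2) (nat_lit 4) (nat_lit 13) L9858 (by decide +kernel)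
theorem L9860 : W_24 (nat_lit 10) (nat_lit 0x300018000c000200020001000080000000000000000000000000000000) (nat_lit 0x0) (nat_lit 0x200010001c000e000700118001c0006000000000000000000000000000000000000000) := T_24 (nat_lit 227) (nat_lit 244) (nat_lit 5) (nat_lit 7) (nat_lit 10) L9859 (by decide +kernel)
theorem L9861 : W_24 (nat_lit 11) (nat_lit 0x300018000c000200000001000080000000000000000000000000000000) (nat_lit 0x0) (nat_lit 0x200010001c000e000700118005c0026000000000000000000000000000000000000000) := T_24 (nat_lit 161) (nat_lit 178) (nat_lit 6) (nat_lit 7) (nat_lit 13) L9860 (by decide +kernel)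
theorem L9862 : W_24 (nat_lit 2) (nat_lit 0x300018002c001e00080001000080000000000000000000000000000000) (nat_lit 0x0) (nat_lit 0x40010000100000000000000000000000000000000000000000000) := D_24 (nat_lit 196) (nat_lit 176) (nat_lit 210) (nat_lit 3) (nat_lit 6) (nat_lit 10) (nat_lit 1) (nat_lit 10) (nat_lit 11) (by decide +kernel)
theorem L9863 : W_24 (nat_lit 3) (nat_lit 0x300018000c001e00080001000080000000000000000000000000000000) (nat_lit 0x0) (nat_lit 0x40070000100000000000000000000000000000000000000000000) := T_24 (nat_lit 197) (nat_lit 198) (nat_lit 3) (nat_lit 7) (nat_lit 10) L9862 (by decide +kernel)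
theorem L9864 : W_24 (nat_lit 4) (nat_lit 0x300018000c001e00000001000080000000000000000000000000000000) (nat_lit 0x0) (nat_lit 0x40070000100180000000000000000000000000000000000000000) := T_24 (nat_lit 163) (nat_lit 164) (nat_lit 2) (nat_lit 7) (nat_lit 10) L9863 (by decide +kernel)
theorem L9865 : W_24 (nat_lit 5) (nat_lit 0x300018000c000e00000001000080000000000000000000000000000000) (nat_lit 0x0) (nat_lit 0x40070003100180000000000000000000000000000000000000000) := T_24 (nat_lit 180) (nat_lit 181) (nat_lit 1) (nat_lit 11) (nat_lit 10) L9864 (by decide +kernel)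
theorem L9866 : W_24 (nat_lit 6) (nat_lit 0x300018000c000600000001000080000000000000000000000000000000) (nat_lit 0x0) (nat_lit 0x400700039001c0000000000000000000000000000000000000000) := T_24 (nat_lit 179) (nat_lit 162) (nat_lit 6) (nat_lit 8) (nat_lit 13) L9865 (by decide +kernel)
theorem L9867 : W_24 (nat_lit 7) (nat_lit 0x300018000c000200000001000080000000000000000000000000000000) (nat_lit 0x0) (nat_lit 0x40070003d001e0000000000000000000000000000000000000000) := T_24 (nat_lit 178) (nat_lit 161) (nat_lit 6) (nat_lit 7) (nat_lit 13) L9866 (by decide +kernel)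
theorem L9868 : W_24 (nat_lit 12) (nat_lit 0x300008000c000200000001000080000000000000000000000000000000) (nat_lit 0x0) (nat_lit 0x200010001c000e00370071803dc01e6000000000000000000000000000000000000000) := Q_24 (nat_lit 212) (C_24 L9111 (C_24 L9861 (C_24 L9867 N_24))) (by decide +kernel)
theorem L9869 : W_24 (nat_lit 14) (nat_lit 0x300000000c000200000001000080000000000000000000000000000000) (nat_lit 0x0) (nat_lit 0x8200510079c01ce00ff0071803dc01e6000000000000000000000000000000000000000) := Q_24 (nat_lit 211) (C_24 L9775 (C_24 L9800 (C_24 L9827 (C_24 L9828 (C_24 L9835 (C_24 L9851 (C_24 L9868 N_24))))))) (by decide +kernel)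
theorem L9870 : W_24 (nat_lit 15) (nat_lit 0x200000000c000200000001000080000000000000000000000000000000) (nat_lit 0x0) (nat_lit 0xc20075007be01df01ff8071807dc01e6000000000000000000000000000000000000000) := Q_24 (nat_lit 228) (C_24 L9777 (C_24 L9497 (C_24 L9684 (C_24 L9779 (C_24 L9869 N_24))))) (by decide +kernel)
theorem L9871 : W_24 (nat_lit 2) (nat_lit 0x700010002c001e00080001000080000000000000000000000000000000) (nat_lit 0x0) (nat_lit 0x200010000100000000000000000000000000000000000000000000) := D_24 (nat_lit 196) (nat_lit 176) (nat_lit 213) (nat_lit 3) (nat_lit 6) (nat_lit 10) (nat_lit 6) (nat_lit 9) (nat_lit 13) (by decide +kernel)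
theorem L9872 : W_24 (nat_lit 3) (nat_lit 0x700010000c001e00080001000080000000000000000000000000000000) (nat_lit 0x0) (nat_lit 0x200070000100000000000000000000000000000000000000000000) := T_24 (nat_lit 197) (nat_lit 198) (nat_lit 3) (nat_lit 7) (nat_lit 10) L9871 (by decide +kernel)
theorem L9873 : W_24 (nat_lit 4) (nat_lit 0x700010000c001e00000001000080000000000000000000000000000000) (nat_lit 0x0) (nat_lit 0x200070000100180000000000000000000000000000000000000000) := T_24 (nat_lit 163) (nat_lit 164) (nat_lit 2) (nat_lit 7) (nat_lit 10) L9872 (by decide +kernel)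
theorem L9874 : W_24 (nat_lit 5) (nat_lit 0x700010000c000e00000001000080000000000000000000000000000000) (nat_lit 0x0) (nat_lit 0x200070003100180000000000000000000000000000000000000000) := T_24 (nat_lit 180) (nat_lit 181) (nat_lit 1) (nat_lit 11) (nat_lit 10) L9873 (by decide +kernel)
theorem L9875 : W_24 (nat_lit 6) (nat_lit 0x700010000c000600000001000080000000000000000000000000000000) (nat_lit 0x0) (nat_lit 0x2000700039001c0000000000000000000000000000000000000000) := T_24 (nat_lit 179) (nat_lit 162) (nat_lit 6) (nat_lit 8) (nat_lit 13) L9874 (by decide +kernel)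
theorem L9876 : W_24 (nat_lit 7) (nat_lit 0x300010000c000600000001000080000000000000000000000000000000) (nat_lit 0x0) (nat_lit 0x800040002000700039001c0000000000000000000000000000000000000000) := T_24 (nat_lit 230) (nat_lit 247) (nat_lit 7) (nat_lit 8) (nat_lit 10) L9875 (by decide +kernel)
theorem L9877 : W_24 (nat_lit 8) (nat_lit 0x200010000c000600000001000080000000000000000000000000000000) (nat_lit 0x0) (nat_lit 0xa00050002000700039001c0000000000000000000000000000000000000000) := T_24 (nat_lit 228) (nat_lit 245) (nat_lit 5) (nat_lit 8) (nat_lit 10) L9876 (by decide +kernel)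
theorem L9878 : W_24 (nat_lit 9) (nat_lit 0x200000000c000600000001000080000000000000000000000000000000) (nat_lit 0x0) (nat_lit 0xe00050003000700039001c0000000000000000000000000000000000000000) := T_24 (nat_lit 212) (nat_lit 246) (nat_lit 4) (nat_lit 8) (nat_lit 14) L9877 (by decide +kernel)
theorem L9879 : W_24 (nat_lit 10) (nat_lit 0x200000000c000200000001000080000000000000000000000000000000) (nat_lit 0x0) (nat_lit 0xe0005000300070003d001e0000000000000000000000000000000000000000) := T_24 (nat_lit 178) (nat_lit 161) (nat_lit 5) (nat_lit 8) (nat_lit 7) L9878 (by decide +kernel)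
theorem L9880 : W_24 (nat_lit 2) (nat_lit 0x10000300058003c001e00000001000080000000000000000000000000000000) (nat_lit 0x0) (nat_lit 0x10000800200000000000000000000000000000000000000000000000000000) := D_24 (nat_lit 227) (nat_lit 213) (nat_lit 244) (nat_lit 1) (nat_lit 10) (nat_lit 12) (nat_lit 5) (nat_lit 7) (nat_lit 10) (by decide +kernel)
theorem L9881 : W_24 (nat_lit 3) (nat_lit 0x10000300050003c001e00000001000080000000000000000000000000000000) (nat_lit 0x0) (nat_lit 0x100008002c0000000000000000000000000000000000000000000000000000) := T_24 (nat_lit 211) (nat_lit 210) (nat_lit 1) (nat_lit 10) (nat_lit 11) L9880 (by decide +kernel)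
theorem L9882 : W_24 (nat_lit 4) (nat_lit 0x300050003c001e00000001000080000000000000000000000000000000) (nat_lit 0x0) (nat_lit 0x1100088002c0000000000000000000000000000000000000000000000000000) := T_24 (nat_lit 248) (nat_lit 231) (nat_lit 4) (nat_lit 10) (nat_lit 14) L9881 (by decide +kernel)
theorem L9883 : W_24 (nat_lit 5) (nat_lit 0x300010003c001e00000001000080000000000000000000000000000000) (nat_lit 0x0) (nat_lit 0x110008800ec0000000000000000000000000000000000000000000000000000) := T_24 (nat_lit 214) (nat_lit 215) (nat_lit 3) (nat_lit 7) (nat_lit 11) L9882 (by decide +kernel)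
theorem L9884 : W_24 (nat_lit 6) (nat_lit 0x300010002c001e00000001000080000000000000000000000000000000) (nat_lit 0x0) (nat_lit 0x110008800ec0010000100000000000000000000000000000000000000000000) := T_24 (nat_lit 196) (nat_lit 176) (nat_lit 3) (nat_lit 6) (nat_lit 10) L9883 (by decide +kernel)
theorem L9885 : W_24 (nat_lit 7) (nat_lit 0x300010000c001e00000001000080000000000000000000000000000000) (nat_lit 0x0) (nat_lit 0x110008800ec0070000100000000000000000000000000000000000000000000) := T_24 (nat_lit 197) (nat_lit 198) (nat_lit 3) (nat_lit 7) (nat_lit 10) L9884 (by decide +kernel)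
theorem L9886 : W_24 (nat_lit 8) (nat_lit 0x200010000c001e00000001000080000000000000000000000000000000) (nat_lit 0x0) (nat_lit 0x130009800ec0070000100000000000000000000000000000000000000000000) := T_24 (nat_lit 228) (nat_lit 245) (nat_lit 5) (nat_lit 8) (nat_lit 10) L9885 (by decide +kernel)
theorem L9887 : W_24 (nat_lit 9) (nat_lit 0x200010000c000e00000001000080000000000000000000000000000000) (nat_lit 0x0) (nat_lit 0x130009800ec0070003100000000000000000000000000000000000000000000) := T_24 (nat_lit 180) (nat_lit 181) (nat_lit 1) (nat_lit 11) (nat_lit 10) L9886 (by decide +kernel)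
theorem L9888 : W_24 (nat_lit 10) (nat_lit 0x200010000c000600000001000080000000000000000000000000000000) (nat_lit 0x0) (nat_lit 0x130009800ec0070003900040000000000000000000000000000000000000000) := T_24 (nat_lit 179) (nat_lit 162) (nat_lit 6) (nat_lit 8) (nat_lit 13) L9887 (by decide +kernel)
theorem L9889 : W_24 (nat_lit 11) (nat_lit 0x200010000c000200000001000080000000000000000000000000000000) (nat_lit 0x0) (nat_lit 0x130009800ec0070003d00060000000000000000000000000000000000000000) := T_24 (nat_lit 178) (nat_lit 161) (nat_lit 5) (nat_lit 8) (nat_lit 7) L9888 (by decide +kernel)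
theorem L9890 : W_24 (nat_lit 12) (nat_lit 0x200000000c000200000001000080000000000000000000000000000000) (nat_lit 0x0) (nat_lit 0x170009800fc0070003d00060000000000000000000000000000000000000000) := T_24 (nat_lit 212) (nat_lit 246) (nat_lit 4) (nat_lit 8) (nat_lit 14) L9889 (by decide +kernel)
theorem L9891 : W_24 (nat_lit 16) (nat_lit 0xc000200000001000080000000000000000000000000000000) (nat_lit 0x0) (nat_lit 0xd7007f807fe01ff01ff80f180fdc03e6010000000000000000000000000000000000000) := Q_24 (nat_lit 229) (C_24 L9304 (C_24 L9498 (C_24 L9706 (C_24 L9718 (C_24 L9735 (C_24 L9744 (C_24 L9750 (C_24 L9761 (C_24 L9870 (C_24 L9879 (C_24 L9890 N_24))))))))))) (by decide +kernel)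
theorem L9892 : W_24 (nat_lit 6) (nat_lit 0xc000200000001000080000000000000000000000000000000) (nat_lit 0x0) (nat_lit 0xf70073003dc0060000000000000000000000000000000000000000) := Q_24 (nat_lit 196) (C_24 L9293 (C_24 L9033 (C_24 L5062 (C_24 L5194 N_24)))) (by decide +kernel)
theorem L9893 : W_24 (nat_lit 6) (nat_lit 0x24001e000a00000001000080000000000000000000000000000000) (nat_lit 0x0) (nat_lit 0x38003c00180000000180000000000000000000000000000000000000000000) := T_24 (nat_lit 176) (nat_lit 175) (nat_lit 0) (nat_lit 9) (nat_lit 11) L7809 (by decide +kernel)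
theorem L9894 : W_24 (nat_lit 7) (nat_lit 0x20001e000a00000001000080000000000000000000000000000000) (nat_lit 0x0) (nat_lit 0x38003c001e0000000180000000000000000000000000000000000000000000) := T_24 (nat_lit 210) (nat_lit 209) (nat_lit 1) (nat_lit 9) (nat_lit 11) L9893 (by decide +kernel)
theorem L9895 : W_24 (nat_lit 8) (nat_lit 0x20001e000200000001000080000000000000000000000000000000) (nat_lit 0x0) (nat_lit 0x38003c001e0000001980000000000000000000000000000000000000000000) := T_24 (nat_lit 179) (nat_lit 180) (nat_lit 2) (nat_lit 6) (nat_lit 11) L9894 (by decide +kernel)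
theorem L9896 : W_24 (nat_lit 9) (nat_lit 0x1e000200000001000080000000000000000000000000000000) (nat_lit 0x0) (nat_lit 0x38003c007e0000001980000000000000000000000000000000000000000000) := T_24 (nat_lit 213) (nat_lit 214) (nat_lit 3) (nat_lit 6) (nat_lit 11) L9895 (by decide +kernel)
theorem L9897 : W_24 (nat_lit 2) (nat_lit 0x1c0024001e000b00020001000080000000000000000000000000000000) (nat_lit 0x0) (nat_lit 0x2000180000000000000000000000000000000000000000000000000000) := D_24 (nat_lit 212) (nat_lit 229) (nat_lit 211) (nat_lit 2) (nat_lit 5) (nat_lit 13) (nat_lit 1) (nat_lit 9) (nat_lit 12) (by decide +kernel)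
theorem L9898 : W_24 (nat_lit 3) (nat_lit 0x180024001e000b00020001000080000000000000000000000000000000) (nat_lit 0x0) (nat_lit 0x8002400180000000000000000000000000000000000000000000000000000) := T_24 (nat_lit 226) (nat_lit 243) (nat_lit 5) (nat_lit 6) (nat_lit 10) L9897 (by decide +kernel)
theorem L9899 : W_24 (nat_lit 4) (nat_lit 0x80024001e000b00020001000080000000000000000000000000000000) (nat_lit 0x0) (nat_lit 0x28003400180000000000000000000000000000000000000000000000000000) := T_24 (nat_lit 228) (nat_lit 245) (nat_lit 7) (nat_lit 6) (nat_lit 10) L9898 (by decide +kernel)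
theorem L9900 : W_24 (nat_lit 5) (nat_lit 0x80024001e000a00020001000080000000000000000000000000000000) (nat_lit 0x0) (nat_lit 0x28003400180000000180000000000000000000000000000000000000000000) := T_24 (nat_lit 176) (nat_lit 175) (nat_lit 0) (nat_lit 9) (nat_lit 11) L9899 (by decide +kernel)
theorem L9901 : W_24 (nat_lit 6) (nat_lit 0x80024001e000200020001000080000000000000000000000000000000) (nat_lit 0x0) (nat_lit 0x28003400180000000980040000000000000000000000000000000000000000) := T_24 (nat_lit 179) (nat_lit 162) (nat_lit 4) (nat_lit 9) (nat_lit 12) L9900 (by decide +kernel)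
theorem L9902 : W_24 (nat_lit 7) (nat_lit 0x80024001e000200000001000080000000000000000000000000000000) (nat_lit 0x0) (nat_lit 0x28003400180000000d80060000000000000000000000000000000000000000) := T_24 (nat_lit 161) (nat_lit 178) (nat_lit 7) (nat_lit 8) (nat_lit 8) L9901 (by decide +kernel)
theorem L9903 : W_24 (nat_lit 8) (nat_lit 0x24001e000200000001000080000000000000000000000000000000) (nat_lit 0x0) (nat_lit 0x38003c00180000000d80060000000000000000000000000000000000000000) := T_24 (nat_lit 227) (nat_lit 244) (nat_lit 6) (nat_lit 6) (nat_lit 14) L9902 (by decide +kernel)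
theorem L9904 : W_24 (nat_lit 9) (nat_lit 0x4001e000200000001000080000000000000000000000000000000) (nat_lit 0x0) (nat_lit 0x38003c00780000000d80060000000000000000000000000000000000000000) := T_24 (nat_lit 213) (nat_lit 214) (nat_lit 3) (nat_lit 6) (nat_lit 11) L9903 (by decide +kernel)
theorem L9905 : W_24 (nat_lit 10) (nat_lit 0x1e000200000001000080000000000000000000000000000000) (nat_lit 0x0) (nat_lit 0x38003c007e0000000d80060000000000000000000000000000000000000000) := T_24 (nat_lit 210) (nat_lit 209) (nat_lit 1) (nat_lit 9) (nat_lit 11) L9904 (by decide +kernel)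
theorem L9906 : W_24 (nat_lit 5) (nat_lit 0x80024001e000300000001000080000000000000000000000000000000) (nat_lit 0x0) (nat_lit 0x28003400180000000400020000000000000000000000000000000000000000) := T_24 (nat_lit 161) (nat_lit 178) (nat_lit 7) (nat_lit 8) (nat_lit 8) L5171 (by decide +kernel)
theorem L9907 : W_24 (nat_lit 6) (nat_lit 0x24001e000300000001000080000000000000000000000000000000) (nat_lit 0x0) (nat_lit 0x38003c00180000000400020000000000000000000000000000000000000000) := T_24 (nat_lit 227) (nat_lit 244) (nat_lit 6) (nat_lit 6) (nat_lit 14) L9906 (by decide +kernel)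
theorem L9908 : W_24 (nat_lit 7) (nat_lit 0x4001e000300000001000080000000000000000000000000000000) (nat_lit 0x0) (nat_lit 0x38003c00780000000400020000000000000000000000000000000000000000) := T_24 (nat_lit 213) (nat_lit 214) (nat_lit 3) (nat_lit 6) (nat_lit 11) L9907 (by decide +kernel)
theorem L9909 : W_24 (nat_lit 8) (nat_lit 0x1e000300000001000080000000000000000000000000000000) (nat_lit 0x0) (nat_lit 0x38003c007e0000000400020000000000000000000000000000000000000000) := T_24 (nat_lit 210) (nat_lit 209) (nat_lit 1) (nat_lit 9) (nat_lit 11) L9908 (by decide +kernel)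
theorem L9910 : W_24 (nat_lit 9) (nat_lit 0x1e000200000001000080000000000000000000000000000000) (nat_lit 0x0) (nat_lit 0x38003c007e0000000580020000000000000000000000000000000000000000) := T_24 (nat_lit 176) (nat_lit 175) (nat_lit 0) (nat_lit 9) (nat_lit 11) L9909 (by decide +kernel)
theorem L9911 : W_24 (nat_lit 2) (nat_lit 0x3c0004001e000f00040001000080000000000000000000000000000000) (nat_lit 0x0) (nat_lit 0xc0000000080000000000000000000000000000000000000000000000000000) := D_24 (nat_lit 246) (nat_lit 211) (nat_lit 247) (nat_lit 7) (nat_lit 7) (nat_lit 10) (nat_lit 3) (nat_lit 5) (nat_lit 13) (by decide +kernel)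
theorem L9912 : W_24 (nat_lit 3) (nat_lit 0x2c0004001e000f00040001000080000000000000000000000000000000) (nat_lit 0x0) (nat_lit 0xe0001000080000000000000000000000000000000000000000000000000000) := T_24 (nat_lit 228) (nat_lit 245) (nat_lit 7) (nat_lit 6) (nat_lit 10) L9911 (by decide +kernel)
theorem L9913 : W_24 (nat_lit 4) (nat_lit 0xc0004001e000f00040001000080000000000000000000000000000000) (nat_lit 0x0) (nat_lit 0xe0003000180000000000000000000000000000000000000000000000000000) := T_24 (nat_lit 229) (nat_lit 212) (nat_lit 6) (nat_lit 8) (nat_lit 13) L9912 (by decide +kernel)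
theorem L9914 : W_24 (nat_lit 5) (nat_lit 0x80004001e000f00040001000080000000000000000000000000000000) (nat_lit 0x0) (nat_lit 0xe8003400180000000000000000000000000000000000000000000000000000) := T_24 (nat_lit 226) (nat_lit 243) (nat_lit 5) (nat_lit 6) (nat_lit 10) L9913 (by decide +kernel)
theorem L9915 : W_24 (nat_lit 6) (nat_lit 0x80004001e000f00000001000080000000000000000000000000000000) (nat_lit 0x0) (nat_lit 0xe80034001800000000000c0000000000000000000000000000000000000000) := T_24 (nat_lit 162) (nat_lit 163) (nat_lit 2) (nat_lit 6) (nat_lit 10) L9914 (by decide +kernel)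
theorem L9916 : W_24 (nat_lit 7) (nat_lit 0x80004001e000700000001000080000000000000000000000000000000) (nat_lit 0x0) (nat_lit 0xe80034001800000018000c0000000000000000000000000000000000000000) := T_24 (nat_lit 179) (nat_lit 180) (nat_lit 2) (nat_lit 6) (nat_lit 11) L9915 (by decide +kernel)
theorem L9917 : W_24 (nat_lit 8) (nat_lit 0x80004001e000300000001000080000000000000000000000000000000) (nat_lit 0x0) (nat_lit 0xe8003400180000001c000e0000000000000000000000000000000000000000) := T_24 (nat_lit 178) (nat_lit 161) (nat_lit 5) (nat_lit 8) (nat_lit 7) L9916 (by decide +kernel)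
theorem L9918 : W_24 (nat_lit 9) (nat_lit 0x4001e000300000001000080000000000000000000000000000000) (nat_lit 0x0) (nat_lit 0xf8003c00180000001c000e0000000000000000000000000000000000000000) := T_24 (nat_lit 227) (nat_lit 244) (nat_lit 6) (nat_lit 6) (nat_lit 14) L9917 (by decide +kernel)
theorem L9919 : W_24 (nat_lit 10) (nat_lit 0x4001e000200000001000080000000000000000000000000000000) (nat_lit 0x0) (nat_lit 0xf8003c00180000001d800e0000000000000000000000000000000000000000) := T_24 (nat_lit 176) (nat_lit 175) (nat_lit 0) (nat_lit 9) (nat_lit 11) L9918 (by decide +kernel)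
theorem L9920 : W_24 (nat_lit 11) (nat_lit 0x1e000200000001000080000000000000000000000000000000) (nat_lit 0x0) (nat_lit 0xf8003c001e0000001d800e0000000000000000000000000000000000000000) := T_24 (nat_lit 210) (nat_lit 209) (nat_lit 1) (nat_lit 9) (nat_lit 11) L9919 (by decide +kernel)
theorem L9921 : W_24 (nat_lit 13) (nat_lit 0x1c000200000001000080000000000000000000000000000000) (nat_lit 0x0) (nat_lit 0x1f800fc007e0002001d800e0004000000000000000000000000000000000000) := Q_24 (nat_lit 193) (C_24 L9284 (C_24 L9032 (C_24 L9896 (C_24 L9905 (C_24 L9910 (C_24 L9920 N_24)))))) (by decide +kernel)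
theorem L9922 : W_24 (nat_lit 14) (nat_lit 0xc000200000001000080000000000000000000000000000000) (nat_lit 0x0) (nat_lit 0x1f800fc00fe0072007d800e0004000000000000000000000000000000000000) := Q_24 (nat_lit 196) (C_24 L5063 (C_24 L5071 (C_24 L5061 (C_24 L5062 (C_24 L9921 (C_24 L5194 N_24)))))) (by decide +kernel)
theorem L9923 : W_24 (nat_lit 10) (nat_lit 0x1c000200000001000080000000000000000000000000000000) (nat_lit 0x0) (nat_lit 0x38003c007f00030019c0000000000000000000000000000000000000000000) := Q_24 (nat_lit 193) (C_24 L9896 (C_24 L7805 (C_24 L9290 (C_24 L9287 N_24)))) (by decide +kernel)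
theorem L9924 : W_24 (nat_lit 11) (nat_lit 0xc000200000001000080000000000000000000000000000000) (nat_lit 0x0) (nat_lit 0x38003c00ff00738079c0000000000000000000000000000000000000000000) := Q_24 (nat_lit 196) (C_24 L5064 (C_24 L9277 (C_24 L5063 (C_24 L5061 (C_24 L5062 (C_24 L9923 N_24)))))) (by decide +kernel)
theorem L9925 : W_24 (nat_lit 5) (nat_lit 0x1c000200000001000080000000000000000000000000000000) (nat_lit 0x0) (nat_lit 0x700003001dc0060000000000000000000000000000000000000000) := Q_24 (nat_lit 193) (C_24 L9287 (C_24 L9032 (C_24 L7899 N_24))) (by decide +kernel)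
theorem L9926 : W_24 (nat_lit 7) (nat_lit 0xc000200000001000080000000000000000000000000000000) (nat_lit 0x0) (nat_lit 0xf00073003dc0060000000000000000000000000000000000000000) := Q_24 (nat_lit 196) (C_24 L5062 (C_24 L5085 (C_24 L5194 (C_24 L9925 N_24)))) (by decide +kernel)
theorem L9934 : W_24 (nat_lit 10) (nat_lit 0x1c000200000001000080000000000000000000000000000000) (nat_lit 0x0) (nat_lit 0x38003c007f00030005c0020000000000000000000000000000000000000000) := Q_24 (nat_lit 193) (C_24 L9290 (C_24 L9910 (C_24 L7805 (C_24 L9287 N_24)))) (by decide +kernel)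
theorem L9935 : W_24 (nat_lit 11) (nat_lit 0xc000200000001000080000000000000000000000000000000) (nat_lit 0x0) (nat_lit 0xb8007c00ff00730075c00a0000000000000000000000000000000000000000) := Q_24 (nat_lit 196) (C_24 L5063 (C_24 L9933 (C_24 L5061 (C_24 L5194 (C_24 L9934 N_24))))) (by decide +kernel)
theorem L9936 : W_24 (nat_lit 12) (nat_lit 0x1c000200000001000080000000000000000000000000000000) (nat_lit 0x0) (nat_lit 0xf8003c001f0003001dc00e0000000000000000000000000000000000000000) := Q_24 (nat_lit 193) (C_24 L9290 (C_24 L9920 (C_24 L7899 N_24))) (by decide +kernel)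
theorem L9937 : W_24 (nat_lit 13) (nat_lit 0xc000200000001000080000000000000000000000000000000) (nat_lit 0x0) (nat_lit 0x1f800bc00df0073007dc00e0000000000000000000000000000000000000000) := Q_24 (nat_lit 196) (C_24 L5061 (C_24 L5110 (C_24 L5194 (C_24 L9936 N_24)))) (by decide +kernel)
theorem L9938 : W_24 (nat_lit 17) (nat_lit 0x4000200000001000080000000000000000000000000000000) (nat_lit 0x0) (nat_lit 0xdf007f807fe01ff01ffc0fbe0fdf03e6014f00178000000000000000000000000000000) := Q_24 (nat_lit 195) (C_24 L9021 (C_24 L9034 (C_24 L9276 (C_24 L9292 (C_24 L9294 (C_24 L9891 (C_24 L9892 (C_24 L9922 (C_24 L9924 (C_24 L9926 (C_24 L9935 (C_24 L9937 N_24)))))))))))) (by decide +kernel)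
theorem L9939 : W_24 (nat_lit 2) (nat_lit 0x60007800240002001800080000000000000000000000000000000) (nat_lit 0x0) (nat_lit 0x8000400000000000080000000000000000000000000000000000000000000) := D_24 (nat_lit 226) (nat_lit 243) (nat_lit 175) (nat_lit 4) (nat_lit 5) (nat_lit 14) (nat_lit 4) (nat_lit 5) (nat_lit 13) (by decide +kernel)
theorem L9940 : W_24 (nat_lit 3) (nat_lit 0x60007800240000001800080000000000000000000000000000000) (nat_lit 0x0) (nat_lit 0x8000400000000000080002000100000000000000000000000000000000000) := T_24 (nat_lit 157) (nat_lit 140) (nat_lit 7) (nat_lit 4) (nat_lit 8) L9939 (by decide +kernel)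
theorem L9941 : W_24 (nat_lit 4) (nat_lit 0x60007800240000001000080000000000000000000000000000000) (nat_lit 0x0) (nat_lit 0x8000400000000000080012000900000000000000000000000000000000000) := T_24 (nat_lit 143) (nat_lit 160) (nat_lit 6) (nat_lit 7) (nat_lit 11) L9940 (by decide +kernel)
theorem L9942 : W_24 (nat_lit 5) (nat_lit 0x60007800200000001000080000000000000000000000000000000) (nat_lit 0x0) (nat_lit 0x80004000000000000e0012000900000000000000000000000000000000000) := T_24 (nat_lit 174) (nat_lit 173) (nat_lit 0) (nat_lit 7) (nat_lit 11) L9941 (by decide +kernel)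
theorem L9943 : W_24 (nat_lit 2) (nat_lit 0x40007800200000001000080000000000000000000000000000000) (nat_lit 0x0) (nat_lit 0x80000400100000000000000000000000000000000000000000000) := D_24 (nat_lit 190) (nat_lit 211) (nat_lit 176) (nat_lit 3) (nat_lit 3) (nat_lit 11) (nat_lit 2) (nat_lit 3) (nat_lit 11) (by decide +kernel)
theorem L9944 : W_24 (nat_lit 2) (nat_lit 0x40007800200000001000080000000000000000000000000000000) (nat_lit 0x0) (nat_lit 0x180000400000000000000000000000000000000000000000000000) := D_24 (nat_lit 211) (nat_lit 190) (nat_lit 212) (nat_lit 3) (nat_lit 3) (nat_lit 11) (nat_lit 3) (nat_lit 4) (nat_lit 11) (by decide +kernel)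
theorem L9945 : W_24 (nat_lit 2) (nat_lit 0x40007c00200000001000080000000000000000000000000000000) (nat_lit 0x0) (nat_lit 0x1c000000000000000000000000000000000000000000000000000) := D_24 (nat_lit 207) (nat_lit 206) (nat_lit 208) (nat_lit 1) (nat_lit 6) (nat_lit 11) (nat_lit 1) (nat_lit 7) (nat_lit 11) (by decide +kernel)
theorem L9946 : W_24 (nat_lit 3) (nat_lit 0x40007800200000001000080000000000000000000000000000000) (nat_lit 0x0) (nat_lit 0x1c000400100000000000000000000000000000000000000000000) := T_24 (nat_lit 190) (nat_lit 176) (nat_lit 2) (nat_lit 3) (nat_lit 11) L9945 (by decide +kernel)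
theorem L9947 : W_24 (nat_lit 4) (nat_lit 0x40007000200000001000080000000000000000000000000000000) (nat_lit 0x0) (nat_lit 0x1c000c00500000000000000000000000000000000000000000000) := T_24 (nat_lit 191) (nat_lit 178) (nat_lit 2) (nat_lit 4) (nat_lit 11) L9946 (by decide +kernel)
theorem L9949 : W_24 (nat_lit 2) (nat_lit 0x400060007000200000001000080000000000000000000000000000000) (nat_lit 0x0) (nat_lit 0x100008000000000000000100000000000000000000000000000000000000000000) := D_24 (nat_lit 243) (nat_lit 260) (nat_lit 176) (nat_lit 6) (nat_lit 5) (nat_lit 15) (nat_lit 6) (nat_lit 5) (nat_lit 14) (by decide +kernel)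
theorem L9950 : W_24 (nat_lit 2) (nat_lit 0x2002f0007000280000001000080000000000000000000000000000000) (nat_lit 0x0) (nat_lit 0x80004000400000000000000000000000000000000000000000000000000000000) := D_24 (nat_lit 242) (nat_lit 259) (nat_lit 226) (nat_lit 6) (nat_lit 4) (nat_lit 15) (nat_lit 5) (nat_lit 5) (nat_lit 10) (by decide +kernel)
theorem L9951 : W_24 (nat_lit 3) (nat_lit 0x2002f0007000200000001000080000000000000000000000000000000) (nat_lit 0x0) (nat_lit 0x80004000400000000000080004000000000000000000000000000000000000000) := T_24 (nat_lit 175) (nat_lit 158) (nat_lit 5) (nat_lit 5) (nat_lit 9) L9950 (by decide +kernel)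
theorem L9952 : W_24 (nat_lit 4) (nat_lit 0x2f0007000200000001000080000000000000000000000000000000) (nat_lit 0x0) (nat_lit 0x80004000700000000000080004000000000000000000000000000000000000000) := T_24 (nat_lit 225) (nat_lit 224) (nat_lit 1) (nat_lit 7) (nat_lit 12) L9951 (by decide +kernel)
theorem L9953 : W_24 (nat_lit 5) (nat_lit 0x2e0007000200000001000080000000000000000000000000000000) (nat_lit 0x0) (nat_lit 0x80004000700018000000080004000000000000000000000000000000000000000) := T_24 (nat_lit 208) (nat_lit 207) (nat_lit 2) (nat_lit 3) (nat_lit 12) L9952 (by decide +kernel)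
theorem L9954 : W_24 (nat_lit 6) (nat_lit 0xe0007000200000001000080000000000000000000000000000000) (nat_lit 0x0) (nat_lit 0x80004000700318000000080004000000000000000000000000000000000000000) := T_24 (nat_lit 213) (nat_lit 212) (nat_lit 0) (nat_lit 9) (nat_lit 12) L9953 (by decide +kernel)
theorem L9955 : W_24 (nat_lit 2) (nat_lit 0x20001e0007000200000001000080000000000000000000000000000000) (nat_lit 0x0) (nat_lit 0x800040001000000000000000000000000000000000000000000000000000000000) := D_24 (nat_lit 246) (nat_lit 263) (nat_lit 228) (nat_lit 4) (nat_lit 8) (nat_lit 15) (nat_lit 7) (nat_lit 7) (nat_lit 10) (by decide +kernel)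
theorem L9956 : W_24 (nat_lit 3) (nat_lit 0x1e0007000200000001000080000000000000000000000000000000) (nat_lit 0x0) (nat_lit 0x800040007000000000000000000000000000000000000000000000000000000000) := T_24 (nat_lit 229) (nat_lit 230) (nat_lit 3) (nat_lit 5) (nat_lit 12) L9955 (by decide +kernel)
theorem L9957 : W_24 (nat_lit 4) (nat_lit 0xe0007000200000001000080000000000000000000000000000000) (nat_lit 0x0) (nat_lit 0x800040007000300000000000000000000000000000000000000000000000000000) := T_24 (nat_lit 212) (nat_lit 213) (nat_lit 0) (nat_lit 9) (nat_lit 12) L9956 (by decide +kernel)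
theorem L9958 : W_24 (nat_lit 2) (nat_lit 0x100012000f0007000200000001000080000000000000000000000000000000) (nat_lit 0x0) (nat_lit 0x600020000000000000000000000000000000000000000000000000000000000000) := D_24 (nat_lit 245) (nat_lit 262) (nat_lit 261) (nat_lit 4) (nat_lit 7) (nat_lit 15) (nat_lit 5) (nat_lit 7) (nat_lit 11) (by decide +kernel)
theorem L9959 : W_24 (nat_lit 3) (nat_lit 0x100002000f0007000200000001000080000000000000000000000000000000) (nat_lit 0x0) (nat_lit 0x600020003000000000000000000000000000000000000000000000000000000000) := T_24 (nat_lit 228) (nat_lit 229) (nat_lit 3) (nat_lit 4) (nat_lit 12) L9958 (by decide +kernel)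
theorem L9960 : W_24 (nat_lit 4) (nat_lit 0x100000000f0007000200000001000080000000000000000000000000000000) (nat_lit 0x0) (nat_lit 0x600020003300000000000000000000000000000000000000000000000000000000) := T_24 (nat_lit 225) (nat_lit 224) (nat_lit 1) (nat_lit 7) (nat_lit 12) L9959 (by decide +kernel)
theorem L9961 : W_24 (nat_lit 5) (nat_lit 0xf0007000200000001000080000000000000000000000000000000) (nat_lit 0x0) (nat_lit 0x600030003b00000000000000000000000000000000000000000000000000000000) := T_24 (nat_lit 244) (nat_lit 227) (nat_lit 6) (nat_lit 6) (nat_lit 14) L9960 (by decide +kernel)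
theorem L9962 : W_24 (nat_lit 6) (nat_lit 0xe0007000200000001000080000000000000000000000000000000) (nat_lit 0x0) (nat_lit 0x600030003b00018000000000000000000000000000000000000000000000000000) := T_24 (nat_lit 208) (nat_lit 207) (nat_lit 2) (nat_lit 3) (nat_lit 12) L9961 (by decide +kernel)
theorem L9963 : W_24 (nat_lit 7) (nat_lit 0x60007000200000001000080000000000000000000000000000000) (nat_lit 0x0) (nat_lit 0xe80074007f00398000000080004000000000000000000000000000000000000000) := Q_24 (nat_lit 211) (C_24 L9957 (C_24 L9962 (C_24 L9954 N_24))) (by decide +kernel)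
theorem L9964 : W_24 (nat_lit 2) (nat_lit 0xe00060007000280000001000080000000000000000000000000000000) (nat_lit 0x0) (nat_lit 0x180080000000000000000000000000000000000000000000000000000) := D_24 (nat_lit 224) (nat_lit 211) (nat_lit 223) (nat_lit 2) (nat_lit 3) (nat_lit 13) (nat_lit 2) (nat_lit 2) (nat_lit 13) (by decide +kernel)
theorem L9965 : W_24 (nat_lit 3) (nat_lit 0xc00060007000280000001000080000000000000000000000000000000) (nat_lit 0x0) (nat_lit 0x4000380080000000000000000000000000000000000000000000000000000) := T_24 (nat_lit 225) (nat_lit 242) (nat_lit 5) (nat_lit 5) (nat_lit 10) L9964 (by decide +kernel)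
theorem L9966 : W_24 (nat_lit 4) (nat_lit 0xc00060007000200000001000080000000000000000000000000000000) (nat_lit 0x0) (nat_lit 0x4000380080000000080004000000000000000000000000000000000000000) := T_24 (nat_lit 175) (nat_lit 158) (nat_lit 7) (nat_lit 5) (nat_lit 9) L9965 (by decide +kernel)
theorem L9967 : W_24 (nat_lit 5) (nat_lit 0x400060007000200000001000080000000000000000000000000000000) (nat_lit 0x0) (nat_lit 0x14000b80080000000080004000000000000000000000000000000000000000) := T_24 (nat_lit 227) (nat_lit 244) (nat_lit 6) (nat_lit 6) (nat_lit 14) L9966 (by decide +kernel)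
theorem L9968 : W_24 (nat_lit 6) (nat_lit 0x60007000200000001000080000000000000000000000000000000) (nat_lit 0x0) (nat_lit 0x10001c000f80080000000180004000000000000000000000000000000000000000) := Q_24 (nat_lit 226) (C_24 L9949 (C_24 L9967 N_24)) (by decide +kernel)
theorem L9969 : W_24 (nat_lit 2) (nat_lit 0x30000e0007000200000001000080000000000000000000000000000000) (nat_lit 0x0) (nat_lit 0xc000100000000000000000000000000000000000000000000000000000) := D_24 (nat_lit 230) (nat_lit 231) (nat_lit 212) (nat_lit 0) (nat_lit 10) (nat_lit 13) (nat_lit 3) (nat_lit 5) (nat_lit 12) (by decide +kernel)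
theorem L9970 : W_24 (nat_lit 3) (nat_lit 0x30000c0007000200000001000080000000000000000000000000000000) (nat_lit 0x0) (nat_lit 0xc000130000000000000000000000000000000000000000000000000000) := T_24 (nat_lit 209) (nat_lit 208) (nat_lit 3) (nat_lit 4) (nat_lit 12) L9969 (by decide +kernel)
theorem L9971 : W_24 (nat_lit 4) (nat_lit 0x10000c0007000200000001000080000000000000000000000000000000) (nat_lit 0x0) (nat_lit 0x4000e000130000000000000000000000000000000000000000000000000000) := T_24 (nat_lit 229) (nat_lit 246) (nat_lit 7) (nat_lit 7) (nat_lit 10) L9970 (by decide +kernel)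
theorem L9972 : W_24 (nat_lit 2) (nat_lit 0x38000c0007000200000001000080000000000000000000000000000000) (nat_lit 0x0) (nat_lit 0x4000030000000000000000000000000000000000000000000000000000) := D_24 (nat_lit 209) (nat_lit 208) (nat_lit 230) (nat_lit 3) (nat_lit 4) (nat_lit 12) (nat_lit 0) (nat_lit 9) (nat_lit 13) (by decide +kernel)
theorem L9973 : W_24 (nat_lit 3) (nat_lit 0x18000c0007000200000001000080000000000000000000000000000000) (nat_lit 0x0) (nat_lit 0x40006000030000000000000000000000000000000000000000000000000000) := T_24 (nat_lit 229) (nat_lit 246) (nat_lit 7) (nat_lit 7) (nat_lit 10) L9972 (by decide +kernel)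
theorem L9974 : W_24 (nat_lit 4) (nat_lit 0x10000c0007000200000001000080000000000000000000000000000000) (nat_lit 0x0) (nat_lit 0x50006800030000000000000000000000000000000000000000000000000000) := T_24 (nat_lit 227) (nat_lit 244) (nat_lit 6) (nat_lit 6) (nat_lit 14) L9973 (by decide +kernel)
theorem L9980 : W_24 (nat_lit 7) (nat_lit 0x18000c0007000200000001000080000000000000000000000000000000) (nat_lit 0x0) (nat_lit 0x80006003200000001e0007000000000000000000000000000000000000000) := T_24 (nat_lit 212) (nat_lit 213) (nat_lit 0) (nat_lit 9) (nat_lit 12) L9979 (by decide +kernel)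
theorem L9981 : W_24 (nat_lit 8) (nat_lit 0x10000c0007000200000001000080000000000000000000000000000000) (nat_lit 0x0) (nat_lit 0x18000e003200000001e0007000000000000000000000000000000000000000) := T_24 (nat_lit 227) (nat_lit 244) (nat_lit 6) (nat_lit 6) (nat_lit 14) L9980 (by decide +kernel)
theorem L9982 : W_24 (nat_lit 2) (nat_lit 0x38002c0007000200000001000080000000000000000000000000000000) (nat_lit 0x0) (nat_lit 0xc000400000000000000000000000000000000000000000000000000000) := D_24 (nat_lit 230) (nat_lit 214) (nat_lit 231) (nat_lit 2) (nat_lit 6) (nat_lit 13) (nat_lit 0) (nat_lit 10) (nat_lit 13) (by decide +kernel)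
theorem L9983 : W_24 (nat_lit 3) (nat_lit 0x18002c0007000200000001000080000000000000000000000000000000) (nat_lit 0x0) (nat_lit 0x4000e000400000000000000000000000000000000000000000000000000000) := T_24 (nat_lit 229) (nat_lit 246) (nat_lit 7) (nat_lit 7) (nat_lit 10) L9982 (by decide +kernel)
theorem L9984 : W_24 (nat_lit 4) (nat_lit 0x10002c0007000200000001000080000000000000000000000000000000) (nat_lit 0x0) (nat_lit 0x5000e800400000000000000000000000000000000000000000000000000000) := T_24 (nat_lit 227) (nat_lit 244) (nat_lit 6) (nat_lit 6) (nat_lit 14) L9983 (by decide +kernel)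
theorem L9985 : W_24 (nat_lit 5) (nat_lit 0x10000c0007000200000001000080000000000000000000000000000000) (nat_lit 0x0) (nat_lit 0x5000e800700000000000000000000000000000000000000000000000000000) := T_24 (nat_lit 213) (nat_lit 212) (nat_lit 0) (nat_lit 9) (nat_lit 12) L9984 (by decide +kernel)
theorem L9986 : W_24 (nat_lit 9) (nat_lit 0x1000080007000200000001000080000000000000000000000000000000) (nat_lit 0x0) (nat_lit 0x5800ee007700000001e0007000000000000000000000000000000000000000) := Q_24 (nat_lit 210) (C_24 L9985 (C_24 L9974 (C_24 L9981 (C_24 L9971 N_24)))) (by decide +kernel)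
theorem L9987 : W_24 (nat_lit 2) (nat_lit 0x20001000080007000200000001000080000000000000000000000000000000) (nat_lit 0x0) (nat_lit 0x800040002000000000000000000000000000000000000000000000000000000000) := D_24 (nat_lit 246) (nat_lit 229) (nat_lit 263) (nat_lit 7) (nat_lit 7) (nat_lit 10) (nat_lit 7) (nat_lit 7) (nat_lit 11) (by decide +kernel)
theorem L9988 : W_24 (nat_lit 3) (nat_lit 0x1000080007000200000001000080000000000000000000000000000000) (nat_lit 0x0) (nat_lit 0x800060002000000000000100000000000000000000000000000000000000000000) := T_24 (nat_lit 245) (nat_lit 176) (nat_lit 4) (nat_lit 7) (nat_lit 14) L9987 (by decide +kernel)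
theorem L9989 : W_24 (nat_lit 2) (nat_lit 0x340070000c0007000200000001000080000000000000000000000000000000) (nat_lit 0x0) (nat_lit 0x320000000000000000000000000000000000000000000000000000) := D_24 (nat_lit 212) (nat_lit 213) (nat_lit 209) (nat_lit 0) (nat_lit 9) (nat_lit 12) (nat_lit 3) (nat_lit 5) (nat_lit 12) (by decide +kernel)
theorem L9990 : W_24 (nat_lit 3) (nat_lit 0x340030000c0007000200000001000080000000000000000000000000000000) (nat_lit 0x0) (nat_lit 0xc000320000000000000000000000000000000000000000000000000000) := T_24 (nat_lit 230) (nat_lit 231) (nat_lit 1) (nat_lit 10) (nat_lit 13) L9989 (by decide +kernel)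
theorem L9991 : W_24 (nat_lit 4) (nat_lit 0x300030000c0007000200000001000080000000000000000000000000000000) (nat_lit 0x0) (nat_lit 0xc00c000320000000000000000000000000000000000000000000000000000) := T_24 (nat_lit 242) (nat_lit 243) (nat_lit 2) (nat_lit 4) (nat_lit 14) L9990 (by decide +kernel)
theorem L9992 : W_24 (nat_lit 5) (nat_lit 0x30003000080007000200000001000080000000000000000000000000000000) (nat_lit 0x0) (nat_lit 0x40000c00c000360000000000000000000000000000000000000000000000000000) := T_24 (nat_lit 210) (nat_lit 262) (nat_lit 4) (nat_lit 7) (nat_lit 15) L9991 (by decide +kernel)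
theorem L9993 : W_24 (nat_lit 6) (nat_lit 0x10003000080007000200000001000080000000000000000000000000000000) (nat_lit 0x0) (nat_lit 0x60002c00c000360000000000000000000000000000000000000000000000000000) := T_24 (nat_lit 245) (nat_lit 261) (nat_lit 5) (nat_lit 7) (nat_lit 11) L9992 (by decide +kernel)
theorem L9994 : W_24 (nat_lit 7) (nat_lit 0x3000080007000200000001000080000000000000000000000000000000) (nat_lit 0x0) (nat_lit 0x60003c00c800360000000000000000000000000000000000000000000000000000) := T_24 (nat_lit 244) (nat_lit 227) (nat_lit 5) (nat_lit 7) (nat_lit 10) L9993 (by decide +kernel)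
theorem L9995 : W_24 (nat_lit 8) (nat_lit 0x1000080007000200000001000080000000000000000000000000000000) (nat_lit 0x0) (nat_lit 0x60007c00e800360000000000000000000000000000000000000000000000000000) := T_24 (nat_lit 229) (nat_lit 246) (nat_lit 7) (nat_lit 7) (nat_lit 10) L9994 (by decide +kernel)
theorem L9996 : W_24 (nat_lit 2) (nat_lit 0x400020001800080007000200000001000080000000000000000000000000000000) (nat_lit 0x0) (nat_lit 0x10000800040000000000000000000000000000000000000000000000000000000000000) := D_24 (nat_lit 263) (nat_lit 246) (nat_lit 280) (nat_lit 7) (nat_lit 7) (nat_lit 11) (nat_lit 7) (nat_lit 7) (nat_lit 12) (by decide +kernel)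
theorem L9997 : W_24 (nat_lit 3) (nat_lit 0x20001800080007000200000001000080000000000000000000000000000000) (nat_lit 0x0) (nat_lit 0x10000c00040000000040000000000000000000000000000000000000000000000000000) := T_24 (nat_lit 262) (nat_lit 210) (nat_lit 4) (nat_lit 7) (nat_lit 15) L9996 (by decide +kernel)
theorem L9998 : W_24 (nat_lit 4) (nat_lit 0x1800080007000200000001000080000000000000000000000000000000) (nat_lit 0x0) (nat_lit 0x10000c00060000000040000000100000000000000000000000000000000000000000000) := T_24 (nat_lit 245) (nat_lit 176) (nat_lit 4) (nat_lit 7) (nat_lit 14) L9997 (by decide +kernel)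
theorem L9999 : W_24 (nat_lit 5) (nat_lit 0x1000080007000200000001000080000000000000000000000000000000) (nat_lit 0x0) (nat_lit 0x10000c00070000800040000000100000000000000000000000000000000000000000000) := T_24 (nat_lit 227) (nat_lit 244) (nat_lit 5) (nat_lit 7) (nat_lit 10) L9998 (by decide +kernel)
theorem L10000 : W_24 (nat_lit 2) (nat_lit 0x20001000080007000200000001000080000000000000000000000000000000) (nat_lit 0x0) (nat_lit 0x200010000800000000000000000000000000000000000000000000000000000000) := D_24 (nat_lit 244) (nat_lit 227) (nat_lit 261) (nat_lit 5) (nat_lit 7) (nat_lit 10) (nat_lit 5) (nat_lit 7) (nat_lit 11) (by decide +kernel)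
theorem L10001 : W_24 (nat_lit 3) (nat_lit 0x1000080007000200000001000080000000000000000000000000000000) (nat_lit 0x0) (nat_lit 0x200030000800000000000100000000000000000000000000000000000000000000) := T_24 (nat_lit 245) (nat_lit 176) (nat_lit 4) (nat_lit 7) (nat_lit 14) L10000 (by decide +kernel)
theorem L10002 : W_24 (nat_lit 10) (nat_lit 0x80007000200000001000080000000000000000000000000000000) (nat_lit 0x0) (nat_lit 0x10000e0007c00fe007700000001e0007000000000000000000000000000000000000000) := Q_24 (nat_lit 228) (C_24 L9986 (C_24 L9988 (C_24 L9995 (C_24 L9999 (C_24 L10001 N_24))))) (by decide +kernel)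
theorem L10005 : W_24 (nat_lit 2) (nat_lit 0x20001800080007000200010001000080000000000000000000000000000000) (nat_lit 0x0) (nat_lit 0x800040002000000000000000000000000000000000000000000000000000000000) := D_24 (nat_lit 246) (nat_lit 229) (nat_lit 263) (nat_lit 7) (nat_lit 7) (nat_lit 10) (nat_lit 7) (nat_lit 7) (nat_lit 11) (by decide +kernel)
theorem L10006 : W_24 (nat_lit 3) (nat_lit 0x1800080007000200010001000080000000000000000000000000000000) (nat_lit 0x0) (nat_lit 0x800060002000000000000100000000000000000000000000000000000000000000) := T_24 (nat_lit 245) (nat_lit 176) (nat_lit 4) (nat_lit 7) (nat_lit 14) L10005 (by decide +kernel)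
theorem L10007 : W_24 (nat_lit 4) (nat_lit 0x800080007000200010001000080000000000000000000000000000000) (nat_lit 0x0) (nat_lit 0x800070003000000000000100000000000000000000000000000000000000000000) := T_24 (nat_lit 228) (nat_lit 244) (nat_lit 5) (nat_lit 7) (nat_lit 10) L10006 (by decide +kernel)
theorem L10008 : W_24 (nat_lit 5) (nat_lit 0x80007000200010001000080000000000000000000000000000000) (nat_lit 0x0) (nat_lit 0x800070003800040000000100000000000000000000000000000000000000000000) := T_24 (nat_lit 227) (nat_lit 210) (nat_lit 5) (nat_lit 7) (nat_lit 9) L10007 (by decide +kernel)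
theorem L10009 : W_24 (nat_lit 6) (nat_lit 0x80007000200000001000080000000000000000000000000000000) (nat_lit 0x0) (nat_lit 0x800070003800040000000100010000800000000000000000000000000000000000) := T_24 (nat_lit 160) (nat_lit 143) (nat_lit 6) (nat_lit 7) (nat_lit 11) L10008 (by decide +kernel)
theorem L10010 : W_24 (nat_lit 2) (nat_lit 0x10003000080007000200010001000080000000000000000000000000000000) (nat_lit 0x0) (nat_lit 0x200020000000000000000100000000000000000000000000000000000000000000) := D_24 (nat_lit 245) (nat_lit 176) (nat_lit 261) (nat_lit 4) (nat_lit 7) (nat_lit 14) (nat_lit 5) (nat_lit 7) (nat_lit 11) (by decide +kernel)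
theorem L10011 : W_24 (nat_lit 3) (nat_lit 0x3000080007000200010001000080000000000000000000000000000000) (nat_lit 0x0) (nat_lit 0x200030000800000000000100000000000000000000000000000000000000000000) := T_24 (nat_lit 244) (nat_lit 227) (nat_lit 5) (nat_lit 7) (nat_lit 10) L10010 (by decide +kernel)
theorem L10012 : W_24 (nat_lit 4) (nat_lit 0x2000080007000200010001000080000000000000000000000000000000) (nat_lit 0x0) (nat_lit 0x200070001800000000000100000000000000000000000000000000000000000000) := T_24 (nat_lit 228) (nat_lit 246) (nat_lit 7) (nat_lit 7) (nat_lit 10) L10011 (by decide +kernel)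
theorem L10013 : W_24 (nat_lit 5) (nat_lit 0x80007000200010001000080000000000000000000000000000000) (nat_lit 0x0) (nat_lit 0x200070003800100000000100000000000000000000000000000000000000000000) := T_24 (nat_lit 229) (nat_lit 212) (nat_lit 7) (nat_lit 7) (nat_lit 9) L10012 (by decide +kernel)
theorem L10014 : W_24 (nat_lit 6) (nat_lit 0x80007000200000001000080000000000000000000000000000000) (nat_lit 0x0) (nat_lit 0x200070003800100000000100010000800000000000000000000000000000000000) := T_24 (nat_lit 160) (nat_lit 143) (nat_lit 6) (nat_lit 7) (nat_lit 11) L10013 (by decide +kernel)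
theorem L10015 : W_24 (nat_lit 2) (nat_lit 0x400020001000080007000200010001000080000000000000000000000000000000) (nat_lit 0x0) (nat_lit 0x10000800040000000000000000000000000000000000000000000000000000000000000) := D_24 (nat_lit 263) (nat_lit 246) (nat_lit 280) (nat_lit 7) (nat_lit 7) (nat_lit 11) (nat_lit 7) (nat_lit 7) (nat_lit 12) (by decide +kernel)
theorem L10016 : W_24 (nat_lit 3) (nat_lit 0x20001000080007000200010001000080000000000000000000000000000000) (nat_lit 0x0) (nat_lit 0x10000c00040000000040000000000000000000000000000000000000000000000000000) := T_24 (nat_lit 262) (nat_lit 210) (nat_lit 4) (nat_lit 7) (nat_lit 15) L10015 (by decide +kernel)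
theorem L10017 : W_24 (nat_lit 4) (nat_lit 0x1000080007000200010001000080000000000000000000000000000000) (nat_lit 0x0) (nat_lit 0x10000c00060000000040000000100000000000000000000000000000000000000000000) := T_24 (nat_lit 245) (nat_lit 176) (nat_lit 4) (nat_lit 7) (nat_lit 14) L10016 (by decide +kernel)
theorem L10018 : W_24 (nat_lit 5) (nat_lit 0x1000080007000200000001000080000000000000000000000000000000) (nat_lit 0x0) (nat_lit 0x10000c00060000000040000000100010000800000000000000000000000000000000000) := T_24 (nat_lit 160) (nat_lit 143) (nat_lit 6) (nat_lit 7) (nat_lit 11) L10017 (by decide +kernel)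
theorem L10019 : W_24 (nat_lit 2) (nat_lit 0x1800080007000200000001000080000000000000000000000000000000) (nat_lit 0x0) (nat_lit 0x40000000000010000800000000000000000000000000000000000) := D_24 (nat_lit 160) (nat_lit 210) (nat_lit 143) (nat_lit 5) (nat_lit 7) (nat_lit 9) (nat_lit 6) (nat_lit 7) (nat_lit 11) (by decide +kernel)
theorem L10020 : W_24 (nat_lit 3) (nat_lit 0x1000080007000200000001000080000000000000000000000000000000) (nat_lit 0x0) (nat_lit 0x10000800040000000000010000800000000000000000000000000000000000) := T_24 (nat_lit 227) (nat_lit 244) (nat_lit 5) (nat_lit 7) (nat_lit 10) L10019 (by decide +kernel)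
theorem L10021 : W_24 (nat_lit 6) (nat_lit 0x80007000200000001000080000000000000000000000000000000) (nat_lit 0x0) (nat_lit 0x10000e00070001800040000000100010000800000000000000000000000000000000000) := Q_24 (nat_lit 228) (C_24 L10018 (C_24 L10020 (C_24 L10001 N_24))) (by decide +kernel)
theorem L10022 : W_24 (nat_lit 2) (nat_lit 0x180007000200010001000080000000000000000000000000000000) (nat_lit 0x0) (nat_lit 0x640000000000000000000000000000000000000000000000000000) := D_24 (nat_lit 213) (nat_lit 214) (nat_lit 210) (nat_lit 0) (nat_lit 10) (nat_lit 12) (nat_lit 0) (nat_lit 9) (nat_lit 12) (by decide +kernel)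
theorem L10023 : W_24 (nat_lit 3) (nat_lit 0x80007000200010001000080000000000000000000000000000000) (nat_lit 0x0) (nat_lit 0x2000740000000000000000000000000000000000000000000000000000) := T_24 (nat_lit 212) (nat_lit 229) (nat_lit 7) (nat_lit 7) (nat_lit 9) L10022 (by decide +kernel)
theorem L10024 : W_24 (nat_lit 4) (nat_lit 0x80007000200000001000080000000000000000000000000000000) (nat_lit 0x0) (nat_lit 0x2000740000000000010000800000000000000000000000000000000000) := T_24 (nat_lit 160) (nat_lit 143) (nat_lit 6) (nat_lit 7) (nat_lit 11) L10023 (by decide +kernel)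
theorem L10025 : W_24 (nat_lit 11) (nat_lit 0x7000200000001000080000000000000000000000000000000) (nat_lit 0x0) (nat_lit 0x10000e0007c00fe007f00000001e0017000800000000000000000000000000000000000) := Q_24 (nat_lit 211) (C_24 L10002 (C_24 L10004 (C_24 L10009 (C_24 L10014 (C_24 L10021 (C_24 L10024 N_24)))))) (by decide +kernel)
theorem L10038 : W_24 (nat_lit 12) (nat_lit 0x6000200000001000080000000000000000000000000000000) (nat_lit 0x0) (nat_lit 0x10000e0007c00fe007fc001c005f0017000800000000000000000000000000000000000) := Q_24 (nat_lit 192) (C_24 L10025 (C_24 L10029 (C_24 L10034 (C_24 L10037 N_24)))) (by decide +kernel)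
theorem L10045 : W_24 (nat_lit 6) (nat_lit 0x7000200000001000080000000000000000000000000000000) (nat_lit 0x0) (nat_lit 0x1fc008c001f0000000000000000000000000000000000000000000) := Q_24 (nat_lit 191) (C_24 L10036 (C_24 L10033 (C_24 L10040 (C_24 L10044 N_24)))) (by decide +kernel)
theorem L10046 : W_24 (nat_lit 2) (nat_lit 0x10000f000680000001000080000000000000000000000000000000) (nat_lit 0x0) (nat_lit 0x40002000000000000000010000000000000000000000000000000000000000) := D_24 (nat_lit 229) (nat_lit 160) (nat_lit 246) (nat_lit 4) (nat_lit 8) (nat_lit 13) (nat_lit 4) (nat_lit 8) (nat_lit 14) (by decide +kernel)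
theorem L10047 : W_24 (nat_lit 3) (nat_lit 0x10000f000280000001000080000000000000000000000000000000) (nat_lit 0x0) (nat_lit 0x40002000000000000c00010000000000000000000000000000000000000000) := T_24 (nat_lit 178) (nat_lit 179) (nat_lit 2) (nat_lit 5) (nat_lit 11) L10046 (by decide +kernel)
theorem L10048 : W_24 (nat_lit 4) (nat_lit 0xf000280000001000080000000000000000000000000000000) (nat_lit 0x0) (nat_lit 0x40002000300000000c00010000000000000000000000000000000000000000) := T_24 (nat_lit 212) (nat_lit 213) (nat_lit 3) (nat_lit 5) (nat_lit 11) L10047 (by decide +kernel)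
theorem L10049 : W_24 (nat_lit 5) (nat_lit 0xf000200000001000080000000000000000000000000000000) (nat_lit 0x0) (nat_lit 0x40002000300000000cc0010000000000000000000000000000000000000000) := T_24 (nat_lit 175) (nat_lit 174) (nat_lit 0) (nat_lit 8) (nat_lit 11) L10048 (by decide +kernel)
theorem L10050 : W_24 (nat_lit 2) (nat_lit 0x2000f000680000001000080000000000000000000000000000000) (nat_lit 0x0) (nat_lit 0x40010000100000000000000000000000000000000000000000000) := D_24 (nat_lit 196) (nat_lit 176) (nat_lit 210) (nat_lit 3) (nat_lit 5) (nat_lit 10) (nat_lit 1) (nat_lit 9) (nat_lit 11) (by decide +kernel)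
theorem L10051 : W_24 (nat_lit 3) (nat_lit 0xf000680000001000080000000000000000000000000000000) (nat_lit 0x0) (nat_lit 0x70010000100000000000000000000000000000000000000000000) := T_24 (nat_lit 209) (nat_lit 208) (nat_lit 1) (nat_lit 8) (nat_lit 11) L10050 (by decide +kernel)
theorem L10052 : W_24 (nat_lit 4) (nat_lit 0xf000600000001000080000000000000000000000000000000) (nat_lit 0x0) (nat_lit 0x700100001c0000000000000000000000000000000000000000000) := T_24 (nat_lit 175) (nat_lit 174) (nat_lit 0) (nat_lit 8) (nat_lit 11) L10051 (by decide +kernel)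
theorem L10053 : W_24 (nat_lit 5) (nat_lit 0xf000200000001000080000000000000000000000000000000) (nat_lit 0x0) (nat_lit 0x70010000dc0000000000000000000000000000000000000000000) := T_24 (nat_lit 178) (nat_lit 179) (nat_lit 2) (nat_lit 5) (nat_lit 11) L10052 (by decide +kernel)
theorem L10058 : W_24 (nat_lit 10) (nat_lit 0x7000200000001000080000000000000000000000000000000) (nat_lit 0x0) (nat_lit 0x100058006e003f0078000dc0014000200000000000000000000000000000000000) := Q_24 (nat_lit 195) (C_24 L9000 (C_24 L10049 (C_24 L10053 (C_24 L10057 N_24)))) (by decide +kernel)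
theorem L10060 : W_24 (nat_lit 11) (nat_lit 0x6000200000001000080000000000000000000000000000000) (nat_lit 0x0) (nat_lit 0x100058006e003fc079c00df0014000200000000000000000000000000000000000) := Q_24 (nat_lit 192) (C_24 L10045 (C_24 L10034 (C_24 L10037 (C_24 L10058 (C_24 L10059 N_24))))) (by decide +kernel)
theorem L10065 : W_24 (nat_lit 2) (nat_lit 0x16000f000280010001000080000000000000000000000000000000) (nat_lit 0x0) (nat_lit 0x2000080000800000000000000000000000000000000000000000000000) := D_24 (nat_lit 211) (nat_lit 191) (nat_lit 229) (nat_lit 3) (nat_lit 4) (nat_lit 11) (nat_lit 7) (nat_lit 7) (nat_lit 9) (by decide +kernel)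
theorem L10066 : W_24 (nat_lit 3) (nat_lit 0x6000f000280010001000080000000000000000000000000000000) (nat_lit 0x0) (nat_lit 0x2000380000800000000000000000000000000000000000000000000000) := T_24 (nat_lit 212) (nat_lit 213) (nat_lit 3) (nat_lit 5) (nat_lit 11) L10065 (by decide +kernel)
theorem L10067 : W_24 (nat_lit 4) (nat_lit 0x6000f000200010001000080000000000000000000000000000000) (nat_lit 0x0) (nat_lit 0x20003800008000c0000000000000000000000000000000000000000000) := T_24 (nat_lit 175) (nat_lit 174) (nat_lit 0) (nat_lit 8) (nat_lit 11) L10066 (by decide +kernel)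
theorem L10068 : W_24 (nat_lit 5) (nat_lit 0x4000f000200010001000080000000000000000000000000000000) (nat_lit 0x0) (nat_lit 0x20003b00008000c0000000000000000000000000000000000000000000) := T_24 (nat_lit 209) (nat_lit 208) (nat_lit 1) (nat_lit 8) (nat_lit 11) L10067 (by decide +kernel)
theorem L10069 : W_24 (nat_lit 6) (nat_lit 0x4000f000200000001000080000000000000000000000000000000) (nat_lit 0x0) (nat_lit 0x20003b00008000c0010000800000000000000000000000000000000000) := T_24 (nat_lit 160) (nat_lit 143) (nat_lit 6) (nat_lit 7) (nat_lit 11) L10068 (by decide +kernel)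
theorem L10070 : W_24 (nat_lit 2) (nat_lit 0x4000000016000f000680000001f00080000000000000000000000000000000) (nat_lit 0x0) (nat_lit 0x1c000000000000000000000000000000) := D_24 (nat_lit 123) (nat_lit 124) (nat_lit 122) (nat_lit 0) (nat_lit 8) (nat_lit 8) (nat_lit 0) (nat_lit 7) (nat_lit 8) (by decide +kernel)
theorem L10071 : W_24 (nat_lit 3) (nat_lit 0x4000000016000f000680000001e00080000000000000000000000000000000) (nat_lit 0x0) (nat_lit 0x10005c000000000000000000000000000000) := T_24 (nat_lit 140) (nat_lit 126) (nat_lit 2) (nat_lit 4) (nat_lit 8) L10070 (by decide +kernel)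
theorem L10072 : W_24 (nat_lit 4) (nat_lit 0x4000000016000f000680000001a00080000000000000000000000000000000) (nat_lit 0x0) (nat_lit 0x50015c000000000000000000000000000000) := T_24 (nat_lit 142) (nat_lit 128) (nat_lit 2) (nat_lit 5) (nat_lit 8) L10071 (by decide +kernel)
theorem L10073 : W_24 (nat_lit 5) (nat_lit 0x4000000016000f000680000001800080000000000000000000000000000000) (nat_lit 0x0) (nat_lit 0x400070015c000000000000000000000000000000) := T_24 (nat_lit 141) (nat_lit 158) (nat_lit 7) (nat_lit 5) (nat_lit 8) L10072 (by decide +kernel)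
theorem L10074 : W_24 (nat_lit 6) (nat_lit 0x4000000016000f000600000001800080000000000000000000000000000000) (nat_lit 0x0) (nat_lit 0xc000400070015c000000000000000000000000000000) := T_24 (nat_lit 175) (nat_lit 174) (nat_lit 0) (nat_lit 8) (nat_lit 11) L10073 (by decide +kernel)
theorem L10075 : W_24 (nat_lit 7) (nat_lit 0x4000000014000f000600000001800080000000000000000000000000000000) (nat_lit 0x0) (nat_lit 0x300000000c000400070015c000000000000000000000000000000) := T_24 (nat_lit 209) (nat_lit 208) (nat_lit 1) (nat_lit 8) (nat_lit 11) L10074 (by decide +kernel)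
theorem L10076 : W_24 (nat_lit 8) (nat_lit 0x4000000014000f000200000001800080000000000000000000000000000000) (nat_lit 0x0) (nat_lit 0x30000000cc000400070015c000000000000000000000000000000) := T_24 (nat_lit 178) (nat_lit 179) (nat_lit 2) (nat_lit 5) (nat_lit 11) L10075 (by decide +kernel)
theorem L10077 : W_24 (nat_lit 9) (nat_lit 0x14000f000200000001800080000000000000000000000000000000) (nat_lit 0x0) (nat_lit 0x40002000030000000cc000400070015c000000000000000000000000000000) := T_24 (nat_lit 246) (nat_lit 229) (nat_lit 4) (nat_lit 8) (nat_lit 14) L10076 (by decide +kernel)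
theorem L10078 : W_24 (nat_lit 10) (nat_lit 0x14000f000200000001000080000000000000000000000000000000) (nat_lit 0x0) (nat_lit 0x40002000030000000cc0014000f0015c000000000000000000000000000000) := T_24 (nat_lit 143) (nat_lit 160) (nat_lit 7) (nat_lit 7) (nat_lit 8) L10077 (by decide +kernel)
theorem L10079 : W_24 (nat_lit 11) (nat_lit 0x4000f000200000001000080000000000000000000000000000000) (nat_lit 0x0) (nat_lit 0x40002000330000000cc0014000f0015c000000000000000000000000000000) := T_24 (nat_lit 212) (nat_lit 213) (nat_lit 3) (nat_lit 5) (nat_lit 11) L10078 (by decide +kernel)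
theorem L10080 : W_24 (nat_lit 12) (nat_lit 0x4000e000200000001000080000000000000000000000000000000) (nat_lit 0x0) (nat_lit 0x400020003b0001800cc0014000f0015c000000000000000000000000000000) := Q_24 (nat_lit 192) (C_24 L10064 (C_24 L10069 (C_24 L10079 N_24))) (by decide +kernel)
theorem L10086 : W_24 (nat_lit 2) (nat_lit 0x24001f800200000001800080000000000000000000000000000000) (nat_lit 0x0) (nat_lit 0x80020400000000000000000000000000000000000000000000000) := D_24 (nat_lit 211) (nat_lit 197) (nat_lit 190) (nat_lit 1) (nat_lit 10) (nat_lit 11) (nat_lit 3) (nat_lit 3) (nat_lit 11) (by decide +kernel)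
theorem L10087 : W_24 (nat_lit 3) (nat_lit 0x24001f000200000001800080000000000000000000000000000000) (nat_lit 0x0) (nat_lit 0x80020c00400000000000000000000000000000000000000000000) := T_24 (nat_lit 191) (nat_lit 178) (nat_lit 2) (nat_lit 4) (nat_lit 11) L10086 (by decide +kernel)
theorem L10088 : W_24 (nat_lit 4) (nat_lit 0x24001e000200000001800080000000000000000000000000000000) (nat_lit 0x0) (nat_lit 0x180021c00400000000000000000000000000000000000000000000) := T_24 (nat_lit 192) (nat_lit 212) (nat_lit 3) (nat_lit 5) (nat_lit 11) L10087 (by decide +kernel)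
theorem L10089 : W_24 (nat_lit 5) (nat_lit 0x4001e000200000001800080000000000000000000000000000000) (nat_lit 0x0) (nat_lit 0x780021c00400000000000000000000000000000000000000000000) := T_24 (nat_lit 213) (nat_lit 214) (nat_lit 3) (nat_lit 6) (nat_lit 11) L10088 (by decide +kernel)
theorem L10090 : W_24 (nat_lit 6) (nat_lit 0x4001e000200000001000080000000000000000000000000000000) (nat_lit 0x0) (nat_lit 0x780021c00400010000800000000000000000000000000000000000) := T_24 (nat_lit 143) (nat_lit 160) (nat_lit 6) (nat_lit 7) (nat_lit 11) L10089 (by decide +kernel)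
theorem L10091 : W_24 (nat_lit 7) (nat_lit 0x4000e000200000001000080000000000000000000000000000000) (nat_lit 0x0) (nat_lit 0x7a0031c00400010000800000000000000000000000000000000000) := T_24 (nat_lit 196) (nat_lit 209) (nat_lit 1) (nat_lit 9) (nat_lit 11) L10090 (by decide +kernel)
theorem L10092 : W_24 (nat_lit 2) (nat_lit 0x14000f000280010001000080000000000000000000000000000000) (nat_lit 0x0) (nat_lit 0x2000080000800000000000000000000000000000000000000000000000) := D_24 (nat_lit 211) (nat_lit 191) (nat_lit 229) (nat_lit 3) (nat_lit 4) (nat_lit 11) (nat_lit 7) (nat_lit 7) (nat_lit 9) (by decide +kernel)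
theorem L10093 : W_24 (nat_lit 3) (nat_lit 0x4000f000280010001000080000000000000000000000000000000) (nat_lit 0x0) (nat_lit 0x2000380000800000000000000000000000000000000000000000000000) := T_24 (nat_lit 212) (nat_lit 213) (nat_lit 3) (nat_lit 5) (nat_lit 11) L10092 (by decide +kernel)
theorem L10094 : W_24 (nat_lit 4) (nat_lit 0x4000f000200010001000080000000000000000000000000000000) (nat_lit 0x0) (nat_lit 0x20003800008000c0000000000000000000000000000000000000000000) := T_24 (nat_lit 175) (nat_lit 174) (nat_lit 0) (nat_lit 8) (nat_lit 11) L10093 (by decide +kernel)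
theorem L10095 : W_24 (nat_lit 5) (nat_lit 0x4000f000200000001000080000000000000000000000000000000) (nat_lit 0x0) (nat_lit 0x20003800008000c0010000800000000000000000000000000000000000) := T_24 (nat_lit 160) (nat_lit 143) (nat_lit 6) (nat_lit 7) (nat_lit 11) L10094 (by decide +kernel)
theorem L10096 : W_24 (nat_lit 2) (nat_lit 0x4000000014000f000680000001f00080000000000000000000000000000000) (nat_lit 0x0) (nat_lit 0x1c000000000000000000000000000000) := D_24 (nat_lit 123) (nat_lit 124) (nat_lit 122) (nat_lit 0) (nat_lit 8) (nat_lit 8) (nat_lit 0) (nat_lit 7) (nat_lit 8) (by decide +kernel)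
theorem L10097 : W_24 (nat_lit 3) (nat_lit 0x4000000014000f000680000001e00080000000000000000000000000000000) (nat_lit 0x0) (nat_lit 0x10005c000000000000000000000000000000) := T_24 (nat_lit 140) (nat_lit 126) (nat_lit 2) (nat_lit 4) (nat_lit 8) L10096 (by decide +kernel)
theorem L10098 : W_24 (nat_lit 4) (nat_lit 0x4000000014000f000680000001a00080000000000000000000000000000000) (nat_lit 0x0) (nat_lit 0x50015c000000000000000000000000000000) := T_24 (nat_lit 142) (nat_lit 128) (nat_lit 2) (nat_lit 5) (nat_lit 8) L10097 (by decide +kernel)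
theorem L10099 : W_24 (nat_lit 5) (nat_lit 0x4000000014000f000680000001800080000000000000000000000000000000) (nat_lit 0x0) (nat_lit 0x400070015c000000000000000000000000000000) := T_24 (nat_lit 141) (nat_lit 158) (nat_lit 7) (nat_lit 5) (nat_lit 8) L10098 (by decide +kernel)
theorem L10100 : W_24 (nat_lit 6) (nat_lit 0x4000000014000f000600000001800080000000000000000000000000000000) (nat_lit 0x0) (nat_lit 0xc000400070015c000000000000000000000000000000) := T_24 (nat_lit 175) (nat_lit 174) (nat_lit 0) (nat_lit 8) (nat_lit 11) L10099 (by decide +kernel)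
theorem L10101 : W_24 (nat_lit 7) (nat_lit 0x4000000014000f000200000001800080000000000000000000000000000000) (nat_lit 0x0) (nat_lit 0xcc000400070015c000000000000000000000000000000) := T_24 (nat_lit 178) (nat_lit 179) (nat_lit 2) (nat_lit 5) (nat_lit 11) L10100 (by decide +kernel)
theorem L10102 : W_24 (nat_lit 8) (nat_lit 0x14000f000200000001800080000000000000000000000000000000) (nat_lit 0x0) (nat_lit 0x40002000000000000cc000400070015c000000000000000000000000000000) := T_24 (nat_lit 246) (nat_lit 229) (nat_lit 4) (nat_lit 8) (nat_lit 14) L10101 (by decide +kernel)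
theorem L10103 : W_24 (nat_lit 9) (nat_lit 0x14000f000200000001000080000000000000000000000000000000) (nat_lit 0x0) (nat_lit 0x40002000000000000cc0014000f0015c000000000000000000000000000000) := T_24 (nat_lit 143) (nat_lit 160) (nat_lit 7) (nat_lit 7) (nat_lit 8) L10102 (by decide +kernel)
theorem L10104 : W_24 (nat_lit 10) (nat_lit 0x4000f000200000001000080000000000000000000000000000000) (nat_lit 0x0) (nat_lit 0x40002000300000000cc0014000f0015c000000000000000000000000000000) := T_24 (nat_lit 212) (nat_lit 213) (nat_lit 3) (nat_lit 5) (nat_lit 11) L10103 (by decide +kernel)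
theorem L10105 : W_24 (nat_lit 11) (nat_lit 0x4000e000200000001000080000000000000000000000000000000) (nat_lit 0x0) (nat_lit 0x40002000380001800cc0014000f0015c000000000000000000000000000000) := Q_24 (nat_lit 192) (C_24 L10064 (C_24 L10095 (C_24 L10104 N_24))) (by decide +kernel)
theorem L10106 : W_24 (nat_lit 13) (nat_lit 0x40006000200000001000080000000000000000000000000000000) (nat_lit 0x0) (nat_lit 0x400020007b0039c03cc0014000f0015c000000000000000000000000000000) := Q_24 (nat_lit 195) (C_24 L10063 (C_24 L10080 (C_24 L10085 (C_24 L10091 (C_24 L10105 N_24))))) (by decide +kernel)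
theorem L10112 : W_24 (nat_lit 2) (nat_lit 0x60007000200000001000080000000000000000000000000000000) (nat_lit 0x0) (nat_lit 0x10018000000000000000000000000000000000000000000000000) := D_24 (nat_lit 195) (nat_lit 196) (nat_lit 208) (nat_lit 1) (nat_lit 9) (nat_lit 11) (nat_lit 1) (nat_lit 8) (nat_lit 11) (by decide +kernel)
theorem L10113 : W_24 (nat_lit 4) (nat_lit 0x60007000200000001000080000000000000000000000000000000) (nat_lit 0x0) (nat_lit 0x100008000000180000c0004000000000000000000000000000000000000000) := T_24 (nat_lit 195) (nat_lit 196) (nat_lit 1) (nat_lit 9) (nat_lit 11) L8984 (by decide +kernel)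
theorem L10114 : W_24 (nat_lit 8) (nat_lit 0x40007000200000001000080000000000000000000000000000000) (nat_lit 0x0) (nat_lit 0xe80074007f003b80180000c0004000000000000000000000000000000000000000) := Q_24 (nat_lit 209) (C_24 L9963 (C_24 L10112 (C_24 L10113 N_24))) (by decide +kernel)
theorem L10115 : W_24 (nat_lit 2) (nat_lit 0x10000000050007c00200000001000080000000000000000000000000000000) (nat_lit 0x0) (nat_lit 0x20008200000000000000000000000000000000000000000000000) := D_24 (nat_lit 209) (nat_lit 189) (nat_lit 195) (nat_lit 3) (nat_lit 2) (nat_lit 11) (nat_lit 1) (nat_lit 8) (nat_lit 11) (by decide +kernel)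
theorem L10116 : W_24 (nat_lit 3) (nat_lit 0x10000000050007800200000001000080000000000000000000000000000000) (nat_lit 0x0) (nat_lit 0xa0008600000000000000000000000000000000000000000000000) := T_24 (nat_lit 190) (nat_lit 211) (nat_lit 3) (nat_lit 3) (nat_lit 11) L10115 (by decide +kernel)
theorem L10117 : W_24 (nat_lit 4) (nat_lit 0x10000000040007800200000001000080000000000000000000000000000000) (nat_lit 0x0) (nat_lit 0xb8008600000000000000000000000000000000000000000000000) := T_24 (nat_lit 208) (nat_lit 207) (nat_lit 1) (nat_lit 7) (nat_lit 11) L10116 (by decide +kernel)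
theorem L10118 : W_24 (nat_lit 5) (nat_lit 0x10000000040007000200000001000080000000000000000000000000000000) (nat_lit 0x0) (nat_lit 0xb8008e00400000000000000000000000000000000000000000000) := T_24 (nat_lit 191) (nat_lit 178) (nat_lit 2) (nat_lit 4) (nat_lit 11) L10117 (by decide +kernel)
theorem L10119 : W_24 (nat_lit 6) (nat_lit 0x40007000200000001000080000000000000000000000000000000) (nat_lit 0x0) (nat_lit 0x100008000b8008e00400000000000000000000000000000000000000000000) := T_24 (nat_lit 244) (nat_lit 227) (nat_lit 6) (nat_lit 6) (nat_lit 14) L10118 (by decide +kernel)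
theorem L10124 : W_24 (nat_lit 9) (nat_lit 0x40006000200000001000080000000000000000000000000000000) (nat_lit 0x0) (nat_lit 0xe80074007f003b8019e004e0004000000000000000000000000000000000000000) := Q_24 (nat_lit 192) (C_24 L10111 (C_24 L10114 (C_24 L10119 (C_24 L10123 N_24)))) (by decide +kernel)
theorem L10126 : W_24 (nat_lit 2) (nat_lit 0x70007800240000001000080000000000000000000000000000000) (nat_lit 0x0) (nat_lit 0x8000400000000000000002000000000000000000000000000000000000000) := D_24 (nat_lit 226) (nat_lit 243) (nat_lit 157) (nat_lit 4) (nat_lit 5) (nat_lit 14) (nat_lit 7) (nat_lit 4) (nat_lit 9) (by decide +kernel)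
theorem L10127 : W_24 (nat_lit 3) (nat_lit 0x70007800200000001000080000000000000000000000000000000) (nat_lit 0x0) (nat_lit 0x8000400000000000060002000000000000000000000000000000000000000) := T_24 (nat_lit 174) (nat_lit 173) (nat_lit 0) (nat_lit 7) (nat_lit 11) L10126 (by decide +kernel)
theorem L10128 : W_24 (nat_lit 4) (nat_lit 0x60007800200000001000080000000000000000000000000000000) (nat_lit 0x0) (nat_lit 0x8000400018000000060002000000000000000000000000000000000000000) := T_24 (nat_lit 208) (nat_lit 207) (nat_lit 2) (nat_lit 3) (nat_lit 12) L10127 (by decide +kernel)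
theorem L10129 : W_24 (nat_lit 2) (nat_lit 0x10000000068007800200000001800080000000000000000000000000000000) (nat_lit 0x0) (nat_lit 0x4000600000000000000000000000000000000000000000000000) := D_24 (nat_lit 190) (nat_lit 206) (nat_lit 189) (nat_lit 1) (nat_lit 6) (nat_lit 11) (nat_lit 3) (nat_lit 2) (nat_lit 11) (by decide +kernel)
theorem L10130 : W_24 (nat_lit 3) (nat_lit 0x10000000060007800200000001800080000000000000000000000000000000) (nat_lit 0x0) (nat_lit 0x1c000600000000000000000000000000000000000000000000000) := T_24 (nat_lit 207) (nat_lit 208) (nat_lit 2) (nat_lit 3) (nat_lit 12) L10129 (by decide +kernel)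
theorem L10131 : W_24 (nat_lit 4) (nat_lit 0x10000000060007800200000001000080000000000000000000000000000000) (nat_lit 0x0) (nat_lit 0x1c000600000010000800000000000000000000000000000000000) := T_24 (nat_lit 143) (nat_lit 160) (nat_lit 6) (nat_lit 7) (nat_lit 11) L10130 (by decide +kernel)
theorem L10132 : W_24 (nat_lit 5) (nat_lit 0x60007800200000001000080000000000000000000000000000000) (nat_lit 0x0) (nat_lit 0x1000080001c000600000010000800000000000000000000000000000000000) := T_24 (nat_lit 244) (nat_lit 227) (nat_lit 6) (nat_lit 6) (nat_lit 14) L10131 (by decide +kernel)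
theorem L10133 : W_24 (nat_lit 6) (nat_lit 0x60007000200000001000080000000000000000000000000000000) (nat_lit 0x0) (nat_lit 0x18000c0001c000e000e0012000900000000000000000000000000000000000) := Q_24 (nat_lit 191) (C_24 L9942 (C_24 L10128 (C_24 L10132 N_24))) (by decide +kernel)
theorem L10134 : W_24 (nat_lit 7) (nat_lit 0x40007000200000001000080000000000000000000000000000000) (nat_lit 0x0) (nat_lit 0x18000c0003c018e000e0016000900000000000000000000000000000000000) := Q_24 (nat_lit 209) (C_24 L10112 (C_24 L10113 (C_24 L10125 (C_24 L10133 N_24)))) (by decide +kernel)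
theorem L10135 : W_24 (nat_lit 2) (nat_lit 0x10000000048007f00240010001100080000000000000000000000000000000) (nat_lit 0x0) (nat_lit 0x1c000000000000000000000000000000000000000000) := D_24 (nat_lit 171) (nat_lit 172) (nat_lit 170) (nat_lit 0) (nat_lit 5) (nat_lit 11) (nat_lit 0) (nat_lit 4) (nat_lit 11) (by decide +kernel)
theorem L10136 : W_24 (nat_lit 3) (nat_lit 0x10000000048007e00240010001100080000000000000000000000000000000) (nat_lit 0x0) (nat_lit 0x10009c000000000000000000000000000000000000000000) := T_24 (nat_lit 188) (nat_lit 175) (nat_lit 2) (nat_lit 1) (nat_lit 11) L10135 (by decide +kernel)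
theorem L10137 : W_24 (nat_lit 4) (nat_lit 0x10000000048007c00240010001100080000000000000000000000000000000) (nat_lit 0x0) (nat_lit 0x2000030009c000000000000000000000000000000000000000000) := T_24 (nat_lit 189) (nat_lit 209) (nat_lit 3) (nat_lit 2) (nat_lit 11) L10136 (by decide +kernel)
theorem L10138 : W_24 (nat_lit 5) (nat_lit 0x10000000048007c00240010001000080000000000000000000000000000000) (nat_lit 0x0) (nat_lit 0x2000030009c002000100000000000000000000000000000000000) := T_24 (nat_lit 140) (nat_lit 157) (nat_lit 5) (nat_lit 4) (nat_lit 8) L10137 (by decide +kernel)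
theorem L10139 : W_24 (nat_lit 6) (nat_lit 0x10000000048007c00240000001000080000000000000000000000000000000) (nat_lit 0x0) (nat_lit 0x2000030009c012000900000000000000000000000000000000000) := T_24 (nat_lit 160) (nat_lit 143) (nat_lit 6) (nat_lit 7) (nat_lit 11) L10138 (by decide +kernel)
theorem L10140 : W_24 (nat_lit 7) (nat_lit 0x10000000048007800240000001000080000000000000000000000000000000) (nat_lit 0x0) (nat_lit 0x2400070009c012000900000000000000000000000000000000000) := T_24 (nat_lit 190) (nat_lit 206) (nat_lit 1) (nat_lit 6) (nat_lit 11) L10139 (by decide +kernel)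
theorem L10141 : W_24 (nat_lit 8) (nat_lit 0x10000000048007800200000001000080000000000000000000000000000000) (nat_lit 0x0) (nat_lit 0x240007000fc012000900000000000000000000000000000000000) := T_24 (nat_lit 174) (nat_lit 173) (nat_lit 0) (nat_lit 7) (nat_lit 11) L10140 (by decide +kernel)
theorem L10142 : W_24 (nat_lit 9) (nat_lit 0x10000000040007800200000001000080000000000000000000000000000000) (nat_lit 0x0) (nat_lit 0x3c0007000fc012000900000000000000000000000000000000000) := T_24 (nat_lit 207) (nat_lit 208) (nat_lit 1) (nat_lit 7) (nat_lit 11) L10141 (by decide +kernel)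
theorem L10143 : W_24 (nat_lit 10) (nat_lit 0x10000000040007000200000001000080000000000000000000000000000000) (nat_lit 0x0) (nat_lit 0x3c000f004fc012000900000000000000000000000000000000000) := T_24 (nat_lit 191) (nat_lit 178) (nat_lit 2) (nat_lit 4) (nat_lit 11) L10142 (by decide +kernel)
theorem L10144 : W_24 (nat_lit 11) (nat_lit 0x40007000200000001000080000000000000000000000000000000) (nat_lit 0x0) (nat_lit 0x1000080003c000f004fc012000900000000000000000000000000000000000) := T_24 (nat_lit 244) (nat_lit 227) (nat_lit 6) (nat_lit 6) (nat_lit 14) L10143 (by decide +kernel)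
theorem L10145 : W_24 (nat_lit 2) (nat_lit 0x10000000070007800240000001800080000000000000000000000000000000) (nat_lit 0x0) (nat_lit 0x400000000000000002000100000000000000000000000000000000000) := D_24 (nat_lit 157) (nat_lit 226) (nat_lit 140) (nat_lit 7) (nat_lit 4) (nat_lit 9) (nat_lit 7) (nat_lit 4) (nat_lit 8) (by decide +kernel)
theorem L10146 : W_24 (nat_lit 3) (nat_lit 0x10000000050007800240000001800080000000000000000000000000000000) (nat_lit 0x0) (nat_lit 0x400020008000000002000100000000000000000000000000000000000) := T_24 (nat_lit 209) (nat_lit 195) (nat_lit 1) (nat_lit 8) (nat_lit 11) L10145 (by decide +kernel)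
theorem L10147 : W_24 (nat_lit 4) (nat_lit 0x10000000050007800200000001800080000000000000000000000000000000) (nat_lit 0x0) (nat_lit 0x400020008000060002000100000000000000000000000000000000000) := T_24 (nat_lit 174) (nat_lit 173) (nat_lit 0) (nat_lit 7) (nat_lit 11) L10146 (by decide +kernel)
theorem L10148 : W_24 (nat_lit 5) (nat_lit 0x10000000040007800200000001800080000000000000000000000000000000) (nat_lit 0x0) (nat_lit 0x400038008000060002000100000000000000000000000000000000000) := T_24 (nat_lit 208) (nat_lit 207) (nat_lit 1) (nat_lit 7) (nat_lit 11) L10147 (by decide +kernel)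
theorem L10149 : W_24 (nat_lit 6) (nat_lit 0x10000000040007000200000001800080000000000000000000000000000000) (nat_lit 0x0) (nat_lit 0x400038008800460002000100000000000000000000000000000000000) := T_24 (nat_lit 191) (nat_lit 178) (nat_lit 2) (nat_lit 4) (nat_lit 11) L10148 (by decide +kernel)
theorem L10150 : W_24 (nat_lit 7) (nat_lit 0x40007000200000001800080000000000000000000000000000000) (nat_lit 0x0) (nat_lit 0x10000c00038008800460002000100000000000000000000000000000000000) := T_24 (nat_lit 244) (nat_lit 227) (nat_lit 6) (nat_lit 6) (nat_lit 14) L10149 (by decide +kernel)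
theorem L10151 : W_24 (nat_lit 8) (nat_lit 0x40007000200000001000080000000000000000000000000000000) (nat_lit 0x0) (nat_lit 0x10000c00038008800460012000900000000000000000000000000000000000) := T_24 (nat_lit 143) (nat_lit 160) (nat_lit 6) (nat_lit 7) (nat_lit 11) L10150 (by decide +kernel)
theorem L10153 : W_24 (nat_lit 11) (nat_lit 0x40007000200000001000080000000000000000000000000000000) (nat_lit 0x0) (nat_lit 0x50002800330018000cc0014000f0015c000000000000000000000000000000) := Q_24 (nat_lit 195) (C_24 L10104 (C_24 L8985 (C_24 L10152 N_24))) (by decide +kernel)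
theorem L10156 : W_24 (nat_lit 4) (nat_lit 0x10000000050007800240000001000080000000000000000000000000000000) (nat_lit 0x0) (nat_lit 0x200000008000080014000a00000000000000000000000000000000000) := T_24 (nat_lit 160) (nat_lit 143) (nat_lit 6) (nat_lit 7) (nat_lit 11) L10155 (by decide +kernel)
theorem L10157 : W_24 (nat_lit 5) (nat_lit 0x10000000050007800200000001000080000000000000000000000000000000) (nat_lit 0x0) (nat_lit 0x2000000080000e0014000a00000000000000000000000000000000000) := T_24 (nat_lit 174) (nat_lit 173) (nat_lit 0) (nat_lit 7) (nat_lit 11) L10156 (by decide +kernel)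
theorem L10158 : W_24 (nat_lit 6) (nat_lit 0x10000000040007800200000001000080000000000000000000000000000000) (nat_lit 0x0) (nat_lit 0x2000180080000e0014000a00000000000000000000000000000000000) := T_24 (nat_lit 208) (nat_lit 207) (nat_lit 1) (nat_lit 7) (nat_lit 11) L10157 (by decide +kernel)
theorem L10159 : W_24 (nat_lit 7) (nat_lit 0x10000000040007000200000001000080000000000000000000000000000000) (nat_lit 0x0) (nat_lit 0x2000180088004e0014000a00000000000000000000000000000000000) := T_24 (nat_lit 191) (nat_lit 178) (nat_lit 2) (nat_lit 4) (nat_lit 11) L10158 (by decide +kernel)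
theorem L10160 : W_24 (nat_lit 8) (nat_lit 0x40007000200000001000080000000000000000000000000000000) (nat_lit 0x0) (nat_lit 0x10000a000180088004e0014000a00000000000000000000000000000000000) := T_24 (nat_lit 244) (nat_lit 227) (nat_lit 6) (nat_lit 6) (nat_lit 14) L10159 (by decide +kernel)
theorem L10166 : W_24 (nat_lit 7) (nat_lit 0x40007000200010001000080000000000000000000000000000000) (nat_lit 0x0) (nat_lit 0x1000080003c000e00438000000000000000000000000000000000000000000) := T_24 (nat_lit 191) (nat_lit 178) (nat_lit 2) (nat_lit 4) (nat_lit 11) L10165 (by decide +kernel)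
theorem L10167 : W_24 (nat_lit 8) (nat_lit 0x40007000200000001000080000000000000000000000000000000) (nat_lit 0x0) (nat_lit 0x1000080003c000e00438010000800000000000000000000000000000000000) := T_24 (nat_lit 160) (nat_lit 143) (nat_lit 6) (nat_lit 7) (nat_lit 11) L10166 (by decide +kernel)
theorem L10175 : W_24 (nat_lit 12) (nat_lit 0x40006000200000001000080000000000000000000000000000000) (nat_lit 0x0) (nat_lit 0x58002e0073c019f00cfc016000f0015c000000000000000000000000000000) := Q_24 (nat_lit 192) (C_24 L10123 (C_24 L10134 (C_24 L10144 (C_24 L10151 (C_24 L10153 (C_24 L10160 (C_24 L10167 (C_24 L10174 N_24)))))))) (by decide +kernel)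
theorem L10176 : W_24 (nat_lit 14) (nat_lit 0x6000200000001000080000000000000000000000000000000) (nat_lit 0x0) (nat_lit 0xe8007c007f007fc039f03cfc016000f0015c000000000000000000000000000000) := Q_24 (nat_lit 210) (C_24 L10106 (C_24 L10108 (C_24 L10124 (C_24 L10175 N_24)))) (by decide +kernel)
theorem L10181 : W_24 (nat_lit 2) (nat_lit 0x4000000012001f000280000001000080000000000000000000000000000000) (nat_lit 0x0) (nat_lit 0x1c00000000000000000000000000000000000000000000) := D_24 (nat_lit 179) (nat_lit 178) (nat_lit 180) (nat_lit 2) (nat_lit 5) (nat_lit 11) (nat_lit 2) (nat_lit 6) (nat_lit 11) (by decide +kernel)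
theorem L10182 : W_24 (nat_lit 3) (nat_lit 0x4000000012000f000280000001000080000000000000000000000000000000) (nat_lit 0x0) (nat_lit 0x10001d00000000000000000000000000000000000000000000) := T_24 (nat_lit 196) (nat_lit 176) (nat_lit 0) (nat_lit 9) (nat_lit 11) L10181 (by decide +kernel)
theorem L10183 : W_24 (nat_lit 4) (nat_lit 0x12000f000280000001000080000000000000000000000000000000) (nat_lit 0x0) (nat_lit 0x40002000000010001d00000000000000000000000000000000000000000000) := T_24 (nat_lit 246) (nat_lit 229) (nat_lit 4) (nat_lit 8) (nat_lit 14) L10182 (by decide +kernel)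
theorem L10184 : W_24 (nat_lit 5) (nat_lit 0x12000f000200000001000080000000000000000000000000000000) (nat_lit 0x0) (nat_lit 0x40002000000010001dc0000000000000000000000000000000000000000000) := T_24 (nat_lit 175) (nat_lit 174) (nat_lit 0) (nat_lit 8) (nat_lit 11) L10183 (by decide +kernel)
theorem L10185 : W_24 (nat_lit 6) (nat_lit 0x2000f000200000001000080000000000000000000000000000000) (nat_lit 0x0) (nat_lit 0x40002000300010001dc0000000000000000000000000000000000000000000) := T_24 (nat_lit 212) (nat_lit 213) (nat_lit 3) (nat_lit 5) (nat_lit 11) L10184 (by decide +kernel)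
theorem L10186 : W_24 (nat_lit 7) (nat_lit 0xf000200000001000080000000000000000000000000000000) (nat_lit 0x0) (nat_lit 0x40002000330010001dc0000000000000000000000000000000000000000000) := T_24 (nat_lit 209) (nat_lit 208) (nat_lit 1) (nat_lit 8) (nat_lit 11) L10185 (by decide +kernel)
theorem L10189 : W_24 (nat_lit 4) (nat_lit 0x4000000010000f000680000001000080000000000000000000000000000000) (nat_lit 0x0) (nat_lit 0x800040010000100006000200000000000000000000000000000000000) := T_24 (nat_lit 176) (nat_lit 196) (nat_lit 3) (nat_lit 5) (nat_lit 10) L10188 (by decide +kernel)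
theorem L10190 : W_24 (nat_lit 5) (nat_lit 0x10000f000680000001000080000000000000000000000000000000) (nat_lit 0x0) (nat_lit 0x40002800040010000100006000200000000000000000000000000000000000) := T_24 (nat_lit 246) (nat_lit 229) (nat_lit 4) (nat_lit 8) (nat_lit 14) L10189 (by decide +kernel)
theorem L10191 : W_24 (nat_lit 6) (nat_lit 0x10000f000600000001000080000000000000000000000000000000) (nat_lit 0x0) (nat_lit 0x400028000400100001c0006000200000000000000000000000000000000000) := T_24 (nat_lit 175) (nat_lit 174) (nat_lit 0) (nat_lit 8) (nat_lit 11) L10190 (by decide +kernel)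
theorem L10192 : W_24 (nat_lit 7) (nat_lit 0xf000600000001000080000000000000000000000000000000) (nat_lit 0x0) (nat_lit 0x400028003400100001c0006000200000000000000000000000000000000000) := T_24 (nat_lit 212) (nat_lit 213) (nat_lit 3) (nat_lit 5) (nat_lit 11) L10191 (by decide +kernel)
theorem L10193 : W_24 (nat_lit 8) (nat_lit 0xf000200000001000080000000000000000000000000000000) (nat_lit 0x0) (nat_lit 0x40002800340010000dc0006000200000000000000000000000000000000000) := T_24 (nat_lit 178) (nat_lit 179) (nat_lit 2) (nat_lit 5) (nat_lit 11) L10192 (by decide +kernel)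
theorem L10194 : W_24 (nat_lit 10) (nat_lit 0x7000200000001000080000000000000000000000000000000) (nat_lit 0x0) (nat_lit 0x100058006e003f0078001dc0006000200000000000000000000000000000000000) := Q_24 (nat_lit 195) (C_24 L10180 (C_24 L9000 (C_24 L10057 (C_24 L10186 (C_24 L10193 N_24))))) (by decide +kernel)
theorem L10195 : W_24 (nat_lit 11) (nat_lit 0x6000200000001000080000000000000000000000000000000) (nat_lit 0x0) (nat_lit 0x100058006e003fc079c01df0006000200000000000000000000000000000000000) := Q_24 (nat_lit 192) (C_24 L10059 (C_24 L10034 (C_24 L10045 (C_24 L10194 (C_24 L10037 N_24))))) (by decide +kernel)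
theorem L10199 : W_24 (nat_lit 2) (nat_lit 0x4000000038000c0006000200000001000080000000000000000000000000000000) (nat_lit 0x0) (nat_lit 0x4000030000000000000000000000000000000000000000000000000000) := D_24 (nat_lit 209) (nat_lit 208) (nat_lit 230) (nat_lit 3) (nat_lit 4) (nat_lit 12) (nat_lit 0) (nat_lit 9) (nat_lit 13) (by decide +kernel)
theorem L10200 : W_24 (nat_lit 3) (nat_lit 0x4000000018000c0006000200000001000080000000000000000000000000000000) (nat_lit 0x0) (nat_lit 0x40006000030000000000000000000000000000000000000000000000000000) := T_24 (nat_lit 229) (nat_lit 246) (nat_lit 7) (nat_lit 7) (nat_lit 10) L10199 (by decide +kernel)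
theorem L10201 : W_24 (nat_lit 4) (nat_lit 0x4000000010000c0006000200000001000080000000000000000000000000000000) (nat_lit 0x0) (nat_lit 0x50006800030000000000000000000000000000000000000000000000000000) := T_24 (nat_lit 227) (nat_lit 244) (nat_lit 6) (nat_lit 6) (nat_lit 14) L10200 (by decide +kernel)
theorem L10202 : W_24 (nat_lit 5) (nat_lit 0x10000c0006000200000001000080000000000000000000000000000000) (nat_lit 0x0) (nat_lit 0x400070006800030000000000000000000000000000000000000000000000000000) := T_24 (nat_lit 262) (nat_lit 245) (nat_lit 4) (nat_lit 7) (nat_lit 15) L10201 (by decide +kernel)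
theorem L10203 : W_24 (nat_lit 2) (nat_lit 0x200010000c0006000200000001000080000000000000000000000000000000) (nat_lit 0x0) (nat_lit 0x200010000800000000000000000000000000000000000000000000000000000000) := D_24 (nat_lit 244) (nat_lit 227) (nat_lit 261) (nat_lit 6) (nat_lit 6) (nat_lit 14) (nat_lit 5) (nat_lit 7) (nat_lit 11) (by decide +kernel)
theorem L10204 : W_24 (nat_lit 3) (nat_lit 0x10000c0006000200000001000080000000000000000000000000000000) (nat_lit 0x0) (nat_lit 0x600030000800000000000000000000000000000000000000000000000000000000) := T_24 (nat_lit 245) (nat_lit 262) (nat_lit 4) (nat_lit 7) (nat_lit 15) L10203 (by decide +kernel)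
theorem L10205 : W_24 (nat_lit 6) (nat_lit 0x1000040006000200000001000080000000000000000000000000000000) (nat_lit 0x0) (nat_lit 0x60007000e8001b0000000000000000000000000000000000000000000000000000) := Q_24 (nat_lit 211) (C_24 L10198 (C_24 L10202 (C_24 L10204 N_24))) (by decide +kernel)
theorem L10208 : W_24 (nat_lit 4) (nat_lit 0x1800040006000300000001000080000000000000000000000000000000) (nat_lit 0x0) (nat_lit 0x80004000000080000e0004000000000000000000000000000000000000000) := T_24 (nat_lit 226) (nat_lit 243) (nat_lit 5) (nat_lit 6) (nat_lit 10) L10207 (by decide +kernel)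
theorem L10209 : W_24 (nat_lit 5) (nat_lit 0x1800040006000200000001000080000000000000000000000000000000) (nat_lit 0x0) (nat_lit 0x280004000000080001e0004000000000000000000000000000000000000000) := T_24 (nat_lit 176) (nat_lit 245) (nat_lit 7) (nat_lit 6) (nat_lit 10) L10208 (by decide +kernel)
theorem L10210 : W_24 (nat_lit 6) (nat_lit 0x1000040006000200000001000080000000000000000000000000000000) (nat_lit 0x0) (nat_lit 0x38000c000000080001e0004000000000000000000000000000000000000000) := T_24 (nat_lit 227) (nat_lit 244) (nat_lit 6) (nat_lit 6) (nat_lit 14) L10209 (by decide +kernel)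
theorem L10212 : W_24 (nat_lit 5) (nat_lit 0x1000040006000200000001000080000000000000000000000000000000) (nat_lit 0x0) (nat_lit 0x40006000e0001b0000000100000000000000000000000000000000000000000000) := Q_24 (nat_lit 211) (C_24 L10198 (C_24 L10211 N_24)) (by decide +kernel)
theorem L10213 : W_24 (nat_lit 4) (nat_lit 0x3000040006000200000001000080000000000000000000000000000000) (nat_lit 0x0) (nat_lit 0x4000c0001b0000000000000000000000000000000000000000000000000000) := T_24 (nat_lit 211) (nat_lit 246) (nat_lit 7) (nat_lit 7) (nat_lit 10) L10197 (by decide +kernel)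
theorem L10214 : W_24 (nat_lit 2) (nat_lit 0x38000c0006000200000001000080000000000000000000000000000000) (nat_lit 0x0) (nat_lit 0xc000020000000000000000000000000000000000000000000000000000) := D_24 (nat_lit 230) (nat_lit 209) (nat_lit 231) (nat_lit 0) (nat_lit 9) (nat_lit 13) (nat_lit 0) (nat_lit 10) (nat_lit 13) (by decide +kernel)
theorem L10215 : W_24 (nat_lit 3) (nat_lit 0x30000c0006000200000001000080000000000000000000000000000000) (nat_lit 0x0) (nat_lit 0x1000c800020000000000000000000000000000000000000000000000000000) := T_24 (nat_lit 227) (nat_lit 244) (nat_lit 6) (nat_lit 6) (nat_lit 14) L10214 (by decide +kernel)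
theorem L10216 : W_24 (nat_lit 4) (nat_lit 0x3000040006000200000001000080000000000000000000000000000000) (nat_lit 0x0) (nat_lit 0x5000c8000a0000000000000000000000000000000000000000000000000000) := T_24 (nat_lit 211) (nat_lit 246) (nat_lit 7) (nat_lit 7) (nat_lit 10) L10215 (by decide +kernel)
theorem L10217 : W_24 (nat_lit 2) (nat_lit 0x7c00240006000200000001000080000000000000000000000000000000) (nat_lit 0x0) (nat_lit 0xc000000000000000100000000000000000000000000000000000000000000) := D_24 (nat_lit 243) (nat_lit 242) (nat_lit 176) (nat_lit 1) (nat_lit 8) (nat_lit 13) (nat_lit 5) (nat_lit 6) (nat_lit 10) (by decide +kernel)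
theorem L10218 : W_24 (nat_lit 3) (nat_lit 0x7800240006000200000001000080000000000000000000000000000000) (nat_lit 0x0) (nat_lit 0xc000400100000000100000000000000000000000000000000000000000000) := T_24 (nat_lit 226) (nat_lit 212) (nat_lit 2) (nat_lit 5) (nat_lit 13) L10217 (by decide +kernel)
theorem L10219 : W_24 (nat_lit 4) (nat_lit 0x7800040006000200000001000080000000000000000000000000000000) (nat_lit 0x0) (nat_lit 0xc000400700000000100000000000000000000000000000000000000000000) := T_24 (nat_lit 213) (nat_lit 214) (nat_lit 2) (nat_lit 6) (nat_lit 13) L10218 (by decide +kernel)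
theorem L10220 : W_24 (nat_lit 5) (nat_lit 0x3800040006000200000001000080000000000000000000000000000000) (nat_lit 0x0) (nat_lit 0xc004400720000000100000000000000000000000000000000000000000000) := T_24 (nat_lit 230) (nat_lit 209) (nat_lit 0) (nat_lit 9) (nat_lit 13) L10219 (by decide +kernel)
theorem L10221 : W_24 (nat_lit 6) (nat_lit 0x3000040006000200000001000080000000000000000000000000000000) (nat_lit 0x0) (nat_lit 0x1c004c00720000000100000000000000000000000000000000000000000000) := T_24 (nat_lit 227) (nat_lit 244) (nat_lit 6) (nat_lit 6) (nat_lit 14) L10220 (by decide +kernel)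
theorem L10224 : W_24 (nat_lit 4) (nat_lit 0x38000c0006000200000001000080000000000000000000000000000000) (nat_lit 0x0) (nat_lit 0xc400700001000000000000000000000000000000000000000000000000) := T_24 (nat_lit 230) (nat_lit 231) (nat_lit 0) (nat_lit 10) (nat_lit 13) L10223 (by decide +kernel)
theorem L10225 : W_24 (nat_lit 5) (nat_lit 0x3800040006000200000001000080000000000000000000000000000000) (nat_lit 0x0) (nat_lit 0x4000c400780001000000000000000000000000000000000000000000000000) := T_24 (nat_lit 211) (nat_lit 246) (nat_lit 7) (nat_lit 7) (nat_lit 10) L10224 (by decide +kernel)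
theorem L10226 : W_24 (nat_lit 6) (nat_lit 0x3000040006000200000001000080000000000000000000000000000000) (nat_lit 0x0) (nat_lit 0x5000cc00780001000000000000000000000000000000000000000000000000) := T_24 (nat_lit 227) (nat_lit 244) (nat_lit 6) (nat_lit 6) (nat_lit 14) L10225 (by decide +kernel)
theorem L10227 : W_24 (nat_lit 2) (nat_lit 0x5000300004001e000200000001000080000000000000000000000000000000) (nat_lit 0x0) (nat_lit 0x20000180000000000000000000000000000000000000000000) := D_24 (nat_lit 176) (nat_lit 197) (nat_lit 175) (nat_lit 0) (nat_lit 10) (nat_lit 11) (nat_lit 0) (nat_lit 9) (nat_lit 11) (by decide +kernel)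
theorem L10228 : W_24 (nat_lit 3) (nat_lit 0x5000300004000e000200000001000080000000000000000000000000000000) (nat_lit 0x0) (nat_lit 0x20030000180000000000000000000000000000000000000000000) := T_24 (nat_lit 196) (nat_lit 209) (nat_lit 1) (nat_lit 9) (nat_lit 11) L10227 (by decide +kernel)
theorem L10229 : W_24 (nat_lit 4) (nat_lit 0x50003000040006000200000001000080000000000000000000000000000000) (nat_lit 0x0) (nat_lit 0x120038000180000000000000000000000000000000000000000000) := T_24 (nat_lit 195) (nat_lit 212) (nat_lit 4) (nat_lit 8) (nat_lit 14) L10228 (by decide +kernel)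
theorem L10230 : W_24 (nat_lit 5) (nat_lit 0x40003000040006000200000001000080000000000000000000000000000000) (nat_lit 0x0) (nat_lit 0x10000800120038000180000000000000000000000000000000000000000000) := T_24 (nat_lit 244) (nat_lit 227) (nat_lit 6) (nat_lit 6) (nat_lit 14) L10229 (by decide +kernel)
theorem L10231 : W_24 (nat_lit 6) (nat_lit 0x3000040006000200000001000080000000000000000000000000000000) (nat_lit 0x0) (nat_lit 0x500008001a0038000180000000000000000000000000000000000000000000) := T_24 (nat_lit 246) (nat_lit 211) (nat_lit 7) (nat_lit 7) (nat_lit 10) L10230 (by decide +kernel)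
theorem L10232 : W_24 (nat_lit 7) (nat_lit 0x1000040006000200000001000080000000000000000000000000000000) (nat_lit 0x0) (nat_lit 0x5c00ec007b0039000180000000000000000000000000000000000000000000) := Q_24 (nat_lit 229) (C_24 L10213 (C_24 L10216 (C_24 L10221 (C_24 L10226 (C_24 L10231 N_24))))) (by decide +kernel)
theorem L10233 : W_24 (nat_lit 8) (nat_lit 0x40006000200000001000080000000000000000000000000000000) (nat_lit 0x0) (nat_lit 0x60007c00fc007b00390001e0004000000000000000000000000000000000000000) := Q_24 (nat_lit 228) (C_24 L10205 (C_24 L10210 (C_24 L10212 (C_24 L10232 N_24)))) (by decide +kernel)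
theorem L10234 : W_24 (nat_lit 2) (nat_lit 0x6000f000280000001f00080000000000000000000000000000000) (nat_lit 0x0) (nat_lit 0x1c000000000000000000000000000000) := D_24 (nat_lit 123) (nat_lit 124) (nat_lit 122) (nat_lit 0) (nat_lit 8) (nat_lit 8) (nat_lit 0) (nat_lit 7) (nat_lit 8) (by decide +kernel)
theorem L10235 : W_24 (nat_lit 3) (nat_lit 0x6000f000280000001e00080000000000000000000000000000000) (nat_lit 0x0) (nat_lit 0x10005c000000000000000000000000000000) := T_24 (nat_lit 140) (nat_lit 126) (nat_lit 2) (nat_lit 4) (nat_lit 8) L10234 (by decide +kernel)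
theorem L10236 : W_24 (nat_lit 4) (nat_lit 0x6000f000280000001a00080000000000000000000000000000000) (nat_lit 0x0) (nat_lit 0x50015c000000000000000000000000000000) := T_24 (nat_lit 142) (nat_lit 128) (nat_lit 2) (nat_lit 5) (nat_lit 8) L10235 (by decide +kernel)
theorem L10237 : W_24 (nat_lit 5) (nat_lit 0x6000f000280000001800080000000000000000000000000000000) (nat_lit 0x0) (nat_lit 0x400070015c000000000000000000000000000000) := T_24 (nat_lit 141) (nat_lit 158) (nat_lit 7) (nat_lit 5) (nat_lit 8) L10236 (by decide +kernel)
theorem L10238 : W_24 (nat_lit 6) (nat_lit 0x6000f000200000001800080000000000000000000000000000000) (nat_lit 0x0) (nat_lit 0xc000400070015c000000000000000000000000000000) := T_24 (nat_lit 175) (nat_lit 174) (nat_lit 0) (nat_lit 8) (nat_lit 11) L10237 (by decide +kernel)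
theorem L10239 : W_24 (nat_lit 7) (nat_lit 0x6000f000200000001000080000000000000000000000000000000) (nat_lit 0x0) (nat_lit 0xc0014000f0015c000000000000000000000000000000) := T_24 (nat_lit 143) (nat_lit 160) (nat_lit 6) (nat_lit 7) (nat_lit 11) L10238 (by decide +kernel)
theorem L10240 : W_24 (nat_lit 8) (nat_lit 0x4000f000200000001000080000000000000000000000000000000) (nat_lit 0x0) (nat_lit 0x300000000c0014000f0015c000000000000000000000000000000) := T_24 (nat_lit 209) (nat_lit 208) (nat_lit 1) (nat_lit 8) (nat_lit 11) L10239 (by decide +kernel)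
theorem L10244 : W_24 (nat_lit 9) (nat_lit 0x4000e000200000001000080000000000000000000000000000000) (nat_lit 0x0) (nat_lit 0x1000480066003b80018001c0014000f0015c000000000000000000000000000000) := Q_24 (nat_lit 192) (C_24 L10095 (C_24 L8999 (C_24 L10240 (C_24 L10243 N_24)))) (by decide +kernel)
theorem L10250 : W_24 (nat_lit 3) (nat_lit 0x34001e000300000001800080000000000000000000000000000000) (nat_lit 0x0) (nat_lit 0x40002000000000001800040000000000000000000000000000000000000000) := T_24 (nat_lit 179) (nat_lit 180) (nat_lit 2) (nat_lit 6) (nat_lit 11) L10249 (by decide +kernel)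
theorem L10251 : W_24 (nat_lit 4) (nat_lit 0x24001e000300000001800080000000000000000000000000000000) (nat_lit 0x0) (nat_lit 0x40002000100001001800040000000000000000000000000000000000000000) := T_24 (nat_lit 212) (nat_lit 192) (nat_lit 3) (nat_lit 5) (nat_lit 11) L10250 (by decide +kernel)
theorem L10252 : W_24 (nat_lit 5) (nat_lit 0x4001e000300000001800080000000000000000000000000000000) (nat_lit 0x0) (nat_lit 0x40002000700001001800040000000000000000000000000000000000000000) := T_24 (nat_lit 213) (nat_lit 214) (nat_lit 3) (nat_lit 6) (nat_lit 11) L10251 (by decide +kernel)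
theorem L10253 : W_24 (nat_lit 6) (nat_lit 0x4001e000200000001800080000000000000000000000000000000) (nat_lit 0x0) (nat_lit 0x40002000700001001980040000000000000000000000000000000000000000) := T_24 (nat_lit 176) (nat_lit 175) (nat_lit 0) (nat_lit 9) (nat_lit 11) L10252 (by decide +kernel)
theorem L10254 : W_24 (nat_lit 7) (nat_lit 0x4001e000200000001000080000000000000000000000000000000) (nat_lit 0x0) (nat_lit 0x40002000700001001980050000800000000000000000000000000000000000) := T_24 (nat_lit 143) (nat_lit 160) (nat_lit 6) (nat_lit 7) (nat_lit 11) L10253 (by decide +kernel)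
theorem L10255 : W_24 (nat_lit 8) (nat_lit 0x4000e000200000001000080000000000000000000000000000000) (nat_lit 0x0) (nat_lit 0x40002000780031003980050000800000000000000000000000000000000000) := Q_24 (nat_lit 196) (C_24 L10062 (C_24 L10248 (C_24 L10254 N_24))) (by decide +kernel)
theorem L10256 : W_24 (nat_lit 10) (nat_lit 0x40006000200000001000080000000000000000000000000000000) (nat_lit 0x0) (nat_lit 0x1000480066007b80398039c0054000f0015c000000000000000000000000000000) := Q_24 (nat_lit 195) (C_24 L10063 (C_24 L10244 (C_24 L10247 (C_24 L10255 N_24)))) (by decide +kernel)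
theorem L10257 : W_24 (nat_lit 2) (nat_lit 0x40006000200010001000080000000000000000000000000000000) (nat_lit 0x0) (nat_lit 0x10000800000000000100000000000000000000000000000000000000000000) := D_24 (nat_lit 227) (nat_lit 244) (nat_lit 176) (nat_lit 6) (nat_lit 6) (nat_lit 14) (nat_lit 6) (nat_lit 6) (nat_lit 13) (by decide +kernel)
theorem L10258 : W_24 (nat_lit 3) (nat_lit 0x40006000200000001000080000000000000000000000000000000) (nat_lit 0x0) (nat_lit 0x10000800000000000100010000800000000000000000000000000000000000) := T_24 (nat_lit 160) (nat_lit 143) (nat_lit 6) (nat_lit 7) (nat_lit 11) L10257 (by decide +kernel)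
theorem L10259 : W_24 (nat_lit 11) (nat_lit 0x6000200000001000080000000000000000000000000000000) (nat_lit 0x0) (nat_lit 0x70007c00fe007f80398039e0054000f0015c000000000000000000000000000000) := Q_24 (nat_lit 210) (C_24 L10233 (C_24 L10256 (C_24 L10108 (C_24 L10258 N_24)))) (by decide +kernel)
theorem L10260 : W_24 (nat_lit 9) (nat_lit 0x4000e000200000001000080000000000000000000000000000000) (nat_lit 0x0) (nat_lit 0x30001800cc0014000f0015c000000000000000000000000000000) := Q_24 (nat_lit 192) (C_24 L10240 (C_24 L10064 N_24)) (by decide +kernel)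
theorem L10261 : W_24 (nat_lit 2) (nat_lit 0x24001f000280000001800080000000000000000000000000000000) (nat_lit 0x0) (nat_lit 0x1c00000000000000000000000000000000000000000000) := D_24 (nat_lit 179) (nat_lit 180) (nat_lit 178) (nat_lit 2) (nat_lit 6) (nat_lit 11) (nat_lit 2) (nat_lit 5) (nat_lit 11) (by decide +kernel)
theorem L10262 : W_24 (nat_lit 3) (nat_lit 0x24001e000280000001800080000000000000000000000000000000) (nat_lit 0x0) (nat_lit 0x1001c40000000000000000000000000000000000000000000) := T_24 (nat_lit 192) (nat_lit 174) (nat_lit 0) (nat_lit 8) (nat_lit 11) L10261 (by decide +kernel)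
theorem L10263 : W_24 (nat_lit 4) (nat_lit 0x4001e000280000001800080000000000000000000000000000000) (nat_lit 0x0) (nat_lit 0x600001001c40000000000000000000000000000000000000000000) := T_24 (nat_lit 213) (nat_lit 214) (nat_lit 3) (nat_lit 6) (nat_lit 11) L10262 (by decide +kernel)
theorem L10264 : W_24 (nat_lit 5) (nat_lit 0x4001e000200000001800080000000000000000000000000000000) (nat_lit 0x0) (nat_lit 0x600001001dc0000000000000000000000000000000000000000000) := T_24 (nat_lit 175) (nat_lit 176) (nat_lit 0) (nat_lit 9) (nat_lit 11) L10263 (by decide +kernel)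
theorem L10265 : W_24 (nat_lit 6) (nat_lit 0x4001e000200000001000080000000000000000000000000000000) (nat_lit 0x0) (nat_lit 0x600001001dc0010000800000000000000000000000000000000000) := T_24 (nat_lit 143) (nat_lit 160) (nat_lit 6) (nat_lit 7) (nat_lit 11) L10264 (by decide +kernel)
theorem L10266 : W_24 (nat_lit 7) (nat_lit 0x4000e000200000001000080000000000000000000000000000000) (nat_lit 0x0) (nat_lit 0x680031003dc0010000800000000000000000000000000000000000) := Q_24 (nat_lit 196) (C_24 L10062 (C_24 L10248 (C_24 L10265 N_24))) (by decide +kernel)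
theorem L10267 : W_24 (nat_lit 10) (nat_lit 0x40006000200000001000080000000000000000000000000000000) (nat_lit 0x0) (nat_lit 0x6b0039803dc0014000f0015c000000000000000000000000000000) := Q_24 (nat_lit 195) (C_24 L10063 (C_24 L10247 (C_24 L10260 (C_24 L10266 N_24)))) (by decide +kernel)
theorem L10268 : W_24 (nat_lit 5) (nat_lit 0x40007000200000001000080000000000000000000000000000000) (nat_lit 0x0) (nat_lit 0xbc008c001e0000000000000000000000000000000000000000000) := Q_24 (nat_lit 191) (C_24 L10122 (C_24 L9946 (C_24 L9943 N_24))) (by decide +kernel)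
theorem L10272 : W_24 (nat_lit 5) (nat_lit 0x4000f000600000001000080000000000000000000000000000000) (nat_lit 0x0) (nat_lit 0x100008000800700001c0000000000000000000000000000000000000000000) := T_24 (nat_lit 244) (nat_lit 227) (nat_lit 6) (nat_lit 6) (nat_lit 14) L10271 (by decide +kernel)
theorem L10273 : W_24 (nat_lit 6) (nat_lit 0x4000f000200000001000080000000000000000000000000000000) (nat_lit 0x0) (nat_lit 0x10000800080070000dc0000000000000000000000000000000000000000000) := T_24 (nat_lit 178) (nat_lit 179) (nat_lit 2) (nat_lit 5) (nat_lit 11) L10272 (by decide +kernel)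
theorem L10274 : W_24 (nat_lit 7) (nat_lit 0x40007000200000001000080000000000000000000000000000000) (nat_lit 0x0) (nat_lit 0x100008000b0078000dc0004000000000000000000000000000000000000000) := Q_24 (nat_lit 195) (C_24 L10152 (C_24 L8985 (C_24 L10273 N_24))) (by decide +kernel)
theorem L10278 : W_24 (nat_lit 8) (nat_lit 0x40006000200000001000080000000000000000000000000000000) (nat_lit 0x0) (nat_lit 0x100008000bc079c00de0004000000000000000000000000000000000000000) := Q_24 (nat_lit 192) (C_24 L10123 (C_24 L10268 (C_24 L9947 (C_24 L10274 (C_24 L10277 N_24))))) (by decide +kernel)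
theorem L10279 : W_24 (nat_lit 11) (nat_lit 0x6000200000001000080000000000000000000000000000000) (nat_lit 0x0) (nat_lit 0x100008006fc079c03de0014000f0015c000000000000000000000000000000) := Q_24 (nat_lit 210) (C_24 L10267 (C_24 L10108 (C_24 L10278 (C_24 L10258 N_24)))) (by decide +kernel)
theorem L10293 : W_24 (nat_lit 7) (nat_lit 0x7000200000001000080000000000000000000000000000000) (nat_lit 0x0) (nat_lit 0x400020007780188001e0010000800000000000000000000000000000000000) := Q_24 (nat_lit 195) (C_24 L8969 (C_24 L8056 (C_24 L10288 (C_24 L10292 N_24)))) (by decide +kernel)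
theorem L10294 : W_24 (nat_lit 9) (nat_lit 0x7000200000001000080000000000000000000000000000000) (nat_lit 0x0) (nat_lit 0x40002800770018000dc0016000a00000000000000000000000000000000000) := Q_24 (nat_lit 195) (C_24 L10193 (C_24 L10288 (C_24 L10292 (C_24 L8056 (C_24 L10049 N_24))))) (by decide +kernel)
theorem L10295 : W_24 (nat_lit 10) (nat_lit 0x6000200000001000080000000000000000000000000000000) (nat_lit 0x0) (nat_lit 0x4000280077c019c00df0016000a00000000000000000000000000000000000) := Q_24 (nat_lit 192) (C_24 L10059 (C_24 L10284 (C_24 L10293 (C_24 L10294 (C_24 L10037 N_24))))) (by decide +kernel)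
theorem L10296 : W_24 (nat_lit 2) (nat_lit 0x40003c00000006000200000001000080000000000000000000000000000000) (nat_lit 0x0) (nat_lit 0x300008000000000000000000000000000000000000000000000000) := D_24 (nat_lit 212) (nat_lit 213) (nat_lit 195) (nat_lit 2) (nat_lit 5) (nat_lit 13) (nat_lit 4) (nat_lit 8) (nat_lit 14) (by decide +kernel)
theorem L10297 : W_24 (nat_lit 3) (nat_lit 0x3c00000006000200000001000080000000000000000000000000000000) (nat_lit 0x0) (nat_lit 0xc0000000300008000000000000000000000000000000000000000000000000) := T_24 (nat_lit 246) (nat_lit 247) (nat_lit 3) (nat_lit 5) (nat_lit 13) L10296 (by decide +kernel)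
theorem L10298 : W_24 (nat_lit 2) (nat_lit 0x40003e00000006000200000001000080000000000000000000000000000000) (nat_lit 0x0) (nat_lit 0xe000000000000000000000000000000000000000000000000000000000000) := D_24 (nat_lit 242) (nat_lit 241) (nat_lit 243) (nat_lit 1) (nat_lit 7) (nat_lit 13) (nat_lit 1) (nat_lit 8) (nat_lit 13) (by decide +kernel)
theorem L10299 : W_24 (nat_lit 3) (nat_lit 0x40003c00000006000200000001000080000000000000000000000000000000) (nat_lit 0x0) (nat_lit 0x2e000200000000000000000000000000000000000000000000000000000000) := T_24 (nat_lit 225) (nat_lit 245) (nat_lit 3) (nat_lit 4) (nat_lit 13) L10298 (by decide +kernel)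
theorem L10300 : W_24 (nat_lit 4) (nat_lit 0x3c00000006000200000001000080000000000000000000000000000000) (nat_lit 0x0) (nat_lit 0xee000200000000000000000000000000000000000000000000000000000000) := T_24 (nat_lit 246) (nat_lit 247) (nat_lit 3) (nat_lit 5) (nat_lit 13) L10299 (by decide +kernel)
theorem L10301 : W_24 (nat_lit 2) (nat_lit 0x8003c00220006000200000001000080000000000000000000000000000000) (nat_lit 0x0) (nat_lit 0x10004000400000000000000000000000000000000000000000000000000000) := D_24 (nat_lit 230) (nat_lit 214) (nat_lit 244) (nat_lit 2) (nat_lit 6) (nat_lit 13) (nat_lit 1) (nat_lit 9) (nat_lit 13) (by decide +kernel)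
theorem L10302 : W_24 (nat_lit 3) (nat_lit 0x3c00220006000200000001000080000000000000000000000000000000) (nat_lit 0x0) (nat_lit 0x1c004000400000000000000000000000000000000000000000000000000000) := T_24 (nat_lit 243) (nat_lit 242) (nat_lit 1) (nat_lit 8) (nat_lit 13) L10301 (by decide +kernel)
theorem L10303 : W_24 (nat_lit 4) (nat_lit 0x3c00020006000200000001000080000000000000000000000000000000) (nat_lit 0x0) (nat_lit 0x1c004000700000000000000000000000000000000000000000000000000000) := T_24 (nat_lit 213) (nat_lit 212) (nat_lit 2) (nat_lit 5) (nat_lit 13) L10302 (by decide +kernel)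
theorem L10304 : W_24 (nat_lit 5) (nat_lit 0x3c00000006000200000001000080000000000000000000000000000000) (nat_lit 0x0) (nat_lit 0x1c004000730000000000000000000000000000000000000000000000000000) := T_24 (nat_lit 209) (nat_lit 208) (nat_lit 0) (nat_lit 8) (nat_lit 13) L10303 (by decide +kernel)
theorem L10305 : W_24 (nat_lit 6) (nat_lit 0x3800000006000200000001000080000000000000000000000000000000) (nat_lit 0x0) (nat_lit 0xfe004600730008000000000000000000000000000000000000000000000000) := Q_24 (nat_lit 226) (C_24 L10300 (C_24 L10304 (C_24 L10297 N_24))) (by decide +kernel)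
theorem L10306 : W_24 (nat_lit 2) (nat_lit 0xf800400006000200010001000080000000000000000000000000000000) (nat_lit 0x0) (nat_lit 0x38000000000000000000000000000000000000000000000000000000000000) := D_24 (nat_lit 244) (nat_lit 245) (nat_lit 243) (nat_lit 1) (nat_lit 10) (nat_lit 13) (nat_lit 1) (nat_lit 9) (nat_lit 13) (by decide +kernel)
theorem L10307 : W_24 (nat_lit 3) (nat_lit 0x7800400006000200010001000080000000000000000000000000000000) (nat_lit 0x0) (nat_lit 0x38008000800000000000000000000000000000000000000000000000000000) := T_24 (nat_lit 231) (nat_lit 215) (nat_lit 2) (nat_lit 7) (nat_lit 13) L10306 (by decide +kernel)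
theorem L10308 : W_24 (nat_lit 4) (nat_lit 0x7800400006000200000001000080000000000000000000000000000000) (nat_lit 0x0) (nat_lit 0x38008000800000000000010000800000000000000000000000000000000000) := T_24 (nat_lit 160) (nat_lit 143) (nat_lit 6) (nat_lit 7) (nat_lit 11) L10307 (by decide +kernel)
theorem L10309 : W_24 (nat_lit 5) (nat_lit 0x7800000006000200000001000080000000000000000000000000000000) (nat_lit 0x0) (nat_lit 0x38008000e00000000000010000800000000000000000000000000000000000) := T_24 (nat_lit 214) (nat_lit 213) (nat_lit 2) (nat_lit 6) (nat_lit 13) L10308 (by decide +kernel)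
theorem L10310 : W_24 (nat_lit 2) (nat_lit 0x18003e00010006000200010001000080000000000000000000000000000000) (nat_lit 0x0) (nat_lit 0x20000180000000000000000000000000000000000000000000000000000000) := D_24 (nat_lit 224) (nat_lit 223) (nat_lit 245) (nat_lit 3) (nat_lit 2) (nat_lit 13) (nat_lit 3) (nat_lit 3) (nat_lit 13) (by decide +kernel)
theorem L10311 : W_24 (nat_lit 3) (nat_lit 0x18003c00010006000200010001000080000000000000000000000000000000) (nat_lit 0x0) (nat_lit 0x20000380008000000000000000000000000000000000000000000000000000) := T_24 (nat_lit 225) (nat_lit 207) (nat_lit 0) (nat_lit 7) (nat_lit 13) L10310 (by decide +kernel)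
theorem L10312 : W_24 (nat_lit 4) (nat_lit 0x8003c00010006000200010001000080000000000000000000000000000000) (nat_lit 0x0) (nat_lit 0x30004380008000000000000000000000000000000000000000000000000000) := T_24 (nat_lit 244) (nat_lit 230) (nat_lit 1) (nat_lit 9) (nat_lit 13) L10311 (by decide +kernel)
theorem L10313 : W_24 (nat_lit 5) (nat_lit 0x8003c00000006000200010001000080000000000000000000000000000000) (nat_lit 0x0) (nat_lit 0x30004380038000000000000000000000000000000000000000000000000000) := T_24 (nat_lit 208) (nat_lit 209) (nat_lit 0) (nat_lit 8) (nat_lit 13) L10312 (by decide +kernel)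
theorem L10314 : W_24 (nat_lit 6) (nat_lit 0x3c00000006000200010001000080000000000000000000000000000000) (nat_lit 0x0) (nat_lit 0x3c004380038000000000000000000000000000000000000000000000000000) := T_24 (nat_lit 243) (nat_lit 242) (nat_lit 1) (nat_lit 8) (nat_lit 13) L10313 (by decide +kernel)
theorem L10315 : W_24 (nat_lit 7) (nat_lit 0x3c00000006000200000001000080000000000000000000000000000000) (nat_lit 0x0) (nat_lit 0x3c004380038000000000010000800000000000000000000000000000000000) := T_24 (nat_lit 160) (nat_lit 143) (nat_lit 6) (nat_lit 7) (nat_lit 11) L10314 (by decide +kernel)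
theorem L10316 : W_24 (nat_lit 2) (nat_lit 0x88003c00000006000200000001000080000000000000000000000000000000) (nat_lit 0x0) (nat_lit 0x110004000000000000000000000000000000000000000000000000000000000) := D_24 (nat_lit 230) (nat_lit 244) (nat_lit 248) (nat_lit 1) (nat_lit 9) (nat_lit 13) (nat_lit 3) (nat_lit 6) (nat_lit 13) (by decide +kernel)
theorem L10317 : W_24 (nat_lit 3) (nat_lit 0x8003c00000006000200000001000080000000000000000000000000000000) (nat_lit 0x0) (nat_lit 0x1d0004000000000000000000000000000000000000000000000000000000000) := T_24 (nat_lit 247) (nat_lit 246) (nat_lit 3) (nat_lit 5) (nat_lit 13) L10316 (by decide +kernel)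
theorem L10318 : W_24 (nat_lit 4) (nat_lit 0x3c00000006000200000001000080000000000000000000000000000000) (nat_lit 0x0) (nat_lit 0x1dc004000000000000000000000000000000000000000000000000000000000) := T_24 (nat_lit 243) (nat_lit 242) (nat_lit 1) (nat_lit 8) (nat_lit 13) L10317 (by decide +kernel)
theorem L10319 : W_24 (nat_lit 2) (nat_lit 0x40003e00000006000200000001000080000000000000000000000000000000) (nat_lit 0x0) (nat_lit 0x38000000000000000000000000000000000000000000000000000) := D_24 (nat_lit 208) (nat_lit 209) (nat_lit 207) (nat_lit 0) (nat_lit 8) (nat_lit 13) (nat_lit 0) (nat_lit 7) (nat_lit 13) (by decide +kernel)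
theorem L10320 : W_24 (nat_lit 3) (nat_lit 0x40003c00000006000200000001000080000000000000000000000000000000) (nat_lit 0x0) (nat_lit 0x20000200038000000000000000000000000000000000000000000000000000) := T_24 (nat_lit 225) (nat_lit 245) (nat_lit 3) (nat_lit 4) (nat_lit 13) L10319 (by decide +kernel)
theorem L10321 : W_24 (nat_lit 4) (nat_lit 0x3c00000006000200000001000080000000000000000000000000000000) (nat_lit 0x0) (nat_lit 0xe0000200038000000000000000000000000000000000000000000000000000) := T_24 (nat_lit 246) (nat_lit 247) (nat_lit 3) (nat_lit 5) (nat_lit 13) L10320 (by decide +kernel)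
theorem L10322 : W_24 (nat_lit 8) (nat_lit 0x3800000006000200000001000080000000000000000000000000000000) (nat_lit 0x0) (nat_lit 0x1fe004780038000000000010000800000000000000000000000000000000000) := Q_24 (nat_lit 226) (C_24 L10300 (C_24 L10315 (C_24 L10318 (C_24 L10321 N_24)))) (by decide +kernel)
theorem L10323 : W_24 (nat_lit 2) (nat_lit 0x4003e0010000e000200010001000080000000000000000000000000000000) (nat_lit 0x0) (nat_lit 0x38000000000000000000000000000000000000000000000000000) := D_24 (nat_lit 208) (nat_lit 207) (nat_lit 209) (nat_lit 0) (nat_lit 7) (nat_lit 13) (nat_lit 0) (nat_lit 8) (nat_lit 13) (by decide +kernel)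
theorem L10324 : W_24 (nat_lit 3) (nat_lit 0x4003c0010000e000200010001000080000000000000000000000000000000) (nat_lit 0x0) (nat_lit 0x2000200038000000000000000000000000000000000000000000000000000) := T_24 (nat_lit 225) (nat_lit 241) (nat_lit 1) (nat_lit 7) (nat_lit 13) L10323 (by decide +kernel)
theorem L10325 : W_24 (nat_lit 2) (nat_lit 0x110007800000006000200000001000080000000000000000000000000000000) (nat_lit 0x0) (nat_lit 0x220008000000000000000000000000000000000000000000000000000000000) := D_24 (nat_lit 231) (nat_lit 245) (nat_lit 249) (nat_lit 1) (nat_lit 10) (nat_lit 13) (nat_lit 3) (nat_lit 7) (nat_lit 13) (by decide +kernel)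
theorem L10326 : W_24 (nat_lit 3) (nat_lit 0x10007800000006000200000001000080000000000000000000000000000000) (nat_lit 0x0) (nat_lit 0x3a0008000000000000000000000000000000000000000000000000000000000) := T_24 (nat_lit 248) (nat_lit 247) (nat_lit 3) (nat_lit 6) (nat_lit 13) L10325 (by decide +kernel)
theorem L10327 : W_24 (nat_lit 4) (nat_lit 0x7800000006000200000001000080000000000000000000000000000000) (nat_lit 0x0) (nat_lit 0x3b8008000000000000000000000000000000000000000000000000000000000) := T_24 (nat_lit 244) (nat_lit 243) (nat_lit 1) (nat_lit 9) (nat_lit 13) L10326 (by decide +kernel)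
theorem L10328 : W_24 (nat_lit 2) (nat_lit 0x80007800300006000200000001000080000000000000000000000000000000) (nat_lit 0x0) (nat_lit 0x20001000000000000000008000000000000000000000000000000000000000000000000) := D_24 (nat_lit 264) (nat_lit 195) (nat_lit 281) (nat_lit 4) (nat_lit 9) (nat_lit 15) (nat_lit 4) (nat_lit 9) (nat_lit 16) (by decide +kernel)
theorem L10329 : W_24 (nat_lit 3) (nat_lit 0x80007800200006000200000001000080000000000000000000000000000000) (nat_lit 0x0) (nat_lit 0x20001000000000400100008000000000000000000000000000000000000000000000000) := T_24 (nat_lit 212) (nat_lit 226) (nat_lit 2) (nat_lit 5) (nat_lit 13) L10328 (by decide +kernel)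
theorem L10330 : W_24 (nat_lit 4) (nat_lit 0x80007800000006000200000001000080000000000000000000000000000000) (nat_lit 0x0) (nat_lit 0x20001000000000400700008000000000000000000000000000000000000000000000000) := T_24 (nat_lit 213) (nat_lit 214) (nat_lit 2) (nat_lit 6) (nat_lit 13) L10329 (by decide +kernel)
theorem L10331 : W_24 (nat_lit 5) (nat_lit 0x7800000006000200000001000080000000000000000000000000000000) (nat_lit 0x0) (nat_lit 0x20001000180000400700008000000000000000000000000000000000000000000000000) := T_24 (nat_lit 247) (nat_lit 248) (nat_lit 3) (nat_lit 6) (nat_lit 13) L10330 (by decide +kernel)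
theorem L10332 : W_24 (nat_lit 6) (nat_lit 0x3800000006000200000001000080000000000000000000000000000000) (nat_lit 0x0) (nat_lit 0x200010003b800c400f00008000000010000800000000000000000000000000000000000) := Q_24 (nat_lit 230) (C_24 L10331 (C_24 L10327 (C_24 L10309 N_24))) (by decide +kernel)
theorem L10333 : W_24 (nat_lit 2) (nat_lit 0x4000280000001e000a00000001000080000000000000000000000000000000) (nat_lit 0x0) (nat_lit 0x4000600000000000000000000000000000000000000000000000000000) := D_24 (nat_lit 213) (nat_lit 230) (nat_lit 214) (nat_lit 5) (nat_lit 9) (nat_lit 10) (nat_lit 3) (nat_lit 6) (nat_lit 11) (by decide +kernel)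
theorem L10334 : W_24 (nat_lit 3) (nat_lit 0x280000001e000a00000001000080000000000000000000000000000000) (nat_lit 0x0) (nat_lit 0x40004000700000000000000000000000000000000000000000000000000000) := T_24 (nat_lit 246) (nat_lit 212) (nat_lit 6) (nat_lit 8) (nat_lit 14) L10333 (by decide +kernel)
theorem L10335 : W_24 (nat_lit 4) (nat_lit 0x280000001e000200000001000080000000000000000000000000000000) (nat_lit 0x0) (nat_lit 0x40004000700000001800000000000000000000000000000000000000000000) := T_24 (nat_lit 179) (nat_lit 180) (nat_lit 2) (nat_lit 6) (nat_lit 11) L10334 (by decide +kernel)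
theorem L10336 : W_24 (nat_lit 2) (nat_lit 0x8000680020001e000a00010001000080000000000000000000000000000000) (nat_lit 0x0) (nat_lit 0x2000100008000000000000000000000000000000000000000000000000000000000) := D_24 (nat_lit 248) (nat_lit 231) (nat_lit 265) (nat_lit 7) (nat_lit 9) (nat_lit 10) (nat_lit 7) (nat_lit 9) (nat_lit 11) (by decide +kernel)
theorem L10337 : W_24 (nat_lit 3) (nat_lit 0x680020001e000a00010001000080000000000000000000000000000000) (nat_lit 0x0) (nat_lit 0x2000180008000000000000400000000000000000000000000000000000000000000) := T_24 (nat_lit 247) (nat_lit 178) (nat_lit 4) (nat_lit 9) (nat_lit 14) L10336 (by decide +kernel)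
theorem L10338 : W_24 (nat_lit 4) (nat_lit 0x280020001e000a00010001000080000000000000000000000000000000) (nat_lit 0x0) (nat_lit 0x20001c000c000000000000400000000000000000000000000000000000000000000) := T_24 (nat_lit 230) (nat_lit 246) (nat_lit 5) (nat_lit 9) (nat_lit 10) L10337 (by decide +kernel)
theorem L10339 : W_24 (nat_lit 5) (nat_lit 0x280020001e000200010001000080000000000000000000000000000000) (nat_lit 0x0) (nat_lit 0x20001c000c000000000001c00000000000000000000000000000000000000000000) := T_24 (nat_lit 179) (nat_lit 180) (nat_lit 2) (nat_lit 6) (nat_lit 11) L10338 (by decide +kernel)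
theorem L10340 : W_24 (nat_lit 6) (nat_lit 0x280000001e000200010001000080000000000000000000000000000000) (nat_lit 0x0) (nat_lit 0x20001c000c000600000001c00000000000000000000000000000000000000000000) := T_24 (nat_lit 213) (nat_lit 214) (nat_lit 3) (nat_lit 6) (nat_lit 11) L10339 (by decide +kernel)
theorem L10341 : W_24 (nat_lit 7) (nat_lit 0x280000001e000200000001000080000000000000000000000000000000) (nat_lit 0x0) (nat_lit 0x20001c000c000600000001c00010000800000000000000000000000000000000000) := T_24 (nat_lit 160) (nat_lit 143) (nat_lit 6) (nat_lit 7) (nat_lit 11) L10340 (by decide +kernel)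
theorem L10342 : W_24 (nat_lit 2) (nat_lit 0x8000680020001e000b00000001000080000000000000000000000000000000) (nat_lit 0x0) (nat_lit 0x100009000000000000000000000000000000000000000000000000000000000) := D_24 (nat_lit 248) (nat_lit 228) (nat_lit 231) (nat_lit 3) (nat_lit 6) (nat_lit 13) (nat_lit 7) (nat_lit 9) (nat_lit 10) (by decide +kernel)
theorem L10343 : W_24 (nat_lit 3) (nat_lit 0x680020001e000b00000001000080000000000000000000000000000000) (nat_lit 0x0) (nat_lit 0x180009000000000000400000000000000000000000000000000000000000000) := T_24 (nat_lit 247) (nat_lit 178) (nat_lit 4) (nat_lit 9) (nat_lit 14) L10342 (by decide +kernel)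
theorem L10344 : W_24 (nat_lit 4) (nat_lit 0x280020001e000b00000001000080000000000000000000000000000000) (nat_lit 0x0) (nat_lit 0x1c000d000000000000400000000000000000000000000000000000000000000) := T_24 (nat_lit 230) (nat_lit 246) (nat_lit 5) (nat_lit 9) (nat_lit 10) L10343 (by decide +kernel)
theorem L10345 : W_24 (nat_lit 5) (nat_lit 0x280020001e000300000001000080000000000000000000000000000000) (nat_lit 0x0) (nat_lit 0x1c000d000000000001c00000000000000000000000000000000000000000000) := T_24 (nat_lit 179) (nat_lit 180) (nat_lit 2) (nat_lit 6) (nat_lit 11) L10344 (by decide +kernel)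
theorem L10346 : W_24 (nat_lit 6) (nat_lit 0x280020001e000200000001000080000000000000000000000000000000) (nat_lit 0x0) (nat_lit 0x1c000d000000000001d80000000000000000000000000000000000000000000) := T_24 (nat_lit 176) (nat_lit 175) (nat_lit 0) (nat_lit 9) (nat_lit 11) L10345 (by decide +kernel)
theorem L10347 : W_24 (nat_lit 7) (nat_lit 0x280000001e000200000001000080000000000000000000000000000000) (nat_lit 0x0) (nat_lit 0x1c000d000600000001d80000000000000000000000000000000000000000000) := T_24 (nat_lit 213) (nat_lit 214) (nat_lit 3) (nat_lit 6) (nat_lit 11) L10346 (by decide +kernel)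
theorem L10348 : W_24 (nat_lit 2) (nat_lit 0x280020001e000b00040001000080000000000000000000000000000000) (nat_lit 0x0) (nat_lit 0x400080004000000000000000000000000000000000000) := D_24 (nat_lit 163) (nat_lit 178) (nat_lit 146) (nat_lit 2) (nat_lit 6) (nat_lit 10) (nat_lit 6) (nat_lit 9) (nat_lit 12) (by decide +kernel)
theorem L10349 : W_24 (nat_lit 3) (nat_lit 0x280020001e000b00000001000080000000000000000000000000000000) (nat_lit 0x0) (nat_lit 0x1000000004000c0004000000000000000000000000000000000000) := T_24 (nat_lit 162) (nat_lit 212) (nat_lit 5) (nat_lit 9) (nat_lit 9) L10348 (by decide +kernel)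
theorem L10350 : W_24 (nat_lit 4) (nat_lit 0x280000001e000b00000001000080000000000000000000000000000000) (nat_lit 0x0) (nat_lit 0x7000000004000c0004000000000000000000000000000000000000) := T_24 (nat_lit 213) (nat_lit 214) (nat_lit 3) (nat_lit 6) (nat_lit 11) L10349 (by decide +kernel)
theorem L10351 : W_24 (nat_lit 5) (nat_lit 0x280000001e000a00000001000080000000000000000000000000000000) (nat_lit 0x0) (nat_lit 0x7000000005800c0004000000000000000000000000000000000000) := T_24 (nat_lit 176) (nat_lit 175) (nat_lit 0) (nat_lit 9) (nat_lit 11) L10350 (by decide +kernel)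
theorem L10352 : W_24 (nat_lit 6) (nat_lit 0x280000001e000200000001000080000000000000000000000000000000) (nat_lit 0x0) (nat_lit 0x700000001d800c0004000000000000000000000000000000000000) := T_24 (nat_lit 179) (nat_lit 180) (nat_lit 2) (nat_lit 6) (nat_lit 11) L10351 (by decide +kernel)
theorem L10353 : W_24 (nat_lit 2) (nat_lit 0x3800000006000200000001000080000000000000000000000000000000) (nat_lit 0x0) (nat_lit 0x50000000080000000000000000000000000000000000000000000000000000) := D_24 (nat_lit 211) (nat_lit 244) (nat_lit 246) (nat_lit 5) (nat_lit 7) (nat_lit 10) (nat_lit 7) (nat_lit 7) (nat_lit 10) (by decide +kernel)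
theorem L10354 : W_24 (nat_lit 2) (nat_lit 0x2000380018000e000200000001000080000000000000000000000000000000) (nat_lit 0x0) (nat_lit 0x600200000000000000000000000000000000000000000000000000000) := D_24 (nat_lit 226) (nat_lit 213) (nat_lit 225) (nat_lit 2) (nat_lit 5) (nat_lit 13) (nat_lit 2) (nat_lit 4) (nat_lit 13) (by decide +kernel)
theorem L10355 : W_24 (nat_lit 3) (nat_lit 0x2000380008000e000200000001000080000000000000000000000000000000) (nat_lit 0x0) (nat_lit 0x400000000600300000000000000000000000000000000000000000000000000000) := T_24 (nat_lit 212) (nat_lit 262) (nat_lit 6) (nat_lit 7) (nat_lit 15) L10354 (by decide +kernel)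
theorem L10356 : W_24 (nat_lit 4) (nat_lit 0x20003800080006000200000001000080000000000000000000000000000000) (nat_lit 0x0) (nat_lit 0x400000000600300008000400000000000000000000000000000000000000000000) := T_24 (nat_lit 195) (nat_lit 178) (nat_lit 6) (nat_lit 7) (nat_lit 14) L10355 (by decide +kernel)
theorem L10357 : W_24 (nat_lit 5) (nat_lit 0x3800080006000200000001000080000000000000000000000000000000) (nat_lit 0x0) (nat_lit 0x400020000600300008000500000000000000000000000000000000000000000000) := T_24 (nat_lit 245) (nat_lit 176) (nat_lit 4) (nat_lit 7) (nat_lit 14) L10356 (by decide +kernel)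
theorem L10358 : W_24 (nat_lit 6) (nat_lit 0x3800000006000200000001000080000000000000000000000000000000) (nat_lit 0x0) (nat_lit 0x400060000600380008000500000000000000000000000000000000000000000000) := T_24 (nat_lit 211) (nat_lit 246) (nat_lit 7) (nat_lit 7) (nat_lit 10) L10357 (by decide +kernel)
theorem L10359 : W_24 (nat_lit 6) (nat_lit 0x3800000006000200000001000080000000000000000000000000000000) (nat_lit 0x0) (nat_lit 0x400030000600380008000500000000000000000000000000000000000000000000) := T_24 (nat_lit 211) (nat_lit 244) (nat_lit 5) (nat_lit 7) (nat_lit 10) L10357 (by decide +kernel)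
theorem L10360 : W_24 (nat_lit 7) (nat_lit 0x2800000006000200000001000080000000000000000000000000000000) (nat_lit 0x0) (nat_lit 0x4000fe0056007b0008000500000000000000000000000000000000000000000000) := Q_24 (nat_lit 228) (C_24 L10305 (C_24 L10353 (C_24 L10358 (C_24 L10359 N_24)))) (by decide +kernel)
theorem L10361 : W_24 (nat_lit 2) (nat_lit 0x2800100006000200010001000080000000000000000000000000000000) (nat_lit 0x0) (nat_lit 0x40000000000008000400000000000000000000000000000000000000000000) := D_24 (nat_lit 195) (nat_lit 246) (nat_lit 178) (nat_lit 4) (nat_lit 8) (nat_lit 14) (nat_lit 4) (nat_lit 8) (nat_lit 13) (by decide +kernel)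
theorem L10362 : W_24 (nat_lit 3) (nat_lit 0x2800000006000200010001000080000000000000000000000000000000) (nat_lit 0x0) (nat_lit 0x40000000180008000400000000000000000000000000000000000000000000) := T_24 (nat_lit 212) (nat_lit 211) (nat_lit 7) (nat_lit 7) (nat_lit 9) L10361 (by decide +kernel)
theorem L10363 : W_24 (nat_lit 4) (nat_lit 0x2800000006000200000001000080000000000000000000000000000000) (nat_lit 0x0) (nat_lit 0x40000000180008000400010000800000000000000000000000000000000000) := T_24 (nat_lit 160) (nat_lit 143) (nat_lit 6) (nat_lit 7) (nat_lit 11) L10362 (by decide +kernel)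
theorem L10364 : W_24 (nat_lit 2) (nat_lit 0x2800080006000200010001000080000000000000000000000000000000) (nat_lit 0x0) (nat_lit 0x50001000000000000000000000000000000000000000000000000000000000) := D_24 (nat_lit 228) (nat_lit 244) (nat_lit 246) (nat_lit 5) (nat_lit 7) (nat_lit 10) (nat_lit 7) (nat_lit 7) (nat_lit 10) (by decide +kernel)
theorem L10365 : W_24 (nat_lit 3) (nat_lit 0x2800000006000200010001000080000000000000000000000000000000) (nat_lit 0x0) (nat_lit 0x50001000180000000000000000000000000000000000000000000000000000) := T_24 (nat_lit 211) (nat_lit 212) (nat_lit 7) (nat_lit 7) (nat_lit 9) L10364 (by decide +kernel)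
theorem L10366 : W_24 (nat_lit 4) (nat_lit 0x2800000006000200000001000080000000000000000000000000000000) (nat_lit 0x0) (nat_lit 0x50001000180000000000010000800000000000000000000000000000000000) := T_24 (nat_lit 160) (nat_lit 143) (nat_lit 6) (nat_lit 7) (nat_lit 11) L10365 (by decide +kernel)
theorem L10367 : W_24 (nat_lit 2) (nat_lit 0x40003e00000006000200010001000080000000000000000000000000000000) (nat_lit 0x0) (nat_lit 0xe000000000000000000000000000000000000000000000000000000000000) := D_24 (nat_lit 242) (nat_lit 241) (nat_lit 243) (nat_lit 1) (nat_lit 7) (nat_lit 13) (nat_lit 1) (nat_lit 8) (nat_lit 13) (by decide +kernel)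
theorem L10368 : W_24 (nat_lit 3) (nat_lit 0x40003c00000006000200010001000080000000000000000000000000000000) (nat_lit 0x0) (nat_lit 0x2e000200000000000000000000000000000000000000000000000000000000) := T_24 (nat_lit 225) (nat_lit 245) (nat_lit 3) (nat_lit 4) (nat_lit 13) L10367 (by decide +kernel)
theorem L10369 : W_24 (nat_lit 4) (nat_lit 0x40003800000006000200010001000080000000000000000000000000000000) (nat_lit 0x0) (nat_lit 0xae000600000000000000000000000000000000000000000000000000000000) := T_24 (nat_lit 226) (nat_lit 247) (nat_lit 3) (nat_lit 5) (nat_lit 13) L10368 (by decide +kernel)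
theorem L10370 : W_24 (nat_lit 5) (nat_lit 0x3800000006000200010001000080000000000000000000000000000000) (nat_lit 0x0) (nat_lit 0xee000600080000000000000000000000000000000000000000000000000000) := T_24 (nat_lit 246) (nat_lit 211) (nat_lit 7) (nat_lit 7) (nat_lit 10) L10369 (by decide +kernel)
theorem L10371 : W_24 (nat_lit 6) (nat_lit 0x3800000006000200000001000080000000000000000000000000000000) (nat_lit 0x0) (nat_lit 0xee000600080000000000010000800000000000000000000000000000000000) := T_24 (nat_lit 160) (nat_lit 143) (nat_lit 6) (nat_lit 7) (nat_lit 11) L10370 (by decide +kernel)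
theorem L10372 : W_24 (nat_lit 2) (nat_lit 0x1000f800000006000200010001000080000000000000000000000000000000) (nat_lit 0x0) (nat_lit 0x380000000000000000000000000000000000000000000000000000000000000) := D_24 (nat_lit 248) (nat_lit 247) (nat_lit 249) (nat_lit 3) (nat_lit 6) (nat_lit 13) (nat_lit 3) (nat_lit 7) (nat_lit 13) (by decide +kernel)
theorem L10373 : W_24 (nat_lit 3) (nat_lit 0x10007800000006000200010001000080000000000000000000000000000000) (nat_lit 0x0) (nat_lit 0x3a0008000000000000000000000000000000000000000000000000000000000) := T_24 (nat_lit 231) (nat_lit 245) (nat_lit 1) (nat_lit 10) (nat_lit 13) L10372 (by decide +kernel)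
theorem L10374 : W_24 (nat_lit 4) (nat_lit 0x10003800000006000200010001000080000000000000000000000000000000) (nat_lit 0x0) (nat_lit 0x3a800c000000000000000000000000000000000000000000000000000000000) := T_24 (nat_lit 230) (nat_lit 243) (nat_lit 1) (nat_lit 9) (nat_lit 13) L10373 (by decide +kernel)
theorem L10375 : W_24 (nat_lit 5) (nat_lit 0x10003800000006000200000001000080000000000000000000000000000000) (nat_lit 0x0) (nat_lit 0x3a800c000000000000000010000800000000000000000000000000000000000) := T_24 (nat_lit 160) (nat_lit 143) (nat_lit 6) (nat_lit 7) (nat_lit 11) L10374 (by decide +kernel)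
theorem L10376 : W_24 (nat_lit 6) (nat_lit 0x3800000006000200000001000080000000000000000000000000000000) (nat_lit 0x0) (nat_lit 0x3b800c000080000000000010000800000000000000000000000000000000000) := T_24 (nat_lit 244) (nat_lit 211) (nat_lit 5) (nat_lit 7) (nat_lit 10) L10375 (by decide +kernel)
theorem L10377 : W_24 (nat_lit 9) (nat_lit 0x2800000006000200000001000080000000000000000000000000000000) (nat_lit 0x0) (nat_lit 0x3fe00d7800b8000000000010000800000000000000000000000000000000000) := Q_24 (nat_lit 228) (C_24 L10353 (C_24 L10322 (C_24 L10371 (C_24 L10376 N_24)))) (by decide +kernel)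
theorem L10378 : W_24 (nat_lit 2) (nat_lit 0x280000000e000200010001000080000000000000000000000000000000) (nat_lit 0x0) (nat_lit 0x40000000100000000400000000000000000000000000000000000000000000) := D_24 (nat_lit 212) (nat_lit 178) (nat_lit 246) (nat_lit 4) (nat_lit 8) (nat_lit 13) (nat_lit 4) (nat_lit 8) (nat_lit 14) (by decide +kernel)
theorem L10379 : W_24 (nat_lit 3) (nat_lit 0x280000000e000200000001000080000000000000000000000000000000) (nat_lit 0x0) (nat_lit 0x40000000100000000400010000800000000000000000000000000000000000) := T_24 (nat_lit 160) (nat_lit 143) (nat_lit 6) (nat_lit 7) (nat_lit 11) L10378 (by decide +kernel)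
theorem L10380 : W_24 (nat_lit 2) (nat_lit 0x280000001e000200000001000080000000000000000000000000000000) (nat_lit 0x0) (nat_lit 0x20000180000000000000000000000000000000000000000000) := D_24 (nat_lit 176) (nat_lit 197) (nat_lit 175) (nat_lit 0) (nat_lit 10) (nat_lit 11) (nat_lit 0) (nat_lit 9) (nat_lit 11) (by decide +kernel)
theorem L10381 : W_24 (nat_lit 8) (nat_lit 0x280000000e000200000001000080000000000000000000000000000000) (nat_lit 0x0) (nat_lit 0x1c000d000700030001d800c0004000000000000000000000000000000000000) := Q_24 (nat_lit 196) (C_24 L10335 (C_24 L10352 (C_24 L10347 (C_24 L10380 N_24)))) (by decide +kernel)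
theorem L10382 : W_24 (nat_lit 5) (nat_lit 0x280000000e000200000001000080000000000000000000000000000000) (nat_lit 0x0) (nat_lit 0x40004000700030001980000000000000000000000000000000000000000000) := Q_24 (nat_lit 196) (C_24 L10335 (C_24 L10380 N_24)) (by decide +kernel)
theorem L10383 : W_24 (nat_lit 8) (nat_lit 0x280000000e000200000001000080000000000000000000000000000000) (nat_lit 0x0) (nat_lit 0x20001c000c000600030001d80010000800000000000000000000000000000000000) := Q_24 (nat_lit 196) (C_24 L10341 (C_24 L10380 N_24)) (by decide +kernel)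
theorem L10384 : W_24 (nat_lit 2) (nat_lit 0x280010001e000a00010001000080000000000000000000000000000000) (nat_lit 0x0) (nat_lit 0x600000000000040000000000000000000000000000000000000000) := D_24 (nat_lit 213) (nat_lit 214) (nat_lit 162) (nat_lit 3) (nat_lit 6) (nat_lit 11) (nat_lit 5) (nat_lit 9) (nat_lit 9) (by decide +kernel)
theorem L10385 : W_24 (nat_lit 3) (nat_lit 0x280010001e000200010001000080000000000000000000000000000000) (nat_lit 0x0) (nat_lit 0x600000001800040000000000000000000000000000000000000000) := T_24 (nat_lit 179) (nat_lit 180) (nat_lit 2) (nat_lit 6) (nat_lit 11) L10384 (by decide +kernel)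
theorem L10386 : W_24 (nat_lit 4) (nat_lit 0x280000001e000200010001000080000000000000000000000000000000) (nat_lit 0x0) (nat_lit 0x700000001c00040000000000000000000000000000000000000000) := T_24 (nat_lit 212) (nat_lit 178) (nat_lit 4) (nat_lit 8) (nat_lit 13) L10385 (by decide +kernel)
theorem L10387 : W_24 (nat_lit 5) (nat_lit 0x280000001e000200000001000080000000000000000000000000000000) (nat_lit 0x0) (nat_lit 0x700000001c00050000800000000000000000000000000000000000) := T_24 (nat_lit 160) (nat_lit 143) (nat_lit 6) (nat_lit 7) (nat_lit 11) L10386 (by decide +kernel)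
theorem L10388 : W_24 (nat_lit 6) (nat_lit 0x280000000e000200000001000080000000000000000000000000000000) (nat_lit 0x0) (nat_lit 0x700030001d80050000800000000000000000000000000000000000) := Q_24 (nat_lit 196) (C_24 L10387 (C_24 L10380 N_24)) (by decide +kernel)
theorem L10389 : W_24 (nat_lit 9) (nat_lit 0x2800000006000200000001000080000000000000000000000000000000) (nat_lit 0x0) (nat_lit 0x20001c000d000700038001d800d0004800000000000000000000000000000000000) := Q_24 (nat_lit 195) (C_24 L10379 (C_24 L10381 (C_24 L10382 (C_24 L10383 (C_24 L10388 N_24))))) (by decide +kernel)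
theorem L10390 : W_24 (nat_lit 4) (nat_lit 0x3c0010000e000200010001000080000000000000000000000000000000) (nat_lit 0x0) (nat_lit 0xe000200038000000000000000000000000000000000000000000000000000) := T_24 (nat_lit 242) (nat_lit 243) (nat_lit 1) (nat_lit 8) (nat_lit 13) L10324 (by decide +kernel)
theorem L10391 : W_24 (nat_lit 5) (nat_lit 0x380010000e000200010001000080000000000000000000000000000000) (nat_lit 0x0) (nat_lit 0xe000600238000000000000000000000000000000000000000000000000000) := T_24 (nat_lit 226) (nat_lit 213) (nat_lit 2) (nat_lit 5) (nat_lit 13) L10390 (by decide +kernel)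
theorem L10392 : W_24 (nat_lit 6) (nat_lit 0x3800100006000200010001000080000000000000000000000000000000) (nat_lit 0x0) (nat_lit 0xe000600238008000400000000000000000000000000000000000000000000) := T_24 (nat_lit 195) (nat_lit 178) (nat_lit 4) (nat_lit 8) (nat_lit 13) L10391 (by decide +kernel)
theorem L10393 : W_24 (nat_lit 7) (nat_lit 0x3800000006000200010001000080000000000000000000000000000000) (nat_lit 0x0) (nat_lit 0xe0006003b8008000400000000000000000000000000000000000000000000) := T_24 (nat_lit 212) (nat_lit 211) (nat_lit 7) (nat_lit 7) (nat_lit 9) L10392 (by decide +kernel)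
theorem L10394 : W_24 (nat_lit 8) (nat_lit 0x3800000006000200000001000080000000000000000000000000000000) (nat_lit 0x0) (nat_lit 0xe0006003b8008000400010000800000000000000000000000000000000000) := T_24 (nat_lit 160) (nat_lit 143) (nat_lit 6) (nat_lit 7) (nat_lit 11) L10393 (by decide +kernel)
theorem L10395 : W_24 (nat_lit 9) (nat_lit 0x2800000006000200000001000080000000000000000000000000000000) (nat_lit 0x0) (nat_lit 0x200014003be00d600fb8008000500010000800000000000000000000000000000000000) := Q_24 (nat_lit 228) (C_24 L10376 (C_24 L10359 (C_24 L10332 (C_24 L10394 N_24)))) (by decide +kernel)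
theorem L10396 : W_24 (nat_lit 10) (nat_lit 0x800000006000200000001000080000000000000000000000000000000) (nat_lit 0x0) (nat_lit 0x200034003fe00f780fb8038001d800d0004800000000000000000000000000000000000) := Q_24 (nat_lit 229) (C_24 L10360 (C_24 L10363 (C_24 L10366 (C_24 L10377 (C_24 L10389 (C_24 L10395 N_24)))))) (by decide +kernel)
theorem L10397 : W_24 (nat_lit 2) (nat_lit 0x800000006000200010001000080000000000000000000000000000000) (nat_lit 0x0) (nat_lit 0x100000000c0000000000000000000000000000000000000000000000000000) := D_24 (nat_lit 210) (nat_lit 211) (nat_lit 244) (nat_lit 5) (nat_lit 7) (nat_lit 9) (nat_lit 6) (nat_lit 6) (nat_lit 14) (by decide +kernel)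
theorem L10398 : W_24 (nat_lit 3) (nat_lit 0x800000006000200000001000080000000000000000000000000000000) (nat_lit 0x0) (nat_lit 0x100000000c0000000000010000800000000000000000000000000000000000) := T_24 (nat_lit 160) (nat_lit 143) (nat_lit 6) (nat_lit 7) (nat_lit 11) L10397 (by decide +kernel)
theorem L10399 : W_24 (nat_lit 2) (nat_lit 0x6000180008000e000200000001000080000000000000000000000000000000) (nat_lit 0x0) (nat_lit 0x400000000000140000000000000000000000000000000000000000000000000000) := D_24 (nat_lit 262) (nat_lit 210) (nat_lit 212) (nat_lit 4) (nat_lit 7) (nat_lit 15) (nat_lit 6) (nat_lit 7) (nat_lit 15) (by decide +kernel)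
theorem L10400 : W_24 (nat_lit 3) (nat_lit 0x60001800080006000200000001000080000000000000000000000000000000) (nat_lit 0x0) (nat_lit 0x400000000000140008000400000000000000000000000000000000000000000000) := T_24 (nat_lit 195) (nat_lit 178) (nat_lit 6) (nat_lit 7) (nat_lit 14) L10399 (by decide +kernel)
theorem L10401 : W_24 (nat_lit 4) (nat_lit 0x40001800080006000200000001000080000000000000000000000000000000) (nat_lit 0x0) (nat_lit 0xc00020000000140008000400000000000000000000000000000000000000000000) := T_24 (nat_lit 245) (nat_lit 263) (nat_lit 7) (nat_lit 7) (nat_lit 11) L10400 (by decide +kernel)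
theorem L10402 : W_24 (nat_lit 5) (nat_lit 0x1800080006000200000001000080000000000000000000000000000000) (nat_lit 0x0) (nat_lit 0xc00060002000140008000400000000000000000000000000000000000000000000) := T_24 (nat_lit 246) (nat_lit 229) (nat_lit 7) (nat_lit 7) (nat_lit 10) L10401 (by decide +kernel)
theorem L10403 : W_24 (nat_lit 2) (nat_lit 0x400020003800080006000200000001000080000000000000000000000000000000) (nat_lit 0x0) (nat_lit 0x8000000000000000100008000000000000000000000000000000000000000000000000) := D_24 (nat_lit 212) (nat_lit 195) (nat_lit 279) (nat_lit 6) (nat_lit 7) (nat_lit 15) (nat_lit 6) (nat_lit 7) (nat_lit 16) (by decide +kernel)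
theorem L10404 : W_24 (nat_lit 3) (nat_lit 0x20003800080006000200000001000080000000000000000000000000000000) (nat_lit 0x0) (nat_lit 0x8000400000000000140008000000000000000000000000000000000000000000000000) := T_24 (nat_lit 262) (nat_lit 210) (nat_lit 4) (nat_lit 7) (nat_lit 15) L10403 (by decide +kernel)
theorem L10405 : W_24 (nat_lit 4) (nat_lit 0x3800080006000200000001000080000000000000000000000000000000) (nat_lit 0x0) (nat_lit 0x8000400020000000140008000100000000000000000000000000000000000000000000) := T_24 (nat_lit 245) (nat_lit 176) (nat_lit 4) (nat_lit 7) (nat_lit 14) L10404 (by decide +kernel)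
theorem L10406 : W_24 (nat_lit 5) (nat_lit 0x1800080006000200000001000080000000000000000000000000000000) (nat_lit 0x0) (nat_lit 0x8000400060002000140008000100000000000000000000000000000000000000000000) := T_24 (nat_lit 229) (nat_lit 246) (nat_lit 7) (nat_lit 7) (nat_lit 10) L10405 (by decide +kernel)
theorem L10407 : W_24 (nat_lit 2) (nat_lit 0x20001800080006000200000001000080000000000000000000000000000000) (nat_lit 0x0) (nat_lit 0x800040002000000000000000000000000000000000000000000000000000000000) := D_24 (nat_lit 246) (nat_lit 229) (nat_lit 263) (nat_lit 7) (nat_lit 7) (nat_lit 10) (nat_lit 7) (nat_lit 7) (nat_lit 11) (by decide +kernel)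
theorem L10408 : W_24 (nat_lit 3) (nat_lit 0x1800080006000200000001000080000000000000000000000000000000) (nat_lit 0x0) (nat_lit 0x800060002000000000000100000000000000000000000000000000000000000000) := T_24 (nat_lit 245) (nat_lit 176) (nat_lit 4) (nat_lit 7) (nat_lit 14) L10407 (by decide +kernel)
theorem L10409 : W_24 (nat_lit 2) (nat_lit 0x400020001800080006000200000001000080000000000000000000000000000000) (nat_lit 0x0) (nat_lit 0x10000800040000000000000000000000000000000000000000000000000000000000000) := D_24 (nat_lit 263) (nat_lit 246) (nat_lit 280) (nat_lit 7) (nat_lit 7) (nat_lit 11) (nat_lit 7) (nat_lit 7) (nat_lit 12) (by decide +kernel)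
theorem L10410 : W_24 (nat_lit 3) (nat_lit 0x20001800080006000200000001000080000000000000000000000000000000) (nat_lit 0x0) (nat_lit 0x10000c00040000000040000000000000000000000000000000000000000000000000000) := T_24 (nat_lit 262) (nat_lit 210) (nat_lit 4) (nat_lit 7) (nat_lit 15) L10409 (by decide +kernel)
theorem L10411 : W_24 (nat_lit 4) (nat_lit 0x1800080006000200000001000080000000000000000000000000000000) (nat_lit 0x0) (nat_lit 0x10000c00060000000040000000100000000000000000000000000000000000000000000) := T_24 (nat_lit 245) (nat_lit 176) (nat_lit 4) (nat_lit 7) (nat_lit 14) L10410 (by decide +kernel)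
theorem L10412 : W_24 (nat_lit 2) (nat_lit 0x400020001800080006000200000001000080000000000000000000000000000000) (nat_lit 0x0) (nat_lit 0x100008000400000000000000000000000000000000000000000000) := D_24 (nat_lit 195) (nat_lit 178) (nat_lit 212) (nat_lit 6) (nat_lit 7) (nat_lit 14) (nat_lit 6) (nat_lit 7) (nat_lit 15) (by decide +kernel)
theorem L10413 : W_24 (nat_lit 3) (nat_lit 0x20001800080006000200000001000080000000000000000000000000000000) (nat_lit 0x0) (nat_lit 0x400000000000140008000400000000000000000000000000000000000000000000) := T_24 (nat_lit 262) (nat_lit 210) (nat_lit 4) (nat_lit 7) (nat_lit 15) L10412 (by decide +kernel)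
theorem L10414 : W_24 (nat_lit 4) (nat_lit 0x1800080006000200000001000080000000000000000000000000000000) (nat_lit 0x0) (nat_lit 0x400020000000140008000500000000000000000000000000000000000000000000) := T_24 (nat_lit 245) (nat_lit 176) (nat_lit 4) (nat_lit 7) (nat_lit 14) L10413 (by decide +kernel)
theorem L10415 : W_24 (nat_lit 2) (nat_lit 0x3c00080006000200000001000080000000000000000000000000000000) (nat_lit 0x0) (nat_lit 0x200300000000000000000000000000000000000000000000000000000) := D_24 (nat_lit 212) (nat_lit 213) (nat_lit 225) (nat_lit 2) (nat_lit 5) (nat_lit 13) (nat_lit 2) (nat_lit 4) (nat_lit 13) (by decide +kernel)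
theorem L10416 : W_24 (nat_lit 3) (nat_lit 0x1c00080006000200000001000080000000000000000000000000000000) (nat_lit 0x0) (nat_lit 0x40002200300000000000000000000000000000000000000000000000000000) := T_24 (nat_lit 229) (nat_lit 246) (nat_lit 7) (nat_lit 7) (nat_lit 10) L10415 (by decide +kernel)
theorem L10417 : W_24 (nat_lit 2) (nat_lit 0x8003c000a0006000200000001000080000000000000000000000000000000) (nat_lit 0x0) (nat_lit 0x4000040000000100000000000000000000000000000000000000000000) := D_24 (nat_lit 210) (nat_lit 176) (nat_lit 230) (nat_lit 5) (nat_lit 6) (nat_lit 10) (nat_lit 0) (nat_lit 9) (nat_lit 13) (by decide +kernel)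
theorem L10418 : W_24 (nat_lit 3) (nat_lit 0x8003c00080006000200000001000080000000000000000000000000000000) (nat_lit 0x0) (nat_lit 0x4000070000000100000000000000000000000000000000000000000000) := T_24 (nat_lit 209) (nat_lit 208) (nat_lit 0) (nat_lit 8) (nat_lit 13) L10417 (by decide +kernel)
theorem L10419 : W_24 (nat_lit 4) (nat_lit 0x3c00080006000200000001000080000000000000000000000000000000) (nat_lit 0x0) (nat_lit 0xc004000070000000100000000000000000000000000000000000000000000) := T_24 (nat_lit 243) (nat_lit 242) (nat_lit 1) (nat_lit 8) (nat_lit 13) L10418 (by decide +kernel)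
theorem L10420 : W_24 (nat_lit 5) (nat_lit 0x1c00080006000200000001000080000000000000000000000000000000) (nat_lit 0x0) (nat_lit 0x4c006000070000000100000000000000000000000000000000000000000000) := T_24 (nat_lit 229) (nat_lit 246) (nat_lit 7) (nat_lit 7) (nat_lit 10) L10419 (by decide +kernel)
theorem L10421 : W_24 (nat_lit 2) (nat_lit 0x1f00080006000200000001000080000000000000000000000000000000) (nat_lit 0x0) (nat_lit 0x7000000000000000000000000000000000000000000000000000000000000) := D_24 (nat_lit 241) (nat_lit 240) (nat_lit 242) (nat_lit 1) (nat_lit 6) (nat_lit 13) (nat_lit 1) (nat_lit 7) (nat_lit 13) (by decide +kernel)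
theorem L10422 : W_24 (nat_lit 3) (nat_lit 0x1e00080006000200000001000080000000000000000000000000000000) (nat_lit 0x0) (nat_lit 0x7000100040000000000000000000000000000000000000000000000000000) := T_24 (nat_lit 224) (nat_lit 210) (nat_lit 2) (nat_lit 3) (nat_lit 13) L10421 (by decide +kernel)
theorem L10423 : W_24 (nat_lit 4) (nat_lit 0x1c00080006000200000001000080000000000000000000000000000000) (nat_lit 0x0) (nat_lit 0x7000300140000000000000000000000000000000000000000000000000000) := T_24 (nat_lit 225) (nat_lit 212) (nat_lit 2) (nat_lit 4) (nat_lit 13) L10422 (by decide +kernel)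
theorem L10424 : W_24 (nat_lit 6) (nat_lit 0x1800080006000200000001000080000000000000000000000000000000) (nat_lit 0x0) (nat_lit 0x4f006700370000000100000000000000000000000000000000000000000000) := Q_24 (nat_lit 226) (C_24 L10416 (C_24 L10420 (C_24 L10423 N_24))) (by decide +kernel)
theorem L10425 : W_24 (nat_lit 7) (nat_lit 0x1800000006000200000001000080000000000000000000000000000000) (nat_lit 0x0) (nat_lit 0x18000c0006f0067003f0008000500000000000000000000000000000000000000000000) := Q_24 (nat_lit 211) (C_24 L10402 (C_24 L10406 (C_24 L10408 (C_24 L10411 (C_24 L10414 (C_24 L10424 N_24)))))) (by decide +kernel)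
theorem L10426 : W_24 (nat_lit 2) (nat_lit 0x1800000006000200000001000080000000000000000000000000000000) (nat_lit 0x0) (nat_lit 0x100000000c0000000000000000000000000000000000000000000000000000) := D_24 (nat_lit 244) (nat_lit 211) (nat_lit 210) (nat_lit 5) (nat_lit 7) (nat_lit 10) (nat_lit 6) (nat_lit 6) (nat_lit 14) (by decide +kernel)
theorem L10427 : W_24 (nat_lit 6) (nat_lit 0x1800000006000200000001000080000000000000000000000000000000) (nat_lit 0x0) (nat_lit 0x380004000400080001e0004000000000000000000000000000000000000000) := T_24 (nat_lit 210) (nat_lit 244) (nat_lit 6) (nat_lit 6) (nat_lit 14) L10209 (by decide +kernel)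
theorem L10428 : W_24 (nat_lit 4) (nat_lit 0x1800000006000200000001000080000000000000000000000000000000) (nat_lit 0x0) (nat_lit 0x800070002000080000000100000000000000000000000000000000000000000000) := T_24 (nat_lit 211) (nat_lit 244) (nat_lit 5) (nat_lit 7) (nat_lit 10) L10408 (by decide +kernel)
theorem L10429 : W_24 (nat_lit 8) (nat_lit 0x800000006000200000001000080000000000000000000000000000000) (nat_lit 0x0) (nat_lit 0x18000c0007f0077003f00080005e0004000000000000000000000000000000000000000) := Q_24 (nat_lit 228) (C_24 L10425 (C_24 L10426 (C_24 L10427 (C_24 L10428 N_24)))) (by decide +kernel)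
theorem L10431 : W_24 (nat_lit 3) (nat_lit 0x800000006000200000001000080000000000000000000000000000000) (nat_lit 0x0) (nat_lit 0x10000000040000000100010000800000000000000000000000000000000000) := T_24 (nat_lit 210) (nat_lit 244) (nat_lit 6) (nat_lit 6) (nat_lit 14) L10430 (by decide +kernel)
theorem L10432 : W_24 (nat_lit 2) (nat_lit 0x800000006000200010001000080000000000000000000000000000000) (nat_lit 0x0) (nat_lit 0xc0000000100000000000000000000000000000000000000000000) := D_24 (nat_lit 210) (nat_lit 211) (nat_lit 176) (nat_lit 5) (nat_lit 7) (nat_lit 9) (nat_lit 6) (nat_lit 6) (nat_lit 13) (by decide +kernel)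
theorem L10433 : W_24 (nat_lit 3) (nat_lit 0x800000006000200000001000080000000000000000000000000000000) (nat_lit 0x0) (nat_lit 0xc0000000100010000800000000000000000000000000000000000) := T_24 (nat_lit 160) (nat_lit 143) (nat_lit 6) (nat_lit 7) (nat_lit 11) L10432 (by decide +kernel)
theorem L10434 : W_24 (nat_lit 11) (nat_lit 0x6000200000001000080000000000000000000000000000000) (nat_lit 0x0) (nat_lit 0x38003c003ff00ff80ff8038001de00d4004800000000000000000000000000000000000) := Q_24 (nat_lit 227) (C_24 L10396 (C_24 L10398 (C_24 L10429 (C_24 L10431 (C_24 L10433 N_24))))) (by decide +kernel)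
theorem L10435 : W_24 (nat_lit 6) (nat_lit 0x7000200000001000080000000000000000000000000000000) (nat_lit 0x0) (nat_lit 0x1bc008c001f0000000000000000000000000000000000000000000) := Q_24 (nat_lit 191) (C_24 L10044 (C_24 L10040 (C_24 L10036 N_24))) (by decide +kernel)
theorem L10447 : W_24 (nat_lit 2) (nat_lit 0xf000600010001000080000000000000000000000000000000) (nat_lit 0x0) (nat_lit 0x2000300000000000000000000000000000000000000000000000000000) := D_24 (nat_lit 212) (nat_lit 229) (nat_lit 213) (nat_lit 4) (nat_lit 8) (nat_lit 13) (nat_lit 3) (nat_lit 5) (nat_lit 11) (by decide +kernel)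
theorem L10448 : W_24 (nat_lit 3) (nat_lit 0xf000600000001000080000000000000000000000000000000) (nat_lit 0x0) (nat_lit 0x2000300000000000010000800000000000000000000000000000000000) := T_24 (nat_lit 160) (nat_lit 143) (nat_lit 6) (nat_lit 7) (nat_lit 11) L10447 (by decide +kernel)
theorem L10449 : W_24 (nat_lit 4) (nat_lit 0xf000200000001000080000000000000000000000000000000) (nat_lit 0x0) (nat_lit 0x2000300000000c00010000800000000000000000000000000000000000) := T_24 (nat_lit 178) (nat_lit 179) (nat_lit 2) (nat_lit 5) (nat_lit 11) L10448 (by decide +kernel)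
theorem L10450 : W_24 (nat_lit 9) (nat_lit 0x7000200000001000080000000000000000000000000000000) (nat_lit 0x0) (nat_lit 0x40002000f30078001dc0010000800000000000000000000000000000000000) := Q_24 (nat_lit 195) (C_24 L10292 (C_24 L10186 (C_24 L10049 (C_24 L10442 (C_24 L10446 (C_24 L10449 N_24)))))) (by decide +kernel)
theorem L10451 : W_24 (nat_lit 10) (nat_lit 0x6000200000001000080000000000000000000000000000000) (nat_lit 0x0) (nat_lit 0x40002000fbc079c01df0010000800000000000000000000000000000000000) := Q_24 (nat_lit 192) (C_24 L10284 (C_24 L10059 (C_24 L10435 (C_24 L10450 (C_24 L10037 N_24))))) (by decide +kernel)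
theorem L10452 : W_24 (nat_lit 2) (nat_lit 0x4001f000a00010001000080000000000000000000000000000000) (nat_lit 0x0) (nat_lit 0x1c0000000000000000000000000000000000000000000) := D_24 (nat_lit 175) (nat_lit 174) (nat_lit 176) (nat_lit 0) (nat_lit 8) (nat_lit 11) (nat_lit 0) (nat_lit 9) (nat_lit 11) (by decide +kernel)
theorem L10453 : W_24 (nat_lit 3) (nat_lit 0x4001e000a00010001000080000000000000000000000000000000) (nat_lit 0x0) (nat_lit 0x10005c0000000000000000000000000000000000000000000) := T_24 (nat_lit 192) (nat_lit 178) (nat_lit 2) (nat_lit 5) (nat_lit 11) L10452 (by decide +kernel)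
theorem L10454 : W_24 (nat_lit 4) (nat_lit 0x4001e000200010001000080000000000000000000000000000000) (nat_lit 0x0) (nat_lit 0x1001dc0000000000000000000000000000000000000000000) := T_24 (nat_lit 179) (nat_lit 180) (nat_lit 2) (nat_lit 6) (nat_lit 11) L10453 (by decide +kernel)
theorem L10455 : W_24 (nat_lit 5) (nat_lit 0x4001e000200000001000080000000000000000000000000000000) (nat_lit 0x0) (nat_lit 0x1001dc0010000800000000000000000000000000000000000) := T_24 (nat_lit 160) (nat_lit 143) (nat_lit 6) (nat_lit 7) (nat_lit 11) L10454 (by decide +kernel)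
theorem L10456 : W_24 (nat_lit 6) (nat_lit 0x4000e000200000001000080000000000000000000000000000000) (nat_lit 0x0) (nat_lit 0x80031003dc0010000800000000000000000000000000000000000) := Q_24 (nat_lit 196) (C_24 L10062 (C_24 L10248 (C_24 L10455 N_24))) (by decide +kernel)
theorem L10457 : W_24 (nat_lit 10) (nat_lit 0x40006000200000001000080000000000000000000000000000000) (nat_lit 0x0) (nat_lit 0xb0039803dc0014000f0015c000000000000000000000000000000) := Q_24 (nat_lit 195) (C_24 L10260 (C_24 L10063 (C_24 L10247 (C_24 L10456 N_24)))) (by decide +kernel)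
theorem L10458 : W_24 (nat_lit 11) (nat_lit 0x6000200000001000080000000000000000000000000000000) (nat_lit 0x0) (nat_lit 0x100008000fc079c03de0014000f0015c000000000000000000000000000000) := Q_24 (nat_lit 210) (C_24 L10258 (C_24 L10457 (C_24 L10108 (C_24 L10278 N_24)))) (by decide +kernel)
theorem L10462 : W_24 (nat_lit 5) (nat_lit 0x4000e000200000001000080000000000000000000000000000000) (nat_lit 0x0) (nat_lit 0x20003b8001800c00010000800000000000000000000000000000000000) := Q_24 (nat_lit 192) (C_24 L10243 (C_24 L10064 (C_24 L10461 N_24))) (by decide +kernel)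
theorem L10466 : W_24 (nat_lit 7) (nat_lit 0x4000e000200000001000080000000000000000000000000000000) (nat_lit 0x0) (nat_lit 0x780031c03c00010000800000000000000000000000000000000000) := Q_24 (nat_lit 196) (C_24 L10090 (C_24 L10062 (C_24 L10465 N_24))) (by decide +kernel)
theorem L10467 : W_24 (nat_lit 8) (nat_lit 0x40006000200000001000080000000000000000000000000000000) (nat_lit 0x0) (nat_lit 0x20007b8039c03c00010000800000000000000000000000000000000000) := Q_24 (nat_lit 195) (C_24 L10091 (C_24 L10063 (C_24 L10462 (C_24 L10085 (C_24 L10466 N_24))))) (by decide +kernel)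
theorem L10474 : W_24 (nat_lit 8) (nat_lit 0x40007000200000001000080000000000000000000000000000000) (nat_lit 0x0) (nat_lit 0x10000c001bc008c00160002000100000000000000000000000000000000000) := Q_24 (nat_lit 191) (C_24 L9944 (C_24 L9946 (C_24 L10473 N_24))) (by decide +kernel)
theorem L10475 : W_24 (nat_lit 2) (nat_lit 0x5000000014001f000a00000001000080000000000000000000000000000000) (nat_lit 0x0) (nat_lit 0x80020000100000000000000000000000000000000000000000000) := D_24 (nat_lit 197) (nat_lit 211) (nat_lit 176) (nat_lit 1) (nat_lit 10) (nat_lit 11) (nat_lit 0) (nat_lit 10) (nat_lit 11) (by decide +kernel)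
theorem L10476 : W_24 (nat_lit 3) (nat_lit 0x5000000014000f000a00000001000080000000000000000000000000000000) (nat_lit 0x0) (nat_lit 0x80030001100000000000000000000000000000000000000000000) := T_24 (nat_lit 196) (nat_lit 180) (nat_lit 2) (nat_lit 6) (nat_lit 11) L10475 (by decide +kernel)
theorem L10477 : W_24 (nat_lit 4) (nat_lit 0x5000000014000f000200000001000080000000000000000000000000000000) (nat_lit 0x0) (nat_lit 0x80030001d00000000000000000000000000000000000000000000) := T_24 (nat_lit 179) (nat_lit 178) (nat_lit 2) (nat_lit 5) (nat_lit 11) L10476 (by decide +kernel)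
theorem L10478 : W_24 (nat_lit 5) (nat_lit 0x1000000014000f000200000001000080000000000000000000000000000000) (nat_lit 0x0) (nat_lit 0x40002000080030001d00000000000000000000000000000000000000000000) := T_24 (nat_lit 246) (nat_lit 229) (nat_lit 4) (nat_lit 8) (nat_lit 14) L10477 (by decide +kernel)
theorem L10479 : W_24 (nat_lit 6) (nat_lit 0x1000000004000f000200000001000080000000000000000000000000000000) (nat_lit 0x0) (nat_lit 0x40002000380030001d00000000000000000000000000000000000000000000) := T_24 (nat_lit 212) (nat_lit 213) (nat_lit 3) (nat_lit 5) (nat_lit 11) L10478 (by decide +kernel)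
theorem L10480 : W_24 (nat_lit 7) (nat_lit 0x4000f000200000001000080000000000000000000000000000000) (nat_lit 0x0) (nat_lit 0x50002800380030001d00000000000000000000000000000000000000000000) := T_24 (nat_lit 244) (nat_lit 227) (nat_lit 6) (nat_lit 6) (nat_lit 14) L10479 (by decide +kernel)
theorem L10481 : W_24 (nat_lit 9) (nat_lit 0x40007000200000001000080000000000000000000000000000000) (nat_lit 0x0) (nat_lit 0x100058006e003b0038001d00000000000000000000000000000000000000000000) := Q_24 (nat_lit 195) (C_24 L10152 (C_24 L8992 (C_24 L10480 N_24))) (by decide +kernel)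
theorem L10482 : W_24 (nat_lit 10) (nat_lit 0x40006000200000001000080000000000000000000000000000000) (nat_lit 0x0) (nat_lit 0x100058006e003bc039e01d60002000100000000000000000000000000000000000) := Q_24 (nat_lit 192) (C_24 L9947 (C_24 L10277 (C_24 L10119 (C_24 L10474 (C_24 L10481 N_24))))) (by decide +kernel)
theorem L10483 : W_24 (nat_lit 11) (nat_lit 0x6000200000001000080000000000000000000000000000000) (nat_lit 0x0) (nat_lit 0x100058006e007fc039e03d60012000900000000000000000000000000000000000) := Q_24 (nat_lit 210) (C_24 L10258 (C_24 L10467 (C_24 L10482 N_24))) (by decide +kernel)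
theorem L10491 : W_24 (nat_lit 9) (nat_lit 0x7000200000001000080000000000000000000000000000000) (nat_lit 0x0) (nat_lit 0xa001dc008c001f0014000a00000000000000000000000000000000000) := Q_24 (nat_lit 191) (C_24 L10040 (C_24 L10033 (C_24 L10036 (C_24 L10490 N_24)))) (by decide +kernel)
theorem L10492 : W_24 (nat_lit 9) (nat_lit 0x7000200000001000080000000000000000000000000000000) (nat_lit 0x0) (nat_lit 0x40002800740018001dc0016000a00000000000000000000000000000000000) := Q_24 (nat_lit 195) (C_24 L10449 (C_24 L10193 (C_24 L10292 (C_24 L10446 N_24)))) (by decide +kernel)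
theorem L10493 : W_24 (nat_lit 10) (nat_lit 0x6000200000001000080000000000000000000000000000000) (nat_lit 0x0) (nat_lit 0x40002a007dc019c01df0016000a00000000000000000000000000000000000) := Q_24 (nat_lit 192) (C_24 L10059 (C_24 L10034 (C_24 L10491 (C_24 L10492 N_24)))) (by decide +kernel)
theorem L10494 : W_24 (nat_lit 7) (nat_lit 0x40007000200000001000080000000000000000000000000000000) (nat_lit 0x0) (nat_lit 0x10001c000f800b8008000180004000000000000000000000000000000000000000) := Q_24 (nat_lit 209) (C_24 L10125 (C_24 L9968 N_24)) (by decide +kernel)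
theorem L10495 : W_24 (nat_lit 10) (nat_lit 0x40006000200000001000080000000000000000000000000000000) (nat_lit 0x0) (nat_lit 0x10005c006f803bc039e01d80004000000000000000000000000000000000000000) := Q_24 (nat_lit 192) (C_24 L9947 (C_24 L10481 (C_24 L10119 (C_24 L10494 (C_24 L10277 N_24))))) (by decide +kernel)
theorem L10496 : W_24 (nat_lit 11) (nat_lit 0x6000200000001000080000000000000000000000000000000) (nat_lit 0x0) (nat_lit 0x10005c006f807fc039e03d80014000800000000000000000000000000000000000) := Q_24 (nat_lit 210) (C_24 L10258 (C_24 L10467 (C_24 L10495 N_24))) (by decide +kernel)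
theorem L10497 : W_24 (nat_lit 12) (nat_lit 0x40006000200000001000080000000000000000000000000000000) (nat_lit 0x0) (nat_lit 0x400020007a0039c03dc0014000f0015c000000000000000000000000000000) := Q_24 (nat_lit 195) (C_24 L10466 (C_24 L10063 (C_24 L10105 (C_24 L10247 N_24)))) (by decide +kernel)
theorem L10498 : W_24 (nat_lit 3) (nat_lit 0x40007000200000001000080000000000000000000000000000000) (nat_lit 0x0) (nat_lit 0x180000c00400000000000000000000000000000000000000000000) := T_24 (nat_lit 191) (nat_lit 178) (nat_lit 2) (nat_lit 4) (nat_lit 11) L9944 (by decide +kernel)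
theorem L10501 : W_24 (nat_lit 4) (nat_lit 0x40007800200000001000080000000000000000000000000000000) (nat_lit 0x0) (nat_lit 0x10000800000000400170000000000000000000000000000000000000000000) := T_24 (nat_lit 244) (nat_lit 227) (nat_lit 6) (nat_lit 6) (nat_lit 14) L10500 (by decide +kernel)
theorem L10506 : W_24 (nat_lit 6) (nat_lit 0x40007800200000001000080000000000000000000000000000000) (nat_lit 0x0) (nat_lit 0x100008001a00380000e0000000000000000000000000000000000000000000) := T_24 (nat_lit 211) (nat_lit 212) (nat_lit 3) (nat_lit 4) (nat_lit 11) L10505 (by decide +kernel)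
theorem L10507 : W_24 (nat_lit 7) (nat_lit 0x40007000200000001000080000000000000000000000000000000) (nat_lit 0x0) (nat_lit 0x100008001a0038c001f0000000000000000000000000000000000000000000) := Q_24 (nat_lit 191) (C_24 L9944 (C_24 L9943 (C_24 L10501 (C_24 L10506 N_24)))) (by decide +kernel)
theorem L10510 : W_24 (nat_lit 2) (nat_lit 0x5000000014001f000600000001000080000000000000000000000000000000) (nat_lit 0x0) (nat_lit 0x80060000000000000000000000000000000000000000000000000) := D_24 (nat_lit 197) (nat_lit 198) (nat_lit 211) (nat_lit 0) (nat_lit 11) (nat_lit 11) (nat_lit 1) (nat_lit 10) (nat_lit 11) (by decide +kernel)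
theorem L10511 : W_24 (nat_lit 3) (nat_lit 0x5000000014000f000600000001000080000000000000000000000000000000) (nat_lit 0x0) (nat_lit 0xa0070000000000000000000000000000000000000000000000000) := T_24 (nat_lit 196) (nat_lit 209) (nat_lit 1) (nat_lit 9) (nat_lit 11) L10510 (by decide +kernel)
theorem L10512 : W_24 (nat_lit 4) (nat_lit 0x5000000014000f000200000001000080000000000000000000000000000000) (nat_lit 0x0) (nat_lit 0xa0070000c00000000000000000000000000000000000000000000) := T_24 (nat_lit 178) (nat_lit 179) (nat_lit 2) (nat_lit 5) (nat_lit 11) L10511 (by decide +kernel)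
theorem L10513 : W_24 (nat_lit 5) (nat_lit 0x1000000014000f000200000001000080000000000000000000000000000000) (nat_lit 0x0) (nat_lit 0x400020000a0070000c00000000000000000000000000000000000000000000) := T_24 (nat_lit 246) (nat_lit 229) (nat_lit 4) (nat_lit 8) (nat_lit 14) L10512 (by decide +kernel)
theorem L10514 : W_24 (nat_lit 6) (nat_lit 0x1000000004000f000200000001000080000000000000000000000000000000) (nat_lit 0x0) (nat_lit 0x400020003a0070000c00000000000000000000000000000000000000000000) := T_24 (nat_lit 212) (nat_lit 213) (nat_lit 3) (nat_lit 5) (nat_lit 11) L10513 (by decide +kernel)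
theorem L10515 : W_24 (nat_lit 7) (nat_lit 0x4000f000200000001000080000000000000000000000000000000) (nat_lit 0x0) (nat_lit 0x500028003a0070000c00000000000000000000000000000000000000000000) := T_24 (nat_lit 244) (nat_lit 227) (nat_lit 6) (nat_lit 6) (nat_lit 14) L10514 (by decide +kernel)
theorem L10516 : W_24 (nat_lit 2) (nat_lit 0x4001f000200000001000080000000000000000000000000000000) (nat_lit 0x0) (nat_lit 0x80020000100000000000000000000000000000000000000000000) := D_24 (nat_lit 197) (nat_lit 176) (nat_lit 211) (nat_lit 0) (nat_lit 10) (nat_lit 11) (nat_lit 1) (nat_lit 10) (nat_lit 11) (by decide +kernel)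
theorem L10517 : W_24 (nat_lit 3) (nat_lit 0x4000f000200000001000080000000000000000000000000000000) (nat_lit 0x0) (nat_lit 0xa0030000100000000000000000000000000000000000000000000) := T_24 (nat_lit 196) (nat_lit 209) (nat_lit 1) (nat_lit 9) (nat_lit 11) L10516 (by decide +kernel)
theorem L10518 : W_24 (nat_lit 8) (nat_lit 0x40007000200000001000080000000000000000000000000000000) (nat_lit 0x0) (nat_lit 0x500028003a0078000dc0004000200000000000000000000000000000000000) := Q_24 (nat_lit 195) (C_24 L10515 (C_24 L8979 (C_24 L10273 (C_24 L10517 N_24)))) (by decide +kernel)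
theorem L10519 : W_24 (nat_lit 9) (nat_lit 0x40006000200000001000080000000000000000000000000000000) (nat_lit 0x0) (nat_lit 0x500028003a0079c00df0004000200000000000000000000000000000000000) := Q_24 (nat_lit 192) (C_24 L10498 (C_24 L10507 (C_24 L10277 (C_24 L10509 (C_24 L10518 N_24))))) (by decide +kernel)
theorem L10520 : W_24 (nat_lit 13) (nat_lit 0x6000200000001000080000000000000000000000000000000) (nat_lit 0x0) (nat_lit 0x500028007e0079c03df0014000f0015c000000000000000000000000000000) := Q_24 (nat_lit 210) (C_24 L10258 (C_24 L10497 (C_24 L10108 (C_24 L10519 N_24)))) (by decide +kernel)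
theorem L10521 : W_24 (nat_lit 15) (nat_lit 0x4000200000001000080000000000000000000000000000000) (nat_lit 0x0) (nat_lit 0x38003f803ff00ff80ffc07bf03dfc0d7004f0015c000000000000000000000000000000) := Q_24 (nat_lit 193) (C_24 L10038 (C_24 L10060 (C_24 L10176 (C_24 L10195 (C_24 L10259 (C_24 L10279 (C_24 L10295 (C_24 L10434 (C_24 L10451 (C_24 L10458 (C_24 L10483 (C_24 L10493 (C_24 L10496 (C_24 L10520 N_24)))))))))))))) (by decide +kernel)
theorem L10524 : W_24 (nat_lit 2) (nat_lit 0x400034003000080006000200020001000080000000000000000000000000000000) (nat_lit 0x0) (nat_lit 0x8000000000000000100008000000000000000000000000000000000000000000000000) := D_24 (nat_lit 212) (nat_lit 195) (nat_lit 279) (nat_lit 6) (nat_lit 7) (nat_lit 15) (nat_lit 6) (nat_lit 7) (nat_lit 16) (by decide +kernel)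
theorem L10525 : W_24 (nat_lit 3) (nat_lit 0x34003000080006000200020001000080000000000000000000000000000000) (nat_lit 0x0) (nat_lit 0x8000400000000000140008000000000000000000000000000000000000000000000000) := T_24 (nat_lit 262) (nat_lit 210) (nat_lit 4) (nat_lit 7) (nat_lit 15) L10524 (by decide +kernel)
theorem L10526 : W_24 (nat_lit 4) (nat_lit 0x30003000080006000200020001000080000000000000000000000000000000) (nat_lit 0x0) (nat_lit 0x800040000c000000140008000000000000000000000000000000000000000000000000) := T_24 (nat_lit 242) (nat_lit 243) (nat_lit 2) (nat_lit 4) (nat_lit 14) L10525 (by decide +kernel)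
theorem L10527 : W_24 (nat_lit 5) (nat_lit 0x30003000080004000200020001000080000000000000000000000000000000) (nat_lit 0x0) (nat_lit 0x800040000c00000014000a000100000000000000000000000000000000000000000000) := T_24 (nat_lit 193) (nat_lit 176) (nat_lit 4) (nat_lit 7) (nat_lit 14) L10526 (by decide +kernel)
theorem L10528 : W_24 (nat_lit 6) (nat_lit 0x10003000080004000200020001000080000000000000000000000000000000) (nat_lit 0x0) (nat_lit 0x800060002c00000014000a000100000000000000000000000000000000000000000000) := T_24 (nat_lit 245) (nat_lit 261) (nat_lit 5) (nat_lit 7) (nat_lit 11) L10527 (by decide +kernel)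
theorem L10529 : W_24 (nat_lit 7) (nat_lit 0x3000080004000200020001000080000000000000000000000000000000) (nat_lit 0x0) (nat_lit 0x800060003c00080014000a000100000000000000000000000000000000000000000000) := T_24 (nat_lit 244) (nat_lit 227) (nat_lit 5) (nat_lit 7) (nat_lit 10) L10528 (by decide +kernel)
theorem L10530 : W_24 (nat_lit 8) (nat_lit 0x1000080004000200020001000080000000000000000000000000000000) (nat_lit 0x0) (nat_lit 0x800060007c00280014000a000100000000000000000000000000000000000000000000) := T_24 (nat_lit 229) (nat_lit 246) (nat_lit 7) (nat_lit 7) (nat_lit 10) L10529 (by decide +kernel)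
theorem L10531 : W_24 (nat_lit 9) (nat_lit 0x1000080004000200000001000080000000000000000000000000000000) (nat_lit 0x0) (nat_lit 0x800060007c00280014000a000500020000000000000000000000000000000000000000) := T_24 (nat_lit 161) (nat_lit 178) (nat_lit 6) (nat_lit 7) (nat_lit 13) L10530 (by decide +kernel)
theorem L10532 : W_24 (nat_lit 2) (nat_lit 0x400034003000080006000200000001000080000000000000000000000000000000) (nat_lit 0x0) (nat_lit 0x8000000000000000100008000000000000000000000000000000000000000000000000) := D_24 (nat_lit 212) (nat_lit 195) (nat_lit 279) (nat_lit 6) (nat_lit 7) (nat_lit 15) (nat_lit 6) (nat_lit 7) (nat_lit 16) (by decide +kernel)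
theorem L10533 : W_24 (nat_lit 3) (nat_lit 0x34003000080006000200000001000080000000000000000000000000000000) (nat_lit 0x0) (nat_lit 0x8000400000000000140008000000000000000000000000000000000000000000000000) := T_24 (nat_lit 262) (nat_lit 210) (nat_lit 4) (nat_lit 7) (nat_lit 15) L10532 (by decide +kernel)
theorem L10534 : W_24 (nat_lit 4) (nat_lit 0x30003000080006000200000001000080000000000000000000000000000000) (nat_lit 0x0) (nat_lit 0x800040000c000000140008000000000000000000000000000000000000000000000000) := T_24 (nat_lit 242) (nat_lit 243) (nat_lit 2) (nat_lit 4) (nat_lit 14) L10533 (by decide +kernel)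
theorem L10535 : W_24 (nat_lit 5) (nat_lit 0x30003000080004000200000001000080000000000000000000000000000000) (nat_lit 0x0) (nat_lit 0x800040000c00000014000a000100000000000000000000000000000000000000000000) := T_24 (nat_lit 193) (nat_lit 176) (nat_lit 4) (nat_lit 7) (nat_lit 14) L10534 (by decide +kernel)
theorem L10536 : W_24 (nat_lit 6) (nat_lit 0x10003000080004000200000001000080000000000000000000000000000000) (nat_lit 0x0) (nat_lit 0x800060002c00000014000a000100000000000000000000000000000000000000000000) := T_24 (nat_lit 245) (nat_lit 261) (nat_lit 5) (nat_lit 7) (nat_lit 11) L10535 (by decide +kernel)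
theorem L10537 : W_24 (nat_lit 7) (nat_lit 0x10001000080004000200000001000080000000000000000000000000000000) (nat_lit 0x0) (nat_lit 0x800060006c00200014000a000100000000000000000000000000000000000000000000) := T_24 (nat_lit 229) (nat_lit 246) (nat_lit 7) (nat_lit 7) (nat_lit 10) L10536 (by decide +kernel)
theorem L10538 : W_24 (nat_lit 8) (nat_lit 0x1000080004000200000001000080000000000000000000000000000000) (nat_lit 0x0) (nat_lit 0x800060007c00280014000a000100000000000000000000000000000000000000000000) := T_24 (nat_lit 244) (nat_lit 227) (nat_lit 5) (nat_lit 7) (nat_lit 10) L10537 (by decide +kernel)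
theorem L10539 : W_24 (nat_lit 2) (nat_lit 0x30001000080004000200020001000080000000000000000000000000000000) (nat_lit 0x0) (nat_lit 0x800040002000000000000000000000000000000000000000000000000000000000) := D_24 (nat_lit 246) (nat_lit 229) (nat_lit 263) (nat_lit 7) (nat_lit 7) (nat_lit 10) (nat_lit 7) (nat_lit 7) (nat_lit 11) (by decide +kernel)
theorem L10540 : W_24 (nat_lit 3) (nat_lit 0x10001000080004000200020001000080000000000000000000000000000000) (nat_lit 0x0) (nat_lit 0xa00060002000000000000000000000000000000000000000000000000000000000) := T_24 (nat_lit 245) (nat_lit 261) (nat_lit 5) (nat_lit 7) (nat_lit 11) L10539 (by decide +kernel)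
theorem L10541 : W_24 (nat_lit 4) (nat_lit 0x10001000080004000200000001000080000000000000000000000000000000) (nat_lit 0x0) (nat_lit 0xa00060002000000000000400020000000000000000000000000000000000000000) := T_24 (nat_lit 161) (nat_lit 178) (nat_lit 6) (nat_lit 7) (nat_lit 13) L10540 (by decide +kernel)
theorem L10542 : W_24 (nat_lit 5) (nat_lit 0x1000080004000200000001000080000000000000000000000000000000) (nat_lit 0x0) (nat_lit 0xa00070002800000000000400020000000000000000000000000000000000000000) := T_24 (nat_lit 244) (nat_lit 227) (nat_lit 5) (nat_lit 7) (nat_lit 10) L10541 (by decide +kernel)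
theorem L10543 : W_24 (nat_lit 2) (nat_lit 0x400020001800080006800600000001000080000000000000000000000000000000) (nat_lit 0x0) (nat_lit 0x10000800040000000000000000000000000000000000000000000000000000000000000) := D_24 (nat_lit 263) (nat_lit 246) (nat_lit 280) (nat_lit 7) (nat_lit 7) (nat_lit 11) (nat_lit 7) (nat_lit 7) (nat_lit 12) (by decide +kernel)
theorem L10544 : W_24 (nat_lit 3) (nat_lit 0x20001800080006800600000001000080000000000000000000000000000000) (nat_lit 0x0) (nat_lit 0x10000c00040000000040000000000000000000000000000000000000000000000000000) := T_24 (nat_lit 262) (nat_lit 210) (nat_lit 4) (nat_lit 7) (nat_lit 15) L10543 (by decide +kernel)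
theorem L10545 : W_24 (nat_lit 4) (nat_lit 0x20001800080006000600000001000080000000000000000000000000000000) (nat_lit 0x0) (nat_lit 0x10000c00040000000040001800000000000000000000000000000000000000000000000) := T_24 (nat_lit 191) (nat_lit 192) (nat_lit 2) (nat_lit 4) (nat_lit 11) L10544 (by decide +kernel)
theorem L10546 : W_24 (nat_lit 5) (nat_lit 0x20001800080004000600000001000080000000000000000000000000000000) (nat_lit 0x0) (nat_lit 0x10000c00040000000040003800100000000000000000000000000000000000000000000) := T_24 (nat_lit 193) (nat_lit 176) (nat_lit 4) (nat_lit 7) (nat_lit 14) L10545 (by decide +kernel)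
theorem L10547 : W_24 (nat_lit 6) (nat_lit 0x1800080004000600000001000080000000000000000000000000000000) (nat_lit 0x0) (nat_lit 0x10000c0006000000004000b800100000000000000000000000000000000000000000000) := T_24 (nat_lit 245) (nat_lit 195) (nat_lit 6) (nat_lit 7) (nat_lit 14) L10546 (by decide +kernel)
theorem L10548 : W_24 (nat_lit 7) (nat_lit 0x1800080004000200000001000080000000000000000000000000000000) (nat_lit 0x0) (nat_lit 0x10000c0006000000004000b800500020000000000000000000000000000000000000000) := T_24 (nat_lit 178) (nat_lit 161) (nat_lit 6) (nat_lit 7) (nat_lit 13) L10547 (by decide +kernel)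
theorem L10549 : W_24 (nat_lit 8) (nat_lit 0x1000080004000200000001000080000000000000000000000000000000) (nat_lit 0x0) (nat_lit 0x10000c0007000080004000b800500020000000000000000000000000000000000000000) := T_24 (nat_lit 227) (nat_lit 244) (nat_lit 5) (nat_lit 7) (nat_lit 10) L10548 (by decide +kernel)
theorem L10550 : W_24 (nat_lit 2) (nat_lit 0x3c00080004000600000001000080000000000000000000000000000000) (nat_lit 0x0) (nat_lit 0x200300000000000000000000000000000000000000000000000000000) := D_24 (nat_lit 212) (nat_lit 213) (nat_lit 225) (nat_lit 2) (nat_lit 5) (nat_lit 13) (nat_lit 2) (nat_lit 4) (nat_lit 13) (by decide +kernel)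
theorem L10551 : W_24 (nat_lit 3) (nat_lit 0x1c00080004000600000001000080000000000000000000000000000000) (nat_lit 0x0) (nat_lit 0x40002200300000000000000000000000000000000000000000000000000000) := T_24 (nat_lit 229) (nat_lit 246) (nat_lit 7) (nat_lit 7) (nat_lit 10) L10550 (by decide +kernel)
theorem L10552 : W_24 (nat_lit 4) (nat_lit 0x1c00080004000200000001000080000000000000000000000000000000) (nat_lit 0x0) (nat_lit 0x40002200300000000400020000000000000000000000000000000000000000) := T_24 (nat_lit 178) (nat_lit 161) (nat_lit 6) (nat_lit 7) (nat_lit 13) L10551 (by decide +kernel)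
theorem L10553 : W_24 (nat_lit 2) (nat_lit 0x1f00080004000200000001000080000000000000000000000000000000) (nat_lit 0x0) (nat_lit 0x7000000000000000000000000000000000000000000000000000000000000) := D_24 (nat_lit 241) (nat_lit 240) (nat_lit 242) (nat_lit 1) (nat_lit 6) (nat_lit 13) (nat_lit 1) (nat_lit 7) (nat_lit 13) (by decide +kernel)
theorem L10554 : W_24 (nat_lit 3) (nat_lit 0x1e00080004000200000001000080000000000000000000000000000000) (nat_lit 0x0) (nat_lit 0x7000100040000000000000000000000000000000000000000000000000000) := T_24 (nat_lit 224) (nat_lit 210) (nat_lit 2) (nat_lit 3) (nat_lit 13) L10553 (by decide +kernel)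
theorem L10555 : W_24 (nat_lit 4) (nat_lit 0x1c00080004000200000001000080000000000000000000000000000000) (nat_lit 0x0) (nat_lit 0x7000300140000000000000000000000000000000000000000000000000000) := T_24 (nat_lit 225) (nat_lit 212) (nat_lit 2) (nat_lit 4) (nat_lit 13) L10554 (by decide +kernel)
theorem L10556 : W_24 (nat_lit 2) (nat_lit 0x108007c004a0004000200020001000080000000000000000000000000000000) (nat_lit 0x0) (nat_lit 0x200008000800000000000000000000000000000000000000000000000000000) := D_24 (nat_lit 231) (nat_lit 249) (nat_lit 215) (nat_lit 3) (nat_lit 7) (nat_lit 13) (nat_lit 2) (nat_lit 7) (nat_lit 13) (by decide +kernel)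
theorem L10557 : W_24 (nat_lit 3) (nat_lit 0x108007c000a0004000200020001000080000000000000000000000000000000) (nat_lit 0x0) (nat_lit 0x200008000e00000000000000000000000000000000000000000000000000000) := T_24 (nat_lit 214) (nat_lit 213) (nat_lit 2) (nat_lit 6) (nat_lit 13) L10556 (by decide +kernel)
theorem L10558 : W_24 (nat_lit 4) (nat_lit 0x8007c000a0004000200020001000080000000000000000000000000000000) (nat_lit 0x0) (nat_lit 0x380008000e00000000000000000000000000000000000000000000000000000) := T_24 (nat_lit 248) (nat_lit 247) (nat_lit 3) (nat_lit 6) (nat_lit 13) L10557 (by decide +kernel)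
theorem L10559 : W_24 (nat_lit 5) (nat_lit 0x8003c000a0004000200020001000080000000000000000000000000000000) (nat_lit 0x0) (nat_lit 0x38000c000e40000000000000000000000000000000000000000000000000000) := T_24 (nat_lit 230) (nat_lit 210) (nat_lit 0) (nat_lit 9) (nat_lit 13) L10558 (by decide +kernel)
theorem L10560 : W_24 (nat_lit 6) (nat_lit 0x8003c000a0004000200000001000080000000000000000000000000000000) (nat_lit 0x0) (nat_lit 0x38000c000e40000000400020000000000000000000000000000000000000000) := T_24 (nat_lit 161) (nat_lit 178) (nat_lit 6) (nat_lit 7) (nat_lit 13) L10559 (by decide +kernel)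
theorem L10561 : W_24 (nat_lit 7) (nat_lit 0x8003c00080004000200000001000080000000000000000000000000000000) (nat_lit 0x0) (nat_lit 0x38000c000e70000000400020000000000000000000000000000000000000000) := T_24 (nat_lit 209) (nat_lit 208) (nat_lit 0) (nat_lit 8) (nat_lit 13) L10560 (by decide +kernel)
theorem L10562 : W_24 (nat_lit 8) (nat_lit 0x3c00080004000200000001000080000000000000000000000000000000) (nat_lit 0x0) (nat_lit 0x38c00c000e70000000400020000000000000000000000000000000000000000) := T_24 (nat_lit 243) (nat_lit 242) (nat_lit 1) (nat_lit 8) (nat_lit 13) L10561 (by decide +kernel)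
theorem L10563 : W_24 (nat_lit 9) (nat_lit 0x1c00080004000200000001000080000000000000000000000000000000) (nat_lit 0x0) (nat_lit 0x3cc00e000e70000000400020000000000000000000000000000000000000000) := T_24 (nat_lit 229) (nat_lit 246) (nat_lit 7) (nat_lit 7) (nat_lit 10) L10562 (by decide +kernel)
theorem L10564 : W_24 (nat_lit 10) (nat_lit 0x1800080004000200000001000080000000000000000000000000000000) (nat_lit 0x0) (nat_lit 0x3cf00e700f70000000400020000000000000000000000000000000000000000) := Q_24 (nat_lit 226) (C_24 L10552 (C_24 L10555 (C_24 L10563 N_24))) (by decide +kernel)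
theorem L10565 : W_24 (nat_lit 11) (nat_lit 0x1000080004000200000001000080000000000000000000000000000000) (nat_lit 0x0) (nat_lit 0x3df00ef00f70000000400020000000000000000000000000000000000000000) := T_24 (nat_lit 227) (nat_lit 244) (nat_lit 5) (nat_lit 7) (nat_lit 10) L10564 (by decide +kernel)
theorem L10566 : W_24 (nat_lit 12) (nat_lit 0x80004000200000001000080000000000000000000000000000000) (nat_lit 0x0) (nat_lit 0x18000e003ff00ff00f7000b800500020000000000000000000000000000000000000000) := Q_24 (nat_lit 228) (C_24 L10531 (C_24 L6226 (C_24 L10538 (C_24 L10542 (C_24 L10549 (C_24 L6229 (C_24 L10565 N_24))))))) (by decide +kernel)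
theorem L10567 : W_24 (nat_lit 4) (nat_lit 0x60001000080004000200000001000080000000000000000000000000000000) (nat_lit 0x0) (nat_lit 0x4000600010000000100008000400000000000000000000000000000000000000000000) := T_24 (nat_lit 195) (nat_lit 178) (nat_lit 6) (nat_lit 7) (nat_lit 14) L9237 (by decide +kernel)
theorem L10568 : W_24 (nat_lit 5) (nat_lit 0x40001000080004000200000001000080000000000000000000000000000000) (nat_lit 0x0) (nat_lit 0x4000e00030000000100008000400000000000000000000000000000000000000000000) := T_24 (nat_lit 245) (nat_lit 263) (nat_lit 7) (nat_lit 7) (nat_lit 11) L10567 (by decide +kernel)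
theorem L10569 : W_24 (nat_lit 6) (nat_lit 0x1000080004000200000001000080000000000000000000000000000000) (nat_lit 0x0) (nat_lit 0x4000e00070002000100008000400000000000000000000000000000000000000000000) := T_24 (nat_lit 246) (nat_lit 229) (nat_lit 7) (nat_lit 7) (nat_lit 10) L10568 (by decide +kernel)
theorem L10571 : W_24 (nat_lit 3) (nat_lit 0x3800080004000200000001000080000000000000000000000000000000) (nat_lit 0x0) (nat_lit 0x4000070000000000010000000000000000000000000000000000000000) := T_24 (nat_lit 210) (nat_lit 160) (nat_lit 5) (nat_lit 7) (nat_lit 9) L10570 (by decide +kernel)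
theorem L10572 : W_24 (nat_lit 4) (nat_lit 0x3000080004000200000001000080000000000000000000000000000000) (nat_lit 0x0) (nat_lit 0x10004800070000000000010000000000000000000000000000000000000000) := T_24 (nat_lit 227) (nat_lit 244) (nat_lit 5) (nat_lit 7) (nat_lit 10) L10571 (by decide +kernel)
theorem L10573 : W_24 (nat_lit 5) (nat_lit 0x1000080004000200000001000080000000000000000000000000000000) (nat_lit 0x0) (nat_lit 0x50006800070000000000010000000000000000000000000000000000000000) := T_24 (nat_lit 229) (nat_lit 246) (nat_lit 7) (nat_lit 7) (nat_lit 10) L10572 (by decide +kernel)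
theorem L10574 : W_24 (nat_lit 2) (nat_lit 0x400070001000080006000200000001000080000000000000000000000000000000) (nat_lit 0x0) (nat_lit 0x100008000400000000000000000000000000000000000000000000) := D_24 (nat_lit 195) (nat_lit 178) (nat_lit 212) (nat_lit 6) (nat_lit 7) (nat_lit 14) (nat_lit 6) (nat_lit 7) (nat_lit 15) (by decide +kernel)
theorem L10575 : W_24 (nat_lit 3) (nat_lit 0x70001000080006000200000001000080000000000000000000000000000000) (nat_lit 0x0) (nat_lit 0x400000000000140008000400000000000000000000000000000000000000000000) := T_24 (nat_lit 262) (nat_lit 210) (nat_lit 4) (nat_lit 7) (nat_lit 15) L10574 (by decide +kernel)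
theorem L10576 : W_24 (nat_lit 4) (nat_lit 0x30001000080006000200000001000080000000000000000000000000000000) (nat_lit 0x0) (nat_lit 0xc00040000000140008000400000000000000000000000000000000000000000000) := T_24 (nat_lit 246) (nat_lit 263) (nat_lit 7) (nat_lit 7) (nat_lit 11) L10575 (by decide +kernel)
theorem L10577 : W_24 (nat_lit 5) (nat_lit 0x30001000080004000200000001000080000000000000000000000000000000) (nat_lit 0x0) (nat_lit 0xc0004000000014000a000500000000000000000000000000000000000000000000) := T_24 (nat_lit 193) (nat_lit 176) (nat_lit 4) (nat_lit 7) (nat_lit 14) L10576 (by decide +kernel)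
theorem L10578 : W_24 (nat_lit 6) (nat_lit 0x10001000080004000200000001000080000000000000000000000000000000) (nat_lit 0x0) (nat_lit 0xe0006000000014000a000500000000000000000000000000000000000000000000) := T_24 (nat_lit 245) (nat_lit 261) (nat_lit 5) (nat_lit 7) (nat_lit 11) L10577 (by decide +kernel)
theorem L10579 : W_24 (nat_lit 7) (nat_lit 0x1000080004000200000001000080000000000000000000000000000000) (nat_lit 0x0) (nat_lit 0xe0007000080014000a000500000000000000000000000000000000000000000000) := T_24 (nat_lit 244) (nat_lit 227) (nat_lit 5) (nat_lit 7) (nat_lit 10) L10578 (by decide +kernel)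
theorem L10585 : W_24 (nat_lit 9) (nat_lit 0x80004000200000001000080000000000000000000000000000000) (nat_lit 0x0) (nat_lit 0xc000e0007c00780017000a000500010000000000000000000000000000000000000000) := Q_24 (nat_lit 228) (C_24 L10538 (C_24 L10569 (C_24 L10573 (C_24 L10579 (C_24 L10584 (C_24 L6741 N_24)))))) (by decide +kernel)
theorem L10586 : W_24 (nat_lit 13) (nat_lit 0x4000200000001000080000000000000000000000000000000) (nat_lit 0x0) (nat_lit 0x1c000e003ff00ff00ff000b800500030000000000000000000000000000000000000000) := Q_24 (nat_lit 211) (C_24 L6720 (C_24 L10566 (C_24 L6073 (C_24 L10585 N_24)))) (by decide +kernel)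
theorem L10587 : W_24 (nat_lit 2) (nat_lit 0x4000000010000f800280004001a00598000000000000000000000000000000) (nat_lit 0x0) (nat_lit 0x60001000000000000000000000000000) := D_24 (nat_lit 125) (nat_lit 126) (nat_lit 108) (nat_lit 3) (nat_lit 4) (nat_lit 7) (nat_lit 6) (nat_lit 5) (nat_lit 10) (by decide +kernel)
theorem L10588 : W_24 (nat_lit 3) (nat_lit 0x4000000010000f800280004001a00588000000000000000000000000000000) (nat_lit 0x0) (nat_lit 0x70001400000000000000000000000000) := T_24 (nat_lit 124) (nat_lit 106) (nat_lit 4) (nat_lit 5) (nat_lit 10) L10587 (by decide +kernel)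
theorem L10589 : W_24 (nat_lit 4) (nat_lit 0x4000000010000f800280004001a00580000000000000000000000000000000) (nat_lit 0x0) (nat_lit 0x100078001400000000000000000000000000) := T_24 (nat_lit 123) (nat_lit 140) (nat_lit 4) (nat_lit 5) (nat_lit 11) L10588 (by decide +kernel)
theorem L10590 : W_24 (nat_lit 5) (nat_lit 0x4000000010000f000280004001a00580000000000000000000000000000000) (nat_lit 0x0) (nat_lit 0x10000800000000000100078001400000000000000000000000000) := T_24 (nat_lit 191) (nat_lit 208) (nat_lit 5) (nat_lit 5) (nat_lit 8) L10589 (by decide +kernel)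
theorem L10591 : W_24 (nat_lit 6) (nat_lit 0x4000000010000f000280000001a00580000000000000000000000000000000) (nat_lit 0x0) (nat_lit 0x50000800000004000100078001400000000000000000000000000) := T_24 (nat_lit 158) (nat_lit 210) (nat_lit 7) (nat_lit 5) (nat_lit 8) L10590 (by decide +kernel)
theorem L10592 : W_24 (nat_lit 7) (nat_lit 0x4000000010000f000200000001a00580000000000000000000000000000000) (nat_lit 0x0) (nat_lit 0x500008000c0004000100078001400000000000000000000000000) := T_24 (nat_lit 175) (nat_lit 174) (nat_lit 0) (nat_lit 8) (nat_lit 11) L10591 (by decide +kernel)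
theorem L10593 : W_24 (nat_lit 8) (nat_lit 0x4000000010000f000200000001a00180000000000000000000000000000000) (nat_lit 0x0) (nat_lit 0x500008000c0004000100678001400000000000000000000000000) := T_24 (nat_lit 130) (nat_lit 129) (nat_lit 1) (nat_lit 11) (nat_lit 7) L10592 (by decide +kernel)
theorem L10594 : W_24 (nat_lit 9) (nat_lit 0x10000f000200000001a00180000000000000000000000000000000) (nat_lit 0x0) (nat_lit 0x400020000500008000c0004000100678001400000000000000000000000000) := T_24 (nat_lit 246) (nat_lit 229) (nat_lit 4) (nat_lit 8) (nat_lit 14) L10593 (by decide +kernel)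
theorem L10595 : W_24 (nat_lit 10) (nat_lit 0x10000f000200000001800180000000000000000000000000000000) (nat_lit 0x0) (nat_lit 0x400020000500008000c0004000700678001400000000000000000000000000) := T_24 (nat_lit 141) (nat_lit 142) (nat_lit 2) (nat_lit 5) (nat_lit 8) L10594 (by decide +kernel)
theorem L10596 : W_24 (nat_lit 11) (nat_lit 0xf000200000001800180000000000000000000000000000000) (nat_lit 0x0) (nat_lit 0x400020003500008000c0004000700678001400000000000000000000000000) := T_24 (nat_lit 212) (nat_lit 213) (nat_lit 3) (nat_lit 5) (nat_lit 11) L10595 (by decide +kernel)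
theorem L10597 : W_24 (nat_lit 2) (nat_lit 0x4000000010000f800280004001a00198000000000000000000000000000000) (nat_lit 0x0) (nat_lit 0x60001000000000000000000000000000) := D_24 (nat_lit 125) (nat_lit 126) (nat_lit 108) (nat_lit 3) (nat_lit 4) (nat_lit 7) (nat_lit 6) (nat_lit 5) (nat_lit 10) (by decide +kernel)
theorem L10598 : W_24 (nat_lit 3) (nat_lit 0x4000000010000f800280004001a00188000000000000000000000000000000) (nat_lit 0x0) (nat_lit 0x70001400000000000000000000000000) := T_24 (nat_lit 124) (nat_lit 106) (nat_lit 4) (nat_lit 5) (nat_lit 10) L10597 (by decide +kernel)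
theorem L10599 : W_24 (nat_lit 4) (nat_lit 0x4000000010000f800280004001a00180000000000000000000000000000000) (nat_lit 0x0) (nat_lit 0x100078001400000000000000000000000000) := T_24 (nat_lit 123) (nat_lit 140) (nat_lit 4) (nat_lit 5) (nat_lit 11) L10598 (by decide +kernel)
theorem L10600 : W_24 (nat_lit 5) (nat_lit 0x4000000010000f000280004001a00180000000000000000000000000000000) (nat_lit 0x0) (nat_lit 0x10000800000000000100078001400000000000000000000000000) := T_24 (nat_lit 191) (nat_lit 208) (nat_lit 5) (nat_lit 5) (nat_lit 8) L10599 (by decide +kernel)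
theorem L10601 : W_24 (nat_lit 6) (nat_lit 0x4000000010000f000280000001a00180000000000000000000000000000000) (nat_lit 0x0) (nat_lit 0x50000800000004000100078001400000000000000000000000000) := T_24 (nat_lit 158) (nat_lit 210) (nat_lit 7) (nat_lit 5) (nat_lit 8) L10600 (by decide +kernel)
theorem L10602 : W_24 (nat_lit 7) (nat_lit 0x10000f000280000001a00180000000000000000000000000000000) (nat_lit 0x0) (nat_lit 0x40002000050000800000004000100078001400000000000000000000000000) := T_24 (nat_lit 246) (nat_lit 229) (nat_lit 4) (nat_lit 8) (nat_lit 14) L10601 (by decide +kernel)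
theorem L10603 : W_24 (nat_lit 8) (nat_lit 0x10000f000280000001800180000000000000000000000000000000) (nat_lit 0x0) (nat_lit 0x40002000050000800000004000700078001400000000000000000000000000) := T_24 (nat_lit 141) (nat_lit 142) (nat_lit 2) (nat_lit 5) (nat_lit 8) L10602 (by decide +kernel)
theorem L10604 : W_24 (nat_lit 9) (nat_lit 0xf000280000001800180000000000000000000000000000000) (nat_lit 0x0) (nat_lit 0x40002000350000800000004000700078001400000000000000000000000000) := T_24 (nat_lit 212) (nat_lit 213) (nat_lit 3) (nat_lit 5) (nat_lit 11) L10603 (by decide +kernel)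
theorem L10605 : W_24 (nat_lit 10) (nat_lit 0xf000200000001800180000000000000000000000000000000) (nat_lit 0x0) (nat_lit 0x400020003500008000c0004000700078001400000000000000000000000000) := T_24 (nat_lit 175) (nat_lit 174) (nat_lit 0) (nat_lit 8) (nat_lit 11) L10604 (by decide +kernel)
theorem L10606 : W_24 (nat_lit 2) (nat_lit 0x4000000011000f800240002001b00580000000000000000000000000000000) (nat_lit 0x0) (nat_lit 0x1000080004000000000000000000000000000000) := D_24 (nat_lit 139) (nat_lit 122) (nat_lit 156) (nat_lit 4) (nat_lit 4) (nat_lit 11) (nat_lit 4) (nat_lit 4) (nat_lit 12) (by decide +kernel)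
theorem L10607 : W_24 (nat_lit 3) (nat_lit 0x4000000011000f800240002001a00580000000000000000000000000000000) (nat_lit 0x0) (nat_lit 0x1000180014000000000000000000000000000000) := T_24 (nat_lit 140) (nat_lit 124) (nat_lit 6) (nat_lit 4) (nat_lit 11) L10606 (by decide +kernel)
theorem L10608 : W_24 (nat_lit 4) (nat_lit 0x4000000011000f800240000001a00580000000000000000000000000000000) (nat_lit 0x0) (nat_lit 0x7000180014000000000000000000000000000000) := T_24 (nat_lit 157) (nat_lit 158) (nat_lit 6) (nat_lit 4) (nat_lit 12) L10607 (by decide +kernel)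
theorem L10609 : W_24 (nat_lit 5) (nat_lit 0x4000000010000f800240000001a00580000000000000000000000000000000) (nat_lit 0x0) (nat_lit 0x18000000000007000180014000000000000000000000000000000) := T_24 (nat_lit 208) (nat_lit 207) (nat_lit 1) (nat_lit 7) (nat_lit 11) L10608 (by decide +kernel)
theorem L10610 : W_24 (nat_lit 6) (nat_lit 0x10000f800240000001a00580000000000000000000000000000000) (nat_lit 0x0) (nat_lit 0x40002000018000000000007000180014000000000000000000000000000000) := T_24 (nat_lit 246) (nat_lit 229) (nat_lit 4) (nat_lit 8) (nat_lit 14) L10609 (by decide +kernel)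
theorem L10611 : W_24 (nat_lit 7) (nat_lit 0x10000f000240000001a00580000000000000000000000000000000) (nat_lit 0x0) (nat_lit 0x40002000018000800020007000180014000000000000000000000000000000) := T_24 (nat_lit 191) (nat_lit 173) (nat_lit 0) (nat_lit 7) (nat_lit 11) L10610 (by decide +kernel)
theorem L10612 : W_24 (nat_lit 8) (nat_lit 0xf000240000001a00580000000000000000000000000000000) (nat_lit 0x0) (nat_lit 0x40002000318000800020007000180014000000000000000000000000000000) := T_24 (nat_lit 212) (nat_lit 213) (nat_lit 3) (nat_lit 5) (nat_lit 11) L10611 (by decide +kernel)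
theorem L10613 : W_24 (nat_lit 9) (nat_lit 0xf000200000001a00580000000000000000000000000000000) (nat_lit 0x0) (nat_lit 0x400020003180008000e0007000180014000000000000000000000000000000) := T_24 (nat_lit 174) (nat_lit 175) (nat_lit 0) (nat_lit 8) (nat_lit 11) L10612 (by decide +kernel)
theorem L10614 : W_24 (nat_lit 10) (nat_lit 0xf000200000001a00180000000000000000000000000000000) (nat_lit 0x0) (nat_lit 0x400020003180008000e0007000180614000000000000000000000000000000) := T_24 (nat_lit 130) (nat_lit 129) (nat_lit 1) (nat_lit 11) (nat_lit 7) L10613 (by decide +kernel)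
theorem L10615 : W_24 (nat_lit 11) (nat_lit 0xf000200000001800180000000000000000000000000000000) (nat_lit 0x0) (nat_lit 0x400020003180008000e0007000780614000000000000000000000000000000) := T_24 (nat_lit 141) (nat_lit 142) (nat_lit 2) (nat_lit 5) (nat_lit 8) L10614 (by decide +kernel)
theorem L10616 : W_24 (nat_lit 2) (nat_lit 0xf800280004001a00598000000000000000000000000000000) (nat_lit 0x0) (nat_lit 0x60001000000000000000000000000000) := D_24 (nat_lit 125) (nat_lit 126) (nat_lit 108) (nat_lit 3) (nat_lit 4) (nat_lit 7) (nat_lit 6) (nat_lit 5) (nat_lit 10) (by decide +kernel)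
theorem L10617 : W_24 (nat_lit 3) (nat_lit 0xf800280004001a00588000000000000000000000000000000) (nat_lit 0x0) (nat_lit 0x70001400000000000000000000000000) := T_24 (nat_lit 124) (nat_lit 106) (nat_lit 4) (nat_lit 5) (nat_lit 10) L10616 (by decide +kernel)
theorem L10618 : W_24 (nat_lit 4) (nat_lit 0xf800280004001a00580000000000000000000000000000000) (nat_lit 0x0) (nat_lit 0x100078001400000000000000000000000000) := T_24 (nat_lit 123) (nat_lit 140) (nat_lit 4) (nat_lit 5) (nat_lit 11) L10617 (by decide +kernel)
theorem L10619 : W_24 (nat_lit 5) (nat_lit 0xf000280004001a00580000000000000000000000000000000) (nat_lit 0x0) (nat_lit 0x10000800000000000100078001400000000000000000000000000) := T_24 (nat_lit 191) (nat_lit 208) (nat_lit 5) (nat_lit 5) (nat_lit 8) L10618 (by decide +kernel)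
theorem L10620 : W_24 (nat_lit 6) (nat_lit 0xf000280000001a00580000000000000000000000000000000) (nat_lit 0x0) (nat_lit 0x50000800000004000100078001400000000000000000000000000) := T_24 (nat_lit 158) (nat_lit 210) (nat_lit 7) (nat_lit 5) (nat_lit 8) L10619 (by decide +kernel)
theorem L10621 : W_24 (nat_lit 7) (nat_lit 0xf000200000001a00580000000000000000000000000000000) (nat_lit 0x0) (nat_lit 0x500008000c0004000100078001400000000000000000000000000) := T_24 (nat_lit 175) (nat_lit 174) (nat_lit 0) (nat_lit 8) (nat_lit 11) L10620 (by decide +kernel)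
theorem L10622 : W_24 (nat_lit 8) (nat_lit 0xf000200000001a00180000000000000000000000000000000) (nat_lit 0x0) (nat_lit 0x500008000c0004000100678001400000000000000000000000000) := T_24 (nat_lit 130) (nat_lit 129) (nat_lit 1) (nat_lit 11) (nat_lit 7) L10621 (by decide +kernel)
theorem L10623 : W_24 (nat_lit 9) (nat_lit 0xf000200000001800180000000000000000000000000000000) (nat_lit 0x0) (nat_lit 0x500008000c0004000700678001400000000000000000000000000) := T_24 (nat_lit 141) (nat_lit 142) (nat_lit 2) (nat_lit 5) (nat_lit 8) L10622 (by decide +kernel)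
theorem L10624 : W_24 (nat_lit 2) (nat_lit 0x10000f000280000001c00180000000000000000000000000000000) (nat_lit 0x0) (nat_lit 0x640000000000000000000000000000000) := D_24 (nat_lit 129) (nat_lit 130) (nat_lit 126) (nat_lit 1) (nat_lit 11) (nat_lit 7) (nat_lit 1) (nat_lit 10) (nat_lit 7) (by decide +kernel)
theorem L10625 : W_24 (nat_lit 3) (nat_lit 0x10000f000280000001800180000000000000000000000000000000) (nat_lit 0x0) (nat_lit 0x600640000000000000000000000000000000) := T_24 (nat_lit 142) (nat_lit 141) (nat_lit 2) (nat_lit 5) (nat_lit 8) L10624 (by decide +kernel)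
theorem L10626 : W_24 (nat_lit 4) (nat_lit 0xf000280000001800180000000000000000000000000000000) (nat_lit 0x0) (nat_lit 0x300000000000000000600640000000000000000000000000000000) := T_24 (nat_lit 212) (nat_lit 213) (nat_lit 3) (nat_lit 5) (nat_lit 11) L10625 (by decide +kernel)
theorem L10627 : W_24 (nat_lit 5) (nat_lit 0xf000200000001800180000000000000000000000000000000) (nat_lit 0x0) (nat_lit 0x3000000000c0000000600640000000000000000000000000000000) := T_24 (nat_lit 175) (nat_lit 174) (nat_lit 0) (nat_lit 8) (nat_lit 11) L10626 (by decide +kernel)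
theorem L10628 : W_24 (nat_lit 2) (nat_lit 0x20001f000a800400058003e0010000000000000000000000000000) (nat_lit 0x0) (nat_lit 0x3800000000000000000000000000) := D_24 (nat_lit 108) (nat_lit 107) (nat_lit 109) (nat_lit 0) (nat_lit 9) (nat_lit 7) (nat_lit 0) (nat_lit 10) (nat_lit 7) (by decide +kernel)
theorem L10629 : W_24 (nat_lit 3) (nat_lit 0x20001f000a800400058003c0010000000000000000000000000000) (nat_lit 0x0) (nat_lit 0x2000b800000000000000000000000000) := T_24 (nat_lit 125) (nat_lit 111) (nat_lit 2) (nat_lit 6) (nat_lit 7) L10628 (by decide +kernel)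
theorem L10630 : W_24 (nat_lit 4) (nat_lit 0x20001f000a800400058003c0000000000000000000000000000000) (nat_lit 0x0) (nat_lit 0x2003b800000000000000000000000000) := T_24 (nat_lit 112) (nat_lit 113) (nat_lit 2) (nat_lit 7) (nat_lit 7) L10629 (by decide +kernel)
theorem L10631 : W_24 (nat_lit 5) (nat_lit 0x20001f000a80040005800380000000000000000000000000000000) (nat_lit 0x0) (nat_lit 0x800006003b800000000000000000000000000) := T_24 (nat_lit 126) (nat_lit 147) (nat_lit 3) (nat_lit 7) (nat_lit 7) L10630 (by decide +kernel)
theorem L10632 : W_24 (nat_lit 6) (nat_lit 0x20001f000a80040001800380000000000000000000000000000000) (nat_lit 0x0) (nat_lit 0x8000c00006003b800000000000000000000000000) := T_24 (nat_lit 146) (nat_lit 163) (nat_lit 6) (nat_lit 9) (nat_lit 12) L10631 (by decide +kernel)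
theorem L10633 : W_24 (nat_lit 7) (nat_lit 0x20001f000a80000001800380000000000000000000000000000000) (nat_lit 0x0) (nat_lit 0xe000c00006003b800000000000000000000000000) := T_24 (nat_lit 162) (nat_lit 161) (nat_lit 4) (nat_lit 9) (nat_lit 12) L10632 (by decide +kernel)
theorem L10634 : W_24 (nat_lit 8) (nat_lit 0x20001f000a00000001800380000000000000000000000000000000) (nat_lit 0x0) (nat_lit 0xc00e000c00006003b800000000000000000000000000) := T_24 (nat_lit 175) (nat_lit 174) (nat_lit 0) (nat_lit 8) (nat_lit 11) L10633 (by decide +kernel)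
theorem L10635 : W_24 (nat_lit 9) (nat_lit 0x20001f000200000001800380000000000000000000000000000000) (nat_lit 0x0) (nat_lit 0x18c00e000c00006003b800000000000000000000000000) := T_24 (nat_lit 179) (nat_lit 180) (nat_lit 2) (nat_lit 6) (nat_lit 11) L10634 (by decide +kernel)
theorem L10636 : W_24 (nat_lit 10) (nat_lit 0x20000f000200000001800380000000000000000000000000000000) (nat_lit 0x0) (nat_lit 0x4000100018c00e000c00006003b800000000000000000000000000) := T_24 (nat_lit 196) (nat_lit 214) (nat_lit 3) (nat_lit 6) (nat_lit 11) L10635 (by decide +kernel)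
theorem L10637 : W_24 (nat_lit 11) (nat_lit 0x20000f000200000001800180000000000000000000000000000000) (nat_lit 0x0) (nat_lit 0x4000100018c00e000c00066003b800000000000000000000000000) := T_24 (nat_lit 129) (nat_lit 130) (nat_lit 1) (nat_lit 11) (nat_lit 7) L10636 (by decide +kernel)
theorem L10638 : W_24 (nat_lit 12) (nat_lit 0xf000200000001800180000000000000000000000000000000) (nat_lit 0x0) (nat_lit 0x7000100018c00e000c00066003b800000000000000000000000000) := T_24 (nat_lit 213) (nat_lit 212) (nat_lit 3) (nat_lit 5) (nat_lit 11) L10637 (by decide +kernel)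
theorem L10639 : W_24 (nat_lit 2) (nat_lit 0x20001f000a00040005a003e0010000000000000000000000000000) (nat_lit 0x0) (nat_lit 0x100018000000000000000000000000000000) := D_24 (nat_lit 124) (nat_lit 140) (nat_lit 123) (nat_lit 1) (nat_lit 8) (nat_lit 7) (nat_lit 3) (nat_lit 4) (nat_lit 7) (by decide +kernel)
theorem L10640 : W_24 (nat_lit 3) (nat_lit 0x20001f000a00040005a003c0010000000000000000000000000000) (nat_lit 0x0) (nat_lit 0x100038008000000000000000000000000000) := T_24 (nat_lit 125) (nat_lit 111) (nat_lit 2) (nat_lit 6) (nat_lit 7) L10639 (by decide +kernel)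
theorem L10641 : W_24 (nat_lit 4) (nat_lit 0x20001f000a00040005a003c0000000000000000000000000000000) (nat_lit 0x0) (nat_lit 0x100038038000000000000000000000000000) := T_24 (nat_lit 112) (nat_lit 113) (nat_lit 2) (nat_lit 7) (nat_lit 7) L10640 (by decide +kernel)
theorem L10642 : W_24 (nat_lit 5) (nat_lit 0x20001f000a00040005a00380000000000000000000000000000000) (nat_lit 0x0) (nat_lit 0x8100078038000000000000000000000000000) := T_24 (nat_lit 126) (nat_lit 147) (nat_lit 3) (nat_lit 7) (nat_lit 7) L10641 (by decide +kernel)
theorem L10643 : W_24 (nat_lit 6) (nat_lit 0x20001f000a00040001a00380000000000000000000000000000000) (nat_lit 0x0) (nat_lit 0x8000c100078038000000000000000000000000000) := T_24 (nat_lit 146) (nat_lit 163) (nat_lit 6) (nat_lit 9) (nat_lit 12) L10642 (by decide +kernel)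
theorem L10644 : W_24 (nat_lit 7) (nat_lit 0x20001f000a00000001a00380000000000000000000000000000000) (nat_lit 0x0) (nat_lit 0xe000c100078038000000000000000000000000000) := T_24 (nat_lit 162) (nat_lit 161) (nat_lit 4) (nat_lit 9) (nat_lit 12) L10643 (by decide +kernel)
theorem L10645 : W_24 (nat_lit 8) (nat_lit 0x20001f000200000001a00380000000000000000000000000000000) (nat_lit 0x0) (nat_lit 0x18000e000c100078038000000000000000000000000000) := T_24 (nat_lit 179) (nat_lit 180) (nat_lit 2) (nat_lit 6) (nat_lit 11) L10644 (by decide +kernel)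
theorem L10646 : W_24 (nat_lit 9) (nat_lit 0x20000f000200000001a00380000000000000000000000000000000) (nat_lit 0x0) (nat_lit 0x4000100018000e000c100078038000000000000000000000000000) := T_24 (nat_lit 196) (nat_lit 214) (nat_lit 3) (nat_lit 6) (nat_lit 11) L10645 (by decide +kernel)
theorem L10647 : W_24 (nat_lit 10) (nat_lit 0xf000200000001a00380000000000000000000000000000000) (nat_lit 0x0) (nat_lit 0x7000100018000e000c100078038000000000000000000000000000) := T_24 (nat_lit 213) (nat_lit 212) (nat_lit 3) (nat_lit 5) (nat_lit 11) L10646 (by decide +kernel)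
theorem L10648 : W_24 (nat_lit 11) (nat_lit 0xf000200000001a00180000000000000000000000000000000) (nat_lit 0x0) (nat_lit 0x7000100018000e000c100678038000000000000000000000000000) := T_24 (nat_lit 129) (nat_lit 130) (nat_lit 1) (nat_lit 11) (nat_lit 7) L10647 (by decide +kernel)
theorem L10649 : W_24 (nat_lit 12) (nat_lit 0xf000200000001800180000000000000000000000000000000) (nat_lit 0x0) (nat_lit 0x7000100018000e000c700678038000000000000000000000000000) := T_24 (nat_lit 141) (nat_lit 142) (nat_lit 2) (nat_lit 5) (nat_lit 8) L10648 (by decide +kernel)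
theorem L10650 : W_24 (nat_lit 13) (nat_lit 0xf000200000001800080000000000000000000000000000000) (nat_lit 0x0) (nat_lit 0x400020007580108018e00e700c78077c03bc00000000000000000000000000) := Q_24 (nat_lit 128) (C_24 L10596 (C_24 L10605 (C_24 L10615 (C_24 L10623 (C_24 L10627 (C_24 L10638 (C_24 L10649 N_24))))))) (by decide +kernel)
theorem L10651 : W_24 (nat_lit 14) (nat_lit 0xf000200000001000080000000000000000000000000000000) (nat_lit 0x0) (nat_lit 0x400020007580108018e00f700cf8077c03bc00000000000000000000000000) := T_24 (nat_lit 143) (nat_lit 160) (nat_lit 6) (nat_lit 7) (nat_lit 11) L10650 (by decide +kernel)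
theorem L10652 : W_24 (nat_lit 2) (nat_lit 0x6000f000280010001000080000000000000000000000000000000) (nat_lit 0x0) (nat_lit 0x10000800000000000000004000000000000000000000000000000000000000) := D_24 (nat_lit 227) (nat_lit 244) (nat_lit 158) (nat_lit 6) (nat_lit 6) (nat_lit 14) (nat_lit 7) (nat_lit 5) (nat_lit 9) (by decide +kernel)
theorem L10653 : W_24 (nat_lit 3) (nat_lit 0x6000f000200010001000080000000000000000000000000000000) (nat_lit 0x0) (nat_lit 0x100008000000000000c0004000000000000000000000000000000000000000) := T_24 (nat_lit 175) (nat_lit 174) (nat_lit 0) (nat_lit 8) (nat_lit 11) L10652 (by decide +kernel)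
theorem L10654 : W_24 (nat_lit 4) (nat_lit 0x2000f000200010001000080000000000000000000000000000000) (nat_lit 0x0) (nat_lit 0x100008000400100000c0004000000000000000000000000000000000000000) := T_24 (nat_lit 210) (nat_lit 196) (nat_lit 1) (nat_lit 9) (nat_lit 11) L10653 (by decide +kernel)
theorem L10655 : W_24 (nat_lit 5) (nat_lit 0x2000f000200000001000080000000000000000000000000000000) (nat_lit 0x0) (nat_lit 0x100008000400100000c0014000800000000000000000000000000000000000) := T_24 (nat_lit 160) (nat_lit 143) (nat_lit 6) (nat_lit 7) (nat_lit 11) L10654 (by decide +kernel)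
theorem L10656 : W_24 (nat_lit 6) (nat_lit 0xf000200000001000080000000000000000000000000000000) (nat_lit 0x0) (nat_lit 0x100008000700100000c0014000800000000000000000000000000000000000) := T_24 (nat_lit 209) (nat_lit 208) (nat_lit 1) (nat_lit 8) (nat_lit 11) L10655 (by decide +kernel)
theorem L10657 : W_24 (nat_lit 2) (nat_lit 0x24001f000a80040001f00080000000000000000000000000000000) (nat_lit 0x0) (nat_lit 0x1c000000000000000000000000000000) := D_24 (nat_lit 123) (nat_lit 124) (nat_lit 122) (nat_lit 0) (nat_lit 8) (nat_lit 8) (nat_lit 0) (nat_lit 7) (nat_lit 8) (by decide +kernel)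
theorem L10658 : W_24 (nat_lit 3) (nat_lit 0x24001f000a80040001e00080000000000000000000000000000000) (nat_lit 0x0) (nat_lit 0x10005c000000000000000000000000000000) := T_24 (nat_lit 140) (nat_lit 126) (nat_lit 2) (nat_lit 4) (nat_lit 8) L10657 (by decide +kernel)
theorem L10659 : W_24 (nat_lit 4) (nat_lit 0x24001f000a80040001a00080000000000000000000000000000000) (nat_lit 0x0) (nat_lit 0x50015c000000000000000000000000000000) := T_24 (nat_lit 142) (nat_lit 128) (nat_lit 2) (nat_lit 5) (nat_lit 8) L10658 (by decide +kernel)
theorem L10660 : W_24 (nat_lit 5) (nat_lit 0x24001f000a80040001800080000000000000000000000000000000) (nat_lit 0x0) (nat_lit 0x400070015c000000000000000000000000000000) := T_24 (nat_lit 141) (nat_lit 158) (nat_lit 7) (nat_lit 5) (nat_lit 8) L10659 (by decide +kernel)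
theorem L10661 : W_24 (nat_lit 6) (nat_lit 0x24001f000a80000001800080000000000000000000000000000000) (nat_lit 0x0) (nat_lit 0x6400070015c000000000000000000000000000000) := T_24 (nat_lit 162) (nat_lit 161) (nat_lit 4) (nat_lit 9) (nat_lit 12) L10660 (by decide +kernel)
theorem L10662 : W_24 (nat_lit 7) (nat_lit 0x20001f000a80000001800080000000000000000000000000000000) (nat_lit 0x0) (nat_lit 0x6000000000006400070015c000000000000000000000000000000) := T_24 (nat_lit 210) (nat_lit 209) (nat_lit 1) (nat_lit 9) (nat_lit 11) L10661 (by decide +kernel)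
theorem L10663 : W_24 (nat_lit 8) (nat_lit 0x20001f000280000001800080000000000000000000000000000000) (nat_lit 0x0) (nat_lit 0x6000000180006400070015c000000000000000000000000000000) := T_24 (nat_lit 179) (nat_lit 180) (nat_lit 2) (nat_lit 6) (nat_lit 11) L10662 (by decide +kernel)
theorem L10664 : W_24 (nat_lit 9) (nat_lit 0x20000f000280000001800080000000000000000000000000000000) (nat_lit 0x0) (nat_lit 0x46001000180006400070015c000000000000000000000000000000) := T_24 (nat_lit 196) (nat_lit 214) (nat_lit 3) (nat_lit 6) (nat_lit 11) L10663 (by decide +kernel)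
theorem L10665 : W_24 (nat_lit 10) (nat_lit 0xf000280000001800080000000000000000000000000000000) (nat_lit 0x0) (nat_lit 0x76001000180006400070015c000000000000000000000000000000) := T_24 (nat_lit 213) (nat_lit 212) (nat_lit 3) (nat_lit 5) (nat_lit 11) L10664 (by decide +kernel)
theorem L10666 : W_24 (nat_lit 11) (nat_lit 0xf000280000001000080000000000000000000000000000000) (nat_lit 0x0) (nat_lit 0x760010001800074000f0015c000000000000000000000000000000) := T_24 (nat_lit 143) (nat_lit 160) (nat_lit 6) (nat_lit 7) (nat_lit 11) L10665 (by decide +kernel)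
theorem L10667 : W_24 (nat_lit 12) (nat_lit 0xf000200000001000080000000000000000000000000000000) (nat_lit 0x0) (nat_lit 0x7600100018c0074000f0015c000000000000000000000000000000) := T_24 (nat_lit 175) (nat_lit 174) (nat_lit 0) (nat_lit 8) (nat_lit 11) L10666 (by decide +kernel)
theorem L10668 : W_24 (nat_lit 15) (nat_lit 0xe000200000001000080000000000000000000000000000000) (nat_lit 0x0) (nat_lit 0x50002800f780318038e00f700cf8077c03bc00000000000000000000000000) := Q_24 (nat_lit 192) (C_24 L10651 (C_24 L8969 (C_24 L5302 (C_24 L10656 (C_24 L10288 (C_24 L10667 N_24)))))) (by decide +kernel)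
theorem L10669 : W_24 (nat_lit 2) (nat_lit 0xe000600010001000080000000000000000000000000000000) (nat_lit 0x0) (nat_lit 0x1001800000000000000000000000000000000000000000000) := D_24 (nat_lit 179) (nat_lit 180) (nat_lit 192) (nat_lit 1) (nat_lit 10) (nat_lit 10) (nat_lit 2) (nat_lit 5) (nat_lit 11) (by decide +kernel)
theorem L10670 : W_24 (nat_lit 3) (nat_lit 0xe000200010001000080000000000000000000000000000000) (nat_lit 0x0) (nat_lit 0x1001c00020000000000000000000000000000000000000000) := T_24 (nat_lit 178) (nat_lit 161) (nat_lit 5) (nat_lit 8) (nat_lit 7) L10669 (by decide +kernel)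
theorem L10671 : W_24 (nat_lit 4) (nat_lit 0xe000200000001000080000000000000000000000000000000) (nat_lit 0x0) (nat_lit 0x1001c00030000800000000000000000000000000000000000) := T_24 (nat_lit 160) (nat_lit 143) (nat_lit 6) (nat_lit 7) (nat_lit 11) L10670 (by decide +kernel)
theorem L10674 : W_24 (nat_lit 2) (nat_lit 0x10000680024001e000a00050001000080000000000000000000000000000000) (nat_lit 0x0) (nat_lit 0x2000080001000000000000000000000000000000000000000000000000000000000) := D_24 (nat_lit 247) (nat_lit 228) (nat_lit 265) (nat_lit 3) (nat_lit 6) (nat_lit 13) (nat_lit 7) (nat_lit 9) (nat_lit 11) (by decide +kernel)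
theorem L10675 : W_24 (nat_lit 3) (nat_lit 0x680024001e000a00050001000080000000000000000000000000000000) (nat_lit 0x0) (nat_lit 0x2000180009000000000000000000000000000000000000000000000000000000000) := T_24 (nat_lit 248) (nat_lit 231) (nat_lit 7) (nat_lit 9) (nat_lit 10) L10674 (by decide +kernel)
theorem L10676 : W_24 (nat_lit 4) (nat_lit 0x680024001e000a00040001000080000000000000000000000000000000) (nat_lit 0x0) (nat_lit 0x2000180009000000000000000010000800000000000000000000000000000000000) := T_24 (nat_lit 160) (nat_lit 143) (nat_lit 6) (nat_lit 7) (nat_lit 11) L10675 (by decide +kernel)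
theorem L10677 : W_24 (nat_lit 5) (nat_lit 0x280024001e000a00040001000080000000000000000000000000000000) (nat_lit 0x0) (nat_lit 0x20001c000d000000000000000010000800000000000000000000000000000000000) := T_24 (nat_lit 230) (nat_lit 246) (nat_lit 5) (nat_lit 9) (nat_lit 10) L10676 (by decide +kernel)
theorem L10678 : W_24 (nat_lit 6) (nat_lit 0x80024001e000a00040001000080000000000000000000000000000000) (nat_lit 0x0) (nat_lit 0x20001c000f000100000000000010000800000000000000000000000000000000000) := T_24 (nat_lit 229) (nat_lit 212) (nat_lit 5) (nat_lit 9) (nat_lit 9) L10677 (by decide +kernel)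
theorem L10679 : W_24 (nat_lit 7) (nat_lit 0x24001e000a00040001000080000000000000000000000000000000) (nat_lit 0x0) (nat_lit 0x20001d000f800100000000000010000800000000000000000000000000000000000) := T_24 (nat_lit 227) (nat_lit 244) (nat_lit 6) (nat_lit 6) (nat_lit 14) L10678 (by decide +kernel)
theorem L10680 : W_24 (nat_lit 8) (nat_lit 0x24001e000a00000001000080000000000000000000000000000000) (nat_lit 0x0) (nat_lit 0x20001d000f800100000000000070000800000000000000000000000000000000000) := T_24 (nat_lit 162) (nat_lit 161) (nat_lit 4) (nat_lit 9) (nat_lit 12) L10679 (by decide +kernel)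
theorem L10681 : W_24 (nat_lit 9) (nat_lit 0x20001e000a00000001000080000000000000000000000000000000) (nat_lit 0x0) (nat_lit 0x20001d000f800160000000000070000800000000000000000000000000000000000) := T_24 (nat_lit 210) (nat_lit 209) (nat_lit 1) (nat_lit 9) (nat_lit 11) L10680 (by decide +kernel)
theorem L10682 : W_24 (nat_lit 10) (nat_lit 0x20001e000200000001000080000000000000000000000000000000) (nat_lit 0x0) (nat_lit 0x20001d000f800160000001800070000800000000000000000000000000000000000) := T_24 (nat_lit 179) (nat_lit 180) (nat_lit 2) (nat_lit 6) (nat_lit 11) L10681 (by decide +kernel)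
theorem L10683 : W_24 (nat_lit 11) (nat_lit 0x1e000200000001000080000000000000000000000000000000) (nat_lit 0x0) (nat_lit 0x20001d000f800760000001800070000800000000000000000000000000000000000) := T_24 (nat_lit 213) (nat_lit 214) (nat_lit 3) (nat_lit 6) (nat_lit 11) L10682 (by decide +kernel)
theorem L10684 : W_24 (nat_lit 7) (nat_lit 0x24001e001200010001000080000000000000000000000000000000) (nat_lit 0x0) (nat_lit 0x900048039000e0002400000000000000000000000000000000000000000000) := T_24 (nat_lit 244) (nat_lit 227) (nat_lit 6) (nat_lit 6) (nat_lit 14) L5259 (by decide +kernel)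
theorem L10685 : W_24 (nat_lit 8) (nat_lit 0x24001e000200010001000080000000000000000000000000000000) (nat_lit 0x0) (nat_lit 0x900048039000e0003c00000000000000000000000000000000000000000000) := T_24 (nat_lit 180) (nat_lit 179) (nat_lit 2) (nat_lit 6) (nat_lit 11) L10684 (by decide +kernel)
theorem L10686 : W_24 (nat_lit 9) (nat_lit 0x20001e000200010001000080000000000000000000000000000000) (nat_lit 0x0) (nat_lit 0x900048039600e0003c00000000000000000000000000000000000000000000) := T_24 (nat_lit 210) (nat_lit 209) (nat_lit 1) (nat_lit 9) (nat_lit 11) L10685 (by decide +kernel)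
theorem L10687 : W_24 (nat_lit 10) (nat_lit 0x1e000200010001000080000000000000000000000000000000) (nat_lit 0x0) (nat_lit 0x90004803f600e0003c00000000000000000000000000000000000000000000) := T_24 (nat_lit 213) (nat_lit 214) (nat_lit 3) (nat_lit 6) (nat_lit 11) L10686 (by decide +kernel)
theorem L10688 : W_24 (nat_lit 11) (nat_lit 0x1e000200000001000080000000000000000000000000000000) (nat_lit 0x0) (nat_lit 0x90004803f600e0003c00010000800000000000000000000000000000000000) := T_24 (nat_lit 160) (nat_lit 143) (nat_lit 6) (nat_lit 7) (nat_lit 11) L10687 (by decide +kernel)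
theorem L10689 : W_24 (nat_lit 2) (nat_lit 0x7000600024005e000600010001000080000000000000000000000000000000) (nat_lit 0x0) (nat_lit 0x19000000000000000000000000000000000000000000000000000000000) := D_24 (nat_lit 231) (nat_lit 232) (nat_lit 228) (nat_lit 1) (nat_lit 11) (nat_lit 13) (nat_lit 1) (nat_lit 10) (nat_lit 13) (by decide +kernel)
theorem L10690 : W_24 (nat_lit 3) (nat_lit 0x5000600024005e000600010001000080000000000000000000000000000000) (nat_lit 0x0) (nat_lit 0x28019000000000000000000000000000000000000000000000000000000000) := T_24 (nat_lit 245) (nat_lit 243) (nat_lit 2) (nat_lit 5) (nat_lit 14) L10689 (by decide +kernel)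
theorem L10691 : W_24 (nat_lit 4) (nat_lit 0x1000600024005e000600010001000080000000000000000000000000000000) (nat_lit 0x0) (nat_lit 0x68019000000000000800000000000000000000000000000000000000000000) := T_24 (nat_lit 246) (nat_lit 179) (nat_lit 5) (nat_lit 9) (nat_lit 10) L10690 (by decide +kernel)
theorem L10692 : W_24 (nat_lit 5) (nat_lit 0x1000200024005e000600010001000080000000000000000000000000000000) (nat_lit 0x0) (nat_lit 0xe801d000000000000800000000000000000000000000000000000000000000) := T_24 (nat_lit 230) (nat_lit 247) (nat_lit 4) (nat_lit 9) (nat_lit 14) L10691 (by decide +kernel)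
theorem L10693 : W_24 (nat_lit 6) (nat_lit 0x1000000024005e000600010001000080000000000000000000000000000000) (nat_lit 0x0) (nat_lit 0xe801f000100000000800000000000000000000000000000000000000000000) := T_24 (nat_lit 229) (nat_lit 212) (nat_lit 4) (nat_lit 8) (nat_lit 13) L10692 (by decide +kernel)
theorem L10694 : W_24 (nat_lit 7) (nat_lit 0x1000000004005e000600010001000080000000000000000000000000000000) (nat_lit 0x0) (nat_lit 0xe801f000700000000800000000000000000000000000000000000000000000) := T_24 (nat_lit 213) (nat_lit 214) (nat_lit 3) (nat_lit 6) (nat_lit 11) L10693 (by decide +kernel)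
theorem L10695 : W_24 (nat_lit 8) (nat_lit 0x1000000004005e000600000001000080000000000000000000000000000000) (nat_lit 0x0) (nat_lit 0xe801f000700000000800010000800000000000000000000000000000000000) := T_24 (nat_lit 160) (nat_lit 143) (nat_lit 6) (nat_lit 7) (nat_lit 11) L10694 (by decide +kernel)
theorem L10696 : W_24 (nat_lit 9) (nat_lit 0x4005e000600000001000080000000000000000000000000000000) (nat_lit 0x0) (nat_lit 0xf801f800700000000800010000800000000000000000000000000000000000) := T_24 (nat_lit 244) (nat_lit 227) (nat_lit 6) (nat_lit 6) (nat_lit 14) L10695 (by decide +kernel)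
theorem L10697 : W_24 (nat_lit 10) (nat_lit 0x4001e000600000001000080000000000000000000000000000000) (nat_lit 0x0) (nat_lit 0xf801f800700060000800010000800000000000000000000000000000000000) := T_24 (nat_lit 198) (nat_lit 197) (nat_lit 0) (nat_lit 11) (nat_lit 11) L10696 (by decide +kernel)
theorem L10698 : W_24 (nat_lit 11) (nat_lit 0x1e000600000001000080000000000000000000000000000000) (nat_lit 0x0) (nat_lit 0xf801f800760060000800010000800000000000000000000000000000000000) := T_24 (nat_lit 210) (nat_lit 209) (nat_lit 1) (nat_lit 9) (nat_lit 11) L10697 (by decide +kernel)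
theorem L10699 : W_24 (nat_lit 12) (nat_lit 0x1e000200000001000080000000000000000000000000000000) (nat_lit 0x0) (nat_lit 0xf801f800760060000c00030000800000000000000000000000000000000000) := T_24 (nat_lit 178) (nat_lit 161) (nat_lit 5) (nat_lit 8) (nat_lit 7) L10698 (by decide +kernel)
theorem L10700 : W_24 (nat_lit 2) (nat_lit 0x40003e000200010001000080000000000000000000000000000000) (nat_lit 0x0) (nat_lit 0x40000400020000000000000000000000000000000000000000) := D_24 (nat_lit 178) (nat_lit 161) (nat_lit 198) (nat_lit 5) (nat_lit 8) (nat_lit 7) (nat_lit 0) (nat_lit 11) (nat_lit 11) (by decide +kernel)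
theorem L10701 : W_24 (nat_lit 3) (nat_lit 0x40001e000200010001000080000000000000000000000000000000) (nat_lit 0x0) (nat_lit 0x800060000400020000000000000000000000000000000000000000) := T_24 (nat_lit 197) (nat_lit 215) (nat_lit 3) (nat_lit 7) (nat_lit 11) L10700 (by decide +kernel)
theorem L10702 : W_24 (nat_lit 4) (nat_lit 0x40001e000200000001000080000000000000000000000000000000) (nat_lit 0x0) (nat_lit 0x800060000400030000800000000000000000000000000000000000) := T_24 (nat_lit 160) (nat_lit 143) (nat_lit 6) (nat_lit 7) (nat_lit 11) L10701 (by decide +kernel)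
theorem L10703 : W_24 (nat_lit 5) (nat_lit 0x1e000200000001000080000000000000000000000000000000) (nat_lit 0x0) (nat_lit 0xe00060000400030000800000000000000000000000000000000000) := T_24 (nat_lit 214) (nat_lit 213) (nat_lit 3) (nat_lit 6) (nat_lit 11) L10702 (by decide +kernel)
theorem L10704 : W_24 (nat_lit 2) (nat_lit 0x1000000004001e001600010001000080000000000000000000000000000000) (nat_lit 0x0) (nat_lit 0x60002000000000000000000000000000000000000000000000) := D_24 (nat_lit 197) (nat_lit 181) (nat_lit 198) (nat_lit 2) (nat_lit 7) (nat_lit 11) (nat_lit 0) (nat_lit 11) (nat_lit 11) (by decide +kernel)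
theorem L10705 : W_24 (nat_lit 3) (nat_lit 0x1000000004001e001200010001000080000000000000000000000000000000) (nat_lit 0x0) (nat_lit 0x60002400020000000000000000000000000000000000000000) := T_24 (nat_lit 178) (nat_lit 161) (nat_lit 5) (nat_lit 8) (nat_lit 7) L10704 (by decide +kernel)
theorem L10706 : W_24 (nat_lit 4) (nat_lit 0x1000000004001e000200010001000080000000000000000000000000000000) (nat_lit 0x0) (nat_lit 0x60003c00020000000000000000000000000000000000000000) := T_24 (nat_lit 180) (nat_lit 179) (nat_lit 2) (nat_lit 6) (nat_lit 11) L10705 (by decide +kernel)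
theorem L10707 : W_24 (nat_lit 5) (nat_lit 0x4001e000200010001000080000000000000000000000000000000) (nat_lit 0x0) (nat_lit 0x10000800000060003c00020000000000000000000000000000000000000000) := T_24 (nat_lit 244) (nat_lit 227) (nat_lit 6) (nat_lit 6) (nat_lit 14) L10706 (by decide +kernel)
theorem L10708 : W_24 (nat_lit 6) (nat_lit 0x4001e000200000001000080000000000000000000000000000000) (nat_lit 0x0) (nat_lit 0x10000800000060003c00030000800000000000000000000000000000000000) := T_24 (nat_lit 160) (nat_lit 143) (nat_lit 6) (nat_lit 7) (nat_lit 11) L10707 (by decide +kernel)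
theorem L10709 : W_24 (nat_lit 7) (nat_lit 0x1e000200000001000080000000000000000000000000000000) (nat_lit 0x0) (nat_lit 0x10000800060060003c00030000800000000000000000000000000000000000) := T_24 (nat_lit 210) (nat_lit 209) (nat_lit 1) (nat_lit 9) (nat_lit 11) L10708 (by decide +kernel)
theorem L10710 : W_24 (nat_lit 13) (nat_lit 0xe000200000001000080000000000000000000000000000000) (nat_lit 0x0) (nat_lit 0x20001f801f803f600f0003c00070000800000000000000000000000000000000000) := Q_24 (nat_lit 196) (C_24 L9032 (C_24 L10683 (C_24 L10688 (C_24 L10699 (C_24 L10703 (C_24 L10709 N_24)))))) (by decide +kernel)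
theorem L10711 : W_24 (nat_lit 9) (nat_lit 0xe000200000001000080000000000000000000000000000000) (nat_lit 0x0) (nat_lit 0x50002800f70031003cc0014000a00000000000000000000000000000000000) := Q_24 (nat_lit 192) (C_24 L5302 (C_24 L10180 (C_24 L10656 (C_24 L10449 N_24)))) (by decide +kernel)
theorem L10712 : W_24 (nat_lit 2) (nat_lit 0x200002003f000680010001000080000000000000000000000000000000) (nat_lit 0x0) (nat_lit 0xe00000000000000000000000000000000000000000000000000000) := D_24 (nat_lit 214) (nat_lit 213) (nat_lit 215) (nat_lit 3) (nat_lit 6) (nat_lit 11) (nat_lit 3) (nat_lit 7) (nat_lit 11) (by decide +kernel)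
theorem L10713 : W_24 (nat_lit 3) (nat_lit 0x200002001f000680010001000080000000000000000000000000000000) (nat_lit 0x0) (nat_lit 0xe00060000000000000000000000000000000000000000000000000) := T_24 (nat_lit 197) (nat_lit 198) (nat_lit 0) (nat_lit 11) (nat_lit 11) L10712 (by decide +kernel)
theorem L10714 : W_24 (nat_lit 4) (nat_lit 0x200002000f000680010001000080000000000000000000000000000000) (nat_lit 0x0) (nat_lit 0xe40070000000000000000000000000000000000000000000000000) := T_24 (nat_lit 196) (nat_lit 210) (nat_lit 1) (nat_lit 9) (nat_lit 11) L10713 (by decide +kernel)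
theorem L10715 : W_24 (nat_lit 5) (nat_lit 0x200002000f000600010001000080000000000000000000000000000000) (nat_lit 0x0) (nat_lit 0xe400700000c0000000000000000000000000000000000000000000) := T_24 (nat_lit 175) (nat_lit 174) (nat_lit 0) (nat_lit 8) (nat_lit 11) L10714 (by decide +kernel)
theorem L10716 : W_24 (nat_lit 6) (nat_lit 0x200000000f000600010001000080000000000000000000000000000000) (nat_lit 0x0) (nat_lit 0xe700700000c0000000000000000000000000000000000000000000) := T_24 (nat_lit 209) (nat_lit 208) (nat_lit 1) (nat_lit 8) (nat_lit 11) L10715 (by decide +kernel)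
theorem L10717 : W_24 (nat_lit 7) (nat_lit 0x200000000e000600010001000080000000000000000000000000000000) (nat_lit 0x0) (nat_lit 0xe700718000c0000000000000000000000000000000000000000000) := T_24 (nat_lit 192) (nat_lit 191) (nat_lit 2) (nat_lit 4) (nat_lit 11) L10716 (by decide +kernel)
theorem L10718 : W_24 (nat_lit 8) (nat_lit 0xe000600010001000080000000000000000000000000000000) (nat_lit 0x0) (nat_lit 0x2000f700718000c0000000000000000000000000000000000000000000) := T_24 (nat_lit 229) (nat_lit 212) (nat_lit 4) (nat_lit 8) (nat_lit 13) L10717 (by decide +kernel)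
theorem L10719 : W_24 (nat_lit 9) (nat_lit 0xe000200010001000080000000000000000000000000000000) (nat_lit 0x0) (nat_lit 0x2000f700718004c0020000000000000000000000000000000000000000) := T_24 (nat_lit 178) (nat_lit 161) (nat_lit 5) (nat_lit 8) (nat_lit 7) L10718 (by decide +kernel)
theorem L10720 : W_24 (nat_lit 10) (nat_lit 0xe000200000001000080000000000000000000000000000000) (nat_lit 0x0) (nat_lit 0x2000f700718004c0030000800000000000000000000000000000000000) := T_24 (nat_lit 160) (nat_lit 143) (nat_lit 6) (nat_lit 7) (nat_lit 11) L10719 (by decide +kernel)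
theorem L10721 : W_24 (nat_lit 16) (nat_lit 0xc000200000001000080000000000000000000000000000000) (nat_lit 0x0) (nat_lit 0x20001f801f803f780f3803ce00f700cf8077c03bc00000000000000000000000000) := Q_24 (nat_lit 193) (C_24 L10668 (C_24 L10671 (C_24 L10673 (C_24 L10710 (C_24 L10711 (C_24 L10720 N_24)))))) (by decide +kernel)
theorem L10722 : W_24 (nat_lit 2) (nat_lit 0x10000800040003c000200010001000080000000000000000000000000000000) (nat_lit 0x0) (nat_lit 0x40003000000000000000000000000000000000000000000000) := D_24 (nat_lit 181) (nat_lit 180) (nat_lit 198) (nat_lit 2) (nat_lit 7) (nat_lit 11) (nat_lit 6) (nat_lit 10) (nat_lit 14) (by decide +kernel)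
theorem L10723 : W_24 (nat_lit 3) (nat_lit 0x800040003c000200010001000080000000000000000000000000000000) (nat_lit 0x0) (nat_lit 0x100000000000040003800000000000000000000000000000000000000000000) := T_24 (nat_lit 248) (nat_lit 179) (nat_lit 4) (nat_lit 10) (nat_lit 14) L10722 (by decide +kernel)
theorem L10724 : W_24 (nat_lit 4) (nat_lit 0x800040003c000200000001000080000000000000000000000000000000) (nat_lit 0x0) (nat_lit 0x100000000000040003800010000800000000000000000000000000000000000) := T_24 (nat_lit 160) (nat_lit 143) (nat_lit 6) (nat_lit 7) (nat_lit 11) L10723 (by decide +kernel)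
theorem L10725 : W_24 (nat_lit 2) (nat_lit 0x800040003c001200000001000080000000000000000000000000000000) (nat_lit 0x0) (nat_lit 0x100000000000000000800040000000000000000000000000000000000000000) := D_24 (nat_lit 179) (nat_lit 248) (nat_lit 162) (nat_lit 4) (nat_lit 10) (nat_lit 14) (nat_lit 4) (nat_lit 10) (nat_lit 13) (by decide +kernel)
theorem L10726 : W_24 (nat_lit 3) (nat_lit 0x800040003c000200000001000080000000000000000000000000000000) (nat_lit 0x0) (nat_lit 0x100000000000000003800040000000000000000000000000000000000000000) := T_24 (nat_lit 180) (nat_lit 181) (nat_lit 2) (nat_lit 7) (nat_lit 11) L10725 (by decide +kernel)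
theorem L10727 : W_24 (nat_lit 2) (nat_lit 0x38000800060007c000200010001000080000000000000000000000000000000) (nat_lit 0x0) (nat_lit 0x100180000000000000000000000000000000000000000000000000) := D_24 (nat_lit 199) (nat_lit 200) (nat_lit 212) (nat_lit 1) (nat_lit 13) (nat_lit 11) (nat_lit 1) (nat_lit 12) (nat_lit 11) (by decide +kernel)
theorem L10728 : W_24 (nat_lit 3) (nat_lit 0x38000800040007c000200010001000080000000000000000000000000000000) (nat_lit 0x0) (nat_lit 0x2000000000000300180000000000000000000000000000000000000000000000000) := T_24 (nat_lit 213) (nat_lit 265) (nat_lit 4) (nat_lit 10) (nat_lit 15) L10727 (by decide +kernel)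
theorem L10729 : W_24 (nat_lit 4) (nat_lit 0x30000800040007c000200010001000080000000000000000000000000000000) (nat_lit 0x0) (nat_lit 0x3000080000000300180000000000000000000000000000000000000000000000000) := T_24 (nat_lit 247) (nat_lit 264) (nat_lit 5) (nat_lit 10) (nat_lit 11) L10728 (by decide +kernel)
theorem L10730 : W_24 (nat_lit 5) (nat_lit 0x30000800040003c000200010001000080000000000000000000000000000000) (nat_lit 0x0) (nat_lit 0x30000800000003001c0002000000000000000000000000000000000000000000000) := T_24 (nat_lit 198) (nat_lit 181) (nat_lit 6) (nat_lit 10) (nat_lit 14) L10729 (by decide +kernel)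
theorem L10731 : W_24 (nat_lit 6) (nat_lit 0x10000800040003c000200010001000080000000000000000000000000000000) (nat_lit 0x0) (nat_lit 0x70002800000003001c0002000000000000000000000000000000000000000000000) := T_24 (nat_lit 249) (nat_lit 266) (nat_lit 7) (nat_lit 10) (nat_lit 11) L10730 (by decide +kernel)
theorem L10732 : W_24 (nat_lit 7) (nat_lit 0x10000800040003c000200000001000080000000000000000000000000000000) (nat_lit 0x0) (nat_lit 0x70002800000003001c0002000010000800000000000000000000000000000000000) := T_24 (nat_lit 160) (nat_lit 143) (nat_lit 6) (nat_lit 7) (nat_lit 11) L10731 (by decide +kernel)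
theorem L10733 : W_24 (nat_lit 8) (nat_lit 0x800040003c000200000001000080000000000000000000000000000000) (nat_lit 0x0) (nat_lit 0x70003800000003001c0002800010000800000000000000000000000000000000000) := T_24 (nat_lit 248) (nat_lit 179) (nat_lit 4) (nat_lit 10) (nat_lit 14) L10732 (by decide +kernel)
theorem L10734 : W_24 (nat_lit 2) (nat_lit 0x1c00060003c001200010001000080000000000000000000000000000000) (nat_lit 0x0) (nat_lit 0x60000100000000000000000000000000000000000000000000000000000) := D_24 (nat_lit 233) (nat_lit 212) (nat_lit 234) (nat_lit 0) (nat_lit 12) (nat_lit 13) (nat_lit 0) (nat_lit 13) (nat_lit 13) (by decide +kernel)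
theorem L10735 : W_24 (nat_lit 3) (nat_lit 0x1c00040003c001200010001000080000000000000000000000000000000) (nat_lit 0x0) (nat_lit 0x60000300000000000080000000000000000000000000000000000000000) := T_24 (nat_lit 213) (nat_lit 163) (nat_lit 5) (nat_lit 10) (nat_lit 9) L10734 (by decide +kernel)
theorem L10736 : W_24 (nat_lit 4) (nat_lit 0x1800040003c001200010001000080000000000000000000000000000000) (nat_lit 0x0) (nat_lit 0x80064000300000000000080000000000000000000000000000000000000000) := T_24 (nat_lit 230) (nat_lit 247) (nat_lit 5) (nat_lit 10) (nat_lit 10) L10735 (by decide +kernel)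
theorem L10737 : W_24 (nat_lit 5) (nat_lit 0x800040003c001200010001000080000000000000000000000000000000) (nat_lit 0x0) (nat_lit 0x280074000300000000000080000000000000000000000000000000000000000) := T_24 (nat_lit 232) (nat_lit 249) (nat_lit 7) (nat_lit 10) (nat_lit 10) L10736 (by decide +kernel)
theorem L10738 : W_24 (nat_lit 6) (nat_lit 0x800040003c001200000001000080000000000000000000000000000000) (nat_lit 0x0) (nat_lit 0x280074000300000000000090000800000000000000000000000000000000000) := T_24 (nat_lit 160) (nat_lit 143) (nat_lit 6) (nat_lit 7) (nat_lit 11) L10737 (by decide +kernel)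
theorem L10739 : W_24 (nat_lit 7) (nat_lit 0x800040003c000200000001000080000000000000000000000000000000) (nat_lit 0x0) (nat_lit 0x280074000300000003000090000800000000000000000000000000000000000) := T_24 (nat_lit 180) (nat_lit 181) (nat_lit 2) (nat_lit 7) (nat_lit 11) L10738 (by decide +kernel)
theorem L10740 : W_24 (nat_lit 2) (nat_lit 0x30000800040003c001200010001000080000000000000000000000000000000) (nat_lit 0x0) (nat_lit 0x1000080004000000000000000000000000000000000000000000000000000000000) := D_24 (nat_lit 247) (nat_lit 230) (nat_lit 264) (nat_lit 5) (nat_lit 10) (nat_lit 10) (nat_lit 5) (nat_lit 10) (nat_lit 11) (by decide +kernel)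
theorem L10741 : W_24 (nat_lit 3) (nat_lit 0x30000800040003c000200010001000080000000000000000000000000000000) (nat_lit 0x0) (nat_lit 0x1000080014000000000001000000000000000000000000000000000000000000000) := T_24 (nat_lit 180) (nat_lit 232) (nat_lit 7) (nat_lit 10) (nat_lit 10) L10740 (by decide +kernel)
theorem L10742 : W_24 (nat_lit 4) (nat_lit 0x10000800040003c000200010001000080000000000000000000000000000000) (nat_lit 0x0) (nat_lit 0x5000280014000000000001000000000000000000000000000000000000000000000) := T_24 (nat_lit 249) (nat_lit 266) (nat_lit 7) (nat_lit 10) (nat_lit 11) L10741 (by decide +kernel)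
theorem L10743 : W_24 (nat_lit 5) (nat_lit 0x10000800040003c000200000001000080000000000000000000000000000000) (nat_lit 0x0) (nat_lit 0x5000280014000000000001000010000800000000000000000000000000000000000) := T_24 (nat_lit 160) (nat_lit 143) (nat_lit 6) (nat_lit 7) (nat_lit 11) L10742 (by decide +kernel)
theorem L10744 : W_24 (nat_lit 6) (nat_lit 0x800040003c000200000001000080000000000000000000000000000000) (nat_lit 0x0) (nat_lit 0x5000380014000000000001800010000800000000000000000000000000000000000) := T_24 (nat_lit 248) (nat_lit 179) (nat_lit 4) (nat_lit 10) (nat_lit 14) L10743 (by decide +kernel)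
theorem L10745 : W_24 (nat_lit 9) (nat_lit 0x800040001c000200000001000080000000000000000000000000000000) (nat_lit 0x0) (nat_lit 0x70003800740003001e00038000d0000800000000000000000000000000000000000) := Q_24 (nat_lit 197) (C_24 L10724 (C_24 L10726 (C_24 L10733 (C_24 L10739 (C_24 L10744 N_24))))) (by decide +kernel)
theorem L10746 : W_24 (nat_lit 2) (nat_lit 0x29000800044003e001200000001000080000000000000000000000000000000) (nat_lit 0x0) (nat_lit 0x5000100000000000000000000000000000000000000000000000000000000000000) := D_24 (nat_lit 248) (nat_lit 266) (nat_lit 264) (nat_lit 7) (nat_lit 10) (nat_lit 11) (nat_lit 5) (nat_lit 10) (nat_lit 11) (by decide +kernel)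
theorem L10747 : W_24 (nat_lit 3) (nat_lit 0x21000800044003e001200000001000080000000000000000000000000000000) (nat_lit 0x0) (nat_lit 0x5000180004000000000000000000000000000000000000000000000000000000000) := T_24 (nat_lit 247) (nat_lit 230) (nat_lit 5) (nat_lit 10) (nat_lit 10) L10746 (by decide +kernel)
theorem L10748 : W_24 (nat_lit 4) (nat_lit 0x1000800044003e001200000001000080000000000000000000000000000000) (nat_lit 0x0) (nat_lit 0x5000380014000000000000000000000000000000000000000000000000000000000) := T_24 (nat_lit 249) (nat_lit 232) (nat_lit 7) (nat_lit 10) (nat_lit 10) L10747 (by decide +kernel)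
theorem L10749 : W_24 (nat_lit 5) (nat_lit 0x800044003e001200000001000080000000000000000000000000000000) (nat_lit 0x0) (nat_lit 0x5000390014800000000000000000000000000000000000000000000000000000000) := T_24 (nat_lit 244) (nat_lit 227) (nat_lit 6) (nat_lit 6) (nat_lit 14) L10748 (by decide +kernel)
theorem L10750 : W_24 (nat_lit 6) (nat_lit 0x800044001e001200000001000080000000000000000000000000000000) (nat_lit 0x0) (nat_lit 0x5000390014800000020002000000000000000000000000000000000000000000000) := T_24 (nat_lit 197) (nat_lit 181) (nat_lit 2) (nat_lit 7) (nat_lit 11) L10749 (by decide +kernel)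
theorem L10751 : W_24 (nat_lit 7) (nat_lit 0x800040001e001200000001000080000000000000000000000000000000) (nat_lit 0x0) (nat_lit 0x5000390014800060020002000000000000000000000000000000000000000000000) := T_24 (nat_lit 210) (nat_lit 209) (nat_lit 1) (nat_lit 9) (nat_lit 11) L10750 (by decide +kernel)
theorem L10752 : W_24 (nat_lit 8) (nat_lit 0x800040001e000200000001000080000000000000000000000000000000) (nat_lit 0x0) (nat_lit 0x5000390014800060020003800000000000000000000000000000000000000000000) := T_24 (nat_lit 180) (nat_lit 179) (nat_lit 2) (nat_lit 6) (nat_lit 11) L10751 (by decide +kernel)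
theorem L10753 : W_24 (nat_lit 9) (nat_lit 0x800040001c000200000001000080000000000000000000000000000000) (nat_lit 0x0) (nat_lit 0x5000390014800260022003800000000000000000000000000000000000000000000) := T_24 (nat_lit 193) (nat_lit 213) (nat_lit 3) (nat_lit 6) (nat_lit 11) L10752 (by decide +kernel)
theorem L10754 : W_24 (nat_lit 2) (nat_lit 0x800060001c000a00010001000080000000000000000000000000000000) (nat_lit 0x0) (nat_lit 0x2000100000000000020000000000000000000000000000000000000000000000000) := D_24 (nat_lit 248) (nat_lit 265) (nat_lit 197) (nat_lit 4) (nat_lit 10) (nat_lit 15) (nat_lit 4) (nat_lit 10) (nat_lit 14) (by decide +kernel)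
theorem L10755 : W_24 (nat_lit 3) (nat_lit 0x800060001c000200010001000080000000000000000000000000000000) (nat_lit 0x0) (nat_lit 0x2000100000000000020000800040000000000000000000000000000000000000000) := T_24 (nat_lit 179) (nat_lit 162) (nat_lit 7) (nat_lit 9) (nat_lit 9) L10754 (by decide +kernel)
theorem L10756 : W_24 (nat_lit 4) (nat_lit 0x800060001c000200000001000080000000000000000000000000000000) (nat_lit 0x0) (nat_lit 0x2000100000000000020000800050000800000000000000000000000000000000000) := T_24 (nat_lit 160) (nat_lit 143) (nat_lit 6) (nat_lit 7) (nat_lit 11) L10755 (by decide +kernel)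
theorem L10757 : W_24 (nat_lit 5) (nat_lit 0x800040001c000200000001000080000000000000000000000000000000) (nat_lit 0x0) (nat_lit 0x2000100000000200022000800050000800000000000000000000000000000000000) := T_24 (nat_lit 213) (nat_lit 193) (nat_lit 3) (nat_lit 6) (nat_lit 11) L10756 (by decide +kernel)
theorem L10758 : W_24 (nat_lit 2) (nat_lit 0x800060001c000a00010001000080000000000000000000000000000000) (nat_lit 0x0) (nat_lit 0x2000100004000000000000000000000000000000000000000000000000000000000) := D_24 (nat_lit 248) (nat_lit 265) (nat_lit 230) (nat_lit 4) (nat_lit 10) (nat_lit 15) (nat_lit 7) (nat_lit 9) (nat_lit 10) (by decide +kernel)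
theorem L10759 : W_24 (nat_lit 3) (nat_lit 0x800060001c000200010001000080000000000000000000000000000000) (nat_lit 0x0) (nat_lit 0x2000100004000000000000800040000000000000000000000000000000000000000) := T_24 (nat_lit 179) (nat_lit 162) (nat_lit 7) (nat_lit 9) (nat_lit 9) L10758 (by decide +kernel)
theorem L10760 : W_24 (nat_lit 4) (nat_lit 0x800060001c000200000001000080000000000000000000000000000000) (nat_lit 0x0) (nat_lit 0x2000100004000000000000800050000800000000000000000000000000000000000) := T_24 (nat_lit 160) (nat_lit 143) (nat_lit 6) (nat_lit 7) (nat_lit 11) L10759 (by decide +kernel)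
theorem L10761 : W_24 (nat_lit 5) (nat_lit 0x800040001c000200000001000080000000000000000000000000000000) (nat_lit 0x0) (nat_lit 0x2000100004000200002000800050000800000000000000000000000000000000000) := T_24 (nat_lit 213) (nat_lit 193) (nat_lit 3) (nat_lit 6) (nat_lit 11) L10760 (by decide +kernel)
theorem L10762 : W_24 (nat_lit 6) (nat_lit 0x800044003e000200000001000080000000000000000000000000000000) (nat_lit 0x0) (nat_lit 0x5000390014800000000003000000000000000000000000000000000000000000000) := T_24 (nat_lit 180) (nat_lit 181) (nat_lit 2) (nat_lit 7) (nat_lit 11) L10749 (by decide +kernel)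
theorem L10763 : W_24 (nat_lit 7) (nat_lit 0x800040003e000200000001000080000000000000000000000000000000) (nat_lit 0x0) (nat_lit 0x5000390014800060000003000000000000000000000000000000000000000000000) := T_24 (nat_lit 210) (nat_lit 209) (nat_lit 1) (nat_lit 9) (nat_lit 11) L10762 (by decide +kernel)
theorem L10764 : W_24 (nat_lit 8) (nat_lit 0x800040003c000200000001000080000000000000000000000000000000) (nat_lit 0x0) (nat_lit 0x5000390014800260002003000000000000000000000000000000000000000000000) := T_24 (nat_lit 193) (nat_lit 213) (nat_lit 3) (nat_lit 6) (nat_lit 11) L10763 (by decide +kernel)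
theorem L10765 : W_24 (nat_lit 3) (nat_lit 0x38000800060003c000200010001000080000000000000000000000000000000) (nat_lit 0x0) (nat_lit 0x1001c0002000000000000000000000000000000000000000000000) := T_24 (nat_lit 198) (nat_lit 181) (nat_lit 6) (nat_lit 10) (nat_lit 14) L10727 (by decide +kernel)
theorem L10766 : W_24 (nat_lit 4) (nat_lit 0x18000800060003c000200010001000080000000000000000000000000000000) (nat_lit 0x0) (nat_lit 0x40002000000001001c0002000000000000000000000000000000000000000000000) := T_24 (nat_lit 249) (nat_lit 266) (nat_lit 7) (nat_lit 10) (nat_lit 11) L10765 (by decide +kernel)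
theorem L10767 : W_24 (nat_lit 5) (nat_lit 0x10000800060003c000200010001000080000000000000000000000000000000) (nat_lit 0x0) (nat_lit 0x50002800000001001c0002000000000000000000000000000000000000000000000) := T_24 (nat_lit 247) (nat_lit 264) (nat_lit 5) (nat_lit 10) (nat_lit 11) L10766 (by decide +kernel)
theorem L10768 : W_24 (nat_lit 6) (nat_lit 0x800060003c000200010001000080000000000000000000000000000000) (nat_lit 0x0) (nat_lit 0x70003800000001001c0002000000000000000000000000000000000000000000000) := T_24 (nat_lit 248) (nat_lit 265) (nat_lit 4) (nat_lit 10) (nat_lit 15) L10767 (by decide +kernel)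
theorem L10769 : W_24 (nat_lit 7) (nat_lit 0x800040003c000200010001000080000000000000000000000000000000) (nat_lit 0x0) (nat_lit 0x70003800000003001c2002000000000000000000000000000000000000000000000) := T_24 (nat_lit 213) (nat_lit 193) (nat_lit 3) (nat_lit 6) (nat_lit 11) L10768 (by decide +kernel)
theorem L10770 : W_24 (nat_lit 8) (nat_lit 0x800040003c000200000001000080000000000000000000000000000000) (nat_lit 0x0) (nat_lit 0x70003800000003001c2002000010000800000000000000000000000000000000000) := T_24 (nat_lit 160) (nat_lit 143) (nat_lit 6) (nat_lit 7) (nat_lit 11) L10769 (by decide +kernel)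
theorem L10771 : W_24 (nat_lit 2) (nat_lit 0x28000800040003c001200010001000080000000000000000000000000000000) (nat_lit 0x0) (nat_lit 0x5000100000000000000000000000000000000000000000000000000000000000000) := D_24 (nat_lit 248) (nat_lit 266) (nat_lit 264) (nat_lit 7) (nat_lit 10) (nat_lit 11) (nat_lit 5) (nat_lit 10) (nat_lit 11) (by decide +kernel)
theorem L10772 : W_24 (nat_lit 3) (nat_lit 0x20000800040003c001200010001000080000000000000000000000000000000) (nat_lit 0x0) (nat_lit 0x5000180004000000000000000000000000000000000000000000000000000000000) := T_24 (nat_lit 247) (nat_lit 230) (nat_lit 5) (nat_lit 10) (nat_lit 10) L10771 (by decide +kernel)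
theorem L10773 : W_24 (nat_lit 4) (nat_lit 0x800040003c001200010001000080000000000000000000000000000000) (nat_lit 0x0) (nat_lit 0x5000380014000000000000000000000000000000000000000000000000000000000) := T_24 (nat_lit 249) (nat_lit 232) (nat_lit 7) (nat_lit 10) (nat_lit 10) L10772 (by decide +kernel)
theorem L10774 : W_24 (nat_lit 5) (nat_lit 0x800040003c001200000001000080000000000000000000000000000000) (nat_lit 0x0) (nat_lit 0x5000380014000000000000000010000800000000000000000000000000000000000) := T_24 (nat_lit 160) (nat_lit 143) (nat_lit 6) (nat_lit 7) (nat_lit 11) L10773 (by decide +kernel)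
theorem L10775 : W_24 (nat_lit 6) (nat_lit 0x800040003c000200000001000080000000000000000000000000000000) (nat_lit 0x0) (nat_lit 0x5000380014000000000003000010000800000000000000000000000000000000000) := T_24 (nat_lit 180) (nat_lit 181) (nat_lit 2) (nat_lit 7) (nat_lit 11) L10774 (by decide +kernel)
theorem L10776 : W_24 (nat_lit 2) (nat_lit 0x18000800060003c001200010001000080000000000000000000000000000000) (nat_lit 0x0) (nat_lit 0x4000200010000000000000000000000000000000000000000000000000000000000) := D_24 (nat_lit 249) (nat_lit 232) (nat_lit 266) (nat_lit 7) (nat_lit 10) (nat_lit 10) (nat_lit 7) (nat_lit 10) (nat_lit 11) (by decide +kernel)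
theorem L10777 : W_24 (nat_lit 3) (nat_lit 0x18000800060003c000200010001000080000000000000000000000000000000) (nat_lit 0x0) (nat_lit 0x4000200014000000000001000000000000000000000000000000000000000000000) := T_24 (nat_lit 180) (nat_lit 230) (nat_lit 6) (nat_lit 9) (nat_lit 14) L10776 (by decide +kernel)
theorem L10778 : W_24 (nat_lit 4) (nat_lit 0x10000800060003c000200010001000080000000000000000000000000000000) (nat_lit 0x0) (nat_lit 0x5000280014000000000001000000000000000000000000000000000000000000000) := T_24 (nat_lit 247) (nat_lit 264) (nat_lit 5) (nat_lit 10) (nat_lit 11) L10777 (by decide +kernel)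
theorem L10779 : W_24 (nat_lit 5) (nat_lit 0x800060003c000200010001000080000000000000000000000000000000) (nat_lit 0x0) (nat_lit 0x7000380014000000000001000000000000000000000000000000000000000000000) := T_24 (nat_lit 248) (nat_lit 265) (nat_lit 4) (nat_lit 10) (nat_lit 15) L10778 (by decide +kernel)
theorem L10780 : W_24 (nat_lit 6) (nat_lit 0x800040003c000200010001000080000000000000000000000000000000) (nat_lit 0x0) (nat_lit 0x7000380014000200002001000000000000000000000000000000000000000000000) := T_24 (nat_lit 213) (nat_lit 193) (nat_lit 3) (nat_lit 6) (nat_lit 11) L10779 (by decide +kernel)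
theorem L10781 : W_24 (nat_lit 7) (nat_lit 0x800040003c000200000001000080000000000000000000000000000000) (nat_lit 0x0) (nat_lit 0x7000380014000200002001000010000800000000000000000000000000000000000) := T_24 (nat_lit 160) (nat_lit 143) (nat_lit 6) (nat_lit 7) (nat_lit 11) L10780 (by decide +kernel)
theorem L10782 : W_24 (nat_lit 2) (nat_lit 0x800044003e002200000001000080000000000000000000000000000000) (nat_lit 0x0) (nat_lit 0x100000000000040004000000000000000000000000000000000000000000000) := D_24 (nat_lit 198) (nat_lit 182) (nat_lit 248) (nat_lit 2) (nat_lit 8) (nat_lit 11) (nat_lit 6) (nat_lit 10) (nat_lit 14) (by decide +kernel)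
theorem L10783 : W_24 (nat_lit 3) (nat_lit 0x800044003e000200000001000080000000000000000000000000000000) (nat_lit 0x0) (nat_lit 0x100000000000040007000000000000000000000000000000000000000000000) := T_24 (nat_lit 181) (nat_lit 180) (nat_lit 2) (nat_lit 7) (nat_lit 11) L10782 (by decide +kernel)
theorem L10784 : W_24 (nat_lit 4) (nat_lit 0x800040003e000200000001000080000000000000000000000000000000) (nat_lit 0x0) (nat_lit 0x100000000060040007000000000000000000000000000000000000000000000) := T_24 (nat_lit 210) (nat_lit 209) (nat_lit 1) (nat_lit 9) (nat_lit 11) L10783 (by decide +kernel)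
theorem L10785 : W_24 (nat_lit 5) (nat_lit 0x800040003c000200000001000080000000000000000000000000000000) (nat_lit 0x0) (nat_lit 0x100000000260042007000000000000000000000000000000000000000000000) := T_24 (nat_lit 193) (nat_lit 213) (nat_lit 3) (nat_lit 6) (nat_lit 11) L10784 (by decide +kernel)
theorem L10786 : W_24 (nat_lit 9) (nat_lit 0x800040001c000200000001000080000000000000000000000000000000) (nat_lit 0x0) (nat_lit 0x70003900748003601e2007000090000800000000000000000000000000000000000) := Q_24 (nat_lit 197) (C_24 L10739 (C_24 L10764 (C_24 L10770 (C_24 L10775 (C_24 L10781 (C_24 L10785 N_24)))))) (by decide +kernel)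
theorem L10787 : W_24 (nat_lit 2) (nat_lit 0x600010000800040007c000200010001000080000000000000000000000000000000) (nat_lit 0x0) (nat_lit 0x20001000080000000000000000000000000000000000000000000000000000000000000) := D_24 (nat_lit 264) (nat_lit 281) (nat_lit 247) (nat_lit 5) (nat_lit 10) (nat_lit 12) (nat_lit 5) (nat_lit 10) (nat_lit 11) (by decide +kernel)
theorem L10788 : W_24 (nat_lit 3) (nat_lit 0x400010000800040007c000200010001000080000000000000000000000000000000) (nat_lit 0x0) (nat_lit 0xa0003000080000000000000000000000000000000000000000000000000000000000000) := T_24 (nat_lit 265) (nat_lit 283) (nat_lit 7) (nat_lit 10) (nat_lit 12) L10787 (by decide +kernel)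
theorem L10789 : W_24 (nat_lit 4) (nat_lit 0x400010000800040003c000200010001000080000000000000000000000000000000) (nat_lit 0x0) (nat_lit 0xa0003000080000000000040002000000000000000000000000000000000000000000000) := T_24 (nat_lit 198) (nat_lit 181) (nat_lit 6) (nat_lit 10) (nat_lit 14) L10788 (by decide +kernel)
theorem L10790 : W_24 (nat_lit 5) (nat_lit 0x10000800040003c000200010001000080000000000000000000000000000000) (nat_lit 0x0) (nat_lit 0xa0007000280000000000040002000000000000000000000000000000000000000000000) := T_24 (nat_lit 266) (nat_lit 249) (nat_lit 7) (nat_lit 10) (nat_lit 11) L10789 (by decide +kernel)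
theorem L10791 : W_24 (nat_lit 6) (nat_lit 0x10000800040003c000200000001000080000000000000000000000000000000) (nat_lit 0x0) (nat_lit 0xa0007000280000000000040002000010000800000000000000000000000000000000000) := T_24 (nat_lit 160) (nat_lit 143) (nat_lit 6) (nat_lit 7) (nat_lit 11) L10790 (by decide +kernel)
theorem L10792 : W_24 (nat_lit 7) (nat_lit 0x800040003c000200000001000080000000000000000000000000000000) (nat_lit 0x0) (nat_lit 0xa0007000380000000000040002800010000800000000000000000000000000000000000) := T_24 (nat_lit 248) (nat_lit 179) (nat_lit 4) (nat_lit 10) (nat_lit 14) L10791 (by decide +kernel)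
theorem L10793 : W_24 (nat_lit 2) (nat_lit 0x800040003c001200000001000080000000000000000000000000000000) (nat_lit 0x0) (nat_lit 0x2000800040000000000000000000000000000000000000000) := D_24 (nat_lit 179) (nat_lit 193) (nat_lit 162) (nat_lit 2) (nat_lit 6) (nat_lit 11) (nat_lit 4) (nat_lit 10) (nat_lit 13) (by decide +kernel)
theorem L10794 : W_24 (nat_lit 3) (nat_lit 0x800040003c000200000001000080000000000000000000000000000000) (nat_lit 0x0) (nat_lit 0x2003800040000000000000000000000000000000000000000) := T_24 (nat_lit 180) (nat_lit 181) (nat_lit 2) (nat_lit 7) (nat_lit 11) L10793 (by decide +kernel)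
theorem L10795 : W_24 (nat_lit 8) (nat_lit 0x800040001c000200000001000080000000000000000000000000000000) (nat_lit 0x0) (nat_lit 0xa0007000380014000000062003800050000800000000000000000000000000000000000) := Q_24 (nat_lit 197) (C_24 L10775 (C_24 L10726 (C_24 L10792 (C_24 L10744 (C_24 L10794 N_24))))) (by decide +kernel)
theorem L10796 : W_24 (nat_lit 2) (nat_lit 0x800040001c001200000001000080000000000000000000000000000000) (nat_lit 0x0) (nat_lit 0x200002000800000000000000000000000000000000000000000000) := D_24 (nat_lit 193) (nat_lit 213) (nat_lit 179) (nat_lit 3) (nat_lit 6) (nat_lit 11) (nat_lit 2) (nat_lit 6) (nat_lit 11) (by decide +kernel)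
theorem L10797 : W_24 (nat_lit 6) (nat_lit 0x800040001c001200010001000080000000000000000000000000000000) (nat_lit 0x0) (nat_lit 0x280074000300020002000080000000000000000000000000000000000000000) := T_24 (nat_lit 197) (nat_lit 181) (nat_lit 2) (nat_lit 7) (nat_lit 11) L10737 (by decide +kernel)
theorem L10798 : W_24 (nat_lit 7) (nat_lit 0x800040001c001200000001000080000000000000000000000000000000) (nat_lit 0x0) (nat_lit 0x280074000300020002000090000800000000000000000000000000000000000) := T_24 (nat_lit 160) (nat_lit 143) (nat_lit 6) (nat_lit 7) (nat_lit 11) L10797 (by decide +kernel)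
theorem L10799 : W_24 (nat_lit 3) (nat_lit 0x800040001c001200000001000080000000000000000000000000000000) (nat_lit 0x0) (nat_lit 0x22002800040000000000000000000000000000000000000000) := T_24 (nat_lit 197) (nat_lit 181) (nat_lit 2) (nat_lit 7) (nat_lit 11) L10793 (by decide +kernel)
theorem L10800 : W_24 (nat_lit 8) (nat_lit 0x800040001c000200000001000080000000000000000000000000000000) (nat_lit 0x0) (nat_lit 0x2800740003000220038000d0000800000000000000000000000000000000000) := Q_24 (nat_lit 180) (C_24 L10796 (C_24 L10798 (C_24 L10799 N_24))) (by decide +kernel)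
theorem L10801 : W_24 (nat_lit 10) (nat_lit 0x40001c000200000001000080000000000000000000000000000000) (nat_lit 0x0) (nat_lit 0xa000700039007c8003601e20078000d0000800000000000000000000000000000000000) := Q_24 (nat_lit 231) (C_24 L10745 (C_24 L10753 (C_24 L10757 (C_24 L10761 (C_24 L10786 (C_24 L10795 (C_24 L10800 N_24))))))) (by decide +kernel)
theorem L10802 : W_24 (nat_lit 2) (nat_lit 0x40001e001200000001000080000000000000000000000000000000) (nat_lit 0x0) (nat_lit 0x800020002000000000000000000000000000000000000000000000) := D_24 (nat_lit 197) (nat_lit 215) (nat_lit 181) (nat_lit 3) (nat_lit 7) (nat_lit 11) (nat_lit 2) (nat_lit 7) (nat_lit 11) (by decide +kernel)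
theorem L10803 : W_24 (nat_lit 3) (nat_lit 0x40001e000200000001000080000000000000000000000000000000) (nat_lit 0x0) (nat_lit 0x800020003800000000000000000000000000000000000000000000) := T_24 (nat_lit 180) (nat_lit 179) (nat_lit 2) (nat_lit 6) (nat_lit 11) L10802 (by decide +kernel)
theorem L10804 : W_24 (nat_lit 4) (nat_lit 0x40001c000200000001000080000000000000000000000000000000) (nat_lit 0x0) (nat_lit 0xa00022003800000000000000000000000000000000000000000000) := T_24 (nat_lit 193) (nat_lit 213) (nat_lit 3) (nat_lit 6) (nat_lit 11) L10803 (by decide +kernel)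
theorem L10807 : W_24 (nat_lit 2) (nat_lit 0x60001c000200010001000080000000000000000000000000000000) (nat_lit 0x0) (nat_lit 0x1900000000000000000000000000000000000000000000000000000) := D_24 (nat_lit 215) (nat_lit 216) (nat_lit 212) (nat_lit 0) (nat_lit 12) (nat_lit 12) (nat_lit 0) (nat_lit 11) (nat_lit 12) (by decide +kernel)
theorem L10808 : W_24 (nat_lit 3) (nat_lit 0x40001c000200010001000080000000000000000000000000000000) (nat_lit 0x0) (nat_lit 0x1b00002000000000000000000000000000000000000000000000000) := T_24 (nat_lit 213) (nat_lit 193) (nat_lit 3) (nat_lit 6) (nat_lit 11) L10807 (by decide +kernel)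
theorem L10809 : W_24 (nat_lit 4) (nat_lit 0x40001c000200000001000080000000000000000000000000000000) (nat_lit 0x0) (nat_lit 0x1b00002000000010000800000000000000000000000000000000000) := T_24 (nat_lit 160) (nat_lit 143) (nat_lit 6) (nat_lit 7) (nat_lit 11) L10808 (by decide +kernel)
theorem L10814 : W_24 (nat_lit 11) (nat_lit 0x1c000200000001000080000000000000000000000000000000) (nat_lit 0x0) (nat_lit 0xa000700039007c801f601e20078000d0000800000000000000000000000000000000000) := Q_24 (nat_lit 214) (C_24 L10801 (C_24 L10804 (C_24 L10806 (C_24 L10809 (C_24 L10813 N_24))))) (by decide +kernel)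
theorem L10820 : W_24 (nat_lit 2) (nat_lit 0x1c000300000001000080000000000000000000000000000000) (nat_lit 0x0) (nat_lit 0x20000c0000000000000000000000000000000000000000000) := D_24 (nat_lit 175) (nat_lit 193) (nat_lit 174) (nat_lit 0) (nat_lit 9) (nat_lit 11) (nat_lit 3) (nat_lit 4) (nat_lit 10) (by decide +kernel)
theorem L10821 : W_24 (nat_lit 3) (nat_lit 0x1c000200000001000080000000000000000000000000000000) (nat_lit 0x0) (nat_lit 0x220001c0000000000000000000000000000000000000000000) := T_24 (nat_lit 176) (nat_lit 197) (nat_lit 0) (nat_lit 10) (nat_lit 11) L10820 (by decide +kernel)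
theorem L10822 : W_24 (nat_lit 12) (nat_lit 0x1c000200000001000080000000000000000000000000000000) (nat_lit 0x0) (nat_lit 0x20001d000f8007700030019c0070000800000000000000000000000000000000000) := Q_24 (nat_lit 193) (C_24 L9290 (C_24 L10683 (C_24 L9287 N_24))) (by decide +kernel)
theorem L10823 : W_24 (nat_lit 13) (nat_lit 0xc000200000001000080000000000000000000000000000000) (nat_lit 0x0) (nat_lit 0xa00070003d007f801f701f30079c00f0000800000000000000000000000000000000000) := Q_24 (nat_lit 196) (C_24 L5062 (C_24 L10814 (C_24 L10819 (C_24 L10821 (C_24 L10822 N_24))))) (by decide +kernel)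
theorem L10824 : W_24 (nat_lit 2) (nat_lit 0x1c000300010001000080000000000000000000000000000000) (nat_lit 0x0) (nat_lit 0x20000c0000000000000000000000000000000000000000000) := D_24 (nat_lit 175) (nat_lit 174) (nat_lit 193) (nat_lit 3) (nat_lit 4) (nat_lit 10) (nat_lit 0) (nat_lit 9) (nat_lit 11) (by decide +kernel)
theorem L10825 : W_24 (nat_lit 3) (nat_lit 0xc000300010001000080000000000000000000000000000000) (nat_lit 0x0) (nat_lit 0x320000c0000000000000000000000000000000000000000000) := T_24 (nat_lit 196) (nat_lit 197) (nat_lit 0) (nat_lit 10) (nat_lit 11) L10824 (by decide +kernel)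
theorem L10826 : W_24 (nat_lit 4) (nat_lit 0xc000300000001000080000000000000000000000000000000) (nat_lit 0x0) (nat_lit 0x320000c0010000800000000000000000000000000000000000) := T_24 (nat_lit 160) (nat_lit 143) (nat_lit 6) (nat_lit 7) (nat_lit 11) L10825 (by decide +kernel)
theorem L10827 : W_24 (nat_lit 2) (nat_lit 0xf000780014001000080000000000000000000000000000000) (nat_lit 0x0) (nat_lit 0x40000000000000000200010000000000000000000000000000000) := D_24 (nat_lit 141) (nat_lit 210) (nat_lit 124) (nat_lit 7) (nat_lit 5) (nat_lit 8) (nat_lit 7) (nat_lit 5) (nat_lit 7) (by decide +kernel)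
theorem L10828 : W_24 (nat_lit 3) (nat_lit 0xd000780014001000080000000000000000000000000000000) (nat_lit 0x0) (nat_lit 0x40002000800000000200010000000000000000000000000000000) := T_24 (nat_lit 193) (nat_lit 179) (nat_lit 2) (nat_lit 5) (nat_lit 11) L10827 (by decide +kernel)
theorem L10829 : W_24 (nat_lit 4) (nat_lit 0xd000780010001000080000000000000000000000000000000) (nat_lit 0x0) (nat_lit 0x40002000800006000200010000000000000000000000000000000) := T_24 (nat_lit 158) (nat_lit 157) (nat_lit 0) (nat_lit 8) (nat_lit 10) L10828 (by decide +kernel)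
theorem L10830 : W_24 (nat_lit 5) (nat_lit 0xc000780010001000080000000000000000000000000000000) (nat_lit 0x0) (nat_lit 0x40003800800006000200010000000000000000000000000000000) := T_24 (nat_lit 192) (nat_lit 191) (nat_lit 1) (nat_lit 8) (nat_lit 10) L10829 (by decide +kernel)
theorem L10831 : W_24 (nat_lit 6) (nat_lit 0xc000380010001000080000000000000000000000000000000) (nat_lit 0x0) (nat_lit 0x40003800c00026000200010000000000000000000000000000000) := T_24 (nat_lit 178) (nat_lit 161) (nat_lit 5) (nat_lit 8) (nat_lit 7) L10830 (by decide +kernel)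
theorem L10832 : W_24 (nat_lit 7) (nat_lit 0xc000380000001000080000000000000000000000000000000) (nat_lit 0x0) (nat_lit 0x40003800c00036000a00010000000000000000000000000000000) := T_24 (nat_lit 160) (nat_lit 143) (nat_lit 6) (nat_lit 7) (nat_lit 11) L10831 (by decide +kernel)
theorem L10833 : W_24 (nat_lit 8) (nat_lit 0xc000300000001000080000000000000000000000000000000) (nat_lit 0x0) (nat_lit 0x40003800cc0036000a00010000000000000000000000000000000) := T_24 (nat_lit 175) (nat_lit 174) (nat_lit 3) (nat_lit 4) (nat_lit 10) L10832 (by decide +kernel)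
theorem L10834 : W_24 (nat_lit 2) (nat_lit 0xc000380020001000080000000000000000000000000000000) (nat_lit 0x0) (nat_lit 0x32000000000000000000000000000000000000000000000000) := D_24 (nat_lit 196) (nat_lit 197) (nat_lit 193) (nat_lit 0) (nat_lit 10) (nat_lit 11) (nat_lit 0) (nat_lit 9) (nat_lit 11) (by decide +kernel)
theorem L10835 : W_24 (nat_lit 3) (nat_lit 0xc000300020001000080000000000000000000000000000000) (nat_lit 0x0) (nat_lit 0x320000c0000000000000000000000000000000000000000000) := T_24 (nat_lit 175) (nat_lit 174) (nat_lit 3) (nat_lit 4) (nat_lit 10) L10834 (by decide +kernel)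
theorem L10836 : W_24 (nat_lit 4) (nat_lit 0xc000300000001000080000000000000000000000000000000) (nat_lit 0x0) (nat_lit 0x320004c0020000000000000000000000000000000000000000) := T_24 (nat_lit 161) (nat_lit 178) (nat_lit 5) (nat_lit 8) (nat_lit 7) L10835 (by decide +kernel)
theorem L10839 : W_24 (nat_lit 2) (nat_lit 0x20001e000300070001000080000000000000000000000000000000) (nat_lit 0x0) (nat_lit 0x800060000000000000000000000000000000000000000000000000000) := D_24 (nat_lit 210) (nat_lit 209) (nat_lit 227) (nat_lit 1) (nat_lit 9) (nat_lit 11) (nat_lit 6) (nat_lit 6) (nat_lit 13) (by decide +kernel)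
theorem L10840 : W_24 (nat_lit 3) (nat_lit 0x20001c000300070001000080000000000000000000000000000000) (nat_lit 0x0) (nat_lit 0x800460002000000000000000000000000000000000000000000000000) := T_24 (nat_lit 193) (nat_lit 214) (nat_lit 3) (nat_lit 6) (nat_lit 11) L10839 (by decide +kernel)
theorem L10841 : W_24 (nat_lit 4) (nat_lit 0x1c000300070001000080000000000000000000000000000000) (nat_lit 0x0) (nat_lit 0x800660002000800000000000000000000000000000000000000000000) := T_24 (nat_lit 213) (nat_lit 179) (nat_lit 4) (nat_lit 9) (nat_lit 12) L10840 (by decide +kernel)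
theorem L10842 : W_24 (nat_lit 5) (nat_lit 0x1c000300030001000080000000000000000000000000000000) (nat_lit 0x0) (nat_lit 0x8006600020008000c0000000000000000000000000000000000000000) := T_24 (nat_lit 162) (nat_lit 163) (nat_lit 1) (nat_lit 10) (nat_lit 9) L10841 (by decide +kernel)
theorem L10843 : W_24 (nat_lit 6) (nat_lit 0x1c000300020001000080000000000000000000000000000000) (nat_lit 0x0) (nat_lit 0x8006600020008000d0000800000000000000000000000000000000000) := T_24 (nat_lit 160) (nat_lit 143) (nat_lit 6) (nat_lit 7) (nat_lit 11) L10842 (by decide +kernel)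
theorem L10844 : W_24 (nat_lit 7) (nat_lit 0x1c000300000001000080000000000000000000000000000000) (nat_lit 0x0) (nat_lit 0x800660002000c000f0000800000000000000000000000000000000000) := T_24 (nat_lit 161) (nat_lit 178) (nat_lit 5) (nat_lit 8) (nat_lit 7) L10843 (by decide +kernel)
theorem L10845 : W_24 (nat_lit 8) (nat_lit 0xc000300000001000080000000000000000000000000000000) (nat_lit 0x0) (nat_lit 0x800660032000c000f0000800000000000000000000000000000000000) := T_24 (nat_lit 196) (nat_lit 197) (nat_lit 0) (nat_lit 10) (nat_lit 11) L10844 (by decide +kernel)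
theorem L10846 : W_24 (nat_lit 9) (nat_lit 0xc000200000001000080000000000000000000000000000000) (nat_lit 0x0) (nat_lit 0x800660033800dc00f6000a00010000000000000000000000000000000) := Q_24 (nat_lit 176) (C_24 L10826 (C_24 L10833 (C_24 L10836 (C_24 L10838 (C_24 L10845 N_24))))) (by decide +kernel)
theorem L10847 : W_24 (nat_lit 2) (nat_lit 0xd000280000001000080000000000000000000000000000000) (nat_lit 0x0) (nat_lit 0x2000140000000000000000000000000000000000000000000) := D_24 (nat_lit 174) (nat_lit 176) (nat_lit 193) (nat_lit 3) (nat_lit 4) (nat_lit 10) (nat_lit 0) (nat_lit 8) (nat_lit 11) (by decide +kernel)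
theorem L10852 : W_24 (nat_lit 6) (nat_lit 0x4000000011000f800280000001800080000000000000000000000000000000) (nat_lit 0x0) (nat_lit 0x400020000000000000000400070015c000000000000000000000000000000) := T_24 (nat_lit 242) (nat_lit 225) (nat_lit 6) (nat_lit 4) (nat_lit 14) L10851 (by decide +kernel)
theorem L10853 : W_24 (nat_lit 7) (nat_lit 0x11000f800280000001800080000000000000000000000000000000) (nat_lit 0x0) (nat_lit 0x4400220000000000000000400070015c000000000000000000000000000000) := T_24 (nat_lit 246) (nat_lit 229) (nat_lit 4) (nat_lit 8) (nat_lit 14) L10852 (by decide +kernel)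
theorem L10854 : W_24 (nat_lit 8) (nat_lit 0x11000f000280000001800080000000000000000000000000000000) (nat_lit 0x0) (nat_lit 0x4400220000800080000000400070015c000000000000000000000000000000) := T_24 (nat_lit 191) (nat_lit 207) (nat_lit 1) (nat_lit 7) (nat_lit 11) L10853 (by decide +kernel)
theorem L10855 : W_24 (nat_lit 9) (nat_lit 0x1000f000280000001800080000000000000000000000000000000) (nat_lit 0x0) (nat_lit 0x4400220030800080000000400070015c000000000000000000000000000000) := T_24 (nat_lit 212) (nat_lit 213) (nat_lit 3) (nat_lit 5) (nat_lit 11) L10854 (by decide +kernel)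
theorem L10856 : W_24 (nat_lit 10) (nat_lit 0xf000280000001800080000000000000000000000000000000) (nat_lit 0x0) (nat_lit 0x4400220033800080000000400070015c000000000000000000000000000000) := T_24 (nat_lit 208) (nat_lit 209) (nat_lit 1) (nat_lit 8) (nat_lit 11) L10855 (by decide +kernel)
theorem L10857 : W_24 (nat_lit 11) (nat_lit 0xd000280000001800080000000000000000000000000000000) (nat_lit 0x0) (nat_lit 0x4400220033800280004000400070015c000000000000000000000000000000) := T_24 (nat_lit 193) (nat_lit 174) (nat_lit 0) (nat_lit 8) (nat_lit 11) L10856 (by decide +kernel)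
theorem L10858 : W_24 (nat_lit 12) (nat_lit 0xd000280000001000080000000000000000000000000000000) (nat_lit 0x0) (nat_lit 0x44002200338002800040014000f0015c000000000000000000000000000000) := T_24 (nat_lit 143) (nat_lit 160) (nat_lit 6) (nat_lit 7) (nat_lit 11) L10857 (by decide +kernel)
theorem L10859 : W_24 (nat_lit 2) (nat_lit 0xd000280000001e00080000000000000000000000000000000) (nat_lit 0x0) (nat_lit 0x6000000020000000000000000000000000000000) := D_24 (nat_lit 158) (nat_lit 157) (nat_lit 125) (nat_lit 1) (nat_lit 8) (nat_lit 8) (nat_lit 6) (nat_lit 5) (nat_lit 11) (by decide +kernel)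
theorem L10860 : W_24 (nat_lit 3) (nat_lit 0xd000280000001a00080000000000000000000000000000000) (nat_lit 0x0) (nat_lit 0x6000400120000000000000000000000000000000) := T_24 (nat_lit 142) (nat_lit 128) (nat_lit 2) (nat_lit 5) (nat_lit 8) L10859 (by decide +kernel)
theorem L10861 : W_24 (nat_lit 4) (nat_lit 0xd000280000001200080000000000000000000000000000000) (nat_lit 0x0) (nat_lit 0x16000c00120000000000000000000000000000000) := T_24 (nat_lit 143) (nat_lit 160) (nat_lit 6) (nat_lit 7) (nat_lit 11) L10860 (by decide +kernel)
theorem L10862 : W_24 (nat_lit 6) (nat_lit 0xd000280000001200080000000000000000000000000000000) (nat_lit 0x0) (nat_lit 0x200030000800000006000d00168000000000000000000000000000000) := Q_24 (nat_lit 158) (C_24 L8945 (C_24 L8939 (C_24 L8941 N_24))) (by decide +kernel)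
theorem L10863 : W_24 (nat_lit 2) (nat_lit 0xd0002c0004001200080000000000000000000000000000000) (nat_lit 0x0) (nat_lit 0x10000800000000000000010000000000000000000000000000000) := D_24 (nat_lit 191) (nat_lit 208) (nat_lit 124) (nat_lit 5) (nat_lit 5) (nat_lit 8) (nat_lit 5) (nat_lit 5) (nat_lit 7) (by decide +kernel)
theorem L10864 : W_24 (nat_lit 3) (nat_lit 0xd000280004001200080000000000000000000000000000000) (nat_lit 0x0) (nat_lit 0x10000800140000000000010000000000000000000000000000000) := T_24 (nat_lit 174) (nat_lit 176) (nat_lit 3) (nat_lit 4) (nat_lit 10) L10863 (by decide +kernel)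
theorem L10865 : W_24 (nat_lit 5) (nat_lit 0xd000280000001200080000000000000000000000000000000) (nat_lit 0x0) (nat_lit 0x200030000800140006000d00078000000000000000000000000000000) := Q_24 (nat_lit 158) (C_24 L8939 (C_24 L8936 (C_24 L10864 N_24))) (by decide +kernel)
theorem L10866 : W_24 (nat_lit 2) (nat_lit 0xd0002c0000001f00080000000000000000000000000000000) (nat_lit 0x0) (nat_lit 0x7000000000000000000000000000000000000000) := D_24 (nat_lit 157) (nat_lit 156) (nat_lit 158) (nat_lit 1) (nat_lit 7) (nat_lit 8) (nat_lit 1) (nat_lit 8) (nat_lit 8) (by decide +kernel)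
theorem L10867 : W_24 (nat_lit 3) (nat_lit 0xd0002c0000001e00080000000000000000000000000000000) (nat_lit 0x0) (nat_lit 0x7000100040000000000000000000000000000000) := T_24 (nat_lit 140) (nat_lit 126) (nat_lit 2) (nat_lit 4) (nat_lit 8) L10866 (by decide +kernel)
theorem L10868 : W_24 (nat_lit 4) (nat_lit 0xd0002c0000001a00080000000000000000000000000000000) (nat_lit 0x0) (nat_lit 0x7000500140000000000000000000000000000000) := T_24 (nat_lit 142) (nat_lit 128) (nat_lit 2) (nat_lit 5) (nat_lit 8) L10867 (by decide +kernel)
theorem L10869 : W_24 (nat_lit 5) (nat_lit 0xd0002c0000001200080000000000000000000000000000000) (nat_lit 0x0) (nat_lit 0x17000d00140000000000000000000000000000000) := T_24 (nat_lit 143) (nat_lit 160) (nat_lit 6) (nat_lit 7) (nat_lit 11) L10868 (by decide +kernel)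
theorem L10870 : W_24 (nat_lit 6) (nat_lit 0xd000280000001200080000000000000000000000000000000) (nat_lit 0x0) (nat_lit 0x140017000d00140000000000000000000000000000000) := T_24 (nat_lit 174) (nat_lit 176) (nat_lit 3) (nat_lit 4) (nat_lit 10) L10869 (by decide +kernel)
theorem L10871 : W_24 (nat_lit 2) (nat_lit 0xa0002000d0002c0004001700080000000000000000000000000000000) (nat_lit 0x0) (nat_lit 0x14000400000000000000000000000000000000000000000000000000000000) := D_24 (nat_lit 226) (nat_lit 244) (nat_lit 242) (nat_lit 7) (nat_lit 5) (nat_lit 10) (nat_lit 5) (nat_lit 5) (nat_lit 10) (by decide +kernel)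
theorem L10872 : W_24 (nat_lit 3) (nat_lit 0x80002000d0002c0004001700080000000000000000000000000000000) (nat_lit 0x0) (nat_lit 0x14000600010000000000000000000000000000000000000000000000000000) := T_24 (nat_lit 225) (nat_lit 208) (nat_lit 5) (nat_lit 5) (nat_lit 9) L10871 (by decide +kernel)
theorem L10873 : W_24 (nat_lit 4) (nat_lit 0x2000d0002c0004001700080000000000000000000000000000000) (nat_lit 0x0) (nat_lit 0x14000e00050000000000000000000000000000000000000000000000000000) := T_24 (nat_lit 227) (nat_lit 210) (nat_lit 7) (nat_lit 5) (nat_lit 9) L10872 (by decide +kernel)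
theorem L10874 : W_24 (nat_lit 5) (nat_lit 0xd0002c0004001700080000000000000000000000000000000) (nat_lit 0x0) (nat_lit 0x14000e00070000000000002000000000000000000000000000000000000000) := T_24 (nat_lit 209) (nat_lit 157) (nat_lit 4) (nat_lit 5) (nat_lit 12) L10873 (by decide +kernel)
theorem L10875 : W_24 (nat_lit 6) (nat_lit 0xd0002c0004001600080000000000000000000000000000000) (nat_lit 0x0) (nat_lit 0x14000e00070000000000002000100008000000000000000000000000000000) := T_24 (nat_lit 140) (nat_lit 123) (nat_lit 4) (nat_lit 5) (nat_lit 11) L10874 (by decide +kernel)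
theorem L10876 : W_24 (nat_lit 7) (nat_lit 0xd000280004001600080000000000000000000000000000000) (nat_lit 0x0) (nat_lit 0x14000e00070000000140002000100008000000000000000000000000000000) := T_24 (nat_lit 174) (nat_lit 176) (nat_lit 3) (nat_lit 4) (nat_lit 10) L10875 (by decide +kernel)
theorem L10877 : W_24 (nat_lit 8) (nat_lit 0xd000280004001200080000000000000000000000000000000) (nat_lit 0x0) (nat_lit 0x14000e00070000000140002000500028000000000000000000000000000000) := T_24 (nat_lit 142) (nat_lit 125) (nat_lit 6) (nat_lit 5) (nat_lit 11) L10876 (by decide +kernel)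
theorem L10878 : W_24 (nat_lit 2) (nat_lit 0x80002000d8002c0004001700080000000000000000000000000000000) (nat_lit 0x0) (nat_lit 0x18000400000000000000000000000000000000000000000000000000000000) := D_24 (nat_lit 226) (nat_lit 244) (nat_lit 243) (nat_lit 7) (nat_lit 5) (nat_lit 10) (nat_lit 4) (nat_lit 5) (nat_lit 14) (by decide +kernel)
theorem L10879 : W_24 (nat_lit 3) (nat_lit 0x80002000d0002c0004001700080000000000000000000000000000000) (nat_lit 0x0) (nat_lit 0x18000400000000800000000000000010000000000000000000000000000000) := T_24 (nat_lit 191) (nat_lit 124) (nat_lit 5) (nat_lit 5) (nat_lit 7) L10878 (by decide +kernel)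
theorem L10880 : W_24 (nat_lit 4) (nat_lit 0x2000d0002c0004001700080000000000000000000000000000000) (nat_lit 0x0) (nat_lit 0x18000c00040000800000000000000010000000000000000000000000000000) := T_24 (nat_lit 227) (nat_lit 210) (nat_lit 7) (nat_lit 5) (nat_lit 9) L10879 (by decide +kernel)
theorem L10881 : W_24 (nat_lit 5) (nat_lit 0x2000d000280004001700080000000000000000000000000000000) (nat_lit 0x0) (nat_lit 0x18000c00040000800140000000000010000000000000000000000000000000) := T_24 (nat_lit 174) (nat_lit 176) (nat_lit 3) (nat_lit 4) (nat_lit 10) L10880 (by decide +kernel)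
theorem L10882 : W_24 (nat_lit 6) (nat_lit 0xd000280004001700080000000000000000000000000000000) (nat_lit 0x0) (nat_lit 0x18000c00060000800140002000000010000000000000000000000000000000) := T_24 (nat_lit 209) (nat_lit 157) (nat_lit 4) (nat_lit 5) (nat_lit 12) L10881 (by decide +kernel)
theorem L10883 : W_24 (nat_lit 7) (nat_lit 0xd000280004001300080000000000000000000000000000000) (nat_lit 0x0) (nat_lit 0x18000c00060000800140002000400030000000000000000000000000000000) := T_24 (nat_lit 142) (nat_lit 125) (nat_lit 6) (nat_lit 5) (nat_lit 11) L10882 (by decide +kernel)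
theorem L10884 : W_24 (nat_lit 8) (nat_lit 0xd000280004001200080000000000000000000000000000000) (nat_lit 0x0) (nat_lit 0x18000c00060000800140002000500038000000000000000000000000000000) := T_24 (nat_lit 140) (nat_lit 123) (nat_lit 4) (nat_lit 5) (nat_lit 11) L10883 (by decide +kernel)
theorem L10885 : W_24 (nat_lit 9) (nat_lit 0xd000280000001200080000000000000000000000000000000) (nat_lit 0x0) (nat_lit 0x1c000e00070000800140006000500038000000000000000000000000000000) := Q_24 (nat_lit 158) (C_24 L10864 (C_24 L8939 (C_24 L10877 (C_24 L10884 N_24)))) (by decide +kernel)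
theorem L10886 : W_24 (nat_lit 2) (nat_lit 0xa0002000d0002c0014001300080000000000000000000000000000000) (nat_lit 0x0) (nat_lit 0x14000400000000000000000000000000000000000000000000000000000000) := D_24 (nat_lit 226) (nat_lit 244) (nat_lit 242) (nat_lit 7) (nat_lit 5) (nat_lit 10) (nat_lit 5) (nat_lit 5) (nat_lit 10) (by decide +kernel)
theorem L10887 : W_24 (nat_lit 3) (nat_lit 0x80002000d0002c0014001300080000000000000000000000000000000) (nat_lit 0x0) (nat_lit 0x14000600010000000000000000000000000000000000000000000000000000) := T_24 (nat_lit 225) (nat_lit 208) (nat_lit 5) (nat_lit 5) (nat_lit 9) L10886 (by decide +kernel)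
theorem L10888 : W_24 (nat_lit 4) (nat_lit 0x2000d0002c0014001300080000000000000000000000000000000) (nat_lit 0x0) (nat_lit 0x14000e00050000000000000000000000000000000000000000000000000000) := T_24 (nat_lit 227) (nat_lit 210) (nat_lit 7) (nat_lit 5) (nat_lit 9) L10887 (by decide +kernel)
theorem L10889 : W_24 (nat_lit 5) (nat_lit 0xd0002c0014001300080000000000000000000000000000000) (nat_lit 0x0) (nat_lit 0x14000e00070000000000002000000000000000000000000000000000000000) := T_24 (nat_lit 209) (nat_lit 157) (nat_lit 4) (nat_lit 5) (nat_lit 12) L10888 (by decide +kernel)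
theorem L10890 : W_24 (nat_lit 6) (nat_lit 0xd0002c0004001300080000000000000000000000000000000) (nat_lit 0x0) (nat_lit 0x14000e00070000000000012000800000000000000000000000000000000000) := T_24 (nat_lit 160) (nat_lit 143) (nat_lit 6) (nat_lit 7) (nat_lit 11) L10889 (by decide +kernel)
theorem L10891 : W_24 (nat_lit 7) (nat_lit 0xd0002c0004001200080000000000000000000000000000000) (nat_lit 0x0) (nat_lit 0x14000e00070000000000012000900008000000000000000000000000000000) := T_24 (nat_lit 140) (nat_lit 123) (nat_lit 4) (nat_lit 5) (nat_lit 11) L10890 (by decide +kernel)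
theorem L10892 : W_24 (nat_lit 8) (nat_lit 0xd000280004001200080000000000000000000000000000000) (nat_lit 0x0) (nat_lit 0x14000e00070000000140012000900008000000000000000000000000000000) := T_24 (nat_lit 174) (nat_lit 176) (nat_lit 3) (nat_lit 4) (nat_lit 10) L10891 (by decide +kernel)
theorem L10893 : W_24 (nat_lit 2) (nat_lit 0x2000d0002c0004001300090000000000000000000000000000000) (nat_lit 0x0) (nat_lit 0x60001000000000000000000000000000) := D_24 (nat_lit 125) (nat_lit 126) (nat_lit 108) (nat_lit 1) (nat_lit 8) (nat_lit 7) (nat_lit 6) (nat_lit 5) (nat_lit 10) (by decide +kernel)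
theorem L10894 : W_24 (nat_lit 3) (nat_lit 0x2000d0002c0004001300080000000000000000000000000000000) (nat_lit 0x0) (nat_lit 0x800000000000000070001000000000000000000000000000) := T_24 (nat_lit 124) (nat_lit 191) (nat_lit 5) (nat_lit 5) (nat_lit 7) L10893 (by decide +kernel)
theorem L10895 : W_24 (nat_lit 4) (nat_lit 0xd0002c0004001300080000000000000000000000000000000) (nat_lit 0x0) (nat_lit 0x20000800000002000000070001000000000000000000000000000) := T_24 (nat_lit 209) (nat_lit 157) (nat_lit 4) (nat_lit 5) (nat_lit 12) L10894 (by decide +kernel)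
theorem L10896 : W_24 (nat_lit 5) (nat_lit 0xd000280004001300080000000000000000000000000000000) (nat_lit 0x0) (nat_lit 0x20000800140002000000070001000000000000000000000000000) := T_24 (nat_lit 174) (nat_lit 176) (nat_lit 3) (nat_lit 4) (nat_lit 10) L10895 (by decide +kernel)
theorem L10897 : W_24 (nat_lit 6) (nat_lit 0xd000280004001200080000000000000000000000000000000) (nat_lit 0x0) (nat_lit 0x20000800140002000100078001000000000000000000000000000) := T_24 (nat_lit 140) (nat_lit 123) (nat_lit 4) (nat_lit 5) (nat_lit 11) L10896 (by decide +kernel)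
theorem L10898 : W_24 (nat_lit 9) (nat_lit 0xd000280000001200080000000000000000000000000000000) (nat_lit 0x0) (nat_lit 0x14000e00070000800140016000900078001000000000000000000000000000) := Q_24 (nat_lit 158) (C_24 L10864 (C_24 L8939 (C_24 L10892 (C_24 L10897 N_24)))) (by decide +kernel)
theorem L10899 : W_24 (nat_lit 2) (nat_lit 0xd0002c0000001f00080000000000000000000000000000000) (nat_lit 0x0) (nat_lit 0x3000000008000000000000000000000000000000) := D_24 (nat_lit 157) (nat_lit 156) (nat_lit 123) (nat_lit 1) (nat_lit 7) (nat_lit 8) (nat_lit 7) (nat_lit 4) (nat_lit 7) (by decide +kernel)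
theorem L10900 : W_24 (nat_lit 3) (nat_lit 0xd0002c0000001e00080000000000000000000000000000000) (nat_lit 0x0) (nat_lit 0x3000100048000000000000000000000000000000) := T_24 (nat_lit 140) (nat_lit 126) (nat_lit 2) (nat_lit 4) (nat_lit 8) L10899 (by decide +kernel)
theorem L10901 : W_24 (nat_lit 4) (nat_lit 0xd0002c0000001a00080000000000000000000000000000000) (nat_lit 0x0) (nat_lit 0x3000500148000000000000000000000000000000) := T_24 (nat_lit 142) (nat_lit 128) (nat_lit 2) (nat_lit 5) (nat_lit 8) L10900 (by decide +kernel)
theorem L10902 : W_24 (nat_lit 5) (nat_lit 0xd0002c0000001200080000000000000000000000000000000) (nat_lit 0x0) (nat_lit 0x13000d00148000000000000000000000000000000) := T_24 (nat_lit 143) (nat_lit 160) (nat_lit 6) (nat_lit 7) (nat_lit 11) L10901 (by decide +kernel)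
theorem L10903 : W_24 (nat_lit 6) (nat_lit 0xd000280000001200080000000000000000000000000000000) (nat_lit 0x0) (nat_lit 0x140013000d00148000000000000000000000000000000) := T_24 (nat_lit 174) (nat_lit 176) (nat_lit 3) (nat_lit 4) (nat_lit 10) L10902 (by decide +kernel)
theorem L10904 : W_24 (nat_lit 2) (nat_lit 0xd0002c0000001f00080000000000000000000000000000000) (nat_lit 0x0) (nat_lit 0x1c000000000000000000000000000000) := D_24 (nat_lit 123) (nat_lit 122) (nat_lit 124) (nat_lit 0) (nat_lit 7) (nat_lit 8) (nat_lit 0) (nat_lit 8) (nat_lit 8) (by decide +kernel)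
theorem L10905 : W_24 (nat_lit 3) (nat_lit 0xd0002c0000001e00080000000000000000000000000000000) (nat_lit 0x0) (nat_lit 0x10005c000000000000000000000000000000) := T_24 (nat_lit 140) (nat_lit 126) (nat_lit 2) (nat_lit 4) (nat_lit 8) L10904 (by decide +kernel)
theorem L10906 : W_24 (nat_lit 4) (nat_lit 0xd0002c0000001a00080000000000000000000000000000000) (nat_lit 0x0) (nat_lit 0x50015c000000000000000000000000000000) := T_24 (nat_lit 142) (nat_lit 128) (nat_lit 2) (nat_lit 5) (nat_lit 8) L10905 (by decide +kernel)
theorem L10907 : W_24 (nat_lit 5) (nat_lit 0xd000280000001a00080000000000000000000000000000000) (nat_lit 0x0) (nat_lit 0x14000000050015c000000000000000000000000000000) := T_24 (nat_lit 174) (nat_lit 176) (nat_lit 3) (nat_lit 4) (nat_lit 10) L10906 (by decide +kernel)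
theorem L10908 : W_24 (nat_lit 6) (nat_lit 0xd000280000001200080000000000000000000000000000000) (nat_lit 0x0) (nat_lit 0x140010000d0015c000000000000000000000000000000) := T_24 (nat_lit 143) (nat_lit 160) (nat_lit 6) (nat_lit 7) (nat_lit 11) L10907 (by decide +kernel)
theorem L10909 : W_24 (nat_lit 10) (nat_lit 0xd000280000001000080000000000000000000000000000000) (nat_lit 0x0) (nat_lit 0x1c000e00070000800140017000f0017c001000000000000000000000000000) := Q_24 (nat_lit 141) (C_24 L10861 (C_24 L10862 (C_24 L10865 (C_24 L10870 (C_24 L10885 (C_24 L10898 (C_24 L10903 (C_24 L10908 N_24)))))))) (by decide +kernel)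
theorem L10910 : W_24 (nat_lit 11) (nat_lit 0xf000280000001000080000000000000000000000000000000) (nat_lit 0x0) (nat_lit 0x44002200338000800000014000f0015c000000000000000000000000000000) := T_24 (nat_lit 143) (nat_lit 160) (nat_lit 6) (nat_lit 7) (nat_lit 11) L10856 (by decide +kernel)
theorem L10911 : W_24 (nat_lit 2) (nat_lit 0xf800280000001000080000000000000000000000000000000) (nat_lit 0x0) (nat_lit 0x38000000000000000000000000000000000000000000000000000) := D_24 (nat_lit 208) (nat_lit 209) (nat_lit 207) (nat_lit 1) (nat_lit 8) (nat_lit 11) (nat_lit 1) (nat_lit 7) (nat_lit 11) (by decide +kernel)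
theorem L10912 : W_24 (nat_lit 4) (nat_lit 0xf800280000001000080000000000000000000000000000000) (nat_lit 0x0) (nat_lit 0x31c000400100000000000000000000000000000000000000000000) := T_24 (nat_lit 212) (nat_lit 213) (nat_lit 3) (nat_lit 5) (nat_lit 11) L9002 (by decide +kernel)
theorem L10913 : W_24 (nat_lit 2) (nat_lit 0x10400fc00290000001000080000000000000000000000000000000) (nat_lit 0x0) (nat_lit 0x2000200008000000000000000000000000000000000000000000) := D_24 (nat_lit 189) (nat_lit 205) (nat_lit 171) (nat_lit 1) (nat_lit 5) (nat_lit 11) (nat_lit 0) (nat_lit 5) (nat_lit 11) (by decide +kernel)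
theorem L10914 : W_24 (nat_lit 3) (nat_lit 0x10400fc00280000001000080000000000000000000000000000000) (nat_lit 0x0) (nat_lit 0x2000200038000000000000000000000000000000000000000000) := T_24 (nat_lit 172) (nat_lit 173) (nat_lit 0) (nat_lit 6) (nat_lit 11) L10913 (by decide +kernel)
theorem L10915 : W_24 (nat_lit 4) (nat_lit 0x10000fc00280000001000080000000000000000000000000000000) (nat_lit 0x0) (nat_lit 0xe000200038000000000000000000000000000000000000000000) := T_24 (nat_lit 206) (nat_lit 207) (nat_lit 1) (nat_lit 6) (nat_lit 11) L10914 (by decide +kernel)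
theorem L10916 : W_24 (nat_lit 5) (nat_lit 0x10000f800280000001000080000000000000000000000000000000) (nat_lit 0x0) (nat_lit 0xe000600138000000000000000000000000000000000000000000) := T_24 (nat_lit 190) (nat_lit 176) (nat_lit 2) (nat_lit 3) (nat_lit 11) L10915 (by decide +kernel)
theorem L10917 : W_24 (nat_lit 6) (nat_lit 0xf800280000001000080000000000000000000000000000000) (nat_lit 0x0) (nat_lit 0x30e000600138000000000000000000000000000000000000000000) := T_24 (nat_lit 212) (nat_lit 213) (nat_lit 3) (nat_lit 5) (nat_lit 11) L10916 (by decide +kernel)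
theorem L10918 : W_24 (nat_lit 2) (nat_lit 0x4000000012000fe00280000001000080000000000000000000000000000000) (nat_lit 0x0) (nat_lit 0x38000000000000000000000000000000000000000000) := D_24 (nat_lit 172) (nat_lit 173) (nat_lit 171) (nat_lit 0) (nat_lit 6) (nat_lit 11) (nat_lit 0) (nat_lit 5) (nat_lit 11) (by decide +kernel)
theorem L10919 : W_24 (nat_lit 3) (nat_lit 0x4000000012000fc00280000001000080000000000000000000000000000000) (nat_lit 0x0) (nat_lit 0x40000200038000000000000000000000000000000000000000000) := T_24 (nat_lit 189) (nat_lit 210) (nat_lit 3) (nat_lit 2) (nat_lit 11) L10918 (by decide +kernel)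
theorem L10920 : W_24 (nat_lit 4) (nat_lit 0x4000000012000f800280000001000080000000000000000000000000000000) (nat_lit 0x0) (nat_lit 0x40000600138000000000000000000000000000000000000000000) := T_24 (nat_lit 190) (nat_lit 176) (nat_lit 2) (nat_lit 3) (nat_lit 11) L10919 (by decide +kernel)
theorem L10921 : W_24 (nat_lit 5) (nat_lit 0x12000f800280000001000080000000000000000000000000000000) (nat_lit 0x0) (nat_lit 0x40002000040000600138000000000000000000000000000000000000000000) := T_24 (nat_lit 246) (nat_lit 229) (nat_lit 4) (nat_lit 8) (nat_lit 14) L10920 (by decide +kernel)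
theorem L10922 : W_24 (nat_lit 6) (nat_lit 0x10000f800280000001000080000000000000000000000000000000) (nat_lit 0x0) (nat_lit 0x40002000070000600138000000000000000000000000000000000000000000) := T_24 (nat_lit 209) (nat_lit 208) (nat_lit 1) (nat_lit 8) (nat_lit 11) L10921 (by decide +kernel)
theorem L10923 : W_24 (nat_lit 7) (nat_lit 0xf800280000001000080000000000000000000000000000000) (nat_lit 0x0) (nat_lit 0x40002000370000600138000000000000000000000000000000000000000000) := T_24 (nat_lit 212) (nat_lit 213) (nat_lit 3) (nat_lit 5) (nat_lit 11) L10922 (by decide +kernel)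
theorem L10924 : W_24 (nat_lit 8) (nat_lit 0xf000280000001000080000000000000000000000000000000) (nat_lit 0x0) (nat_lit 0x4000200037e000e00138000000000000000000000000000000000000000000) := Q_24 (nat_lit 191) (C_24 L10911 (C_24 L10912 (C_24 L10917 (C_24 L10923 N_24)))) (by decide +kernel)
theorem L10925 : W_24 (nat_lit 2) (nat_lit 0x400000001000fc002a0000001f80080000000000000000000000000000000) (nat_lit 0x0) (nat_lit 0x1c000000000000000000000000000000) := D_24 (nat_lit 123) (nat_lit 122) (nat_lit 124) (nat_lit 0) (nat_lit 7) (nat_lit 8) (nat_lit 0) (nat_lit 8) (nat_lit 8) (by decide +kernel)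
theorem L10926 : W_24 (nat_lit 3) (nat_lit 0x400000001000fc002a0000001e80080000000000000000000000000000000) (nat_lit 0x0) (nat_lit 0x10005c000000000000000000000000000000) := T_24 (nat_lit 140) (nat_lit 126) (nat_lit 2) (nat_lit 4) (nat_lit 8) L10925 (by decide +kernel)
theorem L10927 : W_24 (nat_lit 4) (nat_lit 0x400000001000fc002a0000001a80080000000000000000000000000000000) (nat_lit 0x0) (nat_lit 0x50015c000000000000000000000000000000) := T_24 (nat_lit 142) (nat_lit 128) (nat_lit 2) (nat_lit 5) (nat_lit 8) L10926 (by decide +kernel)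
theorem L10928 : W_24 (nat_lit 5) (nat_lit 0x400000001000fc002a0000001880080000000000000000000000000000000) (nat_lit 0x0) (nat_lit 0x400070015c000000000000000000000000000000) := T_24 (nat_lit 141) (nat_lit 158) (nat_lit 5) (nat_lit 5) (nat_lit 8) L10927 (by decide +kernel)
theorem L10929 : W_24 (nat_lit 6) (nat_lit 0x400000001000fc002a0000001800080000000000000000000000000000000) (nat_lit 0x0) (nat_lit 0x500078015c000000000000000000000000000000) := T_24 (nat_lit 139) (nat_lit 156) (nat_lit 7) (nat_lit 3) (nat_lit 8) L10928 (by decide +kernel)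
theorem L10930 : W_24 (nat_lit 7) (nat_lit 0x1000fc002a0000001800080000000000000000000000000000000) (nat_lit 0x0) (nat_lit 0x400020000000000000000500078015c000000000000000000000000000000) := T_24 (nat_lit 242) (nat_lit 225) (nat_lit 6) (nat_lit 4) (nat_lit 14) L10929 (by decide +kernel)
theorem L10931 : W_24 (nat_lit 8) (nat_lit 0x1000fc00280000001800080000000000000000000000000000000) (nat_lit 0x0) (nat_lit 0x400020000000000003000500078015c000000000000000000000000000000) := T_24 (nat_lit 173) (nat_lit 172) (nat_lit 0) (nat_lit 6) (nat_lit 11) L10930 (by decide +kernel)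
theorem L10932 : W_24 (nat_lit 9) (nat_lit 0x1000f800280000001800080000000000000000000000000000000) (nat_lit 0x0) (nat_lit 0x400020000000040013000500078015c000000000000000000000000000000) := T_24 (nat_lit 190) (nat_lit 176) (nat_lit 2) (nat_lit 3) (nat_lit 11) L10931 (by decide +kernel)
theorem L10933 : W_24 (nat_lit 10) (nat_lit 0x1000f000280000001800080000000000000000000000000000000) (nat_lit 0x0) (nat_lit 0x4000200008000c0013000500078015c000000000000000000000000000000) := T_24 (nat_lit 191) (nat_lit 207) (nat_lit 1) (nat_lit 7) (nat_lit 11) L10932 (by decide +kernel)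
theorem L10934 : W_24 (nat_lit 11) (nat_lit 0x1000f000280000001000080000000000000000000000000000000) (nat_lit 0x0) (nat_lit 0x4000200008000c00130015000f8015c000000000000000000000000000000) := T_24 (nat_lit 143) (nat_lit 160) (nat_lit 6) (nat_lit 7) (nat_lit 11) L10933 (by decide +kernel)
theorem L10935 : W_24 (nat_lit 12) (nat_lit 0xf000280000001000080000000000000000000000000000000) (nat_lit 0x0) (nat_lit 0x4000200038000c00130015000f8015c000000000000000000000000000000) := T_24 (nat_lit 208) (nat_lit 209) (nat_lit 1) (nat_lit 8) (nat_lit 11) L10934 (by decide +kernel)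
theorem L10936 : W_24 (nat_lit 2) (nat_lit 0x80000000f000280010001000080000000000000000000000000000000) (nat_lit 0x0) (nat_lit 0x10000000040000000100000000000000000000000000000000000000000000) := D_24 (nat_lit 210) (nat_lit 176) (nat_lit 244) (nat_lit 6) (nat_lit 6) (nat_lit 13) (nat_lit 6) (nat_lit 6) (nat_lit 14) (by decide +kernel)
theorem L10937 : W_24 (nat_lit 3) (nat_lit 0x80000000f000280000001000080000000000000000000000000000000) (nat_lit 0x0) (nat_lit 0x10000000040000000100010000800000000000000000000000000000000000) := T_24 (nat_lit 160) (nat_lit 143) (nat_lit 6) (nat_lit 7) (nat_lit 11) L10936 (by decide +kernel)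
theorem L10938 : W_24 (nat_lit 2) (nat_lit 0x1000080000000f000280010001000080000000000000000000000000000000) (nat_lit 0x0) (nat_lit 0x400030000000000000000000000000000000000000000000000000000) := D_24 (nat_lit 209) (nat_lit 208) (nat_lit 226) (nat_lit 1) (nat_lit 8) (nat_lit 11) (nat_lit 7) (nat_lit 5) (nat_lit 10) (by decide +kernel)
theorem L10939 : W_24 (nat_lit 3) (nat_lit 0x80000000f000280010001000080000000000000000000000000000000) (nat_lit 0x0) (nat_lit 0x10000400070000000000000000000000000000000000000000000000000000) := T_24 (nat_lit 244) (nat_lit 210) (nat_lit 6) (nat_lit 6) (nat_lit 14) L10938 (by decide +kernel)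
theorem L10940 : W_24 (nat_lit 4) (nat_lit 0x80000000f000280000001000080000000000000000000000000000000) (nat_lit 0x0) (nat_lit 0x10000400070000000000010000800000000000000000000000000000000000) := T_24 (nat_lit 160) (nat_lit 143) (nat_lit 6) (nat_lit 7) (nat_lit 11) L10939 (by decide +kernel)
theorem L10941 : W_24 (nat_lit 2) (nat_lit 0x1000080010000f000280000001000080000000000000000000000000000000) (nat_lit 0x0) (nat_lit 0x400030000000000000000000000000000000000000000000000000000) := D_24 (nat_lit 209) (nat_lit 208) (nat_lit 226) (nat_lit 1) (nat_lit 8) (nat_lit 11) (nat_lit 7) (nat_lit 5) (nat_lit 10) (by decide +kernel)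
theorem L10942 : W_24 (nat_lit 3) (nat_lit 0x80010000f000280000001000080000000000000000000000000000000) (nat_lit 0x0) (nat_lit 0x10000400070000000000000000000000000000000000000000000000000000) := T_24 (nat_lit 244) (nat_lit 210) (nat_lit 6) (nat_lit 6) (nat_lit 14) L10941 (by decide +kernel)
theorem L10943 : W_24 (nat_lit 4) (nat_lit 0x80000000f000280000001000080000000000000000000000000000000) (nat_lit 0x0) (nat_lit 0x10000400370000000000000000000000000000000000000000000000000000) := T_24 (nat_lit 212) (nat_lit 213) (nat_lit 3) (nat_lit 5) (nat_lit 11) L10942 (by decide +kernel)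
theorem L10944 : W_24 (nat_lit 2) (nat_lit 0x48000c0012000f000280010001000080000000000000000000000000000000) (nat_lit 0x0) (nat_lit 0x80004000200000000000000000000000000000000000000000000000000000000) := D_24 (nat_lit 242) (nat_lit 259) (nat_lit 225) (nat_lit 5) (nat_lit 5) (nat_lit 11) (nat_lit 5) (nat_lit 5) (nat_lit 10) (by decide +kernel)
theorem L10945 : W_24 (nat_lit 3) (nat_lit 0x40000c0012000f000280010001000080000000000000000000000000000000) (nat_lit 0x0) (nat_lit 0x8000c000200000000000100000000000000000000000000000000000000000000) := T_24 (nat_lit 243) (nat_lit 176) (nat_lit 6) (nat_lit 5) (nat_lit 14) L10944 (by decide +kernel)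
theorem L10946 : W_24 (nat_lit 4) (nat_lit 0x4000080012000f000280010001000080000000000000000000000000000000) (nat_lit 0x0) (nat_lit 0x8001c000600000000000100000000000000000000000000000000000000000000) := T_24 (nat_lit 226) (nat_lit 244) (nat_lit 7) (nat_lit 5) (nat_lit 10) L10945 (by decide +kernel)
theorem L10947 : W_24 (nat_lit 5) (nat_lit 0x4000080010000f000280010001000080000000000000000000000000000000) (nat_lit 0x0) (nat_lit 0x8001c000600030000000100000000000000000000000000000000000000000000) := T_24 (nat_lit 209) (nat_lit 208) (nat_lit 1) (nat_lit 8) (nat_lit 11) L10946 (by decide +kernel)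
theorem L10948 : W_24 (nat_lit 6) (nat_lit 0x80010000f000280010001000080000000000000000000000000000000) (nat_lit 0x0) (nat_lit 0x8005c002600030000000100000000000000000000000000000000000000000000) := T_24 (nat_lit 246) (nat_lit 229) (nat_lit 4) (nat_lit 8) (nat_lit 14) L10947 (by decide +kernel)
theorem L10949 : W_24 (nat_lit 7) (nat_lit 0x80010000f000280000001000080000000000000000000000000000000) (nat_lit 0x0) (nat_lit 0x8005c002600030000000100010000800000000000000000000000000000000000) := T_24 (nat_lit 160) (nat_lit 143) (nat_lit 7) (nat_lit 7) (nat_lit 8) L10948 (by decide +kernel)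
theorem L10950 : W_24 (nat_lit 8) (nat_lit 0x80000000f000280000001000080000000000000000000000000000000) (nat_lit 0x0) (nat_lit 0x8005c002600330000000100010000800000000000000000000000000000000000) := T_24 (nat_lit 212) (nat_lit 213) (nat_lit 3) (nat_lit 5) (nat_lit 11) L10949 (by decide +kernel)
theorem L10951 : W_24 (nat_lit 2) (nat_lit 0x80002000f000280010001000080000000000000000000000000000000) (nat_lit 0x0) (nat_lit 0x40000000100004000000000000000000000000000000000000000) := D_24 (nat_lit 210) (nat_lit 176) (nat_lit 158) (nat_lit 6) (nat_lit 6) (nat_lit 13) (nat_lit 7) (nat_lit 5) (nat_lit 9) (by decide +kernel)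
theorem L10952 : W_24 (nat_lit 3) (nat_lit 0x80002000f000280000001000080000000000000000000000000000000) (nat_lit 0x0) (nat_lit 0x40000000100014000800000000000000000000000000000000000) := T_24 (nat_lit 160) (nat_lit 143) (nat_lit 6) (nat_lit 7) (nat_lit 11) L10951 (by decide +kernel)
theorem L10953 : W_24 (nat_lit 4) (nat_lit 0x80000000f000280000001000080000000000000000000000000000000) (nat_lit 0x0) (nat_lit 0x70000000100014000800000000000000000000000000000000000) := T_24 (nat_lit 209) (nat_lit 208) (nat_lit 1) (nat_lit 8) (nat_lit 11) L10952 (by decide +kernel)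
theorem L10954 : W_24 (nat_lit 9) (nat_lit 0xf000280000001000080000000000000000000000000000000) (nat_lit 0x0) (nat_lit 0x8005c002e00370000000100014000800000000000000000000000000000000000) := Q_24 (nat_lit 227) (C_24 L10937 (C_24 L10940 (C_24 L10943 (C_24 L10950 (C_24 L10953 N_24))))) (by decide +kernel)
theorem L10955 : W_24 (nat_lit 2) (nat_lit 0x4000f000280010001000080000000000000000000000000000000) (nat_lit 0x0) (nat_lit 0x10000800000000000100000000000000000000000000000000000000000000) := D_24 (nat_lit 227) (nat_lit 244) (nat_lit 176) (nat_lit 6) (nat_lit 6) (nat_lit 14) (nat_lit 6) (nat_lit 6) (nat_lit 13) (by decide +kernel)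
theorem L10956 : W_24 (nat_lit 3) (nat_lit 0x4000f000280000001000080000000000000000000000000000000) (nat_lit 0x0) (nat_lit 0x10000800000000000100010000800000000000000000000000000000000000) := T_24 (nat_lit 160) (nat_lit 143) (nat_lit 6) (nat_lit 7) (nat_lit 11) L10955 (by decide +kernel)
theorem L10957 : W_24 (nat_lit 2) (nat_lit 0x1000000004000f000280000001f00080000000000000000000000000000000) (nat_lit 0x0) (nat_lit 0x1c000000000000000000000000000000) := D_24 (nat_lit 123) (nat_lit 124) (nat_lit 122) (nat_lit 0) (nat_lit 8) (nat_lit 8) (nat_lit 0) (nat_lit 7) (nat_lit 8) (by decide +kernel)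
theorem L10958 : W_24 (nat_lit 3) (nat_lit 0x1000000004000f000280000001e00080000000000000000000000000000000) (nat_lit 0x0) (nat_lit 0x10005c000000000000000000000000000000) := T_24 (nat_lit 140) (nat_lit 126) (nat_lit 2) (nat_lit 4) (nat_lit 8) L10957 (by decide +kernel)
theorem L10959 : W_24 (nat_lit 4) (nat_lit 0x1000000004000f000280000001a00080000000000000000000000000000000) (nat_lit 0x0) (nat_lit 0x50015c000000000000000000000000000000) := T_24 (nat_lit 142) (nat_lit 128) (nat_lit 2) (nat_lit 5) (nat_lit 8) L10958 (by decide +kernel)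
theorem L10960 : W_24 (nat_lit 5) (nat_lit 0x1000000004000f000280000001800080000000000000000000000000000000) (nat_lit 0x0) (nat_lit 0x400070015c000000000000000000000000000000) := T_24 (nat_lit 141) (nat_lit 158) (nat_lit 7) (nat_lit 5) (nat_lit 8) L10959 (by decide +kernel)
theorem L10961 : W_24 (nat_lit 6) (nat_lit 0x1000000004000f000280000001000080000000000000000000000000000000) (nat_lit 0x0) (nat_lit 0x14000f0015c000000000000000000000000000000) := T_24 (nat_lit 143) (nat_lit 160) (nat_lit 6) (nat_lit 7) (nat_lit 11) L10960 (by decide +kernel)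
theorem L10962 : W_24 (nat_lit 7) (nat_lit 0x4000f000280000001000080000000000000000000000000000000) (nat_lit 0x0) (nat_lit 0x10000800000000000000014000f0015c000000000000000000000000000000) := T_24 (nat_lit 244) (nat_lit 227) (nat_lit 6) (nat_lit 6) (nat_lit 14) L10961 (by decide +kernel)
theorem L10963 : W_24 (nat_lit 2) (nat_lit 0x80014000f000280000001000080000000000000000000000000000000) (nat_lit 0x0) (nat_lit 0x100004000200000000000000000000000000000000000) := D_24 (nat_lit 158) (nat_lit 141) (nat_lit 176) (nat_lit 7) (nat_lit 5) (nat_lit 8) (nat_lit 4) (nat_lit 6) (nat_lit 13) (by decide +kernel)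
theorem L10964 : W_24 (nat_lit 3) (nat_lit 0x14000f000280000001000080000000000000000000000000000000) (nat_lit 0x0) (nat_lit 0x10000800000000000100004000200000000000000000000000000000000000) := T_24 (nat_lit 227) (nat_lit 244) (nat_lit 6) (nat_lit 6) (nat_lit 14) L10963 (by decide +kernel)
theorem L10965 : W_24 (nat_lit 4) (nat_lit 0x4000f000280000001000080000000000000000000000000000000) (nat_lit 0x0) (nat_lit 0x10000800300000000100004000200000000000000000000000000000000000) := T_24 (nat_lit 212) (nat_lit 213) (nat_lit 3) (nat_lit 5) (nat_lit 11) L10964 (by decide +kernel)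
theorem L10966 : W_24 (nat_lit 2) (nat_lit 0x4000000014000f000280000001f00080000000000000000000000000000000) (nat_lit 0x0) (nat_lit 0x1c000000000000000000000000000000) := D_24 (nat_lit 123) (nat_lit 124) (nat_lit 122) (nat_lit 0) (nat_lit 8) (nat_lit 8) (nat_lit 0) (nat_lit 7) (nat_lit 8) (by decide +kernel)
theorem L10967 : W_24 (nat_lit 3) (nat_lit 0x4000000014000f000280000001e00080000000000000000000000000000000) (nat_lit 0x0) (nat_lit 0x10005c000000000000000000000000000000) := T_24 (nat_lit 140) (nat_lit 126) (nat_lit 2) (nat_lit 4) (nat_lit 8) L10966 (by decide +kernel)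
theorem L10968 : W_24 (nat_lit 4) (nat_lit 0x4000000014000f000280000001a00080000000000000000000000000000000) (nat_lit 0x0) (nat_lit 0x50015c000000000000000000000000000000) := T_24 (nat_lit 142) (nat_lit 128) (nat_lit 2) (nat_lit 5) (nat_lit 8) L10967 (by decide +kernel)
theorem L10969 : W_24 (nat_lit 5) (nat_lit 0x4000000014000f000280000001800080000000000000000000000000000000) (nat_lit 0x0) (nat_lit 0x400070015c000000000000000000000000000000) := T_24 (nat_lit 141) (nat_lit 158) (nat_lit 7) (nat_lit 5) (nat_lit 8) L10968 (by decide +kernel)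
theorem L10970 : W_24 (nat_lit 6) (nat_lit 0x14000f000280000001800080000000000000000000000000000000) (nat_lit 0x0) (nat_lit 0x4000200000000000000000400070015c000000000000000000000000000000) := T_24 (nat_lit 246) (nat_lit 229) (nat_lit 4) (nat_lit 8) (nat_lit 14) L10969 (by decide +kernel)
theorem L10971 : W_24 (nat_lit 7) (nat_lit 0x14000f000280000001000080000000000000000000000000000000) (nat_lit 0x0) (nat_lit 0x40002000000000000000014000f0015c000000000000000000000000000000) := T_24 (nat_lit 143) (nat_lit 160) (nat_lit 7) (nat_lit 7) (nat_lit 8) L10970 (by decide +kernel)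
theorem L10972 : W_24 (nat_lit 8) (nat_lit 0x4000f000280000001000080000000000000000000000000000000) (nat_lit 0x0) (nat_lit 0x40002000300000000000014000f0015c000000000000000000000000000000) := T_24 (nat_lit 212) (nat_lit 213) (nat_lit 3) (nat_lit 5) (nat_lit 11) L10971 (by decide +kernel)
theorem L10973 : W_24 (nat_lit 9) (nat_lit 0xf000280000001000080000000000000000000000000000000) (nat_lit 0x0) (nat_lit 0x50002800340000000100014000f0015c000000000000000000000000000000) := Q_24 (nat_lit 210) (C_24 L10956 (C_24 L10962 (C_24 L10965 (C_24 L10972 N_24)))) (by decide +kernel)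
theorem L10974 : W_24 (nat_lit 13) (nat_lit 0xd000280000001000080000000000000000000000000000000) (nat_lit 0x0) (nat_lit 0x8005c002e0037e002e00138015000f8015c000000000000000000000000000000) := Q_24 (nat_lit 193) (C_24 L10910 (C_24 L10924 (C_24 L10935 (C_24 L10954 (C_24 L10973 N_24))))) (by decide +kernel)
theorem L10975 : W_24 (nat_lit 14) (nat_lit 0xc000280000001000080000000000000000000000000000000) (nat_lit 0x0) (nat_lit 0x8005c002e0037e003e00178017000f8017c001000000000000000000000000000) := Q_24 (nat_lit 192) (C_24 L10847 (C_24 L10858 (C_24 L10909 (C_24 L10974 N_24)))) (by decide +kernel)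
theorem L10976 : W_24 (nat_lit 2) (nat_lit 0xf000280000001000080000000000000000000000000000000) (nat_lit 0x0) (nat_lit 0x800400020000000000000000000000000000000000000000) := D_24 (nat_lit 178) (nat_lit 161) (nat_lit 191) (nat_lit 5) (nat_lit 8) (nat_lit 7) (nat_lit 2) (nat_lit 4) (nat_lit 11) (by decide +kernel)
theorem L10977 : W_24 (nat_lit 3) (nat_lit 0xd000280000001000080000000000000000000000000000000) (nat_lit 0x0) (nat_lit 0x2800440020000000000000000000000000000000000000000) := T_24 (nat_lit 193) (nat_lit 174) (nat_lit 0) (nat_lit 8) (nat_lit 11) L10976 (by decide +kernel)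
theorem L10978 : W_24 (nat_lit 2) (nat_lit 0xd000280020001e00080000000000000000000000000000000) (nat_lit 0x0) (nat_lit 0x6000000020000000000000000000000000000000) := D_24 (nat_lit 158) (nat_lit 157) (nat_lit 125) (nat_lit 1) (nat_lit 8) (nat_lit 8) (nat_lit 6) (nat_lit 5) (nat_lit 11) (by decide +kernel)
theorem L10979 : W_24 (nat_lit 3) (nat_lit 0xd000280020001a00080000000000000000000000000000000) (nat_lit 0x0) (nat_lit 0x46000400020000000000000000000000000000000) := T_24 (nat_lit 142) (nat_lit 162) (nat_lit 3) (nat_lit 5) (nat_lit 8) L10978 (by decide +kernel)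
theorem L10980 : W_24 (nat_lit 4) (nat_lit 0xd000280020001200080000000000000000000000000000000) (nat_lit 0x0) (nat_lit 0x56000c00020000000000000000000000000000000) := T_24 (nat_lit 143) (nat_lit 160) (nat_lit 6) (nat_lit 7) (nat_lit 11) L10979 (by decide +kernel)
theorem L10981 : W_24 (nat_lit 5) (nat_lit 0xd000280000001200080000000000000000000000000000000) (nat_lit 0x0) (nat_lit 0x400076000c00020000000000000000000000000000000) := T_24 (nat_lit 161) (nat_lit 178) (nat_lit 5) (nat_lit 8) (nat_lit 7) L10980 (by decide +kernel)
theorem L10982 : W_24 (nat_lit 2) (nat_lit 0xd000280020001a00080000000000000000000000000000000) (nat_lit 0x0) (nat_lit 0x40000400100000000000000000000000000000000) := D_24 (nat_lit 142) (nat_lit 162) (nat_lit 128) (nat_lit 3) (nat_lit 5) (nat_lit 8) (nat_lit 2) (nat_lit 5) (nat_lit 8) (by decide +kernel)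
theorem L10983 : W_24 (nat_lit 3) (nat_lit 0xd000280000001a00080000000000000000000000000000000) (nat_lit 0x0) (nat_lit 0x400060000400100000000000000000000000000000000) := T_24 (nat_lit 161) (nat_lit 178) (nat_lit 5) (nat_lit 8) (nat_lit 7) L10982 (by decide +kernel)
theorem L10984 : W_24 (nat_lit 4) (nat_lit 0xd000280000001200080000000000000000000000000000000) (nat_lit 0x0) (nat_lit 0x400070000c00100000000000000000000000000000000) := T_24 (nat_lit 143) (nat_lit 160) (nat_lit 6) (nat_lit 7) (nat_lit 11) L10983 (by decide +kernel)
theorem L10985 : W_24 (nat_lit 2) (nat_lit 0xa0002000d000280024001700080000000000000000000000000000000) (nat_lit 0x0) (nat_lit 0x14000400000000000000000000000000000000000000000000000000000000) := D_24 (nat_lit 226) (nat_lit 242) (nat_lit 244) (nat_lit 5) (nat_lit 5) (nat_lit 10) (nat_lit 7) (nat_lit 5) (nat_lit 10) (by decide +kernel)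
theorem L10986 : W_24 (nat_lit 3) (nat_lit 0x20002000d000280024001700080000000000000000000000000000000) (nat_lit 0x0) (nat_lit 0x14000c00040000000000000000000000000000000000000000000000000000) := T_24 (nat_lit 227) (nat_lit 210) (nat_lit 7) (nat_lit 5) (nat_lit 9) L10985 (by decide +kernel)
theorem L10987 : W_24 (nat_lit 4) (nat_lit 0x2000d000280024001700080000000000000000000000000000000) (nat_lit 0x0) (nat_lit 0x14000e00050000000000000000000000000000000000000000000000000000) := T_24 (nat_lit 225) (nat_lit 208) (nat_lit 5) (nat_lit 5) (nat_lit 9) L10986 (by decide +kernel)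
theorem L10988 : W_24 (nat_lit 5) (nat_lit 0xd000280024001700080000000000000000000000000000000) (nat_lit 0x0) (nat_lit 0x14000e00070000000000002000000000000000000000000000000000000000) := T_24 (nat_lit 209) (nat_lit 157) (nat_lit 4) (nat_lit 5) (nat_lit 12) L10987 (by decide +kernel)
theorem L10989 : W_24 (nat_lit 6) (nat_lit 0xd000280024001600080000000000000000000000000000000) (nat_lit 0x0) (nat_lit 0x14000e00070000000000002000100008000000000000000000000000000000) := T_24 (nat_lit 140) (nat_lit 123) (nat_lit 4) (nat_lit 5) (nat_lit 11) L10988 (by decide +kernel)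
theorem L10990 : W_24 (nat_lit 7) (nat_lit 0xd000280024001200080000000000000000000000000000000) (nat_lit 0x0) (nat_lit 0x14000e00070000000000002000500028000000000000000000000000000000) := T_24 (nat_lit 142) (nat_lit 125) (nat_lit 6) (nat_lit 5) (nat_lit 11) L10989 (by decide +kernel)
theorem L10991 : W_24 (nat_lit 8) (nat_lit 0xd000280004001200080000000000000000000000000000000) (nat_lit 0x0) (nat_lit 0x14000e00070000000400022000500028000000000000000000000000000000) := T_24 (nat_lit 161) (nat_lit 178) (nat_lit 5) (nat_lit 8) (nat_lit 7) L10990 (by decide +kernel)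
theorem L10992 : W_24 (nat_lit 2) (nat_lit 0xd800280004001300090000000000000000000000000000000) (nat_lit 0x0) (nat_lit 0x400060000000000000000000000000000000) := D_24 (nat_lit 125) (nat_lit 126) (nat_lit 142) (nat_lit 1) (nat_lit 8) (nat_lit 7) (nat_lit 6) (nat_lit 5) (nat_lit 11) (by decide +kernel)
theorem L10993 : W_24 (nat_lit 3) (nat_lit 0xd800280004001300080000000000000000000000000000000) (nat_lit 0x0) (nat_lit 0x40000000400070000000000000000000000000000000) := T_24 (nat_lit 124) (nat_lit 174) (nat_lit 5) (nat_lit 5) (nat_lit 7) L10992 (by decide +kernel)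
theorem L10994 : W_24 (nat_lit 4) (nat_lit 0xd000280004001300080000000000000000000000000000000) (nat_lit 0x0) (nat_lit 0x10000800040000000400070000000000000000000000000000000) := T_24 (nat_lit 191) (nat_lit 208) (nat_lit 5) (nat_lit 5) (nat_lit 8) L10993 (by decide +kernel)
theorem L10995 : W_24 (nat_lit 5) (nat_lit 0xd000280004001200080000000000000000000000000000000) (nat_lit 0x0) (nat_lit 0x10000800040000000500078000000000000000000000000000000) := T_24 (nat_lit 140) (nat_lit 123) (nat_lit 4) (nat_lit 5) (nat_lit 11) L10994 (by decide +kernel)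
theorem L10996 : W_24 (nat_lit 2) (nat_lit 0xd800280024001200090000000000000000000000000000000) (nat_lit 0x0) (nat_lit 0x400020001000000000000000000000000000) := D_24 (nat_lit 125) (nat_lit 142) (nat_lit 108) (nat_lit 6) (nat_lit 5) (nat_lit 11) (nat_lit 6) (nat_lit 5) (nat_lit 10) (by decide +kernel)
theorem L10997 : W_24 (nat_lit 3) (nat_lit 0xd800280024001200080000000000000000000000000000000) (nat_lit 0x0) (nat_lit 0x40000000400030001000000000000000000000000000) := T_24 (nat_lit 124) (nat_lit 174) (nat_lit 5) (nat_lit 5) (nat_lit 7) L10996 (by decide +kernel)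
theorem L10998 : W_24 (nat_lit 4) (nat_lit 0xd000280024001200080000000000000000000000000000000) (nat_lit 0x0) (nat_lit 0x10000800040000000400030001000000000000000000000000000) := T_24 (nat_lit 191) (nat_lit 208) (nat_lit 5) (nat_lit 5) (nat_lit 8) L10997 (by decide +kernel)
theorem L10999 : W_24 (nat_lit 5) (nat_lit 0xd000280004001200080000000000000000000000000000000) (nat_lit 0x0) (nat_lit 0x10000800440020000400030001000000000000000000000000000) := T_24 (nat_lit 161) (nat_lit 178) (nat_lit 5) (nat_lit 8) (nat_lit 7) L10998 (by decide +kernel)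
theorem L11000 : W_24 (nat_lit 2) (nat_lit 0xc002c0002000d800680004001700080000000000000000000000000000000) (nat_lit 0x0) (nat_lit 0x40000000100000000000010000000000000000000000000000000000000000) := D_24 (nat_lit 212) (nat_lit 160) (nat_lit 246) (nat_lit 4) (nat_lit 8) (nat_lit 13) (nat_lit 4) (nat_lit 8) (nat_lit 14) (by decide +kernel)
theorem L11001 : W_24 (nat_lit 3) (nat_lit 0xc000c0002000d800680004001700080000000000000000000000000000000) (nat_lit 0x0) (nat_lit 0x40003000100000000000010000000000000000000000000000000000000000) := T_24 (nat_lit 229) (nat_lit 228) (nat_lit 1) (nat_lit 8) (nat_lit 13) L11000 (by decide +kernel)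
theorem L11002 : W_24 (nat_lit 4) (nat_lit 0xc000c0002000d000680004001700080000000000000000000000000000000) (nat_lit 0x0) (nat_lit 0x40003000100000800040010000000000000000000000000000000000000000) := T_24 (nat_lit 191) (nat_lit 174) (nat_lit 4) (nat_lit 5) (nat_lit 14) L11001 (by decide +kernel)
theorem L11003 : W_24 (nat_lit 5) (nat_lit 0x4000c0002000d000680004001700080000000000000000000000000000000) (nat_lit 0x0) (nat_lit 0x80048003000100000800040010000000000000000000000000000000000000000) := T_24 (nat_lit 243) (nat_lit 259) (nat_lit 5) (nat_lit 5) (nat_lit 11) L11002 (by decide +kernel)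
theorem L11004 : W_24 (nat_lit 6) (nat_lit 0xc0002000d000680004001700080000000000000000000000000000000) (nat_lit 0x0) (nat_lit 0x8004c003200100000800040010000000000000000000000000000000000000000) := T_24 (nat_lit 242) (nat_lit 225) (nat_lit 5) (nat_lit 5) (nat_lit 10) L11003 (by decide +kernel)
theorem L11005 : W_24 (nat_lit 7) (nat_lit 0x80002000d000680004001700080000000000000000000000000000000) (nat_lit 0x0) (nat_lit 0x8005c003600100000800040010000000000000000000000000000000000000000) := T_24 (nat_lit 226) (nat_lit 244) (nat_lit 7) (nat_lit 5) (nat_lit 10) L11004 (by decide +kernel)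
theorem L11006 : W_24 (nat_lit 8) (nat_lit 0x2000d000680004001700080000000000000000000000000000000) (nat_lit 0x0) (nat_lit 0x8005c003e00140000800040010000000000000000000000000000000000000000) := T_24 (nat_lit 227) (nat_lit 210) (nat_lit 7) (nat_lit 5) (nat_lit 9) L11005 (by decide +kernel)
theorem L11007 : W_24 (nat_lit 9) (nat_lit 0xd000680004001700080000000000000000000000000000000) (nat_lit 0x0) (nat_lit 0x8005c003e00160000800040012000000000000000000000000000000000000000) := T_24 (nat_lit 209) (nat_lit 157) (nat_lit 4) (nat_lit 5) (nat_lit 12) L11006 (by decide +kernel)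
theorem L11008 : W_24 (nat_lit 10) (nat_lit 0xd000680004001600080000000000000000000000000000000) (nat_lit 0x0) (nat_lit 0x8005c003e00160000800040012000100008000000000000000000000000000000) := T_24 (nat_lit 140) (nat_lit 123) (nat_lit 4) (nat_lit 5) (nat_lit 11) L11007 (by decide +kernel)
theorem L11009 : W_24 (nat_lit 11) (nat_lit 0xd000280004001600080000000000000000000000000000000) (nat_lit 0x0) (nat_lit 0x8005c003e00160000800440032000100008000000000000000000000000000000) := T_24 (nat_lit 178) (nat_lit 161) (nat_lit 5) (nat_lit 8) (nat_lit 7) L11008 (by decide +kernel)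
theorem L11010 : W_24 (nat_lit 12) (nat_lit 0xd000280004001200080000000000000000000000000000000) (nat_lit 0x0) (nat_lit 0x8005c003e00160000800440032000500028000000000000000000000000000000) := T_24 (nat_lit 142) (nat_lit 125) (nat_lit 6) (nat_lit 5) (nat_lit 11) L11009 (by decide +kernel)
theorem L11011 : W_24 (nat_lit 13) (nat_lit 0xd000280000001200080000000000000000000000000000000) (nat_lit 0x0) (nat_lit 0x8005c003e00170000800440036000500078001000000000000000000000000000) := Q_24 (nat_lit 158) (C_24 L8939 (C_24 L10991 (C_24 L10995 (C_24 L10999 (C_24 L11010 N_24))))) (by decide +kernel)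
theorem L11012 : W_24 (nat_lit 2) (nat_lit 0xa0002000d000280034001300080000000000000000000000000000000) (nat_lit 0x0) (nat_lit 0x14000400000000000000000000000000000000000000000000000000000000) := D_24 (nat_lit 226) (nat_lit 242) (nat_lit 244) (nat_lit 5) (nat_lit 5) (nat_lit 10) (nat_lit 7) (nat_lit 5) (nat_lit 10) (by decide +kernel)
theorem L11013 : W_24 (nat_lit 3) (nat_lit 0x20002000d000280034001300080000000000000000000000000000000) (nat_lit 0x0) (nat_lit 0x14000c00040000000000000000000000000000000000000000000000000000) := T_24 (nat_lit 227) (nat_lit 210) (nat_lit 7) (nat_lit 5) (nat_lit 9) L11012 (by decide +kernel)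
theorem L11014 : W_24 (nat_lit 4) (nat_lit 0x2000d000280034001300080000000000000000000000000000000) (nat_lit 0x0) (nat_lit 0x14000e00050000000000000000000000000000000000000000000000000000) := T_24 (nat_lit 225) (nat_lit 208) (nat_lit 5) (nat_lit 5) (nat_lit 9) L11013 (by decide +kernel)
theorem L11015 : W_24 (nat_lit 5) (nat_lit 0xd000280034001300080000000000000000000000000000000) (nat_lit 0x0) (nat_lit 0x14000e00070000000000002000000000000000000000000000000000000000) := T_24 (nat_lit 209) (nat_lit 157) (nat_lit 4) (nat_lit 5) (nat_lit 12) L11014 (by decide +kernel)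
theorem L11016 : W_24 (nat_lit 6) (nat_lit 0xd000280024001300080000000000000000000000000000000) (nat_lit 0x0) (nat_lit 0x14000e00070000000000012000800000000000000000000000000000000000) := T_24 (nat_lit 160) (nat_lit 143) (nat_lit 6) (nat_lit 7) (nat_lit 11) L11015 (by decide +kernel)
theorem L11017 : W_24 (nat_lit 7) (nat_lit 0xd000280024001200080000000000000000000000000000000) (nat_lit 0x0) (nat_lit 0x14000e00070000000000012000900008000000000000000000000000000000) := T_24 (nat_lit 140) (nat_lit 123) (nat_lit 4) (nat_lit 5) (nat_lit 11) L11016 (by decide +kernel)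
theorem L11018 : W_24 (nat_lit 8) (nat_lit 0xd000280004001200080000000000000000000000000000000) (nat_lit 0x0) (nat_lit 0x14000e00070000000400032000900008000000000000000000000000000000) := T_24 (nat_lit 161) (nat_lit 178) (nat_lit 5) (nat_lit 8) (nat_lit 7) L11017 (by decide +kernel)
theorem L11019 : W_24 (nat_lit 2) (nat_lit 0xd800280004001300090000000000000000000000000000000) (nat_lit 0x0) (nat_lit 0x60001000000000000000000000000000) := D_24 (nat_lit 125) (nat_lit 126) (nat_lit 108) (nat_lit 1) (nat_lit 8) (nat_lit 7) (nat_lit 6) (nat_lit 5) (nat_lit 10) (by decide +kernel)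
theorem L11020 : W_24 (nat_lit 3) (nat_lit 0xd800280004001300080000000000000000000000000000000) (nat_lit 0x0) (nat_lit 0x40000000000070001000000000000000000000000000) := T_24 (nat_lit 124) (nat_lit 174) (nat_lit 5) (nat_lit 5) (nat_lit 7) L11019 (by decide +kernel)
theorem L11021 : W_24 (nat_lit 4) (nat_lit 0xd000280004001300080000000000000000000000000000000) (nat_lit 0x0) (nat_lit 0x10000800040000000000070001000000000000000000000000000) := T_24 (nat_lit 191) (nat_lit 208) (nat_lit 5) (nat_lit 5) (nat_lit 8) L11020 (by decide +kernel)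
theorem L11022 : W_24 (nat_lit 5) (nat_lit 0xd000280004001200080000000000000000000000000000000) (nat_lit 0x0) (nat_lit 0x10000800040000000100078001000000000000000000000000000) := T_24 (nat_lit 140) (nat_lit 123) (nat_lit 4) (nat_lit 5) (nat_lit 11) L11021 (by decide +kernel)
theorem L11023 : W_24 (nat_lit 2) (nat_lit 0xd8002800240012000b8000000000000000000000000000000) (nat_lit 0x0) (nat_lit 0x10000800040000000000000000000000000000000) := D_24 (nat_lit 143) (nat_lit 126) (nat_lit 160) (nat_lit 3) (nat_lit 4) (nat_lit 7) (nat_lit 6) (nat_lit 7) (nat_lit 11) (by decide +kernel)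
theorem L11024 : W_24 (nat_lit 3) (nat_lit 0xd800280024001200098000000000000000000000000000000) (nat_lit 0x0) (nat_lit 0x10000800060001000000000000000000000000000) := T_24 (nat_lit 125) (nat_lit 108) (nat_lit 6) (nat_lit 5) (nat_lit 10) L11023 (by decide +kernel)
theorem L11025 : W_24 (nat_lit 4) (nat_lit 0xd800280024001200090000000000000000000000000000000) (nat_lit 0x0) (nat_lit 0x10000800068001400000000000000000000000000) := T_24 (nat_lit 123) (nat_lit 106) (nat_lit 4) (nat_lit 5) (nat_lit 10) L11024 (by decide +kernel)
theorem L11026 : W_24 (nat_lit 5) (nat_lit 0xd800280024001200080000000000000000000000000000000) (nat_lit 0x0) (nat_lit 0x40010000800078001400000000000000000000000000) := T_24 (nat_lit 124) (nat_lit 174) (nat_lit 5) (nat_lit 5) (nat_lit 7) L11025 (by decide +kernel)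
theorem L11027 : W_24 (nat_lit 6) (nat_lit 0xd000280024001200080000000000000000000000000000000) (nat_lit 0x0) (nat_lit 0x10000800040010000800078001400000000000000000000000000) := T_24 (nat_lit 191) (nat_lit 208) (nat_lit 5) (nat_lit 5) (nat_lit 8) L11026 (by decide +kernel)
theorem L11028 : W_24 (nat_lit 7) (nat_lit 0xd000280004001200080000000000000000000000000000000) (nat_lit 0x0) (nat_lit 0x10000800440030000800078001400000000000000000000000000) := T_24 (nat_lit 161) (nat_lit 178) (nat_lit 5) (nat_lit 8) (nat_lit 7) L11027 (by decide +kernel)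
theorem L11029 : W_24 (nat_lit 2) (nat_lit 0xd0002c0034001200098000800000000000000000000000000) (nat_lit 0x0) (nat_lit 0x20001000080000000000000000000000) := D_24 (nat_lit 108) (nat_lit 125) (nat_lit 91) (nat_lit 6) (nat_lit 5) (nat_lit 10) (nat_lit 6) (nat_lit 5) (nat_lit 9) (by decide +kernel)
theorem L11030 : W_24 (nat_lit 3) (nat_lit 0xd0002c0034001200098000000000000000000000000000000) (nat_lit 0x0) (nat_lit 0x2000000020001800080000000000000000000000) := T_24 (nat_lit 107) (nat_lit 157) (nat_lit 5) (nat_lit 5) (nat_lit 6) L11029 (by decide +kernel)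
theorem L11031 : W_24 (nat_lit 4) (nat_lit 0xd000280034001200098000000000000000000000000000000) (nat_lit 0x0) (nat_lit 0x800040002000000020001800080000000000000000000000) := T_24 (nat_lit 174) (nat_lit 191) (nat_lit 5) (nat_lit 5) (nat_lit 7) L11030 (by decide +kernel)
theorem L11032 : W_24 (nat_lit 5) (nat_lit 0xd000280034001200088000000000000000000000000000000) (nat_lit 0x0) (nat_lit 0x800040002000000030001c00080000000000000000000000) := T_24 (nat_lit 124) (nat_lit 106) (nat_lit 4) (nat_lit 5) (nat_lit 10) L11031 (by decide +kernel)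
theorem L11033 : W_24 (nat_lit 6) (nat_lit 0xd000280034001200080000000000000000000000000000000) (nat_lit 0x0) (nat_lit 0x800040002000100038001c00080000000000000000000000) := T_24 (nat_lit 123) (nat_lit 140) (nat_lit 4) (nat_lit 5) (nat_lit 11) L11032 (by decide +kernel)
theorem L11034 : W_24 (nat_lit 7) (nat_lit 0xd000280014001200080000000000000000000000000000000) (nat_lit 0x0) (nat_lit 0x800440022000100038001c00080000000000000000000000) := T_24 (nat_lit 161) (nat_lit 178) (nat_lit 5) (nat_lit 8) (nat_lit 7) L11033 (by decide +kernel)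
theorem L11035 : W_24 (nat_lit 8) (nat_lit 0xd000280004001200080000000000000000000000000000000) (nat_lit 0x0) (nat_lit 0x800440032000900038001c00080000000000000000000000) := T_24 (nat_lit 160) (nat_lit 143) (nat_lit 6) (nat_lit 7) (nat_lit 11) L11034 (by decide +kernel)
theorem L11036 : W_24 (nat_lit 2) (nat_lit 0x80003000d000280016001200080000000000000000000000000000000) (nat_lit 0x0) (nat_lit 0x10000400000000000040000000000000000000000000000000000000000000) := D_24 (nat_lit 226) (nat_lit 174) (nat_lit 244) (nat_lit 4) (nat_lit 5) (nat_lit 13) (nat_lit 7) (nat_lit 5) (nat_lit 10) (by decide +kernel)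
theorem L11037 : W_24 (nat_lit 3) (nat_lit 0x3000d000280016001200080000000000000000000000000000000) (nat_lit 0x0) (nat_lit 0x10000c00040000000040000000000000000000000000000000000000000000) := T_24 (nat_lit 227) (nat_lit 210) (nat_lit 7) (nat_lit 5) (nat_lit 9) L11036 (by decide +kernel)
theorem L11038 : W_24 (nat_lit 4) (nat_lit 0x3000d000280014001200080000000000000000000000000000000) (nat_lit 0x0) (nat_lit 0x10000c00040000000040002000100000000000000000000000000000000000) := T_24 (nat_lit 157) (nat_lit 140) (nat_lit 4) (nat_lit 5) (nat_lit 12) L11037 (by decide +kernel)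
theorem L11039 : W_24 (nat_lit 5) (nat_lit 0x1000d000280014001200080000000000000000000000000000000) (nat_lit 0x0) (nat_lit 0x10000e00060000000040002000100000000000000000000000000000000000) := T_24 (nat_lit 209) (nat_lit 225) (nat_lit 5) (nat_lit 5) (nat_lit 9) L11038 (by decide +kernel)
theorem L11040 : W_24 (nat_lit 6) (nat_lit 0x1000d000280004001200080000000000000000000000000000000) (nat_lit 0x0) (nat_lit 0x10000e00060000000040012000900000000000000000000000000000000000) := T_24 (nat_lit 160) (nat_lit 143) (nat_lit 6) (nat_lit 7) (nat_lit 11) L11039 (by decide +kernel)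
theorem L11041 : W_24 (nat_lit 7) (nat_lit 0xd000280004001200080000000000000000000000000000000) (nat_lit 0x0) (nat_lit 0x10000e00070000800040012000900000000000000000000000000000000000) := T_24 (nat_lit 208) (nat_lit 191) (nat_lit 5) (nat_lit 5) (nat_lit 8) L11040 (by decide +kernel)
theorem L11042 : W_24 (nat_lit 9) (nat_lit 0xd000280000001200080000000000000000000000000000000) (nat_lit 0x0) (nat_lit 0x14000e00070000800440036000900078001c00080000000000000000000000) := Q_24 (nat_lit 158) (C_24 L8939 (C_24 L11018 (C_24 L11022 (C_24 L11028 (C_24 L11035 (C_24 L11041 N_24)))))) (by decide +kernel)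
theorem L11043 : W_24 (nat_lit 14) (nat_lit 0xd000280000001000080000000000000000000000000000000) (nat_lit 0x0) (nat_lit 0x8005c003e00170000800440076000f00178001c00080000000000000000000000) := Q_24 (nat_lit 141) (C_24 L10862 (C_24 L10981 (C_24 L10984 (C_24 L11011 (C_24 L11042 N_24))))) (by decide +kernel)
theorem L11044 : W_24 (nat_lit 2) (nat_lit 0xf000280010001000080000000000000000000000000000000) (nat_lit 0x0) (nat_lit 0xc00020000000000000000000000000000000000000000) := D_24 (nat_lit 178) (nat_lit 161) (nat_lit 179) (nat_lit 5) (nat_lit 8) (nat_lit 7) (nat_lit 2) (nat_lit 5) (nat_lit 11) (by decide +kernel)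
theorem L11045 : W_24 (nat_lit 3) (nat_lit 0xd000280010001000080000000000000000000000000000000) (nat_lit 0x0) (nat_lit 0x2000c40020000000000000000000000000000000000000000) := T_24 (nat_lit 193) (nat_lit 174) (nat_lit 0) (nat_lit 8) (nat_lit 11) L11044 (by decide +kernel)
theorem L11046 : W_24 (nat_lit 4) (nat_lit 0xd000280000001000080000000000000000000000000000000) (nat_lit 0x0) (nat_lit 0x2000c40030000800000000000000000000000000000000000) := T_24 (nat_lit 160) (nat_lit 143) (nat_lit 6) (nat_lit 7) (nat_lit 11) L11045 (by decide +kernel)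
theorem L11047 : W_24 (nat_lit 2) (nat_lit 0xd000680000001000080000000000000000000000000000000) (nat_lit 0x0) (nat_lit 0x2800800000000000000000000000000000000000000000000) := D_24 (nat_lit 193) (nat_lit 179) (nat_lit 191) (nat_lit 2) (nat_lit 5) (nat_lit 11) (nat_lit 2) (nat_lit 4) (nat_lit 11) (by decide +kernel)
theorem L11048 : W_24 (nat_lit 3) (nat_lit 0xd000280000001000080000000000000000000000000000000) (nat_lit 0x0) (nat_lit 0x2800c00020000000000000000000000000000000000000000) := T_24 (nat_lit 178) (nat_lit 161) (nat_lit 5) (nat_lit 8) (nat_lit 7) L11047 (by decide +kernel)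
theorem L11049 : W_24 (nat_lit 15) (nat_lit 0xc000280000001000080000000000000000000000000000000) (nat_lit 0x0) (nat_lit 0x8005c003e00378003800c40076000f0017c001c00080000000000000000000000) := Q_24 (nat_lit 192) (C_24 L10858 (C_24 L10977 (C_24 L11043 (C_24 L11046 (C_24 L11048 N_24))))) (by decide +kernel)
theorem L11054 : W_24 (nat_lit 6) (nat_lit 0xc000380000001000080000000000000000000000000000000) (nat_lit 0x0) (nat_lit 0x40003800c00026000200010000000000000000000000000000000) := T_24 (nat_lit 178) (nat_lit 161) (nat_lit 5) (nat_lit 8) (nat_lit 7) L11053 (by decide +kernel)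
theorem L11055 : W_24 (nat_lit 7) (nat_lit 0xc000280000001000080000000000000000000000000000000) (nat_lit 0x0) (nat_lit 0x40003800d40026000200010000000000000000000000000000000) := T_24 (nat_lit 176) (nat_lit 174) (nat_lit 3) (nat_lit 4) (nat_lit 10) L11054 (by decide +kernel)
theorem L11056 : W_24 (nat_lit 2) (nat_lit 0xc0002c0000001f00080000000000000000000000000000000) (nat_lit 0x0) (nat_lit 0x7000000000000000000000000000000000000000) := D_24 (nat_lit 157) (nat_lit 156) (nat_lit 158) (nat_lit 1) (nat_lit 7) (nat_lit 8) (nat_lit 1) (nat_lit 8) (nat_lit 8) (by decide +kernel)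
theorem L11057 : W_24 (nat_lit 3) (nat_lit 0xc0002c0000001e00080000000000000000000000000000000) (nat_lit 0x0) (nat_lit 0x7000100040000000000000000000000000000000) := T_24 (nat_lit 140) (nat_lit 126) (nat_lit 2) (nat_lit 4) (nat_lit 8) L11056 (by decide +kernel)
theorem L11058 : W_24 (nat_lit 4) (nat_lit 0xc0002c0000001a00080000000000000000000000000000000) (nat_lit 0x0) (nat_lit 0x7000500140000000000000000000000000000000) := T_24 (nat_lit 142) (nat_lit 128) (nat_lit 2) (nat_lit 5) (nat_lit 8) L11057 (by decide +kernel)
theorem L11059 : W_24 (nat_lit 5) (nat_lit 0xc0002c0000001200080000000000000000000000000000000) (nat_lit 0x0) (nat_lit 0x17000d00140000000000000000000000000000000) := T_24 (nat_lit 143) (nat_lit 160) (nat_lit 6) (nat_lit 7) (nat_lit 11) L11058 (by decide +kernel)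
theorem L11060 : W_24 (nat_lit 6) (nat_lit 0xc000280000001200080000000000000000000000000000000) (nat_lit 0x0) (nat_lit 0x140017000d00140000000000000000000000000000000) := T_24 (nat_lit 174) (nat_lit 176) (nat_lit 3) (nat_lit 4) (nat_lit 10) L11059 (by decide +kernel)
theorem L11065 : W_24 (nat_lit 6) (nat_lit 0xc000780000001200080000000000000000000000000000000) (nat_lit 0x0) (nat_lit 0x1800000006000500078001000000000000000000000000000) := T_24 (nat_lit 192) (nat_lit 191) (nat_lit 1) (nat_lit 8) (nat_lit 10) L11064 (by decide +kernel)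
theorem L11066 : W_24 (nat_lit 7) (nat_lit 0xc000680000001200080000000000000000000000000000000) (nat_lit 0x0) (nat_lit 0x1800140006000500078001000000000000000000000000000) := T_24 (nat_lit 176) (nat_lit 174) (nat_lit 3) (nat_lit 4) (nat_lit 10) L11065 (by decide +kernel)
theorem L11067 : W_24 (nat_lit 8) (nat_lit 0xc000280000001200080000000000000000000000000000000) (nat_lit 0x0) (nat_lit 0x1800540026000500078001000000000000000000000000000) := T_24 (nat_lit 178) (nat_lit 161) (nat_lit 5) (nat_lit 8) (nat_lit 7) L11066 (by decide +kernel)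
theorem L11068 : W_24 (nat_lit 2) (nat_lit 0xc000280020001a00080000000000000000000000000000000) (nat_lit 0x0) (nat_lit 0x40000400100000000000000000000000000000000) := D_24 (nat_lit 142) (nat_lit 162) (nat_lit 128) (nat_lit 3) (nat_lit 5) (nat_lit 8) (nat_lit 2) (nat_lit 5) (nat_lit 8) (by decide +kernel)
theorem L11069 : W_24 (nat_lit 3) (nat_lit 0xc000280000001a00080000000000000000000000000000000) (nat_lit 0x0) (nat_lit 0x400060000400100000000000000000000000000000000) := T_24 (nat_lit 161) (nat_lit 178) (nat_lit 5) (nat_lit 8) (nat_lit 7) L11068 (by decide +kernel)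
theorem L11070 : W_24 (nat_lit 4) (nat_lit 0xc000280000001200080000000000000000000000000000000) (nat_lit 0x0) (nat_lit 0x400070000c00100000000000000000000000000000000) := T_24 (nat_lit 143) (nat_lit 160) (nat_lit 6) (nat_lit 7) (nat_lit 11) L11069 (by decide +kernel)
theorem L11075 : W_24 (nat_lit 6) (nat_lit 0xc000780000001a00080000000000000000000000000000000) (nat_lit 0x0) (nat_lit 0x1800000006000100078001400000000000000000000000000) := T_24 (nat_lit 192) (nat_lit 191) (nat_lit 1) (nat_lit 8) (nat_lit 10) L11074 (by decide +kernel)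
theorem L11076 : W_24 (nat_lit 7) (nat_lit 0xc000380000001a00080000000000000000000000000000000) (nat_lit 0x0) (nat_lit 0x1800400026000100078001400000000000000000000000000) := T_24 (nat_lit 178) (nat_lit 161) (nat_lit 5) (nat_lit 8) (nat_lit 7) L11075 (by decide +kernel)
theorem L11077 : W_24 (nat_lit 8) (nat_lit 0xc000280000001a00080000000000000000000000000000000) (nat_lit 0x0) (nat_lit 0x1800540026000100078001400000000000000000000000000) := T_24 (nat_lit 176) (nat_lit 174) (nat_lit 3) (nat_lit 4) (nat_lit 10) L11076 (by decide +kernel)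
theorem L11078 : W_24 (nat_lit 9) (nat_lit 0xc000280000001200080000000000000000000000000000000) (nat_lit 0x0) (nat_lit 0x1800540036000900078001400000000000000000000000000) := T_24 (nat_lit 143) (nat_lit 160) (nat_lit 6) (nat_lit 7) (nat_lit 11) L11077 (by decide +kernel)
theorem L11079 : W_24 (nat_lit 10) (nat_lit 0xc000280000001000080000000000000000000000000000000) (nat_lit 0x0) (nat_lit 0x1800540077000f00178001400000000000000000000000000) := Q_24 (nat_lit 141) (C_24 L11060 (C_24 L11067 (C_24 L11070 (C_24 L11078 N_24)))) (by decide +kernel)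
theorem L11085 : W_24 (nat_lit 7) (nat_lit 0xc000680000001200080000000000000000000000000000000) (nat_lit 0x0) (nat_lit 0x2000140006000100078001c00000000000000000000000000) := T_24 (nat_lit 176) (nat_lit 174) (nat_lit 3) (nat_lit 4) (nat_lit 10) L11084 (by decide +kernel)
theorem L11086 : W_24 (nat_lit 8) (nat_lit 0xc000280000001200080000000000000000000000000000000) (nat_lit 0x0) (nat_lit 0x2000540026000100078001c00000000000000000000000000) := T_24 (nat_lit 178) (nat_lit 161) (nat_lit 5) (nat_lit 8) (nat_lit 7) L11085 (by decide +kernel)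
theorem L11087 : W_24 (nat_lit 9) (nat_lit 0xc000280000001000080000000000000000000000000000000) (nat_lit 0x0) (nat_lit 0x2000540077000f00178001c00000000000000000000000000) := Q_24 (nat_lit 141) (C_24 L11060 (C_24 L11086 (C_24 L11070 N_24))) (by decide +kernel)
theorem L11088 : W_24 (nat_lit 2) (nat_lit 0x200000000f000780014001000080000000000000000000000000000000) (nat_lit 0x0) (nat_lit 0x800040000000000000000200000000000000000000000000000000000) := D_24 (nat_lit 210) (nat_lit 141) (nat_lit 227) (nat_lit 7) (nat_lit 5) (nat_lit 8) (nat_lit 6) (nat_lit 6) (nat_lit 13) (by decide +kernel)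
theorem L11089 : W_24 (nat_lit 3) (nat_lit 0x200000000d000780014001000080000000000000000000000000000000) (nat_lit 0x0) (nat_lit 0x800040002000800000000200000000000000000000000000000000000) := T_24 (nat_lit 193) (nat_lit 179) (nat_lit 2) (nat_lit 5) (nat_lit 11) L11088 (by decide +kernel)
theorem L11090 : W_24 (nat_lit 4) (nat_lit 0x200000000d000780010001000080000000000000000000000000000000) (nat_lit 0x0) (nat_lit 0x800040002000800006000200000000000000000000000000000000000) := T_24 (nat_lit 158) (nat_lit 157) (nat_lit 0) (nat_lit 8) (nat_lit 10) L11089 (by decide +kernel)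
theorem L11091 : W_24 (nat_lit 5) (nat_lit 0x200000000c000780010001000080000000000000000000000000000000) (nat_lit 0x0) (nat_lit 0x800040003800800006000200000000000000000000000000000000000) := T_24 (nat_lit 192) (nat_lit 191) (nat_lit 1) (nat_lit 8) (nat_lit 10) L11090 (by decide +kernel)
theorem L11092 : W_24 (nat_lit 6) (nat_lit 0xc000780010001000080000000000000000000000000000000) (nat_lit 0x0) (nat_lit 0x2800140003800800006000200000000000000000000000000000000000) := T_24 (nat_lit 229) (nat_lit 212) (nat_lit 4) (nat_lit 8) (nat_lit 13) L11091 (by decide +kernel)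
theorem L11093 : W_24 (nat_lit 7) (nat_lit 0xc000380010001000080000000000000000000000000000000) (nat_lit 0x0) (nat_lit 0x2800140003800c00026000200000000000000000000000000000000000) := T_24 (nat_lit 178) (nat_lit 161) (nat_lit 5) (nat_lit 8) (nat_lit 7) L11092 (by decide +kernel)
theorem L11094 : W_24 (nat_lit 8) (nat_lit 0xc000280010001000080000000000000000000000000000000) (nat_lit 0x0) (nat_lit 0x2800140003800d40026000200000000000000000000000000000000000) := T_24 (nat_lit 176) (nat_lit 174) (nat_lit 3) (nat_lit 4) (nat_lit 10) L11093 (by decide +kernel)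
theorem L11095 : W_24 (nat_lit 9) (nat_lit 0xc000280000001000080000000000000000000000000000000) (nat_lit 0x0) (nat_lit 0x2800140003800d40036000a00000000000000000000000000000000000) := T_24 (nat_lit 160) (nat_lit 143) (nat_lit 6) (nat_lit 7) (nat_lit 11) L11094 (by decide +kernel)
theorem L11096 : W_24 (nat_lit 2) (nat_lit 0x280002000f000780014001000080000000000000000000000000000000) (nat_lit 0x0) (nat_lit 0x18000400000000000000000000000000000000000000000000000000000000) := D_24 (nat_lit 226) (nat_lit 243) (nat_lit 244) (nat_lit 6) (nat_lit 5) (nat_lit 14) (nat_lit 7) (nat_lit 5) (nat_lit 10) (by decide +kernel)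
theorem L11097 : W_24 (nat_lit 3) (nat_lit 0x200002000f000780014001000080000000000000000000000000000000) (nat_lit 0x0) (nat_lit 0x18000c00040000000000000000000000000000000000000000000000000000) := T_24 (nat_lit 227) (nat_lit 210) (nat_lit 7) (nat_lit 5) (nat_lit 9) L11096 (by decide +kernel)
theorem L11098 : W_24 (nat_lit 4) (nat_lit 0x200000000f000780014001000080000000000000000000000000000000) (nat_lit 0x0) (nat_lit 0x18000c00070000000000000000000000000000000000000000000000000000) := T_24 (nat_lit 209) (nat_lit 208) (nat_lit 1) (nat_lit 8) (nat_lit 11) L11097 (by decide +kernel)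
theorem L11099 : W_24 (nat_lit 5) (nat_lit 0x200000000d000780014001000080000000000000000000000000000000) (nat_lit 0x0) (nat_lit 0x18000c00070002000800000000000000000000000000000000000000000000) := T_24 (nat_lit 193) (nat_lit 179) (nat_lit 2) (nat_lit 5) (nat_lit 11) L11098 (by decide +kernel)
theorem L11100 : W_24 (nat_lit 6) (nat_lit 0x200000000d000780010001000080000000000000000000000000000000) (nat_lit 0x0) (nat_lit 0x18000c00070002000800006000000000000000000000000000000000000000) := T_24 (nat_lit 158) (nat_lit 157) (nat_lit 0) (nat_lit 8) (nat_lit 10) L11099 (by decide +kernel)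
theorem L11101 : W_24 (nat_lit 7) (nat_lit 0x200000000c000780010001000080000000000000000000000000000000) (nat_lit 0x0) (nat_lit 0x18000c00070003800800006000000000000000000000000000000000000000) := T_24 (nat_lit 192) (nat_lit 191) (nat_lit 1) (nat_lit 8) (nat_lit 10) L11100 (by decide +kernel)
theorem L11102 : W_24 (nat_lit 8) (nat_lit 0x200000000c000680010001000080000000000000000000000000000000) (nat_lit 0x0) (nat_lit 0x18000c00070003800940006000000000000000000000000000000000000000) := T_24 (nat_lit 176) (nat_lit 174) (nat_lit 3) (nat_lit 4) (nat_lit 10) L11101 (by decide +kernel)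
theorem L11103 : W_24 (nat_lit 9) (nat_lit 0xc000680010001000080000000000000000000000000000000) (nat_lit 0x0) (nat_lit 0x18002c00170003800940006000000000000000000000000000000000000000) := T_24 (nat_lit 229) (nat_lit 212) (nat_lit 4) (nat_lit 8) (nat_lit 13) L11102 (by decide +kernel)
theorem L11104 : W_24 (nat_lit 10) (nat_lit 0xc000680000001000080000000000000000000000000000000) (nat_lit 0x0) (nat_lit 0x18002c00170003800940016000800000000000000000000000000000000000) := T_24 (nat_lit 160) (nat_lit 143) (nat_lit 6) (nat_lit 7) (nat_lit 11) L11103 (by decide +kernel)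
theorem L11105 : W_24 (nat_lit 11) (nat_lit 0xc000280000001000080000000000000000000000000000000) (nat_lit 0x0) (nat_lit 0x18002c00170003800d40036000800000000000000000000000000000000000) := T_24 (nat_lit 178) (nat_lit 161) (nat_lit 5) (nat_lit 8) (nat_lit 7) L11104 (by decide +kernel)
theorem L11106 : W_24 (nat_lit 2) (nat_lit 0x280003000d000680016001000080000000000000000000000000000000) (nat_lit 0x0) (nat_lit 0x10001400000000000000000000000000000000000000000000000000000000) := D_24 (nat_lit 226) (nat_lit 228) (nat_lit 244) (nat_lit 0) (nat_lit 8) (nat_lit 13) (nat_lit 7) (nat_lit 5) (nat_lit 10) (by decide +kernel)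
theorem L11107 : W_24 (nat_lit 3) (nat_lit 0x200003000d000680016001000080000000000000000000000000000000) (nat_lit 0x0) (nat_lit 0x10001c00040000000000000000000000000000000000000000000000000000) := T_24 (nat_lit 227) (nat_lit 210) (nat_lit 7) (nat_lit 5) (nat_lit 9) L11106 (by decide +kernel)
theorem L11108 : W_24 (nat_lit 4) (nat_lit 0x200002000d000680016001000080000000000000000000000000000000) (nat_lit 0x0) (nat_lit 0x10001e00050000000000000000000000000000000000000000000000000000) := T_24 (nat_lit 208) (nat_lit 225) (nat_lit 5) (nat_lit 5) (nat_lit 9) L11107 (by decide +kernel)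
theorem L11109 : W_24 (nat_lit 5) (nat_lit 0x200000000d000680016001000080000000000000000000000000000000) (nat_lit 0x0) (nat_lit 0x10001e00070000000000000000100000000000000000000000000000000000) := T_24 (nat_lit 209) (nat_lit 140) (nat_lit 4) (nat_lit 5) (nat_lit 12) L11108 (by decide +kernel)
theorem L11110 : W_24 (nat_lit 6) (nat_lit 0x200000000d000680014001000080000000000000000000000000000000) (nat_lit 0x0) (nat_lit 0x10001e00070000000100002000100000000000000000000000000000000000) := T_24 (nat_lit 157) (nat_lit 176) (nat_lit 0) (nat_lit 8) (nat_lit 10) L11109 (by decide +kernel)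
theorem L11111 : W_24 (nat_lit 7) (nat_lit 0xd000680014001000080000000000000000000000000000000) (nat_lit 0x0) (nat_lit 0x10003e00170000000100002000100000000000000000000000000000000000) := T_24 (nat_lit 229) (nat_lit 212) (nat_lit 4) (nat_lit 8) (nat_lit 13) L11110 (by decide +kernel)
theorem L11112 : W_24 (nat_lit 8) (nat_lit 0xd000680004001000080000000000000000000000000000000) (nat_lit 0x0) (nat_lit 0x10003e00170000000100012000900000000000000000000000000000000000) := T_24 (nat_lit 160) (nat_lit 143) (nat_lit 6) (nat_lit 7) (nat_lit 11) L11111 (by decide +kernel)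
theorem L11113 : W_24 (nat_lit 9) (nat_lit 0xd000280004001000080000000000000000000000000000000) (nat_lit 0x0) (nat_lit 0x10003e00170000000500032000900000000000000000000000000000000000) := T_24 (nat_lit 178) (nat_lit 161) (nat_lit 5) (nat_lit 8) (nat_lit 7) L11112 (by decide +kernel)
theorem L11114 : W_24 (nat_lit 10) (nat_lit 0xd000280000001000080000000000000000000000000000000) (nat_lit 0x0) (nat_lit 0x10003e00170000800500036000f00168000000000000000000000000000000) := Q_24 (nat_lit 158) (C_24 L8957 (C_24 L8930 (C_24 L8946 (C_24 L11113 N_24)))) (by decide +kernel)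
theorem L11115 : W_24 (nat_lit 2) (nat_lit 0x10000d000680010001000080000000000000000000000000000000) (nat_lit 0x0) (nat_lit 0x200002000800000000000000000000000000000000000000000000) := D_24 (nat_lit 193) (nat_lit 179) (nat_lit 213) (nat_lit 2) (nat_lit 5) (nat_lit 11) (nat_lit 3) (nat_lit 5) (nat_lit 11) (by decide +kernel)
theorem L11116 : W_24 (nat_lit 3) (nat_lit 0xd000680010001000080000000000000000000000000000000) (nat_lit 0x0) (nat_lit 0x2000300002000800000000000000000000000000000000000000000000) := T_24 (nat_lit 212) (nat_lit 229) (nat_lit 4) (nat_lit 8) (nat_lit 13) L11115 (by decide +kernel)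
theorem L11117 : W_24 (nat_lit 4) (nat_lit 0xd000280010001000080000000000000000000000000000000) (nat_lit 0x0) (nat_lit 0x2000300002000c00020000000000000000000000000000000000000000) := T_24 (nat_lit 178) (nat_lit 161) (nat_lit 5) (nat_lit 8) (nat_lit 7) L11116 (by decide +kernel)
theorem L11118 : W_24 (nat_lit 5) (nat_lit 0xd000280000001000080000000000000000000000000000000) (nat_lit 0x0) (nat_lit 0x2000300002000c00030000800000000000000000000000000000000000) := T_24 (nat_lit 160) (nat_lit 143) (nat_lit 6) (nat_lit 7) (nat_lit 11) L11117 (by decide +kernel)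
theorem L11119 : W_24 (nat_lit 14) (nat_lit 0xc000280000001000080000000000000000000000000000000) (nat_lit 0x0) (nat_lit 0x8005c003e0037e003e00d38037000f8017c000000000000000000000000000000) := Q_24 (nat_lit 192) (C_24 L10974 (C_24 L11048 (C_24 L11114 (C_24 L11118 N_24)))) (by decide +kernel)
theorem L11120 : W_24 (nat_lit 8) (nat_lit 0xc000680000001000080000000000000000000000000000000) (nat_lit 0x0) (nat_lit 0x20001000038039401d0000800000000000000000000000000000000000) := T_24 (nat_lit 176) (nat_lit 174) (nat_lit 3) (nat_lit 4) (nat_lit 10) L8176 (by decide +kernel)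
theorem L11121 : W_24 (nat_lit 9) (nat_lit 0xc000280000001000080000000000000000000000000000000) (nat_lit 0x0) (nat_lit 0x2000100003803d401f0000800000000000000000000000000000000000) := T_24 (nat_lit 178) (nat_lit 161) (nat_lit 5) (nat_lit 8) (nat_lit 7) L11120 (by decide +kernel)
theorem L11122 : W_24 (nat_lit 16) (nat_lit 0xc000200000001000080000000000000000000000000000000) (nat_lit 0x0) (nat_lit 0x8005c003e0037e003e03df81f7000f8017c001c00080000000000000000000000) := Q_24 (nat_lit 175) (C_24 L10975 (C_24 L11049 (C_24 L11055 (C_24 L11079 (C_24 L11087 (C_24 L11095 (C_24 L11105 (C_24 L11119 (C_24 L11121 N_24))))))))) (by decide +kernel)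
theorem L11123 : W_24 (nat_lit 2) (nat_lit 0xc001f00080001000080000000000000000000000000000000) (nat_lit 0x0) (nat_lit 0x70000000000000000000000000000000000000000000000000) := D_24 (nat_lit 197) (nat_lit 196) (nat_lit 198) (nat_lit 3) (nat_lit 6) (nat_lit 10) (nat_lit 3) (nat_lit 7) (nat_lit 10) (by decide +kernel)
theorem L11124 : W_24 (nat_lit 3) (nat_lit 0xc001e00080001000080000000000000000000000000000000) (nat_lit 0x0) (nat_lit 0x70000100040000000000000000000000000000000000000000) := T_24 (nat_lit 176) (nat_lit 162) (nat_lit 2) (nat_lit 6) (nat_lit 10) L11123 (by decide +kernel)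
theorem L11125 : W_24 (nat_lit 4) (nat_lit 0xc001e00000001000080000000000000000000000000000000) (nat_lit 0x0) (nat_lit 0x700001001c0000000000000000000000000000000000000000) := T_24 (nat_lit 163) (nat_lit 164) (nat_lit 2) (nat_lit 7) (nat_lit 10) L11124 (by decide +kernel)
theorem L11126 : W_24 (nat_lit 5) (nat_lit 0xc000e00000001000080000000000000000000000000000000) (nat_lit 0x0) (nat_lit 0x700031001c0000000000000000000000000000000000000000) := T_24 (nat_lit 180) (nat_lit 181) (nat_lit 1) (nat_lit 11) (nat_lit 10) L11125 (by decide +kernel)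
theorem L11127 : W_24 (nat_lit 2) (nat_lit 0x200000000c000e00000001000080000000000000000000000000000000) (nat_lit 0x0) (nat_lit 0x40000000100000000000040000000000000000000000000000000000000000) := D_24 (nat_lit 212) (nat_lit 246) (nat_lit 162) (nat_lit 4) (nat_lit 8) (nat_lit 14) (nat_lit 6) (nat_lit 8) (nat_lit 13) (by decide +kernel)
theorem L11128 : W_24 (nat_lit 2) (nat_lit 0xa00060003c002e00010001000080000000000000000000000000000000) (nat_lit 0x0) (nat_lit 0xc0004000000000000000000000000000000000000000000000000000000000) := D_24 (nat_lit 230) (nat_lit 246) (nat_lit 247) (nat_lit 5) (nat_lit 9) (nat_lit 10) (nat_lit 4) (nat_lit 9) (nat_lit 14) (by decide +kernel)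
theorem L11129 : W_24 (nat_lit 3) (nat_lit 0xa00040003c002e00010001000080000000000000000000000000000000) (nat_lit 0x0) (nat_lit 0xc0004000200000000000040000000000000000000000000000000000000000) := T_24 (nat_lit 213) (nat_lit 162) (nat_lit 7) (nat_lit 9) (nat_lit 9) L11128 (by decide +kernel)
theorem L11130 : W_24 (nat_lit 4) (nat_lit 0x200040003c002e00010001000080000000000000000000000000000000) (nat_lit 0x0) (nat_lit 0x1c000c000200000000000040000000000000000000000000000000000000000) := T_24 (nat_lit 231) (nat_lit 248) (nat_lit 4) (nat_lit 10) (nat_lit 14) L11129 (by decide +kernel)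
theorem L11131 : W_24 (nat_lit 5) (nat_lit 0x200000003c002e00010001000080000000000000000000000000000000) (nat_lit 0x0) (nat_lit 0x1c000c000e00000000000040000000000000000000000000000000000000000) := T_24 (nat_lit 214) (nat_lit 215) (nat_lit 3) (nat_lit 7) (nat_lit 11) L11130 (by decide +kernel)
theorem L11132 : W_24 (nat_lit 6) (nat_lit 0x200000003c002e00000001000080000000000000000000000000000000) (nat_lit 0x0) (nat_lit 0x1c000c000e00000000000050000800000000000000000000000000000000000) := T_24 (nat_lit 160) (nat_lit 143) (nat_lit 6) (nat_lit 7) (nat_lit 11) L11131 (by decide +kernel)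
theorem L11133 : W_24 (nat_lit 7) (nat_lit 0x200000001c002e00000001000080000000000000000000000000000000) (nat_lit 0x0) (nat_lit 0x1c000c000e00060000000050000800000000000000000000000000000000000) := T_24 (nat_lit 197) (nat_lit 198) (nat_lit 0) (nat_lit 11) (nat_lit 11) L11132 (by decide +kernel)
theorem L11134 : W_24 (nat_lit 8) (nat_lit 0x200000001c000e00000001000080000000000000000000000000000000) (nat_lit 0x0) (nat_lit 0x1c000c000e00060003000050000800000000000000000000000000000000000) := T_24 (nat_lit 181) (nat_lit 180) (nat_lit 1) (nat_lit 11) (nat_lit 10) L11133 (by decide +kernel)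
theorem L11135 : W_24 (nat_lit 2) (nat_lit 0x200000005c001e00080005000080000000000000000000000000000000) (nat_lit 0x0) (nat_lit 0x4000200000000000040000000000000000000000000000000000000000) := D_24 (nat_lit 213) (nat_lit 230) (nat_lit 162) (nat_lit 6) (nat_lit 9) (nat_lit 13) (nat_lit 6) (nat_lit 9) (nat_lit 12) (by decide +kernel)
theorem L11136 : W_24 (nat_lit 3) (nat_lit 0x200000005c001e00080001000080000000000000000000000000000000) (nat_lit 0x0) (nat_lit 0x4000200000000000040004000200000000000000000000000000000000) := T_24 (nat_lit 146) (nat_lit 129) (nat_lit 5) (nat_lit 10) (nat_lit 7) L11135 (by decide +kernel)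
theorem L11137 : W_24 (nat_lit 4) (nat_lit 0x200000005c001e00000001000080000000000000000000000000000000) (nat_lit 0x0) (nat_lit 0x40002000000000001c0004000200000000000000000000000000000000) := T_24 (nat_lit 163) (nat_lit 164) (nat_lit 2) (nat_lit 7) (nat_lit 10) L11136 (by decide +kernel)
theorem L11138 : W_24 (nat_lit 5) (nat_lit 0x200000005c000e00000001000080000000000000000000000000000000) (nat_lit 0x0) (nat_lit 0x40002000000030001c0004000200000000000000000000000000000000) := T_24 (nat_lit 180) (nat_lit 181) (nat_lit 1) (nat_lit 11) (nat_lit 10) L11137 (by decide +kernel)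
theorem L11139 : W_24 (nat_lit 6) (nat_lit 0x200000001c000e00000001000080000000000000000000000000000000) (nat_lit 0x0) (nat_lit 0x40002000600030001c0004000200000000000000000000000000000000) := T_24 (nat_lit 198) (nat_lit 197) (nat_lit 0) (nat_lit 11) (nat_lit 11) L11138 (by decide +kernel)
theorem L11140 : W_24 (nat_lit 2) (nat_lit 0xa00060003c000e00010001000080000000000000000000000000000000) (nat_lit 0x0) (nat_lit 0xc0004000000000000000000000000000000000000000000000000000000000) := D_24 (nat_lit 230) (nat_lit 246) (nat_lit 247) (nat_lit 5) (nat_lit 9) (nat_lit 10) (nat_lit 4) (nat_lit 9) (nat_lit 14) (by decide +kernel)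
theorem L11141 : W_24 (nat_lit 3) (nat_lit 0xa00040003c000e00010001000080000000000000000000000000000000) (nat_lit 0x0) (nat_lit 0xc0004000200000000000040000000000000000000000000000000000000000) := T_24 (nat_lit 213) (nat_lit 162) (nat_lit 7) (nat_lit 9) (nat_lit 9) L11140 (by decide +kernel)
theorem L11142 : W_24 (nat_lit 4) (nat_lit 0x200040003c000e00010001000080000000000000000000000000000000) (nat_lit 0x0) (nat_lit 0x1c000c000200000000000040000000000000000000000000000000000000000) := T_24 (nat_lit 231) (nat_lit 248) (nat_lit 4) (nat_lit 10) (nat_lit 14) L11141 (by decide +kernel)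
theorem L11143 : W_24 (nat_lit 5) (nat_lit 0x200000003c000e00010001000080000000000000000000000000000000) (nat_lit 0x0) (nat_lit 0x1c000c000e00000000000040000000000000000000000000000000000000000) := T_24 (nat_lit 214) (nat_lit 215) (nat_lit 3) (nat_lit 7) (nat_lit 11) L11142 (by decide +kernel)
theorem L11144 : W_24 (nat_lit 6) (nat_lit 0x200000001c000e00010001000080000000000000000000000000000000) (nat_lit 0x0) (nat_lit 0x1c000c000e00060000000040000000000000000000000000000000000000000) := T_24 (nat_lit 197) (nat_lit 198) (nat_lit 0) (nat_lit 11) (nat_lit 11) L11143 (by decide +kernel)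
theorem L11145 : W_24 (nat_lit 7) (nat_lit 0x200000001c000e00000001000080000000000000000000000000000000) (nat_lit 0x0) (nat_lit 0x1c000c000e00060000000050000800000000000000000000000000000000000) := T_24 (nat_lit 160) (nat_lit 143) (nat_lit 6) (nat_lit 7) (nat_lit 11) L11144 (by decide +kernel)
theorem L11146 : W_24 (nat_lit 2) (nat_lit 0x200000001c001e00090005000080000000000000000000000000000000) (nat_lit 0x0) (nat_lit 0x4000200000000000040000000000000000000000000000000000000000) := D_24 (nat_lit 213) (nat_lit 230) (nat_lit 162) (nat_lit 6) (nat_lit 9) (nat_lit 13) (nat_lit 6) (nat_lit 9) (nat_lit 12) (by decide +kernel)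
theorem L11147 : W_24 (nat_lit 3) (nat_lit 0x200000001c001e00090001000080000000000000000000000000000000) (nat_lit 0x0) (nat_lit 0x4000200000000000040004000200000000000000000000000000000000) := T_24 (nat_lit 146) (nat_lit 129) (nat_lit 5) (nat_lit 10) (nat_lit 7) L11146 (by decide +kernel)
theorem L11148 : W_24 (nat_lit 4) (nat_lit 0x200000001c001e00010001000080000000000000000000000000000000) (nat_lit 0x0) (nat_lit 0x40002000000000001c0004000200000000000000000000000000000000) := T_24 (nat_lit 163) (nat_lit 164) (nat_lit 2) (nat_lit 7) (nat_lit 10) L11147 (by decide +kernel)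
theorem L11149 : W_24 (nat_lit 5) (nat_lit 0x200000001c001e00000001000080000000000000000000000000000000) (nat_lit 0x0) (nat_lit 0x40002000000000001d0004800200000000000000000000000000000000) := T_24 (nat_lit 160) (nat_lit 143) (nat_lit 6) (nat_lit 7) (nat_lit 11) L11148 (by decide +kernel)
theorem L11150 : W_24 (nat_lit 6) (nat_lit 0x200000001c000e00000001000080000000000000000000000000000000) (nat_lit 0x0) (nat_lit 0x40002000000030001d0004800200000000000000000000000000000000) := T_24 (nat_lit 180) (nat_lit 181) (nat_lit 1) (nat_lit 11) (nat_lit 10) L11149 (by decide +kernel)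
theorem L11151 : W_24 (nat_lit 2) (nat_lit 0x200000005c001e00080001800380000000000000000000000000000000) (nat_lit 0x0) (nat_lit 0x600040000000000000000000000000000000) := D_24 (nat_lit 142) (nat_lit 126) (nat_lit 141) (nat_lit 1) (nat_lit 10) (nat_lit 7) (nat_lit 2) (nat_lit 5) (nat_lit 8) (by decide +kernel)
theorem L11152 : W_24 (nat_lit 3) (nat_lit 0x200000005c001e00080001800280000000000000000000000000000000) (nat_lit 0x0) (nat_lit 0x600540000000000000000000000000000000) := T_24 (nat_lit 128) (nat_lit 130) (nat_lit 1) (nat_lit 11) (nat_lit 7) L11151 (by decide +kernel)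
theorem L11153 : W_24 (nat_lit 4) (nat_lit 0x200000005c001e00080001800080000000000000000000000000000000) (nat_lit 0x0) (nat_lit 0x4600740000000000000000000000000000000) := T_24 (nat_lit 129) (nat_lit 146) (nat_lit 5) (nat_lit 10) (nat_lit 7) L11152 (by decide +kernel)
theorem L11154 : W_24 (nat_lit 5) (nat_lit 0x200000005c001e00080001000080000000000000000000000000000000) (nat_lit 0x0) (nat_lit 0x10004e00740000000000000000000000000000000) := T_24 (nat_lit 143) (nat_lit 160) (nat_lit 6) (nat_lit 7) (nat_lit 11) L11153 (by decide +kernel)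
theorem L11155 : W_24 (nat_lit 6) (nat_lit 0x200000005c001e00000001000080000000000000000000000000000000) (nat_lit 0x0) (nat_lit 0x190004e00740000000000000000000000000000000) := T_24 (nat_lit 163) (nat_lit 164) (nat_lit 2) (nat_lit 7) (nat_lit 10) L11154 (by decide +kernel)
theorem L11156 : W_24 (nat_lit 7) (nat_lit 0x200000001c001e00000001000080000000000000000000000000000000) (nat_lit 0x0) (nat_lit 0x60000000190004e00740000000000000000000000000000000) := T_24 (nat_lit 198) (nat_lit 197) (nat_lit 3) (nat_lit 7) (nat_lit 10) L11155 (by decide +kernel)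
theorem L11157 : W_24 (nat_lit 8) (nat_lit 0x200000001c000e00000001000080000000000000000000000000000000) (nat_lit 0x0) (nat_lit 0x60003000190004e00740000000000000000000000000000000) := T_24 (nat_lit 180) (nat_lit 181) (nat_lit 1) (nat_lit 11) (nat_lit 10) L11156 (by decide +kernel)
theorem L11158 : W_24 (nat_lit 9) (nat_lit 0x200000000c000e00000001000080000000000000000000000000000000) (nat_lit 0x0) (nat_lit 0x1c000c000e000700030001d0004e00740000000000000000000000000000000) := Q_24 (nat_lit 196) (C_24 L11134 (C_24 L11139 (C_24 L11145 (C_24 L11150 (C_24 L11157 N_24))))) (by decide +kernel)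
theorem L11159 : W_24 (nat_lit 2) (nat_lit 0x200000000c000e00000001000080000000000000000000000000000000) (nat_lit 0x0) (nat_lit 0x100000000000010000800000000000000000000000000000000000) := D_24 (nat_lit 160) (nat_lit 143) (nat_lit 212) (nat_lit 6) (nat_lit 7) (nat_lit 11) (nat_lit 4) (nat_lit 8) (nat_lit 13) (by decide +kernel)
theorem L11160 : W_24 (nat_lit 10) (nat_lit 0xc000e00000001000080000000000000000000000000000000) (nat_lit 0x0) (nat_lit 0x1c000e000f000700030001d0004e00740000000000000000000000000000000) := Q_24 (nat_lit 229) (C_24 L11127 (C_24 L11158 (C_24 L11159 N_24))) (by decide +kernel)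
theorem L11161 : W_24 (nat_lit 2) (nat_lit 0x50002c001e000d0001000080000000000000000000000000000000) (nat_lit 0x0) (nat_lit 0x10000a00000000000000000000000000000000000000000000000000000) := D_24 (nat_lit 215) (nat_lit 213) (nat_lit 232) (nat_lit 0) (nat_lit 11) (nat_lit 12) (nat_lit 7) (nat_lit 10) (nat_lit 9) (by decide +kernel)
theorem L11162 : W_24 (nat_lit 3) (nat_lit 0x10002c001e000d0001000080000000000000000000000000000000) (nat_lit 0x0) (nat_lit 0x18000e00000000000000000000000000000000000000000000000000000) := T_24 (nat_lit 214) (nat_lit 231) (nat_lit 4) (nat_lit 10) (nat_lit 13) L11161 (by decide +kernel)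
theorem L11163 : W_24 (nat_lit 4) (nat_lit 0x10002c001e00090001000080000000000000000000000000000000) (nat_lit 0x0) (nat_lit 0x18000e00000000100040000000000000000000000000000000000000000) := T_24 (nat_lit 162) (nat_lit 176) (nat_lit 2) (nat_lit 6) (nat_lit 10) L11162 (by decide +kernel)
theorem L11164 : W_24 (nat_lit 5) (nat_lit 0x10002c001e00010001000080000000000000000000000000000000) (nat_lit 0x0) (nat_lit 0x18000e000000001001c0000000000000000000000000000000000000000) := T_24 (nat_lit 163) (nat_lit 164) (nat_lit 2) (nat_lit 7) (nat_lit 10) L11163 (by decide +kernel)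
theorem L11165 : W_24 (nat_lit 6) (nat_lit 0x10000c001e00010001000080000000000000000000000000000000) (nat_lit 0x0) (nat_lit 0x18000e000600001001c0000000000000000000000000000000000000000) := T_24 (nat_lit 197) (nat_lit 198) (nat_lit 3) (nat_lit 7) (nat_lit 10) L11164 (by decide +kernel)
theorem L11166 : W_24 (nat_lit 7) (nat_lit 0xc001e00010001000080000000000000000000000000000000) (nat_lit 0x0) (nat_lit 0x1a000f000600001001c0000000000000000000000000000000000000000) := T_24 (nat_lit 212) (nat_lit 229) (nat_lit 4) (nat_lit 8) (nat_lit 13) L11165 (by decide +kernel)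
theorem L11167 : W_24 (nat_lit 8) (nat_lit 0xc001e00000001000080000000000000000000000000000000) (nat_lit 0x0) (nat_lit 0x1a000f000600001001d0000800000000000000000000000000000000000) := T_24 (nat_lit 160) (nat_lit 143) (nat_lit 6) (nat_lit 7) (nat_lit 11) L11166 (by decide +kernel)
theorem L11168 : W_24 (nat_lit 9) (nat_lit 0xc000e00000001000080000000000000000000000000000000) (nat_lit 0x0) (nat_lit 0x1a000f000600031001d0000800000000000000000000000000000000000) := T_24 (nat_lit 180) (nat_lit 181) (nat_lit 1) (nat_lit 11) (nat_lit 10) L11167 (by decide +kernel)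
theorem L11169 : W_24 (nat_lit 2) (nat_lit 0x1c000e00000001000080000000000000000000000000000000) (nat_lit 0x0) (nat_lit 0x60000100000000000000000000000000000000000000000000) := D_24 (nat_lit 197) (nat_lit 176) (nat_lit 198) (nat_lit 3) (nat_lit 6) (nat_lit 10) (nat_lit 0) (nat_lit 11) (nat_lit 11) (by decide +kernel)
theorem L11170 : W_24 (nat_lit 7) (nat_lit 0x1c000e00010001000080000000000000000000000000000000) (nat_lit 0x0) (nat_lit 0x1c000e000f00060000000040000000000000000000000000000000000000000) := T_24 (nat_lit 229) (nat_lit 212) (nat_lit 4) (nat_lit 8) (nat_lit 13) L11144 (by decide +kernel)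
theorem L11171 : W_24 (nat_lit 8) (nat_lit 0x1c000e00000001000080000000000000000000000000000000) (nat_lit 0x0) (nat_lit 0x1c000e000f00060000000050000800000000000000000000000000000000000) := T_24 (nat_lit 160) (nat_lit 143) (nat_lit 6) (nat_lit 7) (nat_lit 11) L11170 (by decide +kernel)
theorem L11172 : W_24 (nat_lit 2) (nat_lit 0x400020001c000e80010001000080000000000000000000000000000000) (nat_lit 0x0) (nat_lit 0x40002000100000000000000000000000000000000000000000000000000000) := D_24 (nat_lit 229) (nat_lit 212) (nat_lit 246) (nat_lit 4) (nat_lit 8) (nat_lit 13) (nat_lit 5) (nat_lit 9) (nat_lit 10) (by decide +kernel)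
theorem L11173 : W_24 (nat_lit 3) (nat_lit 0x400020001c000e80000001000080000000000000000000000000000000) (nat_lit 0x0) (nat_lit 0x40002000100000000000010000800000000000000000000000000000000000) := T_24 (nat_lit 160) (nat_lit 143) (nat_lit 6) (nat_lit 7) (nat_lit 11) L11172 (by decide +kernel)
theorem L11174 : W_24 (nat_lit 4) (nat_lit 0x20001c000e80000001000080000000000000000000000000000000) (nat_lit 0x0) (nat_lit 0xc0006000100000000000010000800000000000000000000000000000000000) := T_24 (nat_lit 230) (nat_lit 247) (nat_lit 4) (nat_lit 9) (nat_lit 14) L11173 (by decide +kernel)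
theorem L11175 : W_24 (nat_lit 5) (nat_lit 0x20001c000e00000001000080000000000000000000000000000000) (nat_lit 0x0) (nat_lit 0xc0006000100000000180010000800000000000000000000000000000000000) := T_24 (nat_lit 175) (nat_lit 176) (nat_lit 3) (nat_lit 5) (nat_lit 10) L11174 (by decide +kernel)
theorem L11176 : W_24 (nat_lit 2) (nat_lit 0x200020001c000e00010001000080000000000000000000000000000000) (nat_lit 0x0) (nat_lit 0xc0004000000000000000000000000000000000000000000000000000000000) := D_24 (nat_lit 230) (nat_lit 247) (nat_lit 246) (nat_lit 4) (nat_lit 9) (nat_lit 14) (nat_lit 5) (nat_lit 9) (nat_lit 10) (by decide +kernel)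
theorem L11177 : W_24 (nat_lit 3) (nat_lit 0x20001c000e00010001000080000000000000000000000000000000) (nat_lit 0x0) (nat_lit 0xc0006000100000000000000000000000000000000000000000000000000000) := T_24 (nat_lit 229) (nat_lit 212) (nat_lit 4) (nat_lit 8) (nat_lit 13) L11176 (by decide +kernel)
theorem L11178 : W_24 (nat_lit 4) (nat_lit 0x20001c000e00000001000080000000000000000000000000000000) (nat_lit 0x0) (nat_lit 0xc0006000100000000000010000800000000000000000000000000000000000) := T_24 (nat_lit 160) (nat_lit 143) (nat_lit 6) (nat_lit 7) (nat_lit 11) L11177 (by decide +kernel)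
theorem L11179 : W_24 (nat_lit 2) (nat_lit 0x8000000030001c000f00040001000080000000000000000000000000000000) (nat_lit 0x0) (nat_lit 0x8000c00000000000000000000000000000000000000000000000000000) := D_24 (nat_lit 214) (nat_lit 215) (nat_lit 231) (nat_lit 0) (nat_lit 11) (nat_lit 12) (nat_lit 7) (nat_lit 9) (nat_lit 9) (by decide +kernel)
theorem L11180 : W_24 (nat_lit 3) (nat_lit 0x8000000020001c000f00040001000080000000000000000000000000000000) (nat_lit 0x0) (nat_lit 0xa000d00000000000000000000000000000000000000000000000000000) := T_24 (nat_lit 212) (nat_lit 229) (nat_lit 6) (nat_lit 8) (nat_lit 13) L11179 (by decide +kernel)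
theorem L11181 : W_24 (nat_lit 4) (nat_lit 0x8000000020001c000f00000001000080000000000000000000000000000000) (nat_lit 0x0) (nat_lit 0xa000d000000000000c0000000000000000000000000000000000000000) := T_24 (nat_lit 162) (nat_lit 163) (nat_lit 2) (nat_lit 6) (nat_lit 10) L11180 (by decide +kernel)
theorem L11182 : W_24 (nat_lit 5) (nat_lit 0x8000000020001c000e00000001000080000000000000000000000000000000) (nat_lit 0x0) (nat_lit 0xa000d000000001800c0000000000000000000000000000000000000000) := T_24 (nat_lit 176) (nat_lit 175) (nat_lit 3) (nat_lit 5) (nat_lit 10) L11181 (by decide +kernel)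
theorem L11183 : W_24 (nat_lit 6) (nat_lit 0x20001c000e00000001000080000000000000000000000000000000) (nat_lit 0x0) (nat_lit 0x8000e000d000000001800c0000000000000000000000000000000000000000) := T_24 (nat_lit 247) (nat_lit 230) (nat_lit 4) (nat_lit 9) (nat_lit 14) L11182 (by decide +kernel)
theorem L11184 : W_24 (nat_lit 2) (nat_lit 0xe00060001c000e80010001000080000000000000000000000000000000) (nat_lit 0x0) (nat_lit 0x1800800000000000000000000000000000000000000000000000000000) := D_24 (nat_lit 228) (nat_lit 215) (nat_lit 227) (nat_lit 2) (nat_lit 7) (nat_lit 13) (nat_lit 2) (nat_lit 6) (nat_lit 13) (by decide +kernel)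
theorem L11185 : W_24 (nat_lit 3) (nat_lit 0xe00020001c000e80010001000080000000000000000000000000000000) (nat_lit 0x0) (nat_lit 0x1800c00000000000040000000000000000000000000000000000000000) := T_24 (nat_lit 214) (nat_lit 162) (nat_lit 7) (nat_lit 9) (nat_lit 9) L11184 (by decide +kernel)
theorem L11186 : W_24 (nat_lit 4) (nat_lit 0x600020001c000e80010001000080000000000000000000000000000000) (nat_lit 0x0) (nat_lit 0x100009800c00000000000040000000000000000000000000000000000000000) := T_24 (nat_lit 231) (nat_lit 248) (nat_lit 7) (nat_lit 9) (nat_lit 10) L11185 (by decide +kernel)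
theorem L11187 : W_24 (nat_lit 5) (nat_lit 0x400020001c000e80010001000080000000000000000000000000000000) (nat_lit 0x0) (nat_lit 0x14000b800c00000000000040000000000000000000000000000000000000000) := T_24 (nat_lit 229) (nat_lit 246) (nat_lit 5) (nat_lit 9) (nat_lit 10) L11186 (by decide +kernel)
theorem L11188 : W_24 (nat_lit 6) (nat_lit 0x20001c000e80010001000080000000000000000000000000000000) (nat_lit 0x0) (nat_lit 0x1c000f800c00000000000040000000000000000000000000000000000000000) := T_24 (nat_lit 230) (nat_lit 247) (nat_lit 4) (nat_lit 9) (nat_lit 14) L11187 (by decide +kernel)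
theorem L11189 : W_24 (nat_lit 7) (nat_lit 0x20001c000e80000001000080000000000000000000000000000000) (nat_lit 0x0) (nat_lit 0x1c000f800c00000000000050000800000000000000000000000000000000000) := T_24 (nat_lit 160) (nat_lit 143) (nat_lit 6) (nat_lit 7) (nat_lit 11) L11188 (by decide +kernel)
theorem L11190 : W_24 (nat_lit 8) (nat_lit 0x20001c000e00000001000080000000000000000000000000000000) (nat_lit 0x0) (nat_lit 0x1c000f800c00000000180050000800000000000000000000000000000000000) := T_24 (nat_lit 175) (nat_lit 176) (nat_lit 3) (nat_lit 5) (nat_lit 10) L11189 (by decide +kernel)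
theorem L11191 : W_24 (nat_lit 2) (nat_lit 0x8000000060001c000f00050001000080000000000000000000000000000000) (nat_lit 0x0) (nat_lit 0x1900000000000000000000000000000000000000000000000000000) := D_24 (nat_lit 215) (nat_lit 216) (nat_lit 212) (nat_lit 0) (nat_lit 12) (nat_lit 12) (nat_lit 0) (nat_lit 11) (nat_lit 12) (by decide +kernel)
theorem L11192 : W_24 (nat_lit 3) (nat_lit 0x8000000020001c000f00050001000080000000000000000000000000000000) (nat_lit 0x0) (nat_lit 0x8001d00000000000000000000000000000000000000000000000000000) := T_24 (nat_lit 214) (nat_lit 231) (nat_lit 7) (nat_lit 9) (nat_lit 9) L11191 (by decide +kernel)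
theorem L11193 : W_24 (nat_lit 4) (nat_lit 0x8000000020001c000f00010001000080000000000000000000000000000000) (nat_lit 0x0) (nat_lit 0x8001d000000000000c0000000000000000000000000000000000000000) := T_24 (nat_lit 162) (nat_lit 163) (nat_lit 2) (nat_lit 6) (nat_lit 10) L11192 (by decide +kernel)
theorem L11194 : W_24 (nat_lit 5) (nat_lit 0x8000000020001c000f00000001000080000000000000000000000000000000) (nat_lit 0x0) (nat_lit 0x8001d000000000000d0000800000000000000000000000000000000000) := T_24 (nat_lit 160) (nat_lit 143) (nat_lit 6) (nat_lit 7) (nat_lit 11) L11193 (by decide +kernel)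
theorem L11195 : W_24 (nat_lit 6) (nat_lit 0x8000000020001c000e00000001000080000000000000000000000000000000) (nat_lit 0x0) (nat_lit 0x8001d000000001800d0000800000000000000000000000000000000000) := T_24 (nat_lit 176) (nat_lit 175) (nat_lit 3) (nat_lit 5) (nat_lit 10) L11194 (by decide +kernel)
theorem L11196 : W_24 (nat_lit 7) (nat_lit 0x20001c000e00000001000080000000000000000000000000000000) (nat_lit 0x0) (nat_lit 0x8000c001d000000001800d0000800000000000000000000000000000000000) := T_24 (nat_lit 247) (nat_lit 230) (nat_lit 4) (nat_lit 9) (nat_lit 14) L11195 (by decide +kernel)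
theorem L11197 : W_24 (nat_lit 2) (nat_lit 0x70001c000f00010001000080000000000000000000000000000000) (nat_lit 0x0) (nat_lit 0x80000000000000000c0000000000000000000000000000000000000000) := D_24 (nat_lit 162) (nat_lit 163) (nat_lit 231) (nat_lit 2) (nat_lit 6) (nat_lit 10) (nat_lit 7) (nat_lit 9) (nat_lit 9) (by decide +kernel)
theorem L11198 : W_24 (nat_lit 3) (nat_lit 0x30001c000f00010001000080000000000000000000000000000000) (nat_lit 0x0) (nat_lit 0x8000c000000000000c0000000000000000000000000000000000000000) := T_24 (nat_lit 214) (nat_lit 215) (nat_lit 0) (nat_lit 11) (nat_lit 12) L11197 (by decide +kernel)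
theorem L11199 : W_24 (nat_lit 4) (nat_lit 0x30001c000e00010001000080000000000000000000000000000000) (nat_lit 0x0) (nat_lit 0x8000c000000001800c0000000000000000000000000000000000000000) := T_24 (nat_lit 176) (nat_lit 175) (nat_lit 3) (nat_lit 5) (nat_lit 10) L11198 (by decide +kernel)
theorem L11200 : W_24 (nat_lit 5) (nat_lit 0x20001c000e00010001000080000000000000000000000000000000) (nat_lit 0x0) (nat_lit 0xa000d000000001800c0000000000000000000000000000000000000000) := T_24 (nat_lit 212) (nat_lit 229) (nat_lit 4) (nat_lit 8) (nat_lit 13) L11199 (by decide +kernel)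
theorem L11201 : W_24 (nat_lit 6) (nat_lit 0x20001c000e00000001000080000000000000000000000000000000) (nat_lit 0x0) (nat_lit 0xa000d000000001800d0000800000000000000000000000000000000000) := T_24 (nat_lit 160) (nat_lit 143) (nat_lit 6) (nat_lit 7) (nat_lit 11) L11200 (by decide +kernel)
theorem L11202 : W_24 (nat_lit 9) (nat_lit 0x1c000e00000001000080000000000000000000000000000000) (nat_lit 0x0) (nat_lit 0x1c000f801f000000001800d0000800000000000000000000000000000000000) := Q_24 (nat_lit 213) (C_24 L11175 (C_24 L11178 (C_24 L11183 (C_24 L11190 (C_24 L11196 (C_24 L11201 N_24)))))) (by decide +kernel)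
theorem L11203 : W_24 (nat_lit 10) (nat_lit 0xc000e00000001000080000000000000000000000000000000) (nat_lit 0x0) (nat_lit 0x1c000f801f000700001800d0000800000000000000000000000000000000000) := Q_24 (nat_lit 196) (C_24 L11169 (C_24 L11171 (C_24 L11202 N_24))) (by decide +kernel)
theorem L11204 : W_24 (nat_lit 2) (nat_lit 0x200000000c001f00090001000080000000000000000000000000000000) (nat_lit 0x0) (nat_lit 0x100000c0000000000000000000000000000000000000000000) := D_24 (nat_lit 175) (nat_lit 174) (nat_lit 196) (nat_lit 3) (nat_lit 4) (nat_lit 10) (nat_lit 3) (nat_lit 5) (nat_lit 10) (by decide +kernel)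
theorem L11205 : W_24 (nat_lit 3) (nat_lit 0x200000000c001e00090001000080000000000000000000000000000000) (nat_lit 0x0) (nat_lit 0x100001c0040000000000000000000000000000000000000000) := T_24 (nat_lit 176) (nat_lit 162) (nat_lit 2) (nat_lit 6) (nat_lit 10) L11204 (by decide +kernel)
theorem L11206 : W_24 (nat_lit 4) (nat_lit 0x200000000c001e00010001000080000000000000000000000000000000) (nat_lit 0x0) (nat_lit 0x100001c01c0000000000000000000000000000000000000000) := T_24 (nat_lit 163) (nat_lit 164) (nat_lit 2) (nat_lit 7) (nat_lit 10) L11205 (by decide +kernel)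
theorem L11207 : W_24 (nat_lit 5) (nat_lit 0x200000000c000e00010001000080000000000000000000000000000000) (nat_lit 0x0) (nat_lit 0x100031c01c0000000000000000000000000000000000000000) := T_24 (nat_lit 180) (nat_lit 181) (nat_lit 1) (nat_lit 11) (nat_lit 10) L11206 (by decide +kernel)
theorem L11208 : W_24 (nat_lit 6) (nat_lit 0xc000e00010001000080000000000000000000000000000000) (nat_lit 0x0) (nat_lit 0x20001000100031c01c0000000000000000000000000000000000000000) := T_24 (nat_lit 229) (nat_lit 212) (nat_lit 4) (nat_lit 8) (nat_lit 13) L11207 (by decide +kernel)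
theorem L11209 : W_24 (nat_lit 7) (nat_lit 0xc000e00000001000080000000000000000000000000000000) (nat_lit 0x0) (nat_lit 0x20001000100031c01d0000800000000000000000000000000000000000) := T_24 (nat_lit 160) (nat_lit 143) (nat_lit 6) (nat_lit 7) (nat_lit 11) L11208 (by decide +kernel)
theorem L11210 : W_24 (nat_lit 2) (nat_lit 0x200040003c001e00090001000080000000000000000000000000000000) (nat_lit 0x0) (nat_lit 0x200000000000000004000200000000000000000000000000000000) := D_24 (nat_lit 146) (nat_lit 129) (nat_lit 213) (nat_lit 5) (nat_lit 10) (nat_lit 7) (nat_lit 5) (nat_lit 10) (nat_lit 8) (by decide +kernel)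
theorem L11211 : W_24 (nat_lit 3) (nat_lit 0x200040003c001e00010001000080000000000000000000000000000000) (nat_lit 0x0) (nat_lit 0x200000000000180004000200000000000000000000000000000000) := T_24 (nat_lit 163) (nat_lit 164) (nat_lit 2) (nat_lit 7) (nat_lit 10) L11210 (by decide +kernel)
theorem L11212 : W_24 (nat_lit 4) (nat_lit 0x200000003c001e00010001000080000000000000000000000000000000) (nat_lit 0x0) (nat_lit 0xe00000000000180004000200000000000000000000000000000000) := T_24 (nat_lit 214) (nat_lit 215) (nat_lit 3) (nat_lit 7) (nat_lit 11) L11211 (by decide +kernel)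
theorem L11213 : W_24 (nat_lit 5) (nat_lit 0x200000002c001e00010001000080000000000000000000000000000000) (nat_lit 0x0) (nat_lit 0xe00010000100180004000200000000000000000000000000000000) := T_24 (nat_lit 196) (nat_lit 176) (nat_lit 3) (nat_lit 6) (nat_lit 10) L11212 (by decide +kernel)
theorem L11214 : W_24 (nat_lit 6) (nat_lit 0x200000000c001e00010001000080000000000000000000000000000000) (nat_lit 0x0) (nat_lit 0xe00070000100180004000200000000000000000000000000000000) := T_24 (nat_lit 197) (nat_lit 198) (nat_lit 3) (nat_lit 7) (nat_lit 10) L11213 (by decide +kernel)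
theorem L11215 : W_24 (nat_lit 7) (nat_lit 0xc001e00010001000080000000000000000000000000000000) (nat_lit 0x0) (nat_lit 0x2000f00070000100180004000200000000000000000000000000000000) := T_24 (nat_lit 229) (nat_lit 212) (nat_lit 4) (nat_lit 8) (nat_lit 13) L11214 (by decide +kernel)
theorem L11216 : W_24 (nat_lit 8) (nat_lit 0xc001e00000001000080000000000000000000000000000000) (nat_lit 0x0) (nat_lit 0x2000f00070000100190004800200000000000000000000000000000000) := T_24 (nat_lit 160) (nat_lit 143) (nat_lit 6) (nat_lit 7) (nat_lit 11) L11215 (by decide +kernel)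
theorem L11217 : W_24 (nat_lit 9) (nat_lit 0xc000e00000001000080000000000000000000000000000000) (nat_lit 0x0) (nat_lit 0x2000f00070003100190004800200000000000000000000000000000000) := T_24 (nat_lit 180) (nat_lit 181) (nat_lit 1) (nat_lit 11) (nat_lit 10) L11216 (by decide +kernel)
theorem L11220 : W_24 (nat_lit 4) (nat_lit 0x200000002c001e00010001000080000000000000000000000000000000) (nat_lit 0x0) (nat_lit 0x100008000c00010000100040000000000000000000000000000000000000000) := T_24 (nat_lit 196) (nat_lit 176) (nat_lit 3) (nat_lit 6) (nat_lit 10) L11219 (by decide +kernel)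
theorem L11221 : W_24 (nat_lit 5) (nat_lit 0x200000000c001e00010001000080000000000000000000000000000000) (nat_lit 0x0) (nat_lit 0x100008000c00070000100040000000000000000000000000000000000000000) := T_24 (nat_lit 197) (nat_lit 198) (nat_lit 3) (nat_lit 7) (nat_lit 10) L11220 (by decide +kernel)
theorem L11222 : W_24 (nat_lit 6) (nat_lit 0xc001e00010001000080000000000000000000000000000000) (nat_lit 0x0) (nat_lit 0x10000a000d00070000100040000000000000000000000000000000000000000) := T_24 (nat_lit 229) (nat_lit 212) (nat_lit 4) (nat_lit 8) (nat_lit 13) L11221 (by decide +kernel)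
theorem L11223 : W_24 (nat_lit 7) (nat_lit 0xc001e00000001000080000000000000000000000000000000) (nat_lit 0x0) (nat_lit 0x10000a000d00070000100050000800000000000000000000000000000000000) := T_24 (nat_lit 160) (nat_lit 143) (nat_lit 6) (nat_lit 7) (nat_lit 11) L11222 (by decide +kernel)
theorem L11224 : W_24 (nat_lit 8) (nat_lit 0xc000e00000001000080000000000000000000000000000000) (nat_lit 0x0) (nat_lit 0x10000a000d00070003100050000800000000000000000000000000000000000) := T_24 (nat_lit 180) (nat_lit 181) (nat_lit 1) (nat_lit 11) (nat_lit 10) L11223 (by decide +kernel)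
theorem L11225 : W_24 (nat_lit 11) (nat_lit 0xc000600000001000080000000000000000000000000000000) (nat_lit 0x0) (nat_lit 0x1c001f801f000700039c01d0004e00740000000000000000000000000000000) := Q_24 (nat_lit 179) (C_24 L11126 (C_24 L11160 (C_24 L11168 (C_24 L11203 (C_24 L11209 (C_24 L11217 (C_24 L11224 N_24))))))) (by decide +kernel)
theorem L11226 : W_24 (nat_lit 12) (nat_lit 0xc000200000001000080000000000000000000000000000000) (nat_lit 0x0) (nat_lit 0x1c001f801f00070003dc01f0004e00740000000000000000000000000000000) := T_24 (nat_lit 178) (nat_lit 161) (nat_lit 5) (nat_lit 8) (nat_lit 7) L11225 (by decide +kernel)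
theorem L11230 : W_24 (nat_lit 5) (nat_lit 0x1c000200000001000080000000000000000000000000000000) (nat_lit 0x0) (nat_lit 0x8007700030001c0010000800000000000000000000000000000000000) := Q_24 (nat_lit 193) (C_24 L9290 (C_24 L7805 (C_24 L11229 (C_24 L9287 N_24)))) (by decide +kernel)
theorem L11231 : W_24 (nat_lit 12) (nat_lit 0xc000200000001000080000000000000000000000000000000) (nat_lit 0x0) (nat_lit 0xa000700039007c801f701f30079c00d0000800000000000000000000000000000000000) := Q_24 (nat_lit 196) (C_24 L10821 (C_24 L10814 (C_24 L10819 (C_24 L11230 N_24)))) (by decide +kernel)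
theorem L11241 : W_24 (nat_lit 11) (nat_lit 0xc000200000001000080000000000000000000000000000000) (nat_lit 0x0) (nat_lit 0x2801f700738075c0030000800000000000000000000000000000000000) := Q_24 (nat_lit 196) (C_24 L11230 (C_24 L11240 (C_24 L10821 (C_24 L10819 N_24)))) (by decide +kernel)
theorem L11242 : W_24 (nat_lit 3) (nat_lit 0x1e000300000001000080000000000000000000000000000000) (nat_lit 0x0) (nat_lit 0x800060000000000010000800000000000000000000000000000000000) := T_24 (nat_lit 160) (nat_lit 143) (nat_lit 6) (nat_lit 7) (nat_lit 11) L11227 (by decide +kernel)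
theorem L11243 : W_24 (nat_lit 4) (nat_lit 0xe000300000001000080000000000000000000000000000000) (nat_lit 0x0) (nat_lit 0x800060030000000010000800000000000000000000000000000000000) := T_24 (nat_lit 196) (nat_lit 197) (nat_lit 0) (nat_lit 10) (nat_lit 11) L11242 (by decide +kernel)
theorem L11248 : W_24 (nat_lit 2) (nat_lit 0x2e000700000001000080000000000000000000000000000000) (nat_lit 0x0) (nat_lit 0x1800800000000000000000000000000000000000000000000) := D_24 (nat_lit 192) (nat_lit 179) (nat_lit 191) (nat_lit 2) (nat_lit 5) (nat_lit 11) (nat_lit 2) (nat_lit 4) (nat_lit 11) (by decide +kernel)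
theorem L11249 : W_24 (nat_lit 3) (nat_lit 0x2e000300000001000080000000000000000000000000000000) (nat_lit 0x0) (nat_lit 0x1800c00020000000000000000000000000000000000000000) := T_24 (nat_lit 178) (nat_lit 161) (nat_lit 5) (nat_lit 8) (nat_lit 7) L11248 (by decide +kernel)
theorem L11250 : W_24 (nat_lit 4) (nat_lit 0xe000300000001000080000000000000000000000000000000) (nat_lit 0x0) (nat_lit 0x31800c00020000000000000000000000000000000000000000) := T_24 (nat_lit 197) (nat_lit 196) (nat_lit 0) (nat_lit 10) (nat_lit 11) L11249 (by decide +kernel)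
theorem L11251 : W_24 (nat_lit 6) (nat_lit 0xc000300000001000080000000000000000000000000000000) (nat_lit 0x0) (nat_lit 0x10000800060033800c00030000800000000000000000000000000000000000) := Q_24 (nat_lit 193) (C_24 L11243 (C_24 L11247 (C_24 L11250 (C_24 L8149 N_24)))) (by decide +kernel)
theorem L11252 : W_24 (nat_lit 9) (nat_lit 0xc000200000001000080000000000000000000000000000000) (nat_lit 0x0) (nat_lit 0x10000800060033800dc0036000a00010000000000000000000000000000000) := Q_24 (nat_lit 176) (C_24 L10838 (C_24 L10826 (C_24 L10833 (C_24 L11251 N_24)))) (by decide +kernel)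
theorem L11253 : W_24 (nat_lit 11) (nat_lit 0xc000200000001000080000000000000000000000000000000) (nat_lit 0x0) (nat_lit 0x2001f70073807d00070000800000000000000000000000000000000000) := Q_24 (nat_lit 196) (C_24 L11240 (C_24 L10819 (C_24 L5085 (C_24 L5194 (C_24 L9033 N_24))))) (by decide +kernel)
theorem L11254 : W_24 (nat_lit 17) (nat_lit 0x4000200000001000080000000000000000000000000000000) (nat_lit 0x0) (nat_lit 0xa00070803fc07fe03f7e1fbe07df81f700cf8077c03bc00080000000000000000000000) := Q_24 (nat_lit 195) (C_24 L9926 (C_24 L10721 (C_24 L10823 (C_24 L10846 (C_24 L11122 (C_24 L11226 (C_24 L11231 (C_24 L11241 (C_24 L11252 (C_24 L11253 N_24)))))))))) (by decide +kernel)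
theorem L11255 : W_24 (nat_lit 18) (nat_lit 0x200000001000080000000000000000000000000000000) (nat_lit 0x0) (nat_lit 0xff007f807ff07ff83ffe1fff0fdfc3f701cf8077c03bc00080000000000000000000000) := Q_24 (nat_lit 194) (C_24 L9938 (C_24 L10521 (C_24 L5483 (C_24 L10523 (C_24 L10586 (C_24 L11254 N_24)))))) (by decide +kernel)
theorem L62798 : W_24 (nat_lit 2) (nat_lit 0x2800140012000b8000000000000000000000000000000) (nat_lit 0x0) (nat_lit 0x1000000000000100040000000000000000000000000000000) := D_24 (nat_lit 140) (nat_lit 126) (nat_lit 192) (nat_lit 1) (nat_lit 8) (nat_lit 7) (nat_lit 4) (nat_lit 5) (nat_lit 11) (by decide +kernel)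
theorem L62799 : W_24 (nat_lit 3) (nat_lit 0x280014001200098000000000000000000000000000000) (nat_lit 0x0) (nat_lit 0x1000000000000100060001000000000000000000000000000) := T_24 (nat_lit 125) (nat_lit 108) (nat_lit 6) (nat_lit 5) (nat_lit 10) L62798 (by decide +kernel)
theorem L62800 : W_24 (nat_lit 4) (nat_lit 0x280014001200090000000000000000000000000000000) (nat_lit 0x0) (nat_lit 0x1000000000000100068001400000000000000000000000000) := T_24 (nat_lit 123) (nat_lit 106) (nat_lit 4) (nat_lit 5) (nat_lit 10) L62799 (by decide +kernel)
theorem L62801 : W_24 (nat_lit 4) (nat_lit 0x2800140012000b0000000000000000000000000000000) (nat_lit 0x0) (nat_lit 0x2000100008000000008000c00020000000000000000000000) := T_24 (nat_lit 176) (nat_lit 193) (nat_lit 7) (nat_lit 5) (nat_lit 7) L54743 (by decide +kernel)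
theorem L62802 : W_24 (nat_lit 5) (nat_lit 0x280014001200090000000000000000000000000000000) (nat_lit 0x0) (nat_lit 0x2000100008000000028001c00020000000000000000000000) := T_24 (nat_lit 125) (nat_lit 108) (nat_lit 6) (nat_lit 5) (nat_lit 10) L62801 (by decide +kernel)
theorem L62803 : W_24 (nat_lit 2) (nat_lit 0x380014001200090000800000000000000000000000000) (nat_lit 0x0) (nat_lit 0x8000400020000000000000000000000) := D_24 (nat_lit 106) (nat_lit 123) (nat_lit 89) (nat_lit 4) (nat_lit 5) (nat_lit 10) (nat_lit 4) (nat_lit 5) (nat_lit 9) (by decide +kernel)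
theorem L62804 : W_24 (nat_lit 3) (nat_lit 0x380014001200090000000000000000000000000000000) (nat_lit 0x0) (nat_lit 0x8000000008000c00020000000000000000000000) := T_24 (nat_lit 107) (nat_lit 159) (nat_lit 7) (nat_lit 5) (nat_lit 6) L62803 (by decide +kernel)
theorem L62805 : W_24 (nat_lit 4) (nat_lit 0x280014001200090000000000000000000000000000000) (nat_lit 0x0) (nat_lit 0x2000100008000000008000c00020000000000000000000000) := T_24 (nat_lit 176) (nat_lit 193) (nat_lit 7) (nat_lit 5) (nat_lit 7) L62804 (by decide +kernel)
theorem L62806 : W_24 (nat_lit 2) (nat_lit 0x2800140012000f0000000000000000000000000000000) (nat_lit 0x0) (nat_lit 0x1000000000000400100000000000000000000000000000000) := D_24 (nat_lit 142) (nat_lit 192) (nat_lit 128) (nat_lit 6) (nat_lit 5) (nat_lit 11) (nat_lit 1) (nat_lit 9) (nat_lit 7) (by decide +kernel)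
theorem L62807 : W_24 (nat_lit 3) (nat_lit 0x2800140012000b0000000000000000000000000000000) (nat_lit 0x0) (nat_lit 0x1000000000000500140000000000000000000000000000000) := T_24 (nat_lit 126) (nat_lit 140) (nat_lit 1) (nat_lit 8) (nat_lit 7) L62806 (by decide +kernel)
theorem L62808 : W_24 (nat_lit 4) (nat_lit 0x280014001200090000000000000000000000000000000) (nat_lit 0x0) (nat_lit 0x1000000000000500160001000000000000000000000000000) := T_24 (nat_lit 125) (nat_lit 108) (nat_lit 6) (nat_lit 5) (nat_lit 10) L62807 (by decide +kernel)
theorem L62809 : W_24 (nat_lit 6) (nat_lit 0x280014001200080000000000000000000000000000000) (nat_lit 0x0) (nat_lit 0x3000100008000500178001c00020000000000000000000000) := Q_24 (nat_lit 124) (C_24 L62800 (C_24 L62802 (C_24 L62805 (C_24 L62808 N_24)))) (by decide +kernel)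
theorem L62810 : W_24 (nat_lit 2) (nat_lit 0x38002800340013000a0000000000000000000000000000000) (nat_lit 0x0) (nat_lit 0x40000000000010001000000000000000000000000000) := D_24 (nat_lit 124) (nat_lit 174) (nat_lit 108) (nat_lit 5) (nat_lit 5) (nat_lit 7) (nat_lit 6) (nat_lit 5) (nat_lit 10) (by decide +kernel)
theorem L62811 : W_24 (nat_lit 3) (nat_lit 0x30002800340013000a0000000000000000000000000000000) (nat_lit 0x0) (nat_lit 0x10000800040000000000010001000000000000000000000000000) := T_24 (nat_lit 191) (nat_lit 208) (nat_lit 5) (nat_lit 5) (nat_lit 8) L62810 (by decide +kernel)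
theorem L62812 : W_24 (nat_lit 4) (nat_lit 0x3000280034001300080000000000000000000000000000000) (nat_lit 0x0) (nat_lit 0x10000800040000000400030001000000000000000000000000000) := T_24 (nat_lit 125) (nat_lit 142) (nat_lit 6) (nat_lit 5) (nat_lit 11) L62811 (by decide +kernel)
theorem L62813 : W_24 (nat_lit 5) (nat_lit 0x1000280034001300080000000000000000000000000000000) (nat_lit 0x0) (nat_lit 0x50002800040000000400030001000000000000000000000000000) := T_24 (nat_lit 193) (nat_lit 210) (nat_lit 7) (nat_lit 5) (nat_lit 8) L62812 (by decide +kernel)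
theorem L62814 : W_24 (nat_lit 6) (nat_lit 0x1000280014001300080000000000000000000000000000000) (nat_lit 0x0) (nat_lit 0x50002800040028000400030001000000000000000000000000000) := T_24 (nat_lit 161) (nat_lit 159) (nat_lit 0) (nat_lit 8) (nat_lit 9) L62813 (by decide +kernel)
theorem L62815 : W_24 (nat_lit 7) (nat_lit 0x1000280014001200080000000000000000000000000000000) (nat_lit 0x0) (nat_lit 0x50002800040028000500038001000000000000000000000000000) := T_24 (nat_lit 140) (nat_lit 123) (nat_lit 4) (nat_lit 5) (nat_lit 11) L62814 (by decide +kernel)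
theorem L62819 : W_24 (nat_lit 2) (nat_lit 0x3000280034001300090000000000000000000000000000000) (nat_lit 0x0) (nat_lit 0x400020001000000000000000000000000000) := D_24 (nat_lit 125) (nat_lit 108) (nat_lit 142) (nat_lit 6) (nat_lit 5) (nat_lit 10) (nat_lit 6) (nat_lit 5) (nat_lit 11) (by decide +kernel)
theorem L62820 : W_24 (nat_lit 3) (nat_lit 0x3000280034001300080000000000000000000000000000000) (nat_lit 0x0) (nat_lit 0x100000000400030001000000000000000000000000000) := T_24 (nat_lit 124) (nat_lit 176) (nat_lit 7) (nat_lit 5) (nat_lit 7) L62819 (by decide +kernel)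
theorem L62821 : W_24 (nat_lit 4) (nat_lit 0x1000280034001300080000000000000000000000000000000) (nat_lit 0x0) (nat_lit 0x40002000100000000400030001000000000000000000000000000) := T_24 (nat_lit 193) (nat_lit 210) (nat_lit 7) (nat_lit 5) (nat_lit 8) L62820 (by decide +kernel)
theorem L62822 : W_24 (nat_lit 5) (nat_lit 0x1000280014001300080000000000000000000000000000000) (nat_lit 0x0) (nat_lit 0x40002000100028000400030001000000000000000000000000000) := T_24 (nat_lit 161) (nat_lit 159) (nat_lit 0) (nat_lit 8) (nat_lit 9) L62821 (by decide +kernel)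
theorem L62823 : W_24 (nat_lit 6) (nat_lit 0x1000280014001200080000000000000000000000000000000) (nat_lit 0x0) (nat_lit 0x40002000100028000500038001000000000000000000000000000) := T_24 (nat_lit 140) (nat_lit 123) (nat_lit 4) (nat_lit 5) (nat_lit 11) L62822 (by decide +kernel)
theorem L62824 : W_24 (nat_lit 2) (nat_lit 0x160009a00680034001700180000000000000000000000000000000) (nat_lit 0x0) (nat_lit 0x4000200010000000000000000000000000000000000000000000000000) := D_24 (nat_lit 213) (nat_lit 196) (nat_lit 230) (nat_lit 7) (nat_lit 8) (nat_lit 8) (nat_lit 7) (nat_lit 8) (nat_lit 9) (by decide +kernel)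
theorem L62825 : W_24 (nat_lit 3) (nat_lit 0x160001a00680034001700180000000000000000000000000000000) (nat_lit 0x0) (nat_lit 0x6000200018000000000000000000000000000000000000000000000000) := T_24 (nat_lit 195) (nat_lit 229) (nat_lit 4) (nat_lit 8) (nat_lit 13) L62824 (by decide +kernel)
theorem L62826 : W_24 (nat_lit 4) (nat_lit 0x160001a00680034001300180000000000000000000000000000000) (nat_lit 0x0) (nat_lit 0x6000200018000000000000400020000000000000000000000000000000) := T_24 (nat_lit 142) (nat_lit 125) (nat_lit 6) (nat_lit 5) (nat_lit 11) L62825 (by decide +kernel)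
theorem L62827 : W_24 (nat_lit 5) (nat_lit 0x60001a00680034001300180000000000000000000000000000000) (nat_lit 0x0) (nat_lit 0x6000380018000000000000400020000000000000000000000000000000) := T_24 (nat_lit 212) (nat_lit 211) (nat_lit 0) (nat_lit 8) (nat_lit 12) L62826 (by decide +kernel)
theorem L62828 : W_24 (nat_lit 6) (nat_lit 0x60001800680034001300180000000000000000000000000000000) (nat_lit 0x0) (nat_lit 0x6000380018600000000000400020000000000000000000000000000000) := T_24 (nat_lit 189) (nat_lit 190) (nat_lit 3) (nat_lit 2) (nat_lit 11) L62827 (by decide +kernel)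
theorem L62829 : W_24 (nat_lit 7) (nat_lit 0x40001800680034001300180000000000000000000000000000000) (nat_lit 0x0) (nat_lit 0x68003a0018600000000000400020000000000000000000000000000000) := T_24 (nat_lit 209) (nat_lit 227) (nat_lit 7) (nat_lit 5) (nat_lit 9) L62828 (by decide +kernel)
theorem L62830 : W_24 (nat_lit 8) (nat_lit 0x40001800680034001300080000000000000000000000000000000) (nat_lit 0x0) (nat_lit 0x68003a0018600000000000400120008000000000000000000000000000) := T_24 (nat_lit 128) (nat_lit 111) (nat_lit 6) (nat_lit 8) (nat_lit 10) L62829 (by decide +kernel)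
theorem L62831 : W_24 (nat_lit 9) (nat_lit 0x1800680034001300080000000000000000000000000000000) (nat_lit 0x0) (nat_lit 0x68003e001a600000000000400120008000000000000000000000000000) := T_24 (nat_lit 210) (nat_lit 193) (nat_lit 7) (nat_lit 5) (nat_lit 8) L62830 (by decide +kernel)
theorem L62832 : W_24 (nat_lit 10) (nat_lit 0x1800680014001300080000000000000000000000000000000) (nat_lit 0x0) (nat_lit 0x68003e001a600000028000400120008000000000000000000000000000) := T_24 (nat_lit 161) (nat_lit 159) (nat_lit 0) (nat_lit 8) (nat_lit 9) L62831 (by decide +kernel)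
theorem L62833 : W_24 (nat_lit 11) (nat_lit 0x1800680014001200080000000000000000000000000000000) (nat_lit 0x0) (nat_lit 0x68003e001a600000028000500128008000000000000000000000000000) := T_24 (nat_lit 140) (nat_lit 123) (nat_lit 4) (nat_lit 5) (nat_lit 11) L62832 (by decide +kernel)
theorem L62834 : W_24 (nat_lit 12) (nat_lit 0x1800280014001200080000000000000000000000000000000) (nat_lit 0x0) (nat_lit 0x68003e001a600500028000500128008000000000000000000000000000) := T_24 (nat_lit 178) (nat_lit 176) (nat_lit 1) (nat_lit 8) (nat_lit 10) L62833 (by decide +kernel)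
theorem L62835 : W_24 (nat_lit 13) (nat_lit 0x1000280014001200080000000000000000000000000000000) (nat_lit 0x0) (nat_lit 0x68003f001ae00500028000500128008000000000000000000000000000) := T_24 (nat_lit 191) (nat_lit 208) (nat_lit 5) (nat_lit 5) (nat_lit 8) L62834 (by decide +kernel)
theorem L62836 : W_24 (nat_lit 2) (nat_lit 0x1800280014001600090000000000000000000000000000000) (nat_lit 0x0) (nat_lit 0x40002000100000000000000000000000000000000000000000000) := D_24 (nat_lit 193) (nat_lit 210) (nat_lit 176) (nat_lit 7) (nat_lit 5) (nat_lit 8) (nat_lit 7) (nat_lit 5) (nat_lit 7) (by decide +kernel)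
theorem L62837 : W_24 (nat_lit 3) (nat_lit 0x1800280014001600080000000000000000000000000000000) (nat_lit 0x0) (nat_lit 0x40002000140000000000010000000000000000000000000000000) := T_24 (nat_lit 124) (nat_lit 174) (nat_lit 5) (nat_lit 5) (nat_lit 7) L62836 (by decide +kernel)
theorem L62838 : W_24 (nat_lit 4) (nat_lit 0x1000280014001600080000000000000000000000000000000) (nat_lit 0x0) (nat_lit 0x50002800140000000000010000000000000000000000000000000) := T_24 (nat_lit 191) (nat_lit 208) (nat_lit 5) (nat_lit 5) (nat_lit 8) L62837 (by decide +kernel)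
theorem L62839 : W_24 (nat_lit 5) (nat_lit 0x1000280014001200080000000000000000000000000000000) (nat_lit 0x0) (nat_lit 0x50002800140000000400030000000000000000000000000000000) := T_24 (nat_lit 142) (nat_lit 125) (nat_lit 6) (nat_lit 5) (nat_lit 11) L62838 (by decide +kernel)
theorem L62840 : W_24 (nat_lit 14) (nat_lit 0x280014001200080000000000000000000000000000000) (nat_lit 0x0) (nat_lit 0x68003f001be00540028000500138009400000000000000000000000000) := Q_24 (nat_lit 192) (C_24 L62815 (C_24 L62818 (C_24 L62823 (C_24 L62835 (C_24 L62839 N_24))))) (by decide +kernel)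
theorem L62841 : W_24 (nat_lit 2) (nat_lit 0x30002800340013000a0000000000000000000000000000000) (nat_lit 0x0) (nat_lit 0x50001000000000000000000000000000) := D_24 (nat_lit 124) (nat_lit 108) (nat_lit 126) (nat_lit 6) (nat_lit 5) (nat_lit 10) (nat_lit 1) (nat_lit 8) (nat_lit 7) (by decide +kernel)
theorem L62842 : W_24 (nat_lit 3) (nat_lit 0x3000280034001300080000000000000000000000000000000) (nat_lit 0x0) (nat_lit 0x400070001000000000000000000000000000) := T_24 (nat_lit 125) (nat_lit 142) (nat_lit 6) (nat_lit 5) (nat_lit 11) L62841 (by decide +kernel)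
theorem L62843 : W_24 (nat_lit 4) (nat_lit 0x1000280034001300080000000000000000000000000000000) (nat_lit 0x0) (nat_lit 0x40002000000000000400070001000000000000000000000000000) := T_24 (nat_lit 193) (nat_lit 210) (nat_lit 7) (nat_lit 5) (nat_lit 8) L62842 (by decide +kernel)
theorem L62844 : W_24 (nat_lit 5) (nat_lit 0x1000280014001300080000000000000000000000000000000) (nat_lit 0x0) (nat_lit 0x40002000000028000400070001000000000000000000000000000) := T_24 (nat_lit 161) (nat_lit 159) (nat_lit 0) (nat_lit 8) (nat_lit 9) L62843 (by decide +kernel)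
theorem L62845 : W_24 (nat_lit 6) (nat_lit 0x1000280014001200080000000000000000000000000000000) (nat_lit 0x0) (nat_lit 0x40002000000028000500078001000000000000000000000000000) := T_24 (nat_lit 140) (nat_lit 123) (nat_lit 4) (nat_lit 5) (nat_lit 11) L62844 (by decide +kernel)
theorem L62846 : W_24 (nat_lit 2) (nat_lit 0x180028001c001300080000000000000000000000000000000) (nat_lit 0x0) (nat_lit 0x20000000000000000400020000000000000000000000000000000) := D_24 (nat_lit 142) (nat_lit 125) (nat_lit 209) (nat_lit 6) (nat_lit 5) (nat_lit 11) (nat_lit 6) (nat_lit 5) (nat_lit 12) (by decide +kernel)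
theorem L62847 : W_24 (nat_lit 3) (nat_lit 0x1800280014001300080000000000000000000000000000000) (nat_lit 0x0) (nat_lit 0x20000000000028000400020000000000000000000000000000000) := T_24 (nat_lit 159) (nat_lit 161) (nat_lit 0) (nat_lit 8) (nat_lit 9) L62846 (by decide +kernel)
theorem L62848 : W_24 (nat_lit 4) (nat_lit 0x1800280014001200080000000000000000000000000000000) (nat_lit 0x0) (nat_lit 0x20000000000028000500028000000000000000000000000000000) := T_24 (nat_lit 140) (nat_lit 123) (nat_lit 4) (nat_lit 5) (nat_lit 11) L62847 (by decide +kernel)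
theorem L62849 : W_24 (nat_lit 5) (nat_lit 0x1000280014001200080000000000000000000000000000000) (nat_lit 0x0) (nat_lit 0x30000800000028000500028000000000000000000000000000000) := T_24 (nat_lit 191) (nat_lit 208) (nat_lit 5) (nat_lit 5) (nat_lit 8) L62848 (by decide +kernel)
theorem L62850 : W_24 (nat_lit 2) (nat_lit 0x3800280014001200090000000000000000000000000000000) (nat_lit 0x0) (nat_lit 0x400020001000000000000000000000000000) := D_24 (nat_lit 125) (nat_lit 142) (nat_lit 108) (nat_lit 6) (nat_lit 5) (nat_lit 11) (nat_lit 6) (nat_lit 5) (nat_lit 10) (by decide +kernel)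
theorem L62851 : W_24 (nat_lit 3) (nat_lit 0x3800280014001200080000000000000000000000000000000) (nat_lit 0x0) (nat_lit 0x40000000400030001000000000000000000000000000) := T_24 (nat_lit 124) (nat_lit 174) (nat_lit 5) (nat_lit 5) (nat_lit 7) L62850 (by decide +kernel)
theorem L62852 : W_24 (nat_lit 4) (nat_lit 0x3000280014001200080000000000000000000000000000000) (nat_lit 0x0) (nat_lit 0x10000800040000000400030001000000000000000000000000000) := T_24 (nat_lit 191) (nat_lit 208) (nat_lit 5) (nat_lit 5) (nat_lit 8) L62851 (by decide +kernel)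
theorem L62853 : W_24 (nat_lit 5) (nat_lit 0x1000280014001200080000000000000000000000000000000) (nat_lit 0x0) (nat_lit 0x50002800040000000400030001000000000000000000000000000) := T_24 (nat_lit 193) (nat_lit 210) (nat_lit 7) (nat_lit 5) (nat_lit 8) L62852 (by decide +kernel)
theorem L62854 : W_24 (nat_lit 7) (nat_lit 0x280014001200080000000000000000000000000000000) (nat_lit 0x0) (nat_lit 0x70003800040028000500078001400000000000000000000000000) := Q_24 (nat_lit 192) (C_24 L62818 (C_24 L62845 (C_24 L62849 (C_24 L62853 N_24)))) (by decide +kernel)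
theorem L62855 : W_24 (nat_lit 2) (nat_lit 0x3c0014001200080000000000000000000000000000000) (nat_lit 0x0) (nat_lit 0xc00000000000000010000000000000000000000000000000) := D_24 (nat_lit 191) (nat_lit 124) (nat_lit 190) (nat_lit 5) (nat_lit 5) (nat_lit 7) (nat_lit 1) (nat_lit 7) (nat_lit 10) (by decide +kernel)
theorem L62856 : W_24 (nat_lit 3) (nat_lit 0x380014001200080000000000000000000000000000000) (nat_lit 0x0) (nat_lit 0xc00040020000000010000000000000000000000000000000) := T_24 (nat_lit 174) (nat_lit 161) (nat_lit 2) (nat_lit 4) (nat_lit 10) L62855 (by decide +kernel)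
theorem L62857 : W_24 (nat_lit 4) (nat_lit 0x380014001200080000000000000000000000000000000) (nat_lit 0x0) (nat_lit 0x2000000008000000018000c00020000000000000000000000) := T_24 (nat_lit 124) (nat_lit 193) (nat_lit 7) (nat_lit 5) (nat_lit 7) L62804 (by decide +kernel)
theorem L62860 : W_24 (nat_lit 4) (nat_lit 0x380014001200080000000000000000000000000000000) (nat_lit 0x0) (nat_lit 0xe00060028000000000000000000000000000000000000000) := T_24 (nat_lit 174) (nat_lit 161) (nat_lit 2) (nat_lit 4) (nat_lit 10) L62859 (by decide +kernel)
theorem L62861 : W_24 (nat_lit 5) (nat_lit 0x280014001200080000000000000000000000000000000) (nat_lit 0x0) (nat_lit 0x2e00160028000000018000c00020000000000000000000000) := Q_24 (nat_lit 176) (C_24 L62856 (C_24 L62857 (C_24 L62860 N_24))) (by decide +kernel)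
theorem L62862 : W_24 (nat_lit 2) (nat_lit 0x380014001200098000000000000000000000000000000) (nat_lit 0x0) (nat_lit 0x800040020000000000000000000000000000000000000000) := D_24 (nat_lit 174) (nat_lit 161) (nat_lit 191) (nat_lit 2) (nat_lit 4) (nat_lit 10) (nat_lit 5) (nat_lit 5) (nat_lit 7) (by decide +kernel)
theorem L62863 : W_24 (nat_lit 3) (nat_lit 0x280014001200098000000000000000000000000000000) (nat_lit 0x0) (nat_lit 0x2800140020000000000000000000000000000000000000000) := T_24 (nat_lit 176) (nat_lit 193) (nat_lit 7) (nat_lit 5) (nat_lit 7) L62862 (by decide +kernel)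
theorem L62864 : W_24 (nat_lit 4) (nat_lit 0x280014001200090000000000000000000000000000000) (nat_lit 0x0) (nat_lit 0x2800140020000000008000400000000000000000000000000) := T_24 (nat_lit 123) (nat_lit 106) (nat_lit 4) (nat_lit 5) (nat_lit 10) L62863 (by decide +kernel)
theorem L62865 : W_24 (nat_lit 5) (nat_lit 0x280014001200080000000000000000000000000000000) (nat_lit 0x0) (nat_lit 0x3800140020000500178001400000000000000000000000000) := Q_24 (nat_lit 124) (C_24 L62808 (C_24 L62864 N_24)) (by decide +kernel)
theorem L62866 : W_24 (nat_lit 2) (nat_lit 0x2c00340012000b8000000000000000000000000000000) (nat_lit 0x0) (nat_lit 0x1000000000000100040000000000000000000000000000000) := D_24 (nat_lit 140) (nat_lit 126) (nat_lit 192) (nat_lit 1) (nat_lit 8) (nat_lit 7) (nat_lit 4) (nat_lit 5) (nat_lit 11) (by decide +kernel)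
theorem L62867 : W_24 (nat_lit 3) (nat_lit 0x2c0034001200098000000000000000000000000000000) (nat_lit 0x0) (nat_lit 0x1000000000000100060001000000000000000000000000000) := T_24 (nat_lit 125) (nat_lit 108) (nat_lit 6) (nat_lit 5) (nat_lit 10) L62866 (by decide +kernel)
theorem L62868 : W_24 (nat_lit 4) (nat_lit 0x2c0034001200090000000000000000000000000000000) (nat_lit 0x0) (nat_lit 0x1000000000000100068001400000000000000000000000000) := T_24 (nat_lit 123) (nat_lit 106) (nat_lit 4) (nat_lit 5) (nat_lit 10) L62867 (by decide +kernel)
theorem L62869 : W_24 (nat_lit 5) (nat_lit 0x2c0034001200080000000000000000000000000000000) (nat_lit 0x0) (nat_lit 0x1800000000000100078001400000000000000000000000000) := T_24 (nat_lit 124) (nat_lit 191) (nat_lit 5) (nat_lit 5) (nat_lit 7) L62868 (by decide +kernel)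
theorem L62870 : W_24 (nat_lit 6) (nat_lit 0x280034001200080000000000000000000000000000000) (nat_lit 0x0) (nat_lit 0x1800140000000100078001400000000000000000000000000) := T_24 (nat_lit 174) (nat_lit 176) (nat_lit 2) (nat_lit 4) (nat_lit 10) L62869 (by decide +kernel)
theorem L62871 : W_24 (nat_lit 2) (nat_lit 0x28003c001200080000000000000000000000000000000) (nat_lit 0x0) (nat_lit 0x100040000400000000000000000000000000000000000) := D_24 (nat_lit 162) (nat_lit 142) (nat_lit 176) (nat_lit 0) (nat_lit 9) (nat_lit 9) (nat_lit 1) (nat_lit 9) (nat_lit 9) (by decide +kernel)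
theorem L62872 : W_24 (nat_lit 3) (nat_lit 0x280034001200080000000000000000000000000000000) (nat_lit 0x0) (nat_lit 0x100048000500000000000000000000000000000000000) := T_24 (nat_lit 159) (nat_lit 140) (nat_lit 0) (nat_lit 8) (nat_lit 9) L62871 (by decide +kernel)
theorem L62873 : W_24 (nat_lit 7) (nat_lit 0x280014001200080000000000000000000000000000000) (nat_lit 0x0) (nat_lit 0x1800140068000500078001400000000000000000000000000) := Q_24 (nat_lit 161) (C_24 L51408 (C_24 L62870 (C_24 L62872 (C_24 L51404 N_24)))) (by decide +kernel)
theorem L62874 : W_24 (nat_lit 2) (nat_lit 0x3000280014001700080000000000000000000000000000000) (nat_lit 0x0) (nat_lit 0x20000000000008000080000000000000000000000000000000000) := D_24 (nat_lit 159) (nat_lit 139) (nat_lit 209) (nat_lit 3) (nat_lit 3) (nat_lit 8) (nat_lit 6) (nat_lit 5) (nat_lit 12) (by decide +kernel)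
theorem L62875 : W_24 (nat_lit 3) (nat_lit 0x3000280014001300080000000000000000000000000000000) (nat_lit 0x0) (nat_lit 0x20000000000008000480020000000000000000000000000000000) := T_24 (nat_lit 142) (nat_lit 125) (nat_lit 6) (nat_lit 5) (nat_lit 11) L62874 (by decide +kernel)
theorem L62876 : W_24 (nat_lit 4) (nat_lit 0x1000280014001300080000000000000000000000000000000) (nat_lit 0x0) (nat_lit 0x60002000000008000480020000000000000000000000000000000) := T_24 (nat_lit 193) (nat_lit 210) (nat_lit 7) (nat_lit 5) (nat_lit 8) L62875 (by decide +kernel)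
theorem L62877 : W_24 (nat_lit 5) (nat_lit 0x1000280014001200080000000000000000000000000000000) (nat_lit 0x0) (nat_lit 0x60002000000008000580028000000000000000000000000000000) := T_24 (nat_lit 140) (nat_lit 123) (nat_lit 4) (nat_lit 5) (nat_lit 11) L62876 (by decide +kernel)
theorem L62878 : W_24 (nat_lit 2) (nat_lit 0x3000380034001300080000000000000000000000000000000) (nat_lit 0x0) (nat_lit 0x10000800400000000000000000000000000000000000000000000) := D_24 (nat_lit 191) (nat_lit 208) (nat_lit 178) (nat_lit 5) (nat_lit 5) (nat_lit 8) (nat_lit 1) (nat_lit 8) (nat_lit 10) (by decide +kernel)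
theorem L62879 : W_24 (nat_lit 3) (nat_lit 0x3000280034001300080000000000000000000000000000000) (nat_lit 0x0) (nat_lit 0x10000800540000000000000000000000000000000000000000000) := T_24 (nat_lit 176) (nat_lit 174) (nat_lit 2) (nat_lit 4) (nat_lit 10) L62878 (by decide +kernel)
theorem L62880 : W_24 (nat_lit 4) (nat_lit 0x1000280034001300080000000000000000000000000000000) (nat_lit 0x0) (nat_lit 0x50002800540000000000000000000000000000000000000000000) := T_24 (nat_lit 193) (nat_lit 210) (nat_lit 7) (nat_lit 5) (nat_lit 8) L62879 (by decide +kernel)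
theorem L62881 : W_24 (nat_lit 5) (nat_lit 0x1000280014001300080000000000000000000000000000000) (nat_lit 0x0) (nat_lit 0x50002800540028000000000000000000000000000000000000000) := T_24 (nat_lit 161) (nat_lit 159) (nat_lit 0) (nat_lit 8) (nat_lit 9) L62880 (by decide +kernel)
theorem L62882 : W_24 (nat_lit 6) (nat_lit 0x1000280014001200080000000000000000000000000000000) (nat_lit 0x0) (nat_lit 0x50002800540028000100008000000000000000000000000000000) := T_24 (nat_lit 140) (nat_lit 123) (nat_lit 4) (nat_lit 5) (nat_lit 11) L62881 (by decide +kernel)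
theorem L62883 : W_24 (nat_lit 2) (nat_lit 0x1800380014001200080000000000000000000000000000000) (nat_lit 0x0) (nat_lit 0x40002400000000000000000000000000000000000000000000000) := D_24 (nat_lit 193) (nat_lit 210) (nat_lit 190) (nat_lit 7) (nat_lit 5) (nat_lit 8) (nat_lit 2) (nat_lit 3) (nat_lit 11) (by decide +kernel)
theorem L62884 : W_24 (nat_lit 3) (nat_lit 0x1800280014001200080000000000000000000000000000000) (nat_lit 0x0) (nat_lit 0x40002400500000000000000000000000000000000000000000000) := T_24 (nat_lit 176) (nat_lit 178) (nat_lit 1) (nat_lit 8) (nat_lit 10) L62883 (by decide +kernel)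
theorem L62885 : W_24 (nat_lit 4) (nat_lit 0x1000280014001200080000000000000000000000000000000) (nat_lit 0x0) (nat_lit 0x50002c00500000000000000000000000000000000000000000000) := T_24 (nat_lit 191) (nat_lit 208) (nat_lit 5) (nat_lit 5) (nat_lit 8) L62884 (by decide +kernel)
theorem L62886 : W_24 (nat_lit 7) (nat_lit 0x280014001200080000000000000000000000000000000) (nat_lit 0x0) (nat_lit 0x70003c00540028000580028000000000000000000000000000000) := Q_24 (nat_lit 192) (C_24 L62849 (C_24 L62877 (C_24 L62882 (C_24 L62885 N_24)))) (by decide +kernel)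
theorem L62889 : W_24 (nat_lit 4) (nat_lit 0x380014001200080000000000000000000000000000000) (nat_lit 0x0) (nat_lit 0x2000000008000000030001800080000000000000000000000) := T_24 (nat_lit 124) (nat_lit 193) (nat_lit 7) (nat_lit 5) (nat_lit 7) L62888 (by decide +kernel)
theorem L62890 : W_24 (nat_lit 5) (nat_lit 0x280014001200080000000000000000000000000000000) (nat_lit 0x0) (nat_lit 0x2e00160028000000030001800080000000000000000000000) := Q_24 (nat_lit 176) (C_24 L62860 (C_24 L62889 (C_24 L62856 N_24))) (by decide +kernel)
theorem L62891 : W_24 (nat_lit 15) (nat_lit 0x200014001200080000000000000000000000000000000) (nat_lit 0x0) (nat_lit 0x68003f001be005e0068000580178009c000a0000000000000000000000) := Q_24 (nat_lit 175) (C_24 L62809 (C_24 L62840 (C_24 L62854 (C_24 L62861 (C_24 L62865 (C_24 L62873 (C_24 L62886 (C_24 L62890 N_24)))))))) (by decide +kernel)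
theorem L62892 : W_24 (nat_lit 2) (nat_lit 0x24001e001300080000000000000000000000000000000) (nat_lit 0x0) (nat_lit 0x10000800000000000000010000000000000000000000000000000) := D_24 (nat_lit 191) (nat_lit 208) (nat_lit 124) (nat_lit 6) (nat_lit 4) (nat_lit 12) (nat_lit 6) (nat_lit 4) (nat_lit 11) (by decide +kernel)
theorem L62893 : W_24 (nat_lit 3) (nat_lit 0x24001e001200080000000000000000000000000000000) (nat_lit 0x0) (nat_lit 0x10000800000000000180010000000000000000000000000000000) := T_24 (nat_lit 140) (nat_lit 139) (nat_lit 0) (nat_lit 7) (nat_lit 9) L62892 (by decide +kernel)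
theorem L62894 : W_24 (nat_lit 4) (nat_lit 0x20001e001200080000000000000000000000000000000) (nat_lit 0x0) (nat_lit 0x10000800060000000180010000000000000000000000000000000) := T_24 (nat_lit 174) (nat_lit 173) (nat_lit 1) (nat_lit 7) (nat_lit 9) L62893 (by decide +kernel)
theorem L62895 : W_24 (nat_lit 2) (nat_lit 0x780014001200098000000000000000000000000000000) (nat_lit 0x0) (nat_lit 0x1800000000000100000000000000000000000000000000000) := D_24 (nat_lit 192) (nat_lit 140) (nat_lit 191) (nat_lit 4) (nat_lit 5) (nat_lit 11) (nat_lit 1) (nat_lit 8) (nat_lit 10) (by decide +kernel)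
theorem L62896 : W_24 (nat_lit 3) (nat_lit 0x380014001200098000000000000000000000000000000) (nat_lit 0x0) (nat_lit 0x1800400002000100000000000000000000000000000000000) := T_24 (nat_lit 178) (nat_lit 157) (nat_lit 0) (nat_lit 8) (nat_lit 10) L62895 (by decide +kernel)
theorem L62897 : W_24 (nat_lit 4) (nat_lit 0x280014001200098000000000000000000000000000000) (nat_lit 0x0) (nat_lit 0x3800500002000100000000000000000000000000000000000) := T_24 (nat_lit 176) (nat_lit 193) (nat_lit 7) (nat_lit 5) (nat_lit 7) L62896 (by decide +kernel)
theorem L62898 : W_24 (nat_lit 5) (nat_lit 0x280014001200090000000000000000000000000000000) (nat_lit 0x0) (nat_lit 0x3800500002000100008000400000000000000000000000000) := T_24 (nat_lit 123) (nat_lit 106) (nat_lit 4) (nat_lit 5) (nat_lit 10) L62897 (by decide +kernel)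
theorem L62899 : W_24 (nat_lit 2) (nat_lit 0x380016001200098000000000000000000000000000000) (nat_lit 0x0) (nat_lit 0x800040001000000000000000000000000000000000000000) := D_24 (nat_lit 174) (nat_lit 191) (nat_lit 156) (nat_lit 5) (nat_lit 5) (nat_lit 7) (nat_lit 0) (nat_lit 7) (nat_lit 10) (by decide +kernel)
theorem L62900 : W_24 (nat_lit 3) (nat_lit 0x380014001200098000000000000000000000000000000) (nat_lit 0x0) (nat_lit 0x800440003000000000000000000000000000000000000000) := T_24 (nat_lit 157) (nat_lit 178) (nat_lit 0) (nat_lit 8) (nat_lit 10) L62899 (by decide +kernel)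
theorem L62901 : W_24 (nat_lit 4) (nat_lit 0x280014001200098000000000000000000000000000000) (nat_lit 0x0) (nat_lit 0x2800540003000000000000000000000000000000000000000) := T_24 (nat_lit 176) (nat_lit 193) (nat_lit 7) (nat_lit 5) (nat_lit 7) L62900 (by decide +kernel)
theorem L62902 : W_24 (nat_lit 5) (nat_lit 0x280014001200090000000000000000000000000000000) (nat_lit 0x0) (nat_lit 0x2800540003000000008000400000000000000000000000000) := T_24 (nat_lit 123) (nat_lit 106) (nat_lit 4) (nat_lit 5) (nat_lit 10) L62901 (by decide +kernel)
theorem L62903 : W_24 (nat_lit 6) (nat_lit 0x280014001200080000000000000000000000000000000) (nat_lit 0x0) (nat_lit 0x3800540003000500178001400000000000000000000000000) := Q_24 (nat_lit 124) (C_24 L62808 (C_24 L62898 (C_24 L62902 N_24))) (by decide +kernel)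
theorem L62904 : W_24 (nat_lit 6) (nat_lit 0x280014001200080000000000000000000000000000000) (nat_lit 0x0) (nat_lit 0x70003c00540008000580038000400000000000000000000000000) := Q_24 (nat_lit 192) (C_24 L62877 (C_24 L62818 (C_24 L62885 N_24))) (by decide +kernel)
theorem L62905 : W_24 (nat_lit 6) (nat_lit 0x280014001200080000000000000000000000000000000) (nat_lit 0x0) (nat_lit 0x70003800040008000580038001400000000000000000000000000) := Q_24 (nat_lit 192) (C_24 L62818 (C_24 L62877 (C_24 L62853 N_24))) (by decide +kernel)
theorem L62906 : W_24 (nat_lit 2) (nat_lit 0x3c0014001200090000000000000000000000000000000) (nat_lit 0x0) (nat_lit 0x400002000000000000800000000000000000000000000) := D_24 (nat_lit 157) (nat_lit 107) (nat_lit 178) (nat_lit 5) (nat_lit 5) (nat_lit 6) (nat_lit 0) (nat_lit 8) (nat_lit 10) (by decide +kernel)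
theorem L62907 : W_24 (nat_lit 3) (nat_lit 0x380014001200090000000000000000000000000000000) (nat_lit 0x0) (nat_lit 0x800440002000000000000800000000000000000000000000) := T_24 (nat_lit 174) (nat_lit 191) (nat_lit 5) (nat_lit 5) (nat_lit 7) L62906 (by decide +kernel)
theorem L62908 : W_24 (nat_lit 4) (nat_lit 0x380014001200080000000000000000000000000000000) (nat_lit 0x0) (nat_lit 0x2800440002000000010000800000000000000000000000000) := T_24 (nat_lit 124) (nat_lit 193) (nat_lit 7) (nat_lit 5) (nat_lit 7) L62907 (by decide +kernel)
theorem L62909 : W_24 (nat_lit 2) (nat_lit 0x200000000900078001c001200098000000000000000000000000000000) (nat_lit 0x0) (nat_lit 0x400020000000000000000400000000000000000000000000000000000) := D_24 (nat_lit 209) (nat_lit 226) (nat_lit 142) (nat_lit 6) (nat_lit 5) (nat_lit 13) (nat_lit 6) (nat_lit 5) (nat_lit 12) (by decide +kernel)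
theorem L62910 : W_24 (nat_lit 3) (nat_lit 0x2000000009000780014001200098000000000000000000000000000000) (nat_lit 0x0) (nat_lit 0x400020000000000008000400000000800000000000000000000000000) := T_24 (nat_lit 159) (nat_lit 107) (nat_lit 7) (nat_lit 5) (nat_lit 6) L62909 (by decide +kernel)
theorem L62911 : W_24 (nat_lit 4) (nat_lit 0x2000000009000780014001200088000000000000000000000000000000) (nat_lit 0x0) (nat_lit 0x400020000000000008000400010000c00000000000000000000000000) := T_24 (nat_lit 124) (nat_lit 106) (nat_lit 4) (nat_lit 5) (nat_lit 10) L62910 (by decide +kernel)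
theorem L62912 : W_24 (nat_lit 5) (nat_lit 0x9000780014001200088000000000000000000000000000000) (nat_lit 0x0) (nat_lit 0x2400120000000000008000400010000c00000000000000000000000000) := T_24 (nat_lit 229) (nat_lit 212) (nat_lit 4) (nat_lit 8) (nat_lit 13) L62911 (by decide +kernel)
theorem L62913 : W_24 (nat_lit 6) (nat_lit 0x9000780014001200080000000000000000000000000000000) (nat_lit 0x0) (nat_lit 0x2400120000000000008000500018000c00000000000000000000000000) := T_24 (nat_lit 123) (nat_lit 140) (nat_lit 4) (nat_lit 5) (nat_lit 11) L62912 (by decide +kernel)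
theorem L62914 : W_24 (nat_lit 7) (nat_lit 0x1000780014001200080000000000000000000000000000000) (nat_lit 0x0) (nat_lit 0x2400120018000000008000500018000c00000000000000000000000000) := T_24 (nat_lit 195) (nat_lit 196) (nat_lit 3) (nat_lit 5) (nat_lit 10) L62913 (by decide +kernel)
theorem L62915 : W_24 (nat_lit 8) (nat_lit 0x780014001200080000000000000000000000000000000) (nat_lit 0x0) (nat_lit 0x2400120019800000008000500018000c00000000000000000000000000) := T_24 (nat_lit 192) (nat_lit 191) (nat_lit 1) (nat_lit 8) (nat_lit 10) L62914 (by decide +kernel)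
theorem L62916 : W_24 (nat_lit 9) (nat_lit 0x380014001200080000000000000000000000000000000) (nat_lit 0x0) (nat_lit 0x240012001980040000a000500018000c00000000000000000000000000) := T_24 (nat_lit 178) (nat_lit 157) (nat_lit 0) (nat_lit 8) (nat_lit 10) L62915 (by decide +kernel)
theorem L62917 : W_24 (nat_lit 2) (nat_lit 0x2000060009000780014001200080000000000000000000000000000000) (nat_lit 0x0) (nat_lit 0x400000000000000008000400000000000000000000000000000000000) := D_24 (nat_lit 159) (nat_lit 226) (nat_lit 142) (nat_lit 6) (nat_lit 5) (nat_lit 13) (nat_lit 6) (nat_lit 5) (nat_lit 12) (by decide +kernel)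
theorem L62918 : W_24 (nat_lit 3) (nat_lit 0x2000040009000780014001200080000000000000000000000000000000) (nat_lit 0x0) (nat_lit 0xc00020000000000008000400000000000000000000000000000000000) := T_24 (nat_lit 209) (nat_lit 227) (nat_lit 7) (nat_lit 5) (nat_lit 9) L62917 (by decide +kernel)
theorem L62919 : W_24 (nat_lit 4) (nat_lit 0x40009000780014001200080000000000000000000000000000000) (nat_lit 0x0) (nat_lit 0x2c00120000000000008000400000000000000000000000000000000000) := T_24 (nat_lit 229) (nat_lit 212) (nat_lit 4) (nat_lit 8) (nat_lit 13) L62918 (by decide +kernel)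
theorem L62920 : W_24 (nat_lit 5) (nat_lit 0x9000780014001200080000000000000000000000000000000) (nat_lit 0x0) (nat_lit 0x2c00160002000000008000400000000000000000000000000000000000) := T_24 (nat_lit 210) (nat_lit 193) (nat_lit 7) (nat_lit 5) (nat_lit 8) L62919 (by decide +kernel)
theorem L62921 : W_24 (nat_lit 6) (nat_lit 0x1000780014001200080000000000000000000000000000000) (nat_lit 0x0) (nat_lit 0x2c0016001a000000008000400000000000000000000000000000000000) := T_24 (nat_lit 195) (nat_lit 196) (nat_lit 3) (nat_lit 5) (nat_lit 10) L62920 (by decide +kernel)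
theorem L62922 : W_24 (nat_lit 7) (nat_lit 0x780014001200080000000000000000000000000000000) (nat_lit 0x0) (nat_lit 0x2c0016001b800000008000400000000000000000000000000000000000) := T_24 (nat_lit 192) (nat_lit 191) (nat_lit 1) (nat_lit 8) (nat_lit 10) L62921 (by decide +kernel)
theorem L62923 : W_24 (nat_lit 8) (nat_lit 0x380014001200080000000000000000000000000000000) (nat_lit 0x0) (nat_lit 0x2c0016001b80040000a000400000000000000000000000000000000000) := T_24 (nat_lit 178) (nat_lit 157) (nat_lit 0) (nat_lit 8) (nat_lit 10) L62922 (by decide +kernel)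
theorem L62924 : W_24 (nat_lit 10) (nat_lit 0x280014001200080000000000000000000000000000000) (nat_lit 0x0) (nat_lit 0x2c0016001b80054000a000500018000c00020000000000000000000000) := Q_24 (nat_lit 176) (C_24 L62857 (C_24 L62908 (C_24 L62916 (C_24 L62923 N_24)))) (by decide +kernel)
theorem L62925 : W_24 (nat_lit 4) (nat_lit 0x280014001200090000000000000000000000000000000) (nat_lit 0x0) (nat_lit 0x2800540002000000000000800000000000000000000000000) := T_24 (nat_lit 176) (nat_lit 193) (nat_lit 7) (nat_lit 5) (nat_lit 7) L62907 (by decide +kernel)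
theorem L62926 : W_24 (nat_lit 6) (nat_lit 0x280014001200080000000000000000000000000000000) (nat_lit 0x0) (nat_lit 0x380054000b000100078001c00020000000000000000000000) := Q_24 (nat_lit 124) (C_24 L62805 (C_24 L62800 (C_24 L62902 (C_24 L62925 N_24)))) (by decide +kernel)
theorem L62927 : W_24 (nat_lit 2) (nat_lit 0x2800140012000b8000000000000000000000000000000) (nat_lit 0x0) (nat_lit 0x1000000000000500000000000000000000000000000000000) := D_24 (nat_lit 192) (nat_lit 140) (nat_lit 142) (nat_lit 4) (nat_lit 5) (nat_lit 11) (nat_lit 6) (nat_lit 5) (nat_lit 11) (by decide +kernel)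
theorem L62928 : W_24 (nat_lit 3) (nat_lit 0x280014001200098000000000000000000000000000000) (nat_lit 0x0) (nat_lit 0x1000000000000500020001000000000000000000000000000) := T_24 (nat_lit 125) (nat_lit 108) (nat_lit 6) (nat_lit 5) (nat_lit 10) L62927 (by decide +kernel)
theorem L62929 : W_24 (nat_lit 4) (nat_lit 0x280014001200090000000000000000000000000000000) (nat_lit 0x0) (nat_lit 0x1000000000000500028001400000000000000000000000000) := T_24 (nat_lit 123) (nat_lit 106) (nat_lit 4) (nat_lit 5) (nat_lit 10) L62928 (by decide +kernel)
theorem L62930 : W_24 (nat_lit 2) (nat_lit 0x10002c001c001200098000800000000000000000000000000) (nat_lit 0x0) (nat_lit 0x20000000000000000400000000000040000000000000000000000) := D_24 (nat_lit 142) (nat_lit 90) (nat_lit 209) (nat_lit 7) (nat_lit 5) (nat_lit 5) (nat_lit 6) (nat_lit 5) (nat_lit 12) (by decide +kernel)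
theorem L62931 : W_24 (nat_lit 3) (nat_lit 0x10002c0014001200098000800000000000000000000000000) (nat_lit 0x0) (nat_lit 0x20000000100008000400000000000040000000000000000000000) := T_24 (nat_lit 159) (nat_lit 176) (nat_lit 7) (nat_lit 5) (nat_lit 6) L62930 (by decide +kernel)
theorem L62932 : W_24 (nat_lit 4) (nat_lit 0x2c0014001200098000800000000000000000000000000) (nat_lit 0x0) (nat_lit 0x20001000100008000500000000000040000000000000000000000) := T_24 (nat_lit 192) (nat_lit 140) (nat_lit 4) (nat_lit 5) (nat_lit 11) L62931 (by decide +kernel)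
theorem L62933 : W_24 (nat_lit 5) (nat_lit 0x2c0014001200098000000000000000000000000000000) (nat_lit 0x0) (nat_lit 0x2000100010000a000500000000800040000000000000000000000) := T_24 (nat_lit 107) (nat_lit 157) (nat_lit 5) (nat_lit 5) (nat_lit 6) L62932 (by decide +kernel)
theorem L62934 : W_24 (nat_lit 6) (nat_lit 0x280014001200098000000000000000000000000000000) (nat_lit 0x0) (nat_lit 0x2000180014000a000500000000800040000000000000000000000) := T_24 (nat_lit 174) (nat_lit 191) (nat_lit 5) (nat_lit 5) (nat_lit 7) L62933 (by decide +kernel)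
theorem L62935 : W_24 (nat_lit 7) (nat_lit 0x280014001200090000000000000000000000000000000) (nat_lit 0x0) (nat_lit 0x2000180014000a000500008000c00040000000000000000000000) := T_24 (nat_lit 123) (nat_lit 106) (nat_lit 4) (nat_lit 5) (nat_lit 10) L62934 (by decide +kernel)
theorem L62936 : W_24 (nat_lit 2) (nat_lit 0x2c00160012001f8000000000000000000000000000000) (nat_lit 0x0) (nat_lit 0x420008000000000000000000000000000000000000000) := D_24 (nat_lit 159) (nat_lit 178) (nat_lit 173) (nat_lit 3) (nat_lit 4) (nat_lit 9) (nat_lit 1) (nat_lit 7) (nat_lit 9) (by decide +kernel)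
theorem L62937 : W_24 (nat_lit 3) (nat_lit 0x2c00140012001f8000000000000000000000000000000) (nat_lit 0x0) (nat_lit 0x42000a000000000000800000000000000000000000000) := T_24 (nat_lit 157) (nat_lit 107) (nat_lit 5) (nat_lit 5) (nat_lit 6) L62936 (by decide +kernel)
theorem L62938 : W_24 (nat_lit 4) (nat_lit 0x2800140012001f8000000000000000000000000000000) (nat_lit 0x0) (nat_lit 0x80046000a000000000000800000000000000000000000000) := T_24 (nat_lit 174) (nat_lit 191) (nat_lit 5) (nat_lit 5) (nat_lit 7) L62937 (by decide +kernel)
theorem L62939 : W_24 (nat_lit 5) (nat_lit 0x2800140012000f8000000000000000000000000000000) (nat_lit 0x0) (nat_lit 0x80046000a000400100000800000000000000000000000000) := T_24 (nat_lit 128) (nat_lit 142) (nat_lit 1) (nat_lit 9) (nat_lit 7) L62938 (by decide +kernel)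
theorem L62940 : W_24 (nat_lit 6) (nat_lit 0x2800140012000b8000000000000000000000000000000) (nat_lit 0x0) (nat_lit 0x80046000a000500140000800000000000000000000000000) := T_24 (nat_lit 126) (nat_lit 140) (nat_lit 1) (nat_lit 8) (nat_lit 7) L62939 (by decide +kernel)
theorem L62941 : W_24 (nat_lit 7) (nat_lit 0x280014001200098000000000000000000000000000000) (nat_lit 0x0) (nat_lit 0x80046000a000500160001800000000000000000000000000) := T_24 (nat_lit 125) (nat_lit 108) (nat_lit 6) (nat_lit 5) (nat_lit 10) L62940 (by decide +kernel)
theorem L62942 : W_24 (nat_lit 8) (nat_lit 0x280014001200090000000000000000000000000000000) (nat_lit 0x0) (nat_lit 0x80046000a000500168001c00000000000000000000000000) := T_24 (nat_lit 123) (nat_lit 106) (nat_lit 4) (nat_lit 5) (nat_lit 10) L62941 (by decide +kernel)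
theorem L62946 : W_24 (nat_lit 9) (nat_lit 0x280014001200080000000000000000000000000000000) (nat_lit 0x0) (nat_lit 0x2000180056000a000500178001c00060000000000000000000000) := Q_24 (nat_lit 124) (C_24 L62808 (C_24 L62929 (C_24 L62935 (C_24 L62800 (C_24 L62942 (C_24 L62945 N_24)))))) (by decide +kernel)
theorem L62947 : W_24 (nat_lit 6) (nat_lit 0x280014001200080000000000000000000000000000000) (nat_lit 0x0) (nat_lit 0x280054000b000000018000c00020000000000000000000000) := Q_24 (nat_lit 124) (C_24 L62945 (C_24 L62805 (C_24 L62902 (C_24 L62925 N_24)))) (by decide +kernel)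
theorem L62951 : W_24 (nat_lit 6) (nat_lit 0x280014001200080000000000000000000000000000000) (nat_lit 0x0) (nat_lit 0x70003c00500008000580028000000000000000000000000000000) := Q_24 (nat_lit 192) (C_24 L62877 (C_24 L62885 (C_24 L62950 N_24))) (by decide +kernel)
theorem L62952 : W_24 (nat_lit 2) (nat_lit 0x2800030009000780014001600080000000000000000000000000000000) (nat_lit 0x0) (nat_lit 0x10001400000000000000000000000000000000000000000000000000000000) := D_24 (nat_lit 226) (nat_lit 228) (nat_lit 244) (nat_lit 0) (nat_lit 8) (nat_lit 13) (nat_lit 7) (nat_lit 5) (nat_lit 10) (by decide +kernel)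
theorem L62953 : W_24 (nat_lit 3) (nat_lit 0x800030009000780014001600080000000000000000000000000000000) (nat_lit 0x0) (nat_lit 0x10003400100000000000000000000000000000000000000000000000000000) := T_24 (nat_lit 229) (nat_lit 212) (nat_lit 4) (nat_lit 8) (nat_lit 13) L62952 (by decide +kernel)
theorem L62954 : W_24 (nat_lit 4) (nat_lit 0x30009000780014001600080000000000000000000000000000000) (nat_lit 0x0) (nat_lit 0x10003c00140000000000000000000000000000000000000000000000000000) := T_24 (nat_lit 227) (nat_lit 210) (nat_lit 7) (nat_lit 5) (nat_lit 9) L62953 (by decide +kernel)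
theorem L62955 : W_24 (nat_lit 5) (nat_lit 0x20009000780014001600080000000000000000000000000000000) (nat_lit 0x0) (nat_lit 0x10003e00150000000000000000000000000000000000000000000000000000) := T_24 (nat_lit 208) (nat_lit 225) (nat_lit 5) (nat_lit 5) (nat_lit 9) L62954 (by decide +kernel)
theorem L62956 : W_24 (nat_lit 6) (nat_lit 0x9000780014001600080000000000000000000000000000000) (nat_lit 0x0) (nat_lit 0x10003e00170000000000008000000000000000000000000000000000000000) := T_24 (nat_lit 209) (nat_lit 159) (nat_lit 6) (nat_lit 5) (nat_lit 12) L62955 (by decide +kernel)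
theorem L62957 : W_24 (nat_lit 7) (nat_lit 0x9000780014001200080000000000000000000000000000000) (nat_lit 0x0) (nat_lit 0x10003e00170000000000008000400020000000000000000000000000000000) := T_24 (nat_lit 142) (nat_lit 125) (nat_lit 6) (nat_lit 5) (nat_lit 11) L62956 (by decide +kernel)
theorem L62958 : W_24 (nat_lit 8) (nat_lit 0x1000780014001200080000000000000000000000000000000) (nat_lit 0x0) (nat_lit 0x10003e00170018000000008000400020000000000000000000000000000000) := T_24 (nat_lit 195) (nat_lit 196) (nat_lit 3) (nat_lit 5) (nat_lit 10) L62957 (by decide +kernel)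
theorem L62959 : W_24 (nat_lit 9) (nat_lit 0x780014001200080000000000000000000000000000000) (nat_lit 0x0) (nat_lit 0x10003e00170019800000008000400020000000000000000000000000000000) := T_24 (nat_lit 192) (nat_lit 191) (nat_lit 1) (nat_lit 8) (nat_lit 10) L62958 (by decide +kernel)
theorem L62960 : W_24 (nat_lit 10) (nat_lit 0x380014001200080000000000000000000000000000000) (nat_lit 0x0) (nat_lit 0x10003e0017001980040000a000400020000000000000000000000000000000) := T_24 (nat_lit 178) (nat_lit 157) (nat_lit 0) (nat_lit 8) (nat_lit 10) L62959 (by decide +kernel)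
theorem L62961 : W_24 (nat_lit 11) (nat_lit 0x280014001200080000000000000000000000000000000) (nat_lit 0x0) (nat_lit 0x10003e0017001b80054000a000400030001800080000000000000000000000) := Q_24 (nat_lit 176) (C_24 L62889 (C_24 L62923 (C_24 L62908 (C_24 L62960 N_24)))) (by decide +kernel)
theorem L62962 : W_24 (nat_lit 12) (nat_lit 0x200014001200080000000000000000000000000000000) (nat_lit 0x0) (nat_lit 0x10003e0017001bc005e000b000580178001c000e0000000000000000000000) := Q_24 (nat_lit 175) (C_24 L62809 (C_24 L62903 (C_24 L62904 (C_24 L62905 (C_24 L62924 (C_24 L62926 (C_24 L62946 (C_24 L62947 (C_24 L62951 (C_24 L62961 N_24)))))))))) (by decide +kernel)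
theorem L62963 : W_24 (nat_lit 2) (nat_lit 0x20007c001200080000000000000000000000000000000) (nat_lit 0x0) (nat_lit 0x1c0000000000000000000000000000000000000000000) := D_24 (nat_lit 175) (nat_lit 174) (nat_lit 176) (nat_lit 1) (nat_lit 8) (nat_lit 9) (nat_lit 1) (nat_lit 9) (nat_lit 9) (by decide +kernel)
theorem L62964 : W_24 (nat_lit 3) (nat_lit 0x20003c001200080000000000000000000000000000000) (nat_lit 0x0) (nat_lit 0x1c0040000400000000000000000000000000000000000) := T_24 (nat_lit 162) (nat_lit 142) (nat_lit 0) (nat_lit 9) (nat_lit 9) L62963 (by decide +kernel)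
theorem L62965 : W_24 (nat_lit 4) (nat_lit 0x20001c001200080000000000000000000000000000000) (nat_lit 0x0) (nat_lit 0x1c0060000500000000000000000000000000000000000) := T_24 (nat_lit 161) (nat_lit 140) (nat_lit 0) (nat_lit 8) (nat_lit 9) L62964 (by decide +kernel)
theorem L62966 : W_24 (nat_lit 2) (nat_lit 0x20001f001300080000000000000000000000000000000) (nat_lit 0x0) (nat_lit 0xc00400000000000000000000000000000000000) := D_24 (nat_lit 155) (nat_lit 142) (nat_lit 154) (nat_lit 2) (nat_lit 2) (nat_lit 9) (nat_lit 2) (nat_lit 1) (nat_lit 9) (by decide +kernel)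
theorem L62967 : W_24 (nat_lit 3) (nat_lit 0x20001e001300080000000000000000000000000000000) (nat_lit 0x0) (nat_lit 0x100001c00400000000000000000000000000000000000) := T_24 (nat_lit 156) (nat_lit 176) (nat_lit 3) (nat_lit 3) (nat_lit 9) L62966 (by decide +kernel)
theorem L62968 : W_24 (nat_lit 4) (nat_lit 0x20001e001200080000000000000000000000000000000) (nat_lit 0x0) (nat_lit 0x100001c00580000000000000000000000000000000000) := T_24 (nat_lit 140) (nat_lit 139) (nat_lit 0) (nat_lit 7) (nat_lit 9) L62967 (by decide +kernel)
theorem L62969 : W_24 (nat_lit 2) (nat_lit 0x20001f001200080000000000000000000000000000000) (nat_lit 0x0) (nat_lit 0x70000000000000000000000000000000000000000000) := D_24 (nat_lit 173) (nat_lit 174) (nat_lit 172) (nat_lit 1) (nat_lit 7) (nat_lit 9) (nat_lit 1) (nat_lit 6) (nat_lit 9) (by decide +kernel)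
theorem L62970 : W_24 (nat_lit 3) (nat_lit 0x20001e001200080000000000000000000000000000000) (nat_lit 0x0) (nat_lit 0x170001000000000000000000000000000000000000000) := T_24 (nat_lit 156) (nat_lit 176) (nat_lit 3) (nat_lit 3) (nat_lit 9) L62969 (by decide +kernel)
theorem L62971 : W_24 (nat_lit 5) (nat_lit 0x20001c001200080000000000000000000000000000000) (nat_lit 0x0) (nat_lit 0x10000800170003c00580010000000000000000000000000000000) := Q_24 (nat_lit 157) (C_24 L62894 (C_24 L62968 (C_24 L62970 N_24))) (by decide +kernel)
theorem L62972 : W_24 (nat_lit 3) (nat_lit 0x20003c001600080000000000000000000000000000000) (nat_lit 0x0) (nat_lit 0x10000c0000000000020001000000000000000000000000000) := T_24 (nat_lit 175) (nat_lit 174) (nat_lit 1) (nat_lit 8) (nat_lit 9) L1258 (by decide +kernel)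
theorem L62973 : W_24 (nat_lit 4) (nat_lit 0x20003c001200080000000000000000000000000000000) (nat_lit 0x0) (nat_lit 0x10000c0040000400020001000000000000000000000000000) := T_24 (nat_lit 142) (nat_lit 162) (nat_lit 0) (nat_lit 9) (nat_lit 9) L62972 (by decide +kernel)
theorem L62974 : W_24 (nat_lit 5) (nat_lit 0x20001c001200080000000000000000000000000000000) (nat_lit 0x0) (nat_lit 0x10000c0060000500020001000000000000000000000000000) := T_24 (nat_lit 161) (nat_lit 140) (nat_lit 0) (nat_lit 8) (nat_lit 9) L62973 (by decide +kernel)
theorem L62975 : W_24 (nat_lit 2) (nat_lit 0x38003c001200080000000000000000000000000000000) (nat_lit 0x0) (nat_lit 0x2000000000000000010000800000000000000000000000000) := D_24 (nat_lit 124) (nat_lit 193) (nat_lit 107) (nat_lit 7) (nat_lit 5) (nat_lit 7) (nat_lit 7) (nat_lit 5) (nat_lit 6) (by decide +kernel)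
theorem L62976 : W_24 (nat_lit 3) (nat_lit 0x28003c001200080000000000000000000000000000000) (nat_lit 0x0) (nat_lit 0x2000100040000000010000800000000000000000000000000) := T_24 (nat_lit 176) (nat_lit 162) (nat_lit 1) (nat_lit 9) (nat_lit 9) L62975 (by decide +kernel)
theorem L62977 : W_24 (nat_lit 4) (nat_lit 0x20003c001200080000000000000000000000000000000) (nat_lit 0x0) (nat_lit 0x20001c0040000000010000800000000000000000000000000) := T_24 (nat_lit 175) (nat_lit 174) (nat_lit 1) (nat_lit 8) (nat_lit 9) L62976 (by decide +kernel)
theorem L62978 : W_24 (nat_lit 5) (nat_lit 0x20001c001200080000000000000000000000000000000) (nat_lit 0x0) (nat_lit 0x20001c0060000100010000800000000000000000000000000) := T_24 (nat_lit 161) (nat_lit 140) (nat_lit 0) (nat_lit 8) (nat_lit 9) L62977 (by decide +kernel)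
theorem L62979 : W_24 (nat_lit 2) (nat_lit 0x20007c001200080000000000000000000000000000000) (nat_lit 0x0) (nat_lit 0x180080000000000000000000000000000000000000000) := D_24 (nat_lit 176) (nat_lit 175) (nat_lit 163) (nat_lit 1) (nat_lit 9) (nat_lit 9) (nat_lit 1) (nat_lit 10) (nat_lit 9) (by decide +kernel)
theorem L62980 : W_24 (nat_lit 3) (nat_lit 0x20003c001200080000000000000000000000000000000) (nat_lit 0x0) (nat_lit 0x1800c0000400000000000000000000000000000000000) := T_24 (nat_lit 162) (nat_lit 142) (nat_lit 0) (nat_lit 9) (nat_lit 9) L62979 (by decide +kernel)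
theorem L62981 : W_24 (nat_lit 4) (nat_lit 0x20001c001200080000000000000000000000000000000) (nat_lit 0x0) (nat_lit 0x1800e0000500000000000000000000000000000000000) := T_24 (nat_lit 161) (nat_lit 140) (nat_lit 0) (nat_lit 8) (nat_lit 9) L62980 (by decide +kernel)
theorem L62982 : W_24 (nat_lit 2) (nat_lit 0x30001d001200090000000000000000000000000000000) (nat_lit 0x0) (nat_lit 0x40002000000000000400000000000000000000000000000000000) := D_24 (nat_lit 193) (nat_lit 210) (nat_lit 142) (nat_lit 4) (nat_lit 6) (nat_lit 12) (nat_lit 4) (nat_lit 6) (nat_lit 11) (by decide +kernel)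
theorem L62983 : W_24 (nat_lit 3) (nat_lit 0x30001d001200080000000000000000000000000000000) (nat_lit 0x0) (nat_lit 0x40002000000000000400010000800000000000000000000000000) := T_24 (nat_lit 124) (nat_lit 107) (nat_lit 7) (nat_lit 5) (nat_lit 6) L62982 (by decide +kernel)
theorem L62984 : W_24 (nat_lit 4) (nat_lit 0x30001c001200080000000000000000000000000000000) (nat_lit 0x0) (nat_lit 0x40002000000003000400010000800000000000000000000000000) := T_24 (nat_lit 156) (nat_lit 157) (nat_lit 3) (nat_lit 3) (nat_lit 9) L62983 (by decide +kernel)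
theorem L62985 : W_24 (nat_lit 2) (nat_lit 0x400000003c001e001200080000800000000000000000000000000) (nat_lit 0x0) (nat_lit 0x10000c00000000000000000000000000000000000000000000000) := D_24 (nat_lit 191) (nat_lit 190) (nat_lit 208) (nat_lit 1) (nat_lit 7) (nat_lit 10) (nat_lit 6) (nat_lit 4) (nat_lit 12) (by decide +kernel)
theorem L62986 : W_24 (nat_lit 3) (nat_lit 0x4000000034001e001200080000800000000000000000000000000) (nat_lit 0x0) (nat_lit 0x10000c00080020000000000000000000000000000000000000000) := T_24 (nat_lit 175) (nat_lit 161) (nat_lit 2) (nat_lit 4) (nat_lit 10) L62985 (by decide +kernel)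
theorem L62987 : W_24 (nat_lit 4) (nat_lit 0x4000000030001e001200080000800000000000000000000000000) (nat_lit 0x0) (nat_lit 0x10000c000e0020000000000000000000000000000000000000000) := T_24 (nat_lit 174) (nat_lit 173) (nat_lit 1) (nat_lit 7) (nat_lit 9) L62986 (by decide +kernel)
theorem L62988 : W_24 (nat_lit 5) (nat_lit 0x4000000030001e001200080000000000000000000000000000000) (nat_lit 0x0) (nat_lit 0x10000c000e0020000000010000800000000000000000000000000) := T_24 (nat_lit 107) (nat_lit 124) (nat_lit 7) (nat_lit 5) (nat_lit 6) L62987 (by decide +kernel)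
theorem L62989 : W_24 (nat_lit 6) (nat_lit 0x4000000030001c001200080000000000000000000000000000000) (nat_lit 0x0) (nat_lit 0x10000c000e0023000000010000800000000000000000000000000) := T_24 (nat_lit 157) (nat_lit 156) (nat_lit 3) (nat_lit 3) (nat_lit 9) L62988 (by decide +kernel)
theorem L62990 : W_24 (nat_lit 7) (nat_lit 0x30001c001200080000000000000000000000000000000) (nat_lit 0x0) (nat_lit 0x50002c000e0023000000010000800000000000000000000000000) := T_24 (nat_lit 210) (nat_lit 193) (nat_lit 4) (nat_lit 6) (nat_lit 12) L62989 (by decide +kernel)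
theorem L62991 : W_24 (nat_lit 2) (nat_lit 0x34003e001200080000800000000000000000000000000) (nat_lit 0x0) (nat_lit 0xc0000400000000000000000000000000000000000) := D_24 (nat_lit 162) (nat_lit 142) (nat_lit 163) (nat_lit 0) (nat_lit 9) (nat_lit 9) (nat_lit 1) (nat_lit 10) (nat_lit 9) (by decide +kernel)
theorem L62992 : W_24 (nat_lit 3) (nat_lit 0x34001e001200080000800000000000000000000000000) (nat_lit 0x0) (nat_lit 0x800e0000400000000000000000000000000000000000) := T_24 (nat_lit 161) (nat_lit 175) (nat_lit 2) (nat_lit 4) (nat_lit 10) L62991 (by decide +kernel)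
theorem L62993 : W_24 (nat_lit 4) (nat_lit 0x30001e001200080000800000000000000000000000000) (nat_lit 0x0) (nat_lit 0xe00e0000400000000000000000000000000000000000) := T_24 (nat_lit 174) (nat_lit 173) (nat_lit 1) (nat_lit 7) (nat_lit 9) L62992 (by decide +kernel)
theorem L62994 : W_24 (nat_lit 5) (nat_lit 0x30001c001200080000800000000000000000000000000) (nat_lit 0x0) (nat_lit 0xe00e3000400000000000000000000000000000000000) := T_24 (nat_lit 157) (nat_lit 156) (nat_lit 3) (nat_lit 3) (nat_lit 9) L62993 (by decide +kernel)
theorem L62995 : W_24 (nat_lit 6) (nat_lit 0x30001c001200080000000000000000000000000000000) (nat_lit 0x0) (nat_lit 0xe00e3000400010000800000000000000000000000000) := T_24 (nat_lit 107) (nat_lit 124) (nat_lit 7) (nat_lit 5) (nat_lit 6) L62994 (by decide +kernel)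
theorem L62996 : W_24 (nat_lit 2) (nat_lit 0x4000000034003e001200080000000000000000000000000000000) (nat_lit 0x0) (nat_lit 0xc0000400000000000000000000000000000000000) := D_24 (nat_lit 162) (nat_lit 142) (nat_lit 163) (nat_lit 0) (nat_lit 9) (nat_lit 9) (nat_lit 1) (nat_lit 10) (nat_lit 9) (by decide +kernel)
theorem L62997 : W_24 (nat_lit 3) (nat_lit 0x4000000034001e001200080000000000000000000000000000000) (nat_lit 0x0) (nat_lit 0x800e0000400000000000000000000000000000000000) := T_24 (nat_lit 161) (nat_lit 175) (nat_lit 2) (nat_lit 4) (nat_lit 10) L62996 (by decide +kernel)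
theorem L62998 : W_24 (nat_lit 4) (nat_lit 0x4000000030001e001200080000000000000000000000000000000) (nat_lit 0x0) (nat_lit 0xe00e0000400000000000000000000000000000000000) := T_24 (nat_lit 174) (nat_lit 173) (nat_lit 1) (nat_lit 7) (nat_lit 9) L62997 (by decide +kernel)
theorem L62999 : W_24 (nat_lit 5) (nat_lit 0x30001e001200080000000000000000000000000000000) (nat_lit 0x0) (nat_lit 0x400020000e00e0000400000000000000000000000000000000000) := T_24 (nat_lit 210) (nat_lit 193) (nat_lit 4) (nat_lit 6) (nat_lit 12) L62998 (by decide +kernel)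
theorem L63000 : W_24 (nat_lit 6) (nat_lit 0x30001c001200080000000000000000000000000000000) (nat_lit 0x0) (nat_lit 0x400020000e00e3000400000000000000000000000000000000000) := T_24 (nat_lit 157) (nat_lit 156) (nat_lit 3) (nat_lit 3) (nat_lit 9) L62999 (by decide +kernel)
theorem L63001 : W_24 (nat_lit 2) (nat_lit 0x200030001c001200080000000000000000000000000000000) (nat_lit 0x0) (nat_lit 0x400010000800000000000000000000000000) := D_24 (nat_lit 124) (nat_lit 107) (nat_lit 142) (nat_lit 7) (nat_lit 5) (nat_lit 6) (nat_lit 4) (nat_lit 6) (nat_lit 11) (by decide +kernel)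
theorem L63002 : W_24 (nat_lit 3) (nat_lit 0x30001c001200080000000000000000000000000000000) (nat_lit 0x0) (nat_lit 0x40002000000000000400010000800000000000000000000000000) := T_24 (nat_lit 193) (nat_lit 210) (nat_lit 4) (nat_lit 6) (nat_lit 12) L63001 (by decide +kernel)
theorem L63003 : W_24 (nat_lit 8) (nat_lit 0x20001c001200080000000000000000000000000000000) (nat_lit 0x0) (nat_lit 0x50002c001e00e3000400010000800000000000000000000000000) := Q_24 (nat_lit 176) (C_24 L62984 (C_24 L62990 (C_24 L62995 (C_24 L63000 (C_24 L63002 N_24))))) (by decide +kernel)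
theorem L63004 : W_24 (nat_lit 9) (nat_lit 0x200014001200080000000000000000000000000000000) (nat_lit 0x0) (nat_lit 0x50003c001f00ebc00580030001800000000000000000000000000) := Q_24 (nat_lit 159) (C_24 L62965 (C_24 L62971 (C_24 L62974 (C_24 L62978 (C_24 L62981 (C_24 L63003 N_24)))))) (by decide +kernel)
theorem L63005 : W_24 (nat_lit 5) (nat_lit 0x20001c001200080000000000000000000000000000000) (nat_lit 0x0) (nat_lit 0x10000800460002000180010000000000000000000000000000000) := T_24 (nat_lit 157) (nat_lit 178) (nat_lit 3) (nat_lit 4) (nat_lit 9) L62894 (by decide +kernel)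
theorem L63006 : W_24 (nat_lit 2) (nat_lit 0x20001e001200080000000000000000000000000000000) (nat_lit 0x0) (nat_lit 0x20000180000000000000000000000000000000000) := D_24 (nat_lit 140) (nat_lit 139) (nat_lit 161) (nat_lit 0) (nat_lit 7) (nat_lit 9) (nat_lit 0) (nat_lit 8) (nat_lit 9) (by decide +kernel)
theorem L63007 : W_24 (nat_lit 3) (nat_lit 0x20001c001200080000000000000000000000000000000) (nat_lit 0x0) (nat_lit 0x400022000180000000000000000000000000000000000) := T_24 (nat_lit 157) (nat_lit 178) (nat_lit 3) (nat_lit 4) (nat_lit 9) L63006 (by decide +kernel)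
theorem L63009 : W_24 (nat_lit 3) (nat_lit 0x24001e001200080000000000000000000000000000000) (nat_lit 0x0) (nat_lit 0x10000800080020000000010000000000000000000000000000000) := T_24 (nat_lit 175) (nat_lit 161) (nat_lit 1) (nat_lit 8) (nat_lit 9) L63008 (by decide +kernel)
theorem L63010 : W_24 (nat_lit 4) (nat_lit 0x20001e001200080000000000000000000000000000000) (nat_lit 0x0) (nat_lit 0x100008000e0020000000010000000000000000000000000000000) := T_24 (nat_lit 174) (nat_lit 173) (nat_lit 1) (nat_lit 7) (nat_lit 9) L63009 (by decide +kernel)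
theorem L63011 : W_24 (nat_lit 5) (nat_lit 0x20001c001200080000000000000000000000000000000) (nat_lit 0x0) (nat_lit 0x100008004e0022000000010000000000000000000000000000000) := T_24 (nat_lit 157) (nat_lit 178) (nat_lit 3) (nat_lit 4) (nat_lit 9) L63010 (by decide +kernel)
theorem L63012 : W_24 (nat_lit 6) (nat_lit 0x200014001200080000000000000000000000000000000) (nat_lit 0x0) (nat_lit 0x100018004e006a000580030001000000000000000000000000000) := Q_24 (nat_lit 159) (C_24 L62974 (C_24 L63005 (C_24 L63007 (C_24 L63011 N_24)))) (by decide +kernel)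
theorem L63013 : W_24 (nat_lit 6) (nat_lit 0x200014001200080000000000000000000000000000000) (nat_lit 0x0) (nat_lit 0x100008005e00ea000580010000000000000000000000000000000) := Q_24 (nat_lit 159) (C_24 L62981 (C_24 L63011 (C_24 L63005 N_24))) (by decide +kernel)
theorem L63014 : W_24 (nat_lit 2) (nat_lit 0x2001fc001200080000000000000000000000000000000) (nat_lit 0x0) (nat_lit 0x7000000000000000000000000000000000000000000000) := D_24 (nat_lit 181) (nat_lit 180) (nat_lit 182) (nat_lit 3) (nat_lit 7) (nat_lit 9) (nat_lit 3) (nat_lit 8) (nat_lit 9) (by decide +kernel)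
theorem L63015 : W_24 (nat_lit 3) (nat_lit 0x2000fc001200080000000000000000000000000000000) (nat_lit 0x0) (nat_lit 0x7400100000000000000000000000000000000000000000) := T_24 (nat_lit 164) (nat_lit 178) (nat_lit 1) (nat_lit 11) (nat_lit 9) L63014 (by decide +kernel)
theorem L63016 : W_24 (nat_lit 4) (nat_lit 0x20007c001200080000000000000000000000000000000) (nat_lit 0x0) (nat_lit 0x7500180000000000000000000000000000000000000000) := T_24 (nat_lit 163) (nat_lit 176) (nat_lit 1) (nat_lit 10) (nat_lit 9) L63015 (by decide +kernel)
theorem L63017 : W_24 (nat_lit 5) (nat_lit 0x20003c001200080000000000000000000000000000000) (nat_lit 0x0) (nat_lit 0x75001c0000400000000000000000000000000000000000) := T_24 (nat_lit 162) (nat_lit 142) (nat_lit 0) (nat_lit 9) (nat_lit 9) L63016 (by decide +kernel)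
theorem L63018 : W_24 (nat_lit 6) (nat_lit 0x20001c001200080000000000000000000000000000000) (nat_lit 0x0) (nat_lit 0x75001e0000500000000000000000000000000000000000) := T_24 (nat_lit 161) (nat_lit 140) (nat_lit 0) (nat_lit 8) (nat_lit 9) L63017 (by decide +kernel)
theorem L63019 : W_24 (nat_lit 4) (nat_lit 0x20001c001200080000000000000000000000000000000) (nat_lit 0x0) (nat_lit 0x570003000000000000000000000000000000000000000) := T_24 (nat_lit 157) (nat_lit 178) (nat_lit 3) (nat_lit 4) (nat_lit 9) L62970 (by decide +kernel)
theorem L63020 : W_24 (nat_lit 7) (nat_lit 0x200014001200080000000000000000000000000000000) (nat_lit 0x0) (nat_lit 0x100008075701ebc00580010000000000000000000000000000000) := Q_24 (nat_lit 159) (C_24 L63018 (C_24 L63005 (C_24 L62971 (C_24 L63019 N_24)))) (by decide +kernel)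
theorem L63021 : W_24 (nat_lit 2) (nat_lit 0x20001000280014001700080000000000000000000000000000000) (nat_lit 0x0) (nat_lit 0x800040002000000000000000000000000000000000000000000000000) := D_24 (nat_lit 210) (nat_lit 193) (nat_lit 227) (nat_lit 7) (nat_lit 5) (nat_lit 8) (nat_lit 7) (nat_lit 5) (nat_lit 9) (by decide +kernel)
theorem L63022 : W_24 (nat_lit 3) (nat_lit 0x1000280014001700080000000000000000000000000000000) (nat_lit 0x0) (nat_lit 0x800060002000000002000000000000000000000000000000000000000) := T_24 (nat_lit 209) (nat_lit 157) (nat_lit 4) (nat_lit 5) (nat_lit 12) L63021 (by decide +kernel)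
theorem L63023 : W_24 (nat_lit 4) (nat_lit 0x1000280014001300080000000000000000000000000000000) (nat_lit 0x0) (nat_lit 0x800060002000000002000400020000000000000000000000000000000) := T_24 (nat_lit 142) (nat_lit 125) (nat_lit 6) (nat_lit 5) (nat_lit 11) L63022 (by decide +kernel)
theorem L63024 : W_24 (nat_lit 5) (nat_lit 0x1000280014001200080000000000000000000000000000000) (nat_lit 0x0) (nat_lit 0x800060002000000002000500028000000000000000000000000000000) := T_24 (nat_lit 140) (nat_lit 123) (nat_lit 4) (nat_lit 5) (nat_lit 11) L63023 (by decide +kernel)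
theorem L63025 : W_24 (nat_lit 6) (nat_lit 0x280014001200080000000000000000000000000000000) (nat_lit 0x0) (nat_lit 0x800070003c00540002000500038001400000000000000000000000000) := Q_24 (nat_lit 192) (C_24 L62853 (C_24 L62885 (C_24 L62818 (C_24 L63024 N_24)))) (by decide +kernel)
theorem L63026 : W_24 (nat_lit 6) (nat_lit 0x280014001200080000000000000000000000000000000) (nat_lit 0x0) (nat_lit 0x800070003800040002000500038001400000000000000000000000000) := Q_24 (nat_lit 192) (C_24 L63024 (C_24 L62818 (C_24 L62853 N_24))) (by decide +kernel)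
theorem L63027 : W_24 (nat_lit 4) (nat_lit 0x380014001200090000000000000000000000000000000) (nat_lit 0x0) (nat_lit 0x1800400002000100008000400000000000000000000000000) := T_24 (nat_lit 123) (nat_lit 106) (nat_lit 4) (nat_lit 5) (nat_lit 10) L62896 (by decide +kernel)
theorem L63028 : W_24 (nat_lit 5) (nat_lit 0x380014001200080000000000000000000000000000000) (nat_lit 0x0) (nat_lit 0x3800400002000100018000400000000000000000000000000) := T_24 (nat_lit 124) (nat_lit 193) (nat_lit 7) (nat_lit 5) (nat_lit 7) L63027 (by decide +kernel)
theorem L63029 : W_24 (nat_lit 2) (nat_lit 0x780014001200080000000000000000000000000000000) (nat_lit 0x0) (nat_lit 0x40060000000000000000000000000000000000000000) := D_24 (nat_lit 161) (nat_lit 174) (nat_lit 162) (nat_lit 2) (nat_lit 4) (nat_lit 10) (nat_lit 2) (nat_lit 5) (nat_lit 10) (by decide +kernel)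
theorem L63030 : W_24 (nat_lit 3) (nat_lit 0x380014001200080000000000000000000000000000000) (nat_lit 0x0) (nat_lit 0x440062000000000000000000000000000000000000000) := T_24 (nat_lit 178) (nat_lit 157) (nat_lit 0) (nat_lit 8) (nat_lit 10) L63029 (by decide +kernel)
theorem L63031 : W_24 (nat_lit 6) (nat_lit 0x280014001200080000000000000000000000000000000) (nat_lit 0x0) (nat_lit 0x3c00540062000100018000c00000000000000000000000000) := Q_24 (nat_lit 176) (C_24 L62856 (C_24 L62908 (C_24 L63028 (C_24 L63030 N_24)))) (by decide +kernel)
theorem L63032 : W_24 (nat_lit 5) (nat_lit 0x280014001200080000000000000000000000000000000) (nat_lit 0x0) (nat_lit 0x1800040002000500178001c00020000000000000000000000) := Q_24 (nat_lit 124) (C_24 L62945 (C_24 L62929 (C_24 L62808 N_24))) (by decide +kernel)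
theorem L63037 : W_24 (nat_lit 6) (nat_lit 0x280014001200080000000000000000000000000000000) (nat_lit 0x0) (nat_lit 0xa00070003c00500002000500028000000000000000000000000000000) := Q_24 (nat_lit 192) (C_24 L63024 (C_24 L62885 (C_24 L63036 N_24))) (by decide +kernel)
theorem L63038 : W_24 (nat_lit 2) (nat_lit 0x7800140012001f8000000000000000000000000000000) (nat_lit 0x0) (nat_lit 0x20000000000018000000000000000000000000000) := D_24 (nat_lit 111) (nat_lit 112) (nat_lit 161) (nat_lit 2) (nat_lit 6) (nat_lit 7) (nat_lit 6) (nat_lit 8) (nat_lit 10) (by decide +kernel)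
theorem L63039 : W_24 (nat_lit 3) (nat_lit 0x3800140012001f8000000000000000000000000000000) (nat_lit 0x0) (nat_lit 0x400022000000000018000000000000000000000000000) := T_24 (nat_lit 178) (nat_lit 157) (nat_lit 0) (nat_lit 8) (nat_lit 10) L63038 (by decide +kernel)
theorem L63040 : W_24 (nat_lit 4) (nat_lit 0x2800140012001f8000000000000000000000000000000) (nat_lit 0x0) (nat_lit 0x2000500022000000000018000000000000000000000000000) := T_24 (nat_lit 176) (nat_lit 193) (nat_lit 7) (nat_lit 5) (nat_lit 7) L63039 (by decide +kernel)
theorem L63041 : W_24 (nat_lit 5) (nat_lit 0x2800140012000f8000000000000000000000000000000) (nat_lit 0x0) (nat_lit 0x2000500022000400100018000000000000000000000000000) := T_24 (nat_lit 128) (nat_lit 142) (nat_lit 1) (nat_lit 9) (nat_lit 7) L63040 (by decide +kernel)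
theorem L63042 : W_24 (nat_lit 6) (nat_lit 0x2800140012000b8000000000000000000000000000000) (nat_lit 0x0) (nat_lit 0x2000500022000500140018000000000000000000000000000) := T_24 (nat_lit 126) (nat_lit 140) (nat_lit 1) (nat_lit 8) (nat_lit 7) L63041 (by decide +kernel)
theorem L63043 : W_24 (nat_lit 7) (nat_lit 0x280014001200098000000000000000000000000000000) (nat_lit 0x0) (nat_lit 0x2000500022000500160019000000000000000000000000000) := T_24 (nat_lit 125) (nat_lit 108) (nat_lit 6) (nat_lit 5) (nat_lit 10) L63042 (by decide +kernel)
theorem L63044 : W_24 (nat_lit 8) (nat_lit 0x280014001200090000000000000000000000000000000) (nat_lit 0x0) (nat_lit 0x2000500022000500168019400000000000000000000000000) := T_24 (nat_lit 123) (nat_lit 106) (nat_lit 4) (nat_lit 5) (nat_lit 10) L63043 (by decide +kernel)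
theorem L63045 : W_24 (nat_lit 9) (nat_lit 0x280014001200080000000000000000000000000000000) (nat_lit 0x0) (nat_lit 0x2800540022000500178019c00020000000000000000000000) := Q_24 (nat_lit 124) (C_24 L62945 (C_24 L63044 (C_24 L62864 (C_24 L62925 N_24)))) (by decide +kernel)
theorem L63046 : W_24 (nat_lit 2) (nat_lit 0x3800140012000f0000000000000000000000000000000) (nat_lit 0x0) (nat_lit 0x8000c00000000000000000000000000) := D_24 (nat_lit 106) (nat_lit 107) (nat_lit 123) (nat_lit 0) (nat_lit 8) (nat_lit 7) (nat_lit 4) (nat_lit 5) (nat_lit 10) (by decide +kernel)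
theorem L63047 : W_24 (nat_lit 3) (nat_lit 0x3800140012000b0000000000000000000000000000000) (nat_lit 0x0) (nat_lit 0x100048000c00000000000000000000000000) := T_24 (nat_lit 126) (nat_lit 140) (nat_lit 1) (nat_lit 8) (nat_lit 7) L63046 (by decide +kernel)
theorem L63048 : W_24 (nat_lit 4) (nat_lit 0x380014001200090000000000000000000000000000000) (nat_lit 0x0) (nat_lit 0x100068001c00000000000000000000000000) := T_24 (nat_lit 125) (nat_lit 108) (nat_lit 6) (nat_lit 5) (nat_lit 10) L63047 (by decide +kernel)
theorem L63049 : W_24 (nat_lit 5) (nat_lit 0x380014001200080000000000000000000000000000000) (nat_lit 0x0) (nat_lit 0x2000000000000100078001c00000000000000000000000000) := T_24 (nat_lit 124) (nat_lit 193) (nat_lit 7) (nat_lit 5) (nat_lit 7) L63048 (by decide +kernel)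
theorem L63050 : W_24 (nat_lit 6) (nat_lit 0x280014001200080000000000000000000000000000000) (nat_lit 0x0) (nat_lit 0x2000540062000100078001c00000000000000000000000000) := Q_24 (nat_lit 176) (C_24 L63049 (C_24 L63030 N_24)) (by decide +kernel)
theorem L63051 : W_24 (nat_lit 2) (nat_lit 0x10003800140012000b8000000000000000000000000000000) (nat_lit 0x0) (nat_lit 0x10000800400000000000000000000000000000000000000000000) := D_24 (nat_lit 191) (nat_lit 208) (nat_lit 178) (nat_lit 5) (nat_lit 5) (nat_lit 8) (nat_lit 1) (nat_lit 8) (nat_lit 10) (by decide +kernel)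
theorem L63052 : W_24 (nat_lit 3) (nat_lit 0x3800140012000b8000000000000000000000000000000) (nat_lit 0x0) (nat_lit 0x10001800400000000400000000000000000000000000000000000) := T_24 (nat_lit 192) (nat_lit 142) (nat_lit 6) (nat_lit 5) (nat_lit 11) L63051 (by decide +kernel)
theorem L63053 : W_24 (nat_lit 4) (nat_lit 0x3800140012000b0000000000000000000000000000000) (nat_lit 0x0) (nat_lit 0x10001800400000000400008000400000000000000000000000000) := T_24 (nat_lit 123) (nat_lit 106) (nat_lit 4) (nat_lit 5) (nat_lit 10) L63052 (by decide +kernel)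
theorem L63054 : W_24 (nat_lit 5) (nat_lit 0x380014001200090000000000000000000000000000000) (nat_lit 0x0) (nat_lit 0x10001800400000000400028001400000000000000000000000000) := T_24 (nat_lit 125) (nat_lit 108) (nat_lit 6) (nat_lit 5) (nat_lit 10) L63053 (by decide +kernel)
theorem L63055 : W_24 (nat_lit 6) (nat_lit 0x380014001200080000000000000000000000000000000) (nat_lit 0x0) (nat_lit 0x10003800400000000400038001400000000000000000000000000) := T_24 (nat_lit 124) (nat_lit 193) (nat_lit 7) (nat_lit 5) (nat_lit 7) L63054 (by decide +kernel)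
theorem L63056 : W_24 (nat_lit 7) (nat_lit 0x280014001200080000000000000000000000000000000) (nat_lit 0x0) (nat_lit 0x10003c00540062000400038001c00000000000000000000000000) := Q_24 (nat_lit 176) (C_24 L62856 (C_24 L63030 (C_24 L62908 (C_24 L63055 N_24)))) (by decide +kernel)
theorem L63057 : W_24 (nat_lit 2) (nat_lit 0x3800140012000f0000000000000000000000000000000) (nat_lit 0x0) (nat_lit 0x1000000000000400100000000000000000000000000000000) := D_24 (nat_lit 142) (nat_lit 192) (nat_lit 128) (nat_lit 6) (nat_lit 5) (nat_lit 11) (nat_lit 1) (nat_lit 9) (nat_lit 7) (by decide +kernel)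
theorem L63058 : W_24 (nat_lit 3) (nat_lit 0x3800140012000b0000000000000000000000000000000) (nat_lit 0x0) (nat_lit 0x1000000000000500140000000000000000000000000000000) := T_24 (nat_lit 126) (nat_lit 140) (nat_lit 1) (nat_lit 8) (nat_lit 7) L63057 (by decide +kernel)
theorem L63059 : W_24 (nat_lit 4) (nat_lit 0x380014001200090000000000000000000000000000000) (nat_lit 0x0) (nat_lit 0x1000000000000500160001000000000000000000000000000) := T_24 (nat_lit 125) (nat_lit 108) (nat_lit 6) (nat_lit 5) (nat_lit 10) L63058 (by decide +kernel)
theorem L63060 : W_24 (nat_lit 5) (nat_lit 0x380014001200080000000000000000000000000000000) (nat_lit 0x0) (nat_lit 0x3000000000000500170001000000000000000000000000000) := T_24 (nat_lit 124) (nat_lit 193) (nat_lit 7) (nat_lit 5) (nat_lit 7) L63059 (by decide +kernel)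
theorem L63061 : W_24 (nat_lit 6) (nat_lit 0x280014001200080000000000000000000000000000000) (nat_lit 0x0) (nat_lit 0x3c00540062000500170001800000000000000000000000000) := Q_24 (nat_lit 176) (C_24 L62856 (C_24 L63030 (C_24 L62908 (C_24 L63060 N_24)))) (by decide +kernel)
theorem L63062 : W_24 (nat_lit 10) (nat_lit 0x200014001200080000000000000000000000000000000) (nat_lit 0x0) (nat_lit 0xa00070003c005c0063000500178019c00020000000000000000000000) := Q_24 (nat_lit 175) (C_24 L62865 (C_24 L62903 (C_24 L63025 (C_24 L63026 (C_24 L63031 (C_24 L63032 (C_24 L63037 (C_24 L63045 (C_24 L63050 (C_24 L63056 (C_24 L63061 N_24))))))))))) (by decide +kernel)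
theorem L63063 : W_24 (nat_lit 6) (nat_lit 0x200014001200080000000000000000000000000000000) (nat_lit 0x0) (nat_lit 0x100028005f006b000180010000800000000000000000000000000) := Q_24 (nat_lit 159) (C_24 L62978 (C_24 L63019 (C_24 L63011 (C_24 L63007 N_24)))) (by decide +kernel)
theorem L63064 : W_24 (nat_lit 5) (nat_lit 0x20001c001200080000000000000000000000000000000) (nat_lit 0x0) (nat_lit 0x500003c00580000000000000000000000000000000000) := T_24 (nat_lit 157) (nat_lit 178) (nat_lit 3) (nat_lit 4) (nat_lit 9) L62968 (by decide +kernel)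
theorem L63065 : W_24 (nat_lit 2) (nat_lit 0x20001f801200080000000000000000000000000000000) (nat_lit 0x0) (nat_lit 0x38000000000000000000000000000000000000000000) := D_24 (nat_lit 172) (nat_lit 171) (nat_lit 173) (nat_lit 1) (nat_lit 5) (nat_lit 9) (nat_lit 1) (nat_lit 6) (nat_lit 9) (by decide +kernel)
theorem L63066 : W_24 (nat_lit 3) (nat_lit 0x20001f001200080000000000000000000000000000000) (nat_lit 0x0) (nat_lit 0x38000800400000000000000000000000000000000000) := T_24 (nat_lit 155) (nat_lit 142) (nat_lit 2) (nat_lit 2) (nat_lit 9) L63065 (by decide +kernel)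
theorem L63067 : W_24 (nat_lit 4) (nat_lit 0x20001e001200080000000000000000000000000000000) (nat_lit 0x0) (nat_lit 0x138001800400000000000000000000000000000000000) := T_24 (nat_lit 156) (nat_lit 176) (nat_lit 3) (nat_lit 3) (nat_lit 9) L63066 (by decide +kernel)
theorem L63068 : W_24 (nat_lit 5) (nat_lit 0x20001c001200080000000000000000000000000000000) (nat_lit 0x0) (nat_lit 0x538003800400000000000000000000000000000000000) := T_24 (nat_lit 157) (nat_lit 178) (nat_lit 3) (nat_lit 4) (nat_lit 9) L63067 (by decide +kernel)
theorem L63069 : W_24 (nat_lit 7) (nat_lit 0x200014001200080000000000000000000000000000000) (nat_lit 0x0) (nat_lit 0x75b81ebc00580000000000000000000000000000000000) := Q_24 (nat_lit 159) (C_24 L63018 (C_24 L63064 (C_24 L62981 (C_24 L63007 (C_24 L63068 N_24))))) (by decide +kernel)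
theorem L63070 : W_24 (nat_lit 2) (nat_lit 0x500010002800140012000b8000000000000000000000000000000) (nat_lit 0x0) (nat_lit 0xa00020000000000000000000000000000000000000000000000000000) := D_24 (nat_lit 209) (nat_lit 225) (nat_lit 227) (nat_lit 5) (nat_lit 5) (nat_lit 9) (nat_lit 7) (nat_lit 5) (nat_lit 9) (by decide +kernel)
theorem L63071 : W_24 (nat_lit 3) (nat_lit 0x100010002800140012000b8000000000000000000000000000000) (nat_lit 0x0) (nat_lit 0xa00060002000000000000000000000000000000000000000000000000) := T_24 (nat_lit 210) (nat_lit 193) (nat_lit 7) (nat_lit 5) (nat_lit 8) L63070 (by decide +kernel)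
theorem L63072 : W_24 (nat_lit 4) (nat_lit 0x10002800140012000b8000000000000000000000000000000) (nat_lit 0x0) (nat_lit 0xa00070002800000000000000000000000000000000000000000000000) := T_24 (nat_lit 208) (nat_lit 191) (nat_lit 5) (nat_lit 5) (nat_lit 8) L63071 (by decide +kernel)
theorem L63073 : W_24 (nat_lit 5) (nat_lit 0x2800140012000b8000000000000000000000000000000) (nat_lit 0x0) (nat_lit 0xa00070003800000000000400000000000000000000000000000000000) := T_24 (nat_lit 192) (nat_lit 142) (nat_lit 6) (nat_lit 5) (nat_lit 11) L63072 (by decide +kernel)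
theorem L63074 : W_24 (nat_lit 6) (nat_lit 0x280014001200098000000000000000000000000000000) (nat_lit 0x0) (nat_lit 0xa00070003800000000000400020001000000000000000000000000000) := T_24 (nat_lit 125) (nat_lit 108) (nat_lit 6) (nat_lit 5) (nat_lit 10) L63073 (by decide +kernel)
theorem L63075 : W_24 (nat_lit 7) (nat_lit 0x280014001200090000000000000000000000000000000) (nat_lit 0x0) (nat_lit 0xa00070003800000000000400028001400000000000000000000000000) := T_24 (nat_lit 123) (nat_lit 106) (nat_lit 4) (nat_lit 5) (nat_lit 10) L63074 (by decide +kernel)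
theorem L63076 : W_24 (nat_lit 2) (nat_lit 0x2800140012000b0000400000000000000000000000000) (nat_lit 0x0) (nat_lit 0x40000800020000000000000000000000) := D_24 (nat_lit 107) (nat_lit 89) (nat_lit 126) (nat_lit 4) (nat_lit 5) (nat_lit 9) (nat_lit 0) (nat_lit 8) (nat_lit 7) (by decide +kernel)
theorem L63077 : W_24 (nat_lit 3) (nat_lit 0x2800140012000b0000000000000000000000000000000) (nat_lit 0x0) (nat_lit 0x48000c00020000000000000000000000) := T_24 (nat_lit 106) (nat_lit 123) (nat_lit 4) (nat_lit 5) (nat_lit 10) L63076 (by decide +kernel)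
theorem L63078 : W_24 (nat_lit 4) (nat_lit 0x280014001200090000000000000000000000000000000) (nat_lit 0x0) (nat_lit 0x68001c00020000000000000000000000) := T_24 (nat_lit 125) (nat_lit 108) (nat_lit 6) (nat_lit 5) (nat_lit 10) L63077 (by decide +kernel)
theorem L63079 : W_24 (nat_lit 2) (nat_lit 0x2c00140012000b0000800000000000000000000000000) (nat_lit 0x0) (nat_lit 0x40000400020000000000000000000000) := D_24 (nat_lit 106) (nat_lit 89) (nat_lit 126) (nat_lit 4) (nat_lit 5) (nat_lit 9) (nat_lit 0) (nat_lit 8) (nat_lit 7) (by decide +kernel)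
theorem L63080 : W_24 (nat_lit 3) (nat_lit 0x2c00140012000b0000000000000000000000000000000) (nat_lit 0x0) (nat_lit 0x2000000040000c00020000000000000000000000) := T_24 (nat_lit 107) (nat_lit 157) (nat_lit 5) (nat_lit 5) (nat_lit 6) L63079 (by decide +kernel)
theorem L63081 : W_24 (nat_lit 4) (nat_lit 0x2800140012000b0000000000000000000000000000000) (nat_lit 0x0) (nat_lit 0x800040002000000040000c00020000000000000000000000) := T_24 (nat_lit 174) (nat_lit 191) (nat_lit 5) (nat_lit 5) (nat_lit 7) L63080 (by decide +kernel)
theorem L63082 : W_24 (nat_lit 5) (nat_lit 0x280014001200090000000000000000000000000000000) (nat_lit 0x0) (nat_lit 0x800040002000000060001c00020000000000000000000000) := T_24 (nat_lit 125) (nat_lit 108) (nat_lit 6) (nat_lit 5) (nat_lit 10) L63081 (by decide +kernel)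
theorem L63083 : W_24 (nat_lit 2) (nat_lit 0x2c001c0012000b0000800000000000000000000000000) (nat_lit 0x0) (nat_lit 0x1000000000000400000000000040000000000000000000000) := D_24 (nat_lit 142) (nat_lit 192) (nat_lit 90) (nat_lit 6) (nat_lit 5) (nat_lit 11) (nat_lit 7) (nat_lit 5) (nat_lit 5) (by decide +kernel)
theorem L63084 : W_24 (nat_lit 3) (nat_lit 0x2c00140012000b0000800000000000000000000000000) (nat_lit 0x0) (nat_lit 0x1000000028000400000000000040000000000000000000000) := T_24 (nat_lit 159) (nat_lit 161) (nat_lit 1) (nat_lit 8) (nat_lit 9) L63083 (by decide +kernel)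
theorem L63085 : W_24 (nat_lit 4) (nat_lit 0x2c00140012000b0000000000000000000000000000000) (nat_lit 0x0) (nat_lit 0x100000002a000400000000800040000000000000000000000) := T_24 (nat_lit 107) (nat_lit 157) (nat_lit 5) (nat_lit 5) (nat_lit 6) L63084 (by decide +kernel)
theorem L63086 : W_24 (nat_lit 5) (nat_lit 0x2800140012000b0000000000000000000000000000000) (nat_lit 0x0) (nat_lit 0x180004002a000400000000800040000000000000000000000) := T_24 (nat_lit 174) (nat_lit 191) (nat_lit 5) (nat_lit 5) (nat_lit 7) L63085 (by decide +kernel)
theorem L63087 : W_24 (nat_lit 6) (nat_lit 0x280014001200090000000000000000000000000000000) (nat_lit 0x0) (nat_lit 0x180004002a000400020001800040000000000000000000000) := T_24 (nat_lit 125) (nat_lit 108) (nat_lit 6) (nat_lit 5) (nat_lit 10) L63086 (by decide +kernel)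
theorem L63088 : W_24 (nat_lit 8) (nat_lit 0x280014001200080000000000000000000000000000000) (nat_lit 0x0) (nat_lit 0xa0007000380004002a000400078001c00060000000000000000000000) := Q_24 (nat_lit 124) (C_24 L62945 (C_24 L63075 (C_24 L63078 (C_24 L63082 (C_24 L63087 N_24))))) (by decide +kernel)
theorem L63091 : W_24 (nat_lit 4) (nat_lit 0x2c0034001200080000000000000000000000000000000) (nat_lit 0x0) (nat_lit 0x800000002000000018000c00020000000000000000000000) := T_24 (nat_lit 124) (nat_lit 191) (nat_lit 5) (nat_lit 5) (nat_lit 7) L63090 (by decide +kernel)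
theorem L63092 : W_24 (nat_lit 5) (nat_lit 0x2c0014001200080000000000000000000000000000000) (nat_lit 0x0) (nat_lit 0x80000002a000000018000c00020000000000000000000000) := T_24 (nat_lit 161) (nat_lit 159) (nat_lit 1) (nat_lit 8) (nat_lit 9) L63091 (by decide +kernel)
theorem L63093 : W_24 (nat_lit 4) (nat_lit 0x2c0014001200080000000000000000000000000000000) (nat_lit 0x0) (nat_lit 0x800000002000000018000c00020000000000000000000000) := T_24 (nat_lit 124) (nat_lit 191) (nat_lit 5) (nat_lit 5) (nat_lit 7) L62944 (by decide +kernel)
theorem L63094 : W_24 (nat_lit 6) (nat_lit 0x280014001200080000000000000000000000000000000) (nat_lit 0x0) (nat_lit 0x80014002a000000018000c00020000000000000000000000) := Q_24 (nat_lit 174) (C_24 L51830 (C_24 L63092 (C_24 L63093 N_24))) (by decide +kernel)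
theorem L63095 : W_24 (nat_lit 11) (nat_lit 0x280014001200080000000000000000000000000000000) (nat_lit 0x0) (nat_lit 0x10003e0017001b80050000a000400038001c00080000000000000000000000) := Q_24 (nat_lit 176) (C_24 L62889 (C_24 L63055 (C_24 L62923 (C_24 L62960 N_24)))) (by decide +kernel)
theorem L63096 : W_24 (nat_lit 11) (nat_lit 0x280014001200080000000000000000000000000000000) (nat_lit 0x0) (nat_lit 0x10003e00170019e0056006a000400020000000000000000000000000000000) := Q_24 (nat_lit 176) (C_24 L62860 (C_24 L63030 (C_24 L62960 N_24))) (by decide +kernel)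
theorem L63097 : W_24 (nat_lit 5) (nat_lit 0x280014001200080000000000000000000000000000000) (nat_lit 0x0) (nat_lit 0x200054006a000000030001800080000000000000000000000) := Q_24 (nat_lit 176) (C_24 L62889 (C_24 L63030 N_24)) (by decide +kernel)
theorem L63098 : W_24 (nat_lit 12) (nat_lit 0x200014001200080000000000000000000000000000000) (nat_lit 0x0) (nat_lit 0x10003e0017001be005e006b000400078001c000e0000000000000000000000) := Q_24 (nat_lit 175) (C_24 L62890 (C_24 L63056 (C_24 L62961 (C_24 L63088 (C_24 L62947 (C_24 L63094 (C_24 L63095 (C_24 L63096 (C_24 L63097 N_24))))))))) (by decide +kernel)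
theorem L63099 : W_24 (nat_lit 16) (nat_lit 0x200010001200080000000000000000000000000000000) (nat_lit 0x0) (nat_lit 0x10007e003f001be075f81efc00580178019c000e0000000000000000000000) := Q_24 (nat_lit 158) (C_24 L62891 (C_24 L62962 (C_24 L63004 (C_24 L63012 (C_24 L63013 (C_24 L63020 (C_24 L63062 (C_24 L63063 (C_24 L63069 (C_24 L63098 N_24)))))))))) (by decide +kernel)
theorem L63100 : W_24 (nat_lit 2) (nat_lit 0x3800b40012000f0000000000000000000000000000000) (nat_lit 0x0) (nat_lit 0x8000c00000000000000000000000000) := D_24 (nat_lit 106) (nat_lit 107) (nat_lit 123) (nat_lit 0) (nat_lit 8) (nat_lit 7) (nat_lit 4) (nat_lit 5) (nat_lit 10) (by decide +kernel)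
theorem L63101 : W_24 (nat_lit 3) (nat_lit 0x3800b40012000b0000000000000000000000000000000) (nat_lit 0x0) (nat_lit 0x100048000c00000000000000000000000000) := T_24 (nat_lit 126) (nat_lit 140) (nat_lit 1) (nat_lit 8) (nat_lit 7) L63100 (by decide +kernel)
theorem L63102 : W_24 (nat_lit 4) (nat_lit 0x3800b4001200090000000000000000000000000000000) (nat_lit 0x0) (nat_lit 0x100068001c00000000000000000000000000) := T_24 (nat_lit 125) (nat_lit 108) (nat_lit 6) (nat_lit 5) (nat_lit 10) L63101 (by decide +kernel)
theorem L63103 : W_24 (nat_lit 5) (nat_lit 0x3800b4001200080000000000000000000000000000000) (nat_lit 0x0) (nat_lit 0x2000000000000100078001c00000000000000000000000000) := T_24 (nat_lit 124) (nat_lit 193) (nat_lit 7) (nat_lit 5) (nat_lit 7) L63102 (by decide +kernel)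
theorem L63104 : W_24 (nat_lit 6) (nat_lit 0x3000b4001200080000000000000000000000000000000) (nat_lit 0x0) (nat_lit 0x20000c0000000100078001c00000000000000000000000000) := T_24 (nat_lit 175) (nat_lit 174) (nat_lit 2) (nat_lit 4) (nat_lit 10) L63103 (by decide +kernel)
theorem L63105 : W_24 (nat_lit 7) (nat_lit 0x300034001200080000000000000000000000000000000) (nat_lit 0x0) (nat_lit 0x20000c00c0000100078001c00000000000000000000000000) := T_24 (nat_lit 163) (nat_lit 162) (nat_lit 1) (nat_lit 10) (nat_lit 9) L63104 (by decide +kernel)
theorem L63106 : W_24 (nat_lit 2) (nat_lit 0x380034001200080000000000000000000000000000000) (nat_lit 0x0) (nat_lit 0x4000c0000000000000000000000000000000000000000) := D_24 (nat_lit 162) (nat_lit 163) (nat_lit 178) (nat_lit 1) (nat_lit 10) (nat_lit 9) (nat_lit 2) (nat_lit 5) (nat_lit 10) (by decide +kernel)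
theorem L63107 : W_24 (nat_lit 3) (nat_lit 0x300034001200080000000000000000000000000000000) (nat_lit 0x0) (nat_lit 0x4c00c0000000000000000000000000000000000000000) := T_24 (nat_lit 175) (nat_lit 174) (nat_lit 2) (nat_lit 4) (nat_lit 10) L63106 (by decide +kernel)
theorem L63108 : W_24 (nat_lit 2) (nat_lit 0x300074001a000c0000000000000000000000000000000) (nat_lit 0x0) (nat_lit 0x8000400000000000000002000000000000000000000000000) := D_24 (nat_lit 178) (nat_lit 195) (nat_lit 109) (nat_lit 7) (nat_lit 7) (nat_lit 7) (nat_lit 7) (nat_lit 7) (nat_lit 6) (by decide +kernel)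
theorem L63109 : W_24 (nat_lit 3) (nat_lit 0x300074001a00080000000000000000000000000000000) (nat_lit 0x0) (nat_lit 0xa000400000000000040002000000000000000000000000000) := T_24 (nat_lit 126) (nat_lit 193) (nat_lit 5) (nat_lit 7) (nat_lit 7) L63108 (by decide +kernel)
theorem L63110 : W_24 (nat_lit 4) (nat_lit 0x300074001200080000000000000000000000000000000) (nat_lit 0x0) (nat_lit 0xa000400000000c00040002000000000000000000000000000) := T_24 (nat_lit 143) (nat_lit 142) (nat_lit 3) (nat_lit 5) (nat_lit 8) L63109 (by decide +kernel)
theorem L63111 : W_24 (nat_lit 5) (nat_lit 0x300034001200080000000000000000000000000000000) (nat_lit 0x0) (nat_lit 0xa0004000c0000c00040002000000000000000000000000000) := T_24 (nat_lit 162) (nat_lit 163) (nat_lit 1) (nat_lit 10) (nat_lit 9) L63110 (by decide +kernel)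
theorem L63112 : W_24 (nat_lit 2) (nat_lit 0x3800340012000f0000000000000000000000000000000) (nat_lit 0x0) (nat_lit 0x8000c00000000000000000000000000) := D_24 (nat_lit 106) (nat_lit 107) (nat_lit 123) (nat_lit 0) (nat_lit 8) (nat_lit 7) (nat_lit 4) (nat_lit 5) (nat_lit 10) (by decide +kernel)
theorem L63113 : W_24 (nat_lit 3) (nat_lit 0x3800340012000b0000000000000000000000000000000) (nat_lit 0x0) (nat_lit 0x100048000c00000000000000000000000000) := T_24 (nat_lit 126) (nat_lit 140) (nat_lit 1) (nat_lit 8) (nat_lit 7) L63112 (by decide +kernel)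
theorem L63114 : W_24 (nat_lit 4) (nat_lit 0x380034001200090000000000000000000000000000000) (nat_lit 0x0) (nat_lit 0x100068001c00000000000000000000000000) := T_24 (nat_lit 125) (nat_lit 108) (nat_lit 6) (nat_lit 5) (nat_lit 10) L63113 (by decide +kernel)
theorem L63115 : W_24 (nat_lit 5) (nat_lit 0x380034001200080000000000000000000000000000000) (nat_lit 0x0) (nat_lit 0x2000000000000100078001c00000000000000000000000000) := T_24 (nat_lit 124) (nat_lit 193) (nat_lit 7) (nat_lit 5) (nat_lit 7) L63114 (by decide +kernel)
theorem L63116 : W_24 (nat_lit 6) (nat_lit 0x300034001200080000000000000000000000000000000) (nat_lit 0x0) (nat_lit 0x20000c0000000100078001c00000000000000000000000000) := T_24 (nat_lit 175) (nat_lit 174) (nat_lit 2) (nat_lit 4) (nat_lit 10) L63115 (by decide +kernel)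
theorem L63117 : W_24 (nat_lit 8) (nat_lit 0x200034001200080000000000000000000000000000000) (nat_lit 0x0) (nat_lit 0xa0005c00c0000d00078003c00000000000000000000000000) := Q_24 (nat_lit 176) (C_24 L63105 (C_24 L63107 (C_24 L63111 (C_24 L63116 N_24)))) (by decide +kernel)
theorem L63118 : W_24 (nat_lit 6) (nat_lit 0x200034001200080000000000000000000000000000000) (nat_lit 0x0) (nat_lit 0x75001c8000500000000000000000000000000000000000) := T_24 (nat_lit 159) (nat_lit 140) (nat_lit 0) (nat_lit 8) (nat_lit 9) L63017 (by decide +kernel)
theorem L63119 : W_24 (nat_lit 4) (nat_lit 0x200034001200080000000000000000000000000000000) (nat_lit 0x0) (nat_lit 0x1800c8000500000000000000000000000000000000000) := T_24 (nat_lit 159) (nat_lit 140) (nat_lit 0) (nat_lit 8) (nat_lit 9) L62980 (by decide +kernel)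
theorem L63120 : W_24 (nat_lit 5) (nat_lit 0x200034001200080000000000000000000000000000000) (nat_lit 0x0) (nat_lit 0x10000c0048000500020001000000000000000000000000000) := T_24 (nat_lit 159) (nat_lit 140) (nat_lit 0) (nat_lit 8) (nat_lit 9) L62973 (by decide +kernel)
theorem L63121 : W_24 (nat_lit 5) (nat_lit 0x200034001200080000000000000000000000000000000) (nat_lit 0x0) (nat_lit 0x20001c0048000100010000800000000000000000000000000) := T_24 (nat_lit 159) (nat_lit 140) (nat_lit 0) (nat_lit 8) (nat_lit 9) L62977 (by decide +kernel)
theorem L63122 : W_24 (nat_lit 2) (nat_lit 0x280034001700080000000000000000000000000000000) (nat_lit 0x0) (nat_lit 0x1000000000000000028000000000000000000000000000000) := D_24 (nat_lit 192) (nat_lit 125) (nat_lit 123) (nat_lit 6) (nat_lit 5) (nat_lit 11) (nat_lit 4) (nat_lit 5) (nat_lit 11) (by decide +kernel)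
theorem L63123 : W_24 (nat_lit 3) (nat_lit 0x280034001300080000000000000000000000000000000) (nat_lit 0x0) (nat_lit 0x1000000000000c00028000000000000000000000000000000) := T_24 (nat_lit 142) (nat_lit 143) (nat_lit 3) (nat_lit 4) (nat_lit 8) L63122 (by decide +kernel)
theorem L63124 : W_24 (nat_lit 4) (nat_lit 0x280034001200080000000000000000000000000000000) (nat_lit 0x0) (nat_lit 0x1000000008000d00028000000000000000000000000000000) := T_24 (nat_lit 140) (nat_lit 159) (nat_lit 0) (nat_lit 8) (nat_lit 9) L63123 (by decide +kernel)
theorem L63125 : W_24 (nat_lit 7) (nat_lit 0x200034001200080000000000000000000000000000000) (nat_lit 0x0) (nat_lit 0x18001c0008000d00078001400000000000000000000000000) := Q_24 (nat_lit 175) (C_24 L51404 (C_24 L51408 (C_24 L62870 (C_24 L63124 N_24)))) (by decide +kernel)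
theorem L63126 : W_24 (nat_lit 2) (nat_lit 0x200074001200080000000000000000000000000000000) (nat_lit 0x0) (nat_lit 0x8000c00000000000000000000000000000000000) := D_24 (nat_lit 142) (nat_lit 159) (nat_lit 143) (nat_lit 0) (nat_lit 9) (nat_lit 9) (nat_lit 3) (nat_lit 5) (nat_lit 8) (by decide +kernel)
theorem L63127 : W_24 (nat_lit 5) (nat_lit 0x200074001200080000000000000000000000000000000) (nat_lit 0x0) (nat_lit 0x7500188000400000000000000000000000000000000000) := T_24 (nat_lit 159) (nat_lit 142) (nat_lit 0) (nat_lit 9) (nat_lit 9) L63016 (by decide +kernel)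
theorem L63128 : W_24 (nat_lit 2) (nat_lit 0x2000f4001200080000000000000000000000000000000) (nat_lit 0x0) (nat_lit 0x400100000800000000000000000000000000000000000) := D_24 (nat_lit 164) (nat_lit 143) (nat_lit 178) (nat_lit 0) (nat_lit 11) (nat_lit 9) (nat_lit 1) (nat_lit 11) (nat_lit 9) (by decide +kernel)
theorem L63129 : W_24 (nat_lit 3) (nat_lit 0x200074001200080000000000000000000000000000000) (nat_lit 0x0) (nat_lit 0x500180000800000000000000000000000000000000000) := T_24 (nat_lit 163) (nat_lit 176) (nat_lit 1) (nat_lit 10) (nat_lit 9) L63128 (by decide +kernel)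
theorem L63130 : W_24 (nat_lit 6) (nat_lit 0x200034001200080000000000000000000000000000000) (nat_lit 0x0) (nat_lit 0x75001c8000c00000000000000000000000000000000000) := Q_24 (nat_lit 162) (C_24 L63126 (C_24 L63127 (C_24 L63129 N_24))) (by decide +kernel)
theorem L63131 : W_24 (nat_lit 9) (nat_lit 0x200014001200080000000000000000000000000000000) (nat_lit 0x0) (nat_lit 0xb8075c01e8000d00078003c00000000000000000000000000) := Q_24 (nat_lit 161) (C_24 L63117 (C_24 L63118 (C_24 L63119 (C_24 L63120 (C_24 L63121 (C_24 L63125 (C_24 L63130 N_24))))))) (by decide +kernel)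
theorem L63132 : W_24 (nat_lit 13) (nat_lit 0x200010001200080000000000000000000000000000000) (nat_lit 0x0) (nat_lit 0x10003e0017001be075f81efc00d8017801bc000e0000000000000000000000) := Q_24 (nat_lit 158) (C_24 L62962 (C_24 L63004 (C_24 L63098 (C_24 L63012 (C_24 L63069 (C_24 L63020 (C_24 L63062 (C_24 L63063 (C_24 L63131 N_24))))))))) (by decide +kernel)
theorem L63133 : W_24 (nat_lit 2) (nat_lit 0x700010001a000c0002000080000000000000000000000) (nat_lit 0x0) (nat_lit 0x10000c000000000000000000) := D_24 (nat_lit 92) (nat_lit 75) (nat_lit 74) (nat_lit 7) (nat_lit 7) (nat_lit 4) (nat_lit 4) (nat_lit 7) (nat_lit 8) (by decide +kernel)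
theorem L63134 : W_24 (nat_lit 3) (nat_lit 0x700010001a000c0002000000000000000000000000000) (nat_lit 0x0) (nat_lit 0x100018000c000000000000000000) := T_24 (nat_lit 91) (nat_lit 108) (nat_lit 4) (nat_lit 7) (nat_lit 9) L63133 (by decide +kernel)
theorem L63135 : W_24 (nat_lit 4) (nat_lit 0x700010001a000c0000000000000000000000000000000) (nat_lit 0x0) (nat_lit 0x800000000000300018000c000000000000000000) := T_24 (nat_lit 109) (nat_lit 159) (nat_lit 5) (nat_lit 7) (nat_lit 6) L63134 (by decide +kernel)
theorem L63136 : W_24 (nat_lit 5) (nat_lit 0x600010001a000c0000000000000000000000000000000) (nat_lit 0x0) (nat_lit 0x200010000800000000000300018000c000000000000000000) := T_24 (nat_lit 176) (nat_lit 193) (nat_lit 5) (nat_lit 7) (nat_lit 7) L63135 (by decide +kernel)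
theorem L63137 : W_24 (nat_lit 6) (nat_lit 0x200010001a000c0000000000000000000000000000000) (nat_lit 0x0) (nat_lit 0xa00050000800000000000300018000c000000000000000000) := T_24 (nat_lit 178) (nat_lit 195) (nat_lit 7) (nat_lit 7) (nat_lit 7) L63136 (by decide +kernel)
theorem L63138 : W_24 (nat_lit 2) (nat_lit 0x70001c001a000d0000000000000000000000000000000) (nat_lit 0x0) (nat_lit 0x100028000000000000000000000000000000) := D_24 (nat_lit 125) (nat_lit 123) (nat_lit 140) (nat_lit 3) (nat_lit 4) (nat_lit 7) (nat_lit 1) (nat_lit 8) (nat_lit 7) (by decide +kernel)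
theorem L63139 : W_24 (nat_lit 3) (nat_lit 0x70001c001a000c0000000000000000000000000000000) (nat_lit 0x0) (nat_lit 0x100038000800000000000000000000000000) := T_24 (nat_lit 124) (nat_lit 107) (nat_lit 7) (nat_lit 5) (nat_lit 6) L63138 (by decide +kernel)
theorem L63140 : W_24 (nat_lit 4) (nat_lit 0x700018001a000c0000000000000000000000000000000) (nat_lit 0x0) (nat_lit 0x6000100038000800000000000000000000000000) := T_24 (nat_lit 158) (nat_lit 157) (nat_lit 3) (nat_lit 4) (nat_lit 9) L63139 (by decide +kernel)
theorem L63141 : W_24 (nat_lit 5) (nat_lit 0x300018001a000c0000000000000000000000000000000) (nat_lit 0x0) (nat_lit 0x8000400006000100038000800000000000000000000000000) := T_24 (nat_lit 178) (nat_lit 195) (nat_lit 7) (nat_lit 7) (nat_lit 7) L63140 (by decide +kernel)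
theorem L63142 : W_24 (nat_lit 6) (nat_lit 0x300010001a000c0000000000000000000000000000000) (nat_lit 0x0) (nat_lit 0x800040000e000100038002800000000000000000000000000) := T_24 (nat_lit 159) (nat_lit 109) (nat_lit 5) (nat_lit 7) (nat_lit 6) L63141 (by decide +kernel)
theorem L63143 : W_24 (nat_lit 7) (nat_lit 0x200010001a000c0000000000000000000000000000000) (nat_lit 0x0) (nat_lit 0xa00050000e000100038002800000000000000000000000000) := T_24 (nat_lit 176) (nat_lit 193) (nat_lit 5) (nat_lit 7) (nat_lit 7) L63142 (by decide +kernel)
theorem L63144 : W_24 (nat_lit 8) (nat_lit 0x200010001a00080000000000000000000000000000000) (nat_lit 0x0) (nat_lit 0xa00050000e00010007800380018000c000000000000000000) := Q_24 (nat_lit 126) (C_24 L31808 (C_24 L63137 (C_24 L63143 N_24))) (by decide +kernel)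
theorem L63145 : W_24 (nat_lit 2) (nat_lit 0x200010001f00080000000000000000000000000000000) (nat_lit 0x0) (nat_lit 0x7000000000000000000000000000000000000000) := D_24 (nat_lit 157) (nat_lit 156) (nat_lit 158) (nat_lit 1) (nat_lit 7) (nat_lit 8) (nat_lit 1) (nat_lit 8) (nat_lit 8) (by decide +kernel)
theorem L63146 : W_24 (nat_lit 3) (nat_lit 0x200010001e00080000000000000000000000000000000) (nat_lit 0x0) (nat_lit 0x7000100040000000000000000000000000000000) := T_24 (nat_lit 140) (nat_lit 126) (nat_lit 2) (nat_lit 4) (nat_lit 8) L63145 (by decide +kernel)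
theorem L63147 : W_24 (nat_lit 4) (nat_lit 0x200010001a00080000000000000000000000000000000) (nat_lit 0x0) (nat_lit 0x7000500140000000000000000000000000000000) := T_24 (nat_lit 142) (nat_lit 128) (nat_lit 2) (nat_lit 5) (nat_lit 8) L63146 (by decide +kernel)
theorem L63152 : W_24 (nat_lit 6) (nat_lit 0x200012001e00080000000000000000000000000000000) (nat_lit 0x0) (nat_lit 0x90001c003f000000000000000000000000000000) := T_24 (nat_lit 124) (nat_lit 123) (nat_lit 0) (nat_lit 8) (nat_lit 8) L63151 (by decide +kernel)
theorem L63153 : W_24 (nat_lit 7) (nat_lit 0x200010001e00080000000000000000000000000000000) (nat_lit 0x0) (nat_lit 0xf0001c003f000000000000000000000000000000) := T_24 (nat_lit 157) (nat_lit 158) (nat_lit 1) (nat_lit 8) (nat_lit 8) L63152 (by decide +kernel)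
theorem L63154 : W_24 (nat_lit 8) (nat_lit 0x200010001a00080000000000000000000000000000000) (nat_lit 0x0) (nat_lit 0xf0005c013f000000000000000000000000000000) := T_24 (nat_lit 142) (nat_lit 128) (nat_lit 2) (nat_lit 5) (nat_lit 8) L63153 (by decide +kernel)
theorem L63155 : W_24 (nat_lit 2) (nat_lit 0x200010001f00080000000000000000000000000000000) (nat_lit 0x0) (nat_lit 0x1c000000000000000000000000000000) := D_24 (nat_lit 123) (nat_lit 124) (nat_lit 122) (nat_lit 0) (nat_lit 8) (nat_lit 8) (nat_lit 0) (nat_lit 7) (nat_lit 8) (by decide +kernel)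
theorem L63156 : W_24 (nat_lit 3) (nat_lit 0x200010001e00080000000000000000000000000000000) (nat_lit 0x0) (nat_lit 0x10005c000000000000000000000000000000) := T_24 (nat_lit 140) (nat_lit 126) (nat_lit 2) (nat_lit 4) (nat_lit 8) L63155 (by decide +kernel)
theorem L63157 : W_24 (nat_lit 4) (nat_lit 0x200010001a00080000000000000000000000000000000) (nat_lit 0x0) (nat_lit 0x50015c000000000000000000000000000000) := T_24 (nat_lit 142) (nat_lit 128) (nat_lit 2) (nat_lit 5) (nat_lit 8) L63156 (by decide +kernel)
theorem L63158 : W_24 (nat_lit 2) (nat_lit 0x700014001e000d0001000000000000000000000000000) (nat_lit 0x0) (nat_lit 0x2800080000000000000000000000) := D_24 (nat_lit 91) (nat_lit 109) (nat_lit 107) (nat_lit 4) (nat_lit 7) (nat_lit 9) (nat_lit 6) (nat_lit 5) (nat_lit 9) (by decide +kernel)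
theorem L63159 : W_24 (nat_lit 3) (nat_lit 0x700014001e000d0000000000000000000000000000000) (nat_lit 0x0) (nat_lit 0x20003800080000000000000000000000) := T_24 (nat_lit 108) (nat_lit 125) (nat_lit 4) (nat_lit 7) (nat_lit 10) L63158 (by decide +kernel)
theorem L63160 : W_24 (nat_lit 4) (nat_lit 0x600014001e000d0000000000000000000000000000000) (nat_lit 0x0) (nat_lit 0x2000100000000000020003800080000000000000000000000) := T_24 (nat_lit 176) (nat_lit 193) (nat_lit 5) (nat_lit 7) (nat_lit 7) L63159 (by decide +kernel)
theorem L63161 : W_24 (nat_lit 5) (nat_lit 0x200014001e000d0000000000000000000000000000000) (nat_lit 0x0) (nat_lit 0xa000500000000000020003800080000000000000000000000) := T_24 (nat_lit 178) (nat_lit 195) (nat_lit 7) (nat_lit 7) (nat_lit 7) L63160 (by decide +kernel)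
theorem L63162 : W_24 (nat_lit 6) (nat_lit 0x200014001e000c0000000000000000000000000000000) (nat_lit 0x0) (nat_lit 0xa000500000000000038003800080000000000000000000000) := T_24 (nat_lit 124) (nat_lit 123) (nat_lit 0) (nat_lit 8) (nat_lit 8) L63161 (by decide +kernel)
theorem L63163 : W_24 (nat_lit 7) (nat_lit 0x200010001e000c0000000000000000000000000000000) (nat_lit 0x0) (nat_lit 0xa000500006000000038003800080000000000000000000000) := T_24 (nat_lit 158) (nat_lit 157) (nat_lit 1) (nat_lit 8) (nat_lit 8) L63162 (by decide +kernel)
theorem L63164 : W_24 (nat_lit 8) (nat_lit 0x200010001a000c0000000000000000000000000000000) (nat_lit 0x0) (nat_lit 0xa000500006000400138003800080000000000000000000000) := T_24 (nat_lit 142) (nat_lit 128) (nat_lit 2) (nat_lit 5) (nat_lit 8) L63163 (by decide +kernel)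
theorem L63165 : W_24 (nat_lit 2) (nat_lit 0x200010001a001e8010000000000000000000000000000) (nat_lit 0x0) (nat_lit 0x600020000000000000000000000000000) := D_24 (nat_lit 129) (nat_lit 130) (nat_lit 113) (nat_lit 1) (nat_lit 11) (nat_lit 7) (nat_lit 2) (nat_lit 7) (nat_lit 7) (by decide +kernel)
theorem L63166 : W_24 (nat_lit 3) (nat_lit 0x200010001a001e8000000000000000000000000000000) (nat_lit 0x0) (nat_lit 0x600038000000000000000000000000000) := T_24 (nat_lit 112) (nat_lit 111) (nat_lit 2) (nat_lit 6) (nat_lit 7) L63165 (by decide +kernel)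
theorem L63167 : W_24 (nat_lit 4) (nat_lit 0x200010001a000e8000000000000000000000000000000) (nat_lit 0x0) (nat_lit 0x400700038000000000000000000000000000) := T_24 (nat_lit 128) (nat_lit 142) (nat_lit 2) (nat_lit 5) (nat_lit 8) L63166 (by decide +kernel)
theorem L63168 : W_24 (nat_lit 5) (nat_lit 0x200010001a000e0000000000000000000000000000000) (nat_lit 0x0) (nat_lit 0x400718038000000000000000000000000000) := T_24 (nat_lit 123) (nat_lit 124) (nat_lit 3) (nat_lit 4) (nat_lit 7) L63167 (by decide +kernel)
theorem L63169 : W_24 (nat_lit 6) (nat_lit 0x200010001a000c0000000000000000000000000000000) (nat_lit 0x0) (nat_lit 0x400738039000000000000000000000000000) := T_24 (nat_lit 125) (nat_lit 108) (nat_lit 4) (nat_lit 7) (nat_lit 10) L63168 (by decide +kernel)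
theorem L63170 : W_24 (nat_lit 2) (nat_lit 0x700014001e000d0000000000000000000000000000000) (nat_lit 0x0) (nat_lit 0x8000000000002800000000000000000000000000) := D_24 (nat_lit 159) (nat_lit 109) (nat_lit 107) (nat_lit 5) (nat_lit 7) (nat_lit 6) (nat_lit 7) (nat_lit 5) (nat_lit 6) (by decide +kernel)
theorem L63171 : W_24 (nat_lit 3) (nat_lit 0x600014001e000d0000000000000000000000000000000) (nat_lit 0x0) (nat_lit 0x2000100008000000000002800000000000000000000000000) := T_24 (nat_lit 176) (nat_lit 193) (nat_lit 5) (nat_lit 7) (nat_lit 7) L63170 (by decide +kernel)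
theorem L63172 : W_24 (nat_lit 4) (nat_lit 0x200014001e000d0000000000000000000000000000000) (nat_lit 0x0) (nat_lit 0xa000500008000000000002800000000000000000000000000) := T_24 (nat_lit 178) (nat_lit 195) (nat_lit 7) (nat_lit 7) (nat_lit 7) L63171 (by decide +kernel)
theorem L63173 : W_24 (nat_lit 5) (nat_lit 0x200014001e000c0000000000000000000000000000000) (nat_lit 0x0) (nat_lit 0xa000500008000000018002800000000000000000000000000) := T_24 (nat_lit 124) (nat_lit 123) (nat_lit 0) (nat_lit 8) (nat_lit 8) L63172 (by decide +kernel)
theorem L63174 : W_24 (nat_lit 6) (nat_lit 0x200010001e000c0000000000000000000000000000000) (nat_lit 0x0) (nat_lit 0xa00050000e000000018002800000000000000000000000000) := T_24 (nat_lit 158) (nat_lit 157) (nat_lit 1) (nat_lit 8) (nat_lit 8) L63173 (by decide +kernel)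
theorem L63175 : W_24 (nat_lit 7) (nat_lit 0x200010001a000c0000000000000000000000000000000) (nat_lit 0x0) (nat_lit 0xa00050000e000400118002800000000000000000000000000) := T_24 (nat_lit 142) (nat_lit 128) (nat_lit 2) (nat_lit 5) (nat_lit 8) L63174 (by decide +kernel)
theorem L63176 : W_24 (nat_lit 9) (nat_lit 0x200010001a00080000000000000000000000000000000) (nat_lit 0x0) (nat_lit 0xa00050000e00040077803b80018000c000000000000000000) := Q_24 (nat_lit 126) (C_24 L63137 (C_24 L63164 (C_24 L63169 (C_24 L63175 N_24)))) (by decide +kernel)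
theorem L63177 : W_24 (nat_lit 10) (nat_lit 0x200010001200080000000000000000000000000000000) (nat_lit 0x0) (nat_lit 0xa00050000f000dc077f03b80018000c000000000000000000) := Q_24 (nat_lit 143) (C_24 L63144 (C_24 L63147 (C_24 L63154 (C_24 L63157 (C_24 L63176 N_24))))) (by decide +kernel)
theorem L63178 : W_24 (nat_lit 2) (nat_lit 0x200018001600090001800000000000000000000000000) (nat_lit 0x0) (nat_lit 0x2000100004000000000000000000000000000000000000000) := D_24 (nat_lit 176) (nat_lit 193) (nat_lit 158) (nat_lit 4) (nat_lit 6) (nat_lit 11) (nat_lit 7) (nat_lit 5) (nat_lit 6) (by decide +kernel)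
theorem L63179 : W_24 (nat_lit 3) (nat_lit 0x200018001600090001000000000000000000000000000) (nat_lit 0x0) (nat_lit 0x2000100004000000000000800040000000000000000000000) := T_24 (nat_lit 107) (nat_lit 90) (nat_lit 7) (nat_lit 5) (nat_lit 5) L63178 (by decide +kernel)
theorem L63180 : W_24 (nat_lit 4) (nat_lit 0x200018001600090000000000000000000000000000000) (nat_lit 0x0) (nat_lit 0x2000100004000000020001800040000000000000000000000) := T_24 (nat_lit 108) (nat_lit 125) (nat_lit 7) (nat_lit 6) (nat_lit 6) L63179 (by decide +kernel)
theorem L63181 : W_24 (nat_lit 2) (nat_lit 0x20001c001680090001800000000000000000000000000) (nat_lit 0x0) (nat_lit 0x440002000000000000000000000000000000000000000) := D_24 (nat_lit 157) (nat_lit 174) (nat_lit 178) (nat_lit 5) (nat_lit 5) (nat_lit 6) (nat_lit 3) (nat_lit 4) (nat_lit 9) (by decide +kernel)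
theorem L63182 : W_24 (nat_lit 3) (nat_lit 0x200018001680090001800000000000000000000000000) (nat_lit 0x0) (nat_lit 0x440006000000000000000080000000000000000000000) := T_24 (nat_lit 158) (nat_lit 91) (nat_lit 6) (nat_lit 5) (nat_lit 9) L63181 (by decide +kernel)
theorem L63183 : W_24 (nat_lit 4) (nat_lit 0x200018001600090001800000000000000000000000000) (nat_lit 0x0) (nat_lit 0x440006000180000000000080000000000000000000000) := T_24 (nat_lit 139) (nat_lit 140) (nat_lit 3) (nat_lit 3) (nat_lit 8) L63182 (by decide +kernel)
theorem L63184 : W_24 (nat_lit 5) (nat_lit 0x200018001600090001000000000000000000000000000) (nat_lit 0x0) (nat_lit 0x4400060001800000008000c0000000000000000000000) := T_24 (nat_lit 107) (nat_lit 90) (nat_lit 7) (nat_lit 5) (nat_lit 5) L63183 (by decide +kernel)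
theorem L63185 : W_24 (nat_lit 6) (nat_lit 0x200018001600090000000000000000000000000000000) (nat_lit 0x0) (nat_lit 0x4400060001800200018000c0000000000000000000000) := T_24 (nat_lit 108) (nat_lit 125) (nat_lit 7) (nat_lit 6) (nat_lit 6) L63184 (by decide +kernel)
theorem L63186 : W_24 (nat_lit 2) (nat_lit 0x300018001680090000000000000000000000000000000) (nat_lit 0x0) (nat_lit 0x4000000000000800040000000000000000000000) := D_24 (nat_lit 107) (nat_lit 90) (nat_lit 158) (nat_lit 7) (nat_lit 5) (nat_lit 5) (nat_lit 7) (nat_lit 5) (nat_lit 6) (by decide +kernel)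
theorem L63187 : W_24 (nat_lit 3) (nat_lit 0x200018001680090000000000000000000000000000000) (nat_lit 0x0) (nat_lit 0x2000100004000000000000800040000000000000000000000) := T_24 (nat_lit 176) (nat_lit 193) (nat_lit 4) (nat_lit 6) (nat_lit 11) L63186 (by decide +kernel)
theorem L63188 : W_24 (nat_lit 4) (nat_lit 0x200018001600090000000000000000000000000000000) (nat_lit 0x0) (nat_lit 0x2000100004000180000000800040000000000000000000000) := T_24 (nat_lit 139) (nat_lit 140) (nat_lit 3) (nat_lit 3) (nat_lit 8) L63187 (by decide +kernel)
theorem L63189 : W_24 (nat_lit 2) (nat_lit 0x3c00180017000b0000000040000000000000000000000) (nat_lit 0x0) (nat_lit 0xc00000002000000000000000000000000000000000000000) := D_24 (nat_lit 191) (nat_lit 190) (nat_lit 157) (nat_lit 1) (nat_lit 7) (nat_lit 10) (nat_lit 6) (nat_lit 4) (nat_lit 11) (by decide +kernel)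
theorem L63190 : W_24 (nat_lit 3) (nat_lit 0x3800180017000b0000000040000000000000000000000) (nat_lit 0x0) (nat_lit 0xc00060002000000000000000000000000000000000000000) := T_24 (nat_lit 174) (nat_lit 173) (nat_lit 2) (nat_lit 3) (nat_lit 10) L63189 (by decide +kernel)
theorem L63191 : W_24 (nat_lit 4) (nat_lit 0x3000180017000b0000000040000000000000000000000) (nat_lit 0x0) (nat_lit 0x1c000e0002000000000000000000000000000000000000000) := T_24 (nat_lit 175) (nat_lit 192) (nat_lit 5) (nat_lit 6) (nat_lit 7) L63190 (by decide +kernel)
theorem L63192 : W_24 (nat_lit 5) (nat_lit 0x2000180017000b0000000040000000000000000000000) (nat_lit 0x0) (nat_lit 0x3c001e0002000000000000000000000000000000000000000) := T_24 (nat_lit 176) (nat_lit 193) (nat_lit 4) (nat_lit 6) (nat_lit 11) L63191 (by decide +kernel)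
theorem L63193 : W_24 (nat_lit 6) (nat_lit 0x2000180016000b0000000040000000000000000000000) (nat_lit 0x0) (nat_lit 0x3c001e0002000180000000000000000000000000000000000) := T_24 (nat_lit 140) (nat_lit 139) (nat_lit 3) (nat_lit 3) (nat_lit 8) L63192 (by decide +kernel)
theorem L63194 : W_24 (nat_lit 7) (nat_lit 0x200018001600090000000040000000000000000000000) (nat_lit 0x0) (nat_lit 0x3c001e0002000180020001000000000000000000000000000) := T_24 (nat_lit 125) (nat_lit 108) (nat_lit 7) (nat_lit 6) (nat_lit 6) L63193 (by decide +kernel)
theorem L63195 : W_24 (nat_lit 8) (nat_lit 0x200018001600090000000000000000000000000000000) (nat_lit 0x0) (nat_lit 0x3c001e0002000180020001800040000000000000000000000) := T_24 (nat_lit 90) (nat_lit 107) (nat_lit 7) (nat_lit 5) (nat_lit 5) L63194 (by decide +kernel)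
theorem L63196 : W_24 (nat_lit 2) (nat_lit 0x3c00180016800b0000000000000000000000000000000) (nat_lit 0x0) (nat_lit 0xc00000004000000000000000000000000000000000000000) := D_24 (nat_lit 191) (nat_lit 190) (nat_lit 158) (nat_lit 1) (nat_lit 7) (nat_lit 10) (nat_lit 5) (nat_lit 5) (nat_lit 7) (by decide +kernel)
theorem L63197 : W_24 (nat_lit 3) (nat_lit 0x3800180016800b0000000000000000000000000000000) (nat_lit 0x0) (nat_lit 0xc00060004000000000000000000000000000000000000000) := T_24 (nat_lit 174) (nat_lit 173) (nat_lit 2) (nat_lit 3) (nat_lit 10) L63196 (by decide +kernel)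
theorem L63198 : W_24 (nat_lit 4) (nat_lit 0x3000180016800b0000000000000000000000000000000) (nat_lit 0x0) (nat_lit 0x1c000e0004000000000000000000000000000000000000000) := T_24 (nat_lit 175) (nat_lit 192) (nat_lit 5) (nat_lit 6) (nat_lit 7) L63197 (by decide +kernel)
theorem L63199 : W_24 (nat_lit 5) (nat_lit 0x3000180016000b0000000000000000000000000000000) (nat_lit 0x0) (nat_lit 0x1c000e0004000180000000000000000000000000000000000) := T_24 (nat_lit 139) (nat_lit 140) (nat_lit 3) (nat_lit 3) (nat_lit 8) L63198 (by decide +kernel)
theorem L63200 : W_24 (nat_lit 6) (nat_lit 0x300018001600090000000000000000000000000000000) (nat_lit 0x0) (nat_lit 0x1c000e0004000180020001000000000000000000000000000) := T_24 (nat_lit 125) (nat_lit 108) (nat_lit 7) (nat_lit 6) (nat_lit 6) L63199 (by decide +kernel)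
theorem L63201 : W_24 (nat_lit 7) (nat_lit 0x200018001600090000000000000000000000000000000) (nat_lit 0x0) (nat_lit 0x3c001e0004000180020001000000000000000000000000000) := T_24 (nat_lit 176) (nat_lit 193) (nat_lit 4) (nat_lit 6) (nat_lit 11) L63200 (by decide +kernel)
theorem L63202 : W_24 (nat_lit 9) (nat_lit 0x200018001600080000000000000000000000000000000) (nat_lit 0x0) (nat_lit 0x3c005e00060001800300018000c0000000000000000000000) := Q_24 (nat_lit 124) (C_24 L63180 (C_24 L63185 (C_24 L63188 (C_24 L63195 (C_24 L63201 N_24))))) (by decide +kernel)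
theorem L63203 : W_24 (nat_lit 2) (nat_lit 0x200018001700080000000000000000000000000000000) (nat_lit 0x0) (nat_lit 0x64000000000000000000000000000000000000000) := D_24 (nat_lit 161) (nat_lit 162) (nat_lit 158) (nat_lit 0) (nat_lit 9) (nat_lit 9) (nat_lit 0) (nat_lit 8) (nat_lit 9) (by decide +kernel)
theorem L63204 : W_24 (nat_lit 3) (nat_lit 0x200018001600080000000000000000000000000000000) (nat_lit 0x0) (nat_lit 0x64000180000000000000000000000000000000000) := T_24 (nat_lit 140) (nat_lit 139) (nat_lit 3) (nat_lit 3) (nat_lit 8) L63203 (by decide +kernel)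
theorem L63205 : W_24 (nat_lit 2) (nat_lit 0x800000003000300058001680080000000000000000000000000000000) (nat_lit 0x0) (nat_lit 0x80000000000020001000000000000000000000000000) := D_24 (nat_lit 125) (nat_lit 175) (nat_lit 108) (nat_lit 5) (nat_lit 6) (nat_lit 7) (nat_lit 7) (nat_lit 6) (nat_lit 6) (by decide +kernel)
theorem L63206 : W_24 (nat_lit 3) (nat_lit 0x800000002000300058001680080000000000000000000000000000000) (nat_lit 0x0) (nat_lit 0x20001000080000000000020001000000000000000000000000000) := T_24 (nat_lit 192) (nat_lit 209) (nat_lit 5) (nat_lit 6) (nat_lit 8) L63205 (by decide +kernel)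
theorem L63207 : W_24 (nat_lit 4) (nat_lit 0x2000300058001680080000000000000000000000000000000) (nat_lit 0x0) (nat_lit 0x800060001000080000000000020001000000000000000000000000000) := T_24 (nat_lit 227) (nat_lit 210) (nat_lit 6) (nat_lit 6) (nat_lit 13) L63206 (by decide +kernel)
theorem L63208 : W_24 (nat_lit 5) (nat_lit 0x2000300058001600080000000000000000000000000000000) (nat_lit 0x0) (nat_lit 0x800060001000080000000180020001000000000000000000000000000) := T_24 (nat_lit 139) (nat_lit 140) (nat_lit 3) (nat_lit 3) (nat_lit 8) L63207 (by decide +kernel)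
theorem L63209 : W_24 (nat_lit 6) (nat_lit 0x300058001600080000000000000000000000000000000) (nat_lit 0x0) (nat_lit 0x800060003000080000000180030001000000000000000000000000000) := T_24 (nat_lit 193) (nat_lit 124) (nat_lit 4) (nat_lit 6) (nat_lit 11) L63208 (by decide +kernel)
theorem L63210 : W_24 (nat_lit 7) (nat_lit 0x300018001600080000000000000000000000000000000) (nat_lit 0x0) (nat_lit 0x800060003000080060000180030001000000000000000000000000000) := T_24 (nat_lit 162) (nat_lit 161) (nat_lit 0) (nat_lit 9) (nat_lit 9) L63209 (by decide +kernel)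
theorem L63211 : W_24 (nat_lit 2) (nat_lit 0x20002000300018001680080001000000000000000000000000000) (nat_lit 0x0) (nat_lit 0xc00040000000000000000000000000000000000000000000000000000) := D_24 (nat_lit 210) (nat_lit 227) (nat_lit 226) (nat_lit 6) (nat_lit 6) (nat_lit 13) (nat_lit 5) (nat_lit 6) (nat_lit 9) (by decide +kernel)
theorem L63212 : W_24 (nat_lit 3) (nat_lit 0x2000300018001680080001000000000000000000000000000) (nat_lit 0x0) (nat_lit 0xc00060001000000000000000000000000000000000000000000000000) := T_24 (nat_lit 209) (nat_lit 192) (nat_lit 5) (nat_lit 6) (nat_lit 8) L63211 (by decide +kernel)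
theorem L63213 : W_24 (nat_lit 4) (nat_lit 0x300018001680080001000000000000000000000000000) (nat_lit 0x0) (nat_lit 0xc00060003000000000000000010000000000000000000000000000000) := T_24 (nat_lit 193) (nat_lit 124) (nat_lit 4) (nat_lit 6) (nat_lit 11) L63212 (by decide +kernel)
theorem L63214 : W_24 (nat_lit 5) (nat_lit 0x300018001600080001000000000000000000000000000) (nat_lit 0x0) (nat_lit 0xc00060003000000000000180010000000000000000000000000000000) := T_24 (nat_lit 139) (nat_lit 140) (nat_lit 3) (nat_lit 3) (nat_lit 8) L63213 (by decide +kernel)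
theorem L63215 : W_24 (nat_lit 6) (nat_lit 0x300018001600080000000000000000000000000000000) (nat_lit 0x0) (nat_lit 0xc00060003000000000000180030001000000000000000000000000000) := T_24 (nat_lit 108) (nat_lit 125) (nat_lit 7) (nat_lit 6) (nat_lit 6) L63214 (by decide +kernel)
theorem L63216 : W_24 (nat_lit 2) (nat_lit 0x8000000038003c0058001700080000000000000000000000000000000) (nat_lit 0x0) (nat_lit 0x3000000008000000000000000000000000000000) := D_24 (nat_lit 157) (nat_lit 156) (nat_lit 123) (nat_lit 0) (nat_lit 7) (nat_lit 10) (nat_lit 7) (nat_lit 4) (nat_lit 7) (by decide +kernel)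
theorem L63217 : W_24 (nat_lit 3) (nat_lit 0x800000003800380058001700080000000000000000000000000000000) (nat_lit 0x0) (nat_lit 0x60003000000008000000000000000000000000000000) := T_24 (nat_lit 174) (nat_lit 173) (nat_lit 2) (nat_lit 3) (nat_lit 10) L63216 (by decide +kernel)
theorem L63218 : W_24 (nat_lit 4) (nat_lit 0x800000003800300058001700080000000000000000000000000000000) (nat_lit 0x0) (nat_lit 0x4e0003000000008000000000000000000000000000000) := T_24 (nat_lit 175) (nat_lit 178) (nat_lit 1) (nat_lit 8) (nat_lit 10) L63217 (by decide +kernel)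
theorem L63219 : W_24 (nat_lit 5) (nat_lit 0x800000003800300058001600080000000000000000000000000000000) (nat_lit 0x0) (nat_lit 0x4e0003000180008000000000000000000000000000000) := T_24 (nat_lit 140) (nat_lit 139) (nat_lit 3) (nat_lit 3) (nat_lit 8) L63218 (by decide +kernel)
theorem L63220 : W_24 (nat_lit 6) (nat_lit 0x800000003000300058001600080000000000000000000000000000000) (nat_lit 0x0) (nat_lit 0xc004e0003000180008000000000000000000000000000000) := T_24 (nat_lit 191) (nat_lit 190) (nat_lit 2) (nat_lit 3) (nat_lit 11) L63219 (by decide +kernel)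
theorem L63221 : W_24 (nat_lit 7) (nat_lit 0x800000002000300058001600080000000000000000000000000000000) (nat_lit 0x0) (nat_lit 0x20001c004e0003000180008000000000000000000000000000000) := T_24 (nat_lit 192) (nat_lit 209) (nat_lit 5) (nat_lit 6) (nat_lit 8) L63220 (by decide +kernel)
theorem L63222 : W_24 (nat_lit 8) (nat_lit 0x2000300058001600080000000000000000000000000000000) (nat_lit 0x0) (nat_lit 0x800060001c004e0003000180008000000000000000000000000000000) := T_24 (nat_lit 227) (nat_lit 210) (nat_lit 6) (nat_lit 6) (nat_lit 13) L63221 (by decide +kernel)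
theorem L63223 : W_24 (nat_lit 9) (nat_lit 0x2000300018001600080000000000000000000000000000000) (nat_lit 0x0) (nat_lit 0x800060001c004e0063000180008000000000000000000000000000000) := T_24 (nat_lit 162) (nat_lit 161) (nat_lit 0) (nat_lit 9) (nat_lit 9) L63222 (by decide +kernel)
theorem L63224 : W_24 (nat_lit 10) (nat_lit 0x300018001600080000000000000000000000000000000) (nat_lit 0x0) (nat_lit 0x800060003c004e0063000180018000000000000000000000000000000) := T_24 (nat_lit 193) (nat_lit 124) (nat_lit 4) (nat_lit 6) (nat_lit 11) L63223 (by decide +kernel)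
theorem L63225 : W_24 (nat_lit 2) (nat_lit 0x300058001600090000000000000000000000000000000) (nat_lit 0x0) (nat_lit 0x20001800000000000000000000000000) := D_24 (nat_lit 125) (nat_lit 108) (nat_lit 107) (nat_lit 7) (nat_lit 6) (nat_lit 6) (nat_lit 4) (nat_lit 6) (nat_lit 10) (by decide +kernel)
theorem L63226 : W_24 (nat_lit 3) (nat_lit 0x300058001600080000000000000000000000000000000) (nat_lit 0x0) (nat_lit 0x2000000000000000030001800000000000000000000000000) := T_24 (nat_lit 124) (nat_lit 193) (nat_lit 4) (nat_lit 6) (nat_lit 11) L63225 (by decide +kernel)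
theorem L63227 : W_24 (nat_lit 4) (nat_lit 0x300018001600080000000000000000000000000000000) (nat_lit 0x0) (nat_lit 0x2000000060000000030001800000000000000000000000000) := T_24 (nat_lit 162) (nat_lit 161) (nat_lit 0) (nat_lit 9) (nat_lit 9) L63226 (by decide +kernel)
theorem L63228 : W_24 (nat_lit 11) (nat_lit 0x200018001600080000000000000000000000000000000) (nat_lit 0x0) (nat_lit 0xc00060003c005e0063000180038001800000000000000000000000000) := Q_24 (nat_lit 176) (C_24 L63210 (C_24 L63215 (C_24 L63224 (C_24 L39292 (C_24 L63227 N_24))))) (by decide +kernel)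
theorem L63229 : W_24 (nat_lit 2) (nat_lit 0x2000300018001600080000000000000000000000000000000) (nat_lit 0x0) (nat_lit 0x800040000000000004000000000000000000000000000000000000000) := D_24 (nat_lit 210) (nat_lit 158) (nat_lit 227) (nat_lit 4) (nat_lit 6) (nat_lit 12) (nat_lit 6) (nat_lit 6) (nat_lit 13) (by decide +kernel)
theorem L63230 : W_24 (nat_lit 3) (nat_lit 0x300018001600080000000000000000000000000000000) (nat_lit 0x0) (nat_lit 0x800040002000000004000000010000000000000000000000000000000) := T_24 (nat_lit 193) (nat_lit 124) (nat_lit 4) (nat_lit 6) (nat_lit 11) L63229 (by decide +kernel)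
theorem L63231 : W_24 (nat_lit 2) (nat_lit 0x3c00580016000b0000000000000000000000000000000) (nat_lit 0x0) (nat_lit 0xc00000004000000000000000000000000000000000000000) := D_24 (nat_lit 191) (nat_lit 190) (nat_lit 158) (nat_lit 1) (nat_lit 7) (nat_lit 10) (nat_lit 5) (nat_lit 5) (nat_lit 7) (by decide +kernel)
theorem L63232 : W_24 (nat_lit 3) (nat_lit 0x3800580016000b0000000000000000000000000000000) (nat_lit 0x0) (nat_lit 0xc00060004000000000000000000000000000000000000000) := T_24 (nat_lit 174) (nat_lit 173) (nat_lit 2) (nat_lit 3) (nat_lit 10) L63231 (by decide +kernel)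
theorem L63233 : W_24 (nat_lit 4) (nat_lit 0x3000580016000b0000000000000000000000000000000) (nat_lit 0x0) (nat_lit 0x1c000e0004000000000000000000000000000000000000000) := T_24 (nat_lit 175) (nat_lit 192) (nat_lit 5) (nat_lit 6) (nat_lit 7) L63232 (by decide +kernel)
theorem L63234 : W_24 (nat_lit 5) (nat_lit 0x3000580016000a0000000000000000000000000000000) (nat_lit 0x0) (nat_lit 0x1c000e0004000000010000800000000000000000000000000) := T_24 (nat_lit 124) (nat_lit 107) (nat_lit 4) (nat_lit 6) (nat_lit 10) L63233 (by decide +kernel)
theorem L63235 : W_24 (nat_lit 6) (nat_lit 0x3000180016000a0000000000000000000000000000000) (nat_lit 0x0) (nat_lit 0x1c000e0064000000010000800000000000000000000000000) := T_24 (nat_lit 162) (nat_lit 161) (nat_lit 0) (nat_lit 9) (nat_lit 9) L63234 (by decide +kernel)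
theorem L63236 : W_24 (nat_lit 7) (nat_lit 0x300018001600080000000000000000000000000000000) (nat_lit 0x0) (nat_lit 0x1c000e0064000000030001800000000000000000000000000) := T_24 (nat_lit 125) (nat_lit 108) (nat_lit 7) (nat_lit 6) (nat_lit 6) L63235 (by decide +kernel)
theorem L63237 : W_24 (nat_lit 2) (nat_lit 0x8003c005a0016000a0000000000000000000000000000000) (nat_lit 0x0) (nat_lit 0x10000000400004000000000000000000000000000000000000000) := D_24 (nat_lit 158) (nat_lit 178) (nat_lit 208) (nat_lit 3) (nat_lit 4) (nat_lit 9) (nat_lit 6) (nat_lit 4) (nat_lit 12) (by decide +kernel)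
theorem L63238 : W_24 (nat_lit 3) (nat_lit 0x8003c00580016000a0000000000000000000000000000000) (nat_lit 0x0) (nat_lit 0x10000000400007000000000000000000000000000000000000000) := T_24 (nat_lit 157) (nat_lit 156) (nat_lit 0) (nat_lit 7) (nat_lit 10) L63237 (by decide +kernel)
theorem L63239 : W_24 (nat_lit 4) (nat_lit 0x3c00580016000a0000000000000000000000000000000) (nat_lit 0x0) (nat_lit 0x10000c00400007000000000000000000000000000000000000000) := T_24 (nat_lit 191) (nat_lit 190) (nat_lit 1) (nat_lit 7) (nat_lit 10) L63238 (by decide +kernel)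
theorem L63240 : W_24 (nat_lit 5) (nat_lit 0x3800580016000a0000000000000000000000000000000) (nat_lit 0x0) (nat_lit 0x10000c00460007000000000000000000000000000000000000000) := T_24 (nat_lit 174) (nat_lit 173) (nat_lit 2) (nat_lit 3) (nat_lit 10) L63239 (by decide +kernel)
theorem L63241 : W_24 (nat_lit 6) (nat_lit 0x3000580016000a0000000000000000000000000000000) (nat_lit 0x0) (nat_lit 0x10001c004e0007000000000000000000000000000000000000000) := T_24 (nat_lit 175) (nat_lit 192) (nat_lit 5) (nat_lit 6) (nat_lit 7) L63240 (by decide +kernel)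
theorem L63242 : W_24 (nat_lit 7) (nat_lit 0x300058001600080000000000000000000000000000000) (nat_lit 0x0) (nat_lit 0x10001c004e0007000000020001000000000000000000000000000) := T_24 (nat_lit 125) (nat_lit 108) (nat_lit 7) (nat_lit 6) (nat_lit 6) L63241 (by decide +kernel)
theorem L63243 : W_24 (nat_lit 8) (nat_lit 0x300018001600080000000000000000000000000000000) (nat_lit 0x0) (nat_lit 0x10001c004e0067000000020001000000000000000000000000000) := T_24 (nat_lit 162) (nat_lit 161) (nat_lit 0) (nat_lit 9) (nat_lit 9) L63242 (by decide +kernel)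
theorem L63244 : W_24 (nat_lit 9) (nat_lit 0x200018001600080000000000000000000000000000000) (nat_lit 0x0) (nat_lit 0x800050003c005e0067000000030001800000000000000000000000000) := Q_24 (nat_lit 176) (C_24 L63227 (C_24 L63230 (C_24 L63236 (C_24 L63243 N_24)))) (by decide +kernel)
theorem L63245 : W_24 (nat_lit 12) (nat_lit 0x200010001600080000000000000000000000000000000) (nat_lit 0x0) (nat_lit 0xc00070003c005e006f0001800380018000c0000000000000000000000) := Q_24 (nat_lit 159) (C_24 L63202 (C_24 L63204 (C_24 L63228 (C_24 L63244 N_24)))) (by decide +kernel)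
theorem L63246 : W_24 (nat_lit 8) (nat_lit 0x200010001600080000000000000000000000000000000) (nat_lit 0x0) (nat_lit 0xf0009c013f000000000000000000000000000000) := T_24 (nat_lit 143) (nat_lit 128) (nat_lit 2) (nat_lit 5) (nat_lit 8) L63153 (by decide +kernel)
theorem L63247 : W_24 (nat_lit 2) (nat_lit 0x200010001e00080000000000000000000000000000000) (nat_lit 0x0) (nat_lit 0x60000100000000000000000000000000000000000) := D_24 (nat_lit 161) (nat_lit 140) (nat_lit 162) (nat_lit 3) (nat_lit 4) (nat_lit 8) (nat_lit 3) (nat_lit 5) (nat_lit 8) (by decide +kernel)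
theorem L63248 : W_24 (nat_lit 3) (nat_lit 0x200010001600080000000000000000000000000000000) (nat_lit 0x0) (nat_lit 0x60000900100000000000000000000000000000000) := T_24 (nat_lit 143) (nat_lit 128) (nat_lit 2) (nat_lit 5) (nat_lit 8) L63247 (by decide +kernel)
theorem L63249 : W_24 (nat_lit 2) (nat_lit 0x200028003c001e00090001c00000000000000000000000000) (nat_lit 0x0) (nat_lit 0x60001000000000000000000000000000000000000000000000000) := D_24 (nat_lit 192) (nat_lit 210) (nat_lit 209) (nat_lit 7) (nat_lit 5) (nat_lit 8) (nat_lit 6) (nat_lit 5) (nat_lit 12) (by decide +kernel)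
theorem L63250 : W_24 (nat_lit 3) (nat_lit 0x200020003c001e00090001c00000000000000000000000000) (nat_lit 0x0) (nat_lit 0x600010000c0000000000000000000000000000000000000000000) := T_24 (nat_lit 175) (nat_lit 174) (nat_lit 1) (nat_lit 8) (nat_lit 9) L63249 (by decide +kernel)
theorem L63251 : W_24 (nat_lit 4) (nat_lit 0x200020003c001e00090001800000000000000000000000000) (nat_lit 0x0) (nat_lit 0x600010000c0000000000000000400020000000000000000000000) := T_24 (nat_lit 106) (nat_lit 89) (nat_lit 4) (nat_lit 5) (nat_lit 9) L63250 (by decide +kernel)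
theorem L63252 : W_24 (nat_lit 5) (nat_lit 0x2000200038001e00090001800000000000000000000000000) (nat_lit 0x0) (nat_lit 0x600010000c00040000000000004000a0000000000000000000000) := T_24 (nat_lit 158) (nat_lit 91) (nat_lit 6) (nat_lit 5) (nat_lit 9) L63251 (by decide +kernel)
theorem L63253 : W_24 (nat_lit 6) (nat_lit 0x2000200038001e00090001000000000000000000000000000) (nat_lit 0x0) (nat_lit 0x600010000c0004000000000000c000e0000000000000000000000) := T_24 (nat_lit 107) (nat_lit 90) (nat_lit 7) (nat_lit 5) (nat_lit 5) L63252 (by decide +kernel)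
theorem L63254 : W_24 (nat_lit 7) (nat_lit 0x2000200038001e00090000000000000000000000000000000) (nat_lit 0x0) (nat_lit 0x600010000c0004000000020001c000e0000000000000000000000) := T_24 (nat_lit 108) (nat_lit 125) (nat_lit 7) (nat_lit 6) (nat_lit 6) L63253 (by decide +kernel)
theorem L63255 : W_24 (nat_lit 8) (nat_lit 0x200038001e00090000000000000000000000000000000) (nat_lit 0x0) (nat_lit 0x600030001c0004000000020001c000e0000000000000000000000) := T_24 (nat_lit 193) (nat_lit 176) (nat_lit 4) (nat_lit 6) (nat_lit 11) L63254 (by decide +kernel)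
theorem L63256 : W_24 (nat_lit 9) (nat_lit 0x200018001e00090000000000000000000000000000000) (nat_lit 0x0) (nat_lit 0x600030001c0064000000020001c000e0000000000000000000000) := T_24 (nat_lit 161) (nat_lit 162) (nat_lit 3) (nat_lit 5) (nat_lit 8) L63255 (by decide +kernel)
theorem L63257 : W_24 (nat_lit 10) (nat_lit 0x200018001e00080000000000000000000000000000000) (nat_lit 0x0) (nat_lit 0x600030001c0064000000038001c000e0000000000000000000000) := T_24 (nat_lit 124) (nat_lit 123) (nat_lit 0) (nat_lit 8) (nat_lit 8) L63256 (by decide +kernel)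
theorem L63258 : W_24 (nat_lit 11) (nat_lit 0x200018001600080000000000000000000000000000000) (nat_lit 0x0) (nat_lit 0x600030001c0064000800138001c000e0000000000000000000000) := T_24 (nat_lit 143) (nat_lit 128) (nat_lit 2) (nat_lit 5) (nat_lit 8) L63257 (by decide +kernel)
theorem L63259 : W_24 (nat_lit 2) (nat_lit 0x20001c001e00090000000000000000000000000000000) (nat_lit 0x0) (nat_lit 0x2000100000000000000000800000000000000000000000000) := D_24 (nat_lit 176) (nat_lit 193) (nat_lit 107) (nat_lit 4) (nat_lit 6) (nat_lit 11) (nat_lit 7) (nat_lit 5) (nat_lit 6) (by decide +kernel)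
theorem L63260 : W_24 (nat_lit 3) (nat_lit 0x20001c001e00080000000000000000000000000000000) (nat_lit 0x0) (nat_lit 0x2000100000000000018000800000000000000000000000000) := T_24 (nat_lit 124) (nat_lit 123) (nat_lit 0) (nat_lit 8) (nat_lit 8) L63259 (by decide +kernel)
theorem L63261 : W_24 (nat_lit 4) (nat_lit 0x200018001e00080000000000000000000000000000000) (nat_lit 0x0) (nat_lit 0x2000100006000000018000800000000000000000000000000) := T_24 (nat_lit 158) (nat_lit 157) (nat_lit 2) (nat_lit 4) (nat_lit 9) L63260 (by decide +kernel)
theorem L63262 : W_24 (nat_lit 5) (nat_lit 0x200018001600080000000000000000000000000000000) (nat_lit 0x0) (nat_lit 0x2000100006000800118000800000000000000000000000000) := T_24 (nat_lit 143) (nat_lit 128) (nat_lit 2) (nat_lit 5) (nat_lit 8) L63261 (by decide +kernel)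
theorem L63263 : W_24 (nat_lit 2) (nat_lit 0x20005c001e00090001000000000000000000000000000) (nat_lit 0x0) (nat_lit 0x8000c0000000000000000000000) := D_24 (nat_lit 107) (nat_lit 91) (nat_lit 90) (nat_lit 6) (nat_lit 5) (nat_lit 9) (nat_lit 7) (nat_lit 5) (nat_lit 5) (by decide +kernel)
theorem L63264 : W_24 (nat_lit 3) (nat_lit 0x20005c001e00080001000000000000000000000000000) (nat_lit 0x0) (nat_lit 0x180008000c0000000000000000000000) := T_24 (nat_lit 124) (nat_lit 123) (nat_lit 0) (nat_lit 8) (nat_lit 8) L63263 (by decide +kernel)
theorem L63265 : W_24 (nat_lit 4) (nat_lit 0x200058001e00080001000000000000000000000000000) (nat_lit 0x0) (nat_lit 0x60000000180008000c0000000000000000000000) := T_24 (nat_lit 158) (nat_lit 157) (nat_lit 2) (nat_lit 4) (nat_lit 9) L63264 (by decide +kernel)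
theorem L63266 : W_24 (nat_lit 5) (nat_lit 0x200058001600080001000000000000000000000000000) (nat_lit 0x0) (nat_lit 0x60008001180008000c0000000000000000000000) := T_24 (nat_lit 143) (nat_lit 128) (nat_lit 2) (nat_lit 5) (nat_lit 8) L63265 (by decide +kernel)
theorem L63267 : W_24 (nat_lit 6) (nat_lit 0x200018001600080001000000000000000000000000000) (nat_lit 0x0) (nat_lit 0x660008001180008000c0000000000000000000000) := T_24 (nat_lit 162) (nat_lit 161) (nat_lit 0) (nat_lit 9) (nat_lit 9) L63266 (by decide +kernel)
theorem L63268 : W_24 (nat_lit 7) (nat_lit 0x200018001600080000000000000000000000000000000) (nat_lit 0x0) (nat_lit 0x660008001380018000c0000000000000000000000) := T_24 (nat_lit 108) (nat_lit 125) (nat_lit 7) (nat_lit 6) (nat_lit 6) L63267 (by decide +kernel)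
theorem L63269 : W_24 (nat_lit 2) (nat_lit 0x180038003c001e00080001000000000000000000000000000) (nat_lit 0x0) (nat_lit 0x40002400000000000000000000000000000000000000000000000) := D_24 (nat_lit 193) (nat_lit 210) (nat_lit 190) (nat_lit 7) (nat_lit 5) (nat_lit 8) (nat_lit 2) (nat_lit 3) (nat_lit 11) (by decide +kernel)
theorem L63270 : W_24 (nat_lit 3) (nat_lit 0x180028003c001e00080001000000000000000000000000000) (nat_lit 0x0) (nat_lit 0x40002400500000000000000000000000000000000000000000000) := T_24 (nat_lit 176) (nat_lit 178) (nat_lit 1) (nat_lit 8) (nat_lit 10) L63269 (by decide +kernel)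
theorem L63271 : W_24 (nat_lit 4) (nat_lit 0x100028003c001e00080001000000000000000000000000000) (nat_lit 0x0) (nat_lit 0x50002c00500000000000000000000000000000000000000000000) := T_24 (nat_lit 191) (nat_lit 208) (nat_lit 5) (nat_lit 5) (nat_lit 8) L63270 (by decide +kernel)
theorem L63272 : W_24 (nat_lit 5) (nat_lit 0x28003c001e00080001000000000000000000000000000) (nat_lit 0x0) (nat_lit 0x70003c00500000000000000000000000000000000000000000000) := T_24 (nat_lit 192) (nat_lit 209) (nat_lit 6) (nat_lit 5) (nat_lit 12) L63271 (by decide +kernel)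
theorem L63273 : W_24 (nat_lit 6) (nat_lit 0x20003c001e00080001000000000000000000000000000) (nat_lit 0x0) (nat_lit 0x70003c005c0000000000000000000000000000000000000000000) := T_24 (nat_lit 175) (nat_lit 174) (nat_lit 1) (nat_lit 8) (nat_lit 9) L63272 (by decide +kernel)
theorem L63274 : W_24 (nat_lit 7) (nat_lit 0x20001c001e00080001000000000000000000000000000) (nat_lit 0x0) (nat_lit 0x70003c005c0060000000000000000000000000000000000000000) := T_24 (nat_lit 161) (nat_lit 162) (nat_lit 3) (nat_lit 5) (nat_lit 8) L63273 (by decide +kernel)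
theorem L63275 : W_24 (nat_lit 8) (nat_lit 0x200018001e00080001000000000000000000000000000) (nat_lit 0x0) (nat_lit 0x70003c005c0066000000000000000000000000000000000000000) := T_24 (nat_lit 158) (nat_lit 157) (nat_lit 2) (nat_lit 4) (nat_lit 9) L63274 (by decide +kernel)
theorem L63276 : W_24 (nat_lit 9) (nat_lit 0x200018001600080001000000000000000000000000000) (nat_lit 0x0) (nat_lit 0x70003c005c0066000800100000000000000000000000000000000) := T_24 (nat_lit 143) (nat_lit 128) (nat_lit 2) (nat_lit 5) (nat_lit 8) L63275 (by decide +kernel)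
theorem L63277 : W_24 (nat_lit 10) (nat_lit 0x200018001600080000000000000000000000000000000) (nat_lit 0x0) (nat_lit 0x70003c005c0066000800120001000000000000000000000000000) := T_24 (nat_lit 108) (nat_lit 125) (nat_lit 7) (nat_lit 6) (nat_lit 6) L63276 (by decide +kernel)
theorem L63278 : W_24 (nat_lit 2) (nat_lit 0x200058001e000b0000000000000000000000000000000) (nat_lit 0x0) (nat_lit 0x100000000000000000800040000000000000000000000) := D_24 (nat_lit 107) (nat_lit 90) (nat_lit 176) (nat_lit 7) (nat_lit 5) (nat_lit 5) (nat_lit 4) (nat_lit 6) (nat_lit 10) (by decide +kernel)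
theorem L63279 : W_24 (nat_lit 3) (nat_lit 0x200058001e000a0000000000000000000000000000000) (nat_lit 0x0) (nat_lit 0x100000000000018000800040000000000000000000000) := T_24 (nat_lit 124) (nat_lit 123) (nat_lit 0) (nat_lit 8) (nat_lit 8) L63278 (by decide +kernel)
theorem L63280 : W_24 (nat_lit 4) (nat_lit 0x2000580016000a0000000000000000000000000000000) (nat_lit 0x0) (nat_lit 0x100000000800118000800040000000000000000000000) := T_24 (nat_lit 143) (nat_lit 128) (nat_lit 2) (nat_lit 5) (nat_lit 8) L63279 (by decide +kernel)
theorem L63281 : W_24 (nat_lit 5) (nat_lit 0x200058001600080000000000000000000000000000000) (nat_lit 0x0) (nat_lit 0x100000000800138001800040000000000000000000000) := T_24 (nat_lit 125) (nat_lit 108) (nat_lit 7) (nat_lit 6) (nat_lit 6) L63280 (by decide +kernel)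
theorem L63282 : W_24 (nat_lit 6) (nat_lit 0x200018001600080000000000000000000000000000000) (nat_lit 0x0) (nat_lit 0x100060000800138001800040000000000000000000000) := T_24 (nat_lit 162) (nat_lit 161) (nat_lit 0) (nat_lit 9) (nat_lit 9) L63281 (by decide +kernel)
theorem L63283 : W_24 (nat_lit 12) (nat_lit 0x200010001600080000000000000000000000000000000) (nat_lit 0x0) (nat_lit 0x800070003c005e006f000800138001c000e0000000000000000000000) := Q_24 (nat_lit 159) (C_24 L63258 (C_24 L63262 (C_24 L63268 (C_24 L63244 (C_24 L63277 (C_24 L63282 N_24)))))) (by decide +kernel)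
theorem L63284 : W_24 (nat_lit 13) (nat_lit 0x200010001200080000000000000000000000000000000) (nat_lit 0x0) (nat_lit 0xc00070003c005e006f000dc013f001c000e0000000000000000000000) := Q_24 (nat_lit 142) (C_24 L63245 (C_24 L63246 (C_24 L63248 (C_24 L63283 N_24)))) (by decide +kernel)
theorem L63285 : W_24 (nat_lit 2) (nat_lit 0x200018001e00090001800000000000000000000000000) (nat_lit 0x0) (nat_lit 0x6000000000000000080000000000000000000000) := D_24 (nat_lit 158) (nat_lit 157) (nat_lit 91) (nat_lit 2) (nat_lit 4) (nat_lit 9) (nat_lit 6) (nat_lit 5) (nat_lit 9) (by decide +kernel)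
theorem L63286 : W_24 (nat_lit 3) (nat_lit 0x200018001e00090001000000000000000000000000000) (nat_lit 0x0) (nat_lit 0x60000000000008000c0000000000000000000000) := T_24 (nat_lit 107) (nat_lit 90) (nat_lit 7) (nat_lit 5) (nat_lit 5) L63285 (by decide +kernel)
theorem L63287 : W_24 (nat_lit 4) (nat_lit 0x200018001e00090000000000000000000000000000000) (nat_lit 0x0) (nat_lit 0x60000000200018000c0000000000000000000000) := T_24 (nat_lit 108) (nat_lit 125) (nat_lit 7) (nat_lit 6) (nat_lit 6) L63286 (by decide +kernel)
theorem L63288 : W_24 (nat_lit 5) (nat_lit 0x200018001e00080000000000000000000000000000000) (nat_lit 0x0) (nat_lit 0x60000000380018000c0000000000000000000000) := T_24 (nat_lit 124) (nat_lit 123) (nat_lit 0) (nat_lit 8) (nat_lit 8) L63287 (by decide +kernel)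
theorem L63289 : W_24 (nat_lit 2) (nat_lit 0x380028003c001e00080001000000000000000000000000000) (nat_lit 0x0) (nat_lit 0x400100000000000040000000000000000000000000000000) := D_24 (nat_lit 176) (nat_lit 126) (nat_lit 190) (nat_lit 6) (nat_lit 6) (nat_lit 11) (nat_lit 2) (nat_lit 3) (nat_lit 11) (by decide +kernel)
theorem L63290 : W_24 (nat_lit 3) (nat_lit 0x180028003c001e00080001000000000000000000000000000) (nat_lit 0x0) (nat_lit 0x40002400100000000000040000000000000000000000000000000) := T_24 (nat_lit 193) (nat_lit 210) (nat_lit 7) (nat_lit 5) (nat_lit 8) L63289 (by decide +kernel)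
theorem L63291 : W_24 (nat_lit 4) (nat_lit 0x100028003c001e00080001000000000000000000000000000) (nat_lit 0x0) (nat_lit 0x50002c00100000000000040000000000000000000000000000000) := T_24 (nat_lit 191) (nat_lit 208) (nat_lit 5) (nat_lit 5) (nat_lit 8) L63290 (by decide +kernel)
theorem L63292 : W_24 (nat_lit 5) (nat_lit 0x28003c001e00080001000000000000000000000000000) (nat_lit 0x0) (nat_lit 0x70003c00100000000000040000000000000000000000000000000) := T_24 (nat_lit 192) (nat_lit 209) (nat_lit 6) (nat_lit 5) (nat_lit 12) L63291 (by decide +kernel)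
theorem L63293 : W_24 (nat_lit 6) (nat_lit 0x20003c001e00080001000000000000000000000000000) (nat_lit 0x0) (nat_lit 0x70003c001c0000000000040000000000000000000000000000000) := T_24 (nat_lit 175) (nat_lit 174) (nat_lit 1) (nat_lit 8) (nat_lit 9) L63292 (by decide +kernel)
theorem L63294 : W_24 (nat_lit 7) (nat_lit 0x20001c001e00080001000000000000000000000000000) (nat_lit 0x0) (nat_lit 0x70003c001c0060000000040000000000000000000000000000000) := T_24 (nat_lit 161) (nat_lit 162) (nat_lit 3) (nat_lit 5) (nat_lit 8) L63293 (by decide +kernel)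
theorem L63295 : W_24 (nat_lit 8) (nat_lit 0x20001c001e00080000000000000000000000000000000) (nat_lit 0x0) (nat_lit 0x70003c001c0060000000060001000000000000000000000000000) := T_24 (nat_lit 108) (nat_lit 125) (nat_lit 7) (nat_lit 6) (nat_lit 6) L63294 (by decide +kernel)
theorem L63296 : W_24 (nat_lit 9) (nat_lit 0x200018001e00080000000000000000000000000000000) (nat_lit 0x0) (nat_lit 0x70003c001c0066000000060001000000000000000000000000000) := T_24 (nat_lit 158) (nat_lit 157) (nat_lit 2) (nat_lit 4) (nat_lit 9) L63295 (by decide +kernel)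
theorem L63297 : W_24 (nat_lit 3) (nat_lit 0x200058001e00090000000000000000000000000000000) (nat_lit 0x0) (nat_lit 0x100000000000020001800040000000000000000000000) := T_24 (nat_lit 125) (nat_lit 108) (nat_lit 7) (nat_lit 6) (nat_lit 6) L63278 (by decide +kernel)
theorem L63298 : W_24 (nat_lit 4) (nat_lit 0x200058001e00080000000000000000000000000000000) (nat_lit 0x0) (nat_lit 0x100000000000038001800040000000000000000000000) := T_24 (nat_lit 124) (nat_lit 123) (nat_lit 0) (nat_lit 8) (nat_lit 8) L63297 (by decide +kernel)
theorem L63299 : W_24 (nat_lit 5) (nat_lit 0x200018001e00080000000000000000000000000000000) (nat_lit 0x0) (nat_lit 0x100060000000038001800040000000000000000000000) := T_24 (nat_lit 162) (nat_lit 161) (nat_lit 3) (nat_lit 5) (nat_lit 8) L63298 (by decide +kernel)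
theorem L63300 : W_24 (nat_lit 10) (nat_lit 0x200010001e00080000000000000000000000000000000) (nat_lit 0x0) (nat_lit 0x70003c001c006e0000000780018000c0000000000000000000000) := Q_24 (nat_lit 159) (C_24 L63288 (C_24 L63261 (C_24 L63296 (C_24 L63299 N_24)))) (by decide +kernel)
theorem L63301 : W_24 (nat_lit 11) (nat_lit 0x200010001600080000000000000000000000000000000) (nat_lit 0x0) (nat_lit 0x70003c001c006e00090007c0018000c0000000000000000000000) := Q_24 (nat_lit 143) (C_24 L63247 (C_24 L63156 (C_24 L63300 N_24))) (by decide +kernel)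
theorem L63302 : W_24 (nat_lit 2) (nat_lit 0x3000180016800e0000000000000000000000000000000) (nat_lit 0x0) (nat_lit 0x2000000000000000010000800000000000000000000000000) := D_24 (nat_lit 124) (nat_lit 107) (nat_lit 193) (nat_lit 4) (nat_lit 6) (nat_lit 10) (nat_lit 4) (nat_lit 6) (nat_lit 11) (by decide +kernel)
theorem L63303 : W_24 (nat_lit 3) (nat_lit 0x2000180016800e0000000000000000000000000000000) (nat_lit 0x0) (nat_lit 0x2000100000000000010002800000000000000000000000000) := T_24 (nat_lit 176) (nat_lit 109) (nat_lit 6) (nat_lit 6) (nat_lit 10) L63302 (by decide +kernel)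
theorem L63304 : W_24 (nat_lit 4) (nat_lit 0x2000180016800a0000000000000000000000000000000) (nat_lit 0x0) (nat_lit 0x2000100000000000150002800000000000000000000000000) := T_24 (nat_lit 126) (nat_lit 128) (nat_lit 1) (nat_lit 9) (nat_lit 7) L63303 (by decide +kernel)
theorem L63305 : W_24 (nat_lit 5) (nat_lit 0x2000180016000a0000000000000000000000000000000) (nat_lit 0x0) (nat_lit 0x2000100000000180150002800000000000000000000000000) := T_24 (nat_lit 139) (nat_lit 140) (nat_lit 3) (nat_lit 3) (nat_lit 8) L63304 (by decide +kernel)
theorem L63306 : W_24 (nat_lit 6) (nat_lit 0x200018001600080000000000000000000000000000000) (nat_lit 0x0) (nat_lit 0x2000100000000180170003800000000000000000000000000) := T_24 (nat_lit 125) (nat_lit 108) (nat_lit 7) (nat_lit 6) (nat_lit 6) L63305 (by decide +kernel)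
theorem L63307 : W_24 (nat_lit 2) (nat_lit 0x3000580016000e0000000000000000000000000000000) (nat_lit 0x0) (nat_lit 0x2000000000000000010000800000000000000000000000000) := D_24 (nat_lit 124) (nat_lit 107) (nat_lit 193) (nat_lit 4) (nat_lit 6) (nat_lit 10) (nat_lit 4) (nat_lit 6) (nat_lit 11) (by decide +kernel)
theorem L63308 : W_24 (nat_lit 3) (nat_lit 0x2000580016000e0000000000000000000000000000000) (nat_lit 0x0) (nat_lit 0x2000100000000000010002800000000000000000000000000) := T_24 (nat_lit 176) (nat_lit 109) (nat_lit 6) (nat_lit 6) (nat_lit 10) L63307 (by decide +kernel)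
theorem L63309 : W_24 (nat_lit 4) (nat_lit 0x2000580016000a0000000000000000000000000000000) (nat_lit 0x0) (nat_lit 0x2000100000000000150002800000000000000000000000000) := T_24 (nat_lit 126) (nat_lit 128) (nat_lit 1) (nat_lit 9) (nat_lit 7) L63308 (by decide +kernel)
theorem L63310 : W_24 (nat_lit 5) (nat_lit 0x200058001600080000000000000000000000000000000) (nat_lit 0x0) (nat_lit 0x2000100000000000170003800000000000000000000000000) := T_24 (nat_lit 125) (nat_lit 108) (nat_lit 7) (nat_lit 6) (nat_lit 6) L63309 (by decide +kernel)
theorem L63311 : W_24 (nat_lit 6) (nat_lit 0x200018001600080000000000000000000000000000000) (nat_lit 0x0) (nat_lit 0x2000100060000000170003800000000000000000000000000) := T_24 (nat_lit 162) (nat_lit 161) (nat_lit 0) (nat_lit 9) (nat_lit 9) L63310 (by decide +kernel)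
theorem L63312 : W_24 (nat_lit 7) (nat_lit 0x200010001600080000000000000000000000000000000) (nat_lit 0x0) (nat_lit 0x200010006c000180170003800000000000000000000000000) := Q_24 (nat_lit 159) (C_24 L63204 (C_24 L63306 (C_24 L63311 N_24))) (by decide +kernel)
theorem L63313 : W_24 (nat_lit 11) (nat_lit 0x200010001600080000000000000000000000000000000) (nat_lit 0x0) (nat_lit 0x70003c001c006e0008001780018000c0000000000000000000000) := T_24 (nat_lit 143) (nat_lit 128) (nat_lit 2) (nat_lit 5) (nat_lit 8) L63300 (by decide +kernel)
theorem L63314 : W_24 (nat_lit 12) (nat_lit 0x200010001200080000000000000000000000000000000) (nat_lit 0x0) (nat_lit 0x70003c001c006f000dc017f0038000c0000000000000000000000) := Q_24 (nat_lit 142) (C_24 L63246 (C_24 L63248 (C_24 L63301 (C_24 L63312 (C_24 L63313 N_24))))) (by decide +kernel)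
theorem L63316 : W_24 (nat_lit 2) (nat_lit 0x200010001e000a0000000000000000000000000000000) (nat_lit 0x0) (nat_lit 0x8000000000001000080000000000000000000000) := D_24 (nat_lit 108) (nat_lit 159) (nat_lit 91) (nat_lit 7) (nat_lit 6) (nat_lit 6) (nat_lit 7) (nat_lit 6) (nat_lit 5) (by decide +kernel)
theorem L63317 : W_24 (nat_lit 4) (nat_lit 0x200030001e000b0000000000000000000000000000000) (nat_lit 0x0) (nat_lit 0x18000c000e000000000000000000000000000000000000000) := T_24 (nat_lit 158) (nat_lit 157) (nat_lit 1) (nat_lit 8) (nat_lit 8) L32882 (by decide +kernel)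
theorem L63318 : W_24 (nat_lit 5) (nat_lit 0x200010001e000b0000000000000000000000000000000) (nat_lit 0x0) (nat_lit 0x18000c006e000000000000000000000000000000000000000) := T_24 (nat_lit 161) (nat_lit 162) (nat_lit 3) (nat_lit 5) (nat_lit 8) L63317 (by decide +kernel)
theorem L63319 : W_24 (nat_lit 6) (nat_lit 0x200010001e000a0000000000000000000000000000000) (nat_lit 0x0) (nat_lit 0x18000c006e000000018000000000000000000000000000000) := T_24 (nat_lit 124) (nat_lit 123) (nat_lit 0) (nat_lit 8) (nat_lit 8) L63318 (by decide +kernel)
theorem L63320 : W_24 (nat_lit 7) (nat_lit 0x200010001e00080000000000000000000000000000000) (nat_lit 0x0) (nat_lit 0x18000c006e000000078001000080000000000000000000000) := Q_24 (nat_lit 125) (C_24 L63315 (C_24 L63316 (C_24 L63319 N_24))) (by decide +kernel)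
theorem L63321 : W_24 (nat_lit 8) (nat_lit 0x200010001600080000000000000000000000000000000) (nat_lit 0x0) (nat_lit 0x18000c006e00090007c001000080000000000000000000000) := Q_24 (nat_lit 143) (C_24 L63247 (C_24 L63156 (C_24 L63320 N_24))) (by decide +kernel)
theorem L63322 : W_24 (nat_lit 2) (nat_lit 0x2000180017000a0000000000000000000000000000000) (nat_lit 0x0) (nat_lit 0x150000000000000000000000000000000) := D_24 (nat_lit 126) (nat_lit 128) (nat_lit 124) (nat_lit 1) (nat_lit 9) (nat_lit 7) (nat_lit 1) (nat_lit 8) (nat_lit 7) (by decide +kernel)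
theorem L63323 : W_24 (nat_lit 3) (nat_lit 0x2000180016000a0000000000000000000000000000000) (nat_lit 0x0) (nat_lit 0x180150000000000000000000000000000000) := T_24 (nat_lit 140) (nat_lit 139) (nat_lit 3) (nat_lit 3) (nat_lit 8) L63322 (by decide +kernel)
theorem L63324 : W_24 (nat_lit 4) (nat_lit 0x200018001600080000000000000000000000000000000) (nat_lit 0x0) (nat_lit 0x180170001000000000000000000000000000) := T_24 (nat_lit 125) (nat_lit 108) (nat_lit 7) (nat_lit 6) (nat_lit 6) L63323 (by decide +kernel)
theorem L63325 : W_24 (nat_lit 2) (nat_lit 0x60003c0016001a0000000000000000000000000000000) (nat_lit 0x0) (nat_lit 0x10000c0000000000000000000000000000000000000000000) := D_24 (nat_lit 175) (nat_lit 174) (nat_lit 192) (nat_lit 1) (nat_lit 8) (nat_lit 9) (nat_lit 6) (nat_lit 5) (nat_lit 11) (by decide +kernel)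
theorem L63326 : W_24 (nat_lit 3) (nat_lit 0x6000380016001a0000000000000000000000000000000) (nat_lit 0x0) (nat_lit 0x10000c0006000000000000000000000000000000000000000) := T_24 (nat_lit 158) (nat_lit 157) (nat_lit 3) (nat_lit 4) (nat_lit 9) L63325 (by decide +kernel)
theorem L63327 : W_24 (nat_lit 4) (nat_lit 0x2000380016001a0000000000000000000000000000000) (nat_lit 0x0) (nat_lit 0x10004c0006000000000008000000000000000000000000000) := T_24 (nat_lit 178) (nat_lit 111) (nat_lit 6) (nat_lit 8) (nat_lit 10) L63326 (by decide +kernel)
theorem L63328 : W_24 (nat_lit 5) (nat_lit 0x2000380016000a0000000000000000000000000000000) (nat_lit 0x0) (nat_lit 0x10004c0006000000140008000000000000000000000000000) := T_24 (nat_lit 128) (nat_lit 126) (nat_lit 1) (nat_lit 9) (nat_lit 7) L63327 (by decide +kernel)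
theorem L63329 : W_24 (nat_lit 6) (nat_lit 0x200038001600080000000000000000000000000000000) (nat_lit 0x0) (nat_lit 0x10004c0006000000160009000000000000000000000000000) := T_24 (nat_lit 125) (nat_lit 108) (nat_lit 7) (nat_lit 6) (nat_lit 6) L63328 (by decide +kernel)
theorem L63330 : W_24 (nat_lit 7) (nat_lit 0x200018001600080000000000000000000000000000000) (nat_lit 0x0) (nat_lit 0x10004c0066000000160009000000000000000000000000000) := T_24 (nat_lit 161) (nat_lit 162) (nat_lit 0) (nat_lit 9) (nat_lit 9) L63329 (by decide +kernel)
theorem L63331 : W_24 (nat_lit 8) (nat_lit 0x200010001600080000000000000000000000000000000) (nat_lit 0x0) (nat_lit 0x10004c006e000180170009000000000000000000000000000) := Q_24 (nat_lit 159) (C_24 L63204 (C_24 L63324 (C_24 L63330 N_24))) (by decide +kernel)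
theorem L63332 : W_24 (nat_lit 8) (nat_lit 0x200010001600080000000000000000000000000000000) (nat_lit 0x0) (nat_lit 0x18000c006e000800178001000080000000000000000000000) := T_24 (nat_lit 143) (nat_lit 128) (nat_lit 2) (nat_lit 5) (nat_lit 8) L63320 (by decide +kernel)
theorem L63333 : W_24 (nat_lit 9) (nat_lit 0x200010001200080000000000000000000000000000000) (nat_lit 0x0) (nat_lit 0x18004c006f000dc017f009000080000000000000000000000) := Q_24 (nat_lit 142) (C_24 L63246 (C_24 L63248 (C_24 L63321 (C_24 L63331 (C_24 L63332 N_24))))) (by decide +kernel)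
theorem L63334 : W_24 (nat_lit 8) (nat_lit 0x200010001a00080000000000000000000000000000000) (nat_lit 0x0) (nat_lit 0x18000c006e00050007c001000080000000000000000000000) := Q_24 (nat_lit 142) (C_24 L63247 (C_24 L63320 (C_24 L63156 N_24))) (by decide +kernel)
theorem L63335 : W_24 (nat_lit 9) (nat_lit 0x200018001e00080000000000000000000000000000000) (nat_lit 0x0) (nat_lit 0x70003c005c0066000000020001000000000000000000000000000) := T_24 (nat_lit 108) (nat_lit 125) (nat_lit 7) (nat_lit 6) (nat_lit 6) L63275 (by decide +kernel)
theorem L63336 : W_24 (nat_lit 10) (nat_lit 0x200010001e00080000000000000000000000000000000) (nat_lit 0x0) (nat_lit 0x70003c005c006e0000000380018000c0000000000000000000000) := Q_24 (nat_lit 159) (C_24 L63299 (C_24 L63288 (C_24 L63261 (C_24 L63335 N_24)))) (by decide +kernel)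
theorem L63337 : W_24 (nat_lit 11) (nat_lit 0x200010001a00080000000000000000000000000000000) (nat_lit 0x0) (nat_lit 0x70003c005c006f0005c003f0018000c0000000000000000000000) := Q_24 (nat_lit 142) (C_24 L63336 (C_24 L63247 (C_24 L63153 N_24))) (by decide +kernel)
theorem L63338 : W_24 (nat_lit 2) (nat_lit 0x300010001e000d0002000000000000000000000000000) (nat_lit 0x0) (nat_lit 0x20000000000000000100008000000000000000000) := D_24 (nat_lit 92) (nat_lit 161) (nat_lit 75) (nat_lit 7) (nat_lit 7) (nat_lit 5) (nat_lit 7) (nat_lit 7) (nat_lit 4) (by decide +kernel)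
theorem L63339 : W_24 (nat_lit 3) (nat_lit 0x300010001e000d0000000000000000000000000000000) (nat_lit 0x0) (nat_lit 0x28000000000002000100008000000000000000000) := T_24 (nat_lit 109) (nat_lit 159) (nat_lit 5) (nat_lit 7) (nat_lit 6) L63338 (by decide +kernel)
theorem L63340 : W_24 (nat_lit 4) (nat_lit 0x200010001e000d0000000000000000000000000000000) (nat_lit 0x0) (nat_lit 0x2000100028000000000002000100008000000000000000000) := T_24 (nat_lit 176) (nat_lit 193) (nat_lit 5) (nat_lit 7) (nat_lit 7) L63339 (by decide +kernel)
theorem L63341 : W_24 (nat_lit 5) (nat_lit 0x200010001e000c0000000000000000000000000000000) (nat_lit 0x0) (nat_lit 0x2000100028000000018002000100008000000000000000000) := T_24 (nat_lit 124) (nat_lit 123) (nat_lit 0) (nat_lit 8) (nat_lit 8) L63340 (by decide +kernel)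
theorem L63342 : W_24 (nat_lit 2) (nat_lit 0x600010001e000c0000000000000000000000000000000) (nat_lit 0x0) (nat_lit 0x60000000000002000000000000000000000000000) := D_24 (nat_lit 161) (nat_lit 109) (nat_lit 162) (nat_lit 7) (nat_lit 7) (nat_lit 6) (nat_lit 3) (nat_lit 5) (nat_lit 8) (by decide +kernel)
theorem L63343 : W_24 (nat_lit 3) (nat_lit 0x200010001e000c0000000000000000000000000000000) (nat_lit 0x0) (nat_lit 0x8000400060000000000002000000000000000000000000000) := T_24 (nat_lit 178) (nat_lit 195) (nat_lit 7) (nat_lit 7) (nat_lit 7) L63342 (by decide +kernel)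
theorem L63344 : W_24 (nat_lit 2) (nat_lit 0x8000340034001e000d00008000a0000000000000000000000) (nat_lit 0x0) (nat_lit 0x40005000000000000000000) := D_24 (nat_lit 90) (nat_lit 74) (nat_lit 72) (nat_lit 6) (nat_lit 5) (nat_lit 8) (nat_lit 4) (nat_lit 5) (nat_lit 8) (by decide +kernel)
theorem L63345 : W_24 (nat_lit 3) (nat_lit 0x8000340034001e000d0000800080000000000000000000000) (nat_lit 0x0) (nat_lit 0x400060005000000000000000000) := T_24 (nat_lit 89) (nat_lit 106) (nat_lit 4) (nat_lit 5) (nat_lit 9) L63344 (by decide +kernel)
theorem L63346 : W_24 (nat_lit 4) (nat_lit 0x8000340034001e000d0000800000000000000000000000000) (nat_lit 0x0) (nat_lit 0x14000e0005000000000000000000) := T_24 (nat_lit 91) (nat_lit 108) (nat_lit 6) (nat_lit 5) (nat_lit 9) L63345 (by decide +kernel)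
theorem L63347 : W_24 (nat_lit 5) (nat_lit 0x8000340034001e000d0000000000000000000000000000000) (nat_lit 0x0) (nat_lit 0x8000000000001c000e0005000000000000000000) := T_24 (nat_lit 107) (nat_lit 159) (nat_lit 7) (nat_lit 5) (nat_lit 6) L63346 (by decide +kernel)
theorem L63348 : W_24 (nat_lit 6) (nat_lit 0x8000340030001e000d0000000000000000000000000000000) (nat_lit 0x0) (nat_lit 0xe000000000001c000e0005000000000000000000) := T_24 (nat_lit 158) (nat_lit 157) (nat_lit 1) (nat_lit 8) (nat_lit 8) L63347 (by decide +kernel)
theorem L63349 : W_24 (nat_lit 7) (nat_lit 0x8000300030001e000d0000000000000000000000000000000) (nat_lit 0x0) (nat_lit 0xc000e000000000001c000e0005000000000000000000) := T_24 (nat_lit 174) (nat_lit 175) (nat_lit 2) (nat_lit 4) (nat_lit 10) L63348 (by decide +kernel)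
theorem L63350 : W_24 (nat_lit 8) (nat_lit 0x8000200030001e000d0000000000000000000000000000000) (nat_lit 0x0) (nat_lit 0x20001c000e000000000001c000e0005000000000000000000) := T_24 (nat_lit 176) (nat_lit 193) (nat_lit 5) (nat_lit 7) (nat_lit 7) L63349 (by decide +kernel)
theorem L63351 : W_24 (nat_lit 9) (nat_lit 0x200030001e000d0000000000000000000000000000000) (nat_lit 0x0) (nat_lit 0xa0005c000e000000000001c000e0005000000000000000000) := T_24 (nat_lit 195) (nat_lit 178) (nat_lit 7) (nat_lit 7) (nat_lit 7) L63350 (by decide +kernel)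
theorem L63352 : W_24 (nat_lit 10) (nat_lit 0x200010001e000d0000000000000000000000000000000) (nat_lit 0x0) (nat_lit 0xa0005c006e000000000001c000e0005000000000000000000) := T_24 (nat_lit 161) (nat_lit 162) (nat_lit 3) (nat_lit 5) (nat_lit 8) L63351 (by decide +kernel)
theorem L63353 : W_24 (nat_lit 11) (nat_lit 0x200010001e000c0000000000000000000000000000000) (nat_lit 0x0) (nat_lit 0xa0005c006e000000018001c000e0005000000000000000000) := T_24 (nat_lit 124) (nat_lit 123) (nat_lit 0) (nat_lit 8) (nat_lit 8) L63352 (by decide +kernel)
theorem L63354 : W_24 (nat_lit 12) (nat_lit 0x200010001e00080000000000000000000000000000000) (nat_lit 0x0) (nat_lit 0xa0005c006e000000058003c001e000d000000000000000000) := Q_24 (nat_lit 126) (C_24 L63341 (C_24 L63343 (C_24 L63174 (C_24 L63353 N_24)))) (by decide +kernel)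
theorem L63355 : W_24 (nat_lit 13) (nat_lit 0x200010001a00080000000000000000000000000000000) (nat_lit 0x0) (nat_lit 0xa0005c006e00050005c003c001e000d000000000000000000) := Q_24 (nat_lit 142) (C_24 L63247 (C_24 L63156 (C_24 L63354 N_24))) (by decide +kernel)
theorem L63356 : W_24 (nat_lit 2) (nat_lit 0x380030001e000f0000800000000000000000000000000) (nat_lit 0x0) (nat_lit 0x1000000006000000000000000000000000000000000000000) := D_24 (nat_lit 158) (nat_lit 157) (nat_lit 192) (nat_lit 1) (nat_lit 8) (nat_lit 8) (nat_lit 6) (nat_lit 5) (nat_lit 11) (by decide +kernel)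
theorem L63357 : W_24 (nat_lit 3) (nat_lit 0x300030001e000f0000800000000000000000000000000) (nat_lit 0x0) (nat_lit 0x10000c0006000000000000000000000000000000000000000) := T_24 (nat_lit 175) (nat_lit 174) (nat_lit 2) (nat_lit 4) (nat_lit 10) L63356 (by decide +kernel)
theorem L63358 : W_24 (nat_lit 4) (nat_lit 0x300010001e000f0000800000000000000000000000000) (nat_lit 0x0) (nat_lit 0x10000c0066000000000000000000000000000000000000000) := T_24 (nat_lit 161) (nat_lit 162) (nat_lit 3) (nat_lit 5) (nat_lit 8) L63357 (by decide +kernel)
theorem L63359 : W_24 (nat_lit 5) (nat_lit 0x300010001e000f0000000000000000000000000000000) (nat_lit 0x0) (nat_lit 0x10000c0066000000000000c00000000000000000000000000) := T_24 (nat_lit 107) (nat_lit 106) (nat_lit 0) (nat_lit 8) (nat_lit 7) L63358 (by decide +kernel)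
theorem L63360 : W_24 (nat_lit 6) (nat_lit 0x300010001e000d0000000000000000000000000000000) (nat_lit 0x0) (nat_lit 0x10000c0066000000020001c00000000000000000000000000) := T_24 (nat_lit 125) (nat_lit 108) (nat_lit 4) (nat_lit 7) (nat_lit 10) L63359 (by decide +kernel)
theorem L63361 : W_24 (nat_lit 7) (nat_lit 0x200010001e000d0000000000000000000000000000000) (nat_lit 0x0) (nat_lit 0x30001c0066000000020001c00000000000000000000000000) := T_24 (nat_lit 176) (nat_lit 193) (nat_lit 5) (nat_lit 7) (nat_lit 7) L63360 (by decide +kernel)
theorem L63362 : W_24 (nat_lit 8) (nat_lit 0x200010001e000c0000000000000000000000000000000) (nat_lit 0x0) (nat_lit 0x30001c0066000000038001c00000000000000000000000000) := T_24 (nat_lit 124) (nat_lit 123) (nat_lit 0) (nat_lit 8) (nat_lit 8) L63361 (by decide +kernel)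
theorem L63363 : W_24 (nat_lit 9) (nat_lit 0x200010001e00080000000000000000000000000000000) (nat_lit 0x0) (nat_lit 0xb0005c0066000000078003c00080000000000000000000000) := Q_24 (nat_lit 126) (C_24 L63362 (C_24 L63343 (C_24 L63163 N_24))) (by decide +kernel)
theorem L63364 : W_24 (nat_lit 10) (nat_lit 0x200010001a00080000000000000000000000000000000) (nat_lit 0x0) (nat_lit 0xb0005c006600050007c003c00080000000000000000000000) := Q_24 (nat_lit 142) (C_24 L63247 (C_24 L63156 (C_24 L63363 N_24))) (by decide +kernel)
theorem L63365 : W_24 (nat_lit 2) (nat_lit 0x700014001e000c0001000000000000000000000000000) (nat_lit 0x0) (nat_lit 0x8000000000002000080000000000000000000000) := D_24 (nat_lit 109) (nat_lit 159) (nat_lit 91) (nat_lit 5) (nat_lit 7) (nat_lit 6) (nat_lit 4) (nat_lit 7) (nat_lit 9) (by decide +kernel)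
theorem L63366 : W_24 (nat_lit 3) (nat_lit 0x600014001e000c0001000000000000000000000000000) (nat_lit 0x0) (nat_lit 0x2000100008000000000002000080000000000000000000000) := T_24 (nat_lit 176) (nat_lit 193) (nat_lit 5) (nat_lit 7) (nat_lit 7) L63365 (by decide +kernel)
theorem L63367 : W_24 (nat_lit 4) (nat_lit 0x600014001e000c0000000000000000000000000000000) (nat_lit 0x0) (nat_lit 0x2000100008000000020003000080000000000000000000000) := T_24 (nat_lit 108) (nat_lit 125) (nat_lit 4) (nat_lit 7) (nat_lit 10) L63366 (by decide +kernel)
theorem L63368 : W_24 (nat_lit 5) (nat_lit 0x600010001e000c0000000000000000000000000000000) (nat_lit 0x0) (nat_lit 0x200010000e000000020003000080000000000000000000000) := T_24 (nat_lit 158) (nat_lit 157) (nat_lit 1) (nat_lit 8) (nat_lit 8) L63367 (by decide +kernel)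
theorem L63369 : W_24 (nat_lit 6) (nat_lit 0x200010001e000c0000000000000000000000000000000) (nat_lit 0x0) (nat_lit 0xa00050000e000000020003000080000000000000000000000) := T_24 (nat_lit 178) (nat_lit 195) (nat_lit 7) (nat_lit 7) (nat_lit 7) L63368 (by decide +kernel)
theorem L63370 : W_24 (nat_lit 2) (nat_lit 0x8000380034001e000c0000000000000000000000000000000) (nat_lit 0x0) (nat_lit 0x1000000000000000020001000000000000000000000000000) := D_24 (nat_lit 125) (nat_lit 108) (nat_lit 192) (nat_lit 4) (nat_lit 7) (nat_lit 10) (nat_lit 6) (nat_lit 5) (nat_lit 11) (by decide +kernel)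
theorem L63371 : W_24 (nat_lit 3) (nat_lit 0x8000380030001e000c0000000000000000000000000000000) (nat_lit 0x0) (nat_lit 0x1000000006000000020001000000000000000000000000000) := T_24 (nat_lit 158) (nat_lit 157) (nat_lit 1) (nat_lit 8) (nat_lit 8) L63370 (by decide +kernel)
theorem L63372 : W_24 (nat_lit 4) (nat_lit 0x380030001e000c0000000000000000000000000000000) (nat_lit 0x0) (nat_lit 0x9000400006000000020001000000000000000000000000000) := T_24 (nat_lit 195) (nat_lit 178) (nat_lit 7) (nat_lit 7) (nat_lit 7) L63371 (by decide +kernel)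
theorem L63373 : W_24 (nat_lit 5) (nat_lit 0x300030001e000c0000000000000000000000000000000) (nat_lit 0x0) (nat_lit 0x90004c0006000000020001000000000000000000000000000) := T_24 (nat_lit 175) (nat_lit 174) (nat_lit 2) (nat_lit 4) (nat_lit 10) L63372 (by decide +kernel)
theorem L63374 : W_24 (nat_lit 6) (nat_lit 0x300010001e000c0000000000000000000000000000000) (nat_lit 0x0) (nat_lit 0x90004c0066000000020001000000000000000000000000000) := T_24 (nat_lit 161) (nat_lit 162) (nat_lit 3) (nat_lit 5) (nat_lit 8) L63373 (by decide +kernel)
theorem L63375 : W_24 (nat_lit 7) (nat_lit 0x200010001e000c0000000000000000000000000000000) (nat_lit 0x0) (nat_lit 0xb0005c0066000000020001000000000000000000000000000) := T_24 (nat_lit 176) (nat_lit 193) (nat_lit 5) (nat_lit 7) (nat_lit 7) L63374 (by decide +kernel)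
theorem L63376 : W_24 (nat_lit 8) (nat_lit 0x200010001e00080000000000000000000000000000000) (nat_lit 0x0) (nat_lit 0xb0005c006e000000060003000180008000000000000000000) := Q_24 (nat_lit 126) (C_24 L40331 (C_24 L63343 (C_24 L63369 (C_24 L63375 N_24)))) (by decide +kernel)
theorem L63377 : W_24 (nat_lit 9) (nat_lit 0x200010001a00080000000000000000000000000000000) (nat_lit 0x0) (nat_lit 0xb0005c006f000500060003000180008000000000000000000) := Q_24 (nat_lit 142) (C_24 L63247 (C_24 L63146 (C_24 L63376 N_24))) (by decide +kernel)
theorem L63378 : W_24 (nat_lit 2) (nat_lit 0x300010001b000e0002000000000000000000000000000) (nat_lit 0x0) (nat_lit 0x8000400020000000000000000000000000000000000000000) := D_24 (nat_lit 178) (nat_lit 161) (nat_lit 195) (nat_lit 7) (nat_lit 7) (nat_lit 6) (nat_lit 7) (nat_lit 7) (nat_lit 7) (by decide +kernel)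
theorem L63379 : W_24 (nat_lit 3) (nat_lit 0x300010001b000e0000000000000000000000000000000) (nat_lit 0x0) (nat_lit 0x8000400028000000000002000000000000000000000000000) := T_24 (nat_lit 109) (nat_lit 159) (nat_lit 5) (nat_lit 7) (nat_lit 6) L63378 (by decide +kernel)
theorem L63380 : W_24 (nat_lit 4) (nat_lit 0x200010001b000e0000000000000000000000000000000) (nat_lit 0x0) (nat_lit 0xa000500028000000000002000000000000000000000000000) := T_24 (nat_lit 176) (nat_lit 193) (nat_lit 5) (nat_lit 7) (nat_lit 7) L63379 (by decide +kernel)
theorem L63381 : W_24 (nat_lit 5) (nat_lit 0x200010001b000c0000000000000000000000000000000) (nat_lit 0x0) (nat_lit 0xa000500028000000030002000000000000000000000000000) := T_24 (nat_lit 125) (nat_lit 124) (nat_lit 1) (nat_lit 8) (nat_lit 7) L63380 (by decide +kernel)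
theorem L63382 : W_24 (nat_lit 6) (nat_lit 0x200010001a000c0000000000000000000000000000000) (nat_lit 0x0) (nat_lit 0xa000500028000500030002000000000000000000000000000) := T_24 (nat_lit 140) (nat_lit 142) (nat_lit 2) (nat_lit 4) (nat_lit 8) L63381 (by decide +kernel)
theorem L63383 : W_24 (nat_lit 7) (nat_lit 0x200010001a00080000000000000000000000000000000) (nat_lit 0x0) (nat_lit 0xa00050002800050007800300018000c000000000000000000) := Q_24 (nat_lit 126) (C_24 L63137 (C_24 L31808 (C_24 L63382 N_24))) (by decide +kernel)
theorem L63384 : W_24 (nat_lit 4) (nat_lit 0x20003c001e00090000000000000000000000000000000) (nat_lit 0x0) (nat_lit 0x200010000c0000000000020000800040000000000000000000000) := T_24 (nat_lit 90) (nat_lit 107) (nat_lit 7) (nat_lit 5) (nat_lit 5) L33158 (by decide +kernel)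
theorem L63385 : W_24 (nat_lit 5) (nat_lit 0x20001c001e00090000000000000000000000000000000) (nat_lit 0x0) (nat_lit 0x200010000c0060000000020000800040000000000000000000000) := T_24 (nat_lit 161) (nat_lit 162) (nat_lit 3) (nat_lit 5) (nat_lit 8) L63384 (by decide +kernel)
theorem L63386 : W_24 (nat_lit 6) (nat_lit 0x200018001e00090000000000000000000000000000000) (nat_lit 0x0) (nat_lit 0x200010000c0066000000020000800040000000000000000000000) := T_24 (nat_lit 158) (nat_lit 157) (nat_lit 2) (nat_lit 4) (nat_lit 9) L63385 (by decide +kernel)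
theorem L63387 : W_24 (nat_lit 7) (nat_lit 0x200018001e00080000000000000000000000000000000) (nat_lit 0x0) (nat_lit 0x200010000c0066000000038000800040000000000000000000000) := T_24 (nat_lit 124) (nat_lit 123) (nat_lit 0) (nat_lit 8) (nat_lit 8) L63386 (by decide +kernel)
theorem L63388 : W_24 (nat_lit 2) (nat_lit 0x28003c001e00080000000000000000000000000000000) (nat_lit 0x0) (nat_lit 0x20001000000000000000020000000000000000000000000000000) := D_24 (nat_lit 192) (nat_lit 209) (nat_lit 125) (nat_lit 6) (nat_lit 5) (nat_lit 12) (nat_lit 6) (nat_lit 5) (nat_lit 11) (by decide +kernel)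
theorem L63389 : W_24 (nat_lit 3) (nat_lit 0x20003c001e00080000000000000000000000000000000) (nat_lit 0x0) (nat_lit 0x200010000c0000000000020000000000000000000000000000000) := T_24 (nat_lit 175) (nat_lit 174) (nat_lit 1) (nat_lit 8) (nat_lit 9) L63388 (by decide +kernel)
theorem L63390 : W_24 (nat_lit 4) (nat_lit 0x200038001e00080000000000000000000000000000000) (nat_lit 0x0) (nat_lit 0x200010000c0006000000020000000000000000000000000000000) := T_24 (nat_lit 158) (nat_lit 157) (nat_lit 2) (nat_lit 4) (nat_lit 9) L63389 (by decide +kernel)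
theorem L63391 : W_24 (nat_lit 5) (nat_lit 0x200018001e00080000000000000000000000000000000) (nat_lit 0x0) (nat_lit 0x200010000c0066000000020000000000000000000000000000000) := T_24 (nat_lit 161) (nat_lit 162) (nat_lit 3) (nat_lit 5) (nat_lit 8) L63390 (by decide +kernel)
theorem L63392 : W_24 (nat_lit 2) (nat_lit 0x200058001e00090000800000000000000000000000000) (nat_lit 0x0) (nat_lit 0x2000100000000000020000000000000000000000000000000) := D_24 (nat_lit 176) (nat_lit 193) (nat_lit 125) (nat_lit 4) (nat_lit 6) (nat_lit 11) (nat_lit 4) (nat_lit 6) (nat_lit 10) (by decide +kernel)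
theorem L63393 : W_24 (nat_lit 3) (nat_lit 0x200058001e00090000000000000000000000000000000) (nat_lit 0x0) (nat_lit 0x2000100000000000020000800040000000000000000000000) := T_24 (nat_lit 107) (nat_lit 90) (nat_lit 7) (nat_lit 5) (nat_lit 5) L63392 (by decide +kernel)
theorem L63394 : W_24 (nat_lit 4) (nat_lit 0x200018001e00090000000000000000000000000000000) (nat_lit 0x0) (nat_lit 0x2000100060000000020000800040000000000000000000000) := T_24 (nat_lit 162) (nat_lit 161) (nat_lit 3) (nat_lit 5) (nat_lit 8) L63393 (by decide +kernel)
theorem L63395 : W_24 (nat_lit 5) (nat_lit 0x200018001e00080000000000000000000000000000000) (nat_lit 0x0) (nat_lit 0x2000100060000000038000800040000000000000000000000) := T_24 (nat_lit 124) (nat_lit 123) (nat_lit 0) (nat_lit 8) (nat_lit 8) L63394 (by decide +kernel)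
theorem L63396 : W_24 (nat_lit 8) (nat_lit 0x200010001e00080000000000000000000000000000000) (nat_lit 0x0) (nat_lit 0x200030001c006e000000038000800040000000000000000000000) := Q_24 (nat_lit 159) (C_24 L63261 (C_24 L63387 (C_24 L63391 (C_24 L63395 N_24)))) (by decide +kernel)
theorem L63397 : W_24 (nat_lit 9) (nat_lit 0x200010001a00080000000000000000000000000000000) (nat_lit 0x0) (nat_lit 0x200030001c006e00050007c000800040000000000000000000000) := Q_24 (nat_lit 142) (C_24 L63247 (C_24 L63156 (C_24 L63396 N_24))) (by decide +kernel)
theorem L63398 : W_24 (nat_lit 2) (nat_lit 0x700034001e000e8000000000000000000000000000000) (nat_lit 0x0) (nat_lit 0x10000c0000000000000000000000000000000000000000000) := D_24 (nat_lit 175) (nat_lit 174) (nat_lit 192) (nat_lit 2) (nat_lit 4) (nat_lit 10) (nat_lit 6) (nat_lit 5) (nat_lit 11) (by decide +kernel)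
theorem L63399 : W_24 (nat_lit 3) (nat_lit 0x600034001e000e8000000000000000000000000000000) (nat_lit 0x0) (nat_lit 0x30001c0000000000000000000000000000000000000000000) := T_24 (nat_lit 176) (nat_lit 193) (nat_lit 5) (nat_lit 7) (nat_lit 7) L63398 (by decide +kernel)
theorem L63400 : W_24 (nat_lit 4) (nat_lit 0x600030001e000e8000000000000000000000000000000) (nat_lit 0x0) (nat_lit 0x30001c0006000000000000000000000000000000000000000) := T_24 (nat_lit 158) (nat_lit 157) (nat_lit 1) (nat_lit 8) (nat_lit 8) L63399 (by decide +kernel)
theorem L63401 : W_24 (nat_lit 5) (nat_lit 0x600030001a000e8000000000000000000000000000000) (nat_lit 0x0) (nat_lit 0x30001c0046000400000000000000000000000000000000000) := T_24 (nat_lit 142) (nat_lit 162) (nat_lit 3) (nat_lit 5) (nat_lit 8) L63400 (by decide +kernel)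
theorem L63402 : W_24 (nat_lit 6) (nat_lit 0x600010001a000e8000000000000000000000000000000) (nat_lit 0x0) (nat_lit 0x30001c0066000400000002000000000000000000000000000) := T_24 (nat_lit 161) (nat_lit 109) (nat_lit 7) (nat_lit 7) (nat_lit 6) L63401 (by decide +kernel)
theorem L63403 : W_24 (nat_lit 7) (nat_lit 0x200010001a000e8000000000000000000000000000000) (nat_lit 0x0) (nat_lit 0xb0005c0066000400000002000000000000000000000000000) := T_24 (nat_lit 178) (nat_lit 195) (nat_lit 7) (nat_lit 7) (nat_lit 7) L63402 (by decide +kernel)
theorem L63404 : W_24 (nat_lit 8) (nat_lit 0x200010001a000e0000000000000000000000000000000) (nat_lit 0x0) (nat_lit 0xb0005c0066000400018002000000000000000000000000000) := T_24 (nat_lit 123) (nat_lit 124) (nat_lit 3) (nat_lit 4) (nat_lit 7) L63403 (by decide +kernel)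
theorem L63405 : W_24 (nat_lit 9) (nat_lit 0x200010001a000c0000000000000000000000000000000) (nat_lit 0x0) (nat_lit 0xb0005c0066000400038003000000000000000000000000000) := T_24 (nat_lit 125) (nat_lit 108) (nat_lit 4) (nat_lit 7) (nat_lit 10) L63404 (by decide +kernel)
theorem L63406 : W_24 (nat_lit 2) (nat_lit 0x600034001e000f0000800000000000000000000000000) (nat_lit 0x0) (nat_lit 0x8000000000000000040002000000000000000000) := D_24 (nat_lit 90) (nat_lit 159) (nat_lit 73) (nat_lit 7) (nat_lit 5) (nat_lit 5) (nat_lit 7) (nat_lit 5) (nat_lit 4) (by decide +kernel)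
theorem L63407 : W_24 (nat_lit 3) (nat_lit 0x600034001e000f0000000000000000000000000000000) (nat_lit 0x0) (nat_lit 0x8000000000000c00040002000000000000000000) := T_24 (nat_lit 107) (nat_lit 106) (nat_lit 0) (nat_lit 8) (nat_lit 7) L63406 (by decide +kernel)
theorem L63408 : W_24 (nat_lit 4) (nat_lit 0x600030001e000f0000000000000000000000000000000) (nat_lit 0x0) (nat_lit 0xe000000000000c00040002000000000000000000) := T_24 (nat_lit 158) (nat_lit 157) (nat_lit 1) (nat_lit 8) (nat_lit 8) L63407 (by decide +kernel)
theorem L63409 : W_24 (nat_lit 5) (nat_lit 0x600030001a000f0000000000000000000000000000000) (nat_lit 0x0) (nat_lit 0x4e000400000000c00040002000000000000000000) := T_24 (nat_lit 142) (nat_lit 162) (nat_lit 3) (nat_lit 5) (nat_lit 8) L63408 (by decide +kernel)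
theorem L63410 : W_24 (nat_lit 6) (nat_lit 0x600010001a000f0000000000000000000000000000000) (nat_lit 0x0) (nat_lit 0x6e000400000002c00040002000000000000000000) := T_24 (nat_lit 161) (nat_lit 109) (nat_lit 7) (nat_lit 7) (nat_lit 6) L63409 (by decide +kernel)
theorem L63411 : W_24 (nat_lit 7) (nat_lit 0x200010001a000f0000000000000000000000000000000) (nat_lit 0x0) (nat_lit 0x800040006e000400000002c00040002000000000000000000) := T_24 (nat_lit 178) (nat_lit 195) (nat_lit 7) (nat_lit 7) (nat_lit 7) L63410 (by decide +kernel)
theorem L63412 : W_24 (nat_lit 8) (nat_lit 0x200010001a000e0000000000000000000000000000000) (nat_lit 0x0) (nat_lit 0x800040006e000400018002c00040002000000000000000000) := T_24 (nat_lit 124) (nat_lit 123) (nat_lit 3) (nat_lit 4) (nat_lit 7) L63411 (by decide +kernel)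
theorem L63413 : W_24 (nat_lit 9) (nat_lit 0x200010001a000c0000000000000000000000000000000) (nat_lit 0x0) (nat_lit 0x800040006e000400038003c00040002000000000000000000) := T_24 (nat_lit 125) (nat_lit 108) (nat_lit 4) (nat_lit 7) (nat_lit 10) L63412 (by decide +kernel)
theorem L63414 : W_24 (nat_lit 2) (nat_lit 0x700010001a000f0000800000000000000000000000000) (nat_lit 0x0) (nat_lit 0xc000400000000000000000000000000000000000) := D_24 (nat_lit 159) (nat_lit 142) (nat_lit 158) (nat_lit 4) (nat_lit 6) (nat_lit 10) (nat_lit 7) (nat_lit 5) (nat_lit 6) (by decide +kernel)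
theorem L63415 : W_24 (nat_lit 3) (nat_lit 0x700010001a000f0000000000000000000000000000000) (nat_lit 0x0) (nat_lit 0xc000400000000c00000000000000000000000000) := T_24 (nat_lit 107) (nat_lit 106) (nat_lit 0) (nat_lit 8) (nat_lit 7) L63414 (by decide +kernel)
theorem L63416 : W_24 (nat_lit 4) (nat_lit 0x700010001a000e0000000000000000000000000000000) (nat_lit 0x0) (nat_lit 0xc000400018000c00000000000000000000000000) := T_24 (nat_lit 124) (nat_lit 123) (nat_lit 3) (nat_lit 4) (nat_lit 7) L63415 (by decide +kernel)
theorem L63417 : W_24 (nat_lit 5) (nat_lit 0x700010001a000c0000000000000000000000000000000) (nat_lit 0x0) (nat_lit 0xc000400038001c00000000000000000000000000) := T_24 (nat_lit 125) (nat_lit 108) (nat_lit 4) (nat_lit 7) (nat_lit 10) L63416 (by decide +kernel)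
theorem L63418 : W_24 (nat_lit 6) (nat_lit 0x600010001a000c0000000000000000000000000000000) (nat_lit 0x0) (nat_lit 0x200010000c000400038001c00000000000000000000000000) := T_24 (nat_lit 176) (nat_lit 193) (nat_lit 5) (nat_lit 7) (nat_lit 7) L63417 (by decide +kernel)
theorem L63419 : W_24 (nat_lit 7) (nat_lit 0x200010001a000c0000000000000000000000000000000) (nat_lit 0x0) (nat_lit 0xa00050000c000400038001c00000000000000000000000000) := T_24 (nat_lit 178) (nat_lit 195) (nat_lit 7) (nat_lit 7) (nat_lit 7) L63418 (by decide +kernel)
theorem L63420 : W_24 (nat_lit 2) (nat_lit 0x600010001a000c0002000000000000000000000000000) (nat_lit 0x0) (nat_lit 0x2000100008000000000000000000000000000000000000000) := D_24 (nat_lit 176) (nat_lit 193) (nat_lit 159) (nat_lit 5) (nat_lit 7) (nat_lit 7) (nat_lit 5) (nat_lit 7) (nat_lit 6) (by decide +kernel)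
theorem L63421 : W_24 (nat_lit 3) (nat_lit 0x600010001a000c0000000000000000000000000000000) (nat_lit 0x0) (nat_lit 0x2000100028000000000002000000000000000000000000000) := T_24 (nat_lit 109) (nat_lit 161) (nat_lit 7) (nat_lit 7) (nat_lit 6) L63420 (by decide +kernel)
theorem L63422 : W_24 (nat_lit 4) (nat_lit 0x200010001a000c0000000000000000000000000000000) (nat_lit 0x0) (nat_lit 0xa000500028000000000002000000000000000000000000000) := T_24 (nat_lit 178) (nat_lit 195) (nat_lit 7) (nat_lit 7) (nat_lit 7) L63421 (by decide +kernel)
theorem L63423 : W_24 (nat_lit 10) (nat_lit 0x200010001a00080000000000000000000000000000000) (nat_lit 0x0) (nat_lit 0xb0005c006e000400078003c001c000e000000000000000000) := Q_24 (nat_lit 126) (C_24 L63137 (C_24 L63405 (C_24 L31816 (C_24 L63413 (C_24 L63419 (C_24 L63422 N_24)))))) (by decide +kernel)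
theorem L63424 : W_24 (nat_lit 14) (nat_lit 0x200010001200080000000000000000000000000000000) (nat_lit 0x0) (nat_lit 0x7000bc005c006f000dc007f003c001e000f000000000000000000) := Q_24 (nat_lit 143) (C_24 L63144 (C_24 L63334 (C_24 L63337 (C_24 L63355 (C_24 L63364 (C_24 L63377 (C_24 L63383 (C_24 L63397 (C_24 L63423 N_24))))))))) (by decide +kernel)
theorem L63426 : W_24 (nat_lit 2) (nat_lit 0x200014001f00080000000000000000000000000000000) (nat_lit 0x0) (nat_lit 0x1c000000000000000000000000000000) := D_24 (nat_lit 123) (nat_lit 122) (nat_lit 124) (nat_lit 0) (nat_lit 7) (nat_lit 8) (nat_lit 0) (nat_lit 8) (nat_lit 8) (by decide +kernel)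
theorem L63427 : W_24 (nat_lit 3) (nat_lit 0x200014001e00080000000000000000000000000000000) (nat_lit 0x0) (nat_lit 0x10005c000000000000000000000000000000) := T_24 (nat_lit 140) (nat_lit 126) (nat_lit 2) (nat_lit 4) (nat_lit 8) L63426 (by decide +kernel)
theorem L63428 : W_24 (nat_lit 4) (nat_lit 0x200014001a00080000000000000000000000000000000) (nat_lit 0x0) (nat_lit 0x50015c000000000000000000000000000000) := T_24 (nat_lit 142) (nat_lit 128) (nat_lit 2) (nat_lit 5) (nat_lit 8) L63427 (by decide +kernel)
theorem L63429 : W_24 (nat_lit 2) (nat_lit 0x200014001a00080000000000000000000000000000000) (nat_lit 0x0) (nat_lit 0xa000400000000000000000000000000000000000) := D_24 (nat_lit 157) (nat_lit 159) (nat_lit 142) (nat_lit 2) (nat_lit 4) (nat_lit 9) (nat_lit 1) (nat_lit 8) (nat_lit 8) (by decide +kernel)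
theorem L63430 : W_24 (nat_lit 2) (nat_lit 0x800000002000300016001a00090000800040000000000000000000000) (nat_lit 0x0) (nat_lit 0x400020001000000000000000000) := D_24 (nat_lit 89) (nat_lit 72) (nat_lit 106) (nat_lit 4) (nat_lit 5) (nat_lit 8) (nat_lit 4) (nat_lit 5) (nat_lit 9) (by decide +kernel)
theorem L63431 : W_24 (nat_lit 3) (nat_lit 0x800000002000300016001a00090000800000000000000000000000000) (nat_lit 0x0) (nat_lit 0x100000000400060001000000000000000000) := T_24 (nat_lit 90) (nat_lit 140) (nat_lit 5) (nat_lit 5) (nat_lit 5) L63430 (by decide +kernel)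
theorem L63432 : W_24 (nat_lit 4) (nat_lit 0x800000002000300016001a00090000000000000000000000000000000) (nat_lit 0x0) (nat_lit 0x40000000100000000c00060001000000000000000000) := T_24 (nat_lit 107) (nat_lit 174) (nat_lit 5) (nat_lit 5) (nat_lit 6) L63431 (by decide +kernel)
theorem L63433 : W_24 (nat_lit 5) (nat_lit 0x800000002000300016001a00080000000000000000000000000000000) (nat_lit 0x0) (nat_lit 0xc0000000100010000c00060001000000000000000000) := T_24 (nat_lit 124) (nat_lit 175) (nat_lit 7) (nat_lit 5) (nat_lit 7) L63432 (by decide +kernel)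
theorem L63434 : W_24 (nat_lit 6) (nat_lit 0x2000300016001a00080000000000000000000000000000000) (nat_lit 0x0) (nat_lit 0x8000400000000c0000000100010000c00060001000000000000000000) := T_24 (nat_lit 227) (nat_lit 210) (nat_lit 6) (nat_lit 6) (nat_lit 13) L63433 (by decide +kernel)
theorem L63435 : W_24 (nat_lit 7) (nat_lit 0x300016001a00080000000000000000000000000000000) (nat_lit 0x0) (nat_lit 0x8000400020000c0000000100050000c00060001000000000000000000) := T_24 (nat_lit 193) (nat_lit 126) (nat_lit 5) (nat_lit 7) (nat_lit 7) L63434 (by decide +kernel)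
theorem L63436 : W_24 (nat_lit 8) (nat_lit 0x300014001a00080000000000000000000000000000000) (nat_lit 0x0) (nat_lit 0x8000400020000c000a000100050000c00060001000000000000000000) := T_24 (nat_lit 157) (nat_lit 159) (nat_lit 2) (nat_lit 4) (nat_lit 9) L63435 (by decide +kernel)
theorem L63437 : W_24 (nat_lit 2) (nat_lit 0x380016001a00080000000000000000000000000000000) (nat_lit 0x0) (nat_lit 0x40001800000000000000000000000000000000000000) := D_24 (nat_lit 156) (nat_lit 174) (nat_lit 155) (nat_lit 0) (nat_lit 7) (nat_lit 10) (nat_lit 3) (nat_lit 2) (nat_lit 9) (by decide +kernel)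
theorem L63438 : W_24 (nat_lit 3) (nat_lit 0x300016001a00080000000000000000000000000000000) (nat_lit 0x0) (nat_lit 0x4c0001800000000000000000000000000000000000000) := T_24 (nat_lit 175) (nat_lit 178) (nat_lit 0) (nat_lit 8) (nat_lit 10) L63437 (by decide +kernel)
theorem L63439 : W_24 (nat_lit 4) (nat_lit 0x300014001a00080000000000000000000000000000000) (nat_lit 0x0) (nat_lit 0x4c000b800000000000000000000000000000000000000) := T_24 (nat_lit 157) (nat_lit 159) (nat_lit 2) (nat_lit 4) (nat_lit 9) L63438 (by decide +kernel)
theorem L63440 : W_24 (nat_lit 2) (nat_lit 0x30001c001a00080000000000000000000000000000000) (nat_lit 0x0) (nat_lit 0x2000000000000000040002000000000000000000000000000) := D_24 (nat_lit 126) (nat_lit 193) (nat_lit 109) (nat_lit 5) (nat_lit 7) (nat_lit 7) (nat_lit 5) (nat_lit 7) (nat_lit 6) (by decide +kernel)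
theorem L63441 : W_24 (nat_lit 3) (nat_lit 0x300014001a00080000000000000000000000000000000) (nat_lit 0x0) (nat_lit 0x200000000a000000040002000000000000000000000000000) := T_24 (nat_lit 159) (nat_lit 157) (nat_lit 2) (nat_lit 4) (nat_lit 9) L63440 (by decide +kernel)
theorem L63442 : W_24 (nat_lit 2) (nat_lit 0x800780014001a000c0000000000000000000000000000000) (nat_lit 0x0) (nat_lit 0x400040000000000010000000000000000000000000000000) := D_24 (nat_lit 174) (nat_lit 190) (nat_lit 124) (nat_lit 1) (nat_lit 7) (nat_lit 10) (nat_lit 5) (nat_lit 5) (nat_lit 7) (by decide +kernel)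
theorem L63443 : W_24 (nat_lit 3) (nat_lit 0x780014001a000c0000000000000000000000000000000) (nat_lit 0x0) (nat_lit 0x1c00040000000000010000000000000000000000000000000) := T_24 (nat_lit 191) (nat_lit 192) (nat_lit 1) (nat_lit 8) (nat_lit 10) L63442 (by decide +kernel)
theorem L63444 : W_24 (nat_lit 4) (nat_lit 0x700014001a000c0000000000000000000000000000000) (nat_lit 0x0) (nat_lit 0x1c000c0002000000010000000000000000000000000000000) := T_24 (nat_lit 175) (nat_lit 157) (nat_lit 0) (nat_lit 8) (nat_lit 10) L63443 (by decide +kernel)
theorem L63445 : W_24 (nat_lit 5) (nat_lit 0x300014001a000c0000000000000000000000000000000) (nat_lit 0x0) (nat_lit 0x9c004c0002000000010000000000000000000000000000000) := T_24 (nat_lit 178) (nat_lit 195) (nat_lit 7) (nat_lit 7) (nat_lit 7) L63444 (by decide +kernel)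
theorem L63446 : W_24 (nat_lit 6) (nat_lit 0x300014001a00080000000000000000000000000000000) (nat_lit 0x0) (nat_lit 0xbc004c0002000000050000000000000000000000000000000) := T_24 (nat_lit 126) (nat_lit 193) (nat_lit 5) (nat_lit 7) (nat_lit 7) L63445 (by decide +kernel)
theorem L63447 : W_24 (nat_lit 2) (nat_lit 0x300014001a000c0002000080000000000000000000000) (nat_lit 0x0) (nat_lit 0x10000c000000000000000000) := D_24 (nat_lit 92) (nat_lit 75) (nat_lit 74) (nat_lit 7) (nat_lit 7) (nat_lit 4) (nat_lit 4) (nat_lit 7) (nat_lit 8) (by decide +kernel)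
theorem L63448 : W_24 (nat_lit 3) (nat_lit 0x300014001a000c0002000000000000000000000000000) (nat_lit 0x0) (nat_lit 0x100018000c000000000000000000) := T_24 (nat_lit 91) (nat_lit 108) (nat_lit 4) (nat_lit 7) (nat_lit 9) L63447 (by decide +kernel)
theorem L63449 : W_24 (nat_lit 4) (nat_lit 0x300014001a000c0000000000000000000000000000000) (nat_lit 0x0) (nat_lit 0x800000000000300018000c000000000000000000) := T_24 (nat_lit 109) (nat_lit 159) (nat_lit 5) (nat_lit 7) (nat_lit 6) L63448 (by decide +kernel)
theorem L63450 : W_24 (nat_lit 5) (nat_lit 0x300014001a00080000000000000000000000000000000) (nat_lit 0x0) (nat_lit 0x200000000800000004000300018000c000000000000000000) := T_24 (nat_lit 126) (nat_lit 193) (nat_lit 5) (nat_lit 7) (nat_lit 7) L63449 (by decide +kernel)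
theorem L63451 : W_24 (nat_lit 9) (nat_lit 0x200014001a00080000000000000000000000000000000) (nat_lit 0x0) (nat_lit 0x80004000bc005c000b800100050003c001e000d000000000000000000) := Q_24 (nat_lit 176) (C_24 L63436 (C_24 L63439 (C_24 L63441 (C_24 L63446 (C_24 L63450 N_24))))) (by decide +kernel)
theorem L63452 : W_24 (nat_lit 10) (nat_lit 0x200014001200080000000000000000000000000000000) (nat_lit 0x0) (nat_lit 0x80004000bc005c000b800d0015c003c001e000d000000000000000000) := Q_24 (nat_lit 143) (C_24 L63425 (C_24 L63428 (C_24 L63429 (C_24 L63451 N_24)))) (by decide +kernel)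
theorem L63453 : W_24 (nat_lit 2) (nat_lit 0x38003c001a00080000000000000000000000000000000) (nat_lit 0x0) (nat_lit 0x2000000000000000010000800000000000000000000000000) := D_24 (nat_lit 124) (nat_lit 193) (nat_lit 107) (nat_lit 7) (nat_lit 5) (nat_lit 7) (nat_lit 7) (nat_lit 5) (nat_lit 6) (by decide +kernel)
theorem L63454 : W_24 (nat_lit 3) (nat_lit 0x28003c001a00080000000000000000000000000000000) (nat_lit 0x0) (nat_lit 0x2000100040000000010000800000000000000000000000000) := T_24 (nat_lit 176) (nat_lit 162) (nat_lit 1) (nat_lit 9) (nat_lit 9) L63453 (by decide +kernel)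
theorem L63455 : W_24 (nat_lit 4) (nat_lit 0x20003c001a00080000000000000000000000000000000) (nat_lit 0x0) (nat_lit 0x20001c0040000000010000800000000000000000000000000) := T_24 (nat_lit 175) (nat_lit 174) (nat_lit 1) (nat_lit 8) (nat_lit 9) L63454 (by decide +kernel)
theorem L63456 : W_24 (nat_lit 5) (nat_lit 0x20001c001a00080000000000000000000000000000000) (nat_lit 0x0) (nat_lit 0x20001c0060000100010000800000000000000000000000000) := T_24 (nat_lit 161) (nat_lit 140) (nat_lit 0) (nat_lit 8) (nat_lit 9) L63455 (by decide +kernel)
theorem L63457 : W_24 (nat_lit 6) (nat_lit 0x200014001a00080000000000000000000000000000000) (nat_lit 0x0) (nat_lit 0x20001c006a000100010000800000000000000000000000000) := T_24 (nat_lit 159) (nat_lit 157) (nat_lit 2) (nat_lit 4) (nat_lit 9) L63456 (by decide +kernel)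
theorem L63458 : W_24 (nat_lit 7) (nat_lit 0x200014001200080000000000000000000000000000000) (nat_lit 0x0) (nat_lit 0x20001c006a000d0015c000800000000000000000000000000) := Q_24 (nat_lit 143) (C_24 L63428 (C_24 L63429 (C_24 L63457 N_24))) (by decide +kernel)
theorem L63459 : W_24 (nat_lit 2) (nat_lit 0x20003e001200080000000000000000000000000000000) (nat_lit 0x0) (nat_lit 0xe0000000000000000000000000000000000000000000) := D_24 (nat_lit 174) (nat_lit 173) (nat_lit 175) (nat_lit 1) (nat_lit 7) (nat_lit 9) (nat_lit 1) (nat_lit 8) (nat_lit 9) (by decide +kernel)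
theorem L63460 : W_24 (nat_lit 3) (nat_lit 0x20003c001200080000000000000000000000000000000) (nat_lit 0x0) (nat_lit 0xe0002000800000000000000000000000000000000000) := T_24 (nat_lit 157) (nat_lit 143) (nat_lit 2) (nat_lit 4) (nat_lit 9) L63459 (by decide +kernel)
theorem L63461 : W_24 (nat_lit 4) (nat_lit 0x20001c001200080000000000000000000000000000000) (nat_lit 0x0) (nat_lit 0xe0022000900000000000000000000000000000000000) := T_24 (nat_lit 161) (nat_lit 140) (nat_lit 0) (nat_lit 8) (nat_lit 9) L63460 (by decide +kernel)
theorem L63462 : W_24 (nat_lit 3) (nat_lit 0x20001c001200080000000000000000000000000000000) (nat_lit 0x0) (nat_lit 0x200005c0000000000000000000000000000000000) := T_24 (nat_lit 140) (nat_lit 161) (nat_lit 0) (nat_lit 8) (nat_lit 9) L38650 (by decide +kernel)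
theorem L63463 : W_24 (nat_lit 6) (nat_lit 0x200014001200080000000000000000000000000000000) (nat_lit 0x0) (nat_lit 0x100008004e002a000dc0010000000000000000000000000000000) := Q_24 (nat_lit 159) (C_24 L63011 (C_24 L63005 (C_24 L63461 (C_24 L63007 (C_24 L63462 N_24))))) (by decide +kernel)
theorem L63464 : W_24 (nat_lit 2) (nat_lit 0x20003000280014001300090000000000000000000000000000000) (nat_lit 0x0) (nat_lit 0x200010000800000000000000000000000000000000000000000000000) := D_24 (nat_lit 208) (nat_lit 191) (nat_lit 225) (nat_lit 5) (nat_lit 5) (nat_lit 8) (nat_lit 5) (nat_lit 5) (nat_lit 9) (by decide +kernel)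
theorem L63465 : W_24 (nat_lit 3) (nat_lit 0x3000280014001300090000000000000000000000000000000) (nat_lit 0x0) (nat_lit 0x200030000800000002000000000000000000000000000000000000000) := T_24 (nat_lit 209) (nat_lit 157) (nat_lit 4) (nat_lit 5) (nat_lit 12) L63464 (by decide +kernel)
theorem L63466 : W_24 (nat_lit 4) (nat_lit 0x3000280014001300080000000000000000000000000000000) (nat_lit 0x0) (nat_lit 0x200030000800100002000000010000000000000000000000000000000) := T_24 (nat_lit 124) (nat_lit 176) (nat_lit 7) (nat_lit 5) (nat_lit 7) L63465 (by decide +kernel)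
theorem L63467 : W_24 (nat_lit 5) (nat_lit 0x1000280014001300080000000000000000000000000000000) (nat_lit 0x0) (nat_lit 0x200070002800100002000000010000000000000000000000000000000) := T_24 (nat_lit 193) (nat_lit 210) (nat_lit 7) (nat_lit 5) (nat_lit 8) L63466 (by decide +kernel)
theorem L63468 : W_24 (nat_lit 6) (nat_lit 0x1000280014001200080000000000000000000000000000000) (nat_lit 0x0) (nat_lit 0x200070002800100002000100018000000000000000000000000000000) := T_24 (nat_lit 140) (nat_lit 123) (nat_lit 4) (nat_lit 5) (nat_lit 11) L63467 (by decide +kernel)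
theorem L63469 : W_24 (nat_lit 2) (nat_lit 0x8003c002a0014001300080000000000000000000000000000000) (nat_lit 0x0) (nat_lit 0x20000000040002000000000000000000000000000000000000000) := D_24 (nat_lit 157) (nat_lit 209) (nat_lit 174) (nat_lit 4) (nat_lit 5) (nat_lit 12) (nat_lit 5) (nat_lit 4) (nat_lit 8) (by decide +kernel)
theorem L63470 : W_24 (nat_lit 3) (nat_lit 0x8003c002a0014001200080000000000000000000000000000000) (nat_lit 0x0) (nat_lit 0x20000000040002000100008000000000000000000000000000000) := T_24 (nat_lit 140) (nat_lit 123) (nat_lit 4) (nat_lit 5) (nat_lit 11) L63469 (by decide +kernel)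
theorem L63471 : W_24 (nat_lit 4) (nat_lit 0x8003c00280014001200080000000000000000000000000000000) (nat_lit 0x0) (nat_lit 0x20000000070002000100008000000000000000000000000000000) := T_24 (nat_lit 173) (nat_lit 172) (nat_lit 0) (nat_lit 6) (nat_lit 11) L63470 (by decide +kernel)
theorem L63472 : W_24 (nat_lit 5) (nat_lit 0x3c00280014001200080000000000000000000000000000000) (nat_lit 0x0) (nat_lit 0x2c000000070002000100008000000000000000000000000000000) := T_24 (nat_lit 207) (nat_lit 206) (nat_lit 1) (nat_lit 6) (nat_lit 11) L63471 (by decide +kernel)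
theorem L63473 : W_24 (nat_lit 6) (nat_lit 0x3800280014001200080000000000000000000000000000000) (nat_lit 0x0) (nat_lit 0x2c000400170002000100008000000000000000000000000000000) := T_24 (nat_lit 190) (nat_lit 176) (nat_lit 2) (nat_lit 3) (nat_lit 11) L63472 (by decide +kernel)
theorem L63474 : W_24 (nat_lit 7) (nat_lit 0x1800280014001200080000000000000000000000000000000) (nat_lit 0x0) (nat_lit 0x6c002400170002000100008000000000000000000000000000000) := T_24 (nat_lit 193) (nat_lit 210) (nat_lit 7) (nat_lit 5) (nat_lit 8) L63473 (by decide +kernel)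
theorem L63475 : W_24 (nat_lit 8) (nat_lit 0x1000280014001200080000000000000000000000000000000) (nat_lit 0x0) (nat_lit 0x7c002c00170002000100008000000000000000000000000000000) := T_24 (nat_lit 191) (nat_lit 208) (nat_lit 5) (nat_lit 5) (nat_lit 8) L63474 (by decide +kernel)
theorem L63476 : W_24 (nat_lit 2) (nat_lit 0x3000280016001300090000000000000000000000000000000) (nat_lit 0x0) (nat_lit 0x40000000000000000800040000000000000000000000) := D_24 (nat_lit 107) (nat_lit 90) (nat_lit 174) (nat_lit 5) (nat_lit 5) (nat_lit 5) (nat_lit 5) (nat_lit 5) (nat_lit 6) (by decide +kernel)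
theorem L63477 : W_24 (nat_lit 3) (nat_lit 0x3000280014001300090000000000000000000000000000000) (nat_lit 0x0) (nat_lit 0x20000000040002000000000000800040000000000000000000000) := T_24 (nat_lit 157) (nat_lit 209) (nat_lit 4) (nat_lit 5) (nat_lit 12) L63476 (by decide +kernel)
theorem L63478 : W_24 (nat_lit 4) (nat_lit 0x3000280014001300080000000000000000000000000000000) (nat_lit 0x0) (nat_lit 0x20000000140002000000010000800040000000000000000000000) := T_24 (nat_lit 124) (nat_lit 176) (nat_lit 7) (nat_lit 5) (nat_lit 7) L63477 (by decide +kernel)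
theorem L63479 : W_24 (nat_lit 5) (nat_lit 0x1000280014001300080000000000000000000000000000000) (nat_lit 0x0) (nat_lit 0x60002000140002000000010000800040000000000000000000000) := T_24 (nat_lit 193) (nat_lit 210) (nat_lit 7) (nat_lit 5) (nat_lit 8) L63478 (by decide +kernel)
theorem L63480 : W_24 (nat_lit 6) (nat_lit 0x1000280014001200080000000000000000000000000000000) (nat_lit 0x0) (nat_lit 0x60002000140002000100018000800040000000000000000000000) := T_24 (nat_lit 140) (nat_lit 123) (nat_lit 4) (nat_lit 5) (nat_lit 11) L63479 (by decide +kernel)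
theorem L63481 : W_24 (nat_lit 2) (nat_lit 0x1800280014001200090000000000000000000000000000000) (nat_lit 0x0) (nat_lit 0x40002000100000000000000000000000000000000000000000000) := D_24 (nat_lit 193) (nat_lit 210) (nat_lit 176) (nat_lit 7) (nat_lit 5) (nat_lit 8) (nat_lit 7) (nat_lit 5) (nat_lit 7) (by decide +kernel)
theorem L63482 : W_24 (nat_lit 3) (nat_lit 0x1800280014001200080000000000000000000000000000000) (nat_lit 0x0) (nat_lit 0x40002000140000000000010000000000000000000000000000000) := T_24 (nat_lit 124) (nat_lit 174) (nat_lit 5) (nat_lit 5) (nat_lit 7) L63481 (by decide +kernel)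
theorem L63483 : W_24 (nat_lit 4) (nat_lit 0x1000280014001200080000000000000000000000000000000) (nat_lit 0x0) (nat_lit 0x50002800140000000000010000000000000000000000000000000) := T_24 (nat_lit 191) (nat_lit 208) (nat_lit 5) (nat_lit 5) (nat_lit 8) L63482 (by decide +kernel)
theorem L63484 : W_24 (nat_lit 9) (nat_lit 0x280014001200080000000000000000000000000000000) (nat_lit 0x0) (nat_lit 0x20007c003c00170002000100018000c00040000000000000000000000) := Q_24 (nat_lit 192) (C_24 L62818 (C_24 L63468 (C_24 L63475 (C_24 L63480 (C_24 L63483 N_24))))) (by decide +kernel)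
theorem L63489 : W_24 (nat_lit 2) (nat_lit 0x40001000280014001300080000000000000000000000000000000) (nat_lit 0x0) (nat_lit 0x800020000000000002000000000000000000000000000000000000000) := D_24 (nat_lit 209) (nat_lit 227) (nat_lit 157) (nat_lit 7) (nat_lit 5) (nat_lit 9) (nat_lit 4) (nat_lit 5) (nat_lit 12) (by decide +kernel)
theorem L63490 : W_24 (nat_lit 3) (nat_lit 0x40001000280014001200080000000000000000000000000000000) (nat_lit 0x0) (nat_lit 0x800020000000000002000100008000000000000000000000000000000) := T_24 (nat_lit 140) (nat_lit 123) (nat_lit 4) (nat_lit 5) (nat_lit 11) L63489 (by decide +kernel)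
theorem L63491 : W_24 (nat_lit 4) (nat_lit 0x1000280014001200080000000000000000000000000000000) (nat_lit 0x0) (nat_lit 0x800060002000000002000100008000000000000000000000000000000) := T_24 (nat_lit 210) (nat_lit 193) (nat_lit 7) (nat_lit 5) (nat_lit 8) L63490 (by decide +kernel)
theorem L63492 : W_24 (nat_lit 2) (nat_lit 0x600018002c0014001200080000000000000000000000000000000) (nat_lit 0x0) (nat_lit 0x8000400000000000000002000000000000000000000000000000000000000) := D_24 (nat_lit 226) (nat_lit 243) (nat_lit 157) (nat_lit 4) (nat_lit 5) (nat_lit 14) (nat_lit 4) (nat_lit 5) (nat_lit 13) (by decide +kernel)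
theorem L63493 : W_24 (nat_lit 3) (nat_lit 0x400018002c0014001200080000000000000000000000000000000) (nat_lit 0x0) (nat_lit 0x8000c00020000000000002000000000000000000000000000000000000000) := T_24 (nat_lit 209) (nat_lit 227) (nat_lit 7) (nat_lit 5) (nat_lit 9) L63492 (by decide +kernel)
theorem L63494 : W_24 (nat_lit 4) (nat_lit 0x40001800280014001200080000000000000000000000000000000) (nat_lit 0x0) (nat_lit 0x8000c00020000000040002000000010000000000000000000000000000000) := T_24 (nat_lit 174) (nat_lit 124) (nat_lit 5) (nat_lit 5) (nat_lit 7) L63493 (by decide +kernel)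
theorem L63495 : W_24 (nat_lit 5) (nat_lit 0x40001000280014001200080000000000000000000000000000000) (nat_lit 0x0) (nat_lit 0x8000c00030000800040002000000010000000000000000000000000000000) := T_24 (nat_lit 191) (nat_lit 208) (nat_lit 5) (nat_lit 5) (nat_lit 8) L63494 (by decide +kernel)
theorem L63496 : W_24 (nat_lit 6) (nat_lit 0x1000280014001200080000000000000000000000000000000) (nat_lit 0x0) (nat_lit 0x8000c00070002800040002000000010000000000000000000000000000000) := T_24 (nat_lit 210) (nat_lit 193) (nat_lit 7) (nat_lit 5) (nat_lit 8) L63495 (by decide +kernel)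
theorem L63497 : W_24 (nat_lit 7) (nat_lit 0x280014001200080000000000000000000000000000000) (nat_lit 0x0) (nat_lit 0x8000e00070003800040002000100018000400000000000000000000000000) := Q_24 (nat_lit 192) (C_24 L62818 (C_24 L63488 (C_24 L63491 (C_24 L63496 N_24)))) (by decide +kernel)
theorem L63498 : W_24 (nat_lit 2) (nat_lit 0x3c0014001200080000000000000000000000000000000) (nat_lit 0x0) (nat_lit 0x400003000000000000000000000000000000000000000) := D_24 (nat_lit 157) (nat_lit 156) (nat_lit 178) (nat_lit 0) (nat_lit 7) (nat_lit 10) (nat_lit 0) (nat_lit 8) (nat_lit 10) (by decide +kernel)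
theorem L63499 : W_24 (nat_lit 3) (nat_lit 0x2c0014001200080000000000000000000000000000000) (nat_lit 0x0) (nat_lit 0x500023000000000000000000000000000000000000000) := T_24 (nat_lit 176) (nat_lit 161) (nat_lit 2) (nat_lit 4) (nat_lit 10) L63498 (by decide +kernel)
theorem L63500 : W_24 (nat_lit 3) (nat_lit 0x2c0014001200080000000000000000000000000000000) (nat_lit 0x0) (nat_lit 0xc00100020000000010000000000000000000000000000000) := T_24 (nat_lit 176) (nat_lit 161) (nat_lit 2) (nat_lit 4) (nat_lit 10) L62855 (by decide +kernel)
theorem L63501 : W_24 (nat_lit 5) (nat_lit 0x280014001200080000000000000000000000000000000) (nat_lit 0x0) (nat_lit 0xc00540023000000018000c00020000000000000000000000) := Q_24 (nat_lit 174) (C_24 L63093 (C_24 L63499 (C_24 L63500 N_24))) (by decide +kernel)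
theorem L63502 : W_24 (nat_lit 2) (nat_lit 0x160009a00680014001300080000000000000000000000000000000) (nat_lit 0x0) (nat_lit 0x20000800040000000000000000000000000000000) := D_24 (nat_lit 143) (nat_lit 161) (nat_lit 126) (nat_lit 4) (nat_lit 8) (nat_lit 12) (nat_lit 7) (nat_lit 7) (nat_lit 7) (by decide +kernel)
theorem L63503 : W_24 (nat_lit 3) (nat_lit 0x160001a00680014001300080000000000000000000000000000000) (nat_lit 0x0) (nat_lit 0x2000000008000000020000800040000000000000000000000000000000) := T_24 (nat_lit 195) (nat_lit 229) (nat_lit 4) (nat_lit 8) (nat_lit 13) L63502 (by decide +kernel)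
theorem L63504 : W_24 (nat_lit 4) (nat_lit 0x60001a00680014001300080000000000000000000000000000000) (nat_lit 0x0) (nat_lit 0x2000180008000000020000800040000000000000000000000000000000) := T_24 (nat_lit 212) (nat_lit 211) (nat_lit 0) (nat_lit 8) (nat_lit 12) L63503 (by decide +kernel)
theorem L63505 : W_24 (nat_lit 5) (nat_lit 0x60001800680014001300080000000000000000000000000000000) (nat_lit 0x0) (nat_lit 0x2000180008600000020000800040000000000000000000000000000000) := T_24 (nat_lit 189) (nat_lit 190) (nat_lit 3) (nat_lit 2) (nat_lit 11) L63504 (by decide +kernel)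
theorem L63506 : W_24 (nat_lit 6) (nat_lit 0x20001800680014001300080000000000000000000000000000000) (nat_lit 0x0) (nat_lit 0x28001c0008600000020000800040000000000000000000000000000000) := T_24 (nat_lit 210) (nat_lit 227) (nat_lit 7) (nat_lit 5) (nat_lit 9) L63505 (by decide +kernel)
theorem L63507 : W_24 (nat_lit 7) (nat_lit 0x1800680014001300080000000000000000000000000000000) (nat_lit 0x0) (nat_lit 0x28001e0008600000022000800040000000000000000000000000000000) := T_24 (nat_lit 209) (nat_lit 157) (nat_lit 4) (nat_lit 5) (nat_lit 12) L63506 (by decide +kernel)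
theorem L63508 : W_24 (nat_lit 8) (nat_lit 0x1800280014001300080000000000000000000000000000000) (nat_lit 0x0) (nat_lit 0x28001e0008600500022000800040000000000000000000000000000000) := T_24 (nat_lit 178) (nat_lit 176) (nat_lit 1) (nat_lit 8) (nat_lit 10) L63507 (by decide +kernel)
theorem L63509 : W_24 (nat_lit 9) (nat_lit 0x1000280014001300080000000000000000000000000000000) (nat_lit 0x0) (nat_lit 0x28001f0008e00500022000800040000000000000000000000000000000) := T_24 (nat_lit 191) (nat_lit 208) (nat_lit 5) (nat_lit 5) (nat_lit 8) L63508 (by decide +kernel)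
theorem L63510 : W_24 (nat_lit 10) (nat_lit 0x1000280014001200080000000000000000000000000000000) (nat_lit 0x0) (nat_lit 0x28001f0008e00500022000900048000000000000000000000000000000) := T_24 (nat_lit 140) (nat_lit 123) (nat_lit 4) (nat_lit 5) (nat_lit 11) L63509 (by decide +kernel)
theorem L63511 : W_24 (nat_lit 2) (nat_lit 0x1800680016001b000c0002000100000000000000000000000) (nat_lit 0x0) (nat_lit 0x1000080004000000000000000000) := D_24 (nat_lit 91) (nat_lit 108) (nat_lit 74) (nat_lit 4) (nat_lit 7) (nat_lit 9) (nat_lit 4) (nat_lit 7) (nat_lit 8) (by decide +kernel)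
theorem L63512 : W_24 (nat_lit 3) (nat_lit 0x1800680016001b000c0002000000000000000000000000000) (nat_lit 0x0) (nat_lit 0x100018000c000000000000000000) := T_24 (nat_lit 92) (nat_lit 75) (nat_lit 7) (nat_lit 7) (nat_lit 4) L63511 (by decide +kernel)
theorem L63513 : W_24 (nat_lit 4) (nat_lit 0x1800680016001b000c0000000000000000000000000000000) (nat_lit 0x0) (nat_lit 0x2000000000000300018000c000000000000000000) := T_24 (nat_lit 109) (nat_lit 161) (nat_lit 7) (nat_lit 7) (nat_lit 6) L63512 (by decide +kernel)
theorem L63514 : W_24 (nat_lit 5) (nat_lit 0x1800680016001b00080000000000000000000000000000000) (nat_lit 0x0) (nat_lit 0x800000002000000004000300018000c000000000000000000) := T_24 (nat_lit 126) (nat_lit 195) (nat_lit 7) (nat_lit 7) (nat_lit 7) L63513 (by decide +kernel)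
theorem L63515 : W_24 (nat_lit 6) (nat_lit 0x1800680016001300080000000000000000000000000000000) (nat_lit 0x0) (nat_lit 0x8000000020000c0004000300018000c000000000000000000) := T_24 (nat_lit 143) (nat_lit 142) (nat_lit 1) (nat_lit 8) (nat_lit 8) L63514 (by decide +kernel)
theorem L63516 : W_24 (nat_lit 7) (nat_lit 0x1800680014001300080000000000000000000000000000000) (nat_lit 0x0) (nat_lit 0x20008000000022000c0004000300018000c000000000000000000) := T_24 (nat_lit 157) (nat_lit 209) (nat_lit 4) (nat_lit 5) (nat_lit 12) L63515 (by decide +kernel)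
theorem L63517 : W_24 (nat_lit 8) (nat_lit 0x1800280014001300080000000000000000000000000000000) (nat_lit 0x0) (nat_lit 0x20008000500022000c0004000300018000c000000000000000000) := T_24 (nat_lit 178) (nat_lit 176) (nat_lit 1) (nat_lit 8) (nat_lit 10) L63516 (by decide +kernel)
theorem L63518 : W_24 (nat_lit 9) (nat_lit 0x1000280014001300080000000000000000000000000000000) (nat_lit 0x0) (nat_lit 0x30008800500022000c0004000300018000c000000000000000000) := T_24 (nat_lit 191) (nat_lit 208) (nat_lit 5) (nat_lit 5) (nat_lit 8) L63517 (by decide +kernel)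
theorem L63519 : W_24 (nat_lit 10) (nat_lit 0x1000280014001200080000000000000000000000000000000) (nat_lit 0x0) (nat_lit 0x30008800500022000d0004800300018000c000000000000000000) := T_24 (nat_lit 140) (nat_lit 123) (nat_lit 4) (nat_lit 5) (nat_lit 11) L63518 (by decide +kernel)
theorem L63520 : W_24 (nat_lit 11) (nat_lit 0x280014001200080000000000000000000000000000000) (nat_lit 0x0) (nat_lit 0x28001f000be00500022000d0004800300018000c000000000000000000) := Q_24 (nat_lit 192) (C_24 L63491 (C_24 L63510 (C_24 L63519 (C_24 L62885 N_24)))) (by decide +kernel)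
theorem L63521 : W_24 (nat_lit 2) (nat_lit 0x30003800340013000c0000000000000000000000000000000) (nat_lit 0x0) (nat_lit 0x4000c0000000000000000000000000000000000000000) := D_24 (nat_lit 162) (nat_lit 163) (nat_lit 178) (nat_lit 1) (nat_lit 10) (nat_lit 9) (nat_lit 2) (nat_lit 5) (nat_lit 10) (by decide +kernel)
theorem L63522 : W_24 (nat_lit 3) (nat_lit 0x30003800140013000c0000000000000000000000000000000) (nat_lit 0x0) (nat_lit 0x4400e0000000000000000000000000000000000000000) := T_24 (nat_lit 161) (nat_lit 174) (nat_lit 2) (nat_lit 4) (nat_lit 10) L63521 (by decide +kernel)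
theorem L63523 : W_24 (nat_lit 4) (nat_lit 0x3000380014001300080000000000000000000000000000000) (nat_lit 0x0) (nat_lit 0x4400e0000800040000000000000000000000000000000) := T_24 (nat_lit 126) (nat_lit 143) (nat_lit 5) (nat_lit 7) (nat_lit 7) L63522 (by decide +kernel)
theorem L63524 : W_24 (nat_lit 5) (nat_lit 0x3000280014001300080000000000000000000000000000000) (nat_lit 0x0) (nat_lit 0x5400e0000800050000000000000000000000000000000) := T_24 (nat_lit 176) (nat_lit 124) (nat_lit 7) (nat_lit 5) (nat_lit 7) L63523 (by decide +kernel)
theorem L63525 : W_24 (nat_lit 6) (nat_lit 0x1000280014001300080000000000000000000000000000000) (nat_lit 0x0) (nat_lit 0x400020005400e0000800050000000000000000000000000000000) := T_24 (nat_lit 193) (nat_lit 210) (nat_lit 7) (nat_lit 5) (nat_lit 8) L63524 (by decide +kernel)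
theorem L63526 : W_24 (nat_lit 7) (nat_lit 0x1000280014001200080000000000000000000000000000000) (nat_lit 0x0) (nat_lit 0x400020005400e0000900058000000000000000000000000000000) := T_24 (nat_lit 140) (nat_lit 123) (nat_lit 4) (nat_lit 5) (nat_lit 11) L63525 (by decide +kernel)
theorem L63527 : W_24 (nat_lit 8) (nat_lit 0x280014001200080000000000000000000000000000000) (nat_lit 0x0) (nat_lit 0x50003c005400e0000900058000400000000000000000000000000) := Q_24 (nat_lit 192) (C_24 L62818 (C_24 L63483 (C_24 L62885 (C_24 L63526 N_24)))) (by decide +kernel)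
theorem L63528 : W_24 (nat_lit 2) (nat_lit 0x10003c0014001a00098000000000000000000000000000000) (nat_lit 0x0) (nat_lit 0x3000000000000800000000000000000000000000) := D_24 (nat_lit 157) (nat_lit 156) (nat_lit 107) (nat_lit 0) (nat_lit 7) (nat_lit 10) (nat_lit 5) (nat_lit 5) (nat_lit 6) (by decide +kernel)
theorem L63529 : W_24 (nat_lit 3) (nat_lit 0x1000380014001a00098000000000000000000000000000000) (nat_lit 0x0) (nat_lit 0x40023000000000000800000000000000000000000000) := T_24 (nat_lit 174) (nat_lit 161) (nat_lit 2) (nat_lit 4) (nat_lit 10) L63528 (by decide +kernel)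
theorem L63530 : W_24 (nat_lit 4) (nat_lit 0x380014001a00098000000000000000000000000000000) (nat_lit 0x0) (nat_lit 0x1000040023000100000000800000000000000000000000000) := T_24 (nat_lit 192) (nat_lit 140) (nat_lit 4) (nat_lit 5) (nat_lit 11) L63529 (by decide +kernel)
theorem L63531 : W_24 (nat_lit 5) (nat_lit 0x380014001200098000000000000000000000000000000) (nat_lit 0x0) (nat_lit 0x1000040023000d00000000800000000000000000000000000) := T_24 (nat_lit 143) (nat_lit 142) (nat_lit 0) (nat_lit 8) (nat_lit 8) L63530 (by decide +kernel)
theorem L63532 : W_24 (nat_lit 6) (nat_lit 0x380014001200090000000000000000000000000000000) (nat_lit 0x0) (nat_lit 0x1000040023000d00008000c00000000000000000000000000) := T_24 (nat_lit 123) (nat_lit 106) (nat_lit 4) (nat_lit 5) (nat_lit 10) L63531 (by decide +kernel)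
theorem L63533 : W_24 (nat_lit 7) (nat_lit 0x380014001200080000000000000000000000000000000) (nat_lit 0x0) (nat_lit 0x3000040023000d00018000c00000000000000000000000000) := T_24 (nat_lit 124) (nat_lit 193) (nat_lit 7) (nat_lit 5) (nat_lit 7) L63532 (by decide +kernel)
theorem L63534 : W_24 (nat_lit 2) (nat_lit 0x780014001a00098000000000000000000000000000000) (nat_lit 0x0) (nat_lit 0x18000000000000000040000000000000000000000000000000) := D_24 (nat_lit 195) (nat_lit 196) (nat_lit 126) (nat_lit 3) (nat_lit 5) (nat_lit 10) (nat_lit 7) (nat_lit 7) (nat_lit 7) (by decide +kernel)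
theorem L63535 : W_24 (nat_lit 3) (nat_lit 0x780014001200098000000000000000000000000000000) (nat_lit 0x0) (nat_lit 0x18000000000000c00040000000000000000000000000000000) := T_24 (nat_lit 143) (nat_lit 142) (nat_lit 0) (nat_lit 8) (nat_lit 8) L63534 (by decide +kernel)
theorem L63536 : W_24 (nat_lit 4) (nat_lit 0x780014001200090000000000000000000000000000000) (nat_lit 0x0) (nat_lit 0x18000000000000c00048000400000000000000000000000000) := T_24 (nat_lit 123) (nat_lit 106) (nat_lit 4) (nat_lit 5) (nat_lit 10) L63535 (by decide +kernel)
theorem L63537 : W_24 (nat_lit 5) (nat_lit 0x780014001200080000000000000000000000000000000) (nat_lit 0x0) (nat_lit 0x1a000000000000c00058000400000000000000000000000000) := T_24 (nat_lit 124) (nat_lit 193) (nat_lit 7) (nat_lit 5) (nat_lit 7) L63536 (by decide +kernel)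
theorem L63538 : W_24 (nat_lit 6) (nat_lit 0x380014001200080000000000000000000000000000000) (nat_lit 0x0) (nat_lit 0x1a000400002000c00058000400000000000000000000000000) := T_24 (nat_lit 178) (nat_lit 157) (nat_lit 0) (nat_lit 8) (nat_lit 10) L63537 (by decide +kernel)
theorem L63539 : W_24 (nat_lit 2) (nat_lit 0x20003c0014001200080000000000000000000000000000000) (nat_lit 0x0) (nat_lit 0x800040001000000000000000000000000000000000000000000000000) := D_24 (nat_lit 210) (nat_lit 227) (nat_lit 192) (nat_lit 6) (nat_lit 6) (nat_lit 13) (nat_lit 7) (nat_lit 5) (nat_lit 8) (by decide +kernel)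
theorem L63540 : W_24 (nat_lit 3) (nat_lit 0x3c0014001200080000000000000000000000000000000) (nat_lit 0x0) (nat_lit 0x800040003000000000000000010000000000000000000000000000000) := T_24 (nat_lit 193) (nat_lit 124) (nat_lit 7) (nat_lit 5) (nat_lit 7) L63539 (by decide +kernel)
theorem L63541 : W_24 (nat_lit 4) (nat_lit 0x380014001200080000000000000000000000000000000) (nat_lit 0x0) (nat_lit 0x800040003000040020000000010000000000000000000000000000000) := T_24 (nat_lit 174) (nat_lit 161) (nat_lit 2) (nat_lit 4) (nat_lit 10) L63540 (by decide +kernel)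
theorem L63542 : W_24 (nat_lit 8) (nat_lit 0x280014001200080000000000000000000000000000000) (nat_lit 0x0) (nat_lit 0x80004001b000540063000d00058000c00000000000000000000000000) := Q_24 (nat_lit 176) (C_24 L63533 (C_24 L63538 (C_24 L63030 (C_24 L63541 N_24)))) (by decide +kernel)
theorem L63543 : W_24 (nat_lit 2) (nat_lit 0x9000780034001200090000000000000000000000000000000) (nat_lit 0x0) (nat_lit 0x2000100000000000000000800000000000000000000000000000000000) := D_24 (nat_lit 212) (nat_lit 229) (nat_lit 143) (nat_lit 4) (nat_lit 8) (nat_lit 13) (nat_lit 4) (nat_lit 8) (nat_lit 12) (by decide +kernel)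
theorem L63544 : W_24 (nat_lit 3) (nat_lit 0x9000780014001200090000000000000000000000000000000) (nat_lit 0x0) (nat_lit 0x2000100000000000060000800000000000000000000000000000000000) := T_24 (nat_lit 161) (nat_lit 162) (nat_lit 2) (nat_lit 5) (nat_lit 10) L63543 (by decide +kernel)
theorem L63545 : W_24 (nat_lit 4) (nat_lit 0x1000780014001200090000000000000000000000000000000) (nat_lit 0x0) (nat_lit 0x2000100018000000060000800000000000000000000000000000000000) := T_24 (nat_lit 195) (nat_lit 196) (nat_lit 3) (nat_lit 5) (nat_lit 10) L63544 (by decide +kernel)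
theorem L63546 : W_24 (nat_lit 5) (nat_lit 0x780014001200090000000000000000000000000000000) (nat_lit 0x0) (nat_lit 0x2000100019800000060000800000000000000000000000000000000000) := T_24 (nat_lit 192) (nat_lit 191) (nat_lit 1) (nat_lit 8) (nat_lit 10) L63545 (by decide +kernel)
theorem L63547 : W_24 (nat_lit 6) (nat_lit 0x380014001200090000000000000000000000000000000) (nat_lit 0x0) (nat_lit 0x2000100019800400062000800000000000000000000000000000000000) := T_24 (nat_lit 178) (nat_lit 157) (nat_lit 0) (nat_lit 8) (nat_lit 10) L63546 (by decide +kernel)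
theorem L63548 : W_24 (nat_lit 7) (nat_lit 0x380014001200080000000000000000000000000000000) (nat_lit 0x0) (nat_lit 0x200010001b800400062000800010000000000000000000000000000000) := T_24 (nat_lit 124) (nat_lit 193) (nat_lit 7) (nat_lit 5) (nat_lit 7) L63547 (by decide +kernel)
theorem L63549 : W_24 (nat_lit 8) (nat_lit 0x280014001200080000000000000000000000000000000) (nat_lit 0x0) (nat_lit 0x280014001b800540062000800010000800000000000000000000000000) := Q_24 (nat_lit 176) (C_24 L63541 (C_24 L62908 (C_24 L63030 (C_24 L63548 N_24)))) (by decide +kernel)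
theorem L63550 : W_24 (nat_lit 12) (nat_lit 0x200014001200080000000000000000000000000000000) (nat_lit 0x0) (nat_lit 0x8002e001fc01be005f00e3000d00058003c001e000c000000000000000000) := Q_24 (nat_lit 175) (C_24 L63484 (C_24 L63497 (C_24 L63501 (C_24 L63520 (C_24 L63527 (C_24 L63542 (C_24 L63549 N_24))))))) (by decide +kernel)
theorem L63551 : W_24 (nat_lit 2) (nat_lit 0x200034001600080000000000000000000000000000000) (nat_lit 0x0) (nat_lit 0x48000100000000000000000000000000000000000) := D_24 (nat_lit 159) (nat_lit 140) (nat_lit 162) (nat_lit 0) (nat_lit 8) (nat_lit 9) (nat_lit 0) (nat_lit 9) (nat_lit 9) (by decide +kernel)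
theorem L63552 : W_24 (nat_lit 2) (nat_lit 0x200034001600080000000000000000000000000000000) (nat_lit 0x0) (nat_lit 0x40000900000000000000000000000000000000000) := D_24 (nat_lit 143) (nat_lit 162) (nat_lit 140) (nat_lit 3) (nat_lit 5) (nat_lit 8) (nat_lit 3) (nat_lit 4) (nat_lit 8) (by decide +kernel)
theorem L63553 : W_24 (nat_lit 2) (nat_lit 0x200034001600080000000000000000000000000000000) (nat_lit 0x0) (nat_lit 0x8000900000000000000000000000000000000000) := D_24 (nat_lit 140) (nat_lit 159) (nat_lit 143) (nat_lit 0) (nat_lit 8) (nat_lit 9) (nat_lit 3) (nat_lit 4) (nat_lit 8) (by decide +kernel)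
theorem L63554 : W_24 (nat_lit 2) (nat_lit 0x200034001600080000000000000000000000000000000) (nat_lit 0x0) (nat_lit 0x40000800100000000000000000000000000000000) := D_24 (nat_lit 143) (nat_lit 162) (nat_lit 128) (nat_lit 3) (nat_lit 5) (nat_lit 8) (nat_lit 2) (nat_lit 5) (nat_lit 8) (by decide +kernel)
theorem L63555 : W_24 (nat_lit 3) (nat_lit 0x200034001200080000000000000000000000000000000) (nat_lit 0x0) (nat_lit 0x48000d00100000000000000000000000000000000) := Q_24 (nat_lit 142) (C_24 L63551 (C_24 L63552 (C_24 L63553 (C_24 L63554 N_24)))) (by decide +kernel)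
theorem L63556 : W_24 (nat_lit 2) (nat_lit 0x20003800b4001200080000000000000000000000000000000) (nat_lit 0x0) (nat_lit 0x800040001000000000000000000000000000000000000000000000000) := D_24 (nat_lit 210) (nat_lit 227) (nat_lit 192) (nat_lit 6) (nat_lit 6) (nat_lit 13) (nat_lit 7) (nat_lit 5) (nat_lit 8) (by decide +kernel)
theorem L63557 : W_24 (nat_lit 3) (nat_lit 0x3800b4001200080000000000000000000000000000000) (nat_lit 0x0) (nat_lit 0x800040003000000000000000010000000000000000000000000000000) := T_24 (nat_lit 193) (nat_lit 124) (nat_lit 7) (nat_lit 5) (nat_lit 7) L63556 (by decide +kernel)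
theorem L63558 : W_24 (nat_lit 4) (nat_lit 0x3000b4001200080000000000000000000000000000000) (nat_lit 0x0) (nat_lit 0x8000400030000c0000000000010000000000000000000000000000000) := T_24 (nat_lit 175) (nat_lit 174) (nat_lit 2) (nat_lit 4) (nat_lit 10) L63557 (by decide +kernel)
theorem L63559 : W_24 (nat_lit 5) (nat_lit 0x300034001200080000000000000000000000000000000) (nat_lit 0x0) (nat_lit 0x8000400030000c00c0000000010000000000000000000000000000000) := T_24 (nat_lit 163) (nat_lit 162) (nat_lit 1) (nat_lit 10) (nat_lit 9) L63558 (by decide +kernel)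
theorem L63560 : W_24 (nat_lit 2) (nat_lit 0x1000380034001a00098000000000000000000000000000000) (nat_lit 0x0) (nat_lit 0x10000800400000000000000000000000000000000000000000000) := D_24 (nat_lit 191) (nat_lit 178) (nat_lit 208) (nat_lit 1) (nat_lit 8) (nat_lit 10) (nat_lit 5) (nat_lit 5) (nat_lit 8) (by decide +kernel)
theorem L63561 : W_24 (nat_lit 3) (nat_lit 0x380034001a00098000000000000000000000000000000) (nat_lit 0x0) (nat_lit 0x10001800400000000100000000000000000000000000000000000) := T_24 (nat_lit 192) (nat_lit 140) (nat_lit 4) (nat_lit 5) (nat_lit 11) L63560 (by decide +kernel)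
theorem L63562 : W_24 (nat_lit 4) (nat_lit 0x380034001200098000000000000000000000000000000) (nat_lit 0x0) (nat_lit 0x10001800400000000d00000000000000000000000000000000000) := T_24 (nat_lit 143) (nat_lit 142) (nat_lit 0) (nat_lit 8) (nat_lit 8) L63561 (by decide +kernel)
theorem L63563 : W_24 (nat_lit 5) (nat_lit 0x380034001200090000000000000000000000000000000) (nat_lit 0x0) (nat_lit 0x10001800400000000d00008000400000000000000000000000000) := T_24 (nat_lit 123) (nat_lit 106) (nat_lit 4) (nat_lit 5) (nat_lit 10) L63562 (by decide +kernel)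
theorem L63564 : W_24 (nat_lit 6) (nat_lit 0x380034001200080000000000000000000000000000000) (nat_lit 0x0) (nat_lit 0x10003800400000000d00018000400000000000000000000000000) := T_24 (nat_lit 124) (nat_lit 193) (nat_lit 7) (nat_lit 5) (nat_lit 7) L63563 (by decide +kernel)
theorem L63565 : W_24 (nat_lit 7) (nat_lit 0x300034001200080000000000000000000000000000000) (nat_lit 0x0) (nat_lit 0x100038004c0000000d00018000400000000000000000000000000) := T_24 (nat_lit 175) (nat_lit 174) (nat_lit 2) (nat_lit 4) (nat_lit 10) L63564 (by decide +kernel)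
theorem L63566 : W_24 (nat_lit 8) (nat_lit 0x200034001200080000000000000000000000000000000) (nat_lit 0x0) (nat_lit 0x80005000b8005c00c0000d00058002400000000000000000000000000) := Q_24 (nat_lit 176) (C_24 L63559 (C_24 L63111 (C_24 L63107 (C_24 L63565 N_24)))) (by decide +kernel)
theorem L63567 : W_24 (nat_lit 4) (nat_lit 0x280034001200080000000000000000000000000000000) (nat_lit 0x0) (nat_lit 0x200010001800140000000000010000000000000000000000000000000) := T_24 (nat_lit 174) (nat_lit 176) (nat_lit 2) (nat_lit 4) (nat_lit 10) L51661 (by decide +kernel)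
theorem L63568 : W_24 (nat_lit 4) (nat_lit 0x60001a00680034001700180000000000000000000000000000000) (nat_lit 0x0) (nat_lit 0x6000380018000000000000000000000000000000000000000000000000) := T_24 (nat_lit 212) (nat_lit 211) (nat_lit 0) (nat_lit 8) (nat_lit 12) L62825 (by decide +kernel)
theorem L63569 : W_24 (nat_lit 5) (nat_lit 0x60001800680034001700180000000000000000000000000000000) (nat_lit 0x0) (nat_lit 0x6000380018600000000000000000000000000000000000000000000000) := T_24 (nat_lit 189) (nat_lit 190) (nat_lit 3) (nat_lit 2) (nat_lit 11) L63568 (by decide +kernel)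
theorem L63570 : W_24 (nat_lit 6) (nat_lit 0x40001800680034001700180000000000000000000000000000000) (nat_lit 0x0) (nat_lit 0x68003a0018600000000000000000000000000000000000000000000000) := T_24 (nat_lit 209) (nat_lit 227) (nat_lit 7) (nat_lit 5) (nat_lit 9) L63569 (by decide +kernel)
theorem L63571 : W_24 (nat_lit 7) (nat_lit 0x40001800680034001700080000000000000000000000000000000) (nat_lit 0x0) (nat_lit 0x68003a0018600000000000000100008000000000000000000000000000) := T_24 (nat_lit 128) (nat_lit 111) (nat_lit 6) (nat_lit 8) (nat_lit 10) L63570 (by decide +kernel)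
theorem L63572 : W_24 (nat_lit 8) (nat_lit 0x1800680034001700080000000000000000000000000000000) (nat_lit 0x0) (nat_lit 0x68003e001a600000000000000100008000000000000000000000000000) := T_24 (nat_lit 210) (nat_lit 193) (nat_lit 7) (nat_lit 5) (nat_lit 8) L63571 (by decide +kernel)
theorem L63573 : W_24 (nat_lit 9) (nat_lit 0x1800280034001700080000000000000000000000000000000) (nat_lit 0x0) (nat_lit 0x68003e001a600500000000000100008000000000000000000000000000) := T_24 (nat_lit 178) (nat_lit 176) (nat_lit 1) (nat_lit 8) (nat_lit 10) L63572 (by decide +kernel)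
theorem L63574 : W_24 (nat_lit 10) (nat_lit 0x1000280034001700080000000000000000000000000000000) (nat_lit 0x0) (nat_lit 0x68003f001ae00500000000000100008000000000000000000000000000) := T_24 (nat_lit 191) (nat_lit 208) (nat_lit 5) (nat_lit 5) (nat_lit 8) L63573 (by decide +kernel)
theorem L63575 : W_24 (nat_lit 11) (nat_lit 0x280034001700080000000000000000000000000000000) (nat_lit 0x0) (nat_lit 0x68003f001be00500000000000108008000000000000000000000000000) := T_24 (nat_lit 192) (nat_lit 123) (nat_lit 4) (nat_lit 5) (nat_lit 11) L63574 (by decide +kernel)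
theorem L63576 : W_24 (nat_lit 12) (nat_lit 0x280034001300080000000000000000000000000000000) (nat_lit 0x0) (nat_lit 0x68003f001be00500000000c00108008000000000000000000000000000) := T_24 (nat_lit 142) (nat_lit 143) (nat_lit 3) (nat_lit 4) (nat_lit 8) L63575 (by decide +kernel)
theorem L63577 : W_24 (nat_lit 13) (nat_lit 0x280034001200080000000000000000000000000000000) (nat_lit 0x0) (nat_lit 0x68003f001be00500008000d00108008000000000000000000000000000) := T_24 (nat_lit 140) (nat_lit 159) (nat_lit 0) (nat_lit 8) (nat_lit 9) L63576 (by decide +kernel)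
theorem L63578 : W_24 (nat_lit 14) (nat_lit 0x200034001200080000000000000000000000000000000) (nat_lit 0x0) (nat_lit 0x6a003f001be005c0008000d00118008000000000000000000000000000) := Q_24 (nat_lit 175) (C_24 L51408 (C_24 L51404 (C_24 L63567 (C_24 L63577 N_24)))) (by decide +kernel)
theorem L63579 : W_24 (nat_lit 15) (nat_lit 0x200014001200080000000000000000000000000000000) (nat_lit 0x0) (nat_lit 0x6a003f001be075c01e8000d0015800ac00000000000000000000000000) := Q_24 (nat_lit 161) (C_24 L63121 (C_24 L63130 (C_24 L63555 (C_24 L63566 (C_24 L63578 N_24))))) (by decide +kernel)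
theorem L63581 : W_24 (nat_lit 5) (nat_lit 0x200016001200080000000000000000000000000000000) (nat_lit 0x0) (nat_lit 0x538009800400000000000000000000000000000000000) := T_24 (nat_lit 159) (nat_lit 178) (nat_lit 3) (nat_lit 4) (nat_lit 9) L63067 (by decide +kernel)
theorem L63582 : W_24 (nat_lit 2) (nat_lit 0x800000002000300016001a000900008000a0000000000000000000000) (nat_lit 0x0) (nat_lit 0x40005000000000000000000) := D_24 (nat_lit 90) (nat_lit 72) (nat_lit 74) (nat_lit 4) (nat_lit 5) (nat_lit 8) (nat_lit 6) (nat_lit 5) (nat_lit 8) (by decide +kernel)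
theorem L63583 : W_24 (nat_lit 3) (nat_lit 0x800000002000300016001a00090000800020000000000000000000000) (nat_lit 0x0) (nat_lit 0x10000c0005000000000000000000) := T_24 (nat_lit 91) (nat_lit 108) (nat_lit 6) (nat_lit 5) (nat_lit 9) L63582 (by decide +kernel)
theorem L63584 : W_24 (nat_lit 4) (nat_lit 0x800000002000300016001a00090000800000000000000000000000000) (nat_lit 0x0) (nat_lit 0x14000e0005000000000000000000) := T_24 (nat_lit 89) (nat_lit 106) (nat_lit 4) (nat_lit 5) (nat_lit 9) L63583 (by decide +kernel)
theorem L63585 : W_24 (nat_lit 5) (nat_lit 0x800000002000300016001a00090000000000000000000000000000000) (nat_lit 0x0) (nat_lit 0x40000000000000001c000e0005000000000000000000) := T_24 (nat_lit 107) (nat_lit 174) (nat_lit 5) (nat_lit 5) (nat_lit 6) L63584 (by decide +kernel)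
theorem L63586 : W_24 (nat_lit 6) (nat_lit 0x800000002000300016001a00080000000000000000000000000000000) (nat_lit 0x0) (nat_lit 0xc0000000000010001c000e0005000000000000000000) := T_24 (nat_lit 124) (nat_lit 175) (nat_lit 7) (nat_lit 5) (nat_lit 7) L63585 (by decide +kernel)
theorem L63587 : W_24 (nat_lit 7) (nat_lit 0x2000300016001a00080000000000000000000000000000000) (nat_lit 0x0) (nat_lit 0x8000400000000c0000000000010001c000e0005000000000000000000) := T_24 (nat_lit 227) (nat_lit 210) (nat_lit 6) (nat_lit 6) (nat_lit 13) L63586 (by decide +kernel)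
theorem L63588 : W_24 (nat_lit 8) (nat_lit 0x300016001a00080000000000000000000000000000000) (nat_lit 0x0) (nat_lit 0x8000400020000c0000000000050001c000e0005000000000000000000) := T_24 (nat_lit 193) (nat_lit 126) (nat_lit 5) (nat_lit 7) (nat_lit 7) L63587 (by decide +kernel)
theorem L63589 : W_24 (nat_lit 9) (nat_lit 0x300016001200080000000000000000000000000000000) (nat_lit 0x0) (nat_lit 0x8000400020000c0000000c00050001c000e0005000000000000000000) := T_24 (nat_lit 143) (nat_lit 142) (nat_lit 1) (nat_lit 8) (nat_lit 8) L63588 (by decide +kernel)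
theorem L63590 : W_24 (nat_lit 4) (nat_lit 0x300016001200080000000000000000000000000000000) (nat_lit 0x0) (nat_lit 0x4c0001800c00000000000000000000000000000000000) := T_24 (nat_lit 143) (nat_lit 142) (nat_lit 1) (nat_lit 8) (nat_lit 8) L63438 (by decide +kernel)
theorem L63591 : W_24 (nat_lit 2) (nat_lit 0x700016001a000c0002000100000000000000000000000) (nat_lit 0x0) (nat_lit 0x1000080004000000000000000000) := D_24 (nat_lit 91) (nat_lit 108) (nat_lit 74) (nat_lit 4) (nat_lit 7) (nat_lit 9) (nat_lit 4) (nat_lit 7) (nat_lit 8) (by decide +kernel)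
theorem L63592 : W_24 (nat_lit 3) (nat_lit 0x700016001a000c0002000000000000000000000000000) (nat_lit 0x0) (nat_lit 0x100018000c000000000000000000) := T_24 (nat_lit 92) (nat_lit 75) (nat_lit 7) (nat_lit 7) (nat_lit 4) L63591 (by decide +kernel)
theorem L63593 : W_24 (nat_lit 4) (nat_lit 0x700016001a000c0000000000000000000000000000000) (nat_lit 0x0) (nat_lit 0x2000000000000300018000c000000000000000000) := T_24 (nat_lit 109) (nat_lit 161) (nat_lit 7) (nat_lit 7) (nat_lit 6) L63592 (by decide +kernel)
theorem L63594 : W_24 (nat_lit 5) (nat_lit 0x300016001a000c0000000000000000000000000000000) (nat_lit 0x0) (nat_lit 0x800040002000000000000300018000c000000000000000000) := T_24 (nat_lit 178) (nat_lit 195) (nat_lit 7) (nat_lit 7) (nat_lit 7) L63593 (by decide +kernel)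
theorem L63595 : W_24 (nat_lit 6) (nat_lit 0x300016001a00080000000000000000000000000000000) (nat_lit 0x0) (nat_lit 0xa00040002000000004000300018000c000000000000000000) := T_24 (nat_lit 126) (nat_lit 193) (nat_lit 5) (nat_lit 7) (nat_lit 7) L63594 (by decide +kernel)
theorem L63596 : W_24 (nat_lit 7) (nat_lit 0x300016001200080000000000000000000000000000000) (nat_lit 0x0) (nat_lit 0xa000400020000c0004000300018000c000000000000000000) := T_24 (nat_lit 143) (nat_lit 142) (nat_lit 1) (nat_lit 8) (nat_lit 8) L63595 (by decide +kernel)
theorem L63597 : W_24 (nat_lit 2) (nat_lit 0x380016001200080000000000000000000000000000000) (nat_lit 0x0) (nat_lit 0x40021000000000000000000000000000000000000000) := D_24 (nat_lit 174) (nat_lit 156) (nat_lit 161) (nat_lit 0) (nat_lit 7) (nat_lit 10) (nat_lit 2) (nat_lit 4) (nat_lit 10) (by decide +kernel)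
theorem L63598 : W_24 (nat_lit 3) (nat_lit 0x300016001200080000000000000000000000000000000) (nat_lit 0x0) (nat_lit 0x4c0021000000000000000000000000000000000000000) := T_24 (nat_lit 175) (nat_lit 178) (nat_lit 0) (nat_lit 8) (nat_lit 10) L63597 (by decide +kernel)
theorem L63599 : W_24 (nat_lit 10) (nat_lit 0x200016001200080000000000000000000000000000000) (nat_lit 0x0) (nat_lit 0x80004000a0005c0021800c00050003c001e000d000000000000000000) := Q_24 (nat_lit 176) (C_24 L63589 (C_24 L63590 (C_24 L63596 (C_24 L63598 N_24)))) (by decide +kernel)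
theorem L63600 : W_24 (nat_lit 2) (nat_lit 0x200016001200080000000000000000000000000000000) (nat_lit 0x0) (nat_lit 0x400008000800000000000000000000000000000000000) := D_24 (nat_lit 159) (nat_lit 178) (nat_lit 143) (nat_lit 3) (nat_lit 4) (nat_lit 9) (nat_lit 2) (nat_lit 4) (nat_lit 9) (by decide +kernel)
theorem L63601 : W_24 (nat_lit 11) (nat_lit 0x200014001200080000000000000000000000000000000) (nat_lit 0x0) (nat_lit 0x80004000a0005f802b800c00050003c001e000d000000000000000000) := Q_24 (nat_lit 157) (C_24 L63580 (C_24 L63581 (C_24 L63599 (C_24 L63600 N_24)))) (by decide +kernel)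
theorem L63602 : W_24 (nat_lit 16) (nat_lit 0x200010001200080000000000000000000000000000000) (nat_lit 0x0) (nat_lit 0x8006e003fc01be075f81efc00dc015c00bc001e000d000000000000000000) := Q_24 (nat_lit 158) (C_24 L63063 (C_24 L63069 (C_24 L63452 (C_24 L63458 (C_24 L63463 (C_24 L63020 (C_24 L63550 (C_24 L63579 (C_24 L63601 N_24))))))))) (by decide +kernel)
theorem L63603 : W_24 (nat_lit 2) (nat_lit 0x600010001a000c0002000100000000000000000000000) (nat_lit 0x0) (nat_lit 0x1000080004000000000000000000) := D_24 (nat_lit 91) (nat_lit 108) (nat_lit 74) (nat_lit 4) (nat_lit 7) (nat_lit 9) (nat_lit 4) (nat_lit 7) (nat_lit 8) (by decide +kernel)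
theorem L63604 : W_24 (nat_lit 3) (nat_lit 0x600010001a000c0002000000000000000000000000000) (nat_lit 0x0) (nat_lit 0x100018000c000000000000000000) := T_24 (nat_lit 92) (nat_lit 75) (nat_lit 7) (nat_lit 7) (nat_lit 4) L63603 (by decide +kernel)
theorem L63605 : W_24 (nat_lit 4) (nat_lit 0x600010001a000c0000000000000000000000000000000) (nat_lit 0x0) (nat_lit 0x2000000000000300018000c000000000000000000) := T_24 (nat_lit 109) (nat_lit 161) (nat_lit 7) (nat_lit 7) (nat_lit 6) L63604 (by decide +kernel)
theorem L63606 : W_24 (nat_lit 5) (nat_lit 0x200010001a000c0000000000000000000000000000000) (nat_lit 0x0) (nat_lit 0x800040002000000000000300018000c000000000000000000) := T_24 (nat_lit 178) (nat_lit 195) (nat_lit 7) (nat_lit 7) (nat_lit 7) L63605 (by decide +kernel)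
theorem L63607 : W_24 (nat_lit 2) (nat_lit 0x700030001a000c0000000000000000000000000000000) (nat_lit 0x0) (nat_lit 0xc0040000000000000000000000000000000000000000) := D_24 (nat_lit 175) (nat_lit 162) (nat_lit 174) (nat_lit 2) (nat_lit 5) (nat_lit 10) (nat_lit 2) (nat_lit 4) (nat_lit 10) (by decide +kernel)
theorem L63608 : W_24 (nat_lit 3) (nat_lit 0x700010001a000c0000000000000000000000000000000) (nat_lit 0x0) (nat_lit 0xc0060000000000002000000000000000000000000000) := T_24 (nat_lit 161) (nat_lit 109) (nat_lit 7) (nat_lit 7) (nat_lit 6) L63607 (by decide +kernel)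
theorem L63609 : W_24 (nat_lit 4) (nat_lit 0x300010001a000c0000000000000000000000000000000) (nat_lit 0x0) (nat_lit 0x80004c0060000000000002000000000000000000000000000) := T_24 (nat_lit 178) (nat_lit 195) (nat_lit 7) (nat_lit 7) (nat_lit 7) L63608 (by decide +kernel)
theorem L63610 : W_24 (nat_lit 5) (nat_lit 0x200010001a000c0000000000000000000000000000000) (nat_lit 0x0) (nat_lit 0xa0005c0060000000000002000000000000000000000000000) := T_24 (nat_lit 176) (nat_lit 193) (nat_lit 5) (nat_lit 7) (nat_lit 7) L63609 (by decide +kernel)
theorem L63611 : W_24 (nat_lit 6) (nat_lit 0x200010001a00080000000000000000000000000000000) (nat_lit 0x0) (nat_lit 0xa0005c006000010007800300018000c000000000000000000) := Q_24 (nat_lit 126) (C_24 L31808 (C_24 L63606 (C_24 L63610 N_24))) (by decide +kernel)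
theorem L63612 : W_24 (nat_lit 3) (nat_lit 0x200010001a00080000000000000000000000000000000) (nat_lit 0x0) (nat_lit 0x60000500100000000000000000000000000000000) := T_24 (nat_lit 142) (nat_lit 128) (nat_lit 2) (nat_lit 5) (nat_lit 8) L63247 (by decide +kernel)
theorem L63613 : W_24 (nat_lit 7) (nat_lit 0x200010001a00080000000000000000000000000000000) (nat_lit 0x0) (nat_lit 0xa0005c006000040077803b000000000000000000000000000) := Q_24 (nat_lit 126) (C_24 L63169 (C_24 L63610 N_24)) (by decide +kernel)
theorem L63614 : W_24 (nat_lit 8) (nat_lit 0x200010001200080000000000000000000000000000000) (nat_lit 0x0) (nat_lit 0xa0005c0060000d0077c03b00018000c000000000000000000) := Q_24 (nat_lit 143) (C_24 L63611 (C_24 L63157 (C_24 L63612 (C_24 L63613 N_24)))) (by decide +kernel)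
theorem L63616 : W_24 (nat_lit 5) (nat_lit 0x200014001200090000000000000000000000000000000) (nat_lit 0x0) (nat_lit 0x3000180008000100068001c000a0000000000000000000000) := Q_24 (nat_lit 175) (C_24 L63078 (C_24 L62805 (C_24 L62800 (C_24 L63615 N_24)))) (by decide +kernel)
theorem L63617 : W_24 (nat_lit 6) (nat_lit 0x200014001200090000000000000000000000000000000) (nat_lit 0x0) (nat_lit 0x28005c0003000000068001c00020000000000000000000000) := Q_24 (nat_lit 175) (C_24 L63082 (C_24 L62945 (C_24 L63078 (C_24 L62902 (C_24 L62925 N_24))))) (by decide +kernel)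
theorem L63618 : W_24 (nat_lit 2) (nat_lit 0x200016001200090000000000000000000000000000000) (nat_lit 0x0) (nat_lit 0x400008000800000000000000000000000000000000000) := D_24 (nat_lit 159) (nat_lit 143) (nat_lit 178) (nat_lit 2) (nat_lit 4) (nat_lit 9) (nat_lit 3) (nat_lit 4) (nat_lit 9) (by decide +kernel)
theorem L63619 : W_24 (nat_lit 2) (nat_lit 0x20001e001200090000000000000000000000000000000) (nat_lit 0x0) (nat_lit 0x60000000000000000800000000000000000000000000) := D_24 (nat_lit 174) (nat_lit 173) (nat_lit 107) (nat_lit 1) (nat_lit 7) (nat_lit 9) (nat_lit 5) (nat_lit 5) (nat_lit 6) (by decide +kernel)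
theorem L63620 : W_24 (nat_lit 3) (nat_lit 0x200016001200090000000000000000000000000000000) (nat_lit 0x0) (nat_lit 0x60008000800000000800000000000000000000000000) := T_24 (nat_lit 159) (nat_lit 143) (nat_lit 2) (nat_lit 4) (nat_lit 9) L63619 (by decide +kernel)
theorem L63621 : W_24 (nat_lit 3) (nat_lit 0x200016001200090000000000000000000000000000000) (nat_lit 0x0) (nat_lit 0x460008000000000000800000000000000000000000000) := T_24 (nat_lit 159) (nat_lit 178) (nat_lit 3) (nat_lit 4) (nat_lit 9) L63619 (by decide +kernel)
theorem L63622 : W_24 (nat_lit 2) (nat_lit 0x200016001200090000800040000000000000000000000) (nat_lit 0x0) (nat_lit 0x400020001000000000000000000) := D_24 (nat_lit 89) (nat_lit 72) (nat_lit 106) (nat_lit 4) (nat_lit 5) (nat_lit 8) (nat_lit 4) (nat_lit 5) (nat_lit 9) (by decide +kernel)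
theorem L63623 : W_24 (nat_lit 3) (nat_lit 0x200016001200090000800000000000000000000000000) (nat_lit 0x0) (nat_lit 0x100000000400060001000000000000000000) := T_24 (nat_lit 90) (nat_lit 140) (nat_lit 5) (nat_lit 5) (nat_lit 5) L63622 (by decide +kernel)
theorem L63624 : W_24 (nat_lit 4) (nat_lit 0x200016001200090000000000000000000000000000000) (nat_lit 0x0) (nat_lit 0x40000000100000000c00060001000000000000000000) := T_24 (nat_lit 107) (nat_lit 174) (nat_lit 5) (nat_lit 5) (nat_lit 6) L63623 (by decide +kernel)
theorem L63625 : W_24 (nat_lit 5) (nat_lit 0x200014001200090000000000000000000000000000000) (nat_lit 0x0) (nat_lit 0x46000a000900000000c00060001000000000000000000) := Q_24 (nat_lit 157) (C_24 L63618 (C_24 L63620 (C_24 L63621 (C_24 L63624 N_24)))) (by decide +kernel)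
theorem L63626 : W_24 (nat_lit 2) (nat_lit 0x780014001200090000000000000000000000000000000) (nat_lit 0x0) (nat_lit 0x1800040000000000000000000000000000000000000000000) := D_24 (nat_lit 191) (nat_lit 174) (nat_lit 192) (nat_lit 5) (nat_lit 5) (nat_lit 7) (nat_lit 1) (nat_lit 8) (nat_lit 10) (by decide +kernel)
theorem L63627 : W_24 (nat_lit 3) (nat_lit 0x380014001200090000000000000000000000000000000) (nat_lit 0x0) (nat_lit 0x1800440002000000000000000000000000000000000000000) := T_24 (nat_lit 178) (nat_lit 157) (nat_lit 0) (nat_lit 8) (nat_lit 10) L63626 (by decide +kernel)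
theorem L63628 : W_24 (nat_lit 4) (nat_lit 0x280014001200090000000000000000000000000000000) (nat_lit 0x0) (nat_lit 0x3800540002000000000000000000000000000000000000000) := T_24 (nat_lit 176) (nat_lit 193) (nat_lit 7) (nat_lit 5) (nat_lit 7) L63627 (by decide +kernel)
theorem L63629 : W_24 (nat_lit 6) (nat_lit 0x200014001200090000000000000000000000000000000) (nat_lit 0x0) (nat_lit 0x38005c0003000100068001400000000000000000000000000) := Q_24 (nat_lit 175) (C_24 L62800 (C_24 L62902 (C_24 L63628 N_24))) (by decide +kernel)
theorem L63630 : W_24 (nat_lit 2) (nat_lit 0x200016001200090000800040000000000000000000000) (nat_lit 0x0) (nat_lit 0x1000080004000000000000000000) := D_24 (nat_lit 91) (nat_lit 108) (nat_lit 74) (nat_lit 6) (nat_lit 5) (nat_lit 9) (nat_lit 6) (nat_lit 5) (nat_lit 8) (by decide +kernel)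
theorem L63631 : W_24 (nat_lit 3) (nat_lit 0x200016001200090000800000000000000000000000000) (nat_lit 0x0) (nat_lit 0x1000000010000c0004000000000000000000) := T_24 (nat_lit 90) (nat_lit 140) (nat_lit 5) (nat_lit 5) (nat_lit 5) L63630 (by decide +kernel)
theorem L63632 : W_24 (nat_lit 4) (nat_lit 0x200016001200090000000000000000000000000000000) (nat_lit 0x0) (nat_lit 0x400000001000000018000c0004000000000000000000) := T_24 (nat_lit 107) (nat_lit 174) (nat_lit 5) (nat_lit 5) (nat_lit 6) L63631 (by decide +kernel)
theorem L63633 : W_24 (nat_lit 5) (nat_lit 0x200014001200090000000000000000000000000000000) (nat_lit 0x0) (nat_lit 0x46000a0009000000018000c0004000000000000000000) := Q_24 (nat_lit 157) (C_24 L63621 (C_24 L63620 (C_24 L63632 (C_24 L63618 N_24)))) (by decide +kernel)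
theorem L63634 : W_24 (nat_lit 7) (nat_lit 0x200014001200080000000000000000000000000000000) (nat_lit 0x0) (nat_lit 0x38005e000b000900078001c000e0005000000000000000000) := Q_24 (nat_lit 124) (C_24 L63616 (C_24 L63617 (C_24 L63625 (C_24 L63629 (C_24 L63633 N_24))))) (by decide +kernel)
theorem L63635 : W_24 (nat_lit 4) (nat_lit 0x20001c001200080000000000000000000000000000000) (nat_lit 0x0) (nat_lit 0x170003000800000000000000000000000000000000000) := T_24 (nat_lit 157) (nat_lit 143) (nat_lit 2) (nat_lit 4) (nat_lit 9) L62970 (by decide +kernel)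
theorem L63636 : W_24 (nat_lit 3) (nat_lit 0x20001c001200080000000000000000000000000000000) (nat_lit 0x0) (nat_lit 0x22000980000000000000000000000000000000000) := T_24 (nat_lit 157) (nat_lit 143) (nat_lit 2) (nat_lit 4) (nat_lit 9) L63006 (by decide +kernel)
theorem L63637 : W_24 (nat_lit 6) (nat_lit 0x200014001200080000000000000000000000000000000) (nat_lit 0x0) (nat_lit 0x20001f006b000980010000800000000000000000000000000) := Q_24 (nat_lit 159) (C_24 L62978 (C_24 L63461 (C_24 L63635 (C_24 L63636 N_24)))) (by decide +kernel)
theorem L63638 : W_24 (nat_lit 2) (nat_lit 0x2000140012000d0000c00000000000000000000000000) (nat_lit 0x0) (nat_lit 0x3000080000000000000000000000) := D_24 (nat_lit 108) (nat_lit 91) (nat_lit 109) (nat_lit 6) (nat_lit 5) (nat_lit 9) (nat_lit 3) (nat_lit 4) (nat_lit 6) (by decide +kernel)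
theorem L63639 : W_24 (nat_lit 3) (nat_lit 0x200014001200090000c00000000000000000000000000) (nat_lit 0x0) (nat_lit 0x60003000080000000000000000000000) := T_24 (nat_lit 126) (nat_lit 125) (nat_lit 0) (nat_lit 8) (nat_lit 7) L63638 (by decide +kernel)
theorem L63640 : W_24 (nat_lit 4) (nat_lit 0x200014001200090000800000000000000000000000000) (nat_lit 0x0) (nat_lit 0x600034000a0000000000000000000000) := T_24 (nat_lit 106) (nat_lit 89) (nat_lit 4) (nat_lit 5) (nat_lit 9) L63639 (by decide +kernel)
theorem L63644 : W_24 (nat_lit 2) (nat_lit 0x200014001200090003c00000000000000000000000000) (nat_lit 0x0) (nat_lit 0x8000000000000c000000000000000000000000000000) := D_24 (nat_lit 123) (nat_lit 175) (nat_lit 122) (nat_lit 4) (nat_lit 5) (nat_lit 10) (nat_lit 1) (nat_lit 7) (nat_lit 6) (by decide +kernel)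
theorem L63645 : W_24 (nat_lit 3) (nat_lit 0x200014001200090001c00000000000000000000000000) (nat_lit 0x0) (nat_lit 0x8000000000004c002000000000000000000000000000) := T_24 (nat_lit 109) (nat_lit 126) (nat_lit 3) (nat_lit 4) (nat_lit 6) L63644 (by decide +kernel)
theorem L63646 : W_24 (nat_lit 4) (nat_lit 0x200014001200090000c00000000000000000000000000) (nat_lit 0x0) (nat_lit 0x8000000000004c003000080000000000000000000000) := T_24 (nat_lit 108) (nat_lit 91) (nat_lit 6) (nat_lit 5) (nat_lit 9) L63645 (by decide +kernel)
theorem L63647 : W_24 (nat_lit 5) (nat_lit 0x200014001200090000800000000000000000000000000) (nat_lit 0x0) (nat_lit 0x8000000000004c0034000a0000000000000000000000) := T_24 (nat_lit 106) (nat_lit 89) (nat_lit 4) (nat_lit 5) (nat_lit 9) L63646 (by decide +kernel)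
theorem L63648 : W_24 (nat_lit 2) (nat_lit 0x2800140012000d0000c00000000000000000000000000) (nat_lit 0x0) (nat_lit 0x800040002000000000000000000000000000000000000000) := D_24 (nat_lit 174) (nat_lit 157) (nat_lit 191) (nat_lit 5) (nat_lit 5) (nat_lit 6) (nat_lit 5) (nat_lit 5) (nat_lit 7) (by decide +kernel)
theorem L63649 : W_24 (nat_lit 3) (nat_lit 0x2000140012000d0000c00000000000000000000000000) (nat_lit 0x0) (nat_lit 0x8000c0002000000008000000000000000000000000000000) := T_24 (nat_lit 175) (nat_lit 123) (nat_lit 4) (nat_lit 5) (nat_lit 10) L63648 (by decide +kernel)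
theorem L63650 : W_24 (nat_lit 4) (nat_lit 0x200014001200090000c00000000000000000000000000) (nat_lit 0x0) (nat_lit 0x8000c0002000000068000000000000000000000000000000) := T_24 (nat_lit 126) (nat_lit 125) (nat_lit 0) (nat_lit 8) (nat_lit 7) L63649 (by decide +kernel)
theorem L63651 : W_24 (nat_lit 5) (nat_lit 0x200014001200090000800000000000000000000000000) (nat_lit 0x0) (nat_lit 0x8000c0002000000068000400020000000000000000000000) := T_24 (nat_lit 106) (nat_lit 89) (nat_lit 4) (nat_lit 5) (nat_lit 9) L63650 (by decide +kernel)
theorem L63652 : W_24 (nat_lit 4) (nat_lit 0x200014001200090000800000000000000000000000000) (nat_lit 0x0) (nat_lit 0x400020001000000010000c0004000000000000000000) := T_24 (nat_lit 157) (nat_lit 174) (nat_lit 5) (nat_lit 5) (nat_lit 6) L63631 (by decide +kernel)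
theorem L63653 : W_24 (nat_lit 6) (nat_lit 0x200014001200090000000000000000000000000000000) (nat_lit 0x0) (nat_lit 0x8000c000200010006c003c000e0004000000000000000000) := Q_24 (nat_lit 107) (C_24 L63640 (C_24 L63643 (C_24 L63647 (C_24 L63651 (C_24 L63652 N_24))))) (by decide +kernel)
theorem L63654 : W_24 (nat_lit 5) (nat_lit 0x2800140012000b8000000000000000000000000000000) (nat_lit 0x0) (nat_lit 0xa00070003800000000000100000000000000000000000000000000000) := T_24 (nat_lit 192) (nat_lit 140) (nat_lit 4) (nat_lit 5) (nat_lit 11) L63072 (by decide +kernel)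
theorem L63655 : W_24 (nat_lit 6) (nat_lit 0x280014001200098000000000000000000000000000000) (nat_lit 0x0) (nat_lit 0xa00070003800000000000100020001000000000000000000000000000) := T_24 (nat_lit 125) (nat_lit 108) (nat_lit 6) (nat_lit 5) (nat_lit 10) L63654 (by decide +kernel)
theorem L63656 : W_24 (nat_lit 7) (nat_lit 0x280014001200090000000000000000000000000000000) (nat_lit 0x0) (nat_lit 0xa00070003800000000000100028001400000000000000000000000000) := T_24 (nat_lit 123) (nat_lit 106) (nat_lit 4) (nat_lit 5) (nat_lit 10) L63655 (by decide +kernel)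
theorem L63657 : W_24 (nat_lit 2) (nat_lit 0x800280014001200098000000000000000000000000000000) (nat_lit 0x0) (nat_lit 0x10001000000000000100000000000000000000000000000000000) := D_24 (nat_lit 192) (nat_lit 208) (nat_lit 140) (nat_lit 5) (nat_lit 5) (nat_lit 8) (nat_lit 4) (nat_lit 5) (nat_lit 11) (by decide +kernel)
theorem L63658 : W_24 (nat_lit 3) (nat_lit 0x800280014001200090000000000000000000000000000000) (nat_lit 0x0) (nat_lit 0x10001000000000000100008000400000000000000000000000000) := T_24 (nat_lit 123) (nat_lit 106) (nat_lit 4) (nat_lit 5) (nat_lit 10) L63657 (by decide +kernel)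
theorem L63659 : W_24 (nat_lit 4) (nat_lit 0x280014001200090000000000000000000000000000000) (nat_lit 0x0) (nat_lit 0x10001800040000000100008000400000000000000000000000000) := T_24 (nat_lit 191) (nat_lit 174) (nat_lit 5) (nat_lit 5) (nat_lit 7) L63658 (by decide +kernel)
theorem L63660 : W_24 (nat_lit 2) (nat_lit 0x1000080006c00340012000f0000800000000000000000000000000) (nat_lit 0x0) (nat_lit 0x4000200010000000000000000000000000000000000000000000000000) := D_24 (nat_lit 213) (nat_lit 196) (nat_lit 230) (nat_lit 7) (nat_lit 8) (nat_lit 8) (nat_lit 7) (nat_lit 8) (nat_lit 9) (by decide +kernel)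
theorem L63661 : W_24 (nat_lit 3) (nat_lit 0x80006c00340012000f0000800000000000000000000000000) (nat_lit 0x0) (nat_lit 0x6000300010000000000000000000000000000000000000000000000000) := T_24 (nat_lit 212) (nat_lit 229) (nat_lit 4) (nat_lit 8) (nat_lit 13) L63660 (by decide +kernel)
theorem L63662 : W_24 (nat_lit 4) (nat_lit 0x6c00340012000f0000800000000000000000000000000) (nat_lit 0x0) (nat_lit 0x6000300018000000000000800000000000000000000000000000000000) := T_24 (nat_lit 195) (nat_lit 143) (nat_lit 7) (nat_lit 7) (nat_lit 7) L63661 (by decide +kernel)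
theorem L63663 : W_24 (nat_lit 5) (nat_lit 0x2c00340012000f0000800000000000000000000000000) (nat_lit 0x0) (nat_lit 0x6000300018000400000000800000002000000000000000000000000000) := T_24 (nat_lit 178) (nat_lit 109) (nat_lit 4) (nat_lit 8) (nat_lit 10) L63662 (by decide +kernel)
theorem L63664 : W_24 (nat_lit 6) (nat_lit 0x2c00340012000f0000000000000000000000000000000) (nat_lit 0x0) (nat_lit 0x6000300018000400000000800000002c00000000000000000000000000) := T_24 (nat_lit 107) (nat_lit 106) (nat_lit 0) (nat_lit 8) (nat_lit 7) L63663 (by decide +kernel)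
theorem L63665 : W_24 (nat_lit 7) (nat_lit 0x2c00340012000b0000000000000000000000000000000) (nat_lit 0x0) (nat_lit 0x6000300018000400000000900040002c00000000000000000000000000) := T_24 (nat_lit 126) (nat_lit 140) (nat_lit 1) (nat_lit 8) (nat_lit 7) L63664 (by decide +kernel)
theorem L63666 : W_24 (nat_lit 8) (nat_lit 0x2c0034001200090000000000000000000000000000000) (nat_lit 0x0) (nat_lit 0x6000300018000400000000900060003c00000000000000000000000000) := T_24 (nat_lit 125) (nat_lit 108) (nat_lit 6) (nat_lit 5) (nat_lit 10) L63665 (by decide +kernel)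
theorem L63667 : W_24 (nat_lit 9) (nat_lit 0x2c0014001200090000000000000000000000000000000) (nat_lit 0x0) (nat_lit 0x6000300018000400028000900060003c00000000000000000000000000) := T_24 (nat_lit 161) (nat_lit 159) (nat_lit 1) (nat_lit 8) (nat_lit 9) L63666 (by decide +kernel)
theorem L63668 : W_24 (nat_lit 10) (nat_lit 0x280014001200090000000000000000000000000000000) (nat_lit 0x0) (nat_lit 0x6000300018800440028000900060003c00000000000000000000000000) := T_24 (nat_lit 174) (nat_lit 191) (nat_lit 5) (nat_lit 5) (nat_lit 7) L63667 (by decide +kernel)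
theorem L63669 : W_24 (nat_lit 2) (nat_lit 0x2c0034001a000f0000000000000000000000000000000) (nat_lit 0x0) (nat_lit 0x8000400000000000000002000000000000000000000000000) := D_24 (nat_lit 178) (nat_lit 109) (nat_lit 195) (nat_lit 7) (nat_lit 7) (nat_lit 6) (nat_lit 7) (nat_lit 7) (nat_lit 7) (by decide +kernel)
theorem L63670 : W_24 (nat_lit 3) (nat_lit 0x2c00340012000f0000000000000000000000000000000) (nat_lit 0x0) (nat_lit 0x8000400000000800008002000000000000000000000000000) := T_24 (nat_lit 143) (nat_lit 123) (nat_lit 3) (nat_lit 4) (nat_lit 7) L63669 (by decide +kernel)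
theorem L63671 : W_24 (nat_lit 4) (nat_lit 0x2c00140012000f0000000000000000000000000000000) (nat_lit 0x0) (nat_lit 0x8000400028000800008002000000000000000000000000000) := T_24 (nat_lit 161) (nat_lit 159) (nat_lit 1) (nat_lit 8) (nat_lit 9) L63670 (by decide +kernel)
theorem L63672 : W_24 (nat_lit 5) (nat_lit 0x2800140012000f0000000000000000000000000000000) (nat_lit 0x0) (nat_lit 0x8800440028000800008002000000000000000000000000000) := T_24 (nat_lit 174) (nat_lit 191) (nat_lit 5) (nat_lit 5) (nat_lit 7) L63671 (by decide +kernel)
theorem L63673 : W_24 (nat_lit 6) (nat_lit 0x2800140012000b0000000000000000000000000000000) (nat_lit 0x0) (nat_lit 0x8800440028000900048002000000000000000000000000000) := T_24 (nat_lit 126) (nat_lit 140) (nat_lit 1) (nat_lit 8) (nat_lit 7) L63672 (by decide +kernel)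
theorem L63674 : W_24 (nat_lit 7) (nat_lit 0x280014001200090000000000000000000000000000000) (nat_lit 0x0) (nat_lit 0x8800440028000900068003000000000000000000000000000) := T_24 (nat_lit 125) (nat_lit 108) (nat_lit 6) (nat_lit 5) (nat_lit 10) L63673 (by decide +kernel)
theorem L63675 : W_24 (nat_lit 11) (nat_lit 0x200014001200090000000000000000000000000000000) (nat_lit 0x0) (nat_lit 0x6a0037001b8004c0028000900068003c00020000000000000000000000) := Q_24 (nat_lit 175) (C_24 L63078 (C_24 L63656 (C_24 L63659 (C_24 L63668 (C_24 L63674 N_24))))) (by decide +kernel)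
theorem L63676 : W_24 (nat_lit 2) (nat_lit 0x2800340013400b0000000000000000000000000000000) (nat_lit 0x0) (nat_lit 0x1000000000000000008000400000000000000000000000000) := D_24 (nat_lit 123) (nat_lit 192) (nat_lit 106) (nat_lit 4) (nat_lit 5) (nat_lit 11) (nat_lit 4) (nat_lit 5) (nat_lit 10) (by decide +kernel)
theorem L63677 : W_24 (nat_lit 3) (nat_lit 0x2000340013400b0000000000000000000000000000000) (nat_lit 0x0) (nat_lit 0x1000080000000000008001400000000000000000000000000) := T_24 (nat_lit 175) (nat_lit 108) (nat_lit 6) (nat_lit 5) (nat_lit 10) L63676 (by decide +kernel)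
theorem L63678 : W_24 (nat_lit 4) (nat_lit 0x2000340013000b0000000000000000000000000000000) (nat_lit 0x0) (nat_lit 0x10000800000000c0008001400000000000000000000000000) := T_24 (nat_lit 138) (nat_lit 139) (nat_lit 2) (nat_lit 2) (nat_lit 8) L63677 (by decide +kernel)
theorem L63679 : W_24 (nat_lit 5) (nat_lit 0x200034001300090000000000000000000000000000000) (nat_lit 0x0) (nat_lit 0x10000800000000c0068001400000000000000000000000000) := T_24 (nat_lit 125) (nat_lit 126) (nat_lit 1) (nat_lit 8) (nat_lit 7) L63678 (by decide +kernel)
theorem L63680 : W_24 (nat_lit 6) (nat_lit 0x200014001300090000000000000000000000000000000) (nat_lit 0x0) (nat_lit 0x10000800280000c0068001400000000000000000000000000) := T_24 (nat_lit 161) (nat_lit 159) (nat_lit 0) (nat_lit 8) (nat_lit 9) L63679 (by decide +kernel)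
theorem L63681 : W_24 (nat_lit 2) (nat_lit 0x20001c001300090000000000000000000000000000000) (nat_lit 0x0) (nat_lit 0x2000880000000000000000000000000000000000) := D_24 (nat_lit 157) (nat_lit 139) (nat_lit 143) (nat_lit 0) (nat_lit 7) (nat_lit 9) (nat_lit 2) (nat_lit 4) (nat_lit 9) (by decide +kernel)
theorem L63682 : W_24 (nat_lit 3) (nat_lit 0x200014001300090000000000000000000000000000000) (nat_lit 0x0) (nat_lit 0x2a000880000000000000000000000000000000000) := T_24 (nat_lit 159) (nat_lit 161) (nat_lit 0) (nat_lit 8) (nat_lit 9) L63681 (by decide +kernel)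
theorem L63683 : W_24 (nat_lit 2) (nat_lit 0x1000080006000340013000d0000000000000000000000000000000) (nat_lit 0x0) (nat_lit 0x4000200010000000000000000000000000000000000000000000000000) := D_24 (nat_lit 213) (nat_lit 196) (nat_lit 230) (nat_lit 7) (nat_lit 8) (nat_lit 8) (nat_lit 7) (nat_lit 8) (nat_lit 9) (by decide +kernel)
theorem L63684 : W_24 (nat_lit 3) (nat_lit 0x80006000340013000d0000000000000000000000000000000) (nat_lit 0x0) (nat_lit 0x6000300010000000000000000000000000000000000000000000000000) := T_24 (nat_lit 212) (nat_lit 229) (nat_lit 4) (nat_lit 8) (nat_lit 13) L63683 (by decide +kernel)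
theorem L63685 : W_24 (nat_lit 4) (nat_lit 0x6000340013000d0000000000000000000000000000000) (nat_lit 0x0) (nat_lit 0x6000300018000000000000800000000000000000000000000000000000) := T_24 (nat_lit 195) (nat_lit 143) (nat_lit 7) (nat_lit 7) (nat_lit 7) L63684 (by decide +kernel)
theorem L63686 : W_24 (nat_lit 5) (nat_lit 0x2000340013000d0000000000000000000000000000000) (nat_lit 0x0) (nat_lit 0x6000300018000400000000800000002000000000000000000000000000) := T_24 (nat_lit 178) (nat_lit 109) (nat_lit 4) (nat_lit 8) (nat_lit 10) L63685 (by decide +kernel)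
theorem L63687 : W_24 (nat_lit 6) (nat_lit 0x200034001300090000000000000000000000000000000) (nat_lit 0x0) (nat_lit 0x6000300018000400000000800060002000000000000000000000000000) := T_24 (nat_lit 126) (nat_lit 125) (nat_lit 1) (nat_lit 8) (nat_lit 7) L63686 (by decide +kernel)
theorem L63688 : W_24 (nat_lit 7) (nat_lit 0x200014001300090000000000000000000000000000000) (nat_lit 0x0) (nat_lit 0x6000300018000400028000800060002000000000000000000000000000) := T_24 (nat_lit 161) (nat_lit 159) (nat_lit 0) (nat_lit 8) (nat_lit 9) L63687 (by decide +kernel)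
theorem L63689 : W_24 (nat_lit 8) (nat_lit 0x200014001200090000000000000000000000000000000) (nat_lit 0x0) (nat_lit 0x600030001900048002a0009c0068003400000000000000000000000000) := Q_24 (nat_lit 140) (C_24 L63680 (C_24 L40464 (C_24 L63682 (C_24 L63688 N_24)))) (by decide +kernel)
theorem L63690 : W_24 (nat_lit 2) (nat_lit 0x200016001200090001800000000000000000000000000) (nat_lit 0x0) (nat_lit 0x400008000800000000000000000000000000000000000) := D_24 (nat_lit 159) (nat_lit 178) (nat_lit 143) (nat_lit 3) (nat_lit 4) (nat_lit 9) (nat_lit 2) (nat_lit 4) (nat_lit 9) (by decide +kernel)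
theorem L63691 : W_24 (nat_lit 3) (nat_lit 0x200014001200090001800000000000000000000000000) (nat_lit 0x0) (nat_lit 0x44000a000800000000000000000000000000000000000) := T_24 (nat_lit 157) (nat_lit 174) (nat_lit 5) (nat_lit 5) (nat_lit 6) L63690 (by decide +kernel)
theorem L63692 : W_24 (nat_lit 4) (nat_lit 0x200014001200090000800000000000000000000000000) (nat_lit 0x0) (nat_lit 0x44000a000800000001000080000000000000000000000) := T_24 (nat_lit 108) (nat_lit 91) (nat_lit 6) (nat_lit 5) (nat_lit 9) L63691 (by decide +kernel)
theorem L63693 : W_24 (nat_lit 6) (nat_lit 0x200014001200090000000000000000000000000000000) (nat_lit 0x0) (nat_lit 0x8004c000a00080006c003c000a0000000000000000000000) := Q_24 (nat_lit 107) (C_24 L63651 (C_24 L63643 (C_24 L63647 (C_24 L63640 (C_24 L63692 N_24))))) (by decide +kernel)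
theorem L63694 : W_24 (nat_lit 12) (nat_lit 0x200014001200080000000000000000000000000000000) (nat_lit 0x0) (nat_lit 0x6a0037001b8004e002a0009c007c003c000e0005000000000000000000) := Q_24 (nat_lit 124) (C_24 L63653 (C_24 L63675 (C_24 L63633 (C_24 L63689 (C_24 L63625 (C_24 L63693 N_24)))))) (by decide +kernel)
theorem L63695 : W_24 (nat_lit 2) (nat_lit 0x2000140012000f0000000000000000000000000000000) (nat_lit 0x0) (nat_lit 0x800008001000000000000000000000000000) := D_24 (nat_lit 143) (nat_lit 108) (nat_lit 123) (nat_lit 4) (nat_lit 7) (nat_lit 10) (nat_lit 3) (nat_lit 4) (nat_lit 7) (by decide +kernel)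
theorem L63696 : W_24 (nat_lit 3) (nat_lit 0x2000140012000e0000000000000000000000000000000) (nat_lit 0x0) (nat_lit 0x900018001000000000000000000000000000) := T_24 (nat_lit 124) (nat_lit 140) (nat_lit 1) (nat_lit 8) (nat_lit 7) L63695 (by decide +kernel)
theorem L63697 : W_24 (nat_lit 2) (nat_lit 0x2000140012000f0000400000000000000000000000000) (nat_lit 0x0) (nat_lit 0x800008000200000000000000000000000000) := D_24 (nat_lit 123) (nat_lit 143) (nat_lit 105) (nat_lit 3) (nat_lit 4) (nat_lit 7) (nat_lit 0) (nat_lit 7) (nat_lit 7) (by decide +kernel)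
theorem L63698 : W_24 (nat_lit 3) (nat_lit 0x2000140012000f0000000000000000000000000000000) (nat_lit 0x0) (nat_lit 0x800008000e00000000000000000000000000) := T_24 (nat_lit 106) (nat_lit 107) (nat_lit 0) (nat_lit 8) (nat_lit 7) L63697 (by decide +kernel)
theorem L63699 : W_24 (nat_lit 4) (nat_lit 0x2000140012000e0000000000000000000000000000000) (nat_lit 0x0) (nat_lit 0x900018000e00000000000000000000000000) := T_24 (nat_lit 124) (nat_lit 140) (nat_lit 1) (nat_lit 8) (nat_lit 7) L63698 (by decide +kernel)
theorem L63700 : W_24 (nat_lit 2) (nat_lit 0x2000140012000f0000800000000000000000000000000) (nat_lit 0x0) (nat_lit 0x100001000080000000000000000000000) := D_24 (nat_lit 108) (nat_lit 128) (nat_lit 91) (nat_lit 0) (nat_lit 9) (nat_lit 7) (nat_lit 6) (nat_lit 5) (nat_lit 9) (by decide +kernel)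
theorem L63701 : W_24 (nat_lit 3) (nat_lit 0x2000140012000f0000000000000000000000000000000) (nat_lit 0x0) (nat_lit 0x100001c00080000000000000000000000) := T_24 (nat_lit 107) (nat_lit 106) (nat_lit 0) (nat_lit 8) (nat_lit 7) L63700 (by decide +kernel)
theorem L63702 : W_24 (nat_lit 4) (nat_lit 0x2000140012000e0000000000000000000000000000000) (nat_lit 0x0) (nat_lit 0x100110001c00080000000000000000000000) := T_24 (nat_lit 124) (nat_lit 140) (nat_lit 1) (nat_lit 8) (nat_lit 7) L63701 (by decide +kernel)
theorem L63703 : W_24 (nat_lit 2) (nat_lit 0x2000140012003e0001000000000000000000000000000) (nat_lit 0x0) (nat_lit 0x38000000000000000000000000000) := D_24 (nat_lit 112) (nat_lit 111) (nat_lit 113) (nat_lit 2) (nat_lit 6) (nat_lit 7) (nat_lit 2) (nat_lit 7) (nat_lit 7) (by decide +kernel)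
theorem L63704 : W_24 (nat_lit 3) (nat_lit 0x2000140012001e0001000000000000000000000000000) (nat_lit 0x0) (nat_lit 0x20003a000000000000000000000000000) := T_24 (nat_lit 129) (nat_lit 109) (nat_lit 0) (nat_lit 10) (nat_lit 7) L63703 (by decide +kernel)
theorem L63705 : W_24 (nat_lit 4) (nat_lit 0x2000140012000e0001000000000000000000000000000) (nat_lit 0x0) (nat_lit 0x30003a800000000000000000000000000) := T_24 (nat_lit 128) (nat_lit 107) (nat_lit 0) (nat_lit 9) (nat_lit 7) L63704 (by decide +kernel)
theorem L63706 : W_24 (nat_lit 5) (nat_lit 0x2000140012000e0000000000000000000000000000000) (nat_lit 0x0) (nat_lit 0x80030003b800000000000000000000000000) := T_24 (nat_lit 108) (nat_lit 143) (nat_lit 4) (nat_lit 7) (nat_lit 10) L63705 (by decide +kernel)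
theorem L63707 : W_24 (nat_lit 6) (nat_lit 0x2000140012000c0000000000000000000000000000000) (nat_lit 0x0) (nat_lit 0x90033803be00080000000000000000000000) := Q_24 (nat_lit 125) (C_24 L63696 (C_24 L63699 (C_24 L63702 (C_24 L63706 N_24)))) (by decide +kernel)
theorem L63708 : W_24 (nat_lit 2) (nat_lit 0x20001c0012000c0000000000000000000000000000000) (nat_lit 0x0) (nat_lit 0x400002000800000000000000000000000000000000000) := D_24 (nat_lit 157) (nat_lit 178) (nat_lit 143) (nat_lit 3) (nat_lit 4) (nat_lit 9) (nat_lit 2) (nat_lit 4) (nat_lit 9) (by decide +kernel)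
theorem L63709 : W_24 (nat_lit 2) (nat_lit 0x22003e0012000c0000000000000000000000000000000) (nat_lit 0x0) (nat_lit 0x110001000000000000000000000000000000000000000) := D_24 (nat_lit 156) (nat_lit 176) (nat_lit 172) (nat_lit 3) (nat_lit 3) (nat_lit 9) (nat_lit 1) (nat_lit 6) (nat_lit 9) (by decide +kernel)
theorem L63710 : W_24 (nat_lit 3) (nat_lit 0x20003e0012000c0000000000000000000000000000000) (nat_lit 0x0) (nat_lit 0x170001000000000000000000000000000000000000000) := T_24 (nat_lit 173) (nat_lit 174) (nat_lit 1) (nat_lit 7) (nat_lit 9) L63709 (by decide +kernel)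
theorem L63711 : W_24 (nat_lit 4) (nat_lit 0x20003c0012000c0000000000000000000000000000000) (nat_lit 0x0) (nat_lit 0x170003000800000000000000000000000000000000000) := T_24 (nat_lit 157) (nat_lit 143) (nat_lit 2) (nat_lit 4) (nat_lit 9) L63710 (by decide +kernel)
theorem L63712 : W_24 (nat_lit 5) (nat_lit 0x20001c0012000c0000000000000000000000000000000) (nat_lit 0x0) (nat_lit 0x170023000900000000000000000000000000000000000) := T_24 (nat_lit 161) (nat_lit 140) (nat_lit 0) (nat_lit 8) (nat_lit 9) L63711 (by decide +kernel)
theorem L63713 : W_24 (nat_lit 2) (nat_lit 0x20001e0012000c0000000000000000000000000000000) (nat_lit 0x0) (nat_lit 0x20000180000000000000000000000000000000000) := D_24 (nat_lit 140) (nat_lit 161) (nat_lit 139) (nat_lit 0) (nat_lit 8) (nat_lit 9) (nat_lit 0) (nat_lit 7) (nat_lit 9) (by decide +kernel)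
theorem L63714 : W_24 (nat_lit 3) (nat_lit 0x20001c0012000c0000000000000000000000000000000) (nat_lit 0x0) (nat_lit 0x400022000180000000000000000000000000000000000) := T_24 (nat_lit 157) (nat_lit 178) (nat_lit 3) (nat_lit 4) (nat_lit 9) L63713 (by decide +kernel)
theorem L63715 : W_24 (nat_lit 2) (nat_lit 0x10000800060003c0012000c0000000000000000000000000000000) (nat_lit 0x0) (nat_lit 0x4000200010000000000000000000000000000000000000000000000000) := D_24 (nat_lit 213) (nat_lit 196) (nat_lit 230) (nat_lit 7) (nat_lit 8) (nat_lit 8) (nat_lit 7) (nat_lit 8) (nat_lit 9) (by decide +kernel)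
theorem L63716 : W_24 (nat_lit 3) (nat_lit 0x800060003c0012000c0000000000000000000000000000000) (nat_lit 0x0) (nat_lit 0x6000300010000000000000000000000000000000000000000000000000) := T_24 (nat_lit 212) (nat_lit 229) (nat_lit 4) (nat_lit 8) (nat_lit 13) L63715 (by decide +kernel)
theorem L63717 : W_24 (nat_lit 4) (nat_lit 0x60003c0012000c0000000000000000000000000000000) (nat_lit 0x0) (nat_lit 0x6000300018000000000000800000000000000000000000000000000000) := T_24 (nat_lit 195) (nat_lit 143) (nat_lit 7) (nat_lit 7) (nat_lit 7) L63716 (by decide +kernel)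
theorem L63718 : W_24 (nat_lit 5) (nat_lit 0x20003c0012000c0000000000000000000000000000000) (nat_lit 0x0) (nat_lit 0x6000300018000400000000800000002000000000000000000000000000) := T_24 (nat_lit 178) (nat_lit 109) (nat_lit 4) (nat_lit 8) (nat_lit 10) L63717 (by decide +kernel)
theorem L63719 : W_24 (nat_lit 6) (nat_lit 0x20001c0012000c0000000000000000000000000000000) (nat_lit 0x0) (nat_lit 0x6000300018000400020000900000002000000000000000000000000000) := T_24 (nat_lit 161) (nat_lit 140) (nat_lit 0) (nat_lit 8) (nat_lit 9) L63718 (by decide +kernel)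
theorem L63720 : W_24 (nat_lit 7) (nat_lit 0x2000140012000c0000000000000000000000000000000) (nat_lit 0x0) (nat_lit 0x600030001800057002b000980000002000000000000000000000000000) := Q_24 (nat_lit 159) (C_24 L63708 (C_24 L63712 (C_24 L63714 (C_24 L63719 N_24)))) (by decide +kernel)
theorem L63721 : W_24 (nat_lit 2) (nat_lit 0x20001f0012000c0000000000000000000000000000000) (nat_lit 0x0) (nat_lit 0x70000000000000000000000000000000000000000000) := D_24 (nat_lit 173) (nat_lit 172) (nat_lit 174) (nat_lit 1) (nat_lit 6) (nat_lit 9) (nat_lit 1) (nat_lit 7) (nat_lit 9) (by decide +kernel)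
theorem L63722 : W_24 (nat_lit 3) (nat_lit 0x20001e0012000c0000000000000000000000000000000) (nat_lit 0x0) (nat_lit 0x170001000000000000000000000000000000000000000) := T_24 (nat_lit 156) (nat_lit 176) (nat_lit 3) (nat_lit 3) (nat_lit 9) L63721 (by decide +kernel)
theorem L63723 : W_24 (nat_lit 4) (nat_lit 0x20001c0012000c0000000000000000000000000000000) (nat_lit 0x0) (nat_lit 0x570003000000000000000000000000000000000000000) := T_24 (nat_lit 157) (nat_lit 178) (nat_lit 3) (nat_lit 4) (nat_lit 9) L63722 (by decide +kernel)
theorem L63724 : W_24 (nat_lit 2) (nat_lit 0x20001c0013000c0000000000000000000000000000000) (nat_lit 0x0) (nat_lit 0x20000c0000000000000000000000000000000000) := D_24 (nat_lit 139) (nat_lit 157) (nat_lit 138) (nat_lit 0) (nat_lit 7) (nat_lit 9) (nat_lit 3) (nat_lit 2) (nat_lit 8) (by decide +kernel)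
theorem L63725 : W_24 (nat_lit 3) (nat_lit 0x20001c0012000c0000000000000000000000000000000) (nat_lit 0x0) (nat_lit 0x220001c0000000000000000000000000000000000) := T_24 (nat_lit 140) (nat_lit 161) (nat_lit 0) (nat_lit 8) (nat_lit 9) L63724 (by decide +kernel)
theorem L63726 : W_24 (nat_lit 2) (nat_lit 0x20001c0013400d0001800000000000000000000000000) (nat_lit 0x0) (nat_lit 0x2400020000000000000000000000) := D_24 (nat_lit 106) (nat_lit 109) (nat_lit 89) (nat_lit 3) (nat_lit 4) (nat_lit 6) (nat_lit 4) (nat_lit 5) (nat_lit 9) (by decide +kernel)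
theorem L63727 : W_24 (nat_lit 3) (nat_lit 0x20001c0013400d0000800000000000000000000000000) (nat_lit 0x0) (nat_lit 0x34000a0000000000000000000000) := T_24 (nat_lit 108) (nat_lit 91) (nat_lit 6) (nat_lit 5) (nat_lit 9) L63726 (by decide +kernel)
theorem L63728 : W_24 (nat_lit 4) (nat_lit 0x20001c0013400d0000000000000000000000000000000) (nat_lit 0x0) (nat_lit 0x100000000000000003c000a0000000000000000000000) := T_24 (nat_lit 107) (nat_lit 176) (nat_lit 7) (nat_lit 5) (nat_lit 6) L63727 (by decide +kernel)
theorem L63729 : W_24 (nat_lit 5) (nat_lit 0x20001c0013000d0000000000000000000000000000000) (nat_lit 0x0) (nat_lit 0x1000000000c0000003c000a0000000000000000000000) := T_24 (nat_lit 138) (nat_lit 139) (nat_lit 3) (nat_lit 2) (nat_lit 8) L63728 (by decide +kernel)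
theorem L63730 : W_24 (nat_lit 6) (nat_lit 0x20001c0013000c0000000000000000000000000000000) (nat_lit 0x0) (nat_lit 0x1000000000c0030003c000a0000000000000000000000) := T_24 (nat_lit 124) (nat_lit 125) (nat_lit 1) (nat_lit 8) (nat_lit 7) L63729 (by decide +kernel)
theorem L63731 : W_24 (nat_lit 7) (nat_lit 0x20001c0012000c0000000000000000000000000000000) (nat_lit 0x0) (nat_lit 0x1000200001c0030003c000a0000000000000000000000) := T_24 (nat_lit 140) (nat_lit 161) (nat_lit 0) (nat_lit 8) (nat_lit 9) L63730 (by decide +kernel)
theorem L63732 : W_24 (nat_lit 8) (nat_lit 0x2000140012000c0000000000000000000000000000000) (nat_lit 0x0) (nat_lit 0x57002b0001c0030003c000a0000000000000000000000) := Q_24 (nat_lit 159) (C_24 L63723 (C_24 L63725 (C_24 L63731 N_24))) (by decide +kernel)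
theorem L63733 : W_24 (nat_lit 2) (nat_lit 0x20001c0013400d00008000a0000000000000000000000) (nat_lit 0x0) (nat_lit 0x40005000000000000000000) := D_24 (nat_lit 90) (nat_lit 74) (nat_lit 72) (nat_lit 6) (nat_lit 5) (nat_lit 8) (nat_lit 4) (nat_lit 5) (nat_lit 8) (by decide +kernel)
theorem L63734 : W_24 (nat_lit 3) (nat_lit 0x20001c0013400d0000800080000000000000000000000) (nat_lit 0x0) (nat_lit 0x400060005000000000000000000) := T_24 (nat_lit 89) (nat_lit 106) (nat_lit 4) (nat_lit 5) (nat_lit 9) L63733 (by decide +kernel)
theorem L63735 : W_24 (nat_lit 4) (nat_lit 0x20001c0013400d0000800000000000000000000000000) (nat_lit 0x0) (nat_lit 0x14000e0005000000000000000000) := T_24 (nat_lit 91) (nat_lit 108) (nat_lit 6) (nat_lit 5) (nat_lit 9) L63734 (by decide +kernel)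
theorem L63736 : W_24 (nat_lit 5) (nat_lit 0x20001c0013400d0000000000000000000000000000000) (nat_lit 0x0) (nat_lit 0x100000000000000001c000e0005000000000000000000) := T_24 (nat_lit 107) (nat_lit 176) (nat_lit 7) (nat_lit 5) (nat_lit 6) L63735 (by decide +kernel)
theorem L63737 : W_24 (nat_lit 6) (nat_lit 0x20001c0013000d0000000000000000000000000000000) (nat_lit 0x0) (nat_lit 0x1000000000c0000001c000e0005000000000000000000) := T_24 (nat_lit 138) (nat_lit 139) (nat_lit 3) (nat_lit 2) (nat_lit 8) L63736 (by decide +kernel)
theorem L63738 : W_24 (nat_lit 7) (nat_lit 0x20001c0013000c0000000000000000000000000000000) (nat_lit 0x0) (nat_lit 0x1000000000c0030001c000e0005000000000000000000) := T_24 (nat_lit 124) (nat_lit 125) (nat_lit 1) (nat_lit 8) (nat_lit 7) L63737 (by decide +kernel)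
theorem L63739 : W_24 (nat_lit 8) (nat_lit 0x20001c0012000c0000000000000000000000000000000) (nat_lit 0x0) (nat_lit 0x1000200001c0030001c000e0005000000000000000000) := T_24 (nat_lit 140) (nat_lit 161) (nat_lit 0) (nat_lit 8) (nat_lit 9) L63738 (by decide +kernel)
theorem L63740 : W_24 (nat_lit 9) (nat_lit 0x2000140012000c0000000000000000000000000000000) (nat_lit 0x0) (nat_lit 0x57002b0001c0030001c000e0005000000000000000000) := Q_24 (nat_lit 159) (C_24 L63725 (C_24 L63723 (C_24 L63739 N_24))) (by decide +kernel)
theorem L63741 : W_24 (nat_lit 6) (nat_lit 0x200016001a000c0000000000000000000000000000000) (nat_lit 0x0) (nat_lit 0xa00050002000000000000300018000c000000000000000000) := T_24 (nat_lit 176) (nat_lit 193) (nat_lit 5) (nat_lit 7) (nat_lit 7) L63594 (by decide +kernel)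
theorem L63742 : W_24 (nat_lit 7) (nat_lit 0x200014001a000c0000000000000000000000000000000) (nat_lit 0x0) (nat_lit 0xa00050002a00000000000300018000c000000000000000000) := T_24 (nat_lit 157) (nat_lit 159) (nat_lit 2) (nat_lit 4) (nat_lit 9) L63741 (by decide +kernel)
theorem L63743 : W_24 (nat_lit 2) (nat_lit 0x600016001a000f0000000000000000000000000000000) (nat_lit 0x0) (nat_lit 0x40000000000000000c00000000000000000000000000) := D_24 (nat_lit 107) (nat_lit 106) (nat_lit 174) (nat_lit 0) (nat_lit 8) (nat_lit 7) (nat_lit 5) (nat_lit 5) (nat_lit 6) (by decide +kernel)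
theorem L63744 : W_24 (nat_lit 3) (nat_lit 0x600016001a000e0000000000000000000000000000000) (nat_lit 0x0) (nat_lit 0x40000000000018000c00000000000000000000000000) := T_24 (nat_lit 124) (nat_lit 123) (nat_lit 3) (nat_lit 4) (nat_lit 7) L63743 (by decide +kernel)
theorem L63745 : W_24 (nat_lit 4) (nat_lit 0x600016001a000c0000000000000000000000000000000) (nat_lit 0x0) (nat_lit 0x40000000000038001c00000000000000000000000000) := T_24 (nat_lit 125) (nat_lit 108) (nat_lit 4) (nat_lit 7) (nat_lit 10) L63744 (by decide +kernel)
theorem L63746 : W_24 (nat_lit 5) (nat_lit 0x600014001a000c0000000000000000000000000000000) (nat_lit 0x0) (nat_lit 0x4000a000000038001c00000000000000000000000000) := T_24 (nat_lit 157) (nat_lit 159) (nat_lit 3) (nat_lit 4) (nat_lit 9) L63745 (by decide +kernel)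
theorem L63747 : W_24 (nat_lit 6) (nat_lit 0x200014001a000c0000000000000000000000000000000) (nat_lit 0x0) (nat_lit 0x800044000a000000038001c00000000000000000000000000) := T_24 (nat_lit 178) (nat_lit 195) (nat_lit 7) (nat_lit 7) (nat_lit 7) L63746 (by decide +kernel)
theorem L63748 : W_24 (nat_lit 5) (nat_lit 0x200014001a000c0000000000000000000000000000000) (nat_lit 0x0) (nat_lit 0x200010000800000000000300018000c000000000000000000) := T_24 (nat_lit 176) (nat_lit 193) (nat_lit 5) (nat_lit 7) (nat_lit 7) L63449 (by decide +kernel)
theorem L63749 : W_24 (nat_lit 2) (nat_lit 0x600014001a000c0002000000000000000000000000000) (nat_lit 0x0) (nat_lit 0x20001000080000000000000000000000) := D_24 (nat_lit 108) (nat_lit 125) (nat_lit 91) (nat_lit 4) (nat_lit 7) (nat_lit 10) (nat_lit 4) (nat_lit 7) (nat_lit 9) (by decide +kernel)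
theorem L63750 : W_24 (nat_lit 3) (nat_lit 0x600014001a000c0000000000000000000000000000000) (nat_lit 0x0) (nat_lit 0x20000000020003000080000000000000000000000) := T_24 (nat_lit 109) (nat_lit 161) (nat_lit 7) (nat_lit 7) (nat_lit 6) L63749 (by decide +kernel)
theorem L63751 : W_24 (nat_lit 4) (nat_lit 0x200014001a000c0000000000000000000000000000000) (nat_lit 0x0) (nat_lit 0x8000400020000000020003000080000000000000000000000) := T_24 (nat_lit 178) (nat_lit 195) (nat_lit 7) (nat_lit 7) (nat_lit 7) L63750 (by decide +kernel)
theorem L63752 : W_24 (nat_lit 2) (nat_lit 0x300014001a000c0000000000000000000000000000000) (nat_lit 0x0) (nat_lit 0xa000000000002000000000000000000000000000) := D_24 (nat_lit 159) (nat_lit 109) (nat_lit 157) (nat_lit 5) (nat_lit 7) (nat_lit 6) (nat_lit 2) (nat_lit 4) (nat_lit 9) (by decide +kernel)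
theorem L63753 : W_24 (nat_lit 3) (nat_lit 0x200014001a000c0000000000000000000000000000000) (nat_lit 0x0) (nat_lit 0x200010000a000000000002000000000000000000000000000) := T_24 (nat_lit 176) (nat_lit 193) (nat_lit 5) (nat_lit 7) (nat_lit 7) L63752 (by decide +kernel)
theorem L63754 : W_24 (nat_lit 8) (nat_lit 0x2000140012000c0000000000000000000000000000000) (nat_lit 0x0) (nat_lit 0xa00054002a000800038003c0018000c000000000000000000) := Q_24 (nat_lit 143) (C_24 L63742 (C_24 L63747 (C_24 L63748 (C_24 L63751 (C_24 L63753 N_24))))) (by decide +kernel)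
theorem L63755 : W_24 (nat_lit 10) (nat_lit 0x200014001200080000000000000000000000000000000) (nat_lit 0x0) (nat_lit 0x600030001a00057002b0009c037803be001e000d000000000000000000) := Q_24 (nat_lit 126) (C_24 L63707 (C_24 L63720 (C_24 L63732 (C_24 L63740 (C_24 L63754 N_24))))) (by decide +kernel)
theorem L63756 : W_24 (nat_lit 2) (nat_lit 0x1800380014001300080000000000000000000000000000000) (nat_lit 0x0) (nat_lit 0x2400000000000000010000000000000000000000000000000) := D_24 (nat_lit 193) (nat_lit 124) (nat_lit 190) (nat_lit 7) (nat_lit 5) (nat_lit 7) (nat_lit 2) (nat_lit 3) (nat_lit 11) (by decide +kernel)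
theorem L63757 : W_24 (nat_lit 3) (nat_lit 0x1800280014001300080000000000000000000000000000000) (nat_lit 0x0) (nat_lit 0x2400500000000000010000000000000000000000000000000) := T_24 (nat_lit 176) (nat_lit 178) (nat_lit 1) (nat_lit 8) (nat_lit 10) L63756 (by decide +kernel)
theorem L63758 : W_24 (nat_lit 4) (nat_lit 0x1000280014001300080000000000000000000000000000000) (nat_lit 0x0) (nat_lit 0x10002c00500000000000010000000000000000000000000000000) := T_24 (nat_lit 191) (nat_lit 208) (nat_lit 5) (nat_lit 5) (nat_lit 8) L63757 (by decide +kernel)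
theorem L63759 : W_24 (nat_lit 5) (nat_lit 0x1000280014001200080000000000000000000000000000000) (nat_lit 0x0) (nat_lit 0x10002c00500000000100018000000000000000000000000000000) := T_24 (nat_lit 140) (nat_lit 123) (nat_lit 4) (nat_lit 5) (nat_lit 11) L63758 (by decide +kernel)
theorem L63760 : W_24 (nat_lit 11) (nat_lit 0x280014001200080000000000000000000000000000000) (nat_lit 0x0) (nat_lit 0x28001f000be00500022000900058000000000000000000000000000000) := Q_24 (nat_lit 192) (C_24 L63510 (C_24 L63491 (C_24 L63759 (C_24 L62885 N_24)))) (by decide +kernel)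
theorem L63761 : W_24 (nat_lit 2) (nat_lit 0x1800380014001300080000000000000000000000000000000) (nat_lit 0x0) (nat_lit 0x400040020000000000000000000000000000000000000000) := D_24 (nat_lit 174) (nat_lit 190) (nat_lit 161) (nat_lit 1) (nat_lit 7) (nat_lit 10) (nat_lit 2) (nat_lit 4) (nat_lit 10) (by decide +kernel)
theorem L63762 : W_24 (nat_lit 3) (nat_lit 0x1800280014001300080000000000000000000000000000000) (nat_lit 0x0) (nat_lit 0x400540020000000000000000000000000000000000000000) := T_24 (nat_lit 176) (nat_lit 178) (nat_lit 1) (nat_lit 8) (nat_lit 10) L63761 (by decide +kernel)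
theorem L63763 : W_24 (nat_lit 4) (nat_lit 0x1000280014001300080000000000000000000000000000000) (nat_lit 0x0) (nat_lit 0x10000c00540020000000000000000000000000000000000000000) := T_24 (nat_lit 191) (nat_lit 208) (nat_lit 5) (nat_lit 5) (nat_lit 8) L63762 (by decide +kernel)
theorem L63764 : W_24 (nat_lit 5) (nat_lit 0x1000280014001200080000000000000000000000000000000) (nat_lit 0x0) (nat_lit 0x10000c00540020000100008000000000000000000000000000000) := T_24 (nat_lit 140) (nat_lit 123) (nat_lit 4) (nat_lit 5) (nat_lit 11) L63763 (by decide +kernel)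
theorem L63765 : W_24 (nat_lit 11) (nat_lit 0x280014001200080000000000000000000000000000000) (nat_lit 0x0) (nat_lit 0x28001f000be00540022000900048000000000000000000000000000000) := Q_24 (nat_lit 192) (C_24 L63510 (C_24 L63491 (C_24 L63764 (C_24 L62885 N_24)))) (by decide +kernel)
theorem L63766 : W_24 (nat_lit 12) (nat_lit 0x200014001200080000000000000000000000000000000) (nat_lit 0x0) (nat_lit 0x8002e001f001be005c00e3000900078001c00020000000000000000000000) := Q_24 (nat_lit 175) (C_24 L63527 (C_24 L63549 (C_24 L63497 (C_24 L63501 (C_24 L63760 (C_24 L63765 (C_24 L63050 N_24))))))) (by decide +kernel)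
theorem L63767 : W_24 (nat_lit 2) (nat_lit 0x28001c001200080000000000000000000000000000000) (nat_lit 0x0) (nat_lit 0x40020000100000000000000000000000000000000000) := D_24 (nat_lit 161) (nat_lit 140) (nat_lit 174) (nat_lit 0) (nat_lit 8) (nat_lit 9) (nat_lit 1) (nat_lit 8) (nat_lit 9) (by decide +kernel)
theorem L63768 : W_24 (nat_lit 2) (nat_lit 0x20001c001200090001c00000000000000000000000000) (nat_lit 0x0) (nat_lit 0x60002000000000000000000000000000) := D_24 (nat_lit 126) (nat_lit 109) (nat_lit 125) (nat_lit 3) (nat_lit 4) (nat_lit 6) (nat_lit 0) (nat_lit 8) (nat_lit 7) (by decide +kernel)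
theorem L63769 : W_24 (nat_lit 3) (nat_lit 0x20001c001200090001800000000000000000000000000) (nat_lit 0x0) (nat_lit 0x60002400020000000000000000000000) := T_24 (nat_lit 106) (nat_lit 89) (nat_lit 4) (nat_lit 5) (nat_lit 9) L63768 (by decide +kernel)
theorem L63770 : W_24 (nat_lit 4) (nat_lit 0x20001c001200090000800000000000000000000000000) (nat_lit 0x0) (nat_lit 0x600034000a0000000000000000000000) := T_24 (nat_lit 108) (nat_lit 91) (nat_lit 6) (nat_lit 5) (nat_lit 9) L63769 (by decide +kernel)
theorem L63771 : W_24 (nat_lit 5) (nat_lit 0x20001c001200090000000000000000000000000000000) (nat_lit 0x0) (nat_lit 0x100000000000060003c000a0000000000000000000000) := T_24 (nat_lit 107) (nat_lit 176) (nat_lit 7) (nat_lit 5) (nat_lit 6) L63770 (by decide +kernel)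
theorem L63772 : W_24 (nat_lit 2) (nat_lit 0x20001c001200090003c00000000000000000000000000) (nat_lit 0x0) (nat_lit 0x8000000000000c000000000000000000000000000000) := D_24 (nat_lit 123) (nat_lit 175) (nat_lit 122) (nat_lit 4) (nat_lit 5) (nat_lit 10) (nat_lit 1) (nat_lit 7) (nat_lit 6) (by decide +kernel)
theorem L63773 : W_24 (nat_lit 3) (nat_lit 0x20001c001200090001c00000000000000000000000000) (nat_lit 0x0) (nat_lit 0x8000000000004c002000000000000000000000000000) := T_24 (nat_lit 109) (nat_lit 126) (nat_lit 3) (nat_lit 4) (nat_lit 6) L63772 (by decide +kernel)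
theorem L63774 : W_24 (nat_lit 4) (nat_lit 0x20001c001200090001800000000000000000000000000) (nat_lit 0x0) (nat_lit 0x8000000000004c002400020000000000000000000000) := T_24 (nat_lit 106) (nat_lit 89) (nat_lit 4) (nat_lit 5) (nat_lit 9) L63773 (by decide +kernel)
theorem L63775 : W_24 (nat_lit 5) (nat_lit 0x20001c001200090000800000000000000000000000000) (nat_lit 0x0) (nat_lit 0x8000000000004c0034000a0000000000000000000000) := T_24 (nat_lit 108) (nat_lit 91) (nat_lit 6) (nat_lit 5) (nat_lit 9) L63774 (by decide +kernel)
theorem L63776 : W_24 (nat_lit 6) (nat_lit 0x20001c001200090000000000000000000000000000000) (nat_lit 0x0) (nat_lit 0x18000000000004c003c000a0000000000000000000000) := T_24 (nat_lit 107) (nat_lit 176) (nat_lit 7) (nat_lit 5) (nat_lit 6) L63775 (by decide +kernel)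
theorem L63777 : W_24 (nat_lit 2) (nat_lit 0x20003c001200090001800000000000000000000000000) (nat_lit 0x0) (nat_lit 0xc0000000000020000000000000000000000000000000) := D_24 (nat_lit 175) (nat_lit 174) (nat_lit 125) (nat_lit 1) (nat_lit 8) (nat_lit 9) (nat_lit 6) (nat_lit 5) (nat_lit 10) (by decide +kernel)
theorem L63778 : W_24 (nat_lit 3) (nat_lit 0x20003c001200090000800000000000000000000000000) (nat_lit 0x0) (nat_lit 0xc0000000000020001000080000000000000000000000) := T_24 (nat_lit 108) (nat_lit 91) (nat_lit 6) (nat_lit 5) (nat_lit 9) L63777 (by decide +kernel)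
theorem L63779 : W_24 (nat_lit 4) (nat_lit 0x20003c001200090000000000000000000000000000000) (nat_lit 0x0) (nat_lit 0x1c0000000000020001800080000000000000000000000) := T_24 (nat_lit 107) (nat_lit 176) (nat_lit 7) (nat_lit 5) (nat_lit 6) L63778 (by decide +kernel)
theorem L63780 : W_24 (nat_lit 5) (nat_lit 0x20001c001200090000000000000000000000000000000) (nat_lit 0x0) (nat_lit 0x1c0020000100020001800080000000000000000000000) := T_24 (nat_lit 161) (nat_lit 140) (nat_lit 0) (nat_lit 8) (nat_lit 9) L63779 (by decide +kernel)
theorem L63781 : W_24 (nat_lit 2) (nat_lit 0x28003c0012000b0000400000000000000000000000000) (nat_lit 0x0) (nat_lit 0x40000800020000000000000000000000) := D_24 (nat_lit 107) (nat_lit 126) (nat_lit 89) (nat_lit 0) (nat_lit 8) (nat_lit 7) (nat_lit 4) (nat_lit 5) (nat_lit 9) (by decide +kernel)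
theorem L63782 : W_24 (nat_lit 3) (nat_lit 0x28003c001200090000400000000000000000000000000) (nat_lit 0x0) (nat_lit 0x60001800020000000000000000000000) := T_24 (nat_lit 125) (nat_lit 108) (nat_lit 6) (nat_lit 5) (nat_lit 10) L63781 (by decide +kernel)
theorem L63783 : W_24 (nat_lit 4) (nat_lit 0x28003c001200090000000000000000000000000000000) (nat_lit 0x0) (nat_lit 0x68001c00020000000000000000000000) := T_24 (nat_lit 106) (nat_lit 123) (nat_lit 4) (nat_lit 5) (nat_lit 10) L63782 (by decide +kernel)
theorem L63784 : W_24 (nat_lit 5) (nat_lit 0x20003c001200090000000000000000000000000000000) (nat_lit 0x0) (nat_lit 0xc0000000000068001c00020000000000000000000000) := T_24 (nat_lit 175) (nat_lit 174) (nat_lit 1) (nat_lit 8) (nat_lit 9) L63783 (by decide +kernel)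
theorem L63785 : W_24 (nat_lit 6) (nat_lit 0x20001c001200090000000000000000000000000000000) (nat_lit 0x0) (nat_lit 0xc0020000100068001c00020000000000000000000000) := T_24 (nat_lit 161) (nat_lit 140) (nat_lit 0) (nat_lit 8) (nat_lit 9) L63784 (by decide +kernel)
theorem L63786 : W_24 (nat_lit 2) (nat_lit 0x20003c001200090000c00000000000000000000000000) (nat_lit 0x0) (nat_lit 0xc0000000000008000000000000000000000000000000) := D_24 (nat_lit 175) (nat_lit 174) (nat_lit 123) (nat_lit 1) (nat_lit 8) (nat_lit 9) (nat_lit 4) (nat_lit 5) (nat_lit 10) (by decide +kernel)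
theorem L63787 : W_24 (nat_lit 3) (nat_lit 0x20003c001200090000800000000000000000000000000) (nat_lit 0x0) (nat_lit 0xc0000000000008000400020000000000000000000000) := T_24 (nat_lit 106) (nat_lit 89) (nat_lit 4) (nat_lit 5) (nat_lit 9) L63786 (by decide +kernel)
theorem L63788 : W_24 (nat_lit 4) (nat_lit 0x20003c001200090000000000000000000000000000000) (nat_lit 0x0) (nat_lit 0x1c0000000000008000c00020000000000000000000000) := T_24 (nat_lit 107) (nat_lit 176) (nat_lit 7) (nat_lit 5) (nat_lit 6) L63787 (by decide +kernel)
theorem L63789 : W_24 (nat_lit 5) (nat_lit 0x20001c001200090000000000000000000000000000000) (nat_lit 0x0) (nat_lit 0x1c0020000100008000c00020000000000000000000000) := T_24 (nat_lit 161) (nat_lit 140) (nat_lit 0) (nat_lit 8) (nat_lit 9) L63788 (by decide +kernel)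
theorem L63790 : W_24 (nat_lit 2) (nat_lit 0x28001c0013400b0000000000000000000000000000000) (nat_lit 0x0) (nat_lit 0x1000000000000000008000400000000000000000000000000) := D_24 (nat_lit 123) (nat_lit 106) (nat_lit 192) (nat_lit 4) (nat_lit 5) (nat_lit 10) (nat_lit 4) (nat_lit 5) (nat_lit 11) (by decide +kernel)
theorem L63791 : W_24 (nat_lit 3) (nat_lit 0x20001c0013400b0000000000000000000000000000000) (nat_lit 0x0) (nat_lit 0x1000080000000000008001400000000000000000000000000) := T_24 (nat_lit 175) (nat_lit 108) (nat_lit 6) (nat_lit 5) (nat_lit 10) L63790 (by decide +kernel)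
theorem L63792 : W_24 (nat_lit 4) (nat_lit 0x20001c0013000b0000000000000000000000000000000) (nat_lit 0x0) (nat_lit 0x10000800000000c0008001400000000000000000000000000) := T_24 (nat_lit 138) (nat_lit 139) (nat_lit 3) (nat_lit 2) (nat_lit 8) L63791 (by decide +kernel)
theorem L63793 : W_24 (nat_lit 5) (nat_lit 0x20001c001300090000000000000000000000000000000) (nat_lit 0x0) (nat_lit 0x10000800000000c0068001400000000000000000000000000) := T_24 (nat_lit 125) (nat_lit 126) (nat_lit 1) (nat_lit 8) (nat_lit 7) L63792 (by decide +kernel)
theorem L63794 : W_24 (nat_lit 6) (nat_lit 0x20001c001200090000000000000000000000000000000) (nat_lit 0x0) (nat_lit 0x10000800200001c0068001400000000000000000000000000) := T_24 (nat_lit 140) (nat_lit 161) (nat_lit 0) (nat_lit 8) (nat_lit 9) L63793 (by decide +kernel)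
theorem L63795 : W_24 (nat_lit 7) (nat_lit 0x20001c001200080000000000000000000000000000000) (nat_lit 0x0) (nat_lit 0x10001c00200001c007c003c000a0000000000000000000000) := Q_24 (nat_lit 124) (C_24 L63771 (C_24 L63776 (C_24 L63780 (C_24 L63785 (C_24 L63789 (C_24 L63794 N_24)))))) (by decide +kernel)
theorem L63796 : W_24 (nat_lit 8) (nat_lit 0x200014001200080000000000000000000000000000000) (nat_lit 0x0) (nat_lit 0x10001f002b0009c007c003c000a0000000000000000000000) := Q_24 (nat_lit 159) (C_24 L63795 (C_24 L63635 (C_24 L63636 N_24))) (by decide +kernel)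
theorem L63797 : W_24 (nat_lit 2) (nat_lit 0x30001c001200090000000000000000000000000000000) (nat_lit 0x0) (nat_lit 0x40002000080000000000000000000000000000000000000000000) := D_24 (nat_lit 193) (nat_lit 210) (nat_lit 175) (nat_lit 4) (nat_lit 6) (nat_lit 12) (nat_lit 7) (nat_lit 5) (nat_lit 7) (by decide +kernel)
theorem L63798 : W_24 (nat_lit 3) (nat_lit 0x30001c001200080000000000000000000000000000000) (nat_lit 0x0) (nat_lit 0x40002000080000000000010000800000000000000000000000000) := T_24 (nat_lit 124) (nat_lit 107) (nat_lit 7) (nat_lit 5) (nat_lit 6) L63797 (by decide +kernel)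
theorem L63799 : W_24 (nat_lit 2) (nat_lit 0x200030003c0012000c0003800000000000000000000000000) (nat_lit 0x0) (nat_lit 0x320000000000000000000000000000000) := D_24 (nat_lit 128) (nat_lit 129) (nat_lit 125) (nat_lit 0) (nat_lit 10) (nat_lit 7) (nat_lit 0) (nat_lit 9) (nat_lit 7) (by decide +kernel)
theorem L63800 : W_24 (nat_lit 3) (nat_lit 0x200030003c0012000c0002800000000000000000000000000) (nat_lit 0x0) (nat_lit 0x320001400000000000000000000000000) := T_24 (nat_lit 108) (nat_lit 106) (nat_lit 3) (nat_lit 4) (nat_lit 6) L63799 (by decide +kernel)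
theorem L63801 : W_24 (nat_lit 4) (nat_lit 0x200030003c0012000c0002000000000000000000000000000) (nat_lit 0x0) (nat_lit 0x330001c00000000000000000000000000) := T_24 (nat_lit 107) (nat_lit 124) (nat_lit 7) (nat_lit 5) (nat_lit 6) L63800 (by decide +kernel)
theorem L63802 : W_24 (nat_lit 5) (nat_lit 0x200030003c0012000c0000000000000000000000000000000) (nat_lit 0x0) (nat_lit 0x400000000000330003c00000000000000000000000000) := T_24 (nat_lit 109) (nat_lit 178) (nat_lit 4) (nat_lit 8) (nat_lit 10) L63801 (by decide +kernel)
theorem L63803 : W_24 (nat_lit 6) (nat_lit 0x200030003c001200080000000000000000000000000000000) (nat_lit 0x0) (nat_lit 0x400000000800370003c00000000000000000000000000) := T_24 (nat_lit 126) (nat_lit 143) (nat_lit 5) (nat_lit 7) (nat_lit 7) L63802 (by decide +kernel)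
theorem L63804 : W_24 (nat_lit 7) (nat_lit 0x200030001c001200080000000000000000000000000000000) (nat_lit 0x0) (nat_lit 0x400020000900370003c00000000000000000000000000) := T_24 (nat_lit 161) (nat_lit 140) (nat_lit 0) (nat_lit 8) (nat_lit 9) L63803 (by decide +kernel)
theorem L63805 : W_24 (nat_lit 8) (nat_lit 0x30001c001200080000000000000000000000000000000) (nat_lit 0x0) (nat_lit 0x40002000400020000900370003c00000000000000000000000000) := T_24 (nat_lit 193) (nat_lit 210) (nat_lit 4) (nat_lit 6) (nat_lit 12) L63804 (by decide +kernel)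
theorem L63806 : W_24 (nat_lit 2) (nat_lit 0x30003c001200080000800000000000000000000000000) (nat_lit 0x0) (nat_lit 0x800c0000000000000000000000000000000000000000) := D_24 (nat_lit 162) (nat_lit 175) (nat_lit 163) (nat_lit 1) (nat_lit 9) (nat_lit 9) (nat_lit 1) (nat_lit 10) (nat_lit 9) (by decide +kernel)
theorem L63807 : W_24 (nat_lit 3) (nat_lit 0x30001c001200080000800000000000000000000000000) (nat_lit 0x0) (nat_lit 0x800e0000100000000000000000000000000000000000) := T_24 (nat_lit 161) (nat_lit 140) (nat_lit 0) (nat_lit 8) (nat_lit 9) L63806 (by decide +kernel)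
theorem L63808 : W_24 (nat_lit 4) (nat_lit 0x30001c001200080000000000000000000000000000000) (nat_lit 0x0) (nat_lit 0x800e0000100010000800000000000000000000000000) := T_24 (nat_lit 107) (nat_lit 124) (nat_lit 7) (nat_lit 5) (nat_lit 6) L63807 (by decide +kernel)
theorem L63809 : W_24 (nat_lit 2) (nat_lit 0x30003c001200080000000000000000000000000000000) (nat_lit 0x0) (nat_lit 0x800c0000000000000000000000000000000000000000) := D_24 (nat_lit 162) (nat_lit 175) (nat_lit 163) (nat_lit 1) (nat_lit 9) (nat_lit 9) (nat_lit 1) (nat_lit 10) (nat_lit 9) (by decide +kernel)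
theorem L63810 : W_24 (nat_lit 3) (nat_lit 0x30001c001200080000000000000000000000000000000) (nat_lit 0x0) (nat_lit 0x800e0000100000000000000000000000000000000000) := T_24 (nat_lit 161) (nat_lit 140) (nat_lit 0) (nat_lit 8) (nat_lit 9) L63809 (by decide +kernel)
theorem L63811 : W_24 (nat_lit 9) (nat_lit 0x20001c001200080000000000000000000000000000000) (nat_lit 0x0) (nat_lit 0x400020005800e0000900370003c00000000000000000000000000) := Q_24 (nat_lit 176) (C_24 L63798 (C_24 L63805 (C_24 L63808 (C_24 L63810 N_24)))) (by decide +kernel)
theorem L63812 : W_24 (nat_lit 2) (nat_lit 0x20001c001200080000000000000000000000000000000) (nat_lit 0x0) (nat_lit 0x400002000800000000000000000000000000000000000) := D_24 (nat_lit 157) (nat_lit 178) (nat_lit 143) (nat_lit 3) (nat_lit 4) (nat_lit 9) (nat_lit 2) (nat_lit 4) (nat_lit 9) (by decide +kernel)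
theorem L63813 : W_24 (nat_lit 10) (nat_lit 0x200014001200080000000000000000000000000000000) (nat_lit 0x0) (nat_lit 0x400020005800ea000980370003c00000000000000000000000000) := Q_24 (nat_lit 159) (C_24 L63811 (C_24 L63812 (C_24 L63636 (C_24 L63007 N_24)))) (by decide +kernel)
theorem L63814 : W_24 (nat_lit 3) (nat_lit 0x280034001200080000000000000000000000000000000) (nat_lit 0x0) (nat_lit 0x5400c0000000000000000000000000000000000000000) := T_24 (nat_lit 176) (nat_lit 174) (nat_lit 2) (nat_lit 4) (nat_lit 10) L63106 (by decide +kernel)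
theorem L63815 : W_24 (nat_lit 2) (nat_lit 0x10000b8006800340013001c0000000000000000000000000000000) (nat_lit 0x0) (nat_lit 0x4000200010000000000000000000000000000000000000000000000000) := D_24 (nat_lit 213) (nat_lit 196) (nat_lit 230) (nat_lit 7) (nat_lit 8) (nat_lit 8) (nat_lit 7) (nat_lit 8) (nat_lit 9) (by decide +kernel)
theorem L63816 : W_24 (nat_lit 3) (nat_lit 0xb8006800340013001c0000000000000000000000000000000) (nat_lit 0x0) (nat_lit 0x6000300010000000000000000000000000000000000000000000000000) := T_24 (nat_lit 212) (nat_lit 229) (nat_lit 4) (nat_lit 8) (nat_lit 13) L63815 (by decide +kernel)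
theorem L63817 : W_24 (nat_lit 4) (nat_lit 0x38006800340013001c0000000000000000000000000000000) (nat_lit 0x0) (nat_lit 0x6000300018000000000000800000000000000000000000000000000000) := T_24 (nat_lit 195) (nat_lit 143) (nat_lit 7) (nat_lit 7) (nat_lit 7) L63816 (by decide +kernel)
theorem L63818 : W_24 (nat_lit 5) (nat_lit 0x38006800340013000c0000000000000000000000000000000) (nat_lit 0x0) (nat_lit 0x6000300018000000000000800100008000000000000000000000000000) := T_24 (nat_lit 128) (nat_lit 111) (nat_lit 6) (nat_lit 8) (nat_lit 10) L63817 (by decide +kernel)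
theorem L63819 : W_24 (nat_lit 6) (nat_lit 0x3800680034001300080000000000000000000000000000000) (nat_lit 0x0) (nat_lit 0x600030001800000000000080014000a000000000000000000000000000) := T_24 (nat_lit 126) (nat_lit 109) (nat_lit 4) (nat_lit 8) (nat_lit 10) L63818 (by decide +kernel)
theorem L63820 : W_24 (nat_lit 7) (nat_lit 0x1800680034001300080000000000000000000000000000000) (nat_lit 0x0) (nat_lit 0x600034001a00000000000080014000a000000000000000000000000000) := T_24 (nat_lit 193) (nat_lit 210) (nat_lit 7) (nat_lit 5) (nat_lit 8) L63819 (by decide +kernel)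
theorem L63821 : W_24 (nat_lit 8) (nat_lit 0x1800280034001300080000000000000000000000000000000) (nat_lit 0x0) (nat_lit 0x600034001a00050000000080014000a000000000000000000000000000) := T_24 (nat_lit 178) (nat_lit 176) (nat_lit 1) (nat_lit 8) (nat_lit 10) L63820 (by decide +kernel)
theorem L63822 : W_24 (nat_lit 9) (nat_lit 0x1000280034001300080000000000000000000000000000000) (nat_lit 0x0) (nat_lit 0x600035001a80050000000080014000a000000000000000000000000000) := T_24 (nat_lit 191) (nat_lit 208) (nat_lit 5) (nat_lit 5) (nat_lit 8) L63821 (by decide +kernel)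
theorem L63823 : W_24 (nat_lit 10) (nat_lit 0x280034001300080000000000000000000000000000000) (nat_lit 0x0) (nat_lit 0x600035001b80050000000080014800a000000000000000000000000000) := T_24 (nat_lit 192) (nat_lit 123) (nat_lit 4) (nat_lit 5) (nat_lit 11) L63822 (by decide +kernel)
theorem L63824 : W_24 (nat_lit 11) (nat_lit 0x280034001200080000000000000000000000000000000) (nat_lit 0x0) (nat_lit 0x600035001b80050000800090014800a000000000000000000000000000) := T_24 (nat_lit 140) (nat_lit 159) (nat_lit 0) (nat_lit 8) (nat_lit 9) L63823 (by decide +kernel)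
theorem L63825 : W_24 (nat_lit 12) (nat_lit 0x280014001200080000000000000000000000000000000) (nat_lit 0x0) (nat_lit 0x600035001b8005400e800090014800a000000000000000000000000000) := Q_24 (nat_lit 161) (C_24 L51404 (C_24 L51408 (C_24 L63814 (C_24 L63824 N_24)))) (by decide +kernel)
theorem L63826 : W_24 (nat_lit 2) (nat_lit 0x280016001200080000000000000000000000000000000) (nat_lit 0x0) (nat_lit 0x500008000000000000000000000000000000000000000) := D_24 (nat_lit 178) (nat_lit 176) (nat_lit 159) (nat_lit 0) (nat_lit 8) (nat_lit 10) (nat_lit 3) (nat_lit 4) (nat_lit 9) (by decide +kernel)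
theorem L63827 : W_24 (nat_lit 2) (nat_lit 0x3c001e001200080000000000000000000000000000000) (nat_lit 0x0) (nat_lit 0x10000c00000000000000000000000000000000000000000000000) := D_24 (nat_lit 191) (nat_lit 208) (nat_lit 190) (nat_lit 6) (nat_lit 4) (nat_lit 12) (nat_lit 1) (nat_lit 7) (nat_lit 10) (by decide +kernel)
theorem L63828 : W_24 (nat_lit 3) (nat_lit 0x2c001e001200080000000000000000000000000000000) (nat_lit 0x0) (nat_lit 0x10000c00100001000000000000000000000000000000000000000) := T_24 (nat_lit 176) (nat_lit 156) (nat_lit 3) (nat_lit 3) (nat_lit 9) L63827 (by decide +kernel)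
theorem L63829 : W_24 (nat_lit 4) (nat_lit 0x28001e001200080000000000000000000000000000000) (nat_lit 0x0) (nat_lit 0x10000c00160001000000000000000000000000000000000000000) := T_24 (nat_lit 174) (nat_lit 173) (nat_lit 1) (nat_lit 7) (nat_lit 9) L63828 (by decide +kernel)
theorem L63830 : W_24 (nat_lit 5) (nat_lit 0x280016001200080000000000000000000000000000000) (nat_lit 0x0) (nat_lit 0x10000c00160009000800000000000000000000000000000000000) := T_24 (nat_lit 159) (nat_lit 143) (nat_lit 2) (nat_lit 4) (nat_lit 9) L63829 (by decide +kernel)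
theorem L63831 : W_24 (nat_lit 2) (nat_lit 0x280016001200080000000000000000000000000000000) (nat_lit 0x0) (nat_lit 0x400008000800000000000000000000000000000000000) := D_24 (nat_lit 159) (nat_lit 143) (nat_lit 178) (nat_lit 2) (nat_lit 4) (nat_lit 9) (nat_lit 3) (nat_lit 4) (nat_lit 9) (by decide +kernel)
theorem L63832 : W_24 (nat_lit 2) (nat_lit 0x380016001200080000000000000000000000000000000) (nat_lit 0x0) (nat_lit 0x40001800000000000000000000000000000000000000) := D_24 (nat_lit 156) (nat_lit 174) (nat_lit 155) (nat_lit 0) (nat_lit 7) (nat_lit 10) (nat_lit 3) (nat_lit 2) (nat_lit 9) (by decide +kernel)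
theorem L63833 : W_24 (nat_lit 3) (nat_lit 0x280016001200080000000000000000000000000000000) (nat_lit 0x0) (nat_lit 0x540001800000000000000000000000000000000000000) := T_24 (nat_lit 176) (nat_lit 178) (nat_lit 0) (nat_lit 8) (nat_lit 10) L63832 (by decide +kernel)
theorem L63834 : W_24 (nat_lit 6) (nat_lit 0x280014001200080000000000000000000000000000000) (nat_lit 0x0) (nat_lit 0x10000c0056000b800800000000000000000000000000000000000) := Q_24 (nat_lit 157) (C_24 L63826 (C_24 L63830 (C_24 L63831 (C_24 L63833 N_24)))) (by decide +kernel)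
theorem L63835 : W_24 (nat_lit 5) (nat_lit 0x28001c001200080000000000000000000000000000000) (nat_lit 0x0) (nat_lit 0x10000c00160003000800000000000000000000000000000000000) := T_24 (nat_lit 157) (nat_lit 143) (nat_lit 2) (nat_lit 4) (nat_lit 9) L63829 (by decide +kernel)
theorem L63836 : W_24 (nat_lit 2) (nat_lit 0x28001e001200080000000000000000000000000000000) (nat_lit 0x0) (nat_lit 0x20000180000000000000000000000000000000000) := D_24 (nat_lit 140) (nat_lit 139) (nat_lit 161) (nat_lit 0) (nat_lit 7) (nat_lit 9) (nat_lit 0) (nat_lit 8) (nat_lit 9) (by decide +kernel)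
theorem L63837 : W_24 (nat_lit 3) (nat_lit 0x28001c001200080000000000000000000000000000000) (nat_lit 0x0) (nat_lit 0x22000980000000000000000000000000000000000) := T_24 (nat_lit 157) (nat_lit 143) (nat_lit 2) (nat_lit 4) (nat_lit 9) L63836 (by decide +kernel)
theorem L63838 : W_24 (nat_lit 6) (nat_lit 0x280014001200080000000000000000000000000000000) (nat_lit 0x0) (nat_lit 0x10000c0016002b000980000000000000000000000000000000000) := Q_24 (nat_lit 159) (C_24 L63835 (C_24 L63767 (C_24 L63837 N_24))) (by decide +kernel)
theorem L63839 : W_24 (nat_lit 2) (nat_lit 0x28001c001200080000000000000000000000000000000) (nat_lit 0x0) (nat_lit 0x400002000800000000000000000000000000000000000) := D_24 (nat_lit 157) (nat_lit 178) (nat_lit 143) (nat_lit 3) (nat_lit 4) (nat_lit 9) (nat_lit 2) (nat_lit 4) (nat_lit 9) (by decide +kernel)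
theorem L63840 : W_24 (nat_lit 4) (nat_lit 0x280014001200080000000000000000000000000000000) (nat_lit 0x0) (nat_lit 0x44002a000980000000000000000000000000000000000) := Q_24 (nat_lit 159) (C_24 L63839 (C_24 L63837 (C_24 L63767 N_24))) (by decide +kernel)
theorem L63841 : W_24 (nat_lit 2) (nat_lit 0x2400060009000780014001200080000000000000000000000000000000) (nat_lit 0x0) (nat_lit 0x4000200010000000000000000000000000000000000000000000000000000) := D_24 (nat_lit 225) (nat_lit 242) (nat_lit 208) (nat_lit 5) (nat_lit 5) (nat_lit 10) (nat_lit 5) (nat_lit 5) (nat_lit 9) (by decide +kernel)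
theorem L63842 : W_24 (nat_lit 3) (nat_lit 0x2000060009000780014001200080000000000000000000000000000000) (nat_lit 0x0) (nat_lit 0x4000600010000000000008000000000000000000000000000000000000000) := T_24 (nat_lit 226) (nat_lit 159) (nat_lit 6) (nat_lit 5) (nat_lit 13) L63841 (by decide +kernel)
theorem L63843 : W_24 (nat_lit 4) (nat_lit 0x2000040009000780014001200080000000000000000000000000000000) (nat_lit 0x0) (nat_lit 0x4000e00030000000000008000000000000000000000000000000000000000) := T_24 (nat_lit 209) (nat_lit 227) (nat_lit 7) (nat_lit 5) (nat_lit 9) L63842 (by decide +kernel)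
theorem L63844 : W_24 (nat_lit 5) (nat_lit 0x40009000780014001200080000000000000000000000000000000) (nat_lit 0x0) (nat_lit 0x4002e00130000000000008000000000000000000000000000000000000000) := T_24 (nat_lit 229) (nat_lit 212) (nat_lit 4) (nat_lit 8) (nat_lit 13) L63843 (by decide +kernel)
theorem L63845 : W_24 (nat_lit 6) (nat_lit 0x9000780014001200080000000000000000000000000000000) (nat_lit 0x0) (nat_lit 0x4002e00170002000000008000000000000000000000000000000000000000) := T_24 (nat_lit 210) (nat_lit 193) (nat_lit 7) (nat_lit 5) (nat_lit 8) L63844 (by decide +kernel)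
theorem L63846 : W_24 (nat_lit 7) (nat_lit 0x1000780014001200080000000000000000000000000000000) (nat_lit 0x0) (nat_lit 0x4002e0017001a000000008000000000000000000000000000000000000000) := T_24 (nat_lit 195) (nat_lit 196) (nat_lit 3) (nat_lit 5) (nat_lit 10) L63845 (by decide +kernel)
theorem L63847 : W_24 (nat_lit 8) (nat_lit 0x780014001200080000000000000000000000000000000) (nat_lit 0x0) (nat_lit 0x4002e0017001b800000008000000000000000000000000000000000000000) := T_24 (nat_lit 192) (nat_lit 191) (nat_lit 1) (nat_lit 8) (nat_lit 10) L63846 (by decide +kernel)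
theorem L63848 : W_24 (nat_lit 9) (nat_lit 0x380014001200080000000000000000000000000000000) (nat_lit 0x0) (nat_lit 0x4002e0017001b80040000a000000000000000000000000000000000000000) := T_24 (nat_lit 178) (nat_lit 157) (nat_lit 0) (nat_lit 8) (nat_lit 10) L63847 (by decide +kernel)
theorem L63849 : W_24 (nat_lit 10) (nat_lit 0x280014001200080000000000000000000000000000000) (nat_lit 0x0) (nat_lit 0x4002e0017001be0056006a000000000000000000000000000000000000000) := Q_24 (nat_lit 176) (C_24 L63848 (C_24 L62860 (C_24 L63030 N_24))) (by decide +kernel)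
theorem L63850 : W_24 (nat_lit 2) (nat_lit 0x20001000280034001300080000000000000000000000000000000) (nat_lit 0x0) (nat_lit 0x200010000800000000000000000000000000000000000000000000000) := D_24 (nat_lit 208) (nat_lit 191) (nat_lit 225) (nat_lit 5) (nat_lit 5) (nat_lit 8) (nat_lit 5) (nat_lit 5) (nat_lit 9) (by decide +kernel)
theorem L63851 : W_24 (nat_lit 3) (nat_lit 0x1000280034001300080000000000000000000000000000000) (nat_lit 0x0) (nat_lit 0x200030000800000002000000000000000000000000000000000000000) := T_24 (nat_lit 209) (nat_lit 157) (nat_lit 4) (nat_lit 5) (nat_lit 12) L63850 (by decide +kernel)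
theorem L63852 : W_24 (nat_lit 4) (nat_lit 0x1000280014001300080000000000000000000000000000000) (nat_lit 0x0) (nat_lit 0x20003000080000002a000000000000000000000000000000000000000) := T_24 (nat_lit 161) (nat_lit 159) (nat_lit 0) (nat_lit 8) (nat_lit 9) L63851 (by decide +kernel)
theorem L63853 : W_24 (nat_lit 5) (nat_lit 0x1000280014001200080000000000000000000000000000000) (nat_lit 0x0) (nat_lit 0x20003000080000002a000100008000000000000000000000000000000) := T_24 (nat_lit 140) (nat_lit 123) (nat_lit 4) (nat_lit 5) (nat_lit 11) L63852 (by decide +kernel)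
theorem L63854 : W_24 (nat_lit 11) (nat_lit 0x280014001200080000000000000000000000000000000) (nat_lit 0x0) (nat_lit 0x2a001f000be0050002a000900048000000000000000000000000000000) := Q_24 (nat_lit 192) (C_24 L63510 (C_24 L63491 (C_24 L63853 (C_24 L62885 N_24)))) (by decide +kernel)
theorem L63855 : W_24 (nat_lit 13) (nat_lit 0x200014001200080000000000000000000000000000000) (nat_lit 0x0) (nat_lit 0x4006e003f001be005e00eb80098014800a000000000000000000000000000) := Q_24 (nat_lit 175) (C_24 L63765 (C_24 L63825 (C_24 L63834 (C_24 L63838 (C_24 L63840 (C_24 L63849 (C_24 L63854 N_24))))))) (by decide +kernel)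
theorem L63856 : W_24 (nat_lit 8) (nat_lit 0x280014001200080000000000000000000000000000000) (nat_lit 0x0) (nat_lit 0xa00070003800140008000100038001c00080000000000000000000000) := Q_24 (nat_lit 124) (C_24 L63659 (C_24 L63656 (C_24 L63615 N_24))) (by decide +kernel)
theorem L63857 : W_24 (nat_lit 11) (nat_lit 0x280014001200080000000000000000000000000000000) (nat_lit 0x0) (nat_lit 0x6a0037001b800440028000900078003c00020000000000000000000000) := Q_24 (nat_lit 124) (C_24 L63659 (C_24 L63674 (C_24 L63656 (C_24 L63078 (C_24 L63668 N_24))))) (by decide +kernel)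
theorem L63858 : W_24 (nat_lit 2) (nat_lit 0x18006800340013001e0000000000000000000000000000000) (nat_lit 0x0) (nat_lit 0x800000001800000000000000000000000000) := D_24 (nat_lit 108) (nat_lit 107) (nat_lit 143) (nat_lit 0) (nat_lit 9) (nat_lit 7) (nat_lit 4) (nat_lit 7) (nat_lit 10) (by decide +kernel)
theorem L63859 : W_24 (nat_lit 3) (nat_lit 0x18006800340013001c0000000000000000000000000000000) (nat_lit 0x0) (nat_lit 0x800030001800000000000000000000000000) := T_24 (nat_lit 125) (nat_lit 124) (nat_lit 1) (nat_lit 8) (nat_lit 7) L63858 (by decide +kernel)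
theorem L63860 : W_24 (nat_lit 4) (nat_lit 0x1800680034001300180000000000000000000000000000000) (nat_lit 0x0) (nat_lit 0x800070003800000000000000000000000000) := T_24 (nat_lit 126) (nat_lit 109) (nat_lit 4) (nat_lit 8) (nat_lit 10) L63859 (by decide +kernel)
theorem L63861 : W_24 (nat_lit 5) (nat_lit 0x1800680034001300080000000000000000000000000000000) (nat_lit 0x0) (nat_lit 0x80017000b800000000000000000000000000) := T_24 (nat_lit 128) (nat_lit 111) (nat_lit 6) (nat_lit 8) (nat_lit 10) L63860 (by decide +kernel)
theorem L63862 : W_24 (nat_lit 6) (nat_lit 0x1800280034001300080000000000000000000000000000000) (nat_lit 0x0) (nat_lit 0x50000000080017000b800000000000000000000000000) := T_24 (nat_lit 178) (nat_lit 176) (nat_lit 1) (nat_lit 8) (nat_lit 10) L63861 (by decide +kernel)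
theorem L63863 : W_24 (nat_lit 7) (nat_lit 0x1000280034001300080000000000000000000000000000000) (nat_lit 0x0) (nat_lit 0x1000080050000000080017000b800000000000000000000000000) := T_24 (nat_lit 191) (nat_lit 208) (nat_lit 5) (nat_lit 5) (nat_lit 8) L63862 (by decide +kernel)
theorem L63864 : W_24 (nat_lit 8) (nat_lit 0x280034001300080000000000000000000000000000000) (nat_lit 0x0) (nat_lit 0x1000180050000000080017800b800000000000000000000000000) := T_24 (nat_lit 192) (nat_lit 123) (nat_lit 4) (nat_lit 5) (nat_lit 11) L63863 (by decide +kernel)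
theorem L63865 : W_24 (nat_lit 9) (nat_lit 0x280034001200080000000000000000000000000000000) (nat_lit 0x0) (nat_lit 0x1000180050000800090017800b800000000000000000000000000) := T_24 (nat_lit 140) (nat_lit 159) (nat_lit 0) (nat_lit 8) (nat_lit 9) L63864 (by decide +kernel)
theorem L63866 : W_24 (nat_lit 10) (nat_lit 0x280014001200080000000000000000000000000000000) (nat_lit 0x0) (nat_lit 0x2000100018005400e800090017800b800000000000000000000000000) := Q_24 (nat_lit 161) (C_24 L63814 (C_24 L63567 (C_24 L51408 (C_24 L63865 N_24)))) (by decide +kernel)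
theorem L63867 : W_24 (nat_lit 8) (nat_lit 0x280014001200080000000000000000000000000000000) (nat_lit 0x0) (nat_lit 0xa00070003800100008000100078001c000a0000000000000000000000) := Q_24 (nat_lit 124) (C_24 L63656 (C_24 L62805 (C_24 L63078 (C_24 L63615 N_24)))) (by decide +kernel)
theorem L63868 : W_24 (nat_lit 2) (nat_lit 0x2003e0014801200080000000000000000000000000000000) (nat_lit 0x0) (nat_lit 0x100010000400000000000000000000000000000000000000) := D_24 (nat_lit 172) (nat_lit 188) (nat_lit 154) (nat_lit 1) (nat_lit 5) (nat_lit 10) (nat_lit 0) (nat_lit 5) (nat_lit 10) (by decide +kernel)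
theorem L63869 : W_24 (nat_lit 3) (nat_lit 0x2003e0014001200080000000000000000000000000000000) (nat_lit 0x0) (nat_lit 0x100010001c00000000000000000000000000000000000000) := T_24 (nat_lit 155) (nat_lit 156) (nat_lit 0) (nat_lit 6) (nat_lit 10) L63868 (by decide +kernel)
theorem L63870 : W_24 (nat_lit 4) (nat_lit 0x3e0014001200080000000000000000000000000000000) (nat_lit 0x0) (nat_lit 0x700010001c00000000000000000000000000000000000000) := T_24 (nat_lit 189) (nat_lit 190) (nat_lit 1) (nat_lit 6) (nat_lit 10) L63869 (by decide +kernel)
theorem L63871 : W_24 (nat_lit 5) (nat_lit 0x3c0014001200080000000000000000000000000000000) (nat_lit 0x0) (nat_lit 0x700030009c00000000000000000000000000000000000000) := T_24 (nat_lit 173) (nat_lit 159) (nat_lit 2) (nat_lit 3) (nat_lit 10) L63870 (by decide +kernel)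
theorem L63872 : W_24 (nat_lit 6) (nat_lit 0x380014001200080000000000000000000000000000000) (nat_lit 0x0) (nat_lit 0x700070029c00000000000000000000000000000000000000) := T_24 (nat_lit 174) (nat_lit 161) (nat_lit 2) (nat_lit 4) (nat_lit 10) L63871 (by decide +kernel)
theorem L63873 : W_24 (nat_lit 7) (nat_lit 0x280014001200080000000000000000000000000000000) (nat_lit 0x0) (nat_lit 0x800040003700170029c00100078001c00000000000000000000000000) := Q_24 (nat_lit 176) (C_24 L63541 (C_24 L63049 (C_24 L63872 N_24))) (by decide +kernel)
theorem L63874 : W_24 (nat_lit 13) (nat_lit 0x200014001200080000000000000000000000000000000) (nat_lit 0x0) (nat_lit 0x6a0037001bf005f00e9c0090017800bc000a0000000000000000000000) := Q_24 (nat_lit 175) (C_24 L63527 (C_24 L63825 (C_24 L63856 (C_24 L63857 (C_24 L63866 (C_24 L63867 (C_24 L62890 (C_24 L63873 N_24)))))))) (by decide +kernel)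
theorem L63875 : W_24 (nat_lit 2) (nat_lit 0x2c001c001200098000000000000000000000000000000) (nat_lit 0x0) (nat_lit 0x20002000800000000000000000000000000000000000) := D_24 (nat_lit 157) (nat_lit 173) (nat_lit 143) (nat_lit 1) (nat_lit 7) (nat_lit 9) (nat_lit 2) (nat_lit 4) (nat_lit 9) (by decide +kernel)
theorem L63876 : W_24 (nat_lit 3) (nat_lit 0x2c0014001200098000000000000000000000000000000) (nat_lit 0x0) (nat_lit 0x2002a000800000000000000000000000000000000000) := T_24 (nat_lit 159) (nat_lit 161) (nat_lit 1) (nat_lit 8) (nat_lit 9) L63875 (by decide +kernel)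
theorem L63877 : W_24 (nat_lit 4) (nat_lit 0x280014001200098000000000000000000000000000000) (nat_lit 0x0) (nat_lit 0x80006002a000800000000000000000000000000000000000) := T_24 (nat_lit 174) (nat_lit 191) (nat_lit 5) (nat_lit 5) (nat_lit 7) L63876 (by decide +kernel)
theorem L63878 : W_24 (nat_lit 5) (nat_lit 0x280014001200090000000000000000000000000000000) (nat_lit 0x0) (nat_lit 0x80006002a000800008000400000000000000000000000000) := T_24 (nat_lit 123) (nat_lit 106) (nat_lit 4) (nat_lit 5) (nat_lit 10) L63877 (by decide +kernel)
theorem L63879 : W_24 (nat_lit 2) (nat_lit 0x2c00160012000b0000000000000000000000000000000) (nat_lit 0x0) (nat_lit 0x400028000000000000000000000000000000000000000) := D_24 (nat_lit 159) (nat_lit 161) (nat_lit 178) (nat_lit 1) (nat_lit 8) (nat_lit 9) (nat_lit 3) (nat_lit 4) (nat_lit 9) (by decide +kernel)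
theorem L63880 : W_24 (nat_lit 3) (nat_lit 0x2c00140012000b0000000000000000000000000000000) (nat_lit 0x0) (nat_lit 0x40002a000000000000800000000000000000000000000) := T_24 (nat_lit 157) (nat_lit 107) (nat_lit 5) (nat_lit 5) (nat_lit 6) L63879 (by decide +kernel)
theorem L63881 : W_24 (nat_lit 4) (nat_lit 0x2800140012000b0000000000000000000000000000000) (nat_lit 0x0) (nat_lit 0x80044002a000000000000800000000000000000000000000) := T_24 (nat_lit 174) (nat_lit 191) (nat_lit 5) (nat_lit 5) (nat_lit 7) L63880 (by decide +kernel)
theorem L63882 : W_24 (nat_lit 5) (nat_lit 0x280014001200090000000000000000000000000000000) (nat_lit 0x0) (nat_lit 0x80044002a000000020001800000000000000000000000000) := T_24 (nat_lit 125) (nat_lit 108) (nat_lit 6) (nat_lit 5) (nat_lit 10) L63881 (by decide +kernel)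
theorem L63883 : W_24 (nat_lit 6) (nat_lit 0x280014001200080000000000000000000000000000000) (nat_lit 0x0) (nat_lit 0x80046002a000800078001c00020000000000000000000000) := Q_24 (nat_lit 124) (C_24 L63082 (C_24 L62945 (C_24 L63078 (C_24 L63878 (C_24 L63882 N_24))))) (by decide +kernel)
theorem L63884 : W_24 (nat_lit 2) (nat_lit 0x9000780034001200080000000000000000000000000000000) (nat_lit 0x0) (nat_lit 0x2000100000000000000000800000000000000000000000000000000000) := D_24 (nat_lit 212) (nat_lit 143) (nat_lit 229) (nat_lit 4) (nat_lit 8) (nat_lit 12) (nat_lit 4) (nat_lit 8) (nat_lit 13) (by decide +kernel)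
theorem L63885 : W_24 (nat_lit 3) (nat_lit 0x9000780014001200080000000000000000000000000000000) (nat_lit 0x0) (nat_lit 0x2000100000000000060000800000000000000000000000000000000000) := T_24 (nat_lit 161) (nat_lit 162) (nat_lit 2) (nat_lit 5) (nat_lit 10) L63884 (by decide +kernel)
theorem L63886 : W_24 (nat_lit 4) (nat_lit 0x1000780014001200080000000000000000000000000000000) (nat_lit 0x0) (nat_lit 0x2000100018000000060000800000000000000000000000000000000000) := T_24 (nat_lit 195) (nat_lit 196) (nat_lit 3) (nat_lit 5) (nat_lit 10) L63885 (by decide +kernel)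
theorem L63887 : W_24 (nat_lit 5) (nat_lit 0x780014001200080000000000000000000000000000000) (nat_lit 0x0) (nat_lit 0x2000100019800000060000800000000000000000000000000000000000) := T_24 (nat_lit 192) (nat_lit 191) (nat_lit 1) (nat_lit 8) (nat_lit 10) L63886 (by decide +kernel)
theorem L63888 : W_24 (nat_lit 6) (nat_lit 0x380014001200080000000000000000000000000000000) (nat_lit 0x0) (nat_lit 0x2000100019800400062000800000000000000000000000000000000000) := T_24 (nat_lit 178) (nat_lit 157) (nat_lit 0) (nat_lit 8) (nat_lit 10) L63887 (by decide +kernel)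
theorem L63889 : W_24 (nat_lit 10) (nat_lit 0x280014001200080000000000000000000000000000000) (nat_lit 0x0) (nat_lit 0x4002e0017001b80050006a000800030001800080000000000000000000000) := Q_24 (nat_lit 176) (C_24 L63548 (C_24 L63848 (C_24 L62889 (C_24 L63888 N_24)))) (by decide +kernel)
theorem L63890 : W_24 (nat_lit 11) (nat_lit 0x200014001200080000000000000000000000000000000) (nat_lit 0x0) (nat_lit 0x4002e0017001be005e006b800800078001c000a0000000000000000000000) := Q_24 (nat_lit 175) (C_24 L62890 (C_24 L63549 (C_24 L63849 (C_24 L63834 (C_24 L63883 (C_24 L63889 (C_24 L63097 N_24))))))) (by decide +kernel)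
theorem L63891 : W_24 (nat_lit 14) (nat_lit 0x200010001200080000000000000000000000000000000) (nat_lit 0x0) (nat_lit 0xc006e003f001bf005f00efc009c037c03be001e000d000000000000000000) := Q_24 (nat_lit 158) (C_24 L63063 (C_24 L63634 (C_24 L63637 (C_24 L63694 (C_24 L63755 (C_24 L63766 (C_24 L63796 (C_24 L63813 (C_24 L63855 (C_24 L63874 (C_24 L63890 N_24))))))))))) (by decide +kernel)
theorem L63892 : W_24 (nat_lit 2) (nat_lit 0x8003c001a0016800e0000000000000000000000000000000) (nat_lit 0x0) (nat_lit 0x10000000400004000000000000000000000000000000000000000) := D_24 (nat_lit 158) (nat_lit 178) (nat_lit 208) (nat_lit 3) (nat_lit 4) (nat_lit 9) (nat_lit 6) (nat_lit 4) (nat_lit 12) (by decide +kernel)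
theorem L63893 : W_24 (nat_lit 3) (nat_lit 0x8003c00180016800e0000000000000000000000000000000) (nat_lit 0x0) (nat_lit 0x10000000400007000000000000000000000000000000000000000) := T_24 (nat_lit 157) (nat_lit 156) (nat_lit 0) (nat_lit 7) (nat_lit 10) L63892 (by decide +kernel)
theorem L63894 : W_24 (nat_lit 4) (nat_lit 0x3c00180016800e0000000000000000000000000000000) (nat_lit 0x0) (nat_lit 0x10000c00400007000000000000000000000000000000000000000) := T_24 (nat_lit 191) (nat_lit 190) (nat_lit 1) (nat_lit 7) (nat_lit 10) L63893 (by decide +kernel)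
theorem L63895 : W_24 (nat_lit 5) (nat_lit 0x3800180016800e0000000000000000000000000000000) (nat_lit 0x0) (nat_lit 0x10000c00460007000000000000000000000000000000000000000) := T_24 (nat_lit 174) (nat_lit 173) (nat_lit 2) (nat_lit 3) (nat_lit 10) L63894 (by decide +kernel)
theorem L63896 : W_24 (nat_lit 6) (nat_lit 0x3000180016800e0000000000000000000000000000000) (nat_lit 0x0) (nat_lit 0x10001c004e0007000000000000000000000000000000000000000) := T_24 (nat_lit 175) (nat_lit 192) (nat_lit 5) (nat_lit 6) (nat_lit 7) L63895 (by decide +kernel)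
theorem L63897 : W_24 (nat_lit 7) (nat_lit 0x2000180016800e0000000000000000000000000000000) (nat_lit 0x0) (nat_lit 0x10001c005e0007000000000002000000000000000000000000000) := T_24 (nat_lit 176) (nat_lit 109) (nat_lit 6) (nat_lit 6) (nat_lit 10) L63896 (by decide +kernel)
theorem L63898 : W_24 (nat_lit 8) (nat_lit 0x2000180016800a0000000000000000000000000000000) (nat_lit 0x0) (nat_lit 0x10001c005e0007000000140002000000000000000000000000000) := T_24 (nat_lit 126) (nat_lit 128) (nat_lit 1) (nat_lit 9) (nat_lit 7) L63897 (by decide +kernel)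
theorem L63899 : W_24 (nat_lit 9) (nat_lit 0x2000180016000a0000000000000000000000000000000) (nat_lit 0x0) (nat_lit 0x10001c005e0007000180140002000000000000000000000000000) := T_24 (nat_lit 139) (nat_lit 140) (nat_lit 3) (nat_lit 3) (nat_lit 8) L63898 (by decide +kernel)
theorem L63900 : W_24 (nat_lit 10) (nat_lit 0x200018001600080000000000000000000000000000000) (nat_lit 0x0) (nat_lit 0x10001c005e0007000180160003000000000000000000000000000) := T_24 (nat_lit 125) (nat_lit 108) (nat_lit 7) (nat_lit 6) (nat_lit 6) L63899 (by decide +kernel)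
theorem L63901 : W_24 (nat_lit 2) (nat_lit 0x2000380016800e0000000000000000000000000000000) (nat_lit 0x0) (nat_lit 0x500000000000000002000000000000000000000000000) := D_24 (nat_lit 109) (nat_lit 178) (nat_lit 176) (nat_lit 4) (nat_lit 8) (nat_lit 10) (nat_lit 6) (nat_lit 6) (nat_lit 10) (by decide +kernel)
theorem L63902 : W_24 (nat_lit 3) (nat_lit 0x2000380016800a0000000000000000000000000000000) (nat_lit 0x0) (nat_lit 0x500000000000140002000000000000000000000000000) := T_24 (nat_lit 126) (nat_lit 128) (nat_lit 1) (nat_lit 9) (nat_lit 7) L63901 (by decide +kernel)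
theorem L63903 : W_24 (nat_lit 4) (nat_lit 0x200038001680080000000000000000000000000000000) (nat_lit 0x0) (nat_lit 0x500000000000160003000000000000000000000000000) := T_24 (nat_lit 125) (nat_lit 108) (nat_lit 7) (nat_lit 6) (nat_lit 6) L63902 (by decide +kernel)
theorem L63904 : W_24 (nat_lit 5) (nat_lit 0x200018001680080000000000000000000000000000000) (nat_lit 0x0) (nat_lit 0x500060000000160003000000000000000000000000000) := T_24 (nat_lit 161) (nat_lit 162) (nat_lit 0) (nat_lit 9) (nat_lit 9) L63903 (by decide +kernel)
theorem L63905 : W_24 (nat_lit 6) (nat_lit 0x200018001600080000000000000000000000000000000) (nat_lit 0x0) (nat_lit 0x500060000180160003000000000000000000000000000) := T_24 (nat_lit 139) (nat_lit 140) (nat_lit 3) (nat_lit 3) (nat_lit 8) L63904 (by decide +kernel)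
theorem L63906 : W_24 (nat_lit 11) (nat_lit 0x200010001600080000000000000000000000000000000) (nat_lit 0x0) (nat_lit 0x10001c005e006f00018016000b000000000000000000000000000) := Q_24 (nat_lit 159) (C_24 L63204 (C_24 L63330 (C_24 L63900 (C_24 L63905 N_24)))) (by decide +kernel)
theorem L63907 : W_24 (nat_lit 4) (nat_lit 0x200010001600080000000000000000000000000000000) (nat_lit 0x0) (nat_lit 0x7000900140000000000000000000000000000000) := T_24 (nat_lit 143) (nat_lit 128) (nat_lit 2) (nat_lit 5) (nat_lit 8) L63146 (by decide +kernel)
theorem L63908 : W_24 (nat_lit 9) (nat_lit 0x200010001600080000000000000000000000000000000) (nat_lit 0x0) (nat_lit 0xb0005c006f000900060003000180008000000000000000000) := Q_24 (nat_lit 143) (C_24 L63247 (C_24 L63376 (C_24 L63146 N_24))) (by decide +kernel)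
theorem L63909 : W_24 (nat_lit 9) (nat_lit 0x200010001600080000000000000000000000000000000) (nat_lit 0x0) (nat_lit 0xb0005c006e000800160003000180008000000000000000000) := T_24 (nat_lit 143) (nat_lit 128) (nat_lit 2) (nat_lit 5) (nat_lit 8) L63376 (by decide +kernel)
theorem L63910 : W_24 (nat_lit 12) (nat_lit 0x200010001200080000000000000000000000000000000) (nat_lit 0x0) (nat_lit 0x1000bc005e006f000d8016000b000180008000000000000000000) := Q_24 (nat_lit 142) (C_24 L63906 (C_24 L63907 (C_24 L63248 (C_24 L63908 (C_24 L63909 N_24))))) (by decide +kernel)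
theorem L63914 : W_24 (nat_lit 5) (nat_lit 0x200016001200080000000000000000000000000000000) (nat_lit 0x0) (nat_lit 0x200010005c0001800d00028000000000000000000000000000000) := Q_24 (nat_lit 175) (C_24 L63833 (C_24 L63913 N_24)) (by decide +kernel)
theorem L63915 : W_24 (nat_lit 6) (nat_lit 0x200014001200080000000000000000000000000000000) (nat_lit 0x0) (nat_lit 0x200010005f800b800d00028000000000000000000000000000000) := Q_24 (nat_lit 157) (C_24 L63914 (C_24 L63580 (C_24 L63581 (C_24 L63600 N_24)))) (by decide +kernel)
theorem L63916 : W_24 (nat_lit 12) (nat_lit 0x200014001200080000000000000000000000000000000) (nat_lit 0x0) (nat_lit 0x8002e001f001be005c00e3000d00058000c00020000000000000000000000) := Q_24 (nat_lit 175) (C_24 L63527 (C_24 L63765 (C_24 L63497 (C_24 L63501 (C_24 L63760 (C_24 L63542 (C_24 L63549 N_24))))))) (by decide +kernel)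
theorem L63917 : W_24 (nat_lit 2) (nat_lit 0x1800280016001600090000000000000000000000000000000) (nat_lit 0x0) (nat_lit 0x40002000100000000000000000000000000000000000000000000) := D_24 (nat_lit 193) (nat_lit 176) (nat_lit 210) (nat_lit 7) (nat_lit 5) (nat_lit 7) (nat_lit 7) (nat_lit 5) (nat_lit 8) (by decide +kernel)
theorem L63918 : W_24 (nat_lit 3) (nat_lit 0x1800280016001600080000000000000000000000000000000) (nat_lit 0x0) (nat_lit 0x40002000140000000000010000000000000000000000000000000) := T_24 (nat_lit 124) (nat_lit 174) (nat_lit 5) (nat_lit 5) (nat_lit 7) L63917 (by decide +kernel)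
theorem L63919 : W_24 (nat_lit 4) (nat_lit 0x1000280016001600080000000000000000000000000000000) (nat_lit 0x0) (nat_lit 0x50002800140000000000010000000000000000000000000000000) := T_24 (nat_lit 191) (nat_lit 208) (nat_lit 5) (nat_lit 5) (nat_lit 8) L63918 (by decide +kernel)
theorem L63920 : W_24 (nat_lit 5) (nat_lit 0x280016001600080000000000000000000000000000000) (nat_lit 0x0) (nat_lit 0x50003800140000000000030000000000000000000000000000000) := T_24 (nat_lit 192) (nat_lit 125) (nat_lit 6) (nat_lit 5) (nat_lit 11) L63919 (by decide +kernel)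
theorem L63921 : W_24 (nat_lit 6) (nat_lit 0x280016001200080000000000000000000000000000000) (nat_lit 0x0) (nat_lit 0x50003800140000000c00030000000000000000000000000000000) := T_24 (nat_lit 142) (nat_lit 143) (nat_lit 1) (nat_lit 8) (nat_lit 8) L63920 (by decide +kernel)
theorem L63922 : W_24 (nat_lit 2) (nat_lit 0x400018002c0016001600080000000000000000000000000000000) (nat_lit 0x0) (nat_lit 0xc00020000000000000000000000000000000000000000000000000000) := D_24 (nat_lit 209) (nat_lit 226) (nat_lit 227) (nat_lit 4) (nat_lit 5) (nat_lit 13) (nat_lit 7) (nat_lit 5) (nat_lit 9) (by decide +kernel)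
theorem L63923 : W_24 (nat_lit 3) (nat_lit 0x18002c0016001600080000000000000000000000000000000) (nat_lit 0x0) (nat_lit 0xc00060002000000000000000000000000000000000000000000000000) := T_24 (nat_lit 210) (nat_lit 193) (nat_lit 7) (nat_lit 5) (nat_lit 8) L63922 (by decide +kernel)
theorem L63924 : W_24 (nat_lit 4) (nat_lit 0x1800280016001600080000000000000000000000000000000) (nat_lit 0x0) (nat_lit 0xc00060002000040000000000010000000000000000000000000000000) := T_24 (nat_lit 174) (nat_lit 124) (nat_lit 5) (nat_lit 5) (nat_lit 7) L63923 (by decide +kernel)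
theorem L63925 : W_24 (nat_lit 5) (nat_lit 0x1000280016001600080000000000000000000000000000000) (nat_lit 0x0) (nat_lit 0xc00070002800040000000000010000000000000000000000000000000) := T_24 (nat_lit 191) (nat_lit 208) (nat_lit 5) (nat_lit 5) (nat_lit 8) L63924 (by decide +kernel)
theorem L63926 : W_24 (nat_lit 6) (nat_lit 0x280016001600080000000000000000000000000000000) (nat_lit 0x0) (nat_lit 0xc00070003800040000000000030000000000000000000000000000000) := T_24 (nat_lit 192) (nat_lit 125) (nat_lit 6) (nat_lit 5) (nat_lit 11) L63925 (by decide +kernel)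
theorem L63927 : W_24 (nat_lit 7) (nat_lit 0x280016001200080000000000000000000000000000000) (nat_lit 0x0) (nat_lit 0xc00070003800040000000c00030000000000000000000000000000000) := T_24 (nat_lit 142) (nat_lit 143) (nat_lit 1) (nat_lit 8) (nat_lit 8) L63926 (by decide +kernel)
theorem L63928 : W_24 (nat_lit 2) (nat_lit 0x8000680016001a00080000000000000000000000000000000) (nat_lit 0x0) (nat_lit 0x2000100000000000020000000000000000000000000000000000000000) := D_24 (nat_lit 212) (nat_lit 229) (nat_lit 161) (nat_lit 4) (nat_lit 8) (nat_lit 13) (nat_lit 4) (nat_lit 8) (nat_lit 12) (by decide +kernel)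
theorem L63929 : W_24 (nat_lit 3) (nat_lit 0x680016001a00080000000000000000000000000000000) (nat_lit 0x0) (nat_lit 0x2000100008000000020000000040000000000000000000000000000000) := T_24 (nat_lit 195) (nat_lit 126) (nat_lit 7) (nat_lit 7) (nat_lit 7) L63928 (by decide +kernel)
theorem L63930 : W_24 (nat_lit 4) (nat_lit 0x280016001a00080000000000000000000000000000000) (nat_lit 0x0) (nat_lit 0x2000100008000500020000000040000000000000000000000000000000) := T_24 (nat_lit 178) (nat_lit 176) (nat_lit 0) (nat_lit 8) (nat_lit 10) L63929 (by decide +kernel)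
theorem L63931 : W_24 (nat_lit 5) (nat_lit 0x280016001200080000000000000000000000000000000) (nat_lit 0x0) (nat_lit 0x2000100008000500020000c00040000000000000000000000000000000) := T_24 (nat_lit 143) (nat_lit 142) (nat_lit 1) (nat_lit 8) (nat_lit 8) L63930 (by decide +kernel)
theorem L63932 : W_24 (nat_lit 8) (nat_lit 0x200016001200080000000000000000000000000000000) (nat_lit 0x0) (nat_lit 0x2c0017000b8005c0021800c00070000000000000000000000000000000) := Q_24 (nat_lit 175) (C_24 L63833 (C_24 L63921 (C_24 L63927 (C_24 L63931 N_24)))) (by decide +kernel)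
theorem L63933 : W_24 (nat_lit 9) (nat_lit 0x200014001200080000000000000000000000000000000) (nat_lit 0x0) (nat_lit 0x2c0017000b8005f802b800c00070000000000000000000000000000000) := Q_24 (nat_lit 157) (C_24 L63932 (C_24 L63600 (C_24 L63580 (C_24 L63581 N_24)))) (by decide +kernel)
theorem L63934 : W_24 (nat_lit 16) (nat_lit 0x200010001200080000000000000000000000000000000) (nat_lit 0x0) (nat_lit 0xc006e003f001be075f81efc00dc017800ac00020000000000000000000000) := Q_24 (nat_lit 158) (C_24 L63069 (C_24 L63855 (C_24 L63915 (C_24 L63637 (C_24 L63463 (C_24 L63020 (C_24 L63916 (C_24 L63579 (C_24 L63933 N_24))))))))) (by decide +kernel)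
theorem L63935 : W_24 (nat_lit 2) (nat_lit 0x700014001a000f0000800000000000000000000000000) (nat_lit 0x0) (nat_lit 0xc0002000000000000000000000000000000000000000) := D_24 (nat_lit 157) (nat_lit 174) (nat_lit 175) (nat_lit 5) (nat_lit 5) (nat_lit 6) (nat_lit 0) (nat_lit 8) (nat_lit 10) (by decide +kernel)
theorem L63936 : W_24 (nat_lit 3) (nat_lit 0x700010001a000f0000800000000000000000000000000) (nat_lit 0x0) (nat_lit 0xc000e000000000000000000000000000000000000000) := T_24 (nat_lit 158) (nat_lit 159) (nat_lit 7) (nat_lit 5) (nat_lit 6) L63935 (by decide +kernel)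
theorem L63937 : W_24 (nat_lit 4) (nat_lit 0x300010001a000f0000800000000000000000000000000) (nat_lit 0x0) (nat_lit 0x80004c000e000000000000000000000000000000000000000) := T_24 (nat_lit 178) (nat_lit 195) (nat_lit 7) (nat_lit 7) (nat_lit 7) L63936 (by decide +kernel)
theorem L63938 : W_24 (nat_lit 5) (nat_lit 0x300010001a000f0000000000000000000000000000000) (nat_lit 0x0) (nat_lit 0x80004c000e000000000000c00000000000000000000000000) := T_24 (nat_lit 107) (nat_lit 106) (nat_lit 0) (nat_lit 8) (nat_lit 7) L63937 (by decide +kernel)
theorem L63939 : W_24 (nat_lit 6) (nat_lit 0x200010001a000f0000000000000000000000000000000) (nat_lit 0x0) (nat_lit 0xa0005c000e000000000000c00000000000000000000000000) := T_24 (nat_lit 176) (nat_lit 193) (nat_lit 5) (nat_lit 7) (nat_lit 7) L63938 (by decide +kernel)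
theorem L63940 : W_24 (nat_lit 7) (nat_lit 0x200010001a000e0000000000000000000000000000000) (nat_lit 0x0) (nat_lit 0xa0005c000e000000018000c00000000000000000000000000) := T_24 (nat_lit 124) (nat_lit 123) (nat_lit 3) (nat_lit 4) (nat_lit 7) L63939 (by decide +kernel)
theorem L63941 : W_24 (nat_lit 8) (nat_lit 0x200010001a000c0000000000000000000000000000000) (nat_lit 0x0) (nat_lit 0xa0005c000e000000038001c00000000000000000000000000) := T_24 (nat_lit 125) (nat_lit 108) (nat_lit 4) (nat_lit 7) (nat_lit 10) L63940 (by decide +kernel)
theorem L63942 : W_24 (nat_lit 9) (nat_lit 0x200010001a00080000000000000000000000000000000) (nat_lit 0x0) (nat_lit 0xa0005c006e000000078003c0018000c000000000000000000) := Q_24 (nat_lit 126) (C_24 L63610 (C_24 L31816 (C_24 L63606 (C_24 L63941 N_24)))) (by decide +kernel)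
theorem L63943 : W_24 (nat_lit 9) (nat_lit 0x200010001a00080000000000000000000000000000000) (nat_lit 0x0) (nat_lit 0x200030001c006e000400138000800040000000000000000000000) := T_24 (nat_lit 142) (nat_lit 128) (nat_lit 2) (nat_lit 5) (nat_lit 8) L63396 (by decide +kernel)
theorem L63944 : W_24 (nat_lit 8) (nat_lit 0x200010001a00080000000000000000000000000000000) (nat_lit 0x0) (nat_lit 0x18000c006e000400178001000080000000000000000000000) := T_24 (nat_lit 142) (nat_lit 128) (nat_lit 2) (nat_lit 5) (nat_lit 8) L63320 (by decide +kernel)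
theorem L63945 : W_24 (nat_lit 13) (nat_lit 0x200010001a00080000000000000000000000000000000) (nat_lit 0x0) (nat_lit 0xa0005c006e000400158003c001e000d000000000000000000) := T_24 (nat_lit 142) (nat_lit 128) (nat_lit 2) (nat_lit 5) (nat_lit 8) L63354 (by decide +kernel)
theorem L63946 : W_24 (nat_lit 9) (nat_lit 0x200010001a00080000000000000000000000000000000) (nat_lit 0x0) (nat_lit 0xb0005c006e000400160003000180008000000000000000000) := T_24 (nat_lit 142) (nat_lit 128) (nat_lit 2) (nat_lit 5) (nat_lit 8) L63376 (by decide +kernel)
theorem L63947 : W_24 (nat_lit 14) (nat_lit 0x200010001200080000000000000000000000000000000) (nat_lit 0x0) (nat_lit 0x2000b8005c006e000c0077803bc001e000d000000000000000000) := Q_24 (nat_lit 143) (C_24 L63942 (C_24 L63176 (C_24 L63943 (C_24 L63944 (C_24 L63945 (C_24 L63613 (C_24 L63946 N_24))))))) (by decide +kernel)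
theorem L63948 : W_24 (nat_lit 17) (nat_lit 0x200010001000080000000000000000000000000000000) (nat_lit 0x0) (nat_lit 0x1c007e003fc01bf075f81efc00fc077f03be001e000f000000000000000000) := Q_24 (nat_lit 141) (C_24 L63099 (C_24 L63132 (C_24 L63177 (C_24 L63284 (C_24 L63314 (C_24 L63333 (C_24 L63424 (C_24 L63602 (C_24 L63614 (C_24 L63891 (C_24 L63910 (C_24 L63934 (C_24 L63947 N_24))))))))))))) (by decide +kernel)
theorem L63949 : W_24 (nat_lit 7) (nat_lit 0x200010001000080000000000000000000000000000000) (nat_lit 0x0) (nat_lit 0x400038001c0004000100028000c00000000000000000000000000000000000) := T_24 (nat_lit 194) (nat_lit 143) (nat_lit 6) (nat_lit 7) (nat_lit 11) L5488 (by decide +kernel)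
theorem L63950 : W_24 (nat_lit 2) (nat_lit 0x2000140016000a0001000000000000000000000000000) (nat_lit 0x0) (nat_lit 0x1000080000000000010000000000000000000000000000000) := D_24 (nat_lit 175) (nat_lit 192) (nat_lit 124) (nat_lit 6) (nat_lit 5) (nat_lit 11) (nat_lit 6) (nat_lit 5) (nat_lit 10) (by decide +kernel)
theorem L63951 : W_24 (nat_lit 3) (nat_lit 0x2000140016000a0000000000000000000000000000000) (nat_lit 0x0) (nat_lit 0x1000080000000000010001000080000000000000000000000) := T_24 (nat_lit 108) (nat_lit 91) (nat_lit 5) (nat_lit 6) (nat_lit 5) L63950 (by decide +kernel)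
theorem L63954 : W_24 (nat_lit 2) (nat_lit 0x280008000400020001c001000080000000000000000000000000000000) (nat_lit 0x0) (nat_lit 0x50001000000000000000000000000000000000000000000000000000000000) := D_24 (nat_lit 228) (nat_lit 246) (nat_lit 244) (nat_lit 7) (nat_lit 7) (nat_lit 10) (nat_lit 5) (nat_lit 7) (nat_lit 10) (by decide +kernel)
theorem L63955 : W_24 (nat_lit 3) (nat_lit 0x200008000400020001c001000080000000000000000000000000000000) (nat_lit 0x0) (nat_lit 0x50001800040000000000000000000000000000000000000000000000000000) := T_24 (nat_lit 227) (nat_lit 210) (nat_lit 5) (nat_lit 7) (nat_lit 9) L63954 (by decide +kernel)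
theorem L63956 : W_24 (nat_lit 4) (nat_lit 0x8000400020001c001000080000000000000000000000000000000) (nat_lit 0x0) (nat_lit 0x50003800140000000000000000000000000000000000000000000000000000) := T_24 (nat_lit 229) (nat_lit 212) (nat_lit 7) (nat_lit 7) (nat_lit 9) L63955 (by decide +kernel)
theorem L63964 : W_24 (nat_lit 2) (nat_lit 0x20001f001000080000000000000000000000000000000) (nat_lit 0x0) (nat_lit 0x1c0000000000000000000000000000000000) := D_24 (nat_lit 139) (nat_lit 138) (nat_lit 140) (nat_lit 0) (nat_lit 6) (nat_lit 9) (nat_lit 0) (nat_lit 7) (nat_lit 9) (by decide +kernel)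
theorem L63965 : W_24 (nat_lit 3) (nat_lit 0x20001e001000080000000000000000000000000000000) (nat_lit 0x0) (nat_lit 0x1000010001c0000000000000000000000000000000000) := T_24 (nat_lit 156) (nat_lit 176) (nat_lit 3) (nat_lit 3) (nat_lit 9) L63964 (by decide +kernel)
theorem L63969 : W_24 (nat_lit 2) (nat_lit 0x100028001e001100080000000000000000000000000000000) (nat_lit 0x0) (nat_lit 0x200008000400000000000000000000000000) := D_24 (nat_lit 123) (nat_lit 106) (nat_lit 141) (nat_lit 7) (nat_lit 4) (nat_lit 6) (nat_lit 4) (nat_lit 5) (nat_lit 11) (by decide +kernel)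
theorem L63970 : W_24 (nat_lit 3) (nat_lit 0x28001e001100080000000000000000000000000000000) (nat_lit 0x0) (nat_lit 0x20001000000000000200008000400000000000000000000000000) := T_24 (nat_lit 192) (nat_lit 209) (nat_lit 4) (nat_lit 5) (nat_lit 12) L63969 (by decide +kernel)
theorem L63971 : W_24 (nat_lit 4) (nat_lit 0x28001e001000080000000000000000000000000000000) (nat_lit 0x0) (nat_lit 0x20001000000000000380008000400000000000000000000000000) := T_24 (nat_lit 140) (nat_lit 139) (nat_lit 0) (nat_lit 7) (nat_lit 9) L63970 (by decide +kernel)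
theorem L63972 : W_24 (nat_lit 2) (nat_lit 0x2c001e001300098000000000000000000000000000000) (nat_lit 0x0) (nat_lit 0x60001000000000000000000000000000) := D_24 (nat_lit 125) (nat_lit 126) (nat_lit 108) (nat_lit 1) (nat_lit 8) (nat_lit 7) (nat_lit 6) (nat_lit 5) (nat_lit 10) (by decide +kernel)
theorem L63973 : W_24 (nat_lit 3) (nat_lit 0x2c001e001100098000000000000000000000000000000) (nat_lit 0x0) (nat_lit 0x800000000000200060001000000000000000000000000000) := T_24 (nat_lit 141) (nat_lit 191) (nat_lit 6) (nat_lit 4) (nat_lit 11) L63972 (by decide +kernel)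
theorem L63974 : W_24 (nat_lit 4) (nat_lit 0x2c001e001100088000000000000000000000000000000) (nat_lit 0x0) (nat_lit 0x800000000000200070001800000000000000000000000000) := T_24 (nat_lit 124) (nat_lit 107) (nat_lit 6) (nat_lit 4) (nat_lit 10) L63973 (by decide +kernel)
theorem L63975 : W_24 (nat_lit 5) (nat_lit 0x2c001e001100080000000000000000000000000000000) (nat_lit 0x0) (nat_lit 0x800000000000200078001c00000000000000000000000000) := T_24 (nat_lit 123) (nat_lit 106) (nat_lit 7) (nat_lit 4) (nat_lit 6) L63974 (by decide +kernel)
theorem L63976 : W_24 (nat_lit 6) (nat_lit 0x28001e001100080000000000000000000000000000000) (nat_lit 0x0) (nat_lit 0x800060000000200078001c00000000000000000000000000) := T_24 (nat_lit 174) (nat_lit 173) (nat_lit 1) (nat_lit 7) (nat_lit 9) L63975 (by decide +kernel)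
theorem L63977 : W_24 (nat_lit 7) (nat_lit 0x28001e001000080000000000000000000000000000000) (nat_lit 0x0) (nat_lit 0x800060000000380078001c00000000000000000000000000) := T_24 (nat_lit 140) (nat_lit 139) (nat_lit 0) (nat_lit 7) (nat_lit 9) L63976 (by decide +kernel)
theorem L63978 : W_24 (nat_lit 5) (nat_lit 0x400020001c001000080000000000000000000000000000000) (nat_lit 0x0) (nat_lit 0x500038001c0000000000000000400000000000000000000000000000000000) := T_24 (nat_lit 211) (nat_lit 142) (nat_lit 4) (nat_lit 7) (nat_lit 12) L63956 (by decide +kernel)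
theorem L63979 : W_24 (nat_lit 2) (nat_lit 0x20001c001200090000800040000000000000000000000) (nat_lit 0x0) (nat_lit 0x1000080004000000000000000000) := D_24 (nat_lit 91) (nat_lit 74) (nat_lit 108) (nat_lit 6) (nat_lit 5) (nat_lit 8) (nat_lit 6) (nat_lit 5) (nat_lit 9) (by decide +kernel)
theorem L63980 : W_24 (nat_lit 3) (nat_lit 0x20001c001200090000800000000000000000000000000) (nat_lit 0x0) (nat_lit 0x4000000010000c0004000000000000000000) := T_24 (nat_lit 90) (nat_lit 142) (nat_lit 7) (nat_lit 5) (nat_lit 5) L63979 (by decide +kernel)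
theorem L63984 : W_24 (nat_lit 2) (nat_lit 0x200000000b000780014001700080000000000000000000000000000000) (nat_lit 0x0) (nat_lit 0x20000000000008000080000000000000000000000000000000000) := D_24 (nat_lit 159) (nat_lit 209) (nat_lit 139) (nat_lit 6) (nat_lit 5) (nat_lit 12) (nat_lit 3) (nat_lit 3) (nat_lit 8) (by decide +kernel)
theorem L63985 : W_24 (nat_lit 3) (nat_lit 0x200000000b000780014001300080000000000000000000000000000000) (nat_lit 0x0) (nat_lit 0x20000000000008000480020000000000000000000000000000000) := T_24 (nat_lit 142) (nat_lit 125) (nat_lit 6) (nat_lit 5) (nat_lit 11) L63984 (by decide +kernel)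
theorem L63986 : W_24 (nat_lit 4) (nat_lit 0x200000000b000780014001200080000000000000000000000000000000) (nat_lit 0x0) (nat_lit 0x20000000000008000580028000000000000000000000000000000) := T_24 (nat_lit 140) (nat_lit 123) (nat_lit 4) (nat_lit 5) (nat_lit 11) L63985 (by decide +kernel)
theorem L64001 : W_24 (nat_lit 7) (nat_lit 0x8000c0000000380014001000080000000000000000000000000000000) (nat_lit 0x0) (nat_lit 0x1f400700018000400002000000000000000000000000000000000000000) := T_24 (nat_lit 178) (nat_lit 157) (nat_lit 0) (nat_lit 8) (nat_lit 10) L64000 (by decide +kernel)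
theorem L64002 : W_24 (nat_lit 8) (nat_lit 0x800040000000380014001000080000000000000000000000000000000) (nat_lit 0x0) (nat_lit 0x1f40078001c000400002000000000000000000000000000000000000000) := T_24 (nat_lit 211) (nat_lit 194) (nat_lit 5) (nat_lit 7) (nat_lit 9) L64001 (by decide +kernel)
theorem L64003 : W_24 (nat_lit 9) (nat_lit 0x40000000380014001000080000000000000000000000000000000) (nat_lit 0x0) (nat_lit 0x1fc0078001e000400002000000000000000000000000000000000000000) := T_24 (nat_lit 227) (nat_lit 193) (nat_lit 6) (nat_lit 6) (nat_lit 13) L64002 (by decide +kernel)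
theorem L64004 : W_24 (nat_lit 2) (nat_lit 0x400090007800140013000a0000000000000000000000000000000) (nat_lit 0x0) (nat_lit 0x50001000000000000000000000000000) := D_24 (nat_lit 124) (nat_lit 126) (nat_lit 108) (nat_lit 1) (nat_lit 8) (nat_lit 7) (nat_lit 6) (nat_lit 5) (nat_lit 10) (by decide +kernel)
theorem L64005 : W_24 (nat_lit 3) (nat_lit 0x400090007800140012000a0000000000000000000000000000000) (nat_lit 0x0) (nat_lit 0x100058001000000000000000000000000000) := T_24 (nat_lit 140) (nat_lit 123) (nat_lit 4) (nat_lit 5) (nat_lit 11) L64004 (by decide +kernel)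
theorem L64006 : W_24 (nat_lit 4) (nat_lit 0x40009000780014001200080000000000000000000000000000000) (nat_lit 0x0) (nat_lit 0x500078001000000000000000000000000000) := T_24 (nat_lit 125) (nat_lit 142) (nat_lit 6) (nat_lit 5) (nat_lit 11) L64005 (by decide +kernel)
theorem L64007 : W_24 (nat_lit 5) (nat_lit 0x40009000780014001000080000000000000000000000000000000) (nat_lit 0x0) (nat_lit 0x2000000000000700078001000000000000000000000000000) := T_24 (nat_lit 141) (nat_lit 193) (nat_lit 7) (nat_lit 5) (nat_lit 8) L64006 (by decide +kernel)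
theorem L64008 : W_24 (nat_lit 6) (nat_lit 0x40001000780014001000080000000000000000000000000000000) (nat_lit 0x0) (nat_lit 0x1a000000000000700078001000000000000000000000000000) := T_24 (nat_lit 195) (nat_lit 196) (nat_lit 3) (nat_lit 5) (nat_lit 10) L64007 (by decide +kernel)
theorem L64009 : W_24 (nat_lit 7) (nat_lit 0x40000000780014001000080000000000000000000000000000000) (nat_lit 0x0) (nat_lit 0x1b800000000000700078001000000000000000000000000000) := T_24 (nat_lit 192) (nat_lit 191) (nat_lit 1) (nat_lit 8) (nat_lit 10) L64008 (by decide +kernel)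
theorem L64010 : W_24 (nat_lit 8) (nat_lit 0x40000000380014001000080000000000000000000000000000000) (nat_lit 0x0) (nat_lit 0x1b800400002000700078001000000000000000000000000000) := T_24 (nat_lit 178) (nat_lit 157) (nat_lit 0) (nat_lit 8) (nat_lit 10) L64009 (by decide +kernel)
theorem L64011 : W_24 (nat_lit 7) (nat_lit 0x40001000780010001000080000000000000000000000000000000) (nat_lit 0x0) (nat_lit 0x3a001b001c000000006000000000000000000000000000000000000000) := T_24 (nat_lit 158) (nat_lit 157) (nat_lit 0) (nat_lit 8) (nat_lit 10) L63991 (by decide +kernel)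
theorem L64012 : W_24 (nat_lit 8) (nat_lit 0x40000000780010001000080000000000000000000000000000000) (nat_lit 0x0) (nat_lit 0x3a001b001d800000006000000000000000000000000000000000000000) := T_24 (nat_lit 192) (nat_lit 191) (nat_lit 1) (nat_lit 8) (nat_lit 10) L64011 (by decide +kernel)
theorem L64013 : W_24 (nat_lit 2) (nat_lit 0x40003e0012001000080000000000000000000000000000000) (nat_lit 0x0) (nat_lit 0xe00000000000000000000000000000000000000000000000) := D_24 (nat_lit 190) (nat_lit 189) (nat_lit 191) (nat_lit 1) (nat_lit 6) (nat_lit 10) (nat_lit 1) (nat_lit 7) (nat_lit 10) (by decide +kernel)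
theorem L64014 : W_24 (nat_lit 3) (nat_lit 0x40003c0012001000080000000000000000000000000000000) (nat_lit 0x0) (nat_lit 0x2e00020000000000000000000000000000000000000000000) := T_24 (nat_lit 173) (nat_lit 193) (nat_lit 3) (nat_lit 3) (nat_lit 10) L64013 (by decide +kernel)
theorem L64015 : W_24 (nat_lit 4) (nat_lit 0x3c0012001000080000000000000000000000000000000) (nat_lit 0x0) (nat_lit 0xee00020000000000000000000000000000000000000000000) := T_24 (nat_lit 194) (nat_lit 195) (nat_lit 3) (nat_lit 4) (nat_lit 10) L64014 (by decide +kernel)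
theorem L64016 : W_24 (nat_lit 5) (nat_lit 0x3c0010001000080000000000000000000000000000000) (nat_lit 0x0) (nat_lit 0xee00020003000000000000000000000000000000000000000) := T_24 (nat_lit 157) (nat_lit 156) (nat_lit 0) (nat_lit 7) (nat_lit 10) L64015 (by decide +kernel)
theorem L64017 : W_24 (nat_lit 2) (nat_lit 0x48007c0010001000080000000000000000000000000000000) (nat_lit 0x0) (nat_lit 0x7000000000000000000000000000000000000000) := D_24 (nat_lit 157) (nat_lit 158) (nat_lit 156) (nat_lit 0) (nat_lit 8) (nat_lit 10) (nat_lit 0) (nat_lit 7) (nat_lit 10) (by decide +kernel)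
theorem L64018 : W_24 (nat_lit 3) (nat_lit 0x48003c0010001000080000000000000000000000000000000) (nat_lit 0x0) (nat_lit 0x1000400007000000000000000000000000000000000000000) := T_24 (nat_lit 178) (nat_lit 192) (nat_lit 1) (nat_lit 8) (nat_lit 10) L64017 (by decide +kernel)
theorem L64019 : W_24 (nat_lit 4) (nat_lit 0x8003c0010001000080000000000000000000000000000000) (nat_lit 0x0) (nat_lit 0xd000400007000000000000000000000000000000000000000) := T_24 (nat_lit 194) (nat_lit 195) (nat_lit 3) (nat_lit 4) (nat_lit 10) L64018 (by decide +kernel)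
theorem L64020 : W_24 (nat_lit 5) (nat_lit 0x3c0010001000080000000000000000000000000000000) (nat_lit 0x0) (nat_lit 0xdc00400007000000000000000000000000000000000000000) := T_24 (nat_lit 191) (nat_lit 190) (nat_lit 1) (nat_lit 7) (nat_lit 10) L64019 (by decide +kernel)
theorem L64023 : W_24 (nat_lit 3) (nat_lit 0x380014001200090000000000000000000000000000000) (nat_lit 0x0) (nat_lit 0x800040003000000000000800000000000000000000000000) := T_24 (nat_lit 174) (nat_lit 191) (nat_lit 5) (nat_lit 5) (nat_lit 7) L54621 (by decide +kernel)
theorem L64024 : W_24 (nat_lit 4) (nat_lit 0x380014001200080000000000000000000000000000000) (nat_lit 0x0) (nat_lit 0x2800040003000000010000800000000000000000000000000) := T_24 (nat_lit 124) (nat_lit 193) (nat_lit 7) (nat_lit 5) (nat_lit 7) L64023 (by decide +kernel)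
theorem L64025 : W_24 (nat_lit 5) (nat_lit 0x2000140012000b0000000000000000000000000000000) (nat_lit 0x0) (nat_lit 0x10000800000001c0048001400000000000000000000000000) := T_24 (nat_lit 140) (nat_lit 126) (nat_lit 1) (nat_lit 8) (nat_lit 7) L40463 (by decide +kernel)
theorem L64026 : W_24 (nat_lit 4) (nat_lit 0xf000280010001000080000000000000000000000000000000) (nat_lit 0x0) (nat_lit 0x100008000f0010000000000000000000000000000000000000000000000000) := T_24 (nat_lit 209) (nat_lit 208) (nat_lit 1) (nat_lit 8) (nat_lit 11) L5305 (by decide +kernel)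
theorem L64027 : W_24 (nat_lit 5) (nat_lit 0x7000280010001000080000000000000000000000000000000) (nat_lit 0x0) (nat_lit 0x100008000f0018000040000000000000000000000000000000000000000000) := T_24 (nat_lit 195) (nat_lit 174) (nat_lit 0) (nat_lit 8) (nat_lit 11) L64026 (by decide +kernel)
theorem L64028 : W_24 (nat_lit 2) (nat_lit 0xf800280010001000080000000000000000000000000000000) (nat_lit 0x0) (nat_lit 0x38000000000000000000000000000000000000000000000000000) := D_24 (nat_lit 208) (nat_lit 209) (nat_lit 207) (nat_lit 1) (nat_lit 8) (nat_lit 11) (nat_lit 1) (nat_lit 7) (nat_lit 11) (by decide +kernel)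
theorem L64029 : W_24 (nat_lit 3) (nat_lit 0xf000280010001000080000000000000000000000000000000) (nat_lit 0x0) (nat_lit 0x38000800400000000000000000000000000000000000000000000) := T_24 (nat_lit 191) (nat_lit 178) (nat_lit 2) (nat_lit 4) (nat_lit 11) L64028 (by decide +kernel)
theorem L64030 : W_24 (nat_lit 3) (nat_lit 0x3000280014001200080000000000000000000000000000000) (nat_lit 0x0) (nat_lit 0x10000c00100000000000010000000000000000000000000000000) := T_24 (nat_lit 191) (nat_lit 208) (nat_lit 5) (nat_lit 5) (nat_lit 8) L51576 (by decide +kernel)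
theorem L64031 : W_24 (nat_lit 2) (nat_lit 0x60001000280014001200080000000000000000000000000000000) (nat_lit 0x0) (nat_lit 0x200010000800000000000000000000000000000000000000000000000) := D_24 (nat_lit 208) (nat_lit 225) (nat_lit 191) (nat_lit 5) (nat_lit 5) (nat_lit 9) (nat_lit 5) (nat_lit 5) (nat_lit 8) (by decide +kernel)
theorem L64032 : W_24 (nat_lit 3) (nat_lit 0x60001000280014001000080000000000000000000000000000000) (nat_lit 0x0) (nat_lit 0x200010002800000000000200000000000000000000000000000000000) := T_24 (nat_lit 141) (nat_lit 193) (nat_lit 7) (nat_lit 5) (nat_lit 8) L64031 (by decide +kernel)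
theorem L64033 : W_24 (nat_lit 2) (nat_lit 0x7000180028001c001000080000000000000000000000000000000) (nat_lit 0x0) (nat_lit 0x80000600000000000000000000000000000000000000000000000) := D_24 (nat_lit 190) (nat_lit 189) (nat_lit 211) (nat_lit 3) (nat_lit 2) (nat_lit 11) (nat_lit 0) (nat_lit 7) (nat_lit 12) (by decide +kernel)
theorem L64034 : W_24 (nat_lit 3) (nat_lit 0x7000100028001c001000080000000000000000000000000000000) (nat_lit 0x0) (nat_lit 0x80000e00000000000200000000000000000000000000000000000) := T_24 (nat_lit 191) (nat_lit 141) (nat_lit 5) (nat_lit 5) (nat_lit 8) L64033 (by decide +kernel)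
theorem L64035 : W_24 (nat_lit 4) (nat_lit 0x6000100028001c001000080000000000000000000000000000000) (nat_lit 0x0) (nat_lit 0x200090000e00000000000200000000000000000000000000000000000) := T_24 (nat_lit 208) (nat_lit 225) (nat_lit 5) (nat_lit 5) (nat_lit 9) L64034 (by decide +kernel)
theorem L64036 : W_24 (nat_lit 5) (nat_lit 0x60001000280014001000080000000000000000000000000000000) (nat_lit 0x0) (nat_lit 0x200090000e00000008000600000000000000000000000000000000000) := T_24 (nat_lit 159) (nat_lit 142) (nat_lit 6) (nat_lit 5) (nat_lit 12) L64035 (by decide +kernel)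
theorem L64037 : W_24 (nat_lit 2) (nat_lit 0x70001000280014001200080000000000000000000000000000000) (nat_lit 0x0) (nat_lit 0x2000100008000000000000000000000000000000) := D_24 (nat_lit 140) (nat_lit 123) (nat_lit 157) (nat_lit 4) (nat_lit 5) (nat_lit 11) (nat_lit 4) (nat_lit 5) (nat_lit 12) (by decide +kernel)
theorem L64038 : W_24 (nat_lit 3) (nat_lit 0x70001000280014001000080000000000000000000000000000000) (nat_lit 0x0) (nat_lit 0x800000002000300008000000000000000000000000000000) := T_24 (nat_lit 141) (nat_lit 191) (nat_lit 5) (nat_lit 5) (nat_lit 8) L64037 (by decide +kernel)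
theorem L64039 : W_24 (nat_lit 4) (nat_lit 0x60001000280014001000080000000000000000000000000000000) (nat_lit 0x0) (nat_lit 0x200010000800000002000300008000000000000000000000000000000) := T_24 (nat_lit 208) (nat_lit 225) (nat_lit 5) (nat_lit 5) (nat_lit 9) L64038 (by decide +kernel)
theorem L64043 : W_24 (nat_lit 2) (nat_lit 0x8003c0016001000080000000000000000000000000000000) (nat_lit 0x0) (nat_lit 0x10000000000000000200010000000000000000000000000000000) := D_24 (nat_lit 141) (nat_lit 124) (nat_lit 208) (nat_lit 5) (nat_lit 5) (nat_lit 7) (nat_lit 6) (nat_lit 4) (nat_lit 12) (by decide +kernel)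
theorem L64044 : W_24 (nat_lit 3) (nat_lit 0x3c0016001000080000000000000000000000000000000) (nat_lit 0x0) (nat_lit 0x10000c00000000000200010000000000000000000000000000000) := T_24 (nat_lit 191) (nat_lit 190) (nat_lit 1) (nat_lit 7) (nat_lit 10) L64043 (by decide +kernel)
theorem L64045 : W_24 (nat_lit 4) (nat_lit 0x2c0016001000080000000000000000000000000000000) (nat_lit 0x0) (nat_lit 0x10000c00100001000200010000000000000000000000000000000) := T_24 (nat_lit 176) (nat_lit 156) (nat_lit 0) (nat_lit 7) (nat_lit 10) L64044 (by decide +kernel)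
theorem L64046 : W_24 (nat_lit 2) (nat_lit 0x28001e001080080000000000000000000000000000000) (nat_lit 0x0) (nat_lit 0x100001000040000000000000000000000000000000000) := D_24 (nat_lit 156) (nat_lit 176) (nat_lit 138) (nat_lit 3) (nat_lit 3) (nat_lit 9) (nat_lit 0) (nat_lit 6) (nat_lit 9) (by decide +kernel)
theorem L64047 : W_24 (nat_lit 3) (nat_lit 0x28001e001000080000000000000000000000000000000) (nat_lit 0x0) (nat_lit 0x1000010001c0000000000000000000000000000000000) := T_24 (nat_lit 139) (nat_lit 140) (nat_lit 0) (nat_lit 7) (nat_lit 9) L64046 (by decide +kernel)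
theorem L64048 : W_24 (nat_lit 2) (nat_lit 0x29001f001040080000000000000000000000000000000) (nat_lit 0x0) (nat_lit 0x8000800020000000000000000000000000000000000) := D_24 (nat_lit 155) (nat_lit 171) (nat_lit 137) (nat_lit 1) (nat_lit 5) (nat_lit 9) (nat_lit 0) (nat_lit 5) (nat_lit 9) (by decide +kernel)
theorem L64049 : W_24 (nat_lit 3) (nat_lit 0x29001f001000080000000000000000000000000000000) (nat_lit 0x0) (nat_lit 0x80008000e0000000000000000000000000000000000) := T_24 (nat_lit 138) (nat_lit 139) (nat_lit 0) (nat_lit 6) (nat_lit 9) L64048 (by decide +kernel)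
theorem L64050 : W_24 (nat_lit 4) (nat_lit 0x28001f001000080000000000000000000000000000000) (nat_lit 0x0) (nat_lit 0x380008000e0000000000000000000000000000000000) := T_24 (nat_lit 172) (nat_lit 173) (nat_lit 1) (nat_lit 6) (nat_lit 9) L64049 (by decide +kernel)
theorem L64051 : W_24 (nat_lit 5) (nat_lit 0x28001e001000080000000000000000000000000000000) (nat_lit 0x0) (nat_lit 0x1380018000e0000000000000000000000000000000000) := T_24 (nat_lit 156) (nat_lit 176) (nat_lit 3) (nat_lit 3) (nat_lit 9) L64050 (by decide +kernel)
theorem L64052 : W_24 (nat_lit 2) (nat_lit 0x29001f801340080000000000000000000000000000000) (nat_lit 0x0) (nat_lit 0x20001000000000000000008000000000000000000000000000000) := D_24 (nat_lit 192) (nat_lit 123) (nat_lit 209) (nat_lit 4) (nat_lit 5) (nat_lit 11) (nat_lit 4) (nat_lit 5) (nat_lit 12) (by decide +kernel)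
theorem L64053 : W_24 (nat_lit 3) (nat_lit 0x29001f801240080000000000000000000000000000000) (nat_lit 0x0) (nat_lit 0x20001000000000400100008000000000000000000000000000000) := T_24 (nat_lit 140) (nat_lit 154) (nat_lit 2) (nat_lit 1) (nat_lit 9) L64052 (by decide +kernel)
theorem L64054 : W_24 (nat_lit 4) (nat_lit 0x29001f801040080000000000000000000000000000000) (nat_lit 0x0) (nat_lit 0x20001000000000400700008000000000000000000000000000000) := T_24 (nat_lit 141) (nat_lit 142) (nat_lit 2) (nat_lit 2) (nat_lit 9) L64053 (by decide +kernel)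
theorem L64055 : W_24 (nat_lit 5) (nat_lit 0x29001f801000080000000000000000000000000000000) (nat_lit 0x0) (nat_lit 0x20001000000000400760008000000000000000000000000000000) := T_24 (nat_lit 138) (nat_lit 137) (nat_lit 0) (nat_lit 5) (nat_lit 9) L64054 (by decide +kernel)
theorem L64056 : W_24 (nat_lit 6) (nat_lit 0x29001f001000080000000000000000000000000000000) (nat_lit 0x0) (nat_lit 0x20001000008000c00760008000000000000000000000000000000) := T_24 (nat_lit 155) (nat_lit 171) (nat_lit 1) (nat_lit 5) (nat_lit 9) L64055 (by decide +kernel)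
theorem L64057 : W_24 (nat_lit 7) (nat_lit 0x28001f001000080000000000000000000000000000000) (nat_lit 0x0) (nat_lit 0x20001000038000c00760008000000000000000000000000000000) := T_24 (nat_lit 172) (nat_lit 173) (nat_lit 1) (nat_lit 6) (nat_lit 9) L64056 (by decide +kernel)
theorem L64058 : W_24 (nat_lit 8) (nat_lit 0x28001e001000080000000000000000000000000000000) (nat_lit 0x0) (nat_lit 0x20001000138001c00760008000000000000000000000000000000) := T_24 (nat_lit 156) (nat_lit 176) (nat_lit 3) (nat_lit 3) (nat_lit 9) L64057 (by decide +kernel)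
theorem L64059 : W_24 (nat_lit 9) (nat_lit 0x280016001000080000000000000000000000000000000) (nat_lit 0x0) (nat_lit 0x20001000138009c007e0008000400000000000000000000000000) := Q_24 (nat_lit 159) (C_24 L63971 (C_24 L64047 (C_24 L64051 (C_24 L64058 N_24)))) (by decide +kernel)
theorem L64060 : W_24 (nat_lit 2) (nat_lit 0x400020001000280016001000080000000000000000000000000000000) (nat_lit 0x0) (nat_lit 0x10000800040000000000000000000000000000000000000000000000000000) := D_24 (nat_lit 227) (nat_lit 210) (nat_lit 244) (nat_lit 7) (nat_lit 5) (nat_lit 9) (nat_lit 7) (nat_lit 5) (nat_lit 10) (by decide +kernel)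
theorem L64061 : W_24 (nat_lit 3) (nat_lit 0x20001000280016001000080000000000000000000000000000000) (nat_lit 0x0) (nat_lit 0x10000c00040000000040000000000000000000000000000000000000000000) := T_24 (nat_lit 226) (nat_lit 174) (nat_lit 4) (nat_lit 5) (nat_lit 13) L64060 (by decide +kernel)
theorem L64064 : W_24 (nat_lit 2) (nat_lit 0x30001000280016001200080000000000000000000000000000000) (nat_lit 0x0) (nat_lit 0x800040002000000000000000000000000000000000000000000000000) := D_24 (nat_lit 210) (nat_lit 227) (nat_lit 193) (nat_lit 7) (nat_lit 5) (nat_lit 9) (nat_lit 7) (nat_lit 5) (nat_lit 8) (by decide +kernel)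
theorem L64065 : W_24 (nat_lit 3) (nat_lit 0x30001000280016001000080000000000000000000000000000000) (nat_lit 0x0) (nat_lit 0x800040002800000000000200000000000000000000000000000000000) := T_24 (nat_lit 141) (nat_lit 191) (nat_lit 5) (nat_lit 5) (nat_lit 8) L64064 (by decide +kernel)
theorem L64066 : W_24 (nat_lit 4) (nat_lit 0x20001000280016001000080000000000000000000000000000000) (nat_lit 0x0) (nat_lit 0xa00050002800000000000200000000000000000000000000000000000) := T_24 (nat_lit 208) (nat_lit 225) (nat_lit 5) (nat_lit 5) (nat_lit 9) L64065 (by decide +kernel)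
theorem L64069 : W_24 (nat_lit 2) (nat_lit 0x7c0012001000080000000000000000000000000000000) (nat_lit 0x0) (nat_lit 0x1c000000000000000000000000000000000000000000000000) := D_24 (nat_lit 195) (nat_lit 194) (nat_lit 196) (nat_lit 3) (nat_lit 4) (nat_lit 10) (nat_lit 3) (nat_lit 5) (nat_lit 10) (by decide +kernel)
theorem L64070 : W_24 (nat_lit 3) (nat_lit 0x3c0012001000080000000000000000000000000000000) (nat_lit 0x0) (nat_lit 0x1c000400004000000000000000000000000000000000000000) := T_24 (nat_lit 178) (nat_lit 158) (nat_lit 0) (nat_lit 8) (nat_lit 10) L64069 (by decide +kernel)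
theorem L64071 : W_24 (nat_lit 2) (nat_lit 0x300012002f0016801200080000000000000000000000000000000) (nat_lit 0x0) (nat_lit 0x1000400020000000000000000000000000000000) := D_24 (nat_lit 142) (nat_lit 125) (nat_lit 156) (nat_lit 6) (nat_lit 5) (nat_lit 11) (nat_lit 2) (nat_lit 2) (nat_lit 9) (by decide +kernel)
theorem L64072 : W_24 (nat_lit 3) (nat_lit 0x300012002f0016801000080000000000000000000000000000000) (nat_lit 0x0) (nat_lit 0x800000001000600020000000000000000000000000000000) := T_24 (nat_lit 141) (nat_lit 191) (nat_lit 6) (nat_lit 4) (nat_lit 12) L64071 (by decide +kernel)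
theorem L64073 : W_24 (nat_lit 4) (nat_lit 0x200012002f0016801000080000000000000000000000000000000) (nat_lit 0x0) (nat_lit 0x200010000800000001000600020000000000000000000000000000000) := T_24 (nat_lit 208) (nat_lit 225) (nat_lit 5) (nat_lit 5) (nat_lit 9) L64072 (by decide +kernel)
theorem L64074 : W_24 (nat_lit 5) (nat_lit 0x12002f0016801000080000000000000000000000000000000) (nat_lit 0x0) (nat_lit 0x600030000800000001000600020000000000000000000000000000000) := T_24 (nat_lit 209) (nat_lit 226) (nat_lit 4) (nat_lit 5) (nat_lit 13) L64073 (by decide +kernel)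
theorem L64075 : W_24 (nat_lit 6) (nat_lit 0x12002f0016001000080000000000000000000000000000000) (nat_lit 0x0) (nat_lit 0x600030000800000001c00600020000000000000000000000000000000) := T_24 (nat_lit 155) (nat_lit 154) (nat_lit 0) (nat_lit 5) (nat_lit 10) L64074 (by decide +kernel)
theorem L64076 : W_24 (nat_lit 7) (nat_lit 0x2002f0016001000080000000000000000000000000000000) (nat_lit 0x0) (nat_lit 0x600030003800000001c00600020000000000000000000000000000000) := T_24 (nat_lit 192) (nat_lit 193) (nat_lit 3) (nat_lit 2) (nat_lit 10) L64075 (by decide +kernel)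
theorem L64077 : W_24 (nat_lit 8) (nat_lit 0x2f0016001000080000000000000000000000000000000) (nat_lit 0x0) (nat_lit 0x600030003b00000001c00600020000000000000000000000000000000) := T_24 (nat_lit 189) (nat_lit 188) (nat_lit 1) (nat_lit 5) (nat_lit 10) L64076 (by decide +kernel)
theorem L64078 : W_24 (nat_lit 9) (nat_lit 0x2e0016001000080000000000000000000000000000000) (nat_lit 0x0) (nat_lit 0x600030003b00018001c00600020000000000000000000000000000000) := T_24 (nat_lit 172) (nat_lit 171) (nat_lit 2) (nat_lit 1) (nat_lit 10) L64077 (by decide +kernel)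
theorem L64079 : W_24 (nat_lit 10) (nat_lit 0x2c0016001000080000000000000000000000000000000) (nat_lit 0x0) (nat_lit 0x600030003b00038009c00600020000000000000000000000000000000) := T_24 (nat_lit 173) (nat_lit 159) (nat_lit 1) (nat_lit 7) (nat_lit 9) L64078 (by decide +kernel)
theorem L64080 : W_24 (nat_lit 2) (nat_lit 0x30001000280016001200080000000000000000000000000000000) (nat_lit 0x0) (nat_lit 0x8000400020000000000000000000000000000000) := D_24 (nat_lit 142) (nat_lit 159) (nat_lit 125) (nat_lit 6) (nat_lit 5) (nat_lit 12) (nat_lit 6) (nat_lit 5) (nat_lit 11) (by decide +kernel)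
theorem L64081 : W_24 (nat_lit 3) (nat_lit 0x30001000280016001000080000000000000000000000000000000) (nat_lit 0x0) (nat_lit 0x800000008000600020000000000000000000000000000000) := T_24 (nat_lit 141) (nat_lit 191) (nat_lit 5) (nat_lit 5) (nat_lit 8) L64080 (by decide +kernel)
theorem L64082 : W_24 (nat_lit 4) (nat_lit 0x20001000280016001000080000000000000000000000000000000) (nat_lit 0x0) (nat_lit 0x200010000800000008000600020000000000000000000000000000000) := T_24 (nat_lit 208) (nat_lit 225) (nat_lit 5) (nat_lit 5) (nat_lit 9) L64081 (by decide +kernel)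
theorem L64083 : W_24 (nat_lit 2) (nat_lit 0x7000100028001e001000080000000000000000000000000000000) (nat_lit 0x0) (nat_lit 0x400000000000100001000000000000000000000000000000000000000) := D_24 (nat_lit 176) (nat_lit 156) (nat_lit 226) (nat_lit 3) (nat_lit 3) (nat_lit 9) (nat_lit 6) (nat_lit 5) (nat_lit 13) (by decide +kernel)
theorem L64084 : W_24 (nat_lit 3) (nat_lit 0x70001000280016001000080000000000000000000000000000000) (nat_lit 0x0) (nat_lit 0x400000000000100009000400000000000000000000000000000000000) := T_24 (nat_lit 159) (nat_lit 142) (nat_lit 6) (nat_lit 5) (nat_lit 12) L64083 (by decide +kernel)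
theorem L64085 : W_24 (nat_lit 4) (nat_lit 0x30001000280016001000080000000000000000000000000000000) (nat_lit 0x0) (nat_lit 0xc00040000000100009000400000000000000000000000000000000000) := T_24 (nat_lit 210) (nat_lit 227) (nat_lit 7) (nat_lit 5) (nat_lit 9) L64084 (by decide +kernel)
theorem L64086 : W_24 (nat_lit 5) (nat_lit 0x20001000280016001000080000000000000000000000000000000) (nat_lit 0x0) (nat_lit 0xe00050000000100009000400000000000000000000000000000000000) := T_24 (nat_lit 208) (nat_lit 225) (nat_lit 5) (nat_lit 5) (nat_lit 9) L64085 (by decide +kernel)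
theorem L64087 : W_24 (nat_lit 2) (nat_lit 0x12000f000280010001000080000000000000000000000000000000) (nat_lit 0x0) (nat_lit 0x2000080000800000000000000000000000000000000000000000000000) := D_24 (nat_lit 211) (nat_lit 191) (nat_lit 229) (nat_lit 3) (nat_lit 4) (nat_lit 11) (nat_lit 7) (nat_lit 7) (nat_lit 9) (by decide +kernel)
theorem L64088 : W_24 (nat_lit 3) (nat_lit 0x2000f000280010001000080000000000000000000000000000000) (nat_lit 0x0) (nat_lit 0x2000380000800000000000000000000000000000000000000000000000) := T_24 (nat_lit 212) (nat_lit 213) (nat_lit 3) (nat_lit 5) (nat_lit 11) L64087 (by decide +kernel)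
theorem L64089 : W_24 (nat_lit 4) (nat_lit 0xf000280010001000080000000000000000000000000000000) (nat_lit 0x0) (nat_lit 0x20003b0000800000000000000000000000000000000000000000000000) := T_24 (nat_lit 209) (nat_lit 208) (nat_lit 1) (nat_lit 8) (nat_lit 11) L64088 (by decide +kernel)
theorem L64090 : W_24 (nat_lit 5) (nat_lit 0x200000000b000780014001000080000000000000000000000000000000) (nat_lit 0x0) (nat_lit 0x20000000000008000780038000000000000000000000000000000) := T_24 (nat_lit 141) (nat_lit 124) (nat_lit 7) (nat_lit 5) (nat_lit 7) L63986 (by decide +kernel)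
theorem L64091 : W_24 (nat_lit 4) (nat_lit 0x200014001600080000000000000000000000000000000) (nat_lit 0x0) (nat_lit 0x90015c000000000000000000000000000000) := T_24 (nat_lit 143) (nat_lit 128) (nat_lit 2) (nat_lit 5) (nat_lit 8) L63427 (by decide +kernel)
theorem L64092 : W_24 (nat_lit 2) (nat_lit 0x2000140016000a0000000000000000000000000000000) (nat_lit 0x0) (nat_lit 0x8000000000001000080000000000000000000000) := D_24 (nat_lit 108) (nat_lit 159) (nat_lit 91) (nat_lit 7) (nat_lit 6) (nat_lit 6) (nat_lit 5) (nat_lit 6) (nat_lit 5) (by decide +kernel)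
theorem L64093 : W_24 (nat_lit 2) (nat_lit 0x3c0014001e000b0000000000000000000000000000000) (nat_lit 0x0) (nat_lit 0x20008000000000000800000000000000000000000000) := D_24 (nat_lit 159) (nat_lit 107) (nat_lit 173) (nat_lit 7) (nat_lit 5) (nat_lit 6) (nat_lit 2) (nat_lit 3) (nat_lit 10) (by decide +kernel)
theorem L64094 : W_24 (nat_lit 3) (nat_lit 0x2c0014001e000b0000000000000000000000000000000) (nat_lit 0x0) (nat_lit 0x2000120008000000000000800000000000000000000000000) := T_24 (nat_lit 176) (nat_lit 193) (nat_lit 7) (nat_lit 5) (nat_lit 7) L64093 (by decide +kernel)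
theorem L64095 : W_24 (nat_lit 4) (nat_lit 0x280014001e000b0000000000000000000000000000000) (nat_lit 0x0) (nat_lit 0x2800160008000000000000800000000000000000000000000) := T_24 (nat_lit 174) (nat_lit 191) (nat_lit 5) (nat_lit 5) (nat_lit 7) L64094 (by decide +kernel)
theorem L64096 : W_24 (nat_lit 5) (nat_lit 0x200014001e000b0000000000000000000000000000000) (nat_lit 0x0) (nat_lit 0x38001e0008000000000000800000000000000000000000000) := T_24 (nat_lit 175) (nat_lit 192) (nat_lit 6) (nat_lit 5) (nat_lit 11) L64095 (by decide +kernel)
theorem L64097 : W_24 (nat_lit 6) (nat_lit 0x200014001e000a0000000000000000000000000000000) (nat_lit 0x0) (nat_lit 0x38001e0008000000018000800000000000000000000000000) := T_24 (nat_lit 124) (nat_lit 123) (nat_lit 0) (nat_lit 8) (nat_lit 8) L64096 (by decide +kernel)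
theorem L64098 : W_24 (nat_lit 7) (nat_lit 0x2000140016000a0000000000000000000000000000000) (nat_lit 0x0) (nat_lit 0x38001e0008000800118000800000000000000000000000000) := T_24 (nat_lit 143) (nat_lit 128) (nat_lit 2) (nat_lit 5) (nat_lit 8) L64097 (by decide +kernel)
theorem L64099 : W_24 (nat_lit 8) (nat_lit 0x200014001600080000000000000000000000000000000) (nat_lit 0x0) (nat_lit 0x38001e0008000800138001800080000000000000000000000) := Q_24 (nat_lit 125) (C_24 L63951 (C_24 L64092 (C_24 L64098 N_24))) (by decide +kernel)
theorem L64100 : W_24 (nat_lit 2) (nat_lit 0x20001500178008c000000000000000000000000000000) (nat_lit 0x0) (nat_lit 0x20000000000000000400020000000000000000000000) := D_24 (nat_lit 106) (nat_lit 89) (nat_lit 173) (nat_lit 7) (nat_lit 4) (nat_lit 5) (nat_lit 6) (nat_lit 3) (nat_lit 10) (by decide +kernel)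
theorem L64101 : W_24 (nat_lit 3) (nat_lit 0x200015001780084000000000000000000000000000000) (nat_lit 0x0) (nat_lit 0x20000000800008000400020000000000000000000000) := T_24 (nat_lit 123) (nat_lit 143) (nat_lit 0) (nat_lit 7) (nat_lit 8) L64100 (by decide +kernel)
theorem L64102 : W_24 (nat_lit 4) (nat_lit 0x200015001780080000000000000000000000000000000) (nat_lit 0x0) (nat_lit 0x2000000080000e000400020000000000000000000000) := T_24 (nat_lit 122) (nat_lit 121) (nat_lit 0) (nat_lit 6) (nat_lit 8) L64101 (by decide +kernel)
theorem L64103 : W_24 (nat_lit 5) (nat_lit 0x200014001780080000000000000000000000000000000) (nat_lit 0x0) (nat_lit 0x2000180080000e000400020000000000000000000000) := T_24 (nat_lit 156) (nat_lit 155) (nat_lit 1) (nat_lit 6) (nat_lit 8) L64102 (by decide +kernel)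
theorem L64104 : W_24 (nat_lit 6) (nat_lit 0x200014001700080000000000000000000000000000000) (nat_lit 0x0) (nat_lit 0x2000980088000e000400020000000000000000000000) := T_24 (nat_lit 139) (nat_lit 159) (nat_lit 3) (nat_lit 3) (nat_lit 8) L64103 (by decide +kernel)
theorem L64105 : W_24 (nat_lit 2) (nat_lit 0x2000140017c00a0000000000000000000000000000000) (nat_lit 0x0) (nat_lit 0x1c00000000000000000000000000000000000000) := D_24 (nat_lit 155) (nat_lit 154) (nat_lit 156) (nat_lit 1) (nat_lit 5) (nat_lit 8) (nat_lit 1) (nat_lit 6) (nat_lit 8) (by decide +kernel)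
theorem L64106 : W_24 (nat_lit 3) (nat_lit 0x2000140017800a0000000000000000000000000000000) (nat_lit 0x0) (nat_lit 0x1c00040010000000000000000000000000000000) := T_24 (nat_lit 138) (nat_lit 124) (nat_lit 2) (nat_lit 2) (nat_lit 8) L64105 (by decide +kernel)
theorem L64107 : W_24 (nat_lit 4) (nat_lit 0x200014001780080000000000000000000000000000000) (nat_lit 0x0) (nat_lit 0x1c00040070000000000000000000000000000000) := T_24 (nat_lit 125) (nat_lit 126) (nat_lit 2) (nat_lit 3) (nat_lit 8) L64106 (by decide +kernel)
theorem L64108 : W_24 (nat_lit 5) (nat_lit 0x200014001700080000000000000000000000000000000) (nat_lit 0x0) (nat_lit 0x9c000c0070000000000000000000000000000000) := T_24 (nat_lit 139) (nat_lit 159) (nat_lit 3) (nat_lit 3) (nat_lit 8) L64107 (by decide +kernel)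
theorem L64109 : W_24 (nat_lit 3) (nat_lit 0x200014001700080000000000000000000000000000000) (nat_lit 0x0) (nat_lit 0x80005c000000000000000000000000000000) := T_24 (nat_lit 143) (nat_lit 126) (nat_lit 2) (nat_lit 4) (nat_lit 8) L63426 (by decide +kernel)
theorem L64110 : W_24 (nat_lit 7) (nat_lit 0x200014001600080000000000000000000000000000000) (nat_lit 0x0) (nat_lit 0x20009c009c007e000400020000000000000000000000) := Q_24 (nat_lit 140) (C_24 L64104 (C_24 L64108 (C_24 L64109 N_24))) (by decide +kernel)
theorem L64111 : W_24 (nat_lit 2) (nat_lit 0x2000140016000e0000000000000000000000000000000) (nat_lit 0x0) (nat_lit 0x180010000000000000000000000000000000) := D_24 (nat_lit 140) (nat_lit 124) (nat_lit 139) (nat_lit 1) (nat_lit 8) (nat_lit 7) (nat_lit 2) (nat_lit 3) (nat_lit 8) (by decide +kernel)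
theorem L64112 : W_24 (nat_lit 3) (nat_lit 0x2000140016000a0000000000000000000000000000000) (nat_lit 0x0) (nat_lit 0x180150000000000000000000000000000000) := T_24 (nat_lit 126) (nat_lit 128) (nat_lit 1) (nat_lit 9) (nat_lit 7) L64111 (by decide +kernel)
theorem L64113 : W_24 (nat_lit 4) (nat_lit 0x200014001600080000000000000000000000000000000) (nat_lit 0x0) (nat_lit 0x1000080008000180170001000080000000000000000000000) := Q_24 (nat_lit 125) (C_24 L64092 (C_24 L63951 (C_24 L64112 N_24))) (by decide +kernel)
theorem L64114 : W_24 (nat_lit 2) (nat_lit 0x200014001f00084000000000000000000000000000000) (nat_lit 0x0) (nat_lit 0x8000080002000000000000000000000000000000) := D_24 (nat_lit 139) (nat_lit 159) (nat_lit 121) (nat_lit 3) (nat_lit 3) (nat_lit 8) (nat_lit 0) (nat_lit 6) (nat_lit 8) (by decide +kernel)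
theorem L64115 : W_24 (nat_lit 3) (nat_lit 0x200014001f00080000000000000000000000000000000) (nat_lit 0x0) (nat_lit 0x800008000e000000000000000000000000000000) := T_24 (nat_lit 122) (nat_lit 123) (nat_lit 0) (nat_lit 7) (nat_lit 8) L64114 (by decide +kernel)
theorem L64116 : W_24 (nat_lit 4) (nat_lit 0x200014001e00080000000000000000000000000000000) (nat_lit 0x0) (nat_lit 0x800018004e000000000000000000000000000000) := T_24 (nat_lit 140) (nat_lit 126) (nat_lit 2) (nat_lit 4) (nat_lit 8) L64115 (by decide +kernel)
theorem L64117 : W_24 (nat_lit 5) (nat_lit 0x200014001600080000000000000000000000000000000) (nat_lit 0x0) (nat_lit 0x800098014e000000000000000000000000000000) := T_24 (nat_lit 143) (nat_lit 128) (nat_lit 2) (nat_lit 5) (nat_lit 8) L64116 (by decide +kernel)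
theorem L64118 : W_24 (nat_lit 9) (nat_lit 0x200014001200080000000000000000000000000000000) (nat_lit 0x0) (nat_lit 0x38001e0009c00dc017e001c000a0000000000000000000000) := Q_24 (nat_lit 142) (C_24 L64091 (C_24 L64099 (C_24 L64110 (C_24 L64113 (C_24 L64117 N_24))))) (by decide +kernel)
theorem L64119 : W_24 (nat_lit 2) (nat_lit 0x200014001600080000000000000000000000000000000) (nat_lit 0x0) (nat_lit 0x2000800100000000000000000000000000000000) := D_24 (nat_lit 143) (nat_lit 157) (nat_lit 128) (nat_lit 1) (nat_lit 8) (nat_lit 8) (nat_lit 2) (nat_lit 5) (nat_lit 8) (by decide +kernel)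
theorem L64120 : W_24 (nat_lit 8) (nat_lit 0x200014001200080000000000000000000000000000000) (nat_lit 0x0) (nat_lit 0x10000a000bc00dc017e0014000a0000000000000000000000) := Q_24 (nat_lit 142) (C_24 L64091 (C_24 L64117 (C_24 L64119 (C_24 L64110 (C_24 L64113 N_24))))) (by decide +kernel)
theorem L64121 : W_24 (nat_lit 8) (nat_lit 0x200014001200090000000000000000000000000000000) (nat_lit 0x0) (nat_lit 0xa000700038005c0002000500028001c00020000000000000000000000) := Q_24 (nat_lit 175) (C_24 L63659 (C_24 L63656 (C_24 L62945 (C_24 L62929 (C_24 L63628 N_24))))) (by decide +kernel)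
theorem L64126 : W_24 (nat_lit 6) (nat_lit 0x200014001200090000000000000000000000000000000) (nat_lit 0x0) (nat_lit 0x500038005c0002000d00008000c00020000000000000000000000) := Q_24 (nat_lit 175) (C_24 L63659 (C_24 L62898 (C_24 L62945 (C_24 L64125 (C_24 L63628 N_24))))) (by decide +kernel)
theorem L64127 : W_24 (nat_lit 2) (nat_lit 0x700016001a000d0000c00040006000100000000000000) (nat_lit 0x0) (nat_lit 0x1000080004000000000) := D_24 (nat_lit 55) (nat_lit 38) (nat_lit 72) (nat_lit 4) (nat_lit 5) (nat_lit 6) (nat_lit 4) (nat_lit 5) (nat_lit 7) (by decide +kernel)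
theorem L64128 : W_24 (nat_lit 3) (nat_lit 0x700016001a000d0000c00040006000000000000000000) (nat_lit 0x0) (nat_lit 0x8000000000001000180004000000000) := T_24 (nat_lit 56) (nat_lit 123) (nat_lit 5) (nat_lit 5) (nat_lit 3) L64127 (by decide +kernel)
theorem L64129 : W_24 (nat_lit 4) (nat_lit 0x700016001a000d0000c00040004000000000000000000) (nat_lit 0x0) (nat_lit 0x8000000000003000380004000000000) := T_24 (nat_lit 73) (nat_lit 57) (nat_lit 6) (nat_lit 5) (nat_lit 7) L64128 (by decide +kernel)
theorem L64130 : W_24 (nat_lit 5) (nat_lit 0x700016001a000d0000c00040000000000000000000000) (nat_lit 0x0) (nat_lit 0x8000000080007000380004000000000) := T_24 (nat_lit 74) (nat_lit 91) (nat_lit 6) (nat_lit 5) (nat_lit 8) L64129 (by decide +kernel)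
theorem L64131 : W_24 (nat_lit 6) (nat_lit 0x600016001a000d0000c00040000000000000000000000) (nat_lit 0x0) (nat_lit 0x2000100000000000008000000080007000380004000000000) := T_24 (nat_lit 176) (nat_lit 193) (nat_lit 5) (nat_lit 7) (nat_lit 7) L64130 (by decide +kernel)
theorem L64132 : W_24 (nat_lit 7) (nat_lit 0x200016001a000d0000c00040000000000000000000000) (nat_lit 0x0) (nat_lit 0xa000500000000000008000000080007000380004000000000) := T_24 (nat_lit 178) (nat_lit 195) (nat_lit 7) (nat_lit 7) (nat_lit 7) L64131 (by decide +kernel)
theorem L64133 : W_24 (nat_lit 8) (nat_lit 0x2000160012000d0000c00040000000000000000000000) (nat_lit 0x0) (nat_lit 0xa000500000000c00008000000080007000380004000000000) := T_24 (nat_lit 143) (nat_lit 142) (nat_lit 1) (nat_lit 8) (nat_lit 8) L64132 (by decide +kernel)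
theorem L64134 : W_24 (nat_lit 9) (nat_lit 0x2000160012000d0000c00000000000000000000000000) (nat_lit 0x0) (nat_lit 0xa000500000000d000080000000c0007000380004000000000) := T_24 (nat_lit 90) (nat_lit 140) (nat_lit 5) (nat_lit 5) (nat_lit 5) L64133 (by decide +kernel)
theorem L64135 : W_24 (nat_lit 10) (nat_lit 0x2000140012000d0000c00000000000000000000000000) (nat_lit 0x0) (nat_lit 0xa000540002000d000080000000c0007000380004000000000) := T_24 (nat_lit 157) (nat_lit 174) (nat_lit 5) (nat_lit 5) (nat_lit 6) L64134 (by decide +kernel)
theorem L64136 : W_24 (nat_lit 11) (nat_lit 0x200014001200090000c00000000000000000000000000) (nat_lit 0x0) (nat_lit 0xa000540002000d000680000000c0007000380004000000000) := T_24 (nat_lit 126) (nat_lit 125) (nat_lit 0) (nat_lit 8) (nat_lit 7) L64135 (by decide +kernel)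
theorem L64137 : W_24 (nat_lit 12) (nat_lit 0x200014001200090000800000000000000000000000000) (nat_lit 0x0) (nat_lit 0xa000540002000d000680004000e0007000380004000000000) := T_24 (nat_lit 106) (nat_lit 89) (nat_lit 4) (nat_lit 5) (nat_lit 9) L64136 (by decide +kernel)
theorem L64138 : W_24 (nat_lit 4) (nat_lit 0x200014001200090000800000000000000000000000000) (nat_lit 0x0) (nat_lit 0x40002000100000000400060001000000000000000000) := T_24 (nat_lit 157) (nat_lit 174) (nat_lit 5) (nat_lit 5) (nat_lit 6) L63623 (by decide +kernel)
theorem L64139 : W_24 (nat_lit 13) (nat_lit 0x200014001200090000000000000000000000000000000) (nat_lit 0x0) (nat_lit 0xa000540002000d00068003c000e0007000380004000000000) := Q_24 (nat_lit 107) (C_24 L63652 (C_24 L63640 (C_24 L64137 (C_24 L64138 N_24)))) (by decide +kernel)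
theorem L64140 : W_24 (nat_lit 6) (nat_lit 0x2800140012000b0000000000000000000000000000000) (nat_lit 0x0) (nat_lit 0xa00070003800000000000100008000400000000000000000000000000) := T_24 (nat_lit 123) (nat_lit 106) (nat_lit 4) (nat_lit 5) (nat_lit 10) L63654 (by decide +kernel)
theorem L64141 : W_24 (nat_lit 7) (nat_lit 0x2000140012000b0000000000000000000000000000000) (nat_lit 0x0) (nat_lit 0xa00070003800080000000100008001400000000000000000000000000) := T_24 (nat_lit 175) (nat_lit 108) (nat_lit 6) (nat_lit 5) (nat_lit 10) L64140 (by decide +kernel)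
theorem L64142 : W_24 (nat_lit 4) (nat_lit 0x2000140012000b0000000000000000000000000000000) (nat_lit 0x0) (nat_lit 0x100140001c00080000000000000000000000) := T_24 (nat_lit 126) (nat_lit 140) (nat_lit 1) (nat_lit 8) (nat_lit 7) L63701 (by decide +kernel)
theorem L64143 : W_24 (nat_lit 4) (nat_lit 0x2000140012000b0000000000000000000000000000000) (nat_lit 0x0) (nat_lit 0x900048000e00000000000000000000000000) := T_24 (nat_lit 126) (nat_lit 140) (nat_lit 1) (nat_lit 8) (nat_lit 7) L63698 (by decide +kernel)
theorem L64144 : W_24 (nat_lit 4) (nat_lit 0x2000140012000b0000000000000000000000000000000) (nat_lit 0x0) (nat_lit 0x80000000000048001c00020000000000000000000000) := T_24 (nat_lit 175) (nat_lit 108) (nat_lit 6) (nat_lit 5) (nat_lit 10) L63077 (by decide +kernel)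
theorem L64145 : W_24 (nat_lit 4) (nat_lit 0x2000140012000b0000000000000000000000000000000) (nat_lit 0x0) (nat_lit 0x1000080000000500140001000000000000000000000000000) := T_24 (nat_lit 175) (nat_lit 108) (nat_lit 6) (nat_lit 5) (nat_lit 10) L62807 (by decide +kernel)
theorem L64146 : W_24 (nat_lit 8) (nat_lit 0x200014001200090000000000000000000000000000000) (nat_lit 0x0) (nat_lit 0xa00070003800080000000dc0168001e000a0000000000000000000000) := Q_24 (nat_lit 125) (C_24 L64025 (C_24 L64141 (C_24 L64142 (C_24 L64143 (C_24 L64144 (C_24 L64145 N_24)))))) (by decide +kernel)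
theorem L64147 : W_24 (nat_lit 6) (nat_lit 0x200014001200090000000000000000000000000000000) (nat_lit 0x0) (nat_lit 0x38005c0002000500160001c00020000000000000000000000) := Q_24 (nat_lit 175) (C_24 L63628 (C_24 L63082 (C_24 L62808 N_24))) (by decide +kernel)
theorem L64148 : W_24 (nat_lit 5) (nat_lit 0x200014001200090000000000000000000000000000000) (nat_lit 0x0) (nat_lit 0x38005c0002000500160001800000000000000000000000000) := Q_24 (nat_lit 175) (C_24 L63628 (C_24 L62808 (C_24 L62925 N_24))) (by decide +kernel)
theorem L64149 : W_24 (nat_lit 14) (nat_lit 0x200014001200080000000000000000000000000000000) (nat_lit 0x0) (nat_lit 0xa0007000b8005c0003000dc017c003e000e0007000380004000000000) := Q_24 (nat_lit 124) (C_24 L63653 (C_24 L64121 (C_24 L64126 (C_24 L64139 (C_24 L64146 (C_24 L63629 (C_24 L63617 (C_24 L64147 (C_24 L64148 N_24))))))))) (by decide +kernel)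
theorem L64150 : W_24 (nat_lit 2) (nat_lit 0x700014001a000e0000000000000000000000000000000) (nat_lit 0x0) (nat_lit 0x100018000000000000000000000000000000) := D_24 (nat_lit 124) (nat_lit 123) (nat_lit 140) (nat_lit 3) (nat_lit 4) (nat_lit 7) (nat_lit 1) (nat_lit 8) (nat_lit 7) (by decide +kernel)
theorem L64151 : W_24 (nat_lit 3) (nat_lit 0x700014001a000c0000000000000000000000000000000) (nat_lit 0x0) (nat_lit 0x100038001000000000000000000000000000) := T_24 (nat_lit 125) (nat_lit 108) (nat_lit 4) (nat_lit 7) (nat_lit 10) L64150 (by decide +kernel)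
theorem L64152 : W_24 (nat_lit 4) (nat_lit 0x300014001a000c0000000000000000000000000000000) (nat_lit 0x0) (nat_lit 0x8000400000000100038001000000000000000000000000000) := T_24 (nat_lit 178) (nat_lit 195) (nat_lit 7) (nat_lit 7) (nat_lit 7) L64151 (by decide +kernel)
theorem L64153 : W_24 (nat_lit 5) (nat_lit 0x200014001a000c0000000000000000000000000000000) (nat_lit 0x0) (nat_lit 0xa000500000000100038001000000000000000000000000000) := T_24 (nat_lit 176) (nat_lit 193) (nat_lit 5) (nat_lit 7) (nat_lit 7) L64152 (by decide +kernel)
theorem L64154 : W_24 (nat_lit 7) (nat_lit 0x200014001a00080000000000000000000000000000000) (nat_lit 0x0) (nat_lit 0xa00054000a000100078003c00000000000000000000000000) := Q_24 (nat_lit 126) (C_24 L63753 (C_24 L63747 (C_24 L64153 N_24))) (by decide +kernel)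
theorem L64155 : W_24 (nat_lit 8) (nat_lit 0x200014001200080000000000000000000000000000000) (nat_lit 0x0) (nat_lit 0xa00054000a000d0017c003c00000000000000000000000000) := Q_24 (nat_lit 143) (C_24 L63428 (C_24 L64154 (C_24 L63429 N_24))) (by decide +kernel)
theorem L64156 : W_24 (nat_lit 2) (nat_lit 0x50001000680016001600080000000000000000000000000000000) (nat_lit 0x0) (nat_lit 0xa00020000000000000000000000000000000000000000000000000000) := D_24 (nat_lit 209) (nat_lit 225) (nat_lit 227) (nat_lit 5) (nat_lit 5) (nat_lit 9) (nat_lit 7) (nat_lit 5) (nat_lit 9) (by decide +kernel)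
theorem L64157 : W_24 (nat_lit 3) (nat_lit 0x10001000680016001600080000000000000000000000000000000) (nat_lit 0x0) (nat_lit 0xa00060002000000000000000000000000000000000000000000000000) := T_24 (nat_lit 210) (nat_lit 193) (nat_lit 7) (nat_lit 5) (nat_lit 8) L64156 (by decide +kernel)
theorem L64158 : W_24 (nat_lit 4) (nat_lit 0x1000680016001600080000000000000000000000000000000) (nat_lit 0x0) (nat_lit 0xa00070002800000000000000000000000000000000000000000000000) := T_24 (nat_lit 208) (nat_lit 191) (nat_lit 5) (nat_lit 5) (nat_lit 8) L64157 (by decide +kernel)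
theorem L64159 : W_24 (nat_lit 5) (nat_lit 0x680016001600080000000000000000000000000000000) (nat_lit 0x0) (nat_lit 0xa00070003800000000000000020000000000000000000000000000000) := T_24 (nat_lit 192) (nat_lit 125) (nat_lit 6) (nat_lit 5) (nat_lit 11) L64158 (by decide +kernel)
theorem L64160 : W_24 (nat_lit 6) (nat_lit 0x680016001200080000000000000000000000000000000) (nat_lit 0x0) (nat_lit 0xa00070003800000000000c00020000000000000000000000000000000) := T_24 (nat_lit 142) (nat_lit 143) (nat_lit 1) (nat_lit 8) (nat_lit 8) L64159 (by decide +kernel)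
theorem L64161 : W_24 (nat_lit 7) (nat_lit 0x280016001200080000000000000000000000000000000) (nat_lit 0x0) (nat_lit 0xa00070003800500000000c00020000000000000000000000000000000) := T_24 (nat_lit 178) (nat_lit 176) (nat_lit 0) (nat_lit 8) (nat_lit 10) L64160 (by decide +kernel)
theorem L64162 : W_24 (nat_lit 8) (nat_lit 0x200016001200080000000000000000000000000000000) (nat_lit 0x0) (nat_lit 0xe000700038005c0001800c00030000000000000000000000000000000) := Q_24 (nat_lit 175) (C_24 L63833 (C_24 L63927 (C_24 L64161 N_24))) (by decide +kernel)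
theorem L64163 : W_24 (nat_lit 9) (nat_lit 0x200014001200080000000000000000000000000000000) (nat_lit 0x0) (nat_lit 0xe000700038005f800b800c00030000000000000000000000000000000) := Q_24 (nat_lit 157) (C_24 L64162 (C_24 L63600 (C_24 L63580 (C_24 L63581 N_24)))) (by decide +kernel)
theorem L64164 : W_24 (nat_lit 15) (nat_lit 0x200014001000080000000000000000000000000000000) (nat_lit 0x0) (nat_lit 0x10003e0017001bc005f800bc00fc017e003e001e000f000380004000000000) := Q_24 (nat_lit 141) (C_24 L63915 (C_24 L64118 (C_24 L64120 (C_24 L63452 (C_24 L64149 (C_24 L64155 (C_24 L62962 (C_24 L63634 (C_24 L64163 N_24))))))))) (by decide +kernel)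
theorem L64165 : W_24 (nat_lit 6) (nat_lit 0x20001000280014001000080000000000000000000000000000000) (nat_lit 0x0) (nat_lit 0xe0005000000010000b000500000000000000000000000000000000000) := T_24 (nat_lit 157) (nat_lit 140) (nat_lit 4) (nat_lit 5) (nat_lit 12) L64086 (by decide +kernel)
theorem L64167 : W_24 (nat_lit 5) (nat_lit 0x20001000280014001000080000000000000000000000000000000) (nat_lit 0x0) (nat_lit 0xa00050002800000002000300000000000000000000000000000000000) := T_24 (nat_lit 157) (nat_lit 140) (nat_lit 4) (nat_lit 5) (nat_lit 12) L64066 (by decide +kernel)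
theorem L64169 : W_24 (nat_lit 3) (nat_lit 0x2000100028001c001000080000000000000000000000000000000) (nat_lit 0x0) (nat_lit 0x400000000000100003000100000000000000000000000000000000000) := T_24 (nat_lit 157) (nat_lit 140) (nat_lit 4) (nat_lit 5) (nat_lit 12) L64168 (by decide +kernel)
theorem L64170 : W_24 (nat_lit 4) (nat_lit 0x20001000280014001000080000000000000000000000000000000) (nat_lit 0x0) (nat_lit 0x40000000000010000b000500000000000000000000000000000000000) := T_24 (nat_lit 159) (nat_lit 142) (nat_lit 6) (nat_lit 5) (nat_lit 12) L64169 (by decide +kernel)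
theorem L64171 : W_24 (nat_lit 7) (nat_lit 0x1000280014001000080000000000000000000000000000000) (nat_lit 0x0) (nat_lit 0xe0007000280010000b000700020000000000000000000000000000000) := Q_24 (nat_lit 209) (C_24 L64165 (C_24 L64166 (C_24 L64167 (C_24 L64170 N_24)))) (by decide +kernel)
theorem L64172 : W_24 (nat_lit 5) (nat_lit 0x20001000280014001000080000000000000000000000000000000) (nat_lit 0x0) (nat_lit 0x20001000080000000a000700020000000000000000000000000000000) := T_24 (nat_lit 157) (nat_lit 140) (nat_lit 4) (nat_lit 5) (nat_lit 12) L64082 (by decide +kernel)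
theorem L64173 : W_24 (nat_lit 2) (nat_lit 0x6000100028001e001000080000000000000000000000000000000) (nat_lit 0x0) (nat_lit 0x400000000000060000000000000000000000000000000000000000000) := D_24 (nat_lit 174) (nat_lit 173) (nat_lit 226) (nat_lit 1) (nat_lit 7) (nat_lit 9) (nat_lit 4) (nat_lit 5) (nat_lit 13) (by decide +kernel)
theorem L64174 : W_24 (nat_lit 3) (nat_lit 0x60001000280016001000080000000000000000000000000000000) (nat_lit 0x0) (nat_lit 0x400000000000060008000400000000000000000000000000000000000) := T_24 (nat_lit 159) (nat_lit 142) (nat_lit 6) (nat_lit 5) (nat_lit 12) L64173 (by decide +kernel)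
theorem L64175 : W_24 (nat_lit 4) (nat_lit 0x60001000280014001000080000000000000000000000000000000) (nat_lit 0x0) (nat_lit 0x40000000000006000a000500000000000000000000000000000000000) := T_24 (nat_lit 157) (nat_lit 140) (nat_lit 4) (nat_lit 5) (nat_lit 12) L64174 (by decide +kernel)
theorem L64176 : W_24 (nat_lit 5) (nat_lit 0x20001000280014001000080000000000000000000000000000000) (nat_lit 0x0) (nat_lit 0xc0004000000006000a000500000000000000000000000000000000000) := T_24 (nat_lit 210) (nat_lit 227) (nat_lit 7) (nat_lit 5) (nat_lit 9) L64175 (by decide +kernel)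
theorem L64177 : W_24 (nat_lit 6) (nat_lit 0x1000280014001000080000000000000000000000000000000) (nat_lit 0x0) (nat_lit 0xe0007000280006000a000700020000000000000000000000000000000) := Q_24 (nat_lit 209) (C_24 L64172 (C_24 L64167 (C_24 L64176 (C_24 L64166 N_24)))) (by decide +kernel)
theorem L64178 : W_24 (nat_lit 6) (nat_lit 0x20001000280014001000080000000000000000000000000000000) (nat_lit 0x0) (nat_lit 0xa000d0000e00000008000600000000000000000000000000000000000) := T_24 (nat_lit 210) (nat_lit 227) (nat_lit 7) (nat_lit 5) (nat_lit 9) L64036 (by decide +kernel)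
theorem L64179 : W_24 (nat_lit 7) (nat_lit 0x1000280014001000080000000000000000000000000000000) (nat_lit 0x0) (nat_lit 0xe000f0002e0016000b000700000000000000000000000000000000000) := Q_24 (nat_lit 209) (C_24 L64176 (C_24 L64167 (C_24 L64170 (C_24 L64178 N_24)))) (by decide +kernel)
theorem L64180 : W_24 (nat_lit 7) (nat_lit 0x1000280014001000080000000000000000000000000000000) (nat_lit 0x0) (nat_lit 0x8000e00070002800140002000700038000000000000000000000000000000) := Q_24 (nat_lit 141) (C_24 L63036 (C_24 L63496 (C_24 L63483 (C_24 L63491 N_24)))) (by decide +kernel)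
theorem L64181 : W_24 (nat_lit 4) (nat_lit 0x20001000280014001000080000000000000000000000000000000) (nat_lit 0x0) (nat_lit 0x4000600010000000040002000100000000000000000000000000000000000) := T_24 (nat_lit 157) (nat_lit 140) (nat_lit 4) (nat_lit 5) (nat_lit 12) L64063 (by decide +kernel)
theorem L64182 : W_24 (nat_lit 4) (nat_lit 0x20001000280014001000080000000000000000000000000000000) (nat_lit 0x0) (nat_lit 0xa00050002800000000000200000000000000000000000000000000000) := T_24 (nat_lit 210) (nat_lit 227) (nat_lit 7) (nat_lit 5) (nat_lit 9) L64032 (by decide +kernel)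
theorem L64183 : W_24 (nat_lit 4) (nat_lit 0x20001000280014001000080000000000000000000000000000000) (nat_lit 0x0) (nat_lit 0x10000c00040000000040002000100000000000000000000000000000000000) := T_24 (nat_lit 157) (nat_lit 140) (nat_lit 4) (nat_lit 5) (nat_lit 12) L64061 (by decide +kernel)
theorem L64184 : W_24 (nat_lit 6) (nat_lit 0x1000280014001000080000000000000000000000000000000) (nat_lit 0x0) (nat_lit 0x14000e00070002800040002000300000000000000000000000000000000000) := Q_24 (nat_lit 209) (C_24 L64181 (C_24 L64167 (C_24 L64182 (C_24 L64183 N_24)))) (by decide +kernel)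
theorem L64185 : W_24 (nat_lit 7) (nat_lit 0x1000280014001000080000000000000000000000000000000) (nat_lit 0x0) (nat_lit 0x14000e000f0000e0004000a000700000000000000000000000000000000000) := Q_24 (nat_lit 209) (C_24 L64183 (C_24 L64181 (C_24 L64178 N_24))) (by decide +kernel)
theorem L64198 : W_24 (nat_lit 9) (nat_lit 0x1000280014001000080000000000000000000000000000000) (nat_lit 0x0) (nat_lit 0x20003000280014000a00078003e000c00000000000000000000000000) := Q_24 (nat_lit 141) (C_24 L63036 (C_24 L62818 (C_24 L64192 (C_24 L62950 (C_24 L64197 N_24))))) (by decide +kernel)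
theorem L64199 : W_24 (nat_lit 2) (nat_lit 0x780050003c001c001000080000000000000000000000000000000) (nat_lit 0x0) (nat_lit 0xe00000000000000000000000000000000000000000000000) := D_24 (nat_lit 190) (nat_lit 191) (nat_lit 189) (nat_lit 1) (nat_lit 7) (nat_lit 10) (nat_lit 0) (nat_lit 6) (nat_lit 12) (by decide +kernel)
theorem L64200 : W_24 (nat_lit 3) (nat_lit 0x700050003c001c001000080000000000000000000000000000000) (nat_lit 0x0) (nat_lit 0x8002e00000000000000000000000000000000000000000000000) := T_24 (nat_lit 207) (nat_lit 193) (nat_lit 2) (nat_lit 3) (nat_lit 12) L64199 (by decide +kernel)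
theorem L64201 : W_24 (nat_lit 4) (nat_lit 0x700010003c001c001000080000000000000000000000000000000) (nat_lit 0x0) (nat_lit 0x800ee00000000000000000000000000000000000000000000000) := T_24 (nat_lit 194) (nat_lit 195) (nat_lit 3) (nat_lit 4) (nat_lit 10) L64200 (by decide +kernel)
theorem L64202 : W_24 (nat_lit 5) (nat_lit 0x7000100038001c001000080000000000000000000000000000000) (nat_lit 0x0) (nat_lit 0x800ee00060000000000000000000000000000000000000000000) := T_24 (nat_lit 174) (nat_lit 173) (nat_lit 2) (nat_lit 3) (nat_lit 10) L64201 (by decide +kernel)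
theorem L64203 : W_24 (nat_lit 6) (nat_lit 0x7000100028001c001000080000000000000000000000000000000) (nat_lit 0x0) (nat_lit 0x40000800ee00160000000000000000000000000000000000000000000) := T_24 (nat_lit 176) (nat_lit 226) (nat_lit 6) (nat_lit 5) (nat_lit 13) L64202 (by decide +kernel)
theorem L64204 : W_24 (nat_lit 7) (nat_lit 0x6000100028001c001000080000000000000000000000000000000) (nat_lit 0x0) (nat_lit 0x60001800ee00160000000000000000000000000000000000000000000) := T_24 (nat_lit 208) (nat_lit 225) (nat_lit 5) (nat_lit 5) (nat_lit 9) L64203 (by decide +kernel)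
theorem L64205 : W_24 (nat_lit 8) (nat_lit 0x60001000280014001000080000000000000000000000000000000) (nat_lit 0x0) (nat_lit 0x60001800ee00160008000400000000000000000000000000000000000) := T_24 (nat_lit 159) (nat_lit 142) (nat_lit 6) (nat_lit 5) (nat_lit 12) L64204 (by decide +kernel)
theorem L64206 : W_24 (nat_lit 9) (nat_lit 0x20001000280014001000080000000000000000000000000000000) (nat_lit 0x0) (nat_lit 0xe0005800ee00160008000400000000000000000000000000000000000) := T_24 (nat_lit 210) (nat_lit 227) (nat_lit 7) (nat_lit 5) (nat_lit 9) L64205 (by decide +kernel)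
theorem L64211 : W_24 (nat_lit 10) (nat_lit 0x1000280014001000080000000000000000000000000000000) (nat_lit 0x0) (nat_lit 0x14000e0007800ee0017000b000500000000000000000000000000000000000) := Q_24 (nat_lit 209) (C_24 L64183 (C_24 L64181 (C_24 L64170 (C_24 L64206 (C_24 L64210 N_24))))) (by decide +kernel)
theorem L64212 : W_24 (nat_lit 7) (nat_lit 0x1000280014001000080000000000000000000000000000000) (nat_lit 0x0) (nat_lit 0x70002800140008000780038000800000000000000000000000000) := Q_24 (nat_lit 141) (C_24 L62950 (C_24 L64197 (C_24 L63483 N_24))) (by decide +kernel)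
theorem L64216 : W_24 (nat_lit 10) (nat_lit 0x1000280014001000080000000000000000000000000000000) (nat_lit 0x0) (nat_lit 0xe000f800ee00160008000600020000000000000000000000000000000) := Q_24 (nat_lit 209) (C_24 L64178 (C_24 L64206 (C_24 L64182 (C_24 L64215 (C_24 L64166 N_24))))) (by decide +kernel)
theorem L64221 : W_24 (nat_lit 2) (nat_lit 0x3800280015001780084000000000000000000000000000000) (nat_lit 0x0) (nat_lit 0x60002000000000000000000000000000000000000000) := D_24 (nat_lit 174) (nat_lit 157) (nat_lit 173) (nat_lit 4) (nat_lit 4) (nat_lit 11) (nat_lit 7) (nat_lit 3) (nat_lit 7) (by decide +kernel)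
theorem L64222 : W_24 (nat_lit 3) (nat_lit 0x3000280015001780084000000000000000000000000000000) (nat_lit 0x0) (nat_lit 0x10000800060002000000000000000000000000000000000000000) := T_24 (nat_lit 191) (nat_lit 208) (nat_lit 5) (nat_lit 5) (nat_lit 8) L64221 (by decide +kernel)
theorem L64223 : W_24 (nat_lit 4) (nat_lit 0x1000280015001780084000000000000000000000000000000) (nat_lit 0x0) (nat_lit 0x50002800060002000000000000000000000000000000000000000) := T_24 (nat_lit 193) (nat_lit 210) (nat_lit 7) (nat_lit 5) (nat_lit 8) L64222 (by decide +kernel)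
theorem L64224 : W_24 (nat_lit 5) (nat_lit 0x1000280015001780080000000000000000000000000000000) (nat_lit 0x0) (nat_lit 0x50002800060002000000006000000000000000000000000000000) := T_24 (nat_lit 122) (nat_lit 121) (nat_lit 0) (nat_lit 6) (nat_lit 8) L64223 (by decide +kernel)
theorem L64225 : W_24 (nat_lit 6) (nat_lit 0x1000280014001780080000000000000000000000000000000) (nat_lit 0x0) (nat_lit 0x50002800060003800000006000000000000000000000000000000) := T_24 (nat_lit 156) (nat_lit 155) (nat_lit 1) (nat_lit 6) (nat_lit 8) L64224 (by decide +kernel)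
theorem L64226 : W_24 (nat_lit 7) (nat_lit 0x1000280014001700080000000000000000000000000000000) (nat_lit 0x0) (nat_lit 0x5000280006000b800080006000000000000000000000000000000) := T_24 (nat_lit 139) (nat_lit 159) (nat_lit 3) (nat_lit 3) (nat_lit 8) L64225 (by decide +kernel)
theorem L64227 : W_24 (nat_lit 8) (nat_lit 0x1000280014001600080000000000000000000000000000000) (nat_lit 0x0) (nat_lit 0x5000280006000b80018000e000000000000000000000000000000) := T_24 (nat_lit 140) (nat_lit 123) (nat_lit 4) (nat_lit 5) (nat_lit 11) L64226 (by decide +kernel)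
theorem L64228 : W_24 (nat_lit 9) (nat_lit 0x1000280014001200080000000000000000000000000000000) (nat_lit 0x0) (nat_lit 0x5000280006000b80058002e000000000000000000000000000000) := T_24 (nat_lit 142) (nat_lit 125) (nat_lit 6) (nat_lit 5) (nat_lit 11) L64227 (by decide +kernel)
theorem L64229 : W_24 (nat_lit 10) (nat_lit 0x1000280014001000080000000000000000000000000000000) (nat_lit 0x0) (nat_lit 0x5000280016000b80078003e001400000000000000000000000000) := Q_24 (nat_lit 141) (C_24 L62818 (C_24 L63483 (C_24 L64220 (C_24 L64228 N_24)))) (by decide +kernel)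
theorem L64230 : W_24 (nat_lit 6) (nat_lit 0x1000280014001000080000000000000000000000000000000) (nat_lit 0x0) (nat_lit 0x10000c0006000200017000b000700020000000000000000000000000000000) := Q_24 (nat_lit 209) (C_24 L64210 (C_24 L64183 (C_24 L64170 (C_24 L64166 N_24)))) (by decide +kernel)
theorem L64231 : W_24 (nat_lit 11) (nat_lit 0x280014001000080000000000000000000000000000000) (nat_lit 0x0) (nat_lit 0x1c000e000f800fe0017000b80078003e001c00000000000000000000000000) := Q_24 (nat_lit 192) (C_24 L64171 (C_24 L64177 (C_24 L64179 (C_24 L64180 (C_24 L64184 (C_24 L64185 (C_24 L64198 (C_24 L64211 (C_24 L64212 (C_24 L64216 (C_24 L64229 (C_24 L64230 N_24)))))))))))) (by decide +kernel)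
theorem L64234 : W_24 (nat_lit 5) (nat_lit 0x1000280014001000080000000000000000000000000000000) (nat_lit 0x0) (nat_lit 0xa0007000280040000a000700020000000000000000000000000000000) := Q_24 (nat_lit 209) (C_24 L64215 (C_24 L64182 (C_24 L64233 N_24))) (by decide +kernel)
theorem L64252 : W_24 (nat_lit 11) (nat_lit 0x1000280014001000080000000000000000000000000000000) (nat_lit 0x0) (nat_lit 0x2000b000680044000b8007c003e000c00040000000000000000000000) := Q_24 (nat_lit 141) (C_24 L63036 (C_24 L62818 (C_24 L64242 (C_24 L62950 (C_24 L64251 N_24))))) (by decide +kernel)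
theorem L64253 : W_24 (nat_lit 2) (nat_lit 0xc0002000100028001c001000080000000000000000000000000000000) (nat_lit 0x0) (nat_lit 0x4000200010000000000000000000000000000000000000000000000000000) := D_24 (nat_lit 225) (nat_lit 242) (nat_lit 208) (nat_lit 5) (nat_lit 5) (nat_lit 10) (nat_lit 5) (nat_lit 5) (nat_lit 9) (by decide +kernel)
theorem L64254 : W_24 (nat_lit 3) (nat_lit 0x80002000100028001c001000080000000000000000000000000000000) (nat_lit 0x0) (nat_lit 0x14000600010000000000000000000000000000000000000000000000000000) := T_24 (nat_lit 226) (nat_lit 244) (nat_lit 7) (nat_lit 5) (nat_lit 10) L64253 (by decide +kernel)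
theorem L64255 : W_24 (nat_lit 4) (nat_lit 0x800020001000280014001000080000000000000000000000000000000) (nat_lit 0x0) (nat_lit 0x14000600010000000000008000400000000000000000000000000000000000) := T_24 (nat_lit 159) (nat_lit 142) (nat_lit 6) (nat_lit 5) (nat_lit 12) L64254 (by decide +kernel)
theorem L64256 : W_24 (nat_lit 5) (nat_lit 0x20001000280014001000080000000000000000000000000000000) (nat_lit 0x0) (nat_lit 0x14000e00050000000000008000400000000000000000000000000000000000) := T_24 (nat_lit 227) (nat_lit 210) (nat_lit 7) (nat_lit 5) (nat_lit 9) L64255 (by decide +kernel)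
theorem L64257 : W_24 (nat_lit 6) (nat_lit 0x1000280014001000080000000000000000000000000000000) (nat_lit 0x0) (nat_lit 0x14000e0007000000044000a000500000000000000000000000000000000000) := Q_24 (nat_lit 209) (C_24 L64233 (C_24 L64183 (C_24 L64256 N_24))) (by decide +kernel)
theorem L64258 : W_24 (nat_lit 6) (nat_lit 0x1000280014001000080000000000000000000000000000000) (nat_lit 0x0) (nat_lit 0x70002800040008000780038001400000000000000000000000000) := Q_24 (nat_lit 141) (C_24 L62950 (C_24 L62818 (C_24 L62853 N_24))) (by decide +kernel)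
theorem L64259 : W_24 (nat_lit 6) (nat_lit 0x1000280014001000080000000000000000000000000000000) (nat_lit 0x0) (nat_lit 0x14000e00070002800000008000600020000000000000000000000000000000) := Q_24 (nat_lit 209) (C_24 L64256 (C_24 L64182 (C_24 L64215 (C_24 L64166 N_24)))) (by decide +kernel)
theorem L64267 : W_24 (nat_lit 10) (nat_lit 0x1000280014001000080000000000000000000000000000000) (nat_lit 0x0) (nat_lit 0x5000280006000bc007c003f001400000000000000000000000000) := Q_24 (nat_lit 141) (C_24 L62818 (C_24 L64228 (C_24 L64266 (C_24 L62853 N_24)))) (by decide +kernel)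
theorem L64276 : W_24 (nat_lit 10) (nat_lit 0x1000280014001000080000000000000000000000000000000) (nat_lit 0x0) (nat_lit 0x8000e000680046000bc007c003f000800000000000000000000000000) := Q_24 (nat_lit 141) (C_24 L62950 (C_24 L64266 (C_24 L63491 (C_24 L64275 N_24)))) (by decide +kernel)
theorem L64277 : W_24 (nat_lit 12) (nat_lit 0x280014001000080000000000000000000000000000000) (nat_lit 0x0) (nat_lit 0x14000e000f0007e0046000bc007c003f001c00040000000000000000000000) := Q_24 (nat_lit 192) (C_24 L64185 (C_24 L64234 (C_24 L64184 (C_24 L64252 (C_24 L64257 (C_24 L64258 (C_24 L64259 (C_24 L64267 (C_24 L64276 N_24))))))))) (by decide +kernel)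
theorem L64278 : W_24 (nat_lit 5) (nat_lit 0x280016001000080000000000000000000000000000000) (nat_lit 0x0) (nat_lit 0x20001000400008000380008000400000000000000000000000000) := T_24 (nat_lit 159) (nat_lit 178) (nat_lit 3) (nat_lit 4) (nat_lit 9) L63971 (by decide +kernel)
theorem L64280 : W_24 (nat_lit 10) (nat_lit 0x280014001000080000000000000000000000000000000) (nat_lit 0x0) (nat_lit 0x2000100057800bc007e0008000400000000000000000000000000) := Q_24 (nat_lit 157) (C_24 L64059 (C_24 L64278 (C_24 L64279 N_24))) (by decide +kernel)
theorem L64281 : W_24 (nat_lit 4) (nat_lit 0x3c0014001000080000000000000000000000000000000) (nat_lit 0x0) (nat_lit 0x10000c00000003000200010000000000000000000000000000000) := T_24 (nat_lit 157) (nat_lit 156) (nat_lit 0) (nat_lit 7) (nat_lit 10) L64044 (by decide +kernel)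
theorem L64285 : W_24 (nat_lit 2) (nat_lit 0x40003e0014001000080000000000000000000000000000000) (nat_lit 0x0) (nat_lit 0x3800000000000000000000000000000000000000) := D_24 (nat_lit 156) (nat_lit 155) (nat_lit 157) (nat_lit 0) (nat_lit 6) (nat_lit 10) (nat_lit 0) (nat_lit 7) (nat_lit 10) (by decide +kernel)
theorem L64286 : W_24 (nat_lit 3) (nat_lit 0x40003c0014001000080000000000000000000000000000000) (nat_lit 0x0) (nat_lit 0x2000020003800000000000000000000000000000000000000) := T_24 (nat_lit 173) (nat_lit 193) (nat_lit 3) (nat_lit 3) (nat_lit 10) L64285 (by decide +kernel)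
theorem L64287 : W_24 (nat_lit 4) (nat_lit 0x3c0014001000080000000000000000000000000000000) (nat_lit 0x0) (nat_lit 0xe000020003800000000000000000000000000000000000000) := T_24 (nat_lit 194) (nat_lit 195) (nat_lit 3) (nat_lit 4) (nat_lit 10) L64286 (by decide +kernel)
theorem L64288 : W_24 (nat_lit 7) (nat_lit 0x380014001000080000000000000000000000000000000) (nat_lit 0x0) (nat_lit 0x1000ef00078003800200010000000000000000000000000000000) := Q_24 (nat_lit 174) (C_24 L64281 (C_24 L64282 (C_24 L64284 (C_24 L64287 N_24)))) (by decide +kernel)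
theorem L64289 : W_24 (nat_lit 10) (nat_lit 0x380014001000080000000000000000000000000000000) (nat_lit 0x0) (nat_lit 0x1fe007f001f800400002000700078001000000000000000000000000000) := Q_24 (nat_lit 210) (C_24 L63993 (C_24 L64010 (C_24 L63995 (C_24 L64003 N_24)))) (by decide +kernel)
theorem L64290 : W_24 (nat_lit 2) (nat_lit 0x8800780014001000080000000000000000000000000000000) (nat_lit 0x0) (nat_lit 0x4400040000000000000000000000000000000000000000000) := D_24 (nat_lit 174) (nat_lit 194) (nat_lit 190) (nat_lit 3) (nat_lit 4) (nat_lit 10) (nat_lit 1) (nat_lit 7) (nat_lit 10) (by decide +kernel)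
theorem L64291 : W_24 (nat_lit 3) (nat_lit 0x800780014001000080000000000000000000000000000000) (nat_lit 0x0) (nat_lit 0x1c400040000000000000000000000000000000000000000000) := T_24 (nat_lit 195) (nat_lit 196) (nat_lit 3) (nat_lit 5) (nat_lit 10) L64290 (by decide +kernel)
theorem L64292 : W_24 (nat_lit 4) (nat_lit 0x780014001000080000000000000000000000000000000) (nat_lit 0x0) (nat_lit 0x1dc00040000000000000000000000000000000000000000000) := T_24 (nat_lit 191) (nat_lit 192) (nat_lit 1) (nat_lit 8) (nat_lit 10) L64291 (by decide +kernel)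
theorem L64293 : W_24 (nat_lit 5) (nat_lit 0x380014001000080000000000000000000000000000000) (nat_lit 0x0) (nat_lit 0x1dc00440002000000000000000000000000000000000000000) := T_24 (nat_lit 178) (nat_lit 157) (nat_lit 0) (nat_lit 8) (nat_lit 10) L64292 (by decide +kernel)
theorem L64295 : W_24 (nat_lit 2) (nat_lit 0x100048003c0014001000080000000000000000000000000000000) (nat_lit 0x0) (nat_lit 0x1000000000000200010000000000000000000000000000000) := D_24 (nat_lit 141) (nat_lit 124) (nat_lit 192) (nat_lit 5) (nat_lit 5) (nat_lit 7) (nat_lit 5) (nat_lit 5) (nat_lit 8) (by decide +kernel)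
theorem L64296 : W_24 (nat_lit 3) (nat_lit 0x48003c0014001000080000000000000000000000000000000) (nat_lit 0x0) (nat_lit 0x200010001000000000000200010000000000000000000000000000000) := T_24 (nat_lit 208) (nat_lit 225) (nat_lit 6) (nat_lit 4) (nat_lit 13) L64295 (by decide +kernel)
theorem L64297 : W_24 (nat_lit 4) (nat_lit 0x8003c0014001000080000000000000000000000000000000) (nat_lit 0x0) (nat_lit 0x20001000d000000000000200010000000000000000000000000000000) := T_24 (nat_lit 194) (nat_lit 195) (nat_lit 3) (nat_lit 4) (nat_lit 10) L64296 (by decide +kernel)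
theorem L64298 : W_24 (nat_lit 5) (nat_lit 0x3c0014001000080000000000000000000000000000000) (nat_lit 0x0) (nat_lit 0x20001000dc00000000000200010000000000000000000000000000000) := T_24 (nat_lit 191) (nat_lit 190) (nat_lit 1) (nat_lit 7) (nat_lit 10) L64297 (by decide +kernel)
theorem L64309 : W_24 (nat_lit 7) (nat_lit 0x380014001000080000000000000000000000000000000) (nat_lit 0x0) (nat_lit 0xa0005000ff00470001c00200010000000000000000000000000000000) := Q_24 (nat_lit 174) (C_24 L64282 (C_24 L64298 (C_24 L64301 (C_24 L64306 (C_24 L64308 N_24))))) (by decide +kernel)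
theorem L64310 : W_24 (nat_lit 11) (nat_lit 0x280014001000080000000000000000000000000000000) (nat_lit 0x0) (nat_lit 0x1fe007f001ff00578003c00700078001000000000000000000000000000) := Q_24 (nat_lit 176) (C_24 L64288 (C_24 L64289 (C_24 L64293 (C_24 L64294 (C_24 L64309 N_24))))) (by decide +kernel)
theorem L64311 : W_24 (nat_lit 5) (nat_lit 0x280016001000080000000000000000000000000000000) (nat_lit 0x0) (nat_lit 0x30001c00160009000380018000000000000000000000000000000) := Q_24 (nat_lit 174) (C_24 L64045 (C_24 L64068 N_24)) (by decide +kernel)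
theorem L64312 : W_24 (nat_lit 6) (nat_lit 0x280014001000080000000000000000000000000000000) (nat_lit 0x0) (nat_lit 0x30001c0056000b800380018000400000000000000000000000000) := Q_24 (nat_lit 157) (C_24 L64311 (C_24 L64278 (C_24 L64279 N_24))) (by decide +kernel)
theorem L64321 : W_24 (nat_lit 9) (nat_lit 0x280016001000080000000000000000000000000000000) (nat_lit 0x0) (nat_lit 0x70007800ff00178009000180008000000000000000000000000000000) := Q_24 (nat_lit 174) (C_24 L64313 (C_24 L64068 (C_24 L64320 N_24))) (by decide +kernel)
theorem L64324 : W_24 (nat_lit 10) (nat_lit 0x280014001000080000000000000000000000000000000) (nat_lit 0x0) (nat_lit 0x70007800ff0057800b800180008000000000000000000000000000000) := Q_24 (nat_lit 157) (C_24 L64321 (C_24 L64322 (C_24 L64323 (C_24 L64279 N_24)))) (by decide +kernel)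
theorem L64325 : W_24 (nat_lit 6) (nat_lit 0x1000280014001000080000000000000000000000000000000) (nat_lit 0x0) (nat_lit 0x14000e0007000280040000a000700000000000000000000000000000000000) := Q_24 (nat_lit 209) (C_24 L64256 (C_24 L64182 (C_24 L64233 N_24))) (by decide +kernel)
theorem L64326 : W_24 (nat_lit 6) (nat_lit 0x1000280014001000080000000000000000000000000000000) (nat_lit 0x0) (nat_lit 0xa00070002c00500002000700038001000000000000000000000000000) := Q_24 (nat_lit 141) (C_24 L64220 (C_24 L63491 (C_24 L63036 (C_24 L62885 N_24)))) (by decide +kernel)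
theorem L64329 : W_24 (nat_lit 5) (nat_lit 0x1000280014001000080000000000000000000000000000000) (nat_lit 0x0) (nat_lit 0xa0007000280050000a000300000000000000000000000000000000000) := Q_24 (nat_lit 209) (C_24 L64182 (C_24 L64328 N_24)) (by decide +kernel)
theorem L64330 : W_24 (nat_lit 2) (nat_lit 0x700010006800160012000b0000400000000000000000000000000) (nat_lit 0x0) (nat_lit 0x40000800020000000000000000000000) := D_24 (nat_lit 107) (nat_lit 89) (nat_lit 126) (nat_lit 4) (nat_lit 5) (nat_lit 9) (nat_lit 0) (nat_lit 8) (nat_lit 7) (by decide +kernel)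
theorem L64331 : W_24 (nat_lit 3) (nat_lit 0x700010006800160012000b0000000000000000000000000000000) (nat_lit 0x0) (nat_lit 0x48000c00020000000000000000000000) := T_24 (nat_lit 106) (nat_lit 123) (nat_lit 4) (nat_lit 5) (nat_lit 10) L64330 (by decide +kernel)
theorem L64332 : W_24 (nat_lit 4) (nat_lit 0x700010006800160012000a0000000000000000000000000000000) (nat_lit 0x0) (nat_lit 0x58001c00020000000000000000000000) := T_24 (nat_lit 124) (nat_lit 108) (nat_lit 6) (nat_lit 5) (nat_lit 10) L64331 (by decide +kernel)
theorem L64333 : W_24 (nat_lit 5) (nat_lit 0x70001000680016001200080000000000000000000000000000000) (nat_lit 0x0) (nat_lit 0x400078001c00020000000000000000000000) := T_24 (nat_lit 125) (nat_lit 142) (nat_lit 6) (nat_lit 5) (nat_lit 11) L64332 (by decide +kernel)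
theorem L64334 : W_24 (nat_lit 6) (nat_lit 0x70001000680016001000080000000000000000000000000000000) (nat_lit 0x0) (nat_lit 0x800000000000600078001c00020000000000000000000000) := T_24 (nat_lit 141) (nat_lit 191) (nat_lit 5) (nat_lit 5) (nat_lit 8) L64333 (by decide +kernel)
theorem L64335 : W_24 (nat_lit 7) (nat_lit 0x60001000680016001000080000000000000000000000000000000) (nat_lit 0x0) (nat_lit 0x200010000800000000000600078001c00020000000000000000000000) := T_24 (nat_lit 208) (nat_lit 225) (nat_lit 5) (nat_lit 5) (nat_lit 9) L64334 (by decide +kernel)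
theorem L64336 : W_24 (nat_lit 8) (nat_lit 0x20001000680016001000080000000000000000000000000000000) (nat_lit 0x0) (nat_lit 0xa00050000800000000000600078001c00020000000000000000000000) := T_24 (nat_lit 210) (nat_lit 227) (nat_lit 7) (nat_lit 5) (nat_lit 9) L64335 (by decide +kernel)
theorem L64337 : W_24 (nat_lit 9) (nat_lit 0x20001000280016001000080000000000000000000000000000000) (nat_lit 0x0) (nat_lit 0xa00050000800500000000600078001c00020000000000000000000000) := T_24 (nat_lit 178) (nat_lit 176) (nat_lit 0) (nat_lit 8) (nat_lit 10) L64336 (by decide +kernel)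
theorem L64338 : W_24 (nat_lit 10) (nat_lit 0x20001000280014001000080000000000000000000000000000000) (nat_lit 0x0) (nat_lit 0xa00050000800500002000700078001c00020000000000000000000000) := T_24 (nat_lit 157) (nat_lit 140) (nat_lit 4) (nat_lit 5) (nat_lit 12) L64337 (by decide +kernel)
theorem L64339 : W_24 (nat_lit 11) (nat_lit 0x1000280014001000080000000000000000000000000000000) (nat_lit 0x0) (nat_lit 0x14000e0007000080050000a000700078001c00020000000000000000000000) := Q_24 (nat_lit 209) (C_24 L64256 (C_24 L64328 (C_24 L64338 N_24))) (by decide +kernel)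
theorem L64340 : W_24 (nat_lit 2) (nat_lit 0x1800680014001600080000000000000000000000000000000) (nat_lit 0x0) (nat_lit 0x2000000000000a000000000000000000000000000000000000000) := D_24 (nat_lit 159) (nat_lit 157) (nat_lit 209) (nat_lit 3) (nat_lit 4) (nat_lit 9) (nat_lit 6) (nat_lit 5) (nat_lit 12) (by decide +kernel)
theorem L64341 : W_24 (nat_lit 3) (nat_lit 0x1800280014001600080000000000000000000000000000000) (nat_lit 0x0) (nat_lit 0x2000000050000a000000000000000000000000000000000000000) := T_24 (nat_lit 178) (nat_lit 176) (nat_lit 1) (nat_lit 8) (nat_lit 10) L64340 (by decide +kernel)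
theorem L64342 : W_24 (nat_lit 4) (nat_lit 0x1000280014001600080000000000000000000000000000000) (nat_lit 0x0) (nat_lit 0x3000080050000a000000000000000000000000000000000000000) := T_24 (nat_lit 191) (nat_lit 208) (nat_lit 5) (nat_lit 5) (nat_lit 8) L64341 (by decide +kernel)
theorem L64343 : W_24 (nat_lit 5) (nat_lit 0x1000280014001200080000000000000000000000000000000) (nat_lit 0x0) (nat_lit 0x3000080050000a000400020000000000000000000000000000000) := T_24 (nat_lit 142) (nat_lit 125) (nat_lit 6) (nat_lit 5) (nat_lit 11) L64342 (by decide +kernel)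
theorem L64344 : W_24 (nat_lit 6) (nat_lit 0x1000280014001000080000000000000000000000000000000) (nat_lit 0x0) (nat_lit 0x200030002c0050000a000780038000000000000000000000000000000) := Q_24 (nat_lit 141) (C_24 L63036 (C_24 L63759 (C_24 L64343 (C_24 L62950 N_24)))) (by decide +kernel)
theorem L64350 : W_24 (nat_lit 7) (nat_lit 0x1000280014001000080000000000000000000000000000000) (nat_lit 0x0) (nat_lit 0x14000e0007000000050000a000500000000000000000000000000000000000) := Q_24 (nat_lit 209) (C_24 L64256 (C_24 L64328 (C_24 L64349 N_24))) (by decide +kernel)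
theorem L64360 : W_24 (nat_lit 11) (nat_lit 0x1000280014001000080000000000000000000000000000000) (nat_lit 0x0) (nat_lit 0x50002e00520009c007c003f000000000000000000000000000000) := Q_24 (nat_lit 141) (C_24 L64266 (C_24 L63759 (C_24 L64359 (C_24 L62885 N_24)))) (by decide +kernel)
theorem L64364 : W_24 (nat_lit 9) (nat_lit 0x1000280014001000080000000000000000000000000000000) (nat_lit 0x0) (nat_lit 0x80006000200010000bc007c003f001000000000000000000000000000) := Q_24 (nat_lit 141) (C_24 L64266 (C_24 L63491 (C_24 L62950 (C_24 L64363 N_24)))) (by decide +kernel)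
theorem L64365 : W_24 (nat_lit 12) (nat_lit 0x280014001000080000000000000000000000000000000) (nat_lit 0x0) (nat_lit 0x14000e00070003e0052000bc007c007f001c00020000000000000000000000) := Q_24 (nat_lit 192) (C_24 L64259 (C_24 L64325 (C_24 L64326 (C_24 L64329 (C_24 L64339 (C_24 L64344 (C_24 L64350 (C_24 L64360 (C_24 L64364 N_24))))))))) (by decide +kernel)
theorem L64366 : W_24 (nat_lit 6) (nat_lit 0x2c001e001000080000000000000000000000000000000) (nat_lit 0x0) (nat_lit 0x800000000000380078001c00000000000000000000000000) := T_24 (nat_lit 140) (nat_lit 139) (nat_lit 0) (nat_lit 7) (nat_lit 9) L63975 (by decide +kernel)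
theorem L64367 : W_24 (nat_lit 7) (nat_lit 0x2c0016001000080000000000000000000000000000000) (nat_lit 0x0) (nat_lit 0x800020008000380078001c00000000000000000000000000) := T_24 (nat_lit 159) (nat_lit 173) (nat_lit 1) (nat_lit 7) (nat_lit 9) L64366 (by decide +kernel)
theorem L64368 : W_24 (nat_lit 8) (nat_lit 0x280016001000080000000000000000000000000000000) (nat_lit 0x0) (nat_lit 0x1000ef00178009000380078001c00000000000000000000000000) := Q_24 (nat_lit 174) (C_24 L64313 (C_24 L64367 (C_24 L64045 N_24))) (by decide +kernel)
theorem L64369 : W_24 (nat_lit 8) (nat_lit 0x280016001000080000000000000000000000000000000) (nat_lit 0x0) (nat_lit 0x800460008000380078001c00000000000000000000000000) := T_24 (nat_lit 159) (nat_lit 178) (nat_lit 3) (nat_lit 4) (nat_lit 9) L63977 (by decide +kernel)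
theorem L64370 : W_24 (nat_lit 9) (nat_lit 0x280014001000080000000000000000000000000000000) (nat_lit 0x0) (nat_lit 0x1000ef0057800b800380078001c00000000000000000000000000) := Q_24 (nat_lit 157) (C_24 L64368 (C_24 L64369 (C_24 L64322 (C_24 L64279 N_24)))) (by decide +kernel)
theorem L64380 : W_24 (nat_lit 8) (nat_lit 0x280014001200080000000000000000000000000000000) (nat_lit 0x0) (nat_lit 0x4000e00070003c00540008000500018000400000000000000000000000000) := Q_24 (nat_lit 192) (C_24 L63483 (C_24 L63759 (C_24 L62818 (C_24 L62885 (C_24 L64376 (C_24 L64379 N_24)))))) (by decide +kernel)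
theorem L64381 : W_24 (nat_lit 6) (nat_lit 0x280014001200080000000000000000000000000000000) (nat_lit 0x0) (nat_lit 0x50003c00540000000500038001400000000000000000000000000) := Q_24 (nat_lit 192) (C_24 L64379 (C_24 L62853 (C_24 L62818 (C_24 L62885 N_24)))) (by decide +kernel)
theorem L64382 : W_24 (nat_lit 5) (nat_lit 0x280014001200080000000000000000000000000000000) (nat_lit 0x0) (nat_lit 0x10001800040000000500178001c00020000000000000000000000) := Q_24 (nat_lit 124) (C_24 L63659 (C_24 L63078 (C_24 L62808 N_24))) (by decide +kernel)
theorem L64383 : W_24 (nat_lit 2) (nat_lit 0x42003e00148012001f8008000000000000000000000000000) (nat_lit 0x0) (nat_lit 0x100010000400000000000000000000000000000000000000) := D_24 (nat_lit 172) (nat_lit 188) (nat_lit 154) (nat_lit 1) (nat_lit 5) (nat_lit 10) (nat_lit 0) (nat_lit 5) (nat_lit 10) (by decide +kernel)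
theorem L64384 : W_24 (nat_lit 3) (nat_lit 0x42003e00140012001f8008000000000000000000000000000) (nat_lit 0x0) (nat_lit 0x100010001c00000000000000000000000000000000000000) := T_24 (nat_lit 155) (nat_lit 156) (nat_lit 0) (nat_lit 6) (nat_lit 10) L64383 (by decide +kernel)
theorem L64385 : W_24 (nat_lit 4) (nat_lit 0x40003e00140012001f8008000000000000000000000000000) (nat_lit 0x0) (nat_lit 0x700010001c00000000000000000000000000000000000000) := T_24 (nat_lit 189) (nat_lit 190) (nat_lit 1) (nat_lit 6) (nat_lit 10) L64384 (by decide +kernel)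
theorem L64386 : W_24 (nat_lit 5) (nat_lit 0x40003c00140012001f8008000000000000000000000000000) (nat_lit 0x0) (nat_lit 0x700030009c00000000000000000000000000000000000000) := T_24 (nat_lit 173) (nat_lit 159) (nat_lit 2) (nat_lit 3) (nat_lit 10) L64385 (by decide +kernel)
theorem L64387 : W_24 (nat_lit 6) (nat_lit 0x3c00140012001f8008000000000000000000000000000) (nat_lit 0x0) (nat_lit 0xc700030009c00000000000000000000000000000000000000) := T_24 (nat_lit 194) (nat_lit 195) (nat_lit 3) (nat_lit 4) (nat_lit 10) L64386 (by decide +kernel)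
theorem L64388 : W_24 (nat_lit 7) (nat_lit 0x3800140012001f8008000000000000000000000000000) (nat_lit 0x0) (nat_lit 0xcf00070009c00000000000000000000000000000000000000) := T_24 (nat_lit 174) (nat_lit 191) (nat_lit 5) (nat_lit 5) (nat_lit 7) L64387 (by decide +kernel)
theorem L64389 : W_24 (nat_lit 8) (nat_lit 0x3800140012001f8000000000000000000000000000000) (nat_lit 0x0) (nat_lit 0xcf00070009c00000000018000000000000000000000000000) := T_24 (nat_lit 111) (nat_lit 112) (nat_lit 2) (nat_lit 6) (nat_lit 7) L64388 (by decide +kernel)
theorem L64390 : W_24 (nat_lit 9) (nat_lit 0x2800140012001f8000000000000000000000000000000) (nat_lit 0x0) (nat_lit 0xef00170009c00000000018000000000000000000000000000) := T_24 (nat_lit 176) (nat_lit 193) (nat_lit 7) (nat_lit 5) (nat_lit 7) L64389 (by decide +kernel)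
theorem L64391 : W_24 (nat_lit 10) (nat_lit 0x2800140012000f8000000000000000000000000000000) (nat_lit 0x0) (nat_lit 0xef00170009c00400100018000000000000000000000000000) := T_24 (nat_lit 128) (nat_lit 142) (nat_lit 1) (nat_lit 9) (nat_lit 7) L64390 (by decide +kernel)
theorem L64392 : W_24 (nat_lit 11) (nat_lit 0x2800140012000b8000000000000000000000000000000) (nat_lit 0x0) (nat_lit 0xef00170009c00500140018000000000000000000000000000) := T_24 (nat_lit 126) (nat_lit 140) (nat_lit 1) (nat_lit 8) (nat_lit 7) L64391 (by decide +kernel)
theorem L64393 : W_24 (nat_lit 12) (nat_lit 0x280014001200098000000000000000000000000000000) (nat_lit 0x0) (nat_lit 0xef00170009c00500160019000000000000000000000000000) := T_24 (nat_lit 125) (nat_lit 108) (nat_lit 6) (nat_lit 5) (nat_lit 10) L64392 (by decide +kernel)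
theorem L64394 : W_24 (nat_lit 13) (nat_lit 0x280014001200090000000000000000000000000000000) (nat_lit 0x0) (nat_lit 0xef00170009c00500168019400000000000000000000000000) := T_24 (nat_lit 123) (nat_lit 106) (nat_lit 4) (nat_lit 5) (nat_lit 10) L64393 (by decide +kernel)
theorem L64395 : W_24 (nat_lit 14) (nat_lit 0x280014001200080000000000000000000000000000000) (nat_lit 0x0) (nat_lit 0xef00170009c00500178019c000a0000000000000000000000) := Q_24 (nat_lit 124) (C_24 L63615 (C_24 L63078 (C_24 L62805 (C_24 L64394 N_24)))) (by decide +kernel)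
theorem L64396 : W_24 (nat_lit 8) (nat_lit 0x280014001200080000000000000000000000000000000) (nat_lit 0x0) (nat_lit 0xa00070003800100008000400078001c000a0000000000000000000000) := Q_24 (nat_lit 124) (C_24 L63615 (C_24 L63078 (C_24 L62805 (C_24 L63075 N_24)))) (by decide +kernel)
theorem L64400 : W_24 (nat_lit 6) (nat_lit 0x280014001200080000000000000000000000000000000) (nat_lit 0x0) (nat_lit 0x50003c00540000000400030001000000000000000000000000000) := Q_24 (nat_lit 192) (C_24 L64363 (C_24 L62853 (C_24 L63483 (C_24 L64399 (C_24 L62885 N_24))))) (by decide +kernel)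
theorem L64401 : W_24 (nat_lit 15) (nat_lit 0x280014001000080000000000000000000000000000000) (nat_lit 0x0) (nat_lit 0x4000e0007000ff00570009c00780178019c000a0000000000000000000000) := Q_24 (nat_lit 141) (C_24 L63867 (C_24 L62905 (C_24 L64380 (C_24 L64381 (C_24 L64382 (C_24 L62951 (C_24 L64395 (C_24 L64396 (C_24 L62809 (C_24 L64400 N_24)))))))))) (by decide +kernel)
theorem L64402 : W_24 (nat_lit 2) (nat_lit 0x380016001000080000000000000000000000000000000) (nat_lit 0x0) (nat_lit 0x9800000000000000000000000000000000000000) := D_24 (nat_lit 156) (nat_lit 155) (nat_lit 159) (nat_lit 3) (nat_lit 2) (nat_lit 9) (nat_lit 3) (nat_lit 3) (nat_lit 9) (by decide +kernel)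
theorem L64403 : W_24 (nat_lit 3) (nat_lit 0x380014001000080000000000000000000000000000000) (nat_lit 0x0) (nat_lit 0x40000b800000000000000000000000000000000000000) := T_24 (nat_lit 157) (nat_lit 178) (nat_lit 0) (nat_lit 8) (nat_lit 10) L64402 (by decide +kernel)
theorem L64404 : W_24 (nat_lit 8) (nat_lit 0x280014001000080000000000000000000000000000000) (nat_lit 0x0) (nat_lit 0xa0005001ff0057800bc00200010000000000000000000000000000000) := Q_24 (nat_lit 176) (C_24 L64403 (C_24 L64288 (C_24 L64309 (C_24 L64293 N_24)))) (by decide +kernel)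
theorem L64405 : W_24 (nat_lit 9) (nat_lit 0x1000280014001000080000000000000000000000000000000) (nat_lit 0x0) (nat_lit 0x50002800140009c007c003f001400000000000000000000000000) := Q_24 (nat_lit 141) (C_24 L64399 (C_24 L64379 (C_24 L64266 N_24))) (by decide +kernel)
theorem L64406 : W_24 (nat_lit 10) (nat_lit 0x280014001000080000000000000000000000000000000) (nat_lit 0x0) (nat_lit 0x14000e00070003c0054000bc007c003f001400000000000000000000000000) := Q_24 (nat_lit 192) (C_24 L64364 (C_24 L64325 (C_24 L64326 (C_24 L64329 (C_24 L64350 (C_24 L64344 (C_24 L64259 (C_24 L64405 N_24)))))))) (by decide +kernel)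
theorem L64407 : W_24 (nat_lit 2) (nat_lit 0x28003f8014001000080000000000000000000000000000000) (nat_lit 0x0) (nat_lit 0x380000000000000000000000000000000000000000000000) := D_24 (nat_lit 188) (nat_lit 187) (nat_lit 189) (nat_lit 1) (nat_lit 4) (nat_lit 10) (nat_lit 1) (nat_lit 5) (nat_lit 10) (by decide +kernel)
theorem L64408 : W_24 (nat_lit 3) (nat_lit 0x28003f0014001000080000000000000000000000000000000) (nat_lit 0x0) (nat_lit 0x380008002000000000000000000000000000000000000000) := T_24 (nat_lit 171) (nat_lit 157) (nat_lit 2) (nat_lit 1) (nat_lit 10) L64407 (by decide +kernel)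
theorem L64409 : W_24 (nat_lit 4) (nat_lit 0x28003e0014001000080000000000000000000000000000000) (nat_lit 0x0) (nat_lit 0x1380018002000000000000000000000000000000000000000) := T_24 (nat_lit 172) (nat_lit 192) (nat_lit 3) (nat_lit 2) (nat_lit 10) L64408 (by decide +kernel)
theorem L64410 : W_24 (nat_lit 5) (nat_lit 0x8003e0014001000080000000000000000000000000000000) (nat_lit 0x0) (nat_lit 0x7380018002000000000000000000000000000000000000000) := T_24 (nat_lit 193) (nat_lit 194) (nat_lit 3) (nat_lit 3) (nat_lit 10) L64409 (by decide +kernel)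
theorem L64411 : W_24 (nat_lit 6) (nat_lit 0x8003c0014001000080000000000000000000000000000000) (nat_lit 0x0) (nat_lit 0x738003800a000000000000000000000000000000000000000) := T_24 (nat_lit 173) (nat_lit 159) (nat_lit 2) (nat_lit 3) (nat_lit 10) L64410 (by decide +kernel)
theorem L64412 : W_24 (nat_lit 7) (nat_lit 0x3c0014001000080000000000000000000000000000000) (nat_lit 0x0) (nat_lit 0x7f8003800a000000000000000000000000000000000000000) := T_24 (nat_lit 191) (nat_lit 190) (nat_lit 1) (nat_lit 7) (nat_lit 10) L64411 (by decide +kernel)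
theorem L64413 : W_24 (nat_lit 2) (nat_lit 0x3e0014001000080000000000000000000000000000000) (nat_lit 0x0) (nat_lit 0xe00000000000000000000000000000000000000000000000) := D_24 (nat_lit 190) (nat_lit 189) (nat_lit 191) (nat_lit 1) (nat_lit 6) (nat_lit 10) (nat_lit 1) (nat_lit 7) (nat_lit 10) (by decide +kernel)
theorem L64414 : W_24 (nat_lit 3) (nat_lit 0x3c0014001000080000000000000000000000000000000) (nat_lit 0x0) (nat_lit 0xe00020008000000000000000000000000000000000000000) := T_24 (nat_lit 173) (nat_lit 159) (nat_lit 2) (nat_lit 3) (nat_lit 10) L64413 (by decide +kernel)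
theorem L64415 : W_24 (nat_lit 8) (nat_lit 0x380014001000080000000000000000000000000000000) (nat_lit 0x0) (nat_lit 0xa0005000ff8007800a000200010000000000000000000000000000000) := Q_24 (nat_lit 174) (C_24 L64282 (C_24 L64308 (C_24 L64298 (C_24 L64412 (C_24 L64414 N_24))))) (by decide +kernel)
theorem L64431 : W_24 (nat_lit 4) (nat_lit 0x3c001e001000080000000000000000000000000000000) (nat_lit 0x0) (nat_lit 0x20001c00000000000180008000000000000000000000000000000) := T_24 (nat_lit 191) (nat_lit 190) (nat_lit 1) (nat_lit 7) (nat_lit 10) L64430 (by decide +kernel)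
theorem L64432 : W_24 (nat_lit 5) (nat_lit 0x38001e001000080000000000000000000000000000000) (nat_lit 0x0) (nat_lit 0x20001c00060000000180008000000000000000000000000000000) := T_24 (nat_lit 174) (nat_lit 173) (nat_lit 2) (nat_lit 3) (nat_lit 10) L64431 (by decide +kernel)
theorem L64433 : W_24 (nat_lit 6) (nat_lit 0x38001c001000080000000000000000000000000000000) (nat_lit 0x0) (nat_lit 0x20001c00460002000180008000000000000000000000000000000) := T_24 (nat_lit 157) (nat_lit 178) (nat_lit 3) (nat_lit 4) (nat_lit 9) L64432 (by decide +kernel)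
theorem L64438 : W_24 (nat_lit 7) (nat_lit 0x380014001000080000000000000000000000000000000) (nat_lit 0x0) (nat_lit 0x200030001c0046000a000780038000400000000000000000000000000) := Q_24 (nat_lit 159) (C_24 L64424 (C_24 L64428 (C_24 L64433 (C_24 L64436 (C_24 L64437 N_24))))) (by decide +kernel)
theorem L64439 : W_24 (nat_lit 6) (nat_lit 0x380014001000080000000000000000000000000000000) (nat_lit 0x0) (nat_lit 0xa0005000fe00460008000200010000000000000000000000000000000) := Q_24 (nat_lit 174) (C_24 L64414 (C_24 L64308 (C_24 L64301 N_24))) (by decide +kernel)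
theorem L64443 : W_24 (nat_lit 6) (nat_lit 0x380014001000080000000000000000000000000000000) (nat_lit 0x0) (nat_lit 0x10000a000d00046000a000780008000400000000000000000000000000) := Q_24 (nat_lit 159) (C_24 L64437 (C_24 L64442 N_24)) (by decide +kernel)
theorem L64444 : W_24 (nat_lit 11) (nat_lit 0x280014001000080000000000000000000000000000000) (nat_lit 0x0) (nat_lit 0x1fe007f001ff8057800a000780078001400000000000000000000000000) := Q_24 (nat_lit 176) (C_24 L64415 (C_24 L64289 (C_24 L64293 (C_24 L64420 (C_24 L64438 (C_24 L64439 (C_24 L64443 N_24))))))) (by decide +kernel)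
theorem L64445 : W_24 (nat_lit 16) (nat_lit 0x200014001000080000000000000000000000000000000) (nat_lit 0x0) (nat_lit 0x1c01ff007f801ff805f800bc007e017f019c000e0000000000000000000000) := Q_24 (nat_lit 175) (C_24 L64231 (C_24 L64277 (C_24 L64280 (C_24 L64310 (C_24 L64312 (C_24 L64324 (C_24 L64365 (C_24 L64370 (C_24 L64401 (C_24 L64404 (C_24 L64406 (C_24 L64444 N_24)))))))))))) (by decide +kernel)
theorem L64448 : W_24 (nat_lit 6) (nat_lit 0x20001c001000080000000000000000000000000000000) (nat_lit 0x0) (nat_lit 0x500038001c0004000000000000c00000000000000000000000000000000000) := T_24 (nat_lit 194) (nat_lit 143) (nat_lit 6) (nat_lit 7) (nat_lit 11) L63978 (by decide +kernel)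
theorem L64449 : W_24 (nat_lit 7) (nat_lit 0x200014001000080000000000000000000000000000000) (nat_lit 0x0) (nat_lit 0x500038001c000400047000b000dc0000000000000000000000000000000000) := Q_24 (nat_lit 159) (C_24 L64447 (C_24 L63963 (C_24 L64448 N_24))) (by decide +kernel)
theorem L64450 : W_24 (nat_lit 8) (nat_lit 0x200014001200090000000000000000000000000000000) (nat_lit 0x0) (nat_lit 0xa000700038001c0008000100028001c00080000000000000000000000) := Q_24 (nat_lit 175) (C_24 L63659 (C_24 L63656 (C_24 L63615 N_24))) (by decide +kernel)
theorem L64451 : W_24 (nat_lit 6) (nat_lit 0x200014001200090000000000000000000000000000000) (nat_lit 0x0) (nat_lit 0xc000200010004c003c000e0005000000000000000000) := Q_24 (nat_lit 107) (C_24 L64138 (C_24 L63647 (C_24 L63652 N_24))) (by decide +kernel)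
theorem L64452 : W_24 (nat_lit 5) (nat_lit 0x200014001200090000000000000000000000000000000) (nat_lit 0x0) (nat_lit 0x40002000100060003c000e0005000000000000000000) := Q_24 (nat_lit 107) (C_24 L64138 (C_24 L63640 (C_24 L63652 N_24))) (by decide +kernel)
theorem L64453 : W_24 (nat_lit 2) (nat_lit 0x2c0014001200090000800000000000000000000000000) (nat_lit 0x0) (nat_lit 0x2000100008000000000000000000000000000000000000000) := D_24 (nat_lit 176) (nat_lit 193) (nat_lit 159) (nat_lit 7) (nat_lit 5) (nat_lit 7) (nat_lit 7) (nat_lit 5) (nat_lit 6) (by decide +kernel)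
theorem L64454 : W_24 (nat_lit 3) (nat_lit 0x2c0014001200090000000000000000000000000000000) (nat_lit 0x0) (nat_lit 0x200010000a000000000000800000000000000000000000000) := T_24 (nat_lit 107) (nat_lit 157) (nat_lit 5) (nat_lit 5) (nat_lit 6) L64453 (by decide +kernel)
theorem L64455 : W_24 (nat_lit 4) (nat_lit 0x280014001200090000000000000000000000000000000) (nat_lit 0x0) (nat_lit 0x280014000a000000000000800000000000000000000000000) := T_24 (nat_lit 174) (nat_lit 191) (nat_lit 5) (nat_lit 5) (nat_lit 7) L64454 (by decide +kernel)
theorem L64456 : W_24 (nat_lit 5) (nat_lit 0x200014001200090000000000000000000000000000000) (nat_lit 0x0) (nat_lit 0x100038001c000a000100008000c00020000000000000000000000) := Q_24 (nat_lit 175) (C_24 L63659 (C_24 L62805 (C_24 L64455 N_24))) (by decide +kernel)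
theorem L64457 : W_24 (nat_lit 14) (nat_lit 0x200014001200090000000000000000000000000000000) (nat_lit 0x0) (nat_lit 0xa0007000ff001f0009c00500168019400000000000000000000000000) := Q_24 (nat_lit 175) (C_24 L64394 (C_24 L63659 (C_24 L63656 (C_24 L63075 (C_24 L62929 (C_24 L62808 N_24)))))) (by decide +kernel)
theorem L64458 : W_24 (nat_lit 4) (nat_lit 0x200014001200090000800000000000000000000000000) (nat_lit 0x0) (nat_lit 0x1000080004000000010000c0004000000000000000000) := T_24 (nat_lit 159) (nat_lit 176) (nat_lit 7) (nat_lit 5) (nat_lit 6) L63980 (by decide +kernel)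
theorem L64459 : W_24 (nat_lit 6) (nat_lit 0x200014001200090000000000000000000000000000000) (nat_lit 0x0) (nat_lit 0x8001c000a00040006c003c000e0004000000000000000000) := Q_24 (nat_lit 107) (C_24 L63651 (C_24 L63643 (C_24 L63647 (C_24 L63640 (C_24 L64458 N_24))))) (by decide +kernel)
theorem L64460 : W_24 (nat_lit 5) (nat_lit 0x200014001200090000000000000000000000000000000) (nat_lit 0x0) (nat_lit 0x38001c000a000500160001800000000000000000000000000) := Q_24 (nat_lit 175) (C_24 L64455 (C_24 L62808 N_24)) (by decide +kernel)
theorem L64461 : W_24 (nat_lit 15) (nat_lit 0x200014001200080000000000000000000000000000000) (nat_lit 0x0) (nat_lit 0xa0007000ff001f000bc0050017c01bc000e0005000000000000000000) := Q_24 (nat_lit 124) (C_24 L63653 (C_24 L64450 (C_24 L64451 (C_24 L64452 (C_24 L63616 (C_24 L64456 (C_24 L64457 (C_24 L64459 (C_24 L64460 N_24))))))))) (by decide +kernel)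
theorem L64462 : W_24 (nat_lit 5) (nat_lit 0x200014001200080000000000000000000000000000000) (nat_lit 0x0) (nat_lit 0x4000000000000d0015c000000000000000000000000000000) := T_24 (nat_lit 143) (nat_lit 194) (nat_lit 6) (nat_lit 7) (nat_lit 11) L63428 (by decide +kernel)
theorem L64463 : W_24 (nat_lit 3) (nat_lit 0x200014001200080000000000000000000000000000000) (nat_lit 0x0) (nat_lit 0x400000000a000c00000000000000000000000000000000000) := T_24 (nat_lit 143) (nat_lit 194) (nat_lit 6) (nat_lit 7) (nat_lit 11) L63429 (by decide +kernel)
theorem L64464 : W_24 (nat_lit 2) (nat_lit 0x3c0014001200090000000000000000000000000000000) (nat_lit 0x0) (nat_lit 0xc000000000000800000000000000000000000000000000000) := D_24 (nat_lit 194) (nat_lit 195) (nat_lit 143) (nat_lit 3) (nat_lit 4) (nat_lit 10) (nat_lit 6) (nat_lit 7) (nat_lit 11) (by decide +kernel)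
theorem L64465 : W_24 (nat_lit 3) (nat_lit 0x380014001200090000000000000000000000000000000) (nat_lit 0x0) (nat_lit 0xc800040000000800000000000000000000000000000000000) := T_24 (nat_lit 174) (nat_lit 191) (nat_lit 5) (nat_lit 5) (nat_lit 7) L64464 (by decide +kernel)
theorem L64466 : W_24 (nat_lit 4) (nat_lit 0x280014001200090000000000000000000000000000000) (nat_lit 0x0) (nat_lit 0xe800140000000800000000000000000000000000000000000) := T_24 (nat_lit 176) (nat_lit 193) (nat_lit 7) (nat_lit 5) (nat_lit 7) L64465 (by decide +kernel)
theorem L64467 : W_24 (nat_lit 8) (nat_lit 0x200014001200090000000000000000000000000000000) (nat_lit 0x0) (nat_lit 0xa0007000f8001c0000000900068001400000000000000000000000000) := Q_24 (nat_lit 175) (C_24 L63659 (C_24 L63656 (C_24 L64466 (C_24 L62800 N_24)))) (by decide +kernel)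
theorem L64468 : W_24 (nat_lit 7) (nat_lit 0x200014001200090000000000000000000000000000000) (nat_lit 0x0) (nat_lit 0x400004000a000800060003c000a0000000000000000000000) := T_24 (nat_lit 143) (nat_lit 194) (nat_lit 6) (nat_lit 7) (nat_lit 11) L40426 (by decide +kernel)
theorem L64469 : W_24 (nat_lit 2) (nat_lit 0x200016001a00090000800040000000000000000000000) (nat_lit 0x0) (nat_lit 0x1000080004000000000000000000) := D_24 (nat_lit 91) (nat_lit 108) (nat_lit 74) (nat_lit 6) (nat_lit 5) (nat_lit 9) (nat_lit 6) (nat_lit 5) (nat_lit 8) (by decide +kernel)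
theorem L64470 : W_24 (nat_lit 3) (nat_lit 0x200016001a00090000800000000000000000000000000) (nat_lit 0x0) (nat_lit 0x1000000010000c0004000000000000000000) := T_24 (nat_lit 90) (nat_lit 140) (nat_lit 5) (nat_lit 5) (nat_lit 5) L64469 (by decide +kernel)
theorem L64471 : W_24 (nat_lit 4) (nat_lit 0x200016001a00090000000000000000000000000000000) (nat_lit 0x0) (nat_lit 0x400000001000000018000c0004000000000000000000) := T_24 (nat_lit 107) (nat_lit 174) (nat_lit 5) (nat_lit 5) (nat_lit 6) L64470 (by decide +kernel)
theorem L64472 : W_24 (nat_lit 5) (nat_lit 0x200014001a00090000000000000000000000000000000) (nat_lit 0x0) (nat_lit 0x4000a0001000000018000c0004000000000000000000) := T_24 (nat_lit 157) (nat_lit 159) (nat_lit 2) (nat_lit 4) (nat_lit 9) L64471 (by decide +kernel)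
theorem L64473 : W_24 (nat_lit 6) (nat_lit 0x200014001200090000000000000000000000000000000) (nat_lit 0x0) (nat_lit 0x400004000a0009000000018000c0004000000000000000000) := T_24 (nat_lit 143) (nat_lit 194) (nat_lit 6) (nat_lit 7) (nat_lit 11) L64472 (by decide +kernel)
theorem L64474 : W_24 (nat_lit 9) (nat_lit 0x200014001200080000000000000000000000000000000) (nat_lit 0x0) (nat_lit 0xa0007000f8001c000a000900078003c000e0005000000000000000000) := Q_24 (nat_lit 124) (C_24 L64452 (C_24 L64456 (C_24 L63616 (C_24 L64467 (C_24 L64468 (C_24 L64473 N_24)))))) (by decide +kernel)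
theorem L64475 : W_24 (nat_lit 16) (nat_lit 0x200014001000080000000000000000000000000000000) (nat_lit 0x0) (nat_lit 0xa0007000ff001f000bc00fc017e01bc000e0005000000000000000000) := Q_24 (nat_lit 141) (C_24 L64461 (C_24 L64462 (C_24 L64463 (C_24 L64474 (C_24 L64120 N_24))))) (by decide +kernel)
theorem L64476 : W_24 (nat_lit 6) (nat_lit 0x280014001200080000000000000000000000000000000) (nat_lit 0x0) (nat_lit 0x2800540003000000078001c00020000000000000000000000) := Q_24 (nat_lit 124) (C_24 L63082 (C_24 L62945 (C_24 L63078 (C_24 L62902 (C_24 L62925 N_24))))) (by decide +kernel)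
theorem L64477 : W_24 (nat_lit 2) (nat_lit 0x380016001200098000000000000000000000000000000) (nat_lit 0x0) (nat_lit 0x40001000000000000800000000000000000000000000) := D_24 (nat_lit 174) (nat_lit 156) (nat_lit 107) (nat_lit 0) (nat_lit 7) (nat_lit 10) (nat_lit 5) (nat_lit 5) (nat_lit 6) (by decide +kernel)
theorem L64478 : W_24 (nat_lit 3) (nat_lit 0x380014001200098000000000000000000000000000000) (nat_lit 0x0) (nat_lit 0x440003000000000000800000000000000000000000000) := T_24 (nat_lit 157) (nat_lit 178) (nat_lit 0) (nat_lit 8) (nat_lit 10) L64477 (by decide +kernel)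
theorem L64479 : W_24 (nat_lit 4) (nat_lit 0x280014001200098000000000000000000000000000000) (nat_lit 0x0) (nat_lit 0x2000540003000000000000800000000000000000000000000) := T_24 (nat_lit 176) (nat_lit 193) (nat_lit 7) (nat_lit 5) (nat_lit 7) L64478 (by decide +kernel)
theorem L64480 : W_24 (nat_lit 5) (nat_lit 0x280014001200090000000000000000000000000000000) (nat_lit 0x0) (nat_lit 0x2000540003000000008000c00000000000000000000000000) := T_24 (nat_lit 123) (nat_lit 106) (nat_lit 4) (nat_lit 5) (nat_lit 10) L64479 (by decide +kernel)
theorem L64481 : W_24 (nat_lit 6) (nat_lit 0x280014001200080000000000000000000000000000000) (nat_lit 0x0) (nat_lit 0x3000540003000500178001c00020000000000000000000000) := Q_24 (nat_lit 124) (C_24 L63078 (C_24 L62929 (C_24 L64480 (C_24 L62808 N_24)))) (by decide +kernel)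
theorem L64482 : W_24 (nat_lit 8) (nat_lit 0x200014001200080000000000000000000000000000000) (nat_lit 0x0) (nat_lit 0x8000e00070003c005c0003000500178001c00020000000000000000000000) := Q_24 (nat_lit 175) (C_24 L64400 (C_24 L63497 (C_24 L64382 (C_24 L63037 (C_24 L64476 (C_24 L64481 N_24)))))) (by decide +kernel)
theorem L64484 : W_24 (nat_lit 4) (nat_lit 0x200014001a00080000000000000000000000000000000) (nat_lit 0x0) (nat_lit 0x200050005c000000000000000000000000000000) := T_24 (nat_lit 142) (nat_lit 157) (nat_lit 1) (nat_lit 8) (nat_lit 8) L63427 (by decide +kernel)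
theorem L64485 : W_24 (nat_lit 5) (nat_lit 0x200014001200080000000000000000000000000000000) (nat_lit 0x0) (nat_lit 0x4000000002000d0005c000000000000000000000000000000) := T_24 (nat_lit 143) (nat_lit 194) (nat_lit 6) (nat_lit 7) (nat_lit 11) L64484 (by decide +kernel)
theorem L64486 : W_24 (nat_lit 2) (nat_lit 0x40002c00160012000f0000000000000000000000000000000) (nat_lit 0x0) (nat_lit 0x8000500000000000000000000000000000000000000000000) := D_24 (nat_lit 176) (nat_lit 195) (nat_lit 178) (nat_lit 3) (nat_lit 4) (nat_lit 10) (nat_lit 0) (nat_lit 8) (nat_lit 10) (by decide +kernel)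
theorem L64487 : W_24 (nat_lit 3) (nat_lit 0x40002c00140012000f0000000000000000000000000000000) (nat_lit 0x0) (nat_lit 0x8000500002000000000000800000000000000000000000000) := T_24 (nat_lit 157) (nat_lit 107) (nat_lit 5) (nat_lit 5) (nat_lit 6) L64486 (by decide +kernel)
theorem L64488 : W_24 (nat_lit 4) (nat_lit 0x40002800140012000f0000000000000000000000000000000) (nat_lit 0x0) (nat_lit 0x8800540002000000000000800000000000000000000000000) := T_24 (nat_lit 174) (nat_lit 191) (nat_lit 5) (nat_lit 5) (nat_lit 7) L64487 (by decide +kernel)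
theorem L64489 : W_24 (nat_lit 5) (nat_lit 0x40002800140012000b0000000000000000000000000000000) (nat_lit 0x0) (nat_lit 0x8800540002000100040000800000000000000000000000000) := T_24 (nat_lit 126) (nat_lit 140) (nat_lit 1) (nat_lit 8) (nat_lit 7) L64488 (by decide +kernel)
theorem L64490 : W_24 (nat_lit 6) (nat_lit 0x4000280014001200090000000000000000000000000000000) (nat_lit 0x0) (nat_lit 0x8800540002000100060001800000000000000000000000000) := T_24 (nat_lit 125) (nat_lit 108) (nat_lit 6) (nat_lit 5) (nat_lit 10) L64489 (by decide +kernel)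
theorem L64491 : W_24 (nat_lit 7) (nat_lit 0x280014001200090000000000000000000000000000000) (nat_lit 0x0) (nat_lit 0xc800540002000900060001800000000000000000000000000) := T_24 (nat_lit 194) (nat_lit 143) (nat_lit 6) (nat_lit 7) (nat_lit 11) L64490 (by decide +kernel)
theorem L64492 : W_24 (nat_lit 8) (nat_lit 0x280014001200080000000000000000000000000000000) (nat_lit 0x0) (nat_lit 0x1000d800540002000900078001c00020000000000000000000000) := Q_24 (nat_lit 124) (C_24 L63659 (C_24 L63078 (C_24 L63082 (C_24 L64491 N_24)))) (by decide +kernel)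
theorem L64505 : W_24 (nat_lit 14) (nat_lit 0x280014001200080000000000000000000000000000000) (nat_lit 0x0) (nat_lit 0x8001f003e001f000fc00500002000900018000400000000000000000000000000) := Q_24 (nat_lit 192) (C_24 L63491 (C_24 L64379 (C_24 L64504 (C_24 L63759 (C_24 L62885 N_24))))) (by decide +kernel)
theorem L64506 : W_24 (nat_lit 2) (nat_lit 0x5800280014001200080000000000000000000000000000000) (nat_lit 0x0) (nat_lit 0x2000500000000000000000000000000000000000000000000) := D_24 (nat_lit 178) (nat_lit 193) (nat_lit 176) (nat_lit 2) (nat_lit 4) (nat_lit 11) (nat_lit 1) (nat_lit 8) (nat_lit 10) (by decide +kernel)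
theorem L64507 : W_24 (nat_lit 3) (nat_lit 0x5000280014001200080000000000000000000000000000000) (nat_lit 0x0) (nat_lit 0x10002800500000000000000000000000000000000000000000000) := T_24 (nat_lit 191) (nat_lit 208) (nat_lit 5) (nat_lit 5) (nat_lit 8) L64506 (by decide +kernel)
theorem L64508 : W_24 (nat_lit 4) (nat_lit 0x1000280014001200080000000000000000000000000000000) (nat_lit 0x0) (nat_lit 0x10006800500000000800000000000000000000000000000000000) := T_24 (nat_lit 194) (nat_lit 143) (nat_lit 6) (nat_lit 7) (nat_lit 11) L64507 (by decide +kernel)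
theorem L64509 : W_24 (nat_lit 14) (nat_lit 0x280014001200080000000000000000000000000000000) (nat_lit 0x0) (nat_lit 0x8001f003e001f000f800500002000900008000000000000000000000000000000) := Q_24 (nat_lit 192) (C_24 L63491 (C_24 L64504 (C_24 L64508 N_24))) (by decide +kernel)
theorem L64510 : W_24 (nat_lit 8) (nat_lit 0x280014001200080000000000000000000000000000000) (nat_lit 0x0) (nat_lit 0xa0007000f800140000000900078001c00020000000000000000000000) := Q_24 (nat_lit 124) (C_24 L64466 (C_24 L63659 (C_24 L63656 (C_24 L63078 N_24)))) (by decide +kernel)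
theorem L64511 : W_24 (nat_lit 2) (nat_lit 0x40003800140012000f0000800000000000000000000000000) (nat_lit 0x0) (nat_lit 0x8000040002000000000000000000000000000000000000000) := D_24 (nat_lit 174) (nat_lit 195) (nat_lit 157) (nat_lit 3) (nat_lit 4) (nat_lit 10) (nat_lit 5) (nat_lit 5) (nat_lit 6) (by decide +kernel)
theorem L64512 : W_24 (nat_lit 3) (nat_lit 0x40002800140012000f0000800000000000000000000000000) (nat_lit 0x0) (nat_lit 0xa000140002000000000000000000000000000000000000000) := T_24 (nat_lit 176) (nat_lit 193) (nat_lit 7) (nat_lit 5) (nat_lit 7) L64511 (by decide +kernel)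
theorem L64513 : W_24 (nat_lit 4) (nat_lit 0x40002800140012000f0000000000000000000000000000000) (nat_lit 0x0) (nat_lit 0xa000140002000000000000c00000000000000000000000000) := T_24 (nat_lit 107) (nat_lit 106) (nat_lit 0) (nat_lit 8) (nat_lit 7) L64512 (by decide +kernel)
theorem L64514 : W_24 (nat_lit 5) (nat_lit 0x40002800140012000b0000000000000000000000000000000) (nat_lit 0x0) (nat_lit 0xa000140002000100040000c00000000000000000000000000) := T_24 (nat_lit 126) (nat_lit 140) (nat_lit 1) (nat_lit 8) (nat_lit 7) L64513 (by decide +kernel)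
theorem L64515 : W_24 (nat_lit 6) (nat_lit 0x4000280014001200090000000000000000000000000000000) (nat_lit 0x0) (nat_lit 0xa000140002000100060001c00000000000000000000000000) := T_24 (nat_lit 125) (nat_lit 108) (nat_lit 6) (nat_lit 5) (nat_lit 10) L64514 (by decide +kernel)
theorem L64516 : W_24 (nat_lit 7) (nat_lit 0x280014001200090000000000000000000000000000000) (nat_lit 0x0) (nat_lit 0xe000140002000900060001c00000000000000000000000000) := T_24 (nat_lit 194) (nat_lit 143) (nat_lit 6) (nat_lit 7) (nat_lit 11) L64515 (by decide +kernel)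
theorem L64517 : W_24 (nat_lit 2) (nat_lit 0x4000780014001200090000000000000000000000000000000) (nat_lit 0x0) (nat_lit 0x18000040000000000000000000000000000000000000000000) := D_24 (nat_lit 195) (nat_lit 174) (nat_lit 196) (nat_lit 3) (nat_lit 4) (nat_lit 10) (nat_lit 3) (nat_lit 5) (nat_lit 10) (by decide +kernel)
theorem L64518 : W_24 (nat_lit 3) (nat_lit 0x780014001200090000000000000000000000000000000) (nat_lit 0x0) (nat_lit 0x1c000040000000800000000000000000000000000000000000) := T_24 (nat_lit 194) (nat_lit 143) (nat_lit 6) (nat_lit 7) (nat_lit 11) L64517 (by decide +kernel)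
theorem L64519 : W_24 (nat_lit 4) (nat_lit 0x380014001200090000000000000000000000000000000) (nat_lit 0x0) (nat_lit 0x1c000440002000800000000000000000000000000000000000) := T_24 (nat_lit 178) (nat_lit 157) (nat_lit 0) (nat_lit 8) (nat_lit 10) L64518 (by decide +kernel)
theorem L64520 : W_24 (nat_lit 5) (nat_lit 0x280014001200090000000000000000000000000000000) (nat_lit 0x0) (nat_lit 0x1e000540002000800000000000000000000000000000000000) := T_24 (nat_lit 176) (nat_lit 193) (nat_lit 7) (nat_lit 5) (nat_lit 7) L64519 (by decide +kernel)
theorem L64521 : W_24 (nat_lit 8) (nat_lit 0x280014001200080000000000000000000000000000000) (nat_lit 0x0) (nat_lit 0x1f000540003000900078001c00020000000000000000000000) := Q_24 (nat_lit 124) (C_24 L63078 (C_24 L64480 (C_24 L62800 (C_24 L64516 (C_24 L64520 N_24))))) (by decide +kernel)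
theorem L64522 : W_24 (nat_lit 2) (nat_lit 0x40003c0014001200080000000000000000000000000000000) (nat_lit 0x0) (nat_lit 0x400003000000000000000000000000000000000000000) := D_24 (nat_lit 157) (nat_lit 178) (nat_lit 156) (nat_lit 0) (nat_lit 8) (nat_lit 10) (nat_lit 0) (nat_lit 7) (nat_lit 10) (by decide +kernel)
theorem L64523 : W_24 (nat_lit 3) (nat_lit 0x4000380014001200080000000000000000000000000000000) (nat_lit 0x0) (nat_lit 0x8000440003000000000000000000000000000000000000000) := T_24 (nat_lit 174) (nat_lit 195) (nat_lit 3) (nat_lit 4) (nat_lit 10) L64522 (by decide +kernel)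
theorem L64524 : W_24 (nat_lit 4) (nat_lit 0x380014001200080000000000000000000000000000000) (nat_lit 0x0) (nat_lit 0xc000440003000800000000000000000000000000000000000) := T_24 (nat_lit 194) (nat_lit 143) (nat_lit 6) (nat_lit 7) (nat_lit 11) L64523 (by decide +kernel)
theorem L64525 : W_24 (nat_lit 2) (nat_lit 0x7800140012000f0000800000000000000000000000000) (nat_lit 0x0) (nat_lit 0xc000000000000800000000000000000000000000000000000) := D_24 (nat_lit 143) (nat_lit 194) (nat_lit 195) (nat_lit 6) (nat_lit 7) (nat_lit 11) (nat_lit 7) (nat_lit 7) (nat_lit 7) (by decide +kernel)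
theorem L64526 : W_24 (nat_lit 3) (nat_lit 0x3800140012000f0000800000000000000000000000000) (nat_lit 0x0) (nat_lit 0xc000400002000800000000000000000000000000000000000) := T_24 (nat_lit 178) (nat_lit 157) (nat_lit 0) (nat_lit 8) (nat_lit 10) L64525 (by decide +kernel)
theorem L64527 : W_24 (nat_lit 4) (nat_lit 0x3800140012000f0000000000000000000000000000000) (nat_lit 0x0) (nat_lit 0xc000400002000800000000c00000000000000000000000000) := T_24 (nat_lit 107) (nat_lit 106) (nat_lit 0) (nat_lit 8) (nat_lit 7) L64526 (by decide +kernel)
theorem L64528 : W_24 (nat_lit 5) (nat_lit 0x3800140012000b0000000000000000000000000000000) (nat_lit 0x0) (nat_lit 0xc000400002000900040000c00000000000000000000000000) := T_24 (nat_lit 126) (nat_lit 140) (nat_lit 1) (nat_lit 8) (nat_lit 7) L64527 (by decide +kernel)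
theorem L64529 : W_24 (nat_lit 6) (nat_lit 0x380014001200090000000000000000000000000000000) (nat_lit 0x0) (nat_lit 0xc000400002000900060001c00000000000000000000000000) := T_24 (nat_lit 125) (nat_lit 108) (nat_lit 6) (nat_lit 5) (nat_lit 10) L64528 (by decide +kernel)
theorem L64530 : W_24 (nat_lit 7) (nat_lit 0x380014001200080000000000000000000000000000000) (nat_lit 0x0) (nat_lit 0xe000400002000900070001c00000000000000000000000000) := T_24 (nat_lit 124) (nat_lit 193) (nat_lit 7) (nat_lit 5) (nat_lit 7) L64529 (by decide +kernel)
theorem L64531 : W_24 (nat_lit 3) (nat_lit 0x4000380014001200080000000000000000000000000000000) (nat_lit 0x0) (nat_lit 0xa000060000000000010000000000000000000000000000000) := T_24 (nat_lit 174) (nat_lit 195) (nat_lit 3) (nat_lit 4) (nat_lit 10) L54662 (by decide +kernel)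
theorem L64532 : W_24 (nat_lit 4) (nat_lit 0x380014001200080000000000000000000000000000000) (nat_lit 0x0) (nat_lit 0xe000060000000800010000000000000000000000000000000) := T_24 (nat_lit 194) (nat_lit 143) (nat_lit 6) (nat_lit 7) (nat_lit 11) L64531 (by decide +kernel)
theorem L64533 : W_24 (nat_lit 8) (nat_lit 0x280014001200080000000000000000000000000000000) (nat_lit 0x0) (nat_lit 0xe800560003000900070001c00000000000000000000000000) := Q_24 (nat_lit 176) (C_24 L64524 (C_24 L64024 (C_24 L64530 (C_24 L64532 N_24)))) (by decide +kernel)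
theorem L64534 : W_24 (nat_lit 15) (nat_lit 0x200014001200080000000000000000000000000000000) (nat_lit 0x0) (nat_lit 0x8001f003e001f001fc005e0003000900078001c00020000000000000000000000) := Q_24 (nat_lit 175) (C_24 L64476 (C_24 L63497 (C_24 L64492 (C_24 L64505 (C_24 L64509 (C_24 L64510 (C_24 L64521 (C_24 L64533 N_24)))))))) (by decide +kernel)
theorem L64535 : W_24 (nat_lit 16) (nat_lit 0x200014001000080000000000000000000000000000000) (nat_lit 0x0) (nat_lit 0x8001f003e001f001fc005e0003000f0017c001c00020000000000000000000000) := Q_24 (nat_lit 141) (C_24 L64482 (C_24 L64462 (C_24 L64483 (C_24 L64485 (C_24 L64534 N_24))))) (by decide +kernel)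
theorem L64536 : W_24 (nat_lit 2) (nat_lit 0x4000380016001000080000000000000000000000000000000) (nat_lit 0x0) (nat_lit 0x8000040001000000000000000000000000000000000000000) := D_24 (nat_lit 174) (nat_lit 156) (nat_lit 195) (nat_lit 0) (nat_lit 7) (nat_lit 10) (nat_lit 3) (nat_lit 4) (nat_lit 10) (by decide +kernel)
theorem L64537 : W_24 (nat_lit 3) (nat_lit 0x4000300016001000080000000000000000000000000000000) (nat_lit 0x0) (nat_lit 0x80004c0001000000000000000000000000000000000000000) := T_24 (nat_lit 175) (nat_lit 178) (nat_lit 0) (nat_lit 8) (nat_lit 10) L64536 (by decide +kernel)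
theorem L64538 : W_24 (nat_lit 4) (nat_lit 0x300016001000080000000000000000000000000000000) (nat_lit 0x0) (nat_lit 0xc0004c0001000800000000000000000000000000000000000) := T_24 (nat_lit 194) (nat_lit 143) (nat_lit 6) (nat_lit 7) (nat_lit 11) L64537 (by decide +kernel)
theorem L64539 : W_24 (nat_lit 2) (nat_lit 0x300016001a000f0000000000000000000000000000000) (nat_lit 0x0) (nat_lit 0x40000000000000000c00000000000000000000000000) := D_24 (nat_lit 107) (nat_lit 106) (nat_lit 174) (nat_lit 0) (nat_lit 8) (nat_lit 7) (nat_lit 5) (nat_lit 5) (nat_lit 6) (by decide +kernel)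
theorem L64540 : W_24 (nat_lit 3) (nat_lit 0x3000160018000f0000000000000000000000000000000) (nat_lit 0x0) (nat_lit 0x40000000300000000c00000000000000000000000000) := T_24 (nat_lit 141) (nat_lit 140) (nat_lit 1) (nat_lit 8) (nat_lit 7) L64539 (by decide +kernel)
theorem L64541 : W_24 (nat_lit 4) (nat_lit 0x3000160018000e0000000000000000000000000000000) (nat_lit 0x0) (nat_lit 0x40000000300018000c00000000000000000000000000) := T_24 (nat_lit 124) (nat_lit 123) (nat_lit 3) (nat_lit 4) (nat_lit 7) L64540 (by decide +kernel)
theorem L64542 : W_24 (nat_lit 5) (nat_lit 0x3000160018000c0000000000000000000000000000000) (nat_lit 0x0) (nat_lit 0x40000000300038001c00000000000000000000000000) := T_24 (nat_lit 125) (nat_lit 108) (nat_lit 4) (nat_lit 7) (nat_lit 10) L64541 (by decide +kernel)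
theorem L64543 : W_24 (nat_lit 6) (nat_lit 0x300016001800080000000000000000000000000000000) (nat_lit 0x0) (nat_lit 0x2000040000000300078001c00000000000000000000000000) := T_24 (nat_lit 126) (nat_lit 193) (nat_lit 5) (nat_lit 7) (nat_lit 7) L64542 (by decide +kernel)
theorem L64544 : W_24 (nat_lit 7) (nat_lit 0x300016001000080000000000000000000000000000000) (nat_lit 0x0) (nat_lit 0x6000040000000b00078001c00000000000000000000000000) := T_24 (nat_lit 143) (nat_lit 194) (nat_lit 6) (nat_lit 7) (nat_lit 11) L64543 (by decide +kernel)
theorem L64546 : W_24 (nat_lit 2) (nat_lit 0x700016001800080000000000000000000000000000000) (nat_lit 0x0) (nat_lit 0xa000000000000000040000000000000000000000000000000) := D_24 (nat_lit 126) (nat_lit 193) (nat_lit 195) (nat_lit 5) (nat_lit 7) (nat_lit 7) (nat_lit 7) (nat_lit 7) (nat_lit 7) (by decide +kernel)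
theorem L64547 : W_24 (nat_lit 3) (nat_lit 0x700016001000080000000000000000000000000000000) (nat_lit 0x0) (nat_lit 0xe000000000000800040000000000000000000000000000000) := T_24 (nat_lit 143) (nat_lit 194) (nat_lit 6) (nat_lit 7) (nat_lit 11) L64546 (by decide +kernel)
theorem L64548 : W_24 (nat_lit 4) (nat_lit 0x300016001000080000000000000000000000000000000) (nat_lit 0x0) (nat_lit 0xe000480000000800040000000000000000000000000000000) := T_24 (nat_lit 178) (nat_lit 175) (nat_lit 0) (nat_lit 8) (nat_lit 10) L64547 (by decide +kernel)
theorem L64549 : W_24 (nat_lit 8) (nat_lit 0x200016001000080000000000000000000000000000000) (nat_lit 0x0) (nat_lit 0xe0005c0001800b00078001c00000000000000000000000000) := Q_24 (nat_lit 176) (C_24 L64538 (C_24 L64544 (C_24 L64545 (C_24 L64548 N_24)))) (by decide +kernel)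
theorem L64550 : W_24 (nat_lit 9) (nat_lit 0x200014001000080000000000000000000000000000000) (nat_lit 0x0) (nat_lit 0xe0005f000b800bc0078001c00000000000000000000000000) := Q_24 (nat_lit 157) (C_24 L64042 (C_24 L64549 (C_24 L64446 N_24))) (by decide +kernel)
theorem L64551 : W_24 (nat_lit 4) (nat_lit 0x20001c001000080000000000000000000000000000000) (nat_lit 0x0) (nat_lit 0x5000030001c0000000000000000000000000000000000) := T_24 (nat_lit 157) (nat_lit 178) (nat_lit 3) (nat_lit 4) (nat_lit 9) L63965 (by decide +kernel)
theorem L64552 : W_24 (nat_lit 7) (nat_lit 0x200014001000080000000000000000000000000000000) (nat_lit 0x0) (nat_lit 0x500038001c000400050000b000dc0000000000000000000000000000000000) := Q_24 (nat_lit 159) (C_24 L64551 (C_24 L64448 N_24)) (by decide +kernel)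
theorem L64553 : W_24 (nat_lit 2) (nat_lit 0x2000780020001c001400080000000000000000000000000000000) (nat_lit 0x0) (nat_lit 0x18008000000000000000000000000000000000000000000000000) := D_24 (nat_lit 208) (nat_lit 207) (nat_lit 195) (nat_lit 1) (nat_lit 7) (nat_lit 11) (nat_lit 1) (nat_lit 8) (nat_lit 11) (by decide +kernel)
theorem L64554 : W_24 (nat_lit 3) (nat_lit 0x2000700020001c001400080000000000000000000000000000000) (nat_lit 0x0) (nat_lit 0x18008800400000000000000000000000000000000000000000000) := T_24 (nat_lit 191) (nat_lit 178) (nat_lit 2) (nat_lit 4) (nat_lit 11) L64553 (by decide +kernel)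
theorem L64555 : W_24 (nat_lit 4) (nat_lit 0x2000500020001c001400080000000000000000000000000000000) (nat_lit 0x0) (nat_lit 0x1800a800500000000000000000000000000000000000000000000) := T_24 (nat_lit 193) (nat_lit 176) (nat_lit 5) (nat_lit 6) (nat_lit 8) L64554 (by decide +kernel)
theorem L64556 : W_24 (nat_lit 5) (nat_lit 0x500020001c001400080000000000000000000000000000000) (nat_lit 0x0) (nat_lit 0x3800a800580000000000000000000000000000000000000000000) := T_24 (nat_lit 209) (nat_lit 175) (nat_lit 6) (nat_lit 5) (nat_lit 12) L64555 (by decide +kernel)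
theorem L64557 : W_24 (nat_lit 6) (nat_lit 0x100020001c001400080000000000000000000000000000000) (nat_lit 0x0) (nat_lit 0xb800e800580000000000000000000000000000000000000000000) := T_24 (nat_lit 194) (nat_lit 211) (nat_lit 4) (nat_lit 7) (nat_lit 12) L64556 (by decide +kernel)
theorem L64558 : W_24 (nat_lit 15) (nat_lit 0x200014001200080000000000000000000000000000000) (nat_lit 0x0) (nat_lit 0x4000e0007000ff005f0009c00580178019c000a0000000000000000000000) := Q_24 (nat_lit 175) (C_24 L64400 (C_24 L64382 (C_24 L64380 (C_24 L63867 (C_24 L62951 (C_24 L64395 (C_24 L62809 N_24))))))) (by decide +kernel)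
theorem L64559 : W_24 (nat_lit 2) (nat_lit 0x280014001e00090000000000000000000000000000000) (nat_lit 0x0) (nat_lit 0x1000000000000000020001000000000000000000000000000) := D_24 (nat_lit 125) (nat_lit 192) (nat_lit 108) (nat_lit 6) (nat_lit 5) (nat_lit 11) (nat_lit 6) (nat_lit 5) (nat_lit 10) (by decide +kernel)
theorem L64560 : W_24 (nat_lit 3) (nat_lit 0x280014001e00080000000000000000000000000000000) (nat_lit 0x0) (nat_lit 0x1000000000000000038001000000000000000000000000000) := T_24 (nat_lit 124) (nat_lit 123) (nat_lit 0) (nat_lit 8) (nat_lit 8) L64559 (by decide +kernel)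
theorem L64561 : W_24 (nat_lit 4) (nat_lit 0x280014001a00080000000000000000000000000000000) (nat_lit 0x0) (nat_lit 0x1000000000000400138001000000000000000000000000000) := T_24 (nat_lit 142) (nat_lit 128) (nat_lit 2) (nat_lit 5) (nat_lit 8) L64560 (by decide +kernel)
theorem L64562 : W_24 (nat_lit 5) (nat_lit 0x280014001200080000000000000000000000000000000) (nat_lit 0x0) (nat_lit 0x5000000000000c00138001000000000000000000000000000) := T_24 (nat_lit 143) (nat_lit 194) (nat_lit 6) (nat_lit 7) (nat_lit 11) L64561 (by decide +kernel)
theorem L64563 : W_24 (nat_lit 2) (nat_lit 0x380014001e00090000800000000000000000000000000) (nat_lit 0x0) (nat_lit 0x20001000080000000000000000000000) := D_24 (nat_lit 108) (nat_lit 91) (nat_lit 125) (nat_lit 6) (nat_lit 5) (nat_lit 9) (nat_lit 6) (nat_lit 5) (nat_lit 10) (by decide +kernel)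
theorem L64564 : W_24 (nat_lit 3) (nat_lit 0x380014001e00090000000000000000000000000000000) (nat_lit 0x0) (nat_lit 0x8000000020001800080000000000000000000000) := T_24 (nat_lit 107) (nat_lit 159) (nat_lit 7) (nat_lit 5) (nat_lit 6) L64563 (by decide +kernel)
theorem L64565 : W_24 (nat_lit 4) (nat_lit 0x280014001e00090000000000000000000000000000000) (nat_lit 0x0) (nat_lit 0x2000100008000000020001800080000000000000000000000) := T_24 (nat_lit 176) (nat_lit 193) (nat_lit 7) (nat_lit 5) (nat_lit 7) L64564 (by decide +kernel)
theorem L64566 : W_24 (nat_lit 5) (nat_lit 0x280014001e00080000000000000000000000000000000) (nat_lit 0x0) (nat_lit 0x2000100008000000038001800080000000000000000000000) := T_24 (nat_lit 124) (nat_lit 123) (nat_lit 0) (nat_lit 8) (nat_lit 8) L64565 (by decide +kernel)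
theorem L64567 : W_24 (nat_lit 6) (nat_lit 0x280014001a00080000000000000000000000000000000) (nat_lit 0x0) (nat_lit 0x2000100008000400138001800080000000000000000000000) := T_24 (nat_lit 142) (nat_lit 128) (nat_lit 2) (nat_lit 5) (nat_lit 8) L64566 (by decide +kernel)
theorem L64568 : W_24 (nat_lit 7) (nat_lit 0x280014001200080000000000000000000000000000000) (nat_lit 0x0) (nat_lit 0x6000100008000c00138001800080000000000000000000000) := T_24 (nat_lit 143) (nat_lit 194) (nat_lit 6) (nat_lit 7) (nat_lit 11) L64567 (by decide +kernel)
theorem L64569 : W_24 (nat_lit 9) (nat_lit 0x200014001200080000000000000000000000000000000) (nat_lit 0x0) (nat_lit 0x4000e00070007c005c0008000d80138001c00080000000000000000000000) := Q_24 (nat_lit 175) (C_24 L64400 (C_24 L62905 (C_24 L64380 (C_24 L63856 (C_24 L64562 (C_24 L62951 (C_24 L64568 N_24))))))) (by decide +kernel)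
theorem L64570 : W_24 (nat_lit 6) (nat_lit 0x200014001a00090000000000000000000000000000000) (nat_lit 0x0) (nat_lit 0x9c005c0068000000000000000000000000000000) := T_24 (nat_lit 142) (nat_lit 123) (nat_lit 0) (nat_lit 8) (nat_lit 8) L62688 (by decide +kernel)
theorem L64571 : W_24 (nat_lit 7) (nat_lit 0x200014001200090000000000000000000000000000000) (nat_lit 0x0) (nat_lit 0x4000000009c00dc0068000000000000000000000000000000) := T_24 (nat_lit 143) (nat_lit 194) (nat_lit 6) (nat_lit 7) (nat_lit 11) L64570 (by decide +kernel)
theorem L64572 : W_24 (nat_lit 2) (nat_lit 0x200014801f80092000000000000000000000000000000) (nat_lit 0x0) (nat_lit 0x400040001000000000000000000000000000000) := D_24 (nat_lit 138) (nat_lit 154) (nat_lit 120) (nat_lit 1) (nat_lit 5) (nat_lit 8) (nat_lit 0) (nat_lit 5) (nat_lit 8) (by decide +kernel)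
theorem L64573 : W_24 (nat_lit 3) (nat_lit 0x200014801f80090000000000000000000000000000000) (nat_lit 0x0) (nat_lit 0x400040007000000000000000000000000000000) := T_24 (nat_lit 121) (nat_lit 122) (nat_lit 0) (nat_lit 6) (nat_lit 8) L64572 (by decide +kernel)
theorem L64574 : W_24 (nat_lit 4) (nat_lit 0x200014001f80090000000000000000000000000000000) (nat_lit 0x0) (nat_lit 0x1c00040007000000000000000000000000000000) := T_24 (nat_lit 155) (nat_lit 156) (nat_lit 1) (nat_lit 6) (nat_lit 8) L64573 (by decide +kernel)
theorem L64575 : W_24 (nat_lit 5) (nat_lit 0x200014001f00090000000000000000000000000000000) (nat_lit 0x0) (nat_lit 0x9c000c0007000000000000000000000000000000) := T_24 (nat_lit 139) (nat_lit 159) (nat_lit 3) (nat_lit 3) (nat_lit 8) L64574 (by decide +kernel)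
theorem L64576 : W_24 (nat_lit 6) (nat_lit 0x200014001e00090000000000000000000000000000000) (nat_lit 0x0) (nat_lit 0x9c001c0047000000000000000000000000000000) := T_24 (nat_lit 140) (nat_lit 126) (nat_lit 2) (nat_lit 4) (nat_lit 8) L64575 (by decide +kernel)
theorem L64577 : W_24 (nat_lit 7) (nat_lit 0x200014001a00090000000000000000000000000000000) (nat_lit 0x0) (nat_lit 0x9c005c004f000000000000000000000000000000) := T_24 (nat_lit 142) (nat_lit 123) (nat_lit 0) (nat_lit 8) (nat_lit 8) L64576 (by decide +kernel)
theorem L64578 : W_24 (nat_lit 8) (nat_lit 0x200014001200090000000000000000000000000000000) (nat_lit 0x0) (nat_lit 0x4000000009c00dc004f000000000000000000000000000000) := T_24 (nat_lit 143) (nat_lit 194) (nat_lit 6) (nat_lit 7) (nat_lit 11) L64577 (by decide +kernel)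
theorem L64579 : W_24 (nat_lit 2) (nat_lit 0x200014001a000b8000000000000000000000000000000) (nat_lit 0x0) (nat_lit 0x80000000000000001400000000000000000000000000) := D_24 (nat_lit 175) (nat_lit 106) (nat_lit 108) (nat_lit 4) (nat_lit 5) (nat_lit 10) (nat_lit 6) (nat_lit 5) (nat_lit 10) (by decide +kernel)
theorem L64580 : W_24 (nat_lit 3) (nat_lit 0x200014001a00098000000000000000000000000000000) (nat_lit 0x0) (nat_lit 0x80000000000060001400000000000000000000000000) := T_24 (nat_lit 125) (nat_lit 126) (nat_lit 3) (nat_lit 4) (nat_lit 7) L64579 (by decide +kernel)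
theorem L64581 : W_24 (nat_lit 4) (nat_lit 0x200014001a00090000000000000000000000000000000) (nat_lit 0x0) (nat_lit 0x80000000400068001400000000000000000000000000) := T_24 (nat_lit 123) (nat_lit 142) (nat_lit 0) (nat_lit 8) (nat_lit 8) L64580 (by decide +kernel)
theorem L64582 : W_24 (nat_lit 5) (nat_lit 0x200014001200090000000000000000000000000000000) (nat_lit 0x0) (nat_lit 0x4000080000000c00068001400000000000000000000000000) := T_24 (nat_lit 143) (nat_lit 194) (nat_lit 6) (nat_lit 7) (nat_lit 11) L64581 (by decide +kernel)
theorem L64583 : W_24 (nat_lit 2) (nat_lit 0x400020001c001200090000800000000000000000000000000) (nat_lit 0x0) (nat_lit 0x80000000000000000400000000000040000000000000000000000) := D_24 (nat_lit 142) (nat_lit 90) (nat_lit 211) (nat_lit 7) (nat_lit 5) (nat_lit 5) (nat_lit 4) (nat_lit 7) (nat_lit 12) (by decide +kernel)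
theorem L64584 : W_24 (nat_lit 3) (nat_lit 0x4000200014001200090000800000000000000000000000000) (nat_lit 0x0) (nat_lit 0x80000000100008000400000000000040000000000000000000000) := T_24 (nat_lit 159) (nat_lit 176) (nat_lit 7) (nat_lit 5) (nat_lit 6) L64583 (by decide +kernel)
theorem L64585 : W_24 (nat_lit 4) (nat_lit 0x200014001200090000800000000000000000000000000) (nat_lit 0x0) (nat_lit 0x80004000100008000c00000000000040000000000000000000000) := T_24 (nat_lit 194) (nat_lit 143) (nat_lit 6) (nat_lit 7) (nat_lit 11) L64584 (by decide +kernel)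
theorem L64586 : W_24 (nat_lit 5) (nat_lit 0x200014001200090000000000000000000000000000000) (nat_lit 0x0) (nat_lit 0x80004000100008000c00060003c000e0004000000000000000000) := Q_24 (nat_lit 107) (C_24 L63640 (C_24 L64458 (C_24 L64585 N_24))) (by decide +kernel)
theorem L64587 : W_24 (nat_lit 9) (nat_lit 0x200014001200080000000000000000000000000000000) (nat_lit 0x0) (nat_lit 0xa000f000f8001c0009c00dc007f003c000e0004000000000000000000) := Q_24 (nat_lit 124) (C_24 L64450 (C_24 L64467 (C_24 L64571 (C_24 L64578 (C_24 L64582 (C_24 L64586 N_24)))))) (by decide +kernel)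
theorem L64588 : W_24 (nat_lit 2) (nat_lit 0x58002800140012000f0000800000000000000000000000000) (nat_lit 0x0) (nat_lit 0x40002000400000000000000000000000000000000000000000000) := D_24 (nat_lit 193) (nat_lit 178) (nat_lit 210) (nat_lit 2) (nat_lit 4) (nat_lit 11) (nat_lit 7) (nat_lit 5) (nat_lit 8) (by decide +kernel)
theorem L64589 : W_24 (nat_lit 3) (nat_lit 0x48002800140012000f0000800000000000000000000000000) (nat_lit 0x0) (nat_lit 0x50003000400000000000000000000000000000000000000000000) := T_24 (nat_lit 192) (nat_lit 208) (nat_lit 5) (nat_lit 5) (nat_lit 8) L64588 (by decide +kernel)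
theorem L64590 : W_24 (nat_lit 4) (nat_lit 0x40002800140012000f0000800000000000000000000000000) (nat_lit 0x0) (nat_lit 0x50003800440000000000000000000000000000000000000000000) := T_24 (nat_lit 191) (nat_lit 174) (nat_lit 5) (nat_lit 5) (nat_lit 7) L64589 (by decide +kernel)
theorem L64591 : W_24 (nat_lit 5) (nat_lit 0x40002800140012000f0000000000000000000000000000000) (nat_lit 0x0) (nat_lit 0x50003800440000000000000000c00000000000000000000000000) := T_24 (nat_lit 107) (nat_lit 106) (nat_lit 0) (nat_lit 8) (nat_lit 7) L64590 (by decide +kernel)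
theorem L64592 : W_24 (nat_lit 6) (nat_lit 0x40002800140012000b0000000000000000000000000000000) (nat_lit 0x0) (nat_lit 0x50003800440000000100040000c00000000000000000000000000) := T_24 (nat_lit 126) (nat_lit 140) (nat_lit 1) (nat_lit 8) (nat_lit 7) L64591 (by decide +kernel)
theorem L64593 : W_24 (nat_lit 7) (nat_lit 0x4000280014001200090000000000000000000000000000000) (nat_lit 0x0) (nat_lit 0x50003800440000000100060001c00000000000000000000000000) := T_24 (nat_lit 125) (nat_lit 108) (nat_lit 6) (nat_lit 5) (nat_lit 10) L64592 (by decide +kernel)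
theorem L64594 : W_24 (nat_lit 8) (nat_lit 0x280014001200090000000000000000000000000000000) (nat_lit 0x0) (nat_lit 0x50007800440000000900060001c00000000000000000000000000) := T_24 (nat_lit 194) (nat_lit 143) (nat_lit 6) (nat_lit 7) (nat_lit 11) L64593 (by decide +kernel)
theorem L64595 : W_24 (nat_lit 2) (nat_lit 0x50002c00140013400b0000000000000000000000000000000) (nat_lit 0x0) (nat_lit 0x4000a000000000000000000000000000000000000000000000000) := D_24 (nat_lit 193) (nat_lit 195) (nat_lit 210) (nat_lit 0) (nat_lit 8) (nat_lit 11) (nat_lit 7) (nat_lit 5) (nat_lit 8) (by decide +kernel)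
theorem L64596 : W_24 (nat_lit 3) (nat_lit 0x40002c00140013400b0000000000000000000000000000000) (nat_lit 0x0) (nat_lit 0x4000b000000000000000008000000000000000000000000000000) := T_24 (nat_lit 192) (nat_lit 123) (nat_lit 4) (nat_lit 5) (nat_lit 11) L64595 (by decide +kernel)
theorem L64597 : W_24 (nat_lit 4) (nat_lit 0x40002c00140013000b0000000000000000000000000000000) (nat_lit 0x0) (nat_lit 0x4000b0000000000000c0008000000000000000000000000000000) := T_24 (nat_lit 138) (nat_lit 139) (nat_lit 2) (nat_lit 2) (nat_lit 8) L64596 (by decide +kernel)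
theorem L64598 : W_24 (nat_lit 5) (nat_lit 0x40002c00140012000b0000000000000000000000000000000) (nat_lit 0x0) (nat_lit 0x4000b0000000000001c0048000000000000000000000000000000) := T_24 (nat_lit 140) (nat_lit 126) (nat_lit 1) (nat_lit 8) (nat_lit 7) L64597 (by decide +kernel)
theorem L64599 : W_24 (nat_lit 6) (nat_lit 0x40002c0014001200090000000000000000000000000000000) (nat_lit 0x0) (nat_lit 0x4000b0000000000001c0068001000000000000000000000000000) := T_24 (nat_lit 125) (nat_lit 108) (nat_lit 6) (nat_lit 5) (nat_lit 10) L64598 (by decide +kernel)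
theorem L64600 : W_24 (nat_lit 7) (nat_lit 0x2c0014001200090000000000000000000000000000000) (nat_lit 0x0) (nat_lit 0x4000f0000000000009c0068001000000000000000000000000000) := T_24 (nat_lit 194) (nat_lit 143) (nat_lit 6) (nat_lit 7) (nat_lit 11) L64599 (by decide +kernel)
theorem L64601 : W_24 (nat_lit 8) (nat_lit 0x280014001200090000000000000000000000000000000) (nat_lit 0x0) (nat_lit 0x4000f8000400000009c0068001000000000000000000000000000) := T_24 (nat_lit 174) (nat_lit 191) (nat_lit 5) (nat_lit 5) (nat_lit 7) L64600 (by decide +kernel)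
theorem L64602 : W_24 (nat_lit 9) (nat_lit 0x200014001200090000000000000000000000000000000) (nat_lit 0x0) (nat_lit 0xa0007000f8004c00000009c0068001c00020000000000000000000000) := Q_24 (nat_lit 175) (C_24 L63659 (C_24 L63656 (C_24 L63078 (C_24 L64594 (C_24 L64601 N_24))))) (by decide +kernel)
theorem L64603 : W_24 (nat_lit 5) (nat_lit 0x200014001200090000000000000000000000000000000) (nat_lit 0x0) (nat_lit 0x1000f8001c0008000900008000c00020000000000000000000000) := Q_24 (nat_lit 175) (C_24 L64466 (C_24 L63659 (C_24 L62805 N_24))) (by decide +kernel)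
theorem L64604 : W_24 (nat_lit 2) (nat_lit 0x400020001c0012000900008000a0000000000000000000000) (nat_lit 0x0) (nat_lit 0x40005000000000000000000) := D_24 (nat_lit 90) (nat_lit 74) (nat_lit 72) (nat_lit 6) (nat_lit 5) (nat_lit 8) (nat_lit 4) (nat_lit 5) (nat_lit 8) (by decide +kernel)
theorem L64605 : W_24 (nat_lit 3) (nat_lit 0x400020001c001200090000800080000000000000000000000) (nat_lit 0x0) (nat_lit 0x400060005000000000000000000) := T_24 (nat_lit 89) (nat_lit 106) (nat_lit 4) (nat_lit 5) (nat_lit 9) L64604 (by decide +kernel)
theorem L64606 : W_24 (nat_lit 4) (nat_lit 0x400020001c001200090000800000000000000000000000000) (nat_lit 0x0) (nat_lit 0x14000e0005000000000000000000) := T_24 (nat_lit 91) (nat_lit 108) (nat_lit 6) (nat_lit 5) (nat_lit 9) L64605 (by decide +kernel)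
theorem L64607 : W_24 (nat_lit 5) (nat_lit 0x4000200014001200090000800000000000000000000000000) (nat_lit 0x0) (nat_lit 0x1000080000000000014000e0005000000000000000000) := T_24 (nat_lit 159) (nat_lit 176) (nat_lit 7) (nat_lit 5) (nat_lit 6) L64606 (by decide +kernel)
theorem L64608 : W_24 (nat_lit 6) (nat_lit 0x200014001200090000800000000000000000000000000) (nat_lit 0x0) (nat_lit 0x40001000080008000000014000e0005000000000000000000) := T_24 (nat_lit 194) (nat_lit 143) (nat_lit 6) (nat_lit 7) (nat_lit 11) L64607 (by decide +kernel)
theorem L64609 : W_24 (nat_lit 2) (nat_lit 0x3000140012000d0000c00000000000000000000000000) (nat_lit 0x0) (nat_lit 0x6000000000000800000000000000000000000000000000000) := D_24 (nat_lit 143) (nat_lit 194) (nat_lit 193) (nat_lit 6) (nat_lit 7) (nat_lit 11) (nat_lit 5) (nat_lit 7) (nat_lit 7) (by decide +kernel)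
theorem L64610 : W_24 (nat_lit 3) (nat_lit 0x2000140012000d0000c00000000000000000000000000) (nat_lit 0x0) (nat_lit 0x6000100008000800000000000000000000000000000000000) := T_24 (nat_lit 176) (nat_lit 159) (nat_lit 7) (nat_lit 5) (nat_lit 6) L64609 (by decide +kernel)
theorem L64611 : W_24 (nat_lit 4) (nat_lit 0x200014001200090000c00000000000000000000000000) (nat_lit 0x0) (nat_lit 0x6000100008000800060000000000000000000000000000000) := T_24 (nat_lit 126) (nat_lit 125) (nat_lit 0) (nat_lit 8) (nat_lit 7) L64610 (by decide +kernel)
theorem L64612 : W_24 (nat_lit 5) (nat_lit 0x200014001200090000800000000000000000000000000) (nat_lit 0x0) (nat_lit 0x6000100008000800060000400020000000000000000000000) := T_24 (nat_lit 106) (nat_lit 89) (nat_lit 4) (nat_lit 5) (nat_lit 9) L64611 (by decide +kernel)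
theorem L64613 : W_24 (nat_lit 2) (nat_lit 0x200014001a000d0001800000000000000000000000000) (nat_lit 0x0) (nat_lit 0x2000100008000000000000000000000000000000000000000) := D_24 (nat_lit 176) (nat_lit 193) (nat_lit 159) (nat_lit 5) (nat_lit 7) (nat_lit 7) (nat_lit 7) (nat_lit 5) (nat_lit 6) (by decide +kernel)
theorem L64614 : W_24 (nat_lit 3) (nat_lit 0x200014001a00090001800000000000000000000000000) (nat_lit 0x0) (nat_lit 0x2000100008000000060000000000000000000000000000000) := T_24 (nat_lit 126) (nat_lit 125) (nat_lit 4) (nat_lit 7) (nat_lit 10) L64613 (by decide +kernel)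
theorem L64615 : W_24 (nat_lit 4) (nat_lit 0x200014001a00090000800000000000000000000000000) (nat_lit 0x0) (nat_lit 0x2000100008000000060001000080000000000000000000000) := T_24 (nat_lit 108) (nat_lit 91) (nat_lit 6) (nat_lit 5) (nat_lit 9) L64614 (by decide +kernel)
theorem L64616 : W_24 (nat_lit 5) (nat_lit 0x200014001200090000800000000000000000000000000) (nat_lit 0x0) (nat_lit 0x6000100008000800060001000080000000000000000000000) := T_24 (nat_lit 143) (nat_lit 194) (nat_lit 6) (nat_lit 7) (nat_lit 11) L64615 (by decide +kernel)
theorem L64617 : W_24 (nat_lit 7) (nat_lit 0x200014001200090000000000000000000000000000000) (nat_lit 0x0) (nat_lit 0x6000100008000800060003c000e0005000000000000000000) := Q_24 (nat_lit 107) (C_24 L63640 (C_24 L64608 (C_24 L64612 (C_24 L64616 N_24)))) (by decide +kernel)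
theorem L64618 : W_24 (nat_lit 2) (nat_lit 0x40003800140012000d0000c00000000000000000000000000) (nat_lit 0x0) (nat_lit 0x8800040000000000000000000000000000000000000000000) := D_24 (nat_lit 174) (nat_lit 195) (nat_lit 191) (nat_lit 3) (nat_lit 4) (nat_lit 10) (nat_lit 5) (nat_lit 5) (nat_lit 7) (by decide +kernel)
theorem L64619 : W_24 (nat_lit 3) (nat_lit 0x40003000140012000d0000c00000000000000000000000000) (nat_lit 0x0) (nat_lit 0x88000c0000000000008000000000000000000000000000000) := T_24 (nat_lit 175) (nat_lit 123) (nat_lit 4) (nat_lit 5) (nat_lit 10) L64618 (by decide +kernel)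
theorem L64620 : W_24 (nat_lit 4) (nat_lit 0x4000300014001200090000c00000000000000000000000000) (nat_lit 0x0) (nat_lit 0x88000c0000000000068000000000000000000000000000000) := T_24 (nat_lit 126) (nat_lit 125) (nat_lit 0) (nat_lit 8) (nat_lit 7) L64619 (by decide +kernel)
theorem L64621 : W_24 (nat_lit 5) (nat_lit 0x4000300014001200090000800000000000000000000000000) (nat_lit 0x0) (nat_lit 0x88000c0000000000068000400020000000000000000000000) := T_24 (nat_lit 106) (nat_lit 89) (nat_lit 4) (nat_lit 5) (nat_lit 9) L64620 (by decide +kernel)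
theorem L64622 : W_24 (nat_lit 6) (nat_lit 0x4000200014001200090000800000000000000000000000000) (nat_lit 0x0) (nat_lit 0x88001c0008000000068000400020000000000000000000000) := T_24 (nat_lit 176) (nat_lit 159) (nat_lit 7) (nat_lit 5) (nat_lit 6) L64621 (by decide +kernel)
theorem L64623 : W_24 (nat_lit 7) (nat_lit 0x200014001200090000800000000000000000000000000) (nat_lit 0x0) (nat_lit 0xc8001c0008000800068000400020000000000000000000000) := T_24 (nat_lit 194) (nat_lit 143) (nat_lit 6) (nat_lit 7) (nat_lit 11) L64622 (by decide +kernel)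
theorem L64624 : W_24 (nat_lit 2) (nat_lit 0x40002c0014001200090001800000000000000000000000000) (nat_lit 0x0) (nat_lit 0x8000100008000000000000000000000000000000000000000) := D_24 (nat_lit 176) (nat_lit 195) (nat_lit 159) (nat_lit 3) (nat_lit 4) (nat_lit 10) (nat_lit 7) (nat_lit 5) (nat_lit 6) (by decide +kernel)
theorem L64625 : W_24 (nat_lit 3) (nat_lit 0x4000280014001200090001800000000000000000000000000) (nat_lit 0x0) (nat_lit 0x8800140008000000000000000000000000000000000000000) := T_24 (nat_lit 174) (nat_lit 191) (nat_lit 5) (nat_lit 5) (nat_lit 7) L64624 (by decide +kernel)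
theorem L64626 : W_24 (nat_lit 4) (nat_lit 0x4000200014001200090001800000000000000000000000000) (nat_lit 0x0) (nat_lit 0x88001c0008000000020000000000000000000000000000000) := T_24 (nat_lit 175) (nat_lit 125) (nat_lit 6) (nat_lit 5) (nat_lit 10) L64625 (by decide +kernel)
theorem L64627 : W_24 (nat_lit 5) (nat_lit 0x200014001200090001800000000000000000000000000) (nat_lit 0x0) (nat_lit 0xc8001c0008000800020000000000000000000000000000000) := T_24 (nat_lit 194) (nat_lit 143) (nat_lit 6) (nat_lit 7) (nat_lit 11) L64626 (by decide +kernel)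
theorem L64628 : W_24 (nat_lit 6) (nat_lit 0x200014001200090000800000000000000000000000000) (nat_lit 0x0) (nat_lit 0xc8001c0008000800020001000080000000000000000000000) := T_24 (nat_lit 108) (nat_lit 91) (nat_lit 6) (nat_lit 5) (nat_lit 9) L64627 (by decide +kernel)
theorem L64629 : W_24 (nat_lit 8) (nat_lit 0x200014001200090000000000000000000000000000000) (nat_lit 0x0) (nat_lit 0xc8001c000800080006c003c000e0005000000000000000000) := Q_24 (nat_lit 107) (C_24 L63647 (C_24 L64608 (C_24 L64623 (C_24 L64628 N_24)))) (by decide +kernel)
theorem L64630 : W_24 (nat_lit 2) (nat_lit 0x2800140012000f0000000000000000000000000000000) (nat_lit 0x0) (nat_lit 0x4000000000000800008000000000000000000000000000000) := D_24 (nat_lit 143) (nat_lit 194) (nat_lit 123) (nat_lit 6) (nat_lit 7) (nat_lit 11) (nat_lit 3) (nat_lit 4) (nat_lit 7) (by decide +kernel)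
theorem L64631 : W_24 (nat_lit 3) (nat_lit 0x2800140012000b0000000000000000000000000000000) (nat_lit 0x0) (nat_lit 0x4000000000000900048000000000000000000000000000000) := T_24 (nat_lit 126) (nat_lit 140) (nat_lit 1) (nat_lit 8) (nat_lit 7) L64630 (by decide +kernel)
theorem L64632 : W_24 (nat_lit 4) (nat_lit 0x280014001200090000000000000000000000000000000) (nat_lit 0x0) (nat_lit 0x4000000000000900068001000000000000000000000000000) := T_24 (nat_lit 125) (nat_lit 108) (nat_lit 6) (nat_lit 5) (nat_lit 10) L64631 (by decide +kernel)
theorem L64633 : W_24 (nat_lit 9) (nat_lit 0x200014001200090000000000000000000000000000000) (nat_lit 0x0) (nat_lit 0x4000f8001c00080009c0068001800080000000000000000000000) := Q_24 (nat_lit 175) (C_24 L64601 (C_24 L64466 (C_24 L63615 (C_24 L64632 N_24)))) (by decide +kernel)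
theorem L64634 : W_24 (nat_lit 10) (nat_lit 0x200014001200080000000000000000000000000000000) (nat_lit 0x0) (nat_lit 0xa0007000f8005c00080009c007c003c000e0005000000000000000000) := Q_24 (nat_lit 124) (C_24 L64450 (C_24 L64467 (C_24 L64602 (C_24 L64603 (C_24 L64617 (C_24 L64629 (C_24 L64633 N_24))))))) (by decide +kernel)
theorem L64635 : W_24 (nat_lit 5) (nat_lit 0x200014001a00080000000000000000000000000000000) (nat_lit 0x0) (nat_lit 0x800058014e000000000000000000000000000000) := T_24 (nat_lit 142) (nat_lit 128) (nat_lit 2) (nat_lit 5) (nat_lit 8) L64116 (by decide +kernel)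
theorem L64636 : W_24 (nat_lit 6) (nat_lit 0x200014001200080000000000000000000000000000000) (nat_lit 0x0) (nat_lit 0x4000000008000d8014e000000000000000000000000000000) := T_24 (nat_lit 143) (nat_lit 194) (nat_lit 6) (nat_lit 7) (nat_lit 11) L64635 (by decide +kernel)
theorem L64637 : W_24 (nat_lit 8) (nat_lit 0x200014001200090000000000000000000000000000000) (nat_lit 0x0) (nat_lit 0xa00070003800180008000400068001c000a0000000000000000000000) := Q_24 (nat_lit 175) (C_24 L62805 (C_24 L63078 (C_24 L63615 (C_24 L63075 N_24)))) (by decide +kernel)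
theorem L64638 : W_24 (nat_lit 2) (nat_lit 0x200014001a00090000000000000000000000000000000) (nat_lit 0x0) (nat_lit 0x400108000000000000000000000000000000) := D_24 (nat_lit 142) (nat_lit 128) (nat_lit 123) (nat_lit 2) (nat_lit 5) (nat_lit 8) (nat_lit 0) (nat_lit 8) (nat_lit 8) (by decide +kernel)
theorem L64639 : W_24 (nat_lit 3) (nat_lit 0x200014001200090000000000000000000000000000000) (nat_lit 0x0) (nat_lit 0x4000000000000c00108000000000000000000000000000000) := T_24 (nat_lit 143) (nat_lit 194) (nat_lit 6) (nat_lit 7) (nat_lit 11) L64638 (by decide +kernel)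
theorem L64640 : W_24 (nat_lit 9) (nat_lit 0x200014001200080000000000000000000000000000000) (nat_lit 0x0) (nat_lit 0xa0007000f8001c0008000c0017c003c000e0005000000000000000000) := Q_24 (nat_lit 124) (C_24 L64637 (C_24 L64582 (C_24 L64639 (C_24 L64629 (C_24 L64617 N_24))))) (by decide +kernel)
theorem L64641 : W_24 (nat_lit 2) (nat_lit 0x200014801f80082000000000000000000000000000000) (nat_lit 0x0) (nat_lit 0x400040001000000000000000000000000000000) := D_24 (nat_lit 138) (nat_lit 154) (nat_lit 120) (nat_lit 1) (nat_lit 5) (nat_lit 8) (nat_lit 0) (nat_lit 5) (nat_lit 8) (by decide +kernel)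
theorem L64642 : W_24 (nat_lit 3) (nat_lit 0x200014801f80080000000000000000000000000000000) (nat_lit 0x0) (nat_lit 0x400040007000000000000000000000000000000) := T_24 (nat_lit 121) (nat_lit 122) (nat_lit 0) (nat_lit 6) (nat_lit 8) L64641 (by decide +kernel)
theorem L64643 : W_24 (nat_lit 4) (nat_lit 0x200014001f80080000000000000000000000000000000) (nat_lit 0x0) (nat_lit 0x1c00040007000000000000000000000000000000) := T_24 (nat_lit 155) (nat_lit 156) (nat_lit 1) (nat_lit 6) (nat_lit 8) L64642 (by decide +kernel)
theorem L64644 : W_24 (nat_lit 5) (nat_lit 0x200014001f00080000000000000000000000000000000) (nat_lit 0x0) (nat_lit 0x9c000c0007000000000000000000000000000000) := T_24 (nat_lit 139) (nat_lit 159) (nat_lit 3) (nat_lit 3) (nat_lit 8) L64643 (by decide +kernel)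
theorem L64645 : W_24 (nat_lit 6) (nat_lit 0x200014001e00080000000000000000000000000000000) (nat_lit 0x0) (nat_lit 0x9c001c0047000000000000000000000000000000) := T_24 (nat_lit 140) (nat_lit 126) (nat_lit 2) (nat_lit 4) (nat_lit 8) L64644 (by decide +kernel)
theorem L64646 : W_24 (nat_lit 7) (nat_lit 0x200014001a00080000000000000000000000000000000) (nat_lit 0x0) (nat_lit 0x9c005c0147000000000000000000000000000000) := T_24 (nat_lit 142) (nat_lit 128) (nat_lit 2) (nat_lit 5) (nat_lit 8) L64645 (by decide +kernel)
theorem L64647 : W_24 (nat_lit 8) (nat_lit 0x200014001200080000000000000000000000000000000) (nat_lit 0x0) (nat_lit 0x4000000009c00dc0147000000000000000000000000000000) := T_24 (nat_lit 143) (nat_lit 194) (nat_lit 6) (nat_lit 7) (nat_lit 11) L64646 (by decide +kernel)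
theorem L64648 : W_24 (nat_lit 16) (nat_lit 0x200014001000080000000000000000000000000000000) (nat_lit 0x0) (nat_lit 0x4000e000f000ff005f0009c00fc017f01bc000e0005000000000000000000) := Q_24 (nat_lit 141) (C_24 L64558 (C_24 L64462 (C_24 L64569 (C_24 L64587 (C_24 L64634 (C_24 L64636 (C_24 L64118 (C_24 L64640 (C_24 L64647 N_24))))))))) (by decide +kernel)
theorem L64649 : W_24 (nat_lit 7) (nat_lit 0x200014001000080000000000000000000000000000000) (nat_lit 0x0) (nat_lit 0x500038001c000400057000b000c00000000000000000000000000000000000) := Q_24 (nat_lit 159) (C_24 L63959 (C_24 L64448 N_24)) (by decide +kernel)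
theorem L64650 : W_24 (nat_lit 2) (nat_lit 0xa00000002c001e001700098000000000000000000000000000000) (nat_lit 0x0) (nat_lit 0x6000200000000000000000000000000) := D_24 (nat_lit 122) (nat_lit 121) (nat_lit 105) (nat_lit 3) (nat_lit 2) (nat_lit 7) (nat_lit 4) (nat_lit 4) (nat_lit 10) (by decide +kernel)
theorem L64651 : W_24 (nat_lit 3) (nat_lit 0xa00000002c001e001500098000000000000000000000000000000) (nat_lit 0x0) (nat_lit 0x800000000000200006000200000000000000000000000000) := T_24 (nat_lit 141) (nat_lit 191) (nat_lit 6) (nat_lit 4) (nat_lit 11) L64650 (by decide +kernel)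
theorem L64652 : W_24 (nat_lit 4) (nat_lit 0xa00000002c001e001500088000000000000000000000000000000) (nat_lit 0x0) (nat_lit 0x800000000000200016000a00000000000000000000000000) := T_24 (nat_lit 124) (nat_lit 107) (nat_lit 6) (nat_lit 4) (nat_lit 10) L64651 (by decide +kernel)
theorem L64653 : W_24 (nat_lit 5) (nat_lit 0xa00000002c001e001500080000000000000000000000000000000) (nat_lit 0x0) (nat_lit 0x80000000000020001e000e00000000000000000000000000) := T_24 (nat_lit 123) (nat_lit 106) (nat_lit 7) (nat_lit 4) (nat_lit 6) L64652 (by decide +kernel)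
theorem L64654 : W_24 (nat_lit 6) (nat_lit 0xa00000002c001e001400080000000000000000000000000000000) (nat_lit 0x0) (nat_lit 0x80000000000038001e000e00000000000000000000000000) := T_24 (nat_lit 140) (nat_lit 139) (nat_lit 0) (nat_lit 7) (nat_lit 9) L64653 (by decide +kernel)
theorem L64655 : W_24 (nat_lit 7) (nat_lit 0xa000000028001e001400080000000000000000000000000000000) (nat_lit 0x0) (nat_lit 0x80006000000038001e000e00000000000000000000000000) := T_24 (nat_lit 174) (nat_lit 173) (nat_lit 1) (nat_lit 7) (nat_lit 9) L64654 (by decide +kernel)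
theorem L64656 : W_24 (nat_lit 8) (nat_lit 0xa000000028001c001400080000000000000000000000000000000) (nat_lit 0x0) (nat_lit 0x80046000200038001e000e00000000000000000000000000) := T_24 (nat_lit 157) (nat_lit 178) (nat_lit 3) (nat_lit 4) (nat_lit 9) L64655 (by decide +kernel)
theorem L64657 : W_24 (nat_lit 9) (nat_lit 0x8000000028001c001400080000000000000000000000000000000) (nat_lit 0x0) (nat_lit 0x2000180046000200038001e000e00000000000000000000000000) := T_24 (nat_lit 209) (nat_lit 192) (nat_lit 6) (nat_lit 5) (nat_lit 12) L64656 (by decide +kernel)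
theorem L64658 : W_24 (nat_lit 10) (nat_lit 0x28001c001400080000000000000000000000000000000) (nat_lit 0x0) (nat_lit 0xa000580046000200038001e000e00000000000000000000000000) := T_24 (nat_lit 211) (nat_lit 194) (nat_lit 4) (nat_lit 7) (nat_lit 12) L64657 (by decide +kernel)
theorem L64661 : W_24 (nat_lit 2) (nat_lit 0x800000002c001e001500080000000000000000000000000000000) (nat_lit 0x0) (nat_lit 0x20001000000000000000008000000000000000000000000000000) := D_24 (nat_lit 192) (nat_lit 209) (nat_lit 123) (nat_lit 6) (nat_lit 5) (nat_lit 12) (nat_lit 7) (nat_lit 4) (nat_lit 7) (by decide +kernel)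
theorem L64662 : W_24 (nat_lit 3) (nat_lit 0x800000002c001e001400080000000000000000000000000000000) (nat_lit 0x0) (nat_lit 0x20001000000000000180008000000000000000000000000000000) := T_24 (nat_lit 140) (nat_lit 139) (nat_lit 0) (nat_lit 7) (nat_lit 9) L64661 (by decide +kernel)
theorem L64663 : W_24 (nat_lit 4) (nat_lit 0x8000000028001e001400080000000000000000000000000000000) (nat_lit 0x0) (nat_lit 0x20001000060000000180008000000000000000000000000000000) := T_24 (nat_lit 174) (nat_lit 173) (nat_lit 1) (nat_lit 7) (nat_lit 9) L64662 (by decide +kernel)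
theorem L64664 : W_24 (nat_lit 5) (nat_lit 0x8000000028001c001400080000000000000000000000000000000) (nat_lit 0x0) (nat_lit 0x20001000460002000180008000000000000000000000000000000) := T_24 (nat_lit 157) (nat_lit 178) (nat_lit 3) (nat_lit 4) (nat_lit 9) L64663 (by decide +kernel)
theorem L64665 : W_24 (nat_lit 6) (nat_lit 0x28001c001400080000000000000000000000000000000) (nat_lit 0x0) (nat_lit 0xa0005000460002000180008000000000000000000000000000000) := T_24 (nat_lit 211) (nat_lit 194) (nat_lit 4) (nat_lit 7) (nat_lit 12) L64664 (by decide +kernel)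
theorem L64666 : W_24 (nat_lit 2) (nat_lit 0x800000002c001e001700098001000000000000000000000000000) (nat_lit 0x0) (nat_lit 0x6000200000000000000000000000000) := D_24 (nat_lit 122) (nat_lit 121) (nat_lit 105) (nat_lit 3) (nat_lit 2) (nat_lit 7) (nat_lit 4) (nat_lit 4) (nat_lit 10) (by decide +kernel)
theorem L64667 : W_24 (nat_lit 3) (nat_lit 0x800000002c001e001500098001000000000000000000000000000) (nat_lit 0x0) (nat_lit 0x800000000000200006000200000000000000000000000000) := T_24 (nat_lit 141) (nat_lit 191) (nat_lit 6) (nat_lit 4) (nat_lit 11) L64666 (by decide +kernel)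
theorem L64668 : W_24 (nat_lit 4) (nat_lit 0x800000002c001e001500088001000000000000000000000000000) (nat_lit 0x0) (nat_lit 0x800000000000200016000a00000000000000000000000000) := T_24 (nat_lit 124) (nat_lit 107) (nat_lit 6) (nat_lit 4) (nat_lit 10) L64667 (by decide +kernel)
theorem L64669 : W_24 (nat_lit 5) (nat_lit 0x800000002c001e001500080001000000000000000000000000000) (nat_lit 0x0) (nat_lit 0x80000000000020001e000e00000000000000000000000000) := T_24 (nat_lit 123) (nat_lit 106) (nat_lit 7) (nat_lit 4) (nat_lit 6) L64668 (by decide +kernel)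
theorem L64670 : W_24 (nat_lit 6) (nat_lit 0x2c001e001500080001000000000000000000000000000) (nat_lit 0x0) (nat_lit 0x8000480000000000020001e000e00000000000000000000000000) := T_24 (nat_lit 211) (nat_lit 194) (nat_lit 4) (nat_lit 7) (nat_lit 12) L64669 (by decide +kernel)
theorem L64671 : W_24 (nat_lit 7) (nat_lit 0x2c001e001400080001000000000000000000000000000) (nat_lit 0x0) (nat_lit 0x8000480000000000038001e000e00000000000000000000000000) := T_24 (nat_lit 140) (nat_lit 139) (nat_lit 0) (nat_lit 7) (nat_lit 9) L64670 (by decide +kernel)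
theorem L64672 : W_24 (nat_lit 8) (nat_lit 0x28001e001400080001000000000000000000000000000) (nat_lit 0x0) (nat_lit 0x8000480006000000038001e000e00000000000000000000000000) := T_24 (nat_lit 174) (nat_lit 173) (nat_lit 1) (nat_lit 7) (nat_lit 9) L64671 (by decide +kernel)
theorem L64673 : W_24 (nat_lit 9) (nat_lit 0x28001c001400080001000000000000000000000000000) (nat_lit 0x0) (nat_lit 0x8000480046000200038001e000e00000000000000000000000000) := T_24 (nat_lit 157) (nat_lit 178) (nat_lit 3) (nat_lit 4) (nat_lit 9) L64672 (by decide +kernel)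
theorem L64674 : W_24 (nat_lit 10) (nat_lit 0x28001c001400080000000000000000000000000000000) (nat_lit 0x0) (nat_lit 0x8000480046000200038003e001e00000000000000000000000000) := T_24 (nat_lit 108) (nat_lit 125) (nat_lit 7) (nat_lit 6) (nat_lit 6) L64673 (by decide +kernel)
theorem L64675 : W_24 (nat_lit 11) (nat_lit 0x20001c001400080000000000000000000000000000000) (nat_lit 0x0) (nat_lit 0xa00058004e000200038003e001e00000000000000000000000000) := Q_24 (nat_lit 175) (C_24 L64658 (C_24 L64660 (C_24 L64665 (C_24 L64674 N_24)))) (by decide +kernel)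
theorem L64682 : W_24 (nat_lit 2) (nat_lit 0x2000100024001e001400080000000000000000000000000000000) (nat_lit 0x0) (nat_lit 0x800000000000180000000000000000000000000000000000) := D_24 (nat_lit 140) (nat_lit 139) (nat_lit 191) (nat_lit 0) (nat_lit 7) (nat_lit 9) (nat_lit 7) (nat_lit 4) (nat_lit 8) (by decide +kernel)
theorem L64683 : W_24 (nat_lit 3) (nat_lit 0x2000100020001e001400080000000000000000000000000000000) (nat_lit 0x0) (nat_lit 0x800060000000180000000000000000000000000000000000) := T_24 (nat_lit 174) (nat_lit 173) (nat_lit 1) (nat_lit 7) (nat_lit 9) L64682 (by decide +kernel)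
theorem L64684 : W_24 (nat_lit 4) (nat_lit 0x2000100020001c001400080000000000000000000000000000000) (nat_lit 0x0) (nat_lit 0x800460002000180000000000000000000000000000000000) := T_24 (nat_lit 157) (nat_lit 178) (nat_lit 3) (nat_lit 4) (nat_lit 9) L64683 (by decide +kernel)
theorem L64685 : W_24 (nat_lit 5) (nat_lit 0x100020001c001400080000000000000000000000000000000) (nat_lit 0x0) (nat_lit 0x200008004e0002000180000000000000000000000000000000000) := T_24 (nat_lit 209) (nat_lit 175) (nat_lit 6) (nat_lit 5) (nat_lit 12) L64684 (by decide +kernel)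
theorem L64688 : W_24 (nat_lit 4) (nat_lit 0x8000100024001e001400080000000000000000000000000000000) (nat_lit 0x0) (nat_lit 0x30000800000000000380010000000000000000000000000000000) := T_24 (nat_lit 140) (nat_lit 139) (nat_lit 0) (nat_lit 7) (nat_lit 9) L64687 (by decide +kernel)
theorem L64689 : W_24 (nat_lit 5) (nat_lit 0x8000100020001e001400080000000000000000000000000000000) (nat_lit 0x0) (nat_lit 0x30000800060000000380010000000000000000000000000000000) := T_24 (nat_lit 174) (nat_lit 173) (nat_lit 1) (nat_lit 7) (nat_lit 9) L64688 (by decide +kernel)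
theorem L64690 : W_24 (nat_lit 6) (nat_lit 0x8000100020001c001400080000000000000000000000000000000) (nat_lit 0x0) (nat_lit 0x30000800460002000380010000000000000000000000000000000) := T_24 (nat_lit 157) (nat_lit 178) (nat_lit 3) (nat_lit 4) (nat_lit 9) L64689 (by decide +kernel)
theorem L64691 : W_24 (nat_lit 7) (nat_lit 0x100020001c001400080000000000000000000000000000000) (nat_lit 0x0) (nat_lit 0xb0004800460002000380010000000000000000000000000000000) := T_24 (nat_lit 211) (nat_lit 194) (nat_lit 4) (nat_lit 7) (nat_lit 12) L64690 (by decide +kernel)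
theorem L64697 : W_24 (nat_lit 7) (nat_lit 0x100024001e001500080000000000000000000000000000000) (nat_lit 0x0) (nat_lit 0xc8006c00180000000200018000800000000000000000000000000) := T_24 (nat_lit 211) (nat_lit 194) (nat_lit 4) (nat_lit 7) (nat_lit 12) L64696 (by decide +kernel)
theorem L64698 : W_24 (nat_lit 8) (nat_lit 0x100024001e001400080000000000000000000000000000000) (nat_lit 0x0) (nat_lit 0xc8006c00180000000380018000800000000000000000000000000) := T_24 (nat_lit 140) (nat_lit 139) (nat_lit 0) (nat_lit 7) (nat_lit 9) L64697 (by decide +kernel)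
theorem L64699 : W_24 (nat_lit 9) (nat_lit 0x100020001e001400080000000000000000000000000000000) (nat_lit 0x0) (nat_lit 0xc8006c001e0000000380018000800000000000000000000000000) := T_24 (nat_lit 174) (nat_lit 173) (nat_lit 1) (nat_lit 7) (nat_lit 9) L64698 (by decide +kernel)
theorem L64700 : W_24 (nat_lit 10) (nat_lit 0x100020001c001400080000000000000000000000000000000) (nat_lit 0x0) (nat_lit 0xc8006c005e0002000380018000800000000000000000000000000) := T_24 (nat_lit 157) (nat_lit 178) (nat_lit 3) (nat_lit 4) (nat_lit 9) L64699 (by decide +kernel)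
theorem L64701 : W_24 (nat_lit 11) (nat_lit 0x20001c001400080000000000000000000000000000000) (nat_lit 0x0) (nat_lit 0x7f801fc005e0002000380018000800000000000000000000000000) := Q_24 (nat_lit 192) (C_24 L64557 (C_24 L64681 (C_24 L64685 (C_24 L64691 (C_24 L64700 N_24))))) (by decide +kernel)
theorem L64702 : W_24 (nat_lit 2) (nat_lit 0x34001e0015000e0000000000000000000000000000000) (nat_lit 0x0) (nat_lit 0x200110000000000000000000000000000000) := D_24 (nat_lit 141) (nat_lit 128) (nat_lit 124) (nat_lit 1) (nat_lit 9) (nat_lit 7) (nat_lit 1) (nat_lit 8) (nat_lit 7) (by decide +kernel)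
theorem L64703 : W_24 (nat_lit 3) (nat_lit 0x34001e0015000a0000000000000000000000000000000) (nat_lit 0x0) (nat_lit 0x200150002000000000000000000000000000) := T_24 (nat_lit 126) (nat_lit 109) (nat_lit 6) (nat_lit 6) (nat_lit 10) L64702 (by decide +kernel)
theorem L64704 : W_24 (nat_lit 4) (nat_lit 0x24001e0015000a0000000000000000000000000000000) (nat_lit 0x0) (nat_lit 0x4000100000000200150002000000000000000000000000000) := T_24 (nat_lit 176) (nat_lit 194) (nat_lit 7) (nat_lit 6) (nat_lit 7) L64703 (by decide +kernel)
theorem L64705 : W_24 (nat_lit 5) (nat_lit 0x24001e0014000a0000000000000000000000000000000) (nat_lit 0x0) (nat_lit 0x4000100000000380150002000000000000000000000000000) := T_24 (nat_lit 140) (nat_lit 139) (nat_lit 0) (nat_lit 7) (nat_lit 9) L64704 (by decide +kernel)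
theorem L64706 : W_24 (nat_lit 6) (nat_lit 0x20001e0014000a0000000000000000000000000000000) (nat_lit 0x0) (nat_lit 0x4000160000000380150002000000000000000000000000000) := T_24 (nat_lit 174) (nat_lit 173) (nat_lit 1) (nat_lit 7) (nat_lit 9) L64705 (by decide +kernel)
theorem L64707 : W_24 (nat_lit 7) (nat_lit 0x20001c0014000a0000000000000000000000000000000) (nat_lit 0x0) (nat_lit 0x4000560002000380150002000000000000000000000000000) := T_24 (nat_lit 157) (nat_lit 178) (nat_lit 3) (nat_lit 4) (nat_lit 9) L64706 (by decide +kernel)
theorem L64708 : W_24 (nat_lit 8) (nat_lit 0x20001c001400080000000000000000000000000000000) (nat_lit 0x0) (nat_lit 0x4000560002000380170003000000000000000000000000000) := T_24 (nat_lit 125) (nat_lit 108) (nat_lit 7) (nat_lit 6) (nat_lit 6) L64707 (by decide +kernel)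
theorem L64709 : W_24 (nat_lit 2) (nat_lit 0x2c001e001500080000000000000000000000000000000) (nat_lit 0x0) (nat_lit 0x20001000000000000000008000000000000000000000000000000) := D_24 (nat_lit 192) (nat_lit 209) (nat_lit 123) (nat_lit 6) (nat_lit 5) (nat_lit 12) (nat_lit 7) (nat_lit 4) (nat_lit 7) (by decide +kernel)
theorem L64710 : W_24 (nat_lit 3) (nat_lit 0x2c001e001400080000000000000000000000000000000) (nat_lit 0x0) (nat_lit 0x20001000000000000180008000000000000000000000000000000) := T_24 (nat_lit 140) (nat_lit 139) (nat_lit 0) (nat_lit 7) (nat_lit 9) L64709 (by decide +kernel)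
theorem L64711 : W_24 (nat_lit 4) (nat_lit 0x28001e001400080000000000000000000000000000000) (nat_lit 0x0) (nat_lit 0x20001000060000000180008000000000000000000000000000000) := T_24 (nat_lit 174) (nat_lit 173) (nat_lit 1) (nat_lit 7) (nat_lit 9) L64710 (by decide +kernel)
theorem L64712 : W_24 (nat_lit 5) (nat_lit 0x28001c001400080000000000000000000000000000000) (nat_lit 0x0) (nat_lit 0x20001000460002000180008000000000000000000000000000000) := T_24 (nat_lit 157) (nat_lit 178) (nat_lit 3) (nat_lit 4) (nat_lit 9) L64711 (by decide +kernel)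
theorem L64721 : W_24 (nat_lit 10) (nat_lit 0x20001c001400080000000000000000000000000000000) (nat_lit 0x0) (nat_lit 0x200018004e000200038003e001e00000000000000000000000000) := Q_24 (nat_lit 175) (C_24 L64660 (C_24 L64712 (C_24 L64720 N_24))) (by decide +kernel)
theorem L64722 : W_24 (nat_lit 12) (nat_lit 0x20001c001000080000000000000000000000000000000) (nat_lit 0x0) (nat_lit 0x7f801fc005e000200078017e003e00000000000000000000000000) := Q_24 (nat_lit 142) (C_24 L63953 (C_24 L64675 (C_24 L64701 (C_24 L64708 (C_24 L64721 N_24))))) (by decide +kernel)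
theorem L64724 : W_24 (nat_lit 13) (nat_lit 0x200014001000080000000000000000000000000000000) (nat_lit 0x0) (nat_lit 0x500038007f801fc005e000a000f8017e003e00000000000000000000000000) := Q_24 (nat_lit 159) (C_24 L64722 (C_24 L64448 (C_24 L64447 (C_24 L64723 N_24)))) (by decide +kernel)
theorem L64725 : W_24 (nat_lit 17) (nat_lit 0x200010001000080000000000000000000000000000000) (nat_lit 0x0) (nat_lit 0x8005f01ff007f801ff805f800fc00fe017f01be001e000f000380004000000000) := Q_24 (nat_lit 158) (C_24 L64164 (C_24 L64445 (C_24 L64449 (C_24 L64475 (C_24 L64535 (C_24 L64550 (C_24 L64552 (C_24 L64648 (C_24 L64649 (C_24 L64724 N_24)))))))))) (by decide +kernel)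
theorem L64727 : W_24 (nat_lit 16) (nat_lit 0x280010001000080000000000000000000000000000000) (nat_lit 0x0) (nat_lit 0x1c01ff007f801ff8057800fc007e017f019c000e0000000000000000000000) := Q_24 (nat_lit 158) (C_24 L64231 (C_24 L64444 (C_24 L64277 (C_24 L64404 (C_24 L64310 (C_24 L64312 (C_24 L64324 (C_24 L64365 (C_24 L64370 (C_24 L64401 (C_24 L64280 (C_24 L64406 N_24)))))))))))) (by decide +kernel)
theorem L64728 : W_24 (nat_lit 9) (nat_lit 0x280014001000080000000000000000000000000000000) (nat_lit 0x0) (nat_lit 0x4000e00070003f00570029c00780178001c000a0000000000000000000000) := Q_24 (nat_lit 141) (C_24 L64400 (C_24 L64382 (C_24 L64380 (C_24 L63873 (C_24 L64396 (C_24 L62951 (C_24 L62890 N_24))))))) (by decide +kernel)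
theorem L64729 : W_24 (nat_lit 8) (nat_lit 0x28001c001000080000000000000000000000000000000) (nat_lit 0x0) (nat_lit 0x800460002000380078001c00000000000000000000000000) := T_24 (nat_lit 157) (nat_lit 178) (nat_lit 3) (nat_lit 4) (nat_lit 9) L63977 (by decide +kernel)
theorem L64730 : W_24 (nat_lit 3) (nat_lit 0x28003c001200080000000000000000000000000000000) (nat_lit 0x0) (nat_lit 0x1000000040000400020001000000000000000000000000000) := T_24 (nat_lit 142) (nat_lit 162) (nat_lit 0) (nat_lit 9) (nat_lit 9) L1258 (by decide +kernel)
theorem L64731 : W_24 (nat_lit 4) (nat_lit 0x28003c001000080000000000000000000000000000000) (nat_lit 0x0) (nat_lit 0x1000000040000700020001000000000000000000000000000) := T_24 (nat_lit 141) (nat_lit 140) (nat_lit 0) (nat_lit 8) (nat_lit 9) L64730 (by decide +kernel)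
theorem L64732 : W_24 (nat_lit 5) (nat_lit 0x28001c001000080000000000000000000000000000000) (nat_lit 0x0) (nat_lit 0x1000040060000700020001000000000000000000000000000) := T_24 (nat_lit 161) (nat_lit 174) (nat_lit 1) (nat_lit 8) (nat_lit 9) L64731 (by decide +kernel)
theorem L64733 : W_24 (nat_lit 2) (nat_lit 0x28003c001100080000000000000000000000000000000) (nat_lit 0x0) (nat_lit 0x400002000080000000000000000000000000000000000) := D_24 (nat_lit 157) (nat_lit 139) (nat_lit 178) (nat_lit 0) (nat_lit 7) (nat_lit 9) (nat_lit 3) (nat_lit 4) (nat_lit 9) (by decide +kernel)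
theorem L64734 : W_24 (nat_lit 3) (nat_lit 0x28003c001000080000000000000000000000000000000) (nat_lit 0x0) (nat_lit 0x400002000380000000000000000000000000000000000) := T_24 (nat_lit 140) (nat_lit 141) (nat_lit 0) (nat_lit 8) (nat_lit 9) L64733 (by decide +kernel)
theorem L64735 : W_24 (nat_lit 4) (nat_lit 0x28001c001000080000000000000000000000000000000) (nat_lit 0x0) (nat_lit 0x440022000380000000000000000000000000000000000) := T_24 (nat_lit 161) (nat_lit 174) (nat_lit 1) (nat_lit 8) (nat_lit 9) L64734 (by decide +kernel)
theorem L64736 : W_24 (nat_lit 5) (nat_lit 0x28001c001000080000000000000000000000000000000) (nat_lit 0x0) (nat_lit 0x20001000460002000180008000000000000000000000000000000) := T_24 (nat_lit 157) (nat_lit 178) (nat_lit 3) (nat_lit 4) (nat_lit 9) L63968 (by decide +kernel)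
theorem L64737 : W_24 (nat_lit 5) (nat_lit 0x28001c001000080000000000000000000000000000000) (nat_lit 0x0) (nat_lit 0x20001000400002000380008000400000000000000000000000000) := T_24 (nat_lit 157) (nat_lit 178) (nat_lit 3) (nat_lit 4) (nat_lit 9) L63971 (by decide +kernel)
theorem L64738 : W_24 (nat_lit 2) (nat_lit 0x28001e001000080000000000000000000000000000000) (nat_lit 0x0) (nat_lit 0x60020000000000000000000000000000000000000000) := D_24 (nat_lit 174) (nat_lit 173) (nat_lit 161) (nat_lit 1) (nat_lit 7) (nat_lit 9) (nat_lit 1) (nat_lit 8) (nat_lit 9) (by decide +kernel)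
theorem L64739 : W_24 (nat_lit 3) (nat_lit 0x28001c001000080000000000000000000000000000000) (nat_lit 0x0) (nat_lit 0x460022000000000000000000000000000000000000000) := T_24 (nat_lit 157) (nat_lit 178) (nat_lit 3) (nat_lit 4) (nat_lit 9) L64738 (by decide +kernel)
theorem L64740 : W_24 (nat_lit 9) (nat_lit 0x280014001000080000000000000000000000000000000) (nat_lit 0x0) (nat_lit 0x2000180046006a000780078001c00000000000000000000000000) := Q_24 (nat_lit 159) (C_24 L64729 (C_24 L64732 (C_24 L64735 (C_24 L64736 (C_24 L64737 (C_24 L64739 N_24)))))) (by decide +kernel)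
theorem L64741 : W_24 (nat_lit 11) (nat_lit 0x2c0014001000080000000000000000000000000000000) (nat_lit 0x0) (nat_lit 0x600030003f0013800bc00780078001c00000000000000000000000000) := Q_24 (nat_lit 157) (C_24 L64367 (C_24 L64079 (C_24 L64068 (C_24 L64045 N_24)))) (by decide +kernel)
theorem L64742 : W_24 (nat_lit 2) (nat_lit 0x2c001c001000080000000000000000000000000000000) (nat_lit 0x0) (nat_lit 0x30002000000000000000000000000000000000000000) := D_24 (nat_lit 173) (nat_lit 157) (nat_lit 172) (nat_lit 1) (nat_lit 7) (nat_lit 9) (nat_lit 2) (nat_lit 2) (nat_lit 10) (by decide +kernel)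
theorem L64743 : W_24 (nat_lit 3) (nat_lit 0x2c0014001000080000000000000000000000000000000) (nat_lit 0x0) (nat_lit 0x3002a000000000000000000000000000000000000000) := T_24 (nat_lit 159) (nat_lit 161) (nat_lit 1) (nat_lit 8) (nat_lit 9) L64742 (by decide +kernel)
theorem L64744 : W_24 (nat_lit 5) (nat_lit 0x2c0014001000080000000000000000000000000000000) (nat_lit 0x0) (nat_lit 0x10000c00100023000200010000000000000000000000000000000) := T_24 (nat_lit 176) (nat_lit 161) (nat_lit 2) (nat_lit 4) (nat_lit 10) L64281 (by decide +kernel)
theorem L64745 : W_24 (nat_lit 2) (nat_lit 0x2c0014001000080000000000000000000000000000000) (nat_lit 0x0) (nat_lit 0x100028000000000000000000000000000000000000000) := D_24 (nat_lit 161) (nat_lit 176) (nat_lit 159) (nat_lit 2) (nat_lit 4) (nat_lit 10) (nat_lit 1) (nat_lit 8) (nat_lit 9) (by decide +kernel)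
theorem L64746 : W_24 (nat_lit 12) (nat_lit 0x280014001000080000000000000000000000000000000) (nat_lit 0x0) (nat_lit 0x600030003f0017802bc00780078001c00000000000000000000000000) := Q_24 (nat_lit 174) (C_24 L64741 (C_24 L64743 (C_24 L64744 (C_24 L64745 N_24)))) (by decide +kernel)
theorem L64747 : W_24 (nat_lit 5) (nat_lit 0x380014001000080000000000000000000000000000000) (nat_lit 0x0) (nat_lit 0x10000c00040023000200010000000000000000000000000000000) := T_24 (nat_lit 174) (nat_lit 161) (nat_lit 2) (nat_lit 4) (nat_lit 10) L64281 (by decide +kernel)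
theorem L64748 : W_24 (nat_lit 2) (nat_lit 0x3c00090007800340010001c0000000000000000000000000000000) (nat_lit 0x0) (nat_lit 0xc00020000000000000000000000000000000000000000000000000000) := D_24 (nat_lit 227) (nat_lit 226) (nat_lit 209) (nat_lit 1) (nat_lit 9) (nat_lit 12) (nat_lit 7) (nat_lit 5) (nat_lit 9) (by decide +kernel)
theorem L64749 : W_24 (nat_lit 3) (nat_lit 0x3800090007800340010001c0000000000000000000000000000000) (nat_lit 0x0) (nat_lit 0xc00060002000000000000000000000000000000000000000000000000) := T_24 (nat_lit 210) (nat_lit 193) (nat_lit 0) (nat_lit 9) (nat_lit 12) L64748 (by decide +kernel)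
theorem L64750 : W_24 (nat_lit 4) (nat_lit 0x1800090007800340010001c0000000000000000000000000000000) (nat_lit 0x0) (nat_lit 0x4c00260002000000000000000000000000000000000000000000000000) := T_24 (nat_lit 213) (nat_lit 230) (nat_lit 7) (nat_lit 8) (nat_lit 9) L64749 (by decide +kernel)
theorem L64751 : W_24 (nat_lit 5) (nat_lit 0x1000090007800340010001c0000000000000000000000000000000) (nat_lit 0x0) (nat_lit 0x5c002e0002000000000000000000000000000000000000000000000000) := T_24 (nat_lit 211) (nat_lit 228) (nat_lit 5) (nat_lit 8) (nat_lit 9) L64750 (by decide +kernel)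
theorem L64752 : W_24 (nat_lit 6) (nat_lit 0x90007800340010001c0000000000000000000000000000000) (nat_lit 0x0) (nat_lit 0x7c003e0002000000000000000000000000000000000000000000000000) := T_24 (nat_lit 212) (nat_lit 229) (nat_lit 4) (nat_lit 8) (nat_lit 13) L64751 (by decide +kernel)
theorem L64753 : W_24 (nat_lit 7) (nat_lit 0x9000780034001000180000000000000000000000000000000) (nat_lit 0x0) (nat_lit 0x7c003e0002000000000000000040002000000000000000000000000000) := T_24 (nat_lit 126) (nat_lit 109) (nat_lit 4) (nat_lit 8) (nat_lit 10) L64752 (by decide +kernel)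
theorem L64754 : W_24 (nat_lit 8) (nat_lit 0x9000780034001000080000000000000000000000000000000) (nat_lit 0x0) (nat_lit 0x7c003e000200000000000000014000a000000000000000000000000000) := T_24 (nat_lit 128) (nat_lit 111) (nat_lit 6) (nat_lit 8) (nat_lit 10) L64753 (by decide +kernel)
theorem L64755 : W_24 (nat_lit 9) (nat_lit 0x9000780014001000080000000000000000000000000000000) (nat_lit 0x0) (nat_lit 0x7c003e000200000006000000014000a000000000000000000000000000) := T_24 (nat_lit 161) (nat_lit 162) (nat_lit 2) (nat_lit 5) (nat_lit 10) L64754 (by decide +kernel)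
theorem L64756 : W_24 (nat_lit 10) (nat_lit 0x1000780014001000080000000000000000000000000000000) (nat_lit 0x0) (nat_lit 0x7c003e001a00000006000000014000a000000000000000000000000000) := T_24 (nat_lit 195) (nat_lit 196) (nat_lit 3) (nat_lit 5) (nat_lit 10) L64755 (by decide +kernel)
theorem L64757 : W_24 (nat_lit 11) (nat_lit 0x780014001000080000000000000000000000000000000) (nat_lit 0x0) (nat_lit 0x7c003e001b80000006000000014000a000000000000000000000000000) := T_24 (nat_lit 192) (nat_lit 191) (nat_lit 1) (nat_lit 8) (nat_lit 10) L64756 (by decide +kernel)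
theorem L64758 : W_24 (nat_lit 12) (nat_lit 0x380014001000080000000000000000000000000000000) (nat_lit 0x0) (nat_lit 0x7c003e001b80040006200000014000a000000000000000000000000000) := T_24 (nat_lit 178) (nat_lit 157) (nat_lit 0) (nat_lit 8) (nat_lit 10) L64757 (by decide +kernel)
theorem L64759 : W_24 (nat_lit 5) (nat_lit 0x380014001000080000000000000000000000000000000) (nat_lit 0x0) (nat_lit 0x200010001c00440020000200000000000000000000000000000000000) := T_24 (nat_lit 174) (nat_lit 161) (nat_lit 2) (nat_lit 4) (nat_lit 10) L64301 (by decide +kernel)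
theorem L64760 : W_24 (nat_lit 13) (nat_lit 0x280014001000080000000000000000000000000000000) (nat_lit 0x0) (nat_lit 0x7e003f001bc0054006380020015000a000000000000000000000000000) := Q_24 (nat_lit 176) (C_24 L64294 (C_24 L64747 (C_24 L64758 (C_24 L64759 N_24)))) (by decide +kernel)
theorem L64761 : W_24 (nat_lit 4) (nat_lit 0x380014001000080000000000000000000000000000000) (nat_lit 0x0) (nat_lit 0xe00060028000000000000000000000000000000000000000) := T_24 (nat_lit 174) (nat_lit 161) (nat_lit 2) (nat_lit 4) (nat_lit 10) L64414 (by decide +kernel)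
theorem L64762 : W_24 (nat_lit 13) (nat_lit 0x280014001000080000000000000000000000000000000) (nat_lit 0x0) (nat_lit 0x7c003e001be0056006b80000014000a000000000000000000000000000) := Q_24 (nat_lit 176) (C_24 L64403 (C_24 L64758 (C_24 L64761 N_24))) (by decide +kernel)
theorem L64763 : W_24 (nat_lit 6) (nat_lit 0x280014001000080000000000000000000000000000000) (nat_lit 0x0) (nat_lit 0x10000e0056002b800200010000000000000000000000000000000) := Q_24 (nat_lit 176) (C_24 L64403 (C_24 L64761 (C_24 L64747 N_24))) (by decide +kernel)
theorem L64764 : W_24 (nat_lit 14) (nat_lit 0x280010001000080000000000000000000000000000000) (nat_lit 0x0) (nat_lit 0x14007e003f001bf0057806fc007e017f00bc000a0000000000000000000000) := Q_24 (nat_lit 158) (C_24 L64728 (C_24 L64740 (C_24 L64365 (C_24 L64746 (C_24 L64406 (C_24 L64312 (C_24 L64760 (C_24 L64762 (C_24 L64763 (C_24 L64280 N_24)))))))))) (by decide +kernel)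
theorem L64765 : W_24 (nat_lit 2) (nat_lit 0x7800280014001700080000000000000000000000000000000) (nat_lit 0x0) (nat_lit 0x180000000000020000000000000000000000000000000000000000) := D_24 (nat_lit 211) (nat_lit 212) (nat_lit 161) (nat_lit 3) (nat_lit 4) (nat_lit 11) (nat_lit 6) (nat_lit 7) (nat_lit 12) (by decide +kernel)
theorem L64766 : W_24 (nat_lit 3) (nat_lit 0x3800280014001700080000000000000000000000000000000) (nat_lit 0x0) (nat_lit 0x180004000400020000000000000000000000000000000000000000) := T_24 (nat_lit 194) (nat_lit 178) (nat_lit 2) (nat_lit 4) (nat_lit 11) L64765 (by decide +kernel)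
theorem L64767 : W_24 (nat_lit 4) (nat_lit 0x3000280014001700080000000000000000000000000000000) (nat_lit 0x0) (nat_lit 0x190004800400020000000000000000000000000000000000000000) := T_24 (nat_lit 191) (nat_lit 208) (nat_lit 5) (nat_lit 5) (nat_lit 8) L64766 (by decide +kernel)
theorem L64768 : W_24 (nat_lit 5) (nat_lit 0x3000280014001300080000000000000000000000000000000) (nat_lit 0x0) (nat_lit 0x190004800400020000400020000000000000000000000000000000) := T_24 (nat_lit 142) (nat_lit 125) (nat_lit 6) (nat_lit 5) (nat_lit 11) L64767 (by decide +kernel)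
theorem L64769 : W_24 (nat_lit 6) (nat_lit 0x1000280014001300080000000000000000000000000000000) (nat_lit 0x0) (nat_lit 0x1d0006800400020000400020000000000000000000000000000000) := T_24 (nat_lit 193) (nat_lit 210) (nat_lit 7) (nat_lit 5) (nat_lit 8) L64768 (by decide +kernel)
theorem L64770 : W_24 (nat_lit 7) (nat_lit 0x1000280014001200080000000000000000000000000000000) (nat_lit 0x0) (nat_lit 0x1d0006800400020000500028000000000000000000000000000000) := T_24 (nat_lit 140) (nat_lit 123) (nat_lit 4) (nat_lit 5) (nat_lit 11) L64769 (by decide +kernel)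
theorem L64771 : W_24 (nat_lit 2) (nat_lit 0x7800280014001200080000000000000000000000000000000) (nat_lit 0x0) (nat_lit 0x180000000000020000000000000000000000000000000000000000) := D_24 (nat_lit 211) (nat_lit 212) (nat_lit 161) (nat_lit 3) (nat_lit 4) (nat_lit 11) (nat_lit 6) (nat_lit 7) (nat_lit 12) (by decide +kernel)
theorem L64772 : W_24 (nat_lit 3) (nat_lit 0x3800280014001200080000000000000000000000000000000) (nat_lit 0x0) (nat_lit 0x180004000400020000000000000000000000000000000000000000) := T_24 (nat_lit 194) (nat_lit 178) (nat_lit 2) (nat_lit 4) (nat_lit 11) L64771 (by decide +kernel)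
theorem L64773 : W_24 (nat_lit 4) (nat_lit 0x1800280014001200080000000000000000000000000000000) (nat_lit 0x0) (nat_lit 0x1c0006000400020000000000000000000000000000000000000000) := T_24 (nat_lit 193) (nat_lit 210) (nat_lit 7) (nat_lit 5) (nat_lit 8) L64772 (by decide +kernel)
theorem L64774 : W_24 (nat_lit 5) (nat_lit 0x1000280014001200080000000000000000000000000000000) (nat_lit 0x0) (nat_lit 0x1d0006800400020000000000000000000000000000000000000000) := T_24 (nat_lit 191) (nat_lit 208) (nat_lit 5) (nat_lit 5) (nat_lit 8) L64773 (by decide +kernel)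
theorem L64775 : W_24 (nat_lit 8) (nat_lit 0x1000280014001000080000000000000000000000000000000) (nat_lit 0x0) (nat_lit 0xa001f0006800400022000700028000000000000000000000000000000) := Q_24 (nat_lit 141) (C_24 L64770 (C_24 L63491 (C_24 L63036 (C_24 L64774 N_24)))) (by decide +kernel)
theorem L64776 : W_24 (nat_lit 5) (nat_lit 0x20001000280014001000080000000000000000000000000000000) (nat_lit 0x0) (nat_lit 0xa00050000800000002000300008000000000000000000000000000000) := T_24 (nat_lit 210) (nat_lit 227) (nat_lit 7) (nat_lit 5) (nat_lit 9) L64039 (by decide +kernel)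
theorem L64777 : W_24 (nat_lit 2) (nat_lit 0xa0002000100028001e001000080000000000000000000000000000000) (nat_lit 0x0) (nat_lit 0x14000400000000000000000000000000000000000000000000000000000000) := D_24 (nat_lit 226) (nat_lit 244) (nat_lit 242) (nat_lit 7) (nat_lit 5) (nat_lit 10) (nat_lit 5) (nat_lit 5) (nat_lit 10) (by decide +kernel)
theorem L64778 : W_24 (nat_lit 3) (nat_lit 0x80002000100028001e001000080000000000000000000000000000000) (nat_lit 0x0) (nat_lit 0x14000600010000000000000000000000000000000000000000000000000000) := T_24 (nat_lit 225) (nat_lit 208) (nat_lit 5) (nat_lit 5) (nat_lit 9) L64777 (by decide +kernel)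
theorem L64779 : W_24 (nat_lit 4) (nat_lit 0x2000100028001e001000080000000000000000000000000000000) (nat_lit 0x0) (nat_lit 0x14000e00050000000000000000000000000000000000000000000000000000) := T_24 (nat_lit 227) (nat_lit 210) (nat_lit 7) (nat_lit 5) (nat_lit 9) L64778 (by decide +kernel)
theorem L64780 : W_24 (nat_lit 5) (nat_lit 0x20001000280016001000080000000000000000000000000000000) (nat_lit 0x0) (nat_lit 0x14000e00050000000400008000000000000000000000000000000000000000) := T_24 (nat_lit 159) (nat_lit 178) (nat_lit 3) (nat_lit 4) (nat_lit 9) L64779 (by decide +kernel)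
theorem L64781 : W_24 (nat_lit 6) (nat_lit 0x20001000280014001000080000000000000000000000000000000) (nat_lit 0x0) (nat_lit 0x14000e0005000000040000a000100000000000000000000000000000000000) := T_24 (nat_lit 157) (nat_lit 140) (nat_lit 4) (nat_lit 5) (nat_lit 12) L64780 (by decide +kernel)
theorem L64782 : W_24 (nat_lit 2) (nat_lit 0x30001800680016001000080000000000000000000000000000000) (nat_lit 0x0) (nat_lit 0x6000000020000000000000000000000000000000000000000) := D_24 (nat_lit 194) (nat_lit 161) (nat_lit 193) (nat_lit 5) (nat_lit 8) (nat_lit 7) (nat_lit 2) (nat_lit 4) (nat_lit 11) (by decide +kernel)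
theorem L64783 : W_24 (nat_lit 3) (nat_lit 0x30001000680016001000080000000000000000000000000000000) (nat_lit 0x0) (nat_lit 0x6800000020000200000000000000000000000000000000000) := T_24 (nat_lit 191) (nat_lit 141) (nat_lit 5) (nat_lit 5) (nat_lit 8) L64782 (by decide +kernel)
theorem L64784 : W_24 (nat_lit 4) (nat_lit 0x20001000680016001000080000000000000000000000000000000) (nat_lit 0x0) (nat_lit 0x200010006800000020000200000000000000000000000000000000000) := T_24 (nat_lit 208) (nat_lit 225) (nat_lit 5) (nat_lit 5) (nat_lit 9) L64783 (by decide +kernel)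
theorem L64785 : W_24 (nat_lit 5) (nat_lit 0x20001000280016001000080000000000000000000000000000000) (nat_lit 0x0) (nat_lit 0x200010006800400028000200000000000000000000000000000000000) := T_24 (nat_lit 178) (nat_lit 159) (nat_lit 3) (nat_lit 4) (nat_lit 9) L64784 (by decide +kernel)
theorem L64786 : W_24 (nat_lit 6) (nat_lit 0x20001000280014001000080000000000000000000000000000000) (nat_lit 0x0) (nat_lit 0x20001000680040002a000300000000000000000000000000000000000) := T_24 (nat_lit 157) (nat_lit 140) (nat_lit 4) (nat_lit 5) (nat_lit 12) L64785 (by decide +kernel)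
theorem L64790 : W_24 (nat_lit 7) (nat_lit 0x1000280014001000080000000000000000000000000000000) (nat_lit 0x0) (nat_lit 0x14000e0007000680040002a000300008000000000000000000000000000000) := Q_24 (nat_lit 209) (C_24 L64182 (C_24 L64776 (C_24 L64781 (C_24 L64786 (C_24 L64789 N_24))))) (by decide +kernel)
theorem L64791 : W_24 (nat_lit 7) (nat_lit 0x1000280014001000080000000000000000000000000000000) (nat_lit 0x0) (nat_lit 0x14000e0007000080040000a000700008000000000000000000000000000000) := Q_24 (nat_lit 209) (C_24 L64256 (C_24 L64781 (C_24 L64776 (C_24 L64233 N_24)))) (by decide +kernel)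
theorem L64792 : W_24 (nat_lit 2) (nat_lit 0xc00020001000280016001000080000000000000000000000000000000) (nat_lit 0x0) (nat_lit 0x4000200010000000000000000000000000000000000000000000000000000) := D_24 (nat_lit 225) (nat_lit 242) (nat_lit 208) (nat_lit 5) (nat_lit 5) (nat_lit 10) (nat_lit 5) (nat_lit 5) (nat_lit 9) (by decide +kernel)
theorem L64793 : W_24 (nat_lit 3) (nat_lit 0x800020001000280016001000080000000000000000000000000000000) (nat_lit 0x0) (nat_lit 0x14000600010000000000000000000000000000000000000000000000000000) := T_24 (nat_lit 226) (nat_lit 244) (nat_lit 7) (nat_lit 5) (nat_lit 10) L64792 (by decide +kernel)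
theorem L64794 : W_24 (nat_lit 4) (nat_lit 0x800020001000280014001000080000000000000000000000000000000) (nat_lit 0x0) (nat_lit 0x14000600010000000000002000100000000000000000000000000000000000) := T_24 (nat_lit 157) (nat_lit 140) (nat_lit 4) (nat_lit 5) (nat_lit 12) L64793 (by decide +kernel)
theorem L64795 : W_24 (nat_lit 5) (nat_lit 0x20001000280014001000080000000000000000000000000000000) (nat_lit 0x0) (nat_lit 0x14000e00050000000000002000100000000000000000000000000000000000) := T_24 (nat_lit 227) (nat_lit 210) (nat_lit 7) (nat_lit 5) (nat_lit 9) L64794 (by decide +kernel)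
theorem L64796 : W_24 (nat_lit 7) (nat_lit 0x1000280014001000080000000000000000000000000000000) (nat_lit 0x0) (nat_lit 0x14000e0007000000040000a000500000000000000000000000000000000000) := Q_24 (nat_lit 209) (C_24 L64256 (C_24 L64781 (C_24 L64795 (C_24 L64233 N_24)))) (by decide +kernel)
theorem L64797 : W_24 (nat_lit 2) (nat_lit 0x580028001c001600080000000000000000000000000000000) (nat_lit 0x0) (nat_lit 0x2000400002000000000000000000000000000000000000000) := D_24 (nat_lit 178) (nat_lit 157) (nat_lit 193) (nat_lit 3) (nat_lit 4) (nat_lit 9) (nat_lit 2) (nat_lit 4) (nat_lit 11) (by decide +kernel)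
theorem L64798 : W_24 (nat_lit 3) (nat_lit 0x180028001c001600080000000000000000000000000000000) (nat_lit 0x0) (nat_lit 0x80006000400002000000000000000000000000000000000000000) := T_24 (nat_lit 194) (nat_lit 211) (nat_lit 4) (nat_lit 7) (nat_lit 12) L64797 (by decide +kernel)
theorem L64799 : W_24 (nat_lit 4) (nat_lit 0x1800280014001600080000000000000000000000000000000) (nat_lit 0x0) (nat_lit 0xa000600040000a000000000000000000000000000000000000000) := T_24 (nat_lit 159) (nat_lit 209) (nat_lit 6) (nat_lit 5) (nat_lit 12) L64798 (by decide +kernel)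
theorem L64800 : W_24 (nat_lit 5) (nat_lit 0x1000280014001600080000000000000000000000000000000) (nat_lit 0x0) (nat_lit 0xb000680040000a000000000000000000000000000000000000000) := T_24 (nat_lit 191) (nat_lit 208) (nat_lit 5) (nat_lit 5) (nat_lit 8) L64799 (by decide +kernel)
theorem L64801 : W_24 (nat_lit 6) (nat_lit 0x1000280014001200080000000000000000000000000000000) (nat_lit 0x0) (nat_lit 0xb000680040000a000400020000000000000000000000000000000) := T_24 (nat_lit 142) (nat_lit 125) (nat_lit 6) (nat_lit 5) (nat_lit 11) L64800 (by decide +kernel)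
theorem L64802 : W_24 (nat_lit 2) (nat_lit 0x1000280014001700080000000000000000000000000000000) (nat_lit 0x0) (nat_lit 0x28000080000000000000000000000000000000000) := D_24 (nat_lit 159) (nat_lit 139) (nat_lit 161) (nat_lit 3) (nat_lit 3) (nat_lit 8) (nat_lit 0) (nat_lit 8) (nat_lit 9) (by decide +kernel)
theorem L64803 : W_24 (nat_lit 3) (nat_lit 0x1000280014001600080000000000000000000000000000000) (nat_lit 0x0) (nat_lit 0x28000180008000000000000000000000000000000) := T_24 (nat_lit 140) (nat_lit 123) (nat_lit 4) (nat_lit 5) (nat_lit 11) L64802 (by decide +kernel)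
theorem L64804 : W_24 (nat_lit 4) (nat_lit 0x1000280014001200080000000000000000000000000000000) (nat_lit 0x0) (nat_lit 0x28000580028000000000000000000000000000000) := T_24 (nat_lit 142) (nat_lit 125) (nat_lit 6) (nat_lit 5) (nat_lit 11) L64803 (by decide +kernel)
theorem L64805 : W_24 (nat_lit 7) (nat_lit 0x1000280014001000080000000000000000000000000000000) (nat_lit 0x0) (nat_lit 0x2000b000680040002a000780028000000000000000000000000000000) := Q_24 (nat_lit 141) (C_24 L62950 (C_24 L63853 (C_24 L63036 (C_24 L64801 (C_24 L64804 N_24))))) (by decide +kernel)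
theorem L64806 : W_24 (nat_lit 9) (nat_lit 0x1000280014001000080000000000000000000000000000000) (nat_lit 0x0) (nat_lit 0x1d0006800400029c007c002f000000000000000000000000000000) := Q_24 (nat_lit 141) (C_24 L64804 (C_24 L64266 (C_24 L64774 N_24))) (by decide +kernel)
theorem L64807 : W_24 (nat_lit 2) (nat_lit 0x700028001c001600080000000000000000000000000000000) (nat_lit 0x0) (nat_lit 0x800400002000000000000000000000000000000000000000) := D_24 (nat_lit 178) (nat_lit 157) (nat_lit 191) (nat_lit 3) (nat_lit 4) (nat_lit 9) (nat_lit 2) (nat_lit 4) (nat_lit 11) (by decide +kernel)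
theorem L64808 : W_24 (nat_lit 3) (nat_lit 0x300028001c001600080000000000000000000000000000000) (nat_lit 0x0) (nat_lit 0x80004800400002000000000000000000000000000000000000000) := T_24 (nat_lit 194) (nat_lit 211) (nat_lit 4) (nat_lit 7) (nat_lit 12) L64807 (by decide +kernel)
theorem L64809 : W_24 (nat_lit 4) (nat_lit 0x3000280014001600080000000000000000000000000000000) (nat_lit 0x0) (nat_lit 0xa000480040000a000000000000000000000000000000000000000) := T_24 (nat_lit 159) (nat_lit 209) (nat_lit 6) (nat_lit 5) (nat_lit 12) L64808 (by decide +kernel)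
theorem L64810 : W_24 (nat_lit 5) (nat_lit 0x1000280014001600080000000000000000000000000000000) (nat_lit 0x0) (nat_lit 0xe000680040000a000000000000000000000000000000000000000) := T_24 (nat_lit 193) (nat_lit 210) (nat_lit 7) (nat_lit 5) (nat_lit 8) L64809 (by decide +kernel)
theorem L64811 : W_24 (nat_lit 6) (nat_lit 0x1000280014001200080000000000000000000000000000000) (nat_lit 0x0) (nat_lit 0xe000680040000a000400020000000000000000000000000000000) := T_24 (nat_lit 142) (nat_lit 125) (nat_lit 6) (nat_lit 5) (nat_lit 11) L64810 (by decide +kernel)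
theorem L64812 : W_24 (nat_lit 9) (nat_lit 0x1000280014001000080000000000000000000000000000000) (nat_lit 0x0) (nat_lit 0x8000e000680040002bc007c002f000000000000000000000000000000) := Q_24 (nat_lit 141) (C_24 L64804 (C_24 L64266 (C_24 L63491 (C_24 L64811 N_24)))) (by decide +kernel)
theorem L64813 : W_24 (nat_lit 10) (nat_lit 0x1000280010001000080000000000000000000000000000000) (nat_lit 0x0) (nat_lit 0x14000e001f000680040002fc007c002f000000000000000000000000000000) := Q_24 (nat_lit 158) (C_24 L64259 (C_24 L64325 (C_24 L64775 (C_24 L64790 (C_24 L64791 (C_24 L64796 (C_24 L64805 (C_24 L64806 (C_24 L64812 N_24))))))))) (by decide +kernel)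
theorem L64814 : W_24 (nat_lit 2) (nat_lit 0x3000100028001e001000080000000000000000000000000000000) (nat_lit 0x0) (nat_lit 0x60020000000000000000000000000000000000000000) := D_24 (nat_lit 174) (nat_lit 161) (nat_lit 173) (nat_lit 1) (nat_lit 8) (nat_lit 9) (nat_lit 1) (nat_lit 7) (nat_lit 9) (by decide +kernel)
theorem L64815 : W_24 (nat_lit 3) (nat_lit 0x30001000280016001000080000000000000000000000000000000) (nat_lit 0x0) (nat_lit 0x60028000400000000000000000000000000000000000) := T_24 (nat_lit 159) (nat_lit 142) (nat_lit 6) (nat_lit 5) (nat_lit 12) L64814 (by decide +kernel)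
theorem L64816 : W_24 (nat_lit 4) (nat_lit 0x20001000280016001000080000000000000000000000000000000) (nat_lit 0x0) (nat_lit 0x200010000000060028000400000000000000000000000000000000000) := T_24 (nat_lit 208) (nat_lit 225) (nat_lit 5) (nat_lit 5) (nat_lit 9) L64815 (by decide +kernel)
theorem L64817 : W_24 (nat_lit 5) (nat_lit 0x20001000280014001000080000000000000000000000000000000) (nat_lit 0x0) (nat_lit 0x20001000000006002a000500000000000000000000000000000000000) := T_24 (nat_lit 157) (nat_lit 140) (nat_lit 4) (nat_lit 5) (nat_lit 12) L64816 (by decide +kernel)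
theorem L64818 : W_24 (nat_lit 6) (nat_lit 0x1000280014001000080000000000000000000000000000000) (nat_lit 0x0) (nat_lit 0x14000e0007000000006002a000500000000000000000000000000000000000) := Q_24 (nat_lit 209) (C_24 L64256 (C_24 L64795 (C_24 L64181 (C_24 L64183 (C_24 L64817 N_24))))) (by decide +kernel)
theorem L64819 : W_24 (nat_lit 6) (nat_lit 0x1000280014001000080000000000000000000000000000000) (nat_lit 0x0) (nat_lit 0x20003000080004002a000780038001000000000000000000000000000) := Q_24 (nat_lit 141) (C_24 L64804 (C_24 L64399 (C_24 L63853 N_24))) (by decide +kernel)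
theorem L64820 : W_24 (nat_lit 2) (nat_lit 0x300028001c001600080000000000000000000000000000000) (nat_lit 0x0) (nat_lit 0x40060000000000000000000000000000000000000000) := D_24 (nat_lit 161) (nat_lit 162) (nat_lit 174) (nat_lit 0) (nat_lit 9) (nat_lit 9) (nat_lit 1) (nat_lit 8) (nat_lit 9) (by decide +kernel)
theorem L64821 : W_24 (nat_lit 3) (nat_lit 0x3000280014001600080000000000000000000000000000000) (nat_lit 0x0) (nat_lit 0x20000000040068000000000000000000000000000000000000000) := T_24 (nat_lit 159) (nat_lit 209) (nat_lit 6) (nat_lit 5) (nat_lit 12) L64820 (by decide +kernel)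
theorem L64822 : W_24 (nat_lit 4) (nat_lit 0x1000280014001600080000000000000000000000000000000) (nat_lit 0x0) (nat_lit 0x60002000040068000000000000000000000000000000000000000) := T_24 (nat_lit 193) (nat_lit 210) (nat_lit 7) (nat_lit 5) (nat_lit 8) L64821 (by decide +kernel)
theorem L64823 : W_24 (nat_lit 5) (nat_lit 0x1000280014001200080000000000000000000000000000000) (nat_lit 0x0) (nat_lit 0x60002000040068000400020000000000000000000000000000000) := T_24 (nat_lit 142) (nat_lit 125) (nat_lit 6) (nat_lit 5) (nat_lit 11) L64822 (by decide +kernel)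
theorem L64824 : W_24 (nat_lit 9) (nat_lit 0x1000280014001000080000000000000000000000000000000) (nat_lit 0x0) (nat_lit 0x80006000200004006bc007c002f000000000000000000000000000000) := Q_24 (nat_lit 141) (C_24 L64804 (C_24 L64266 (C_24 L63491 (C_24 L64823 N_24)))) (by decide +kernel)
theorem L64825 : W_24 (nat_lit 11) (nat_lit 0x1000280010001000080000000000000000000000000000000) (nat_lit 0x0) (nat_lit 0x14000e000f0002e0006006fc007c003f001400000000000000000000000000) := Q_24 (nat_lit 158) (C_24 L64267 (C_24 L64185 (C_24 L64184 (C_24 L64818 (C_24 L64819 (C_24 L64259 (C_24 L64824 N_24))))))) (by decide +kernel)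
theorem L64826 : W_24 (nat_lit 12) (nat_lit 0x1000280010001000080000000000000000000000000000000) (nat_lit 0x0) (nat_lit 0x14000e000f000680046000fc007c003f001c00040000000000000000000000) := Q_24 (nat_lit 158) (C_24 L64267 (C_24 L64796 (C_24 L64184 (C_24 L64252 (C_24 L64259 (C_24 L64276 N_24)))))) (by decide +kernel)
theorem L64827 : W_24 (nat_lit 2) (nat_lit 0x1c0005000280010001000080000000000000000000000000000000) (nat_lit 0x0) (nat_lit 0x20002800000000000000000000000000000000000000000000000) := D_24 (nat_lit 191) (nat_lit 193) (nat_lit 209) (nat_lit 3) (nat_lit 4) (nat_lit 11) (nat_lit 0) (nat_lit 8) (nat_lit 12) (by decide +kernel)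
theorem L64828 : W_24 (nat_lit 3) (nat_lit 0xc0005000280010001000080000000000000000000000000000000) (nat_lit 0x0) (nat_lit 0x2000120002800000000000000000000000000000000000000000000000) := T_24 (nat_lit 212) (nat_lit 229) (nat_lit 7) (nat_lit 7) (nat_lit 9) L64827 (by decide +kernel)
theorem L64829 : W_24 (nat_lit 4) (nat_lit 0x80005000280010001000080000000000000000000000000000000) (nat_lit 0x0) (nat_lit 0x2800160002800000000000000000000000000000000000000000000000) := T_24 (nat_lit 210) (nat_lit 227) (nat_lit 5) (nat_lit 7) (nat_lit 9) L64828 (by decide +kernel)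
theorem L64830 : W_24 (nat_lit 5) (nat_lit 0x5000280010001000080000000000000000000000000000000) (nat_lit 0x0) (nat_lit 0x28001e0002800000020000000000000000000000000000000000000000) := T_24 (nat_lit 211) (nat_lit 161) (nat_lit 6) (nat_lit 7) (nat_lit 12) L64829 (by decide +kernel)
theorem L64831 : W_24 (nat_lit 4) (nat_lit 0x7000280010001000080000000000000000000000000000000) (nat_lit 0x0) (nat_lit 0x38008800440000000000000000000000000000000000000000000) := T_24 (nat_lit 195) (nat_lit 174) (nat_lit 0) (nat_lit 8) (nat_lit 11) L64029 (by decide +kernel)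
theorem L64832 : W_24 (nat_lit 2) (nat_lit 0x90007800280010001000080000000000000000000000000000000) (nat_lit 0x0) (nat_lit 0x800040000400000000000000000000000000000000000000000000000) := D_24 (nat_lit 210) (nat_lit 190) (nat_lit 227) (nat_lit 3) (nat_lit 3) (nat_lit 11) (nat_lit 5) (nat_lit 7) (nat_lit 9) (by decide +kernel)
theorem L64833 : W_24 (nat_lit 3) (nat_lit 0x10007800280010001000080000000000000000000000000000000) (nat_lit 0x0) (nat_lit 0x8001c0000400000000000000000000000000000000000000000000000) := T_24 (nat_lit 211) (nat_lit 212) (nat_lit 3) (nat_lit 4) (nat_lit 11) L64832 (by decide +kernel)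
theorem L64834 : W_24 (nat_lit 4) (nat_lit 0x7800280010001000080000000000000000000000000000000) (nat_lit 0x0) (nat_lit 0x8001d8000400000000000000000000000000000000000000000000000) := T_24 (nat_lit 208) (nat_lit 207) (nat_lit 1) (nat_lit 7) (nat_lit 11) L64833 (by decide +kernel)
theorem L64835 : W_24 (nat_lit 5) (nat_lit 0x7000280010001000080000000000000000000000000000000) (nat_lit 0x0) (nat_lit 0x8001d8000c00400000000000000000000000000000000000000000000) := T_24 (nat_lit 191) (nat_lit 178) (nat_lit 2) (nat_lit 4) (nat_lit 11) L64834 (by decide +kernel)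
theorem L64836 : W_24 (nat_lit 2) (nat_lit 0x7800280010001000080000000000000000000000000000000) (nat_lit 0x0) (nat_lit 0x8000060000000000000000000000000000000000000000000) := D_24 (nat_lit 174) (nat_lit 173) (nat_lit 195) (nat_lit 0) (nat_lit 7) (nat_lit 11) (nat_lit 0) (nat_lit 8) (nat_lit 11) (by decide +kernel)
theorem L64837 : W_24 (nat_lit 3) (nat_lit 0x7000280010001000080000000000000000000000000000000) (nat_lit 0x0) (nat_lit 0x8800460000000000000000000000000000000000000000000) := T_24 (nat_lit 191) (nat_lit 178) (nat_lit 2) (nat_lit 4) (nat_lit 11) L64836 (by decide +kernel)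
theorem L64838 : W_24 (nat_lit 6) (nat_lit 0x5000280010001000080000000000000000000000000000000) (nat_lit 0x0) (nat_lit 0x100008001f801ac00460000000000000000000000000000000000000000000) := Q_24 (nat_lit 193) (C_24 L64027 (C_24 L64831 (C_24 L64835 (C_24 L64837 N_24)))) (by decide +kernel)
theorem L64839 : W_24 (nat_lit 2) (nat_lit 0x5000280010001000080000000000000000000000000000000) (nat_lit 0x0) (nat_lit 0x80000000400020000000000000000000000000000000000000000) := D_24 (nat_lit 161) (nat_lit 178) (nat_lit 211) (nat_lit 5) (nat_lit 8) (nat_lit 7) (nat_lit 6) (nat_lit 7) (nat_lit 12) (by decide +kernel)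
theorem L64840 : W_24 (nat_lit 2) (nat_lit 0xf000680010001000080000000000000000000000000000000) (nat_lit 0x0) (nat_lit 0x2000300000000000000000000000000000000000000000000000000000) := D_24 (nat_lit 212) (nat_lit 213) (nat_lit 229) (nat_lit 3) (nat_lit 5) (nat_lit 11) (nat_lit 4) (nat_lit 8) (nat_lit 13) (by decide +kernel)
theorem L64841 : W_24 (nat_lit 3) (nat_lit 0x7000680010001000080000000000000000000000000000000) (nat_lit 0x0) (nat_lit 0x2000300008000040000000000000000000000000000000000000000000) := T_24 (nat_lit 195) (nat_lit 174) (nat_lit 0) (nat_lit 8) (nat_lit 11) L64840 (by decide +kernel)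
theorem L64842 : W_24 (nat_lit 4) (nat_lit 0x5000680010001000080000000000000000000000000000000) (nat_lit 0x0) (nat_lit 0x200030000a800040000000000000000000000000000000000000000000) := T_24 (nat_lit 193) (nat_lit 191) (nat_lit 2) (nat_lit 4) (nat_lit 11) L64841 (by decide +kernel)
theorem L64843 : W_24 (nat_lit 5) (nat_lit 0x5000280010001000080000000000000000000000000000000) (nat_lit 0x0) (nat_lit 0x200030000a800440020000000000000000000000000000000000000000) := T_24 (nat_lit 178) (nat_lit 161) (nat_lit 5) (nat_lit 8) (nat_lit 7) L64842 (by decide +kernel)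
theorem L64844 : W_24 (nat_lit 7) (nat_lit 0x1000280010001000080000000000000000000000000000000) (nat_lit 0x0) (nat_lit 0x100028003f801ec00460020000000000000000000000000000000000000000) := Q_24 (nat_lit 194) (C_24 L64830 (C_24 L64838 (C_24 L64839 (C_24 L64843 N_24)))) (by decide +kernel)
theorem L64845 : W_24 (nat_lit 2) (nat_lit 0x700010002800140013000a0000000000000000000000000000000) (nat_lit 0x0) (nat_lit 0x50001000000000000000000000000000) := D_24 (nat_lit 124) (nat_lit 108) (nat_lit 126) (nat_lit 6) (nat_lit 5) (nat_lit 10) (nat_lit 1) (nat_lit 8) (nat_lit 7) (by decide +kernel)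
theorem L64846 : W_24 (nat_lit 3) (nat_lit 0x70001000280014001300080000000000000000000000000000000) (nat_lit 0x0) (nat_lit 0x400070001000000000000000000000000000) := T_24 (nat_lit 125) (nat_lit 142) (nat_lit 6) (nat_lit 5) (nat_lit 11) L64845 (by decide +kernel)
theorem L64847 : W_24 (nat_lit 4) (nat_lit 0x70001000280014001200080000000000000000000000000000000) (nat_lit 0x0) (nat_lit 0x500078001000000000000000000000000000) := T_24 (nat_lit 140) (nat_lit 123) (nat_lit 4) (nat_lit 5) (nat_lit 11) L64846 (by decide +kernel)
theorem L64848 : W_24 (nat_lit 5) (nat_lit 0x70001000280014001000080000000000000000000000000000000) (nat_lit 0x0) (nat_lit 0x800000000000700078001000000000000000000000000000) := T_24 (nat_lit 141) (nat_lit 191) (nat_lit 5) (nat_lit 5) (nat_lit 8) L64847 (by decide +kernel)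
theorem L64849 : W_24 (nat_lit 6) (nat_lit 0x60001000280014001000080000000000000000000000000000000) (nat_lit 0x0) (nat_lit 0x200010000800000000000700078001000000000000000000000000000) := T_24 (nat_lit 208) (nat_lit 225) (nat_lit 5) (nat_lit 5) (nat_lit 9) L64848 (by decide +kernel)
theorem L64850 : W_24 (nat_lit 7) (nat_lit 0x20001000280014001000080000000000000000000000000000000) (nat_lit 0x0) (nat_lit 0xa00050000800000000000700078001000000000000000000000000000) := T_24 (nat_lit 210) (nat_lit 227) (nat_lit 7) (nat_lit 5) (nat_lit 9) L64849 (by decide +kernel)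
theorem L64851 : W_24 (nat_lit 2) (nat_lit 0x700010002800140012000b0000400000000000000000000000000) (nat_lit 0x0) (nat_lit 0x40000800020000000000000000000000) := D_24 (nat_lit 107) (nat_lit 89) (nat_lit 126) (nat_lit 4) (nat_lit 5) (nat_lit 9) (nat_lit 0) (nat_lit 8) (nat_lit 7) (by decide +kernel)
theorem L64852 : W_24 (nat_lit 3) (nat_lit 0x700010002800140012000b0000000000000000000000000000000) (nat_lit 0x0) (nat_lit 0x48000c00020000000000000000000000) := T_24 (nat_lit 106) (nat_lit 123) (nat_lit 4) (nat_lit 5) (nat_lit 10) L64851 (by decide +kernel)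
theorem L64853 : W_24 (nat_lit 4) (nat_lit 0x700010002800140012000a0000000000000000000000000000000) (nat_lit 0x0) (nat_lit 0x58001c00020000000000000000000000) := T_24 (nat_lit 124) (nat_lit 108) (nat_lit 6) (nat_lit 5) (nat_lit 10) L64852 (by decide +kernel)
theorem L64854 : W_24 (nat_lit 5) (nat_lit 0x70001000280014001200080000000000000000000000000000000) (nat_lit 0x0) (nat_lit 0x400078001c00020000000000000000000000) := T_24 (nat_lit 125) (nat_lit 142) (nat_lit 6) (nat_lit 5) (nat_lit 11) L64853 (by decide +kernel)
theorem L64855 : W_24 (nat_lit 6) (nat_lit 0x30001000280014001200080000000000000000000000000000000) (nat_lit 0x0) (nat_lit 0x800040000000000000000400078001c00020000000000000000000000) := T_24 (nat_lit 210) (nat_lit 227) (nat_lit 7) (nat_lit 5) (nat_lit 9) L64854 (by decide +kernel)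
theorem L64856 : W_24 (nat_lit 7) (nat_lit 0x30001000280014001000080000000000000000000000000000000) (nat_lit 0x0) (nat_lit 0x800040000800000000000600078001c00020000000000000000000000) := T_24 (nat_lit 141) (nat_lit 191) (nat_lit 5) (nat_lit 5) (nat_lit 8) L64855 (by decide +kernel)
theorem L64857 : W_24 (nat_lit 8) (nat_lit 0x20001000280014001000080000000000000000000000000000000) (nat_lit 0x0) (nat_lit 0xa00050000800000000000600078001c00020000000000000000000000) := T_24 (nat_lit 208) (nat_lit 225) (nat_lit 5) (nat_lit 5) (nat_lit 9) L64856 (by decide +kernel)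
theorem L64858 : W_24 (nat_lit 9) (nat_lit 0x1000280014001000080000000000000000000000000000000) (nat_lit 0x0) (nat_lit 0x14000e00070000800040002000700078001c00020000000000000000000000) := Q_24 (nat_lit 209) (C_24 L64850 (C_24 L64795 (C_24 L64181 (C_24 L64857 (C_24 L64183 N_24))))) (by decide +kernel)
theorem L64859 : W_24 (nat_lit 2) (nat_lit 0x70001000280034001300080000000000000000000000000000000) (nat_lit 0x0) (nat_lit 0x80004000400000000000000000000000000000000000000000000) := D_24 (nat_lit 194) (nat_lit 211) (nat_lit 178) (nat_lit 6) (nat_lit 7) (nat_lit 12) (nat_lit 5) (nat_lit 8) (nat_lit 7) (by decide +kernel)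
theorem L64860 : W_24 (nat_lit 3) (nat_lit 0x70001000280014001300080000000000000000000000000000000) (nat_lit 0x0) (nat_lit 0x80004000400028000000000000000000000000000000000000000) := T_24 (nat_lit 161) (nat_lit 159) (nat_lit 0) (nat_lit 8) (nat_lit 9) L64859 (by decide +kernel)
theorem L64861 : W_24 (nat_lit 4) (nat_lit 0x70001000280014001200080000000000000000000000000000000) (nat_lit 0x0) (nat_lit 0x80004000400028000100008000000000000000000000000000000) := T_24 (nat_lit 140) (nat_lit 123) (nat_lit 4) (nat_lit 5) (nat_lit 11) L64860 (by decide +kernel)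
theorem L64862 : W_24 (nat_lit 5) (nat_lit 0x70001000280014001000080000000000000000000000000000000) (nat_lit 0x0) (nat_lit 0x80004800400028000300008000000000000000000000000000000) := T_24 (nat_lit 141) (nat_lit 191) (nat_lit 5) (nat_lit 5) (nat_lit 8) L64861 (by decide +kernel)
theorem L64863 : W_24 (nat_lit 6) (nat_lit 0x60001000280014001000080000000000000000000000000000000) (nat_lit 0x0) (nat_lit 0x200090004800400028000300008000000000000000000000000000000) := T_24 (nat_lit 208) (nat_lit 225) (nat_lit 5) (nat_lit 5) (nat_lit 9) L64862 (by decide +kernel)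
theorem L64864 : W_24 (nat_lit 7) (nat_lit 0x20001000280014001000080000000000000000000000000000000) (nat_lit 0x0) (nat_lit 0xa000d0004800400028000300008000000000000000000000000000000) := T_24 (nat_lit 210) (nat_lit 227) (nat_lit 7) (nat_lit 5) (nat_lit 9) L64863 (by decide +kernel)
theorem L64865 : W_24 (nat_lit 2) (nat_lit 0xc000300010002c0034001200080000000000000000000000000000000) (nat_lit 0x0) (nat_lit 0x80004000400000000000000000000000000000000000000000000) := D_24 (nat_lit 194) (nat_lit 178) (nat_lit 211) (nat_lit 5) (nat_lit 8) (nat_lit 7) (nat_lit 6) (nat_lit 7) (nat_lit 12) (by decide +kernel)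
theorem L64866 : W_24 (nat_lit 3) (nat_lit 0xc000300010002c0014001200080000000000000000000000000000000) (nat_lit 0x0) (nat_lit 0x80004000400028000000000000000000000000000000000000000) := T_24 (nat_lit 161) (nat_lit 159) (nat_lit 1) (nat_lit 8) (nat_lit 9) L64865 (by decide +kernel)
theorem L64867 : W_24 (nat_lit 4) (nat_lit 0xc00030001000280014001200080000000000000000000000000000000) (nat_lit 0x0) (nat_lit 0x8000400044002a000000000000000000000000000000000000000) := T_24 (nat_lit 174) (nat_lit 157) (nat_lit 4) (nat_lit 5) (nat_lit 13) L64866 (by decide +kernel)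
theorem L64868 : W_24 (nat_lit 5) (nat_lit 0x800030001000280014001200080000000000000000000000000000000) (nat_lit 0x0) (nat_lit 0x1000040008000400044002a000000000000000000000000000000000000000) := T_24 (nat_lit 226) (nat_lit 244) (nat_lit 7) (nat_lit 5) (nat_lit 10) L64867 (by decide +kernel)
theorem L64869 : W_24 (nat_lit 6) (nat_lit 0x30001000280014001200080000000000000000000000000000000) (nat_lit 0x0) (nat_lit 0x10000c000c000400044002a000000000000000000000000000000000000000) := T_24 (nat_lit 227) (nat_lit 210) (nat_lit 7) (nat_lit 5) (nat_lit 9) L64868 (by decide +kernel)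
theorem L64870 : W_24 (nat_lit 7) (nat_lit 0x30001000280014001000080000000000000000000000000000000) (nat_lit 0x0) (nat_lit 0x10000c000c000480044002a000200000000000000000000000000000000000) := T_24 (nat_lit 141) (nat_lit 191) (nat_lit 5) (nat_lit 5) (nat_lit 8) L64869 (by decide +kernel)
theorem L64871 : W_24 (nat_lit 8) (nat_lit 0x20001000280014001000080000000000000000000000000000000) (nat_lit 0x0) (nat_lit 0x10000e000d000480044002a000200000000000000000000000000000000000) := T_24 (nat_lit 208) (nat_lit 225) (nat_lit 5) (nat_lit 5) (nat_lit 9) L64870 (by decide +kernel)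
theorem L64872 : W_24 (nat_lit 9) (nat_lit 0x1000280014001000080000000000000000000000000000000) (nat_lit 0x0) (nat_lit 0x14000e000f000480044002a000300008000000000000000000000000000000) := Q_24 (nat_lit 209) (C_24 L64864 (C_24 L64795 (C_24 L64181 (C_24 L64871 (C_24 L64183 N_24))))) (by decide +kernel)
theorem L64873 : W_24 (nat_lit 5) (nat_lit 0x1000280014001000080000000000000000000000000000000) (nat_lit 0x0) (nat_lit 0x10000800040028000780038001400000000000000000000000000) := Q_24 (nat_lit 141) (C_24 L64804 (C_24 L64399 (C_24 L62818 N_24))) (by decide +kernel)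
theorem L64874 : W_24 (nat_lit 3) (nat_lit 0x6000100028001c001000080000000000000000000000000000000) (nat_lit 0x0) (nat_lit 0x400000000000460002000000000000000000000000000000000000000) := T_24 (nat_lit 157) (nat_lit 178) (nat_lit 3) (nat_lit 4) (nat_lit 9) L64173 (by decide +kernel)
theorem L64875 : W_24 (nat_lit 4) (nat_lit 0x60001000280014001000080000000000000000000000000000000) (nat_lit 0x0) (nat_lit 0x40000000000046000a000400000000000000000000000000000000000) := T_24 (nat_lit 159) (nat_lit 142) (nat_lit 6) (nat_lit 5) (nat_lit 12) L64874 (by decide +kernel)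
theorem L64876 : W_24 (nat_lit 5) (nat_lit 0x20001000280014001000080000000000000000000000000000000) (nat_lit 0x0) (nat_lit 0xc0004000000046000a000400000000000000000000000000000000000) := T_24 (nat_lit 210) (nat_lit 227) (nat_lit 7) (nat_lit 5) (nat_lit 9) L64875 (by decide +kernel)
theorem L64877 : W_24 (nat_lit 9) (nat_lit 0x1000280014001000080000000000000000000000000000000) (nat_lit 0x0) (nat_lit 0x14000e000f000480046002a000600078001c00020000000000000000000000) := Q_24 (nat_lit 209) (C_24 L64857 (C_24 L64871 (C_24 L64256 (C_24 L64215 (C_24 L64876 N_24))))) (by decide +kernel)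
theorem L64878 : W_24 (nat_lit 2) (nat_lit 0x100028003c001000080000000000000000000000000000000) (nat_lit 0x0) (nat_lit 0x80004000400000000000000000000000000000000000000000000) := D_24 (nat_lit 194) (nat_lit 178) (nat_lit 211) (nat_lit 5) (nat_lit 8) (nat_lit 7) (nat_lit 6) (nat_lit 7) (nat_lit 12) (by decide +kernel)
theorem L64879 : W_24 (nat_lit 3) (nat_lit 0x100028001c001000080000000000000000000000000000000) (nat_lit 0x0) (nat_lit 0x80004000440020000000000000000000000000000000000000000) := T_24 (nat_lit 161) (nat_lit 174) (nat_lit 1) (nat_lit 8) (nat_lit 9) L64878 (by decide +kernel)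
theorem L64880 : W_24 (nat_lit 2) (nat_lit 0x100028003c001200080000000000000000000000000000000) (nat_lit 0x0) (nat_lit 0x20000000000040000400000000000000000000000000000000000) := D_24 (nat_lit 142) (nat_lit 209) (nat_lit 162) (nat_lit 6) (nat_lit 5) (nat_lit 12) (nat_lit 0) (nat_lit 9) (nat_lit 9) (by decide +kernel)
theorem L64881 : W_24 (nat_lit 3) (nat_lit 0x100028003c001000080000000000000000000000000000000) (nat_lit 0x0) (nat_lit 0x20000000000040000700000000000000000000000000000000000) := T_24 (nat_lit 141) (nat_lit 140) (nat_lit 0) (nat_lit 8) (nat_lit 9) L64880 (by decide +kernel)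
theorem L64882 : W_24 (nat_lit 4) (nat_lit 0x100028001c001000080000000000000000000000000000000) (nat_lit 0x0) (nat_lit 0x20000000040060000700000000000000000000000000000000000) := T_24 (nat_lit 161) (nat_lit 174) (nat_lit 1) (nat_lit 8) (nat_lit 9) L64881 (by decide +kernel)
theorem L64883 : W_24 (nat_lit 2) (nat_lit 0x100028001e001000080000000000000000000000000000000) (nat_lit 0x0) (nat_lit 0x20000000000000000500000000000000000000000000000000000) := D_24 (nat_lit 209) (nat_lit 142) (nat_lit 140) (nat_lit 6) (nat_lit 5) (nat_lit 12) (nat_lit 4) (nat_lit 5) (nat_lit 12) (by decide +kernel)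
theorem L64884 : W_24 (nat_lit 3) (nat_lit 0x100028001c001000080000000000000000000000000000000) (nat_lit 0x0) (nat_lit 0x20000000400002000500000000000000000000000000000000000) := T_24 (nat_lit 157) (nat_lit 178) (nat_lit 3) (nat_lit 4) (nat_lit 9) L64883 (by decide +kernel)
theorem L64885 : W_24 (nat_lit 5) (nat_lit 0x1000280014001000080000000000000000000000000000000) (nat_lit 0x0) (nat_lit 0xa000400044006a000700000000000000000000000000000000000) := Q_24 (nat_lit 159) (C_24 L64879 (C_24 L64882 (C_24 L64884 N_24))) (by decide +kernel)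
theorem L64886 : W_24 (nat_lit 10) (nat_lit 0x1000280010001000080000000000000000000000000000000) (nat_lit 0x0) (nat_lit 0x14000e000f000480046006e000780078001c00020000000000000000000000) := Q_24 (nat_lit 158) (C_24 L64796 (C_24 L64819 (C_24 L64858 (C_24 L64872 (C_24 L64873 (C_24 L64877 (C_24 L64885 N_24))))))) (by decide +kernel)
theorem L64887 : W_24 (nat_lit 10) (nat_lit 0x1000280010001000080000000000000000000000000000000) (nat_lit 0x0) (nat_lit 0x14000e0007000680046006fc007c007f001c00020000000000000000000000) := Q_24 (nat_lit 158) (C_24 L64858 (C_24 L64873 (C_24 L64818 (C_24 L64790 (C_24 L64259 (C_24 L64824 N_24)))))) (by decide +kernel)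
theorem L64888 : W_24 (nat_lit 5) (nat_lit 0x7000280010001000080000000000000000000000000000000) (nat_lit 0x0) (nat_lit 0x20003b0008800040000000000000000000000000000000000000000000) := T_24 (nat_lit 195) (nat_lit 174) (nat_lit 0) (nat_lit 8) (nat_lit 11) L64089 (by decide +kernel)
theorem L64889 : W_24 (nat_lit 2) (nat_lit 0x200090007800280010001000080000000000000000000000000000000) (nat_lit 0x0) (nat_lit 0x20008000000004000000000000000000000000000000000000000) := D_24 (nat_lit 209) (nat_lit 195) (nat_lit 158) (nat_lit 1) (nat_lit 8) (nat_lit 11) (nat_lit 5) (nat_lit 5) (nat_lit 9) (by decide +kernel)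
theorem L64890 : W_24 (nat_lit 3) (nat_lit 0x90007800280010001000080000000000000000000000000000000) (nat_lit 0x0) (nat_lit 0x4000200020008000000004000000000000000000000000000000000000000) := T_24 (nat_lit 225) (nat_lit 242) (nat_lit 6) (nat_lit 4) (nat_lit 14) L64889 (by decide +kernel)
theorem L64891 : W_24 (nat_lit 4) (nat_lit 0x10007800280010001000080000000000000000000000000000000) (nat_lit 0x0) (nat_lit 0x40002001a0008000000004000000000000000000000000000000000000000) := T_24 (nat_lit 211) (nat_lit 212) (nat_lit 3) (nat_lit 4) (nat_lit 11) L64890 (by decide +kernel)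
theorem L64892 : W_24 (nat_lit 5) (nat_lit 0x7800280010001000080000000000000000000000000000000) (nat_lit 0x0) (nat_lit 0x40002001b8008000000004000000000000000000000000000000000000000) := T_24 (nat_lit 208) (nat_lit 207) (nat_lit 1) (nat_lit 7) (nat_lit 11) L64891 (by decide +kernel)
theorem L64893 : W_24 (nat_lit 6) (nat_lit 0x7000280010001000080000000000000000000000000000000) (nat_lit 0x0) (nat_lit 0x40002001b8008800400004000000000000000000000000000000000000000) := T_24 (nat_lit 191) (nat_lit 178) (nat_lit 2) (nat_lit 4) (nat_lit 11) L64892 (by decide +kernel)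
theorem L64894 : W_24 (nat_lit 2) (nat_lit 0x40000000900078002b001e001000080000000000000000000000000000000) (nat_lit 0x0) (nat_lit 0x20000000000000000180000000000000000000000000000000000) := D_24 (nat_lit 140) (nat_lit 139) (nat_lit 209) (nat_lit 0) (nat_lit 7) (nat_lit 9) (nat_lit 4) (nat_lit 5) (nat_lit 12) (by decide +kernel)
theorem L64895 : W_24 (nat_lit 3) (nat_lit 0x40000000900078002b001c001000080000000000000000000000000000000) (nat_lit 0x0) (nat_lit 0x20000000000003000180000000000000000000000000000000000) := T_24 (nat_lit 157) (nat_lit 156) (nat_lit 1) (nat_lit 6) (nat_lit 9) L64894 (by decide +kernel)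
theorem L64896 : W_24 (nat_lit 4) (nat_lit 0x40000000900078002a001c001000080000000000000000000000000000000) (nat_lit 0x0) (nat_lit 0x20000400010003000180000000000000000000000000000000000) := T_24 (nat_lit 172) (nat_lit 190) (nat_lit 0) (nat_lit 6) (nat_lit 11) L64895 (by decide +kernel)
theorem L64897 : W_24 (nat_lit 5) (nat_lit 0x400000009000780028001c001000080000000000000000000000000000000) (nat_lit 0x0) (nat_lit 0x20000400070003000180000000000000000000000000000000000) := T_24 (nat_lit 173) (nat_lit 174) (nat_lit 0) (nat_lit 7) (nat_lit 11) L64896 (by decide +kernel)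
theorem L64898 : W_24 (nat_lit 6) (nat_lit 0x4000000090007800280018001000080000000000000000000000000000000) (nat_lit 0x0) (nat_lit 0x20000400070007000380000000000000000000000000000000000) := T_24 (nat_lit 158) (nat_lit 141) (nat_lit 5) (nat_lit 5) (nat_lit 8) L64897 (by decide +kernel)
theorem L64899 : W_24 (nat_lit 7) (nat_lit 0x4000000090007800280010001000080000000000000000000000000000000) (nat_lit 0x0) (nat_lit 0x2000040007000f000780000000000000000000000000000000000) := T_24 (nat_lit 159) (nat_lit 142) (nat_lit 4) (nat_lit 7) (nat_lit 12) L64898 (by decide +kernel)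
theorem L64900 : W_24 (nat_lit 8) (nat_lit 0x90007800280010001000080000000000000000000000000000000) (nat_lit 0x0) (nat_lit 0x400020002000040007000f000780000000000000000000000000000000000) := T_24 (nat_lit 242) (nat_lit 225) (nat_lit 6) (nat_lit 4) (nat_lit 14) L64899 (by decide +kernel)
theorem L64901 : W_24 (nat_lit 9) (nat_lit 0x10007800280010001000080000000000000000000000000000000) (nat_lit 0x0) (nat_lit 0x40002001a000040007000f000780000000000000000000000000000000000) := T_24 (nat_lit 211) (nat_lit 212) (nat_lit 3) (nat_lit 4) (nat_lit 11) L64900 (by decide +kernel)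
theorem L64902 : W_24 (nat_lit 10) (nat_lit 0x7800280010001000080000000000000000000000000000000) (nat_lit 0x0) (nat_lit 0x40002001b800040007000f000780000000000000000000000000000000000) := T_24 (nat_lit 208) (nat_lit 207) (nat_lit 1) (nat_lit 7) (nat_lit 11) L64901 (by decide +kernel)
theorem L64903 : W_24 (nat_lit 11) (nat_lit 0x7000280010001000080000000000000000000000000000000) (nat_lit 0x0) (nat_lit 0x40002001b8000c0047000f000780000000000000000000000000000000000) := T_24 (nat_lit 191) (nat_lit 178) (nat_lit 2) (nat_lit 4) (nat_lit 11) L64902 (by decide +kernel)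
theorem L64904 : W_24 (nat_lit 2) (nat_lit 0x12000f000280010001000080000000000000000000000000000000) (nat_lit 0x0) (nat_lit 0x40002000000000000400000000000000000000000000000000000000000000) := D_24 (nat_lit 229) (nat_lit 178) (nat_lit 246) (nat_lit 4) (nat_lit 8) (nat_lit 13) (nat_lit 4) (nat_lit 8) (nat_lit 14) (by decide +kernel)
theorem L64905 : W_24 (nat_lit 3) (nat_lit 0x2000f000280010001000080000000000000000000000000000000) (nat_lit 0x0) (nat_lit 0x40002000300000000400000000000000000000000000000000000000000000) := T_24 (nat_lit 212) (nat_lit 213) (nat_lit 3) (nat_lit 5) (nat_lit 11) L64904 (by decide +kernel)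
theorem L64906 : W_24 (nat_lit 4) (nat_lit 0xf000280010001000080000000000000000000000000000000) (nat_lit 0x0) (nat_lit 0x40002000330000000400000000000000000000000000000000000000000000) := T_24 (nat_lit 209) (nat_lit 208) (nat_lit 1) (nat_lit 8) (nat_lit 11) L64905 (by decide +kernel)
theorem L64907 : W_24 (nat_lit 5) (nat_lit 0x7000280010001000080000000000000000000000000000000) (nat_lit 0x0) (nat_lit 0x40002000330008000440000000000000000000000000000000000000000000) := T_24 (nat_lit 195) (nat_lit 174) (nat_lit 0) (nat_lit 8) (nat_lit 11) L64906 (by decide +kernel)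
theorem L64908 : W_24 (nat_lit 12) (nat_lit 0x5000280010001000080000000000000000000000000000000) (nat_lit 0x0) (nat_lit 0x440022003b800ac0047000f000780000000000000000000000000000000000) := Q_24 (nat_lit 193) (C_24 L64837 (C_24 L64888 (C_24 L64893 (C_24 L64903 (C_24 L64907 N_24))))) (by decide +kernel)
theorem L64909 : W_24 (nat_lit 2) (nat_lit 0x180007000280018001000080000000000000000000000000000000) (nat_lit 0x0) (nat_lit 0x600008000000000000000000000000000000000000000000000000) := D_24 (nat_lit 213) (nat_lit 214) (nat_lit 195) (nat_lit 0) (nat_lit 10) (nat_lit 12) (nat_lit 3) (nat_lit 5) (nat_lit 11) (by decide +kernel)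
theorem L64910 : W_24 (nat_lit 3) (nat_lit 0x180005000280018001000080000000000000000000000000000000) (nat_lit 0x0) (nat_lit 0x60000a800000000000000000000000000000000000000000000000) := T_24 (nat_lit 193) (nat_lit 191) (nat_lit 3) (nat_lit 4) (nat_lit 11) L64909 (by decide +kernel)
theorem L64911 : W_24 (nat_lit 4) (nat_lit 0x80005000280018001000080000000000000000000000000000000) (nat_lit 0x0) (nat_lit 0x200070000a800000000000000000000000000000000000000000000000) := T_24 (nat_lit 212) (nat_lit 229) (nat_lit 7) (nat_lit 7) (nat_lit 9) L64910 (by decide +kernel)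
theorem L64912 : W_24 (nat_lit 5) (nat_lit 0x80005000280010001000080000000000000000000000000000000) (nat_lit 0x0) (nat_lit 0x200070000a800000008000400000000000000000000000000000000000) := T_24 (nat_lit 159) (nat_lit 142) (nat_lit 4) (nat_lit 7) (nat_lit 12) L64911 (by decide +kernel)
theorem L64913 : W_24 (nat_lit 6) (nat_lit 0x5000280010001000080000000000000000000000000000000) (nat_lit 0x0) (nat_lit 0x200078000a800000028000400000000000000000000000000000000000) := T_24 (nat_lit 211) (nat_lit 161) (nat_lit 6) (nat_lit 7) (nat_lit 12) L64912 (by decide +kernel)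
theorem L64914 : W_24 (nat_lit 13) (nat_lit 0x1000280010001000080000000000000000000000000000000) (nat_lit 0x0) (nat_lit 0x440022007b800ec0047002f000780000000000000000000000000000000000) := Q_24 (nat_lit 194) (C_24 L64908 (C_24 L64913 (C_24 L64843 (C_24 L64839 N_24)))) (by decide +kernel)
theorem L64915 : W_24 (nat_lit 2) (nat_lit 0x10000f000280010001000080000000000000000000000000000000) (nat_lit 0x0) (nat_lit 0x2000080000800000000000000000000000000000000000000000000000) := D_24 (nat_lit 211) (nat_lit 191) (nat_lit 229) (nat_lit 3) (nat_lit 4) (nat_lit 11) (nat_lit 7) (nat_lit 7) (nat_lit 9) (by decide +kernel)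
theorem L64916 : W_24 (nat_lit 3) (nat_lit 0xf000280010001000080000000000000000000000000000000) (nat_lit 0x0) (nat_lit 0x2000380000800000000000000000000000000000000000000000000000) := T_24 (nat_lit 212) (nat_lit 213) (nat_lit 3) (nat_lit 5) (nat_lit 11) L64915 (by decide +kernel)
theorem L64917 : W_24 (nat_lit 4) (nat_lit 0x7000280010001000080000000000000000000000000000000) (nat_lit 0x0) (nat_lit 0x2000380008800040000000000000000000000000000000000000000000) := T_24 (nat_lit 195) (nat_lit 174) (nat_lit 0) (nat_lit 8) (nat_lit 11) L64916 (by decide +kernel)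
theorem L64918 : W_24 (nat_lit 2) (nat_lit 0x10000f000280010001000080000000000000000000000000000000) (nat_lit 0x0) (nat_lit 0x40002000000000000400000000000000000000000000000000000000000000) := D_24 (nat_lit 229) (nat_lit 178) (nat_lit 246) (nat_lit 4) (nat_lit 8) (nat_lit 13) (nat_lit 4) (nat_lit 8) (nat_lit 14) (by decide +kernel)
theorem L64919 : W_24 (nat_lit 3) (nat_lit 0xf000280010001000080000000000000000000000000000000) (nat_lit 0x0) (nat_lit 0x40002000300000000400000000000000000000000000000000000000000000) := T_24 (nat_lit 212) (nat_lit 213) (nat_lit 3) (nat_lit 5) (nat_lit 11) L64918 (by decide +kernel)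
theorem L64920 : W_24 (nat_lit 4) (nat_lit 0x7000280010001000080000000000000000000000000000000) (nat_lit 0x0) (nat_lit 0x40002000300008000440000000000000000000000000000000000000000000) := T_24 (nat_lit 195) (nat_lit 174) (nat_lit 0) (nat_lit 8) (nat_lit 11) L64919 (by decide +kernel)
theorem L64921 : W_24 (nat_lit 6) (nat_lit 0x5000280010001000080000000000000000000000000000000) (nat_lit 0x0) (nat_lit 0x400028003d800ac00460000000000000000000000000000000000000000000) := Q_24 (nat_lit 193) (C_24 L64837 (C_24 L64917 (C_24 L64835 (C_24 L64920 N_24)))) (by decide +kernel)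
theorem L64922 : W_24 (nat_lit 7) (nat_lit 0x1000280010001000080000000000000000000000000000000) (nat_lit 0x0) (nat_lit 0x400028007d800ec00460028000400000000000000000000000000000000000) := Q_24 (nat_lit 194) (C_24 L64921 (C_24 L64913 (C_24 L64839 (C_24 L64843 N_24)))) (by decide +kernel)
theorem L64923 : W_24 (nat_lit 2) (nat_lit 0x600010002800140013000a0000000000000000000000000000000) (nat_lit 0x0) (nat_lit 0x50001000000000000000000000000000) := D_24 (nat_lit 124) (nat_lit 126) (nat_lit 108) (nat_lit 1) (nat_lit 8) (nat_lit 7) (nat_lit 6) (nat_lit 5) (nat_lit 10) (by decide +kernel)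
theorem L64924 : W_24 (nat_lit 3) (nat_lit 0x600010002800140012000a0000000000000000000000000000000) (nat_lit 0x0) (nat_lit 0x100058001000000000000000000000000000) := T_24 (nat_lit 140) (nat_lit 123) (nat_lit 4) (nat_lit 5) (nat_lit 11) L64923 (by decide +kernel)
theorem L64925 : W_24 (nat_lit 4) (nat_lit 0x60001000280014001200080000000000000000000000000000000) (nat_lit 0x0) (nat_lit 0x500078001000000000000000000000000000) := T_24 (nat_lit 125) (nat_lit 142) (nat_lit 6) (nat_lit 5) (nat_lit 11) L64924 (by decide +kernel)
theorem L64926 : W_24 (nat_lit 5) (nat_lit 0x60001000280014001000080000000000000000000000000000000) (nat_lit 0x0) (nat_lit 0x2000000000000700078001000000000000000000000000000) := T_24 (nat_lit 141) (nat_lit 193) (nat_lit 7) (nat_lit 5) (nat_lit 8) L64925 (by decide +kernel)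
theorem L64927 : W_24 (nat_lit 6) (nat_lit 0x20001000280014001000080000000000000000000000000000000) (nat_lit 0x0) (nat_lit 0x800040002000000000000700078001000000000000000000000000000) := T_24 (nat_lit 210) (nat_lit 227) (nat_lit 7) (nat_lit 5) (nat_lit 9) L64926 (by decide +kernel)
theorem L64928 : W_24 (nat_lit 6) (nat_lit 0x70001000280014001000080000000000000000000000000000000) (nat_lit 0x0) (nat_lit 0x2000000000000600078001c00020000000000000000000000) := T_24 (nat_lit 141) (nat_lit 193) (nat_lit 7) (nat_lit 5) (nat_lit 8) L64854 (by decide +kernel)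
theorem L64929 : W_24 (nat_lit 7) (nat_lit 0x30001000280014001000080000000000000000000000000000000) (nat_lit 0x0) (nat_lit 0x800040002000000000000600078001c00020000000000000000000000) := T_24 (nat_lit 210) (nat_lit 227) (nat_lit 7) (nat_lit 5) (nat_lit 9) L64928 (by decide +kernel)
theorem L64930 : W_24 (nat_lit 8) (nat_lit 0x20001000280014001000080000000000000000000000000000000) (nat_lit 0x0) (nat_lit 0xa00050002000000000000600078001c00020000000000000000000000) := T_24 (nat_lit 208) (nat_lit 225) (nat_lit 5) (nat_lit 5) (nat_lit 9) L64929 (by decide +kernel)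
theorem L64931 : W_24 (nat_lit 9) (nat_lit 0x1000280014001000080000000000000000000000000000000) (nat_lit 0x0) (nat_lit 0x14000e00070002000040002000700078001c00020000000000000000000000) := Q_24 (nat_lit 209) (C_24 L64927 (C_24 L64795 (C_24 L64181 (C_24 L64930 N_24)))) (by decide +kernel)
theorem L64932 : W_24 (nat_lit 2) (nat_lit 0x60001000280034001300080000000000000000000000000000000) (nat_lit 0x0) (nat_lit 0x80004000400000000000000000000000000000000000000000000) := D_24 (nat_lit 194) (nat_lit 211) (nat_lit 178) (nat_lit 6) (nat_lit 7) (nat_lit 12) (nat_lit 5) (nat_lit 8) (nat_lit 7) (by decide +kernel)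
theorem L64933 : W_24 (nat_lit 3) (nat_lit 0x60001000280014001300080000000000000000000000000000000) (nat_lit 0x0) (nat_lit 0x80004000400028000000000000000000000000000000000000000) := T_24 (nat_lit 161) (nat_lit 159) (nat_lit 0) (nat_lit 8) (nat_lit 9) L64932 (by decide +kernel)
theorem L64934 : W_24 (nat_lit 4) (nat_lit 0x60001000280014001200080000000000000000000000000000000) (nat_lit 0x0) (nat_lit 0x80004000400028000100008000000000000000000000000000000) := T_24 (nat_lit 140) (nat_lit 123) (nat_lit 4) (nat_lit 5) (nat_lit 11) L64933 (by decide +kernel)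
theorem L64935 : W_24 (nat_lit 5) (nat_lit 0x60001000280014001000080000000000000000000000000000000) (nat_lit 0x0) (nat_lit 0x80006000400028000300008000000000000000000000000000000) := T_24 (nat_lit 141) (nat_lit 193) (nat_lit 7) (nat_lit 5) (nat_lit 8) L64934 (by decide +kernel)
theorem L64936 : W_24 (nat_lit 6) (nat_lit 0x20001000280014001000080000000000000000000000000000000) (nat_lit 0x0) (nat_lit 0x8000c0006000400028000300008000000000000000000000000000000) := T_24 (nat_lit 210) (nat_lit 227) (nat_lit 7) (nat_lit 5) (nat_lit 9) L64935 (by decide +kernel)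
theorem L64937 : W_24 (nat_lit 2) (nat_lit 0x70003000280014001000080000000000000000000000000000000) (nat_lit 0x0) (nat_lit 0xc004000000000000000000000000000000000000000000000000) := D_24 (nat_lit 207) (nat_lit 194) (nat_lit 206) (nat_lit 2) (nat_lit 3) (nat_lit 12) (nat_lit 2) (nat_lit 2) (nat_lit 12) (by decide +kernel)
theorem L64938 : W_24 (nat_lit 3) (nat_lit 0x70001000280014001000080000000000000000000000000000000) (nat_lit 0x0) (nat_lit 0xc006000000000000200000000000000000000000000000000000) := T_24 (nat_lit 193) (nat_lit 141) (nat_lit 7) (nat_lit 5) (nat_lit 8) L64937 (by decide +kernel)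
theorem L64939 : W_24 (nat_lit 4) (nat_lit 0x30001000280014001000080000000000000000000000000000000) (nat_lit 0x0) (nat_lit 0x80004c006000000000000200000000000000000000000000000000000) := T_24 (nat_lit 210) (nat_lit 227) (nat_lit 7) (nat_lit 5) (nat_lit 9) L64938 (by decide +kernel)
theorem L64940 : W_24 (nat_lit 5) (nat_lit 0x20001000280014001000080000000000000000000000000000000) (nat_lit 0x0) (nat_lit 0xa0005c006000000000000200000000000000000000000000000000000) := T_24 (nat_lit 208) (nat_lit 225) (nat_lit 5) (nat_lit 5) (nat_lit 9) L64939 (by decide +kernel)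
theorem L64941 : W_24 (nat_lit 7) (nat_lit 0x1000280014001000080000000000000000000000000000000) (nat_lit 0x0) (nat_lit 0x14000e000fc00600044002a000300008000000000000000000000000000000) := Q_24 (nat_lit 209) (C_24 L64936 (C_24 L64795 (C_24 L64181 (C_24 L64940 N_24)))) (by decide +kernel)
theorem L64942 : W_24 (nat_lit 2) (nat_lit 0x1000280034001300080000000000000000000000000000000) (nat_lit 0x0) (nat_lit 0x80004000400000000000000000000000000000000000000000000) := D_24 (nat_lit 194) (nat_lit 211) (nat_lit 178) (nat_lit 6) (nat_lit 7) (nat_lit 12) (nat_lit 5) (nat_lit 8) (nat_lit 7) (by decide +kernel)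
theorem L64943 : W_24 (nat_lit 3) (nat_lit 0x1000280014001300080000000000000000000000000000000) (nat_lit 0x0) (nat_lit 0x80004000400028000000000000000000000000000000000000000) := T_24 (nat_lit 161) (nat_lit 159) (nat_lit 0) (nat_lit 8) (nat_lit 9) L64942 (by decide +kernel)
theorem L64944 : W_24 (nat_lit 4) (nat_lit 0x1000280014001200080000000000000000000000000000000) (nat_lit 0x0) (nat_lit 0x80004000400028000100008000000000000000000000000000000) := T_24 (nat_lit 140) (nat_lit 123) (nat_lit 4) (nat_lit 5) (nat_lit 11) L64943 (by decide +kernel)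
theorem L64945 : W_24 (nat_lit 2) (nat_lit 0x30002800140013000a0000000000000000000000000000000) (nat_lit 0x0) (nat_lit 0x50001000000000000000000000000000) := D_24 (nat_lit 124) (nat_lit 126) (nat_lit 108) (nat_lit 1) (nat_lit 8) (nat_lit 7) (nat_lit 6) (nat_lit 5) (nat_lit 10) (by decide +kernel)
theorem L64946 : W_24 (nat_lit 3) (nat_lit 0x30002800140012000a0000000000000000000000000000000) (nat_lit 0x0) (nat_lit 0x100058001000000000000000000000000000) := T_24 (nat_lit 140) (nat_lit 123) (nat_lit 4) (nat_lit 5) (nat_lit 11) L64945 (by decide +kernel)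
theorem L64947 : W_24 (nat_lit 4) (nat_lit 0x3000280014001200080000000000000000000000000000000) (nat_lit 0x0) (nat_lit 0x500078001000000000000000000000000000) := T_24 (nat_lit 125) (nat_lit 142) (nat_lit 6) (nat_lit 5) (nat_lit 11) L64946 (by decide +kernel)
theorem L64948 : W_24 (nat_lit 5) (nat_lit 0x1000280014001200080000000000000000000000000000000) (nat_lit 0x0) (nat_lit 0x40002000000000000500078001000000000000000000000000000) := T_24 (nat_lit 193) (nat_lit 210) (nat_lit 7) (nat_lit 5) (nat_lit 8) L64947 (by decide +kernel)
theorem L64949 : W_24 (nat_lit 9) (nat_lit 0x1000280014001000080000000000000000000000000000000) (nat_lit 0x0) (nat_lit 0xe0006000440069c007c007f001000000000000000000000000000) := Q_24 (nat_lit 141) (C_24 L64823 (C_24 L64266 (C_24 L64944 (C_24 L64948 N_24)))) (by decide +kernel)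
theorem L64950 : W_24 (nat_lit 2) (nat_lit 0x7000300028003c001000080000000000000000000000000000000) (nat_lit 0x0) (nat_lit 0x88004000000000000000000000000000000000000000000000000) := D_24 (nat_lit 194) (nat_lit 211) (nat_lit 207) (nat_lit 6) (nat_lit 7) (nat_lit 12) (nat_lit 2) (nat_lit 3) (nat_lit 12) (by decide +kernel)
theorem L64951 : W_24 (nat_lit 3) (nat_lit 0x7000100028003c001000080000000000000000000000000000000) (nat_lit 0x0) (nat_lit 0x88006000000000000200000000000000000000000000000000000) := T_24 (nat_lit 193) (nat_lit 141) (nat_lit 7) (nat_lit 5) (nat_lit 8) L64950 (by decide +kernel)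
theorem L64952 : W_24 (nat_lit 4) (nat_lit 0x3000100028003c001000080000000000000000000000000000000) (nat_lit 0x0) (nat_lit 0x8000c8006000000000000200000000000000000000000000000000000) := T_24 (nat_lit 210) (nat_lit 227) (nat_lit 7) (nat_lit 5) (nat_lit 9) L64951 (by decide +kernel)
theorem L64953 : W_24 (nat_lit 5) (nat_lit 0x2000100028003c001000080000000000000000000000000000000) (nat_lit 0x0) (nat_lit 0xa000d8006000000000000200000000000000000000000000000000000) := T_24 (nat_lit 208) (nat_lit 225) (nat_lit 5) (nat_lit 5) (nat_lit 9) L64952 (by decide +kernel)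
theorem L64954 : W_24 (nat_lit 6) (nat_lit 0x100028003c001000080000000000000000000000000000000) (nat_lit 0x0) (nat_lit 0xa000f8006000000000000600000000000000000000000000000000000) := T_24 (nat_lit 209) (nat_lit 142) (nat_lit 6) (nat_lit 5) (nat_lit 12) L64953 (by decide +kernel)
theorem L64955 : W_24 (nat_lit 7) (nat_lit 0x100028001c001000080000000000000000000000000000000) (nat_lit 0x0) (nat_lit 0xa000f8006000040020000600000000000000000000000000000000000) := T_24 (nat_lit 161) (nat_lit 174) (nat_lit 1) (nat_lit 8) (nat_lit 9) L64954 (by decide +kernel)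
theorem L64956 : W_24 (nat_lit 2) (nat_lit 0x10002c001e001000080000000000000000000000000000000) (nat_lit 0x0) (nat_lit 0x400020000000000000000400000000000000000000000000000000000) := D_24 (nat_lit 209) (nat_lit 142) (nat_lit 226) (nat_lit 6) (nat_lit 5) (nat_lit 12) (nat_lit 4) (nat_lit 5) (nat_lit 13) (by decide +kernel)
theorem L64957 : W_24 (nat_lit 3) (nat_lit 0x100028001e001000080000000000000000000000000000000) (nat_lit 0x0) (nat_lit 0x400020000000060000000400000000000000000000000000000000000) := T_24 (nat_lit 174) (nat_lit 173) (nat_lit 1) (nat_lit 7) (nat_lit 9) L64956 (by decide +kernel)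
theorem L64958 : W_24 (nat_lit 4) (nat_lit 0x100028001c001000080000000000000000000000000000000) (nat_lit 0x0) (nat_lit 0x400020000000460002000400000000000000000000000000000000000) := T_24 (nat_lit 157) (nat_lit 178) (nat_lit 3) (nat_lit 4) (nat_lit 9) L64957 (by decide +kernel)
theorem L64959 : W_24 (nat_lit 2) (nat_lit 0xf000500068001c001200080000000000000000000000000000000) (nat_lit 0x0) (nat_lit 0x3000100000000000000000000000000000000000000000000000000000) := D_24 (nat_lit 229) (nat_lit 228) (nat_lit 212) (nat_lit 3) (nat_lit 4) (nat_lit 12) (nat_lit 7) (nat_lit 7) (nat_lit 9) (by decide +kernel)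
theorem L64960 : W_24 (nat_lit 3) (nat_lit 0x7000500068001c001200080000000000000000000000000000000) (nat_lit 0x0) (nat_lit 0x3000180008000000000000000000000000000000000000000000000000) := T_24 (nat_lit 211) (nat_lit 195) (nat_lit 2) (nat_lit 4) (nat_lit 12) L64959 (by decide +kernel)
theorem L64961 : W_24 (nat_lit 4) (nat_lit 0x7000100068001c001200080000000000000000000000000000000) (nat_lit 0x0) (nat_lit 0x300018000c000000020000000000000000000000000000000000000000) := T_24 (nat_lit 194) (nat_lit 161) (nat_lit 5) (nat_lit 8) (nat_lit 7) L64960 (by decide +kernel)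
theorem L64962 : W_24 (nat_lit 5) (nat_lit 0x7000100028001c001200080000000000000000000000000000000) (nat_lit 0x0) (nat_lit 0x300018000c000400022000000000000000000000000000000000000000) := T_24 (nat_lit 178) (nat_lit 157) (nat_lit 3) (nat_lit 4) (nat_lit 9) L64961 (by decide +kernel)
theorem L64963 : W_24 (nat_lit 6) (nat_lit 0x7000100028001c001000080000000000000000000000000000000) (nat_lit 0x0) (nat_lit 0x300018000e000400022000200000000000000000000000000000000000) := T_24 (nat_lit 141) (nat_lit 193) (nat_lit 7) (nat_lit 5) (nat_lit 8) L64962 (by decide +kernel)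
theorem L64964 : W_24 (nat_lit 7) (nat_lit 0x3000100028001c001000080000000000000000000000000000000) (nat_lit 0x0) (nat_lit 0x38001c000e000400022000200000000000000000000000000000000000) := T_24 (nat_lit 210) (nat_lit 227) (nat_lit 7) (nat_lit 5) (nat_lit 9) L64963 (by decide +kernel)
theorem L64965 : W_24 (nat_lit 8) (nat_lit 0x2000100028001c001000080000000000000000000000000000000) (nat_lit 0x0) (nat_lit 0x3a001d000e000400022000200000000000000000000000000000000000) := T_24 (nat_lit 208) (nat_lit 225) (nat_lit 5) (nat_lit 5) (nat_lit 9) L64964 (by decide +kernel)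
theorem L64966 : W_24 (nat_lit 9) (nat_lit 0x100028001c001000080000000000000000000000000000000) (nat_lit 0x0) (nat_lit 0x3a001f000e000400022000600000000000000000000000000000000000) := T_24 (nat_lit 209) (nat_lit 142) (nat_lit 6) (nat_lit 5) (nat_lit 12) L64965 (by decide +kernel)
theorem L64967 : W_24 (nat_lit 10) (nat_lit 0x1000280014001000080000000000000000000000000000000) (nat_lit 0x0) (nat_lit 0x3e001f800e00046002a000600000000000000000000000000000000000) := Q_24 (nat_lit 159) (C_24 L64879 (C_24 L64955 (C_24 L64958 (C_24 L64966 N_24)))) (by decide +kernel)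
theorem L64968 : W_24 (nat_lit 2) (nat_lit 0x30002800140012000b0000400000000000000000000000000) (nat_lit 0x0) (nat_lit 0x40000800020000000000000000000000) := D_24 (nat_lit 107) (nat_lit 89) (nat_lit 126) (nat_lit 4) (nat_lit 5) (nat_lit 9) (nat_lit 0) (nat_lit 8) (nat_lit 7) (by decide +kernel)
theorem L64969 : W_24 (nat_lit 3) (nat_lit 0x30002800140012000b0000000000000000000000000000000) (nat_lit 0x0) (nat_lit 0x48000c00020000000000000000000000) := T_24 (nat_lit 106) (nat_lit 123) (nat_lit 4) (nat_lit 5) (nat_lit 10) L64968 (by decide +kernel)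
theorem L64970 : W_24 (nat_lit 4) (nat_lit 0x30002800140012000a0000000000000000000000000000000) (nat_lit 0x0) (nat_lit 0x58001c00020000000000000000000000) := T_24 (nat_lit 124) (nat_lit 108) (nat_lit 6) (nat_lit 5) (nat_lit 10) L64969 (by decide +kernel)
theorem L64971 : W_24 (nat_lit 5) (nat_lit 0x3000280014001200080000000000000000000000000000000) (nat_lit 0x0) (nat_lit 0x400078001c00020000000000000000000000) := T_24 (nat_lit 125) (nat_lit 142) (nat_lit 6) (nat_lit 5) (nat_lit 11) L64970 (by decide +kernel)
theorem L64972 : W_24 (nat_lit 6) (nat_lit 0x1000280014001200080000000000000000000000000000000) (nat_lit 0x0) (nat_lit 0x40002000000000000400078001c00020000000000000000000000) := T_24 (nat_lit 193) (nat_lit 210) (nat_lit 7) (nat_lit 5) (nat_lit 8) L64971 (by decide +kernel)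
theorem L64973 : W_24 (nat_lit 2) (nat_lit 0x30006800160012000f0000800000000000000000000000000) (nat_lit 0x0) (nat_lit 0x4000000020000000000002000000000000000000000000000) := D_24 (nat_lit 161) (nat_lit 109) (nat_lit 194) (nat_lit 4) (nat_lit 8) (nat_lit 10) (nat_lit 5) (nat_lit 8) (nat_lit 7) (by decide +kernel)
theorem L64974 : W_24 (nat_lit 3) (nat_lit 0x30002800160012000f0000800000000000000000000000000) (nat_lit 0x0) (nat_lit 0x4000400028000000000002000000000000000000000000000) := T_24 (nat_lit 178) (nat_lit 159) (nat_lit 3) (nat_lit 4) (nat_lit 9) L64973 (by decide +kernel)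
theorem L64975 : W_24 (nat_lit 4) (nat_lit 0x30002800140012000f0000800000000000000000000000000) (nat_lit 0x0) (nat_lit 0x400044002a000000000002000000000000000000000000000) := T_24 (nat_lit 157) (nat_lit 174) (nat_lit 5) (nat_lit 5) (nat_lit 6) L64974 (by decide +kernel)
theorem L64976 : W_24 (nat_lit 5) (nat_lit 0x30002800140012000f0000000000000000000000000000000) (nat_lit 0x0) (nat_lit 0x400044002a000000000002c00000000000000000000000000) := T_24 (nat_lit 107) (nat_lit 106) (nat_lit 0) (nat_lit 8) (nat_lit 7) L64975 (by decide +kernel)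
theorem L64977 : W_24 (nat_lit 6) (nat_lit 0x30002800140012000b0000000000000000000000000000000) (nat_lit 0x0) (nat_lit 0x400044002a000100040002c00000000000000000000000000) := T_24 (nat_lit 126) (nat_lit 140) (nat_lit 1) (nat_lit 8) (nat_lit 7) L64976 (by decide +kernel)
theorem L64978 : W_24 (nat_lit 7) (nat_lit 0x30002800140012000a0000000000000000000000000000000) (nat_lit 0x0) (nat_lit 0x400044002a000100050003c00000000000000000000000000) := T_24 (nat_lit 124) (nat_lit 108) (nat_lit 6) (nat_lit 5) (nat_lit 10) L64977 (by decide +kernel)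
theorem L64979 : W_24 (nat_lit 8) (nat_lit 0x10002800140012000a0000000000000000000000000000000) (nat_lit 0x0) (nat_lit 0x4000600044002a000100050003c00000000000000000000000000) := T_24 (nat_lit 193) (nat_lit 210) (nat_lit 7) (nat_lit 5) (nat_lit 8) L64978 (by decide +kernel)
theorem L64980 : W_24 (nat_lit 9) (nat_lit 0x1000280014001200080000000000000000000000000000000) (nat_lit 0x0) (nat_lit 0x4000600044002a000500070003c00000000000000000000000000) := T_24 (nat_lit 125) (nat_lit 142) (nat_lit 6) (nat_lit 5) (nat_lit 11) L64979 (by decide +kernel)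
theorem L64981 : W_24 (nat_lit 10) (nat_lit 0x1000280014001000080000000000000000000000000000000) (nat_lit 0x0) (nat_lit 0xc000600044002a000700078003c00020000000000000000000000) := Q_24 (nat_lit 141) (C_24 L64948 (C_24 L64944 (C_24 L64972 (C_24 L64980 N_24)))) (by decide +kernel)
theorem L64982 : W_24 (nat_lit 11) (nat_lit 0x1000280010001000080000000000000000000000000000000) (nat_lit 0x0) (nat_lit 0x14003e001fc00e00046006fc007c007f003c00020000000000000000000000) := Q_24 (nat_lit 158) (C_24 L64796 (C_24 L64824 (C_24 L64885 (C_24 L64931 (C_24 L64941 (C_24 L64949 (C_24 L64967 (C_24 L64981 N_24)))))))) (by decide +kernel)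
theorem L64983 : W_24 (nat_lit 2) (nat_lit 0x80007800280010001000080000000000000000000000000000000) (nat_lit 0x0) (nat_lit 0x800040000400000000000000000000000000000000000000000000000) := D_24 (nat_lit 210) (nat_lit 190) (nat_lit 227) (nat_lit 3) (nat_lit 3) (nat_lit 11) (nat_lit 5) (nat_lit 7) (nat_lit 9) (by decide +kernel)
theorem L64984 : W_24 (nat_lit 3) (nat_lit 0x7800280010001000080000000000000000000000000000000) (nat_lit 0x0) (nat_lit 0x8001c0000400000000000000000000000000000000000000000000000) := T_24 (nat_lit 211) (nat_lit 212) (nat_lit 3) (nat_lit 4) (nat_lit 11) L64983 (by decide +kernel)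
theorem L64985 : W_24 (nat_lit 4) (nat_lit 0x7000280010001000080000000000000000000000000000000) (nat_lit 0x0) (nat_lit 0x8001c0000c00400000000000000000000000000000000000000000000) := T_24 (nat_lit 191) (nat_lit 178) (nat_lit 2) (nat_lit 4) (nat_lit 11) L64984 (by decide +kernel)
theorem L64986 : W_24 (nat_lit 5) (nat_lit 0x5000280010001000080000000000000000000000000000000) (nat_lit 0x0) (nat_lit 0x400028003c000ac00460000000000000000000000000000000000000000000) := Q_24 (nat_lit 193) (C_24 L64920 (C_24 L64917 (C_24 L64985 (C_24 L64837 N_24)))) (by decide +kernel)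
theorem L64987 : W_24 (nat_lit 7) (nat_lit 0x1000280010001000080000000000000000000000000000000) (nat_lit 0x0) (nat_lit 0x400028007c000ec00460028000400000000000000000000000000000000000) := Q_24 (nat_lit 194) (C_24 L64986 (C_24 L64913 (C_24 L64839 (C_24 L64843 N_24)))) (by decide +kernel)
theorem L64988 : W_24 (nat_lit 14) (nat_lit 0x280010001000080000000000000000000000000000000) (nat_lit 0x0) (nat_lit 0x54003e007fc01fe0047006fc007c007f003c00060000000000000000000000) := Q_24 (nat_lit 192) (C_24 L64813 (C_24 L64825 (C_24 L64826 (C_24 L64844 (C_24 L64886 (C_24 L64887 (C_24 L64914 (C_24 L64922 (C_24 L64982 (C_24 L64987 N_24)))))))))) (by decide +kernel)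
theorem L64993 : W_24 (nat_lit 7) (nat_lit 0x280014001200080000000000000000000000000000000) (nat_lit 0x0) (nat_lit 0x20007000380000002a000580078001c00020000000000000000000000) := Q_24 (nat_lit 192) (C_24 L64972 (C_24 L64804 (C_24 L63853 (C_24 L64992 N_24)))) (by decide +kernel)
theorem L64994 : W_24 (nat_lit 6) (nat_lit 0x280014001200080000000000000000000000000000000) (nat_lit 0x0) (nat_lit 0xa0007000380000002a000580028000000000000000000000000000000) := Q_24 (nat_lit 192) (C_24 L64992 (C_24 L63853 (C_24 L63491 (C_24 L64804 N_24)))) (by decide +kernel)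
theorem L64995 : W_24 (nat_lit 2) (nat_lit 0x2c001c0012001f8000000000000000000000000000000) (nat_lit 0x0) (nat_lit 0x30002000000000000000000000000000000000000000) := D_24 (nat_lit 173) (nat_lit 157) (nat_lit 172) (nat_lit 1) (nat_lit 7) (nat_lit 9) (nat_lit 2) (nat_lit 2) (nat_lit 10) (by decide +kernel)
theorem L64996 : W_24 (nat_lit 3) (nat_lit 0x2c00140012001f8000000000000000000000000000000) (nat_lit 0x0) (nat_lit 0x3002a000000000000000000000000000000000000000) := T_24 (nat_lit 159) (nat_lit 161) (nat_lit 1) (nat_lit 8) (nat_lit 9) L64995 (by decide +kernel)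
theorem L64997 : W_24 (nat_lit 4) (nat_lit 0x2800140012001f8000000000000000000000000000000) (nat_lit 0x0) (nat_lit 0x80007002a000000000000000000000000000000000000000) := T_24 (nat_lit 174) (nat_lit 191) (nat_lit 5) (nat_lit 5) (nat_lit 7) L64996 (by decide +kernel)
theorem L64998 : W_24 (nat_lit 5) (nat_lit 0x2800140012000f8000000000000000000000000000000) (nat_lit 0x0) (nat_lit 0x80007002a000400100000000000000000000000000000000) := T_24 (nat_lit 128) (nat_lit 142) (nat_lit 1) (nat_lit 9) (nat_lit 7) L64997 (by decide +kernel)
theorem L64999 : W_24 (nat_lit 6) (nat_lit 0x2800140012000b8000000000000000000000000000000) (nat_lit 0x0) (nat_lit 0x80007002a000500140000000000000000000000000000000) := T_24 (nat_lit 126) (nat_lit 140) (nat_lit 1) (nat_lit 8) (nat_lit 7) L64998 (by decide +kernel)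
theorem L65000 : W_24 (nat_lit 7) (nat_lit 0x280014001200098000000000000000000000000000000) (nat_lit 0x0) (nat_lit 0x80007002a000500160001000000000000000000000000000) := T_24 (nat_lit 125) (nat_lit 108) (nat_lit 6) (nat_lit 5) (nat_lit 10) L64999 (by decide +kernel)
theorem L65001 : W_24 (nat_lit 8) (nat_lit 0x280014001200090000000000000000000000000000000) (nat_lit 0x0) (nat_lit 0x80007002a000500168001400000000000000000000000000) := T_24 (nat_lit 123) (nat_lit 106) (nat_lit 4) (nat_lit 5) (nat_lit 10) L65000 (by decide +kernel)
theorem L65002 : W_24 (nat_lit 9) (nat_lit 0x280014001200080000000000000000000000000000000) (nat_lit 0x0) (nat_lit 0x80007002a000500178001c000a0000000000000000000000) := Q_24 (nat_lit 124) (C_24 L63078 (C_24 L63082 (C_24 L62945 (C_24 L65001 (C_24 L51634 N_24))))) (by decide +kernel)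
theorem L65003 : W_24 (nat_lit 5) (nat_lit 0x280034001300080000000000000000000000000000000) (nat_lit 0x0) (nat_lit 0x40003000000000000400078001000000000000000000000000000) := T_24 (nat_lit 192) (nat_lit 123) (nat_lit 4) (nat_lit 5) (nat_lit 11) L62843 (by decide +kernel)
theorem L65004 : W_24 (nat_lit 6) (nat_lit 0x280014001300080000000000000000000000000000000) (nat_lit 0x0) (nat_lit 0x40003000000028000400078001000000000000000000000000000) := T_24 (nat_lit 161) (nat_lit 159) (nat_lit 0) (nat_lit 8) (nat_lit 9) L65003 (by decide +kernel)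
theorem L65005 : W_24 (nat_lit 2) (nat_lit 0x800030002800360013000b0000000000000000000000000000000) (nat_lit 0x0) (nat_lit 0x40000000000000000800040000000000000000000000) := D_24 (nat_lit 107) (nat_lit 174) (nat_lit 90) (nat_lit 5) (nat_lit 5) (nat_lit 6) (nat_lit 5) (nat_lit 5) (nat_lit 5) (by decide +kernel)
theorem L65006 : W_24 (nat_lit 3) (nat_lit 0x800030002800360013000a0000000000000000000000000000000) (nat_lit 0x0) (nat_lit 0x40000000000010001800040000000000000000000000) := T_24 (nat_lit 124) (nat_lit 108) (nat_lit 6) (nat_lit 5) (nat_lit 10) L65005 (by decide +kernel)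
theorem L65007 : W_24 (nat_lit 4) (nat_lit 0x800030002800340013000a0000000000000000000000000000000) (nat_lit 0x0) (nat_lit 0x20000000040002000000010001800040000000000000000000000) := T_24 (nat_lit 157) (nat_lit 209) (nat_lit 4) (nat_lit 5) (nat_lit 12) L65006 (by decide +kernel)
theorem L65008 : W_24 (nat_lit 5) (nat_lit 0x80003000280034001300080000000000000000000000000000000) (nat_lit 0x0) (nat_lit 0x20000000040002000400030001800040000000000000000000000) := T_24 (nat_lit 125) (nat_lit 142) (nat_lit 6) (nat_lit 5) (nat_lit 11) L65007 (by decide +kernel)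
theorem L65009 : W_24 (nat_lit 6) (nat_lit 0x80001000280034001300080000000000000000000000000000000) (nat_lit 0x0) (nat_lit 0x60002000040002000400030001800040000000000000000000000) := T_24 (nat_lit 193) (nat_lit 210) (nat_lit 7) (nat_lit 5) (nat_lit 8) L65008 (by decide +kernel)
theorem L65010 : W_24 (nat_lit 7) (nat_lit 0x1000280034001300080000000000000000000000000000000) (nat_lit 0x0) (nat_lit 0xe0006000040002000400030001800040000000000000000000000) := T_24 (nat_lit 211) (nat_lit 194) (nat_lit 6) (nat_lit 7) (nat_lit 12) L65009 (by decide +kernel)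
theorem L65011 : W_24 (nat_lit 8) (nat_lit 0x280034001300080000000000000000000000000000000) (nat_lit 0x0) (nat_lit 0xe0007000040002000400038001800040000000000000000000000) := T_24 (nat_lit 192) (nat_lit 123) (nat_lit 4) (nat_lit 5) (nat_lit 11) L65010 (by decide +kernel)
theorem L65012 : W_24 (nat_lit 9) (nat_lit 0x280014001300080000000000000000000000000000000) (nat_lit 0x0) (nat_lit 0xe000700004002a000400038001800040000000000000000000000) := T_24 (nat_lit 161) (nat_lit 159) (nat_lit 0) (nat_lit 8) (nat_lit 9) L65011 (by decide +kernel)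
theorem L65013 : W_24 (nat_lit 8) (nat_lit 0x280014001300080000000000000000000000000000000) (nat_lit 0x0) (nat_lit 0x40003000000009c004c002f000000000000000000000000000000) := T_24 (nat_lit 192) (nat_lit 123) (nat_lit 4) (nat_lit 5) (nat_lit 11) L64265 (by decide +kernel)
theorem L65014 : W_24 (nat_lit 2) (nat_lit 0x20007000280034001300080000000000000000000000000000000) (nat_lit 0x0) (nat_lit 0x10008000040000000000000000000000000000000000000000000) := D_24 (nat_lit 195) (nat_lit 208) (nat_lit 174) (nat_lit 1) (nat_lit 8) (nat_lit 11) (nat_lit 0) (nat_lit 8) (nat_lit 11) (by decide +kernel)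
theorem L65015 : W_24 (nat_lit 3) (nat_lit 0x7000280034001300080000000000000000000000000000000) (nat_lit 0x0) (nat_lit 0x30008000040002000000000000000000000000000000000000000) := T_24 (nat_lit 209) (nat_lit 157) (nat_lit 4) (nat_lit 5) (nat_lit 12) L65014 (by decide +kernel)
theorem L65016 : W_24 (nat_lit 4) (nat_lit 0x3000280034001300080000000000000000000000000000000) (nat_lit 0x0) (nat_lit 0xb000c000040002000000000000000000000000000000000000000) := T_24 (nat_lit 194) (nat_lit 211) (nat_lit 6) (nat_lit 7) (nat_lit 12) L65015 (by decide +kernel)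
theorem L65017 : W_24 (nat_lit 5) (nat_lit 0x1000280034001300080000000000000000000000000000000) (nat_lit 0x0) (nat_lit 0xf000e000040002000000000000000000000000000000000000000) := T_24 (nat_lit 193) (nat_lit 210) (nat_lit 7) (nat_lit 5) (nat_lit 8) L65016 (by decide +kernel)
theorem L65018 : W_24 (nat_lit 6) (nat_lit 0x1000280014001300080000000000000000000000000000000) (nat_lit 0x0) (nat_lit 0xf000e00004002a000000000000000000000000000000000000000) := T_24 (nat_lit 161) (nat_lit 159) (nat_lit 0) (nat_lit 8) (nat_lit 9) L65017 (by decide +kernel)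
theorem L65019 : W_24 (nat_lit 7) (nat_lit 0x280014001300080000000000000000000000000000000) (nat_lit 0x0) (nat_lit 0xf000f00004002a000000008000000000000000000000000000000) := T_24 (nat_lit 192) (nat_lit 123) (nat_lit 4) (nat_lit 5) (nat_lit 11) L65018 (by decide +kernel)
theorem L65020 : W_24 (nat_lit 5) (nat_lit 0x280014001300080000000000000000000000000000000) (nat_lit 0x0) (nat_lit 0x800060003000000002000400028000000000000000000000000000000) := T_24 (nat_lit 192) (nat_lit 123) (nat_lit 4) (nat_lit 5) (nat_lit 11) L63023 (by decide +kernel)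
theorem L65021 : W_24 (nat_lit 4) (nat_lit 0x280014001300080000000000000000000000000000000) (nat_lit 0x0) (nat_lit 0x20001000000008000480028000000000000000000000000000000) := T_24 (nat_lit 192) (nat_lit 123) (nat_lit 4) (nat_lit 5) (nat_lit 11) L62949 (by decide +kernel)
theorem L65022 : W_24 (nat_lit 2) (nat_lit 0x28001c001300080000000000000000000000000000000) (nat_lit 0x0) (nat_lit 0x2000480000000000000000000000000000000000) := D_24 (nat_lit 139) (nat_lit 157) (nat_lit 142) (nat_lit 0) (nat_lit 7) (nat_lit 9) (nat_lit 3) (nat_lit 3) (nat_lit 8) (by decide +kernel)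
theorem L65023 : W_24 (nat_lit 3) (nat_lit 0x280014001300080000000000000000000000000000000) (nat_lit 0x0) (nat_lit 0x2a000480000000000000000000000000000000000) := T_24 (nat_lit 159) (nat_lit 161) (nat_lit 0) (nat_lit 8) (nat_lit 9) L65022 (by decide +kernel)
theorem L65024 : W_24 (nat_lit 10) (nat_lit 0x280014001200080000000000000000000000000000000) (nat_lit 0x0) (nat_lit 0x8000f000f00004002bc005c007f001800040000000000000000000000) := Q_24 (nat_lit 140) (C_24 L65004 (C_24 L65012 (C_24 L65013 (C_24 L65019 (C_24 L65020 (C_24 L65021 (C_24 L65023 N_24))))))) (by decide +kernel)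
theorem L65025 : W_24 (nat_lit 7) (nat_lit 0x280014001200080000000000000000000000000000000) (nat_lit 0x0) (nat_lit 0x8000e0007000380004006a000400030001000000000000000000000000000) := Q_24 (nat_lit 192) (C_24 L64992 (C_24 L63496 (C_24 L64399 (C_24 L64823 N_24)))) (by decide +kernel)
theorem L65026 : W_24 (nat_lit 11) (nat_lit 0x280014001000080000000000000000000000000000000) (nat_lit 0x0) (nat_lit 0x8000e000f000f80007006bc007c017f001c000e0000000000000000000000) := Q_24 (nat_lit 141) (C_24 L64382 (C_24 L64993 (C_24 L63497 (C_24 L64994 (C_24 L65002 (C_24 L63088 (C_24 L65024 (C_24 L65025 N_24)))))))) (by decide +kernel)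
theorem L65027 : W_24 (nat_lit 9) (nat_lit 0x2c0014001000080000000000000000000000000000000) (nat_lit 0x0) (nat_lit 0x70007800ff0013800b000180008000000000000000000000000000000) := Q_24 (nat_lit 157) (C_24 L64320 (C_24 L64068 (C_24 L64313 N_24))) (by decide +kernel)
theorem L65028 : W_24 (nat_lit 10) (nat_lit 0x280014001000080000000000000000000000000000000) (nat_lit 0x0) (nat_lit 0x70007800ff0017802b000380018000000000000000000000000000000) := Q_24 (nat_lit 174) (C_24 L64744 (C_24 L64745 (C_24 L64743 (C_24 L65027 N_24)))) (by decide +kernel)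
theorem L65029 : W_24 (nat_lit 7) (nat_lit 0x280014001200080000000000000000000000000000000) (nat_lit 0x0) (nat_lit 0x200070003800100002000500078001c00020000000000000000000000) := Q_24 (nat_lit 192) (C_24 L64972 (C_24 L64379 (C_24 L63036 (C_24 L64363 N_24)))) (by decide +kernel)
theorem L65030 : W_24 (nat_lit 2) (nat_lit 0x8007c002a0014001700080000000000000000000000000000000) (nat_lit 0x0) (nat_lit 0x180000000000020000000000000000000000000000000000000000) := D_24 (nat_lit 211) (nat_lit 161) (nat_lit 212) (nat_lit 6) (nat_lit 7) (nat_lit 12) (nat_lit 3) (nat_lit 4) (nat_lit 11) (by decide +kernel)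
theorem L65031 : W_24 (nat_lit 3) (nat_lit 0x8003c002a0014001700080000000000000000000000000000000) (nat_lit 0x0) (nat_lit 0x180004000040020000000000000000000000000000000000000000) := T_24 (nat_lit 194) (nat_lit 174) (nat_lit 0) (nat_lit 7) (nat_lit 11) L65030 (by decide +kernel)
theorem L65032 : W_24 (nat_lit 4) (nat_lit 0x8003c00280014001700080000000000000000000000000000000) (nat_lit 0x0) (nat_lit 0x180004000070020000000000000000000000000000000000000000) := T_24 (nat_lit 173) (nat_lit 172) (nat_lit 0) (nat_lit 6) (nat_lit 11) L65031 (by decide +kernel)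
theorem L65033 : W_24 (nat_lit 5) (nat_lit 0x3c00280014001700080000000000000000000000000000000) (nat_lit 0x0) (nat_lit 0x18c004000070020000000000000000000000000000000000000000) := T_24 (nat_lit 207) (nat_lit 206) (nat_lit 1) (nat_lit 6) (nat_lit 11) L65032 (by decide +kernel)
theorem L65034 : W_24 (nat_lit 6) (nat_lit 0x3800280014001700080000000000000000000000000000000) (nat_lit 0x0) (nat_lit 0x18c004400170020000000000000000000000000000000000000000) := T_24 (nat_lit 190) (nat_lit 176) (nat_lit 2) (nat_lit 3) (nat_lit 11) L65033 (by decide +kernel)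
theorem L65035 : W_24 (nat_lit 7) (nat_lit 0x3000280014001700080000000000000000000000000000000) (nat_lit 0x0) (nat_lit 0x19c004c00170020000000000000000000000000000000000000000) := T_24 (nat_lit 191) (nat_lit 208) (nat_lit 5) (nat_lit 5) (nat_lit 8) L65034 (by decide +kernel)
theorem L65036 : W_24 (nat_lit 8) (nat_lit 0x3000280014001300080000000000000000000000000000000) (nat_lit 0x0) (nat_lit 0x19c004c00170020000400020000000000000000000000000000000) := T_24 (nat_lit 142) (nat_lit 125) (nat_lit 6) (nat_lit 5) (nat_lit 11) L65035 (by decide +kernel)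
theorem L65037 : W_24 (nat_lit 9) (nat_lit 0x1000280014001300080000000000000000000000000000000) (nat_lit 0x0) (nat_lit 0x1dc006c00170020000400020000000000000000000000000000000) := T_24 (nat_lit 193) (nat_lit 210) (nat_lit 7) (nat_lit 5) (nat_lit 8) L65036 (by decide +kernel)
theorem L65038 : W_24 (nat_lit 10) (nat_lit 0x1000280014001200080000000000000000000000000000000) (nat_lit 0x0) (nat_lit 0x1dc006c00170020000500028000000000000000000000000000000) := T_24 (nat_lit 140) (nat_lit 123) (nat_lit 4) (nat_lit 5) (nat_lit 11) L65037 (by decide +kernel)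
theorem L65039 : W_24 (nat_lit 2) (nat_lit 0x8007c002a0014001600080000000000000000000000000000000) (nat_lit 0x0) (nat_lit 0x180000000000020000000000000000000000000000000000000000) := D_24 (nat_lit 211) (nat_lit 161) (nat_lit 212) (nat_lit 6) (nat_lit 7) (nat_lit 12) (nat_lit 3) (nat_lit 4) (nat_lit 11) (by decide +kernel)
theorem L65040 : W_24 (nat_lit 3) (nat_lit 0x8003c002a0014001600080000000000000000000000000000000) (nat_lit 0x0) (nat_lit 0x180004000040020000000000000000000000000000000000000000) := T_24 (nat_lit 194) (nat_lit 174) (nat_lit 0) (nat_lit 7) (nat_lit 11) L65039 (by decide +kernel)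
theorem L65041 : W_24 (nat_lit 4) (nat_lit 0x8003c002a0014001200080000000000000000000000000000000) (nat_lit 0x0) (nat_lit 0x180004000040020000400020000000000000000000000000000000) := T_24 (nat_lit 142) (nat_lit 125) (nat_lit 6) (nat_lit 5) (nat_lit 11) L65040 (by decide +kernel)
theorem L65042 : W_24 (nat_lit 5) (nat_lit 0x8003c00280014001200080000000000000000000000000000000) (nat_lit 0x0) (nat_lit 0x180004000070020000400020000000000000000000000000000000) := T_24 (nat_lit 173) (nat_lit 172) (nat_lit 0) (nat_lit 6) (nat_lit 11) L65041 (by decide +kernel)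
theorem L65043 : W_24 (nat_lit 6) (nat_lit 0x3c00280014001200080000000000000000000000000000000) (nat_lit 0x0) (nat_lit 0x18c004000070020000400020000000000000000000000000000000) := T_24 (nat_lit 207) (nat_lit 206) (nat_lit 1) (nat_lit 6) (nat_lit 11) L65042 (by decide +kernel)
theorem L65044 : W_24 (nat_lit 7) (nat_lit 0x3800280014001200080000000000000000000000000000000) (nat_lit 0x0) (nat_lit 0x18c004400170020000400020000000000000000000000000000000) := T_24 (nat_lit 190) (nat_lit 176) (nat_lit 2) (nat_lit 3) (nat_lit 11) L65043 (by decide +kernel)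
theorem L65045 : W_24 (nat_lit 8) (nat_lit 0x1800280014001200080000000000000000000000000000000) (nat_lit 0x0) (nat_lit 0x1cc006400170020000400020000000000000000000000000000000) := T_24 (nat_lit 193) (nat_lit 210) (nat_lit 7) (nat_lit 5) (nat_lit 8) L65044 (by decide +kernel)
theorem L65046 : W_24 (nat_lit 9) (nat_lit 0x1000280014001200080000000000000000000000000000000) (nat_lit 0x0) (nat_lit 0x1dc006c00170020000400020000000000000000000000000000000) := T_24 (nat_lit 191) (nat_lit 208) (nat_lit 5) (nat_lit 5) (nat_lit 8) L65045 (by decide +kernel)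
theorem L65047 : W_24 (nat_lit 11) (nat_lit 0x280014001200080000000000000000000000000000000) (nat_lit 0x0) (nat_lit 0xa001fc007c00170022000500028000000000000000000000000000000) := Q_24 (nat_lit 192) (C_24 L65038 (C_24 L63491 (C_24 L63036 (C_24 L65046 N_24)))) (by decide +kernel)
theorem L65048 : W_24 (nat_lit 5) (nat_lit 0x280014001200080000000000000000000000000000000) (nat_lit 0x0) (nat_lit 0x2800140022000000078001c000a0000000000000000000000) := Q_24 (nat_lit 124) (C_24 L63078 (C_24 L51634 (C_24 L62945 (C_24 L62864 N_24)))) (by decide +kernel)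
theorem L65049 : W_24 (nat_lit 2) (nat_lit 0x3c0014001200098000000000000000000000000000000) (nat_lit 0x0) (nat_lit 0x3000000000000800000000000000000000000000) := D_24 (nat_lit 157) (nat_lit 156) (nat_lit 107) (nat_lit 0) (nat_lit 7) (nat_lit 10) (nat_lit 5) (nat_lit 5) (nat_lit 6) (by decide +kernel)
theorem L65050 : W_24 (nat_lit 3) (nat_lit 0x380014001200098000000000000000000000000000000) (nat_lit 0x0) (nat_lit 0x40023000000000000800000000000000000000000000) := T_24 (nat_lit 174) (nat_lit 161) (nat_lit 2) (nat_lit 4) (nat_lit 10) L65049 (by decide +kernel)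
theorem L65051 : W_24 (nat_lit 4) (nat_lit 0x280014001200098000000000000000000000000000000) (nat_lit 0x0) (nat_lit 0x2000140023000000000000800000000000000000000000000) := T_24 (nat_lit 176) (nat_lit 193) (nat_lit 7) (nat_lit 5) (nat_lit 7) L65050 (by decide +kernel)
theorem L65052 : W_24 (nat_lit 5) (nat_lit 0x280014001200090000000000000000000000000000000) (nat_lit 0x0) (nat_lit 0x2000140023000000008000c00000000000000000000000000) := T_24 (nat_lit 123) (nat_lit 106) (nat_lit 4) (nat_lit 5) (nat_lit 10) L65051 (by decide +kernel)
theorem L65053 : W_24 (nat_lit 6) (nat_lit 0x280014001200080000000000000000000000000000000) (nat_lit 0x0) (nat_lit 0x3000140023000500178001c00020000000000000000000000) := Q_24 (nat_lit 124) (C_24 L63078 (C_24 L62929 (C_24 L65052 (C_24 L62808 N_24)))) (by decide +kernel)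
theorem L65054 : W_24 (nat_lit 10) (nat_lit 0x280014001200080000000000000000000000000000000) (nat_lit 0x0) (nat_lit 0x8000c001fc007c00170022000400030001000000000000000000000000000) := Q_24 (nat_lit 192) (C_24 L65046 (C_24 L64399 (C_24 L63496 (C_24 L64363 N_24)))) (by decide +kernel)
theorem L65055 : W_24 (nat_lit 12) (nat_lit 0x280014001000080000000000000000000000000000000) (nat_lit 0x0) (nat_lit 0x8000e001fc007c00170023000700178001c000a0000000000000000000000) := Q_24 (nat_lit 141) (C_24 L65029 (C_24 L64382 (C_24 L63497 (C_24 L65047 (C_24 L65048 (C_24 L65053 (C_24 L65054 N_24))))))) (by decide +kernel)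
theorem L65056 : W_24 (nat_lit 8) (nat_lit 0x2c0014001000080000000000000000000000000000000) (nat_lit 0x0) (nat_lit 0x30001c0012000b000380078001c00000000000000000000000000) := Q_24 (nat_lit 157) (C_24 L64367 (C_24 L64068 (C_24 L64045 N_24))) (by decide +kernel)
theorem L65057 : W_24 (nat_lit 9) (nat_lit 0x280014001000080000000000000000000000000000000) (nat_lit 0x0) (nat_lit 0x30001c0017002b000380078001c00000000000000000000000000) := Q_24 (nat_lit 174) (C_24 L64743 (C_24 L64745 (C_24 L65056 (C_24 L64744 N_24)))) (by decide +kernel)
theorem L65058 : W_24 (nat_lit 7) (nat_lit 0x2c0014001000080000000000000000000000000000000) (nat_lit 0x0) (nat_lit 0xe700130021c00000000000000000000000000000000000000) := T_24 (nat_lit 176) (nat_lit 161) (nat_lit 2) (nat_lit 4) (nat_lit 10) L64306 (by decide +kernel)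
theorem L65059 : W_24 (nat_lit 10) (nat_lit 0x280014001000080000000000000000000000000000000) (nat_lit 0x0) (nat_lit 0x70007800ff0017802bc00180008000000000000000000000000000000) := Q_24 (nat_lit 174) (C_24 L64743 (C_24 L65027 (C_24 L65058 (C_24 L64745 N_24)))) (by decide +kernel)
theorem L65060 : W_24 (nat_lit 4) (nat_lit 0x1000280014001200080000000000000000000000000000000) (nat_lit 0x0) (nat_lit 0x50002c00100000000000010000000000000000000000000000000) := T_24 (nat_lit 193) (nat_lit 210) (nat_lit 7) (nat_lit 5) (nat_lit 8) L64030 (by decide +kernel)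
theorem L65061 : W_24 (nat_lit 6) (nat_lit 0x280014001200080000000000000000000000000000000) (nat_lit 0x0) (nat_lit 0x200070003c0010002a000100018000400000000000000000000000000) := Q_24 (nat_lit 192) (C_24 L64379 (C_24 L63853 (C_24 L65060 N_24))) (by decide +kernel)
theorem L65062 : W_24 (nat_lit 5) (nat_lit 0x280014001300080000000000000000000000000000000) (nat_lit 0x0) (nat_lit 0x200030001800000002000400028000000000000000000000000000000) := T_24 (nat_lit 192) (nat_lit 123) (nat_lit 4) (nat_lit 5) (nat_lit 11) L63035 (by decide +kernel)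
theorem L65063 : W_24 (nat_lit 5) (nat_lit 0x280014001300080000000000000000000000000000000) (nat_lit 0x0) (nat_lit 0x20003000180000002a000000008000000000000000000000000000000) := T_24 (nat_lit 192) (nat_lit 123) (nat_lit 4) (nat_lit 5) (nat_lit 11) L63852 (by decide +kernel)
theorem L65064 : W_24 (nat_lit 6) (nat_lit 0x280014001200080000000000000000000000000000000) (nat_lit 0x0) (nat_lit 0x20003000180000002a000580028000000000000000000000000000000) := Q_24 (nat_lit 140) (C_24 L65021 (C_24 L65023 (C_24 L65062 (C_24 L65063 N_24)))) (by decide +kernel)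
theorem L65065 : W_24 (nat_lit 2) (nat_lit 0x3800140016000f8000000000000000000000000000000) (nat_lit 0x0) (nat_lit 0x4000000008000000000002000000000000000000000000000) := D_24 (nat_lit 159) (nat_lit 109) (nat_lit 194) (nat_lit 6) (nat_lit 6) (nat_lit 10) (nat_lit 7) (nat_lit 6) (nat_lit 7) (by decide +kernel)
theorem L65066 : W_24 (nat_lit 3) (nat_lit 0x2800140016000f8000000000000000000000000000000) (nat_lit 0x0) (nat_lit 0x6000100008000000000002000000000000000000000000000) := T_24 (nat_lit 176) (nat_lit 193) (nat_lit 7) (nat_lit 5) (nat_lit 7) L65065 (by decide +kernel)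
theorem L65067 : W_24 (nat_lit 4) (nat_lit 0x2800140012000f8000000000000000000000000000000) (nat_lit 0x0) (nat_lit 0x6000100008000400100002000000000000000000000000000) := T_24 (nat_lit 142) (nat_lit 128) (nat_lit 1) (nat_lit 9) (nat_lit 7) L65066 (by decide +kernel)
theorem L65068 : W_24 (nat_lit 5) (nat_lit 0x2800140012000b8000000000000000000000000000000) (nat_lit 0x0) (nat_lit 0x6000100008000500140002000000000000000000000000000) := T_24 (nat_lit 126) (nat_lit 140) (nat_lit 1) (nat_lit 8) (nat_lit 7) L65067 (by decide +kernel)
theorem L65069 : W_24 (nat_lit 6) (nat_lit 0x280014001200098000000000000000000000000000000) (nat_lit 0x0) (nat_lit 0x6000100008000500160003000000000000000000000000000) := T_24 (nat_lit 125) (nat_lit 108) (nat_lit 6) (nat_lit 5) (nat_lit 10) L65068 (by decide +kernel)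
theorem L65070 : W_24 (nat_lit 7) (nat_lit 0x280014001200090000000000000000000000000000000) (nat_lit 0x0) (nat_lit 0x6000100008000500168003400000000000000000000000000) := T_24 (nat_lit 123) (nat_lit 106) (nat_lit 4) (nat_lit 5) (nat_lit 10) L65069 (by decide +kernel)
theorem L65071 : W_24 (nat_lit 8) (nat_lit 0x280014001200080000000000000000000000000000000) (nat_lit 0x0) (nat_lit 0x6000100008000500178003c000a0000000000000000000000) := Q_24 (nat_lit 124) (C_24 L63615 (C_24 L63078 (C_24 L62805 (C_24 L65070 N_24)))) (by decide +kernel)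
theorem L65072 : W_24 (nat_lit 2) (nat_lit 0x180028001c001600080000000000000000000000000000000) (nat_lit 0x0) (nat_lit 0x60000100000000000000000000000000000000000) := D_24 (nat_lit 161) (nat_lit 140) (nat_lit 162) (nat_lit 0) (nat_lit 8) (nat_lit 9) (nat_lit 0) (nat_lit 9) (nat_lit 9) (by decide +kernel)
theorem L65073 : W_24 (nat_lit 3) (nat_lit 0x1800280014001600080000000000000000000000000000000) (nat_lit 0x0) (nat_lit 0x20000000000068000100000000000000000000000000000000000) := T_24 (nat_lit 159) (nat_lit 209) (nat_lit 6) (nat_lit 5) (nat_lit 12) L65072 (by decide +kernel)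
theorem L65074 : W_24 (nat_lit 4) (nat_lit 0x1800280014001200080000000000000000000000000000000) (nat_lit 0x0) (nat_lit 0x20000000000068000500020000000000000000000000000000000) := T_24 (nat_lit 142) (nat_lit 125) (nat_lit 6) (nat_lit 5) (nat_lit 11) L65073 (by decide +kernel)
theorem L65075 : W_24 (nat_lit 5) (nat_lit 0x1000280014001200080000000000000000000000000000000) (nat_lit 0x0) (nat_lit 0x30000800000068000500020000000000000000000000000000000) := T_24 (nat_lit 191) (nat_lit 208) (nat_lit 5) (nat_lit 5) (nat_lit 8) L65074 (by decide +kernel)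
theorem L65076 : W_24 (nat_lit 6) (nat_lit 0x280014001200080000000000000000000000000000000) (nat_lit 0x0) (nat_lit 0x200070003c00100068000500030001000000000000000000000000000) := Q_24 (nat_lit 192) (C_24 L65060 (C_24 L64992 (C_24 L65075 (C_24 L64363 N_24)))) (by decide +kernel)
theorem L65077 : W_24 (nat_lit 9) (nat_lit 0x280014001000080000000000000000000000000000000) (nat_lit 0x0) (nat_lit 0xa00070007c0010006a000780178003c000a0000000000000000000000) := Q_24 (nat_lit 141) (C_24 L64994 (C_24 L65029 (C_24 L65061 (C_24 L65064 (C_24 L65071 (C_24 L64396 (C_24 L65076 N_24))))))) (by decide +kernel)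
theorem L65078 : W_24 (nat_lit 7) (nat_lit 0x2c0014001000080000000000000000000000000000000) (nat_lit 0x0) (nat_lit 0x1000ef0013000bc00200010000000000000000000000000000000) := Q_24 (nat_lit 176) (C_24 L64414 (C_24 L64306 (C_24 L64281 (C_24 L64287 N_24)))) (by decide +kernel)
theorem L65079 : W_24 (nat_lit 8) (nat_lit 0x280014001000080000000000000000000000000000000) (nat_lit 0x0) (nat_lit 0x1000ef0017002bc00200010000000000000000000000000000000) := Q_24 (nat_lit 174) (C_24 L64743 (C_24 L65058 (C_24 L65078 (C_24 L64745 N_24)))) (by decide +kernel)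
theorem L65080 : W_24 (nat_lit 2) (nat_lit 0x30002c0034001300080000000000000000000000000000000) (nat_lit 0x0) (nat_lit 0x8000c000000000000000000000000000000000000000000000000) := D_24 (nat_lit 194) (nat_lit 195) (nat_lit 211) (nat_lit 0) (nat_lit 8) (nat_lit 11) (nat_lit 6) (nat_lit 7) (nat_lit 12) (by decide +kernel)
theorem L65081 : W_24 (nat_lit 3) (nat_lit 0x3000280034001300080000000000000000000000000000000) (nat_lit 0x0) (nat_lit 0x8000c000140000000000000000000000000000000000000000000) := T_24 (nat_lit 174) (nat_lit 176) (nat_lit 2) (nat_lit 4) (nat_lit 10) L65080 (by decide +kernel)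
theorem L65082 : W_24 (nat_lit 4) (nat_lit 0x1000280034001300080000000000000000000000000000000) (nat_lit 0x0) (nat_lit 0xc000e000140000000000000000000000000000000000000000000) := T_24 (nat_lit 193) (nat_lit 210) (nat_lit 7) (nat_lit 5) (nat_lit 8) L65081 (by decide +kernel)
theorem L65083 : W_24 (nat_lit 5) (nat_lit 0x1000280014001300080000000000000000000000000000000) (nat_lit 0x0) (nat_lit 0xc000e000140028000000000000000000000000000000000000000) := T_24 (nat_lit 161) (nat_lit 159) (nat_lit 0) (nat_lit 8) (nat_lit 9) L65082 (by decide +kernel)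
theorem L65084 : W_24 (nat_lit 6) (nat_lit 0x1000280014001200080000000000000000000000000000000) (nat_lit 0x0) (nat_lit 0xc000e000140028000100008000000000000000000000000000000) := T_24 (nat_lit 140) (nat_lit 123) (nat_lit 4) (nat_lit 5) (nat_lit 11) L65083 (by decide +kernel)
theorem L65085 : W_24 (nat_lit 10) (nat_lit 0x280014001200080000000000000000000000000000000) (nat_lit 0x0) (nat_lit 0x4000e001fc00fc00170068000500028000000000000000000000000000000) := Q_24 (nat_lit 192) (C_24 L65075 (C_24 L64992 (C_24 L64376 (C_24 L65046 (C_24 L65084 N_24))))) (by decide +kernel)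
theorem L65086 : W_24 (nat_lit 11) (nat_lit 0x280014001000080000000000000000000000000000000) (nat_lit 0x0) (nat_lit 0x4000e001fc00fe00170068000700178003c000a0000000000000000000000) := Q_24 (nat_lit 141) (C_24 L65076 (C_24 L64382 (C_24 L62861 (C_24 L65085 (C_24 L65071 N_24))))) (by decide +kernel)
theorem L65087 : W_24 (nat_lit 9) (nat_lit 0x28001c001000080000000000000000000000000000000) (nat_lit 0x0) (nat_lit 0x20001000138003c007e0008000400000000000000000000000000) := Q_24 (nat_lit 157) (C_24 L64058 (C_24 L63971 (C_24 L64051 N_24))) (by decide +kernel)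
theorem L65088 : W_24 (nat_lit 4) (nat_lit 0x28003c001000080000000000000000000000000000000) (nat_lit 0x0) (nat_lit 0x2000100040000300010000800000000000000000000000000) := T_24 (nat_lit 141) (nat_lit 140) (nat_lit 0) (nat_lit 8) (nat_lit 9) L62976 (by decide +kernel)
theorem L65089 : W_24 (nat_lit 5) (nat_lit 0x28001c001000080000000000000000000000000000000) (nat_lit 0x0) (nat_lit 0x2000140060000300010000800000000000000000000000000) := T_24 (nat_lit 161) (nat_lit 174) (nat_lit 1) (nat_lit 8) (nat_lit 9) L65088 (by decide +kernel)
theorem L65090 : W_24 (nat_lit 3) (nat_lit 0x28001c001000080000000000000000000000000000000) (nat_lit 0x0) (nat_lit 0x70022000000000000000000000000000000000000000) := T_24 (nat_lit 174) (nat_lit 161) (nat_lit 1) (nat_lit 8) (nat_lit 9) L64742 (by decide +kernel)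
theorem L65091 : W_24 (nat_lit 10) (nat_lit 0x280014001000080000000000000000000000000000000) (nat_lit 0x0) (nat_lit 0x2000300017806bc007e0038001c00000000000000000000000000) := Q_24 (nat_lit 159) (C_24 L65087 (C_24 L64732 (C_24 L65089 (C_24 L65090 N_24)))) (by decide +kernel)
theorem L65092 : W_24 (nat_lit 13) (nat_lit 0x280010001000080000000000000000000000000000000) (nat_lit 0x0) (nat_lit 0x1c000f001fc00ff0017806fc007e017f003c000e0000000000000000000000) := Q_24 (nat_lit 158) (C_24 L64231 (C_24 L64746 (C_24 L65026 (C_24 L65028 (C_24 L65055 (C_24 L65057 (C_24 L65059 (C_24 L65077 (C_24 L65079 (C_24 L65086 (C_24 L65091 N_24))))))))))) (by decide +kernel)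
theorem L65094 : W_24 (nat_lit 3) (nat_lit 0x280030001000080000000000000000000000000000000) (nat_lit 0x0) (nat_lit 0x1400c8000000000000000000000000000000000000000) := T_24 (nat_lit 176) (nat_lit 174) (nat_lit 2) (nat_lit 4) (nat_lit 10) L65093 (by decide +kernel)
theorem L65095 : W_24 (nat_lit 2) (nat_lit 0x280030001000080000000000000000000000000000000) (nat_lit 0x0) (nat_lit 0x80004000400000000000000000000000000000000000000000000) := D_24 (nat_lit 194) (nat_lit 211) (nat_lit 178) (nat_lit 6) (nat_lit 7) (nat_lit 12) (nat_lit 5) (nat_lit 8) (nat_lit 7) (by decide +kernel)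
theorem L65096 : W_24 (nat_lit 4) (nat_lit 0x280010001000080000000000000000000000000000000) (nat_lit 0x0) (nat_lit 0x800040005400e8000000000000000000000000000000000000000) := Q_24 (nat_lit 161) (C_24 L65094 (C_24 L65095 N_24)) (by decide +kernel)
theorem L65097 : W_24 (nat_lit 2) (nat_lit 0x280006000d000780010001000080000000000000000000000000000000) (nat_lit 0x0) (nat_lit 0x200010000400000000000000000000000000000000000000000000000000000000) := D_24 (nat_lit 244) (nat_lit 261) (nat_lit 226) (nat_lit 4) (nat_lit 6) (nat_lit 15) (nat_lit 7) (nat_lit 5) (nat_lit 10) (by decide +kernel)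
theorem L65098 : W_24 (nat_lit 3) (nat_lit 0x280004000d000780010001000080000000000000000000000000000000) (nat_lit 0x0) (nat_lit 0x200010000400020000000000004000000000000000000000000000000000000000) := T_24 (nat_lit 209) (nat_lit 158) (nat_lit 7) (nat_lit 5) (nat_lit 9) L65097 (by decide +kernel)
theorem L65099 : W_24 (nat_lit 4) (nat_lit 0x280004000c000780010001000080000000000000000000000000000000) (nat_lit 0x0) (nat_lit 0x200010000400020001800000004000000000000000000000000000000000000000) := T_24 (nat_lit 192) (nat_lit 191) (nat_lit 1) (nat_lit 8) (nat_lit 10) L65098 (by decide +kernel)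
theorem L65100 : W_24 (nat_lit 5) (nat_lit 0x80004000c000780010001000080000000000000000000000000000000) (nat_lit 0x0) (nat_lit 0x200010002400120001800000004000000000000000000000000000000000000000) := T_24 (nat_lit 229) (nat_lit 212) (nat_lit 4) (nat_lit 8) (nat_lit 13) L65099 (by decide +kernel)
theorem L65101 : W_24 (nat_lit 6) (nat_lit 0x800040004000780010001000080000000000000000000000000000000) (nat_lit 0x0) (nat_lit 0x200010002400120019800000004000000000000000000000000000000000000000) := T_24 (nat_lit 195) (nat_lit 196) (nat_lit 3) (nat_lit 5) (nat_lit 10) L65100 (by decide +kernel)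
theorem L65102 : W_24 (nat_lit 7) (nat_lit 0x800040000000780010001000080000000000000000000000000000000) (nat_lit 0x0) (nat_lit 0x2000100024001a001d800000004000000000000000000000000000000000000000) := T_24 (nat_lit 194) (nat_lit 211) (nat_lit 5) (nat_lit 7) (nat_lit 9) L65101 (by decide +kernel)
theorem L65103 : W_24 (nat_lit 8) (nat_lit 0x40000000780010001000080000000000000000000000000000000) (nat_lit 0x0) (nat_lit 0x200010002c001a001f800000004000000000000000000000000000000000000000) := T_24 (nat_lit 227) (nat_lit 193) (nat_lit 6) (nat_lit 6) (nat_lit 13) L65102 (by decide +kernel)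
theorem L65104 : W_24 (nat_lit 2) (nat_lit 0x800040001000780010001000080000000000000000000000000000000) (nat_lit 0x0) (nat_lit 0x20000000000006000000000000000000000000000000000000000) := D_24 (nat_lit 158) (nat_lit 209) (nat_lit 157) (nat_lit 7) (nat_lit 5) (nat_lit 9) (nat_lit 0) (nat_lit 8) (nat_lit 10) (by decide +kernel)
theorem L65105 : W_24 (nat_lit 3) (nat_lit 0x40001000780010001000080000000000000000000000000000000) (nat_lit 0x0) (nat_lit 0x800020002000000006000000000000000000000000000000000000000) := T_24 (nat_lit 227) (nat_lit 193) (nat_lit 6) (nat_lit 6) (nat_lit 13) L65104 (by decide +kernel)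
theorem L65106 : W_24 (nat_lit 4) (nat_lit 0x40000000780010001000080000000000000000000000000000000) (nat_lit 0x0) (nat_lit 0x800020003800000006000000000000000000000000000000000000000) := T_24 (nat_lit 192) (nat_lit 191) (nat_lit 1) (nat_lit 8) (nat_lit 10) L65105 (by decide +kernel)
theorem L65107 : W_24 (nat_lit 2) (nat_lit 0x8007c0009000780010001000080000000000000000000000000000000) (nat_lit 0x0) (nat_lit 0x1c000000000000000000000000000000000000000000000000000000000) := D_24 (nat_lit 231) (nat_lit 230) (nat_lit 232) (nat_lit 3) (nat_lit 6) (nat_lit 12) (nat_lit 3) (nat_lit 7) (nat_lit 12) (by decide +kernel)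
theorem L65108 : W_24 (nat_lit 3) (nat_lit 0x8003c0009000780010001000080000000000000000000000000000000) (nat_lit 0x0) (nat_lit 0x1d000400000000000000000000000000000000000000000000000000000) := T_24 (nat_lit 214) (nat_lit 228) (nat_lit 1) (nat_lit 10) (nat_lit 12) L65107 (by decide +kernel)
theorem L65109 : W_24 (nat_lit 4) (nat_lit 0x8001c0009000780010001000080000000000000000000000000000000) (nat_lit 0x0) (nat_lit 0x1d400600000000000000000000000000000000000000000000000000000) := T_24 (nat_lit 213) (nat_lit 226) (nat_lit 1) (nat_lit 9) (nat_lit 12) L65108 (by decide +kernel)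
theorem L65110 : W_24 (nat_lit 5) (nat_lit 0x8000c0009000780010001000080000000000000000000000000000000) (nat_lit 0x0) (nat_lit 0x1f400700000000000000000000000000000000000000000000000000000) := T_24 (nat_lit 212) (nat_lit 229) (nat_lit 4) (nat_lit 8) (nat_lit 13) L65109 (by decide +kernel)
theorem L65111 : W_24 (nat_lit 6) (nat_lit 0x8000c0001000780010001000080000000000000000000000000000000) (nat_lit 0x0) (nat_lit 0x1f400700018000000000000000000000000000000000000000000000000) := T_24 (nat_lit 195) (nat_lit 196) (nat_lit 3) (nat_lit 5) (nat_lit 10) L65110 (by decide +kernel)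
theorem L65112 : W_24 (nat_lit 7) (nat_lit 0x8000c0000000780010001000080000000000000000000000000000000) (nat_lit 0x0) (nat_lit 0x1f400700019800000000000000000000000000000000000000000000000) := T_24 (nat_lit 192) (nat_lit 191) (nat_lit 1) (nat_lit 8) (nat_lit 10) L65111 (by decide +kernel)
theorem L65113 : W_24 (nat_lit 8) (nat_lit 0x800040000000780010001000080000000000000000000000000000000) (nat_lit 0x0) (nat_lit 0x1f40078001d800000000000000000000000000000000000000000000000) := T_24 (nat_lit 211) (nat_lit 194) (nat_lit 5) (nat_lit 7) (nat_lit 9) L65112 (by decide +kernel)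
theorem L65114 : W_24 (nat_lit 9) (nat_lit 0x40000000780010001000080000000000000000000000000000000) (nat_lit 0x0) (nat_lit 0x1fc0078001f800000000000000000000000000000000000000000000000) := T_24 (nat_lit 227) (nat_lit 193) (nat_lit 6) (nat_lit 6) (nat_lit 13) L65113 (by decide +kernel)
theorem L65115 : W_24 (nat_lit 5) (nat_lit 0x8001c0008000780010001000080000000000000000000000000000000) (nat_lit 0x0) (nat_lit 0x1d400600000000000006000000000000000000000000000000000000000) := T_24 (nat_lit 158) (nat_lit 157) (nat_lit 0) (nat_lit 8) (nat_lit 10) L63998 (by decide +kernel)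
theorem L65116 : W_24 (nat_lit 6) (nat_lit 0x8000c0008000780010001000080000000000000000000000000000000) (nat_lit 0x0) (nat_lit 0x1f400700000000000006000000000000000000000000000000000000000) := T_24 (nat_lit 212) (nat_lit 229) (nat_lit 4) (nat_lit 8) (nat_lit 13) L65115 (by decide +kernel)
theorem L65117 : W_24 (nat_lit 7) (nat_lit 0x800040008000780010001000080000000000000000000000000000000) (nat_lit 0x0) (nat_lit 0x1f400780004000000006000000000000000000000000000000000000000) := T_24 (nat_lit 211) (nat_lit 194) (nat_lit 5) (nat_lit 7) (nat_lit 9) L65116 (by decide +kernel)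
theorem L65118 : W_24 (nat_lit 8) (nat_lit 0x40008000780010001000080000000000000000000000000000000) (nat_lit 0x0) (nat_lit 0x1fc00780006000000006000000000000000000000000000000000000000) := T_24 (nat_lit 227) (nat_lit 193) (nat_lit 6) (nat_lit 6) (nat_lit 13) L65117 (by decide +kernel)
theorem L65119 : W_24 (nat_lit 9) (nat_lit 0x40000000780010001000080000000000000000000000000000000) (nat_lit 0x0) (nat_lit 0x1fc0078001e000000006000000000000000000000000000000000000000) := T_24 (nat_lit 195) (nat_lit 196) (nat_lit 3) (nat_lit 5) (nat_lit 10) L65118 (by decide +kernel)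
theorem L65120 : W_24 (nat_lit 8) (nat_lit 0x40000000780010001000080000000000000000000000000000000) (nat_lit 0x0) (nat_lit 0x1b800000006000700078001000000000000000000000000000) := T_24 (nat_lit 158) (nat_lit 157) (nat_lit 0) (nat_lit 8) (nat_lit 10) L64009 (by decide +kernel)
theorem L65121 : W_24 (nat_lit 10) (nat_lit 0x780010001000080000000000000000000000000000000) (nat_lit 0x0) (nat_lit 0x20001001fe007f001f800000006000700078001000000000000000000000000000) := Q_24 (nat_lit 210) (C_24 L65103 (C_24 L64012 (C_24 L65106 (C_24 L65114 (C_24 L65119 (C_24 L65120 N_24)))))) (by decide +kernel)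
theorem L65122 : W_24 (nat_lit 2) (nat_lit 0x780010001000080000000000000000000000000000000) (nat_lit 0x0) (nat_lit 0x4000000060000000000000000000000000000000000000000) := D_24 (nat_lit 161) (nat_lit 162) (nat_lit 194) (nat_lit 2) (nat_lit 5) (nat_lit 10) (nat_lit 5) (nat_lit 8) (nat_lit 7) (by decide +kernel)
theorem L65123 : W_24 (nat_lit 7) (nat_lit 0x10007800340010001c0000000000000000000000000000000) (nat_lit 0x0) (nat_lit 0x7c003e001a000000000000000000000000000000000000000000000000) := T_24 (nat_lit 195) (nat_lit 196) (nat_lit 3) (nat_lit 5) (nat_lit 10) L64752 (by decide +kernel)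
theorem L65124 : W_24 (nat_lit 8) (nat_lit 0x10007800300010001c0000000000000000000000000000000) (nat_lit 0x0) (nat_lit 0x7c003e001a000000006000000000000000000000000000000000000000) := T_24 (nat_lit 158) (nat_lit 157) (nat_lit 0) (nat_lit 8) (nat_lit 10) L65123 (by decide +kernel)
theorem L65125 : W_24 (nat_lit 9) (nat_lit 0x1000780030001000180000000000000000000000000000000) (nat_lit 0x0) (nat_lit 0x7c003e001a000000006000000040002000000000000000000000000000) := T_24 (nat_lit 126) (nat_lit 109) (nat_lit 4) (nat_lit 8) (nat_lit 10) L65124 (by decide +kernel)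
theorem L65126 : W_24 (nat_lit 10) (nat_lit 0x1000780030001000080000000000000000000000000000000) (nat_lit 0x0) (nat_lit 0x7c003e001a00000000600000014000a000000000000000000000000000) := T_24 (nat_lit 128) (nat_lit 111) (nat_lit 6) (nat_lit 8) (nat_lit 10) L65125 (by decide +kernel)
theorem L65127 : W_24 (nat_lit 11) (nat_lit 0x1000780010001000080000000000000000000000000000000) (nat_lit 0x0) (nat_lit 0x7c003e001a00000006600000014000a000000000000000000000000000) := T_24 (nat_lit 161) (nat_lit 162) (nat_lit 2) (nat_lit 5) (nat_lit 10) L65126 (by decide +kernel)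
theorem L65128 : W_24 (nat_lit 12) (nat_lit 0x780010001000080000000000000000000000000000000) (nat_lit 0x0) (nat_lit 0x7c003e001b80000006600000014000a000000000000000000000000000) := T_24 (nat_lit 192) (nat_lit 191) (nat_lit 1) (nat_lit 8) (nat_lit 10) L65127 (by decide +kernel)
theorem L65129 : W_24 (nat_lit 13) (nat_lit 0x380010001000080000000000000000000000000000000) (nat_lit 0x0) (nat_lit 0x20001001fe007f001f80040006600070017800b000000000000000000000000000) := Q_24 (nat_lit 178) (C_24 L65121 (C_24 L65122 (C_24 L65128 N_24))) (by decide +kernel)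
theorem L65130 : W_24 (nat_lit 2) (nat_lit 0x8003c0012001000080000000000000000000000000000000) (nat_lit 0x0) (nat_lit 0x1000400004000000000000000000000000000000000000000) := D_24 (nat_lit 178) (nat_lit 158) (nat_lit 192) (nat_lit 0) (nat_lit 8) (nat_lit 10) (nat_lit 1) (nat_lit 8) (nat_lit 10) (by decide +kernel)
theorem L65131 : W_24 (nat_lit 3) (nat_lit 0x3c0012001000080000000000000000000000000000000) (nat_lit 0x0) (nat_lit 0x1c00400004000000000000000000000000000000000000000) := T_24 (nat_lit 191) (nat_lit 190) (nat_lit 1) (nat_lit 7) (nat_lit 10) L65130 (by decide +kernel)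
theorem L65132 : W_24 (nat_lit 4) (nat_lit 0x3c0010001000080000000000000000000000000000000) (nat_lit 0x0) (nat_lit 0x1c00400007000000000000000000000000000000000000000) := T_24 (nat_lit 157) (nat_lit 156) (nat_lit 0) (nat_lit 7) (nat_lit 10) L65131 (by decide +kernel)
theorem L65133 : W_24 (nat_lit 3) (nat_lit 0x40003c0010001000080000000000000000000000000000000) (nat_lit 0x0) (nat_lit 0x2e00020000000000000000000000000000000000000000000) := T_24 (nat_lit 173) (nat_lit 193) (nat_lit 3) (nat_lit 3) (nat_lit 10) L7407 (by decide +kernel)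
theorem L65134 : W_24 (nat_lit 4) (nat_lit 0x3c0010001000080000000000000000000000000000000) (nat_lit 0x0) (nat_lit 0xee00020000000000000000000000000000000000000000000) := T_24 (nat_lit 194) (nat_lit 195) (nat_lit 3) (nat_lit 4) (nat_lit 10) L65133 (by decide +kernel)
theorem L65135 : W_24 (nat_lit 4) (nat_lit 0x3c0010001000080000000000000000000000000000000) (nat_lit 0x0) (nat_lit 0x1c000400007000000000000000000000000000000000000000) := T_24 (nat_lit 157) (nat_lit 156) (nat_lit 0) (nat_lit 7) (nat_lit 10) L64070 (by decide +kernel)
theorem L65136 : W_24 (nat_lit 6) (nat_lit 0x380010001000080000000000000000000000000000000) (nat_lit 0x0) (nat_lit 0x1fe00460007000000000000000000000000000000000000000) := Q_24 (nat_lit 174) (C_24 L64020 (C_24 L64016 (C_24 L65132 (C_24 L65134 (C_24 L65135 N_24))))) (by decide +kernel)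
theorem L65137 : W_24 (nat_lit 5) (nat_lit 0x380010001000080000000000000000000000000000000) (nat_lit 0x0) (nat_lit 0x1c00440027000000000000000000000000000000000000000) := T_24 (nat_lit 174) (nat_lit 161) (nat_lit 2) (nat_lit 4) (nat_lit 10) L65132 (by decide +kernel)
theorem L65138 : W_24 (nat_lit 5) (nat_lit 0x380010001000080000000000000000000000000000000) (nat_lit 0x0) (nat_lit 0xee00060020000000000000000000000000000000000000000) := T_24 (nat_lit 174) (nat_lit 161) (nat_lit 2) (nat_lit 4) (nat_lit 10) L65134 (by decide +kernel)
theorem L65139 : W_24 (nat_lit 5) (nat_lit 0x380010001000080000000000000000000000000000000) (nat_lit 0x0) (nat_lit 0x1c000440027000000000000000000000000000000000000000) := T_24 (nat_lit 174) (nat_lit 161) (nat_lit 2) (nat_lit 4) (nat_lit 10) L65135 (by decide +kernel)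
theorem L65140 : W_24 (nat_lit 14) (nat_lit 0x280010001000080000000000000000000000000000000) (nat_lit 0x0) (nat_lit 0x20001001fe007f001fe0056006700070017800b000000000000000000000000000) := Q_24 (nat_lit 176) (C_24 L65129 (C_24 L65136 (C_24 L65137 (C_24 L65138 (C_24 L65139 N_24))))) (by decide +kernel)
theorem L65141 : W_24 (nat_lit 2) (nat_lit 0x80012000f000780010001000080000000000000000000000000000000) (nat_lit 0x0) (nat_lit 0x400000000000000008000400000000000000000000000000000000000) := D_24 (nat_lit 159) (nat_lit 142) (nat_lit 226) (nat_lit 5) (nat_lit 6) (nat_lit 8) (nat_lit 6) (nat_lit 5) (nat_lit 13) (by decide +kernel)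
theorem L65142 : W_24 (nat_lit 3) (nat_lit 0x80010000f000780010001000080000000000000000000000000000000) (nat_lit 0x0) (nat_lit 0x400030000000000008000400000000000000000000000000000000000) := T_24 (nat_lit 209) (nat_lit 208) (nat_lit 1) (nat_lit 8) (nat_lit 11) L65141 (by decide +kernel)
theorem L65143 : W_24 (nat_lit 4) (nat_lit 0x80010000b000780010001000080000000000000000000000000000000) (nat_lit 0x0) (nat_lit 0x400230004000000008000400000000000000000000000000000000000) := T_24 (nat_lit 194) (nat_lit 213) (nat_lit 3) (nat_lit 5) (nat_lit 11) L65142 (by decide +kernel)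
theorem L65144 : W_24 (nat_lit 5) (nat_lit 0x80010000a000780010001000080000000000000000000000000000000) (nat_lit 0x0) (nat_lit 0x400230005800000008000400000000000000000000000000000000000) := T_24 (nat_lit 192) (nat_lit 191) (nat_lit 1) (nat_lit 8) (nat_lit 10) L65143 (by decide +kernel)
theorem L65145 : W_24 (nat_lit 6) (nat_lit 0x80000000a000780010001000080000000000000000000000000000000) (nat_lit 0x0) (nat_lit 0x2400330005800000008000400000000000000000000000000000000000) := T_24 (nat_lit 212) (nat_lit 229) (nat_lit 4) (nat_lit 8) (nat_lit 13) L65144 (by decide +kernel)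
theorem L65146 : W_24 (nat_lit 7) (nat_lit 0x800000002000780010001000080000000000000000000000000000000) (nat_lit 0x0) (nat_lit 0x240033001d800000008000400000000000000000000000000000000000) := T_24 (nat_lit 195) (nat_lit 196) (nat_lit 3) (nat_lit 5) (nat_lit 10) L65145 (by decide +kernel)
theorem L65147 : W_24 (nat_lit 8) (nat_lit 0x2000780010001000080000000000000000000000000000000) (nat_lit 0x0) (nat_lit 0x2c0037001d800000008000400000000000000000000000000000000000) := T_24 (nat_lit 227) (nat_lit 210) (nat_lit 6) (nat_lit 6) (nat_lit 13) L65146 (by decide +kernel)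
theorem L65148 : W_24 (nat_lit 2) (nat_lit 0x3000780014001000080000000000000000000000000000000) (nat_lit 0x0) (nat_lit 0x800040000000000000000200000000000000000000000000000000000) := D_24 (nat_lit 210) (nat_lit 227) (nat_lit 141) (nat_lit 6) (nat_lit 6) (nat_lit 13) (nat_lit 7) (nat_lit 5) (nat_lit 8) (by decide +kernel)
theorem L65149 : W_24 (nat_lit 3) (nat_lit 0x3000780010001000080000000000000000000000000000000) (nat_lit 0x0) (nat_lit 0x800040000000000006000200000000000000000000000000000000000) := T_24 (nat_lit 158) (nat_lit 157) (nat_lit 0) (nat_lit 8) (nat_lit 10) L65148 (by decide +kernel)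
theorem L65150 : W_24 (nat_lit 4) (nat_lit 0x2000780010001000080000000000000000000000000000000) (nat_lit 0x0) (nat_lit 0x800040001800000006000200000000000000000000000000000000000) := T_24 (nat_lit 192) (nat_lit 191) (nat_lit 1) (nat_lit 8) (nat_lit 10) L65149 (by decide +kernel)
theorem L65151 : W_24 (nat_lit 6) (nat_lit 0xb000780014001000080000000000000000000000000000000) (nat_lit 0x0) (nat_lit 0x2000120000000000008000780038000000000000000000000000000000) := T_24 (nat_lit 229) (nat_lit 212) (nat_lit 4) (nat_lit 8) (nat_lit 13) L64090 (by decide +kernel)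
theorem L65152 : W_24 (nat_lit 7) (nat_lit 0x3000780014001000080000000000000000000000000000000) (nat_lit 0x0) (nat_lit 0x2000120018000000008000780038000000000000000000000000000000) := T_24 (nat_lit 195) (nat_lit 196) (nat_lit 3) (nat_lit 5) (nat_lit 10) L65151 (by decide +kernel)
theorem L65153 : W_24 (nat_lit 8) (nat_lit 0x3000780010001000080000000000000000000000000000000) (nat_lit 0x0) (nat_lit 0x200012001800000000e000780038000000000000000000000000000000) := T_24 (nat_lit 158) (nat_lit 157) (nat_lit 0) (nat_lit 8) (nat_lit 10) L65152 (by decide +kernel)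
theorem L65154 : W_24 (nat_lit 9) (nat_lit 0x2000780010001000080000000000000000000000000000000) (nat_lit 0x0) (nat_lit 0x200012001980000000e000780038000000000000000000000000000000) := T_24 (nat_lit 192) (nat_lit 191) (nat_lit 1) (nat_lit 8) (nat_lit 10) L65153 (by decide +kernel)
theorem L65155 : W_24 (nat_lit 2) (nat_lit 0x40002000780014001000080000000000000000000000000000000) (nat_lit 0x0) (nat_lit 0x8000200010000000000000000000000000000000) := D_24 (nat_lit 141) (nat_lit 124) (nat_lit 159) (nat_lit 7) (nat_lit 5) (nat_lit 7) (nat_lit 4) (nat_lit 6) (nat_lit 12) (by decide +kernel)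
theorem L65156 : W_24 (nat_lit 3) (nat_lit 0x2000780014001000080000000000000000000000000000000) (nat_lit 0x0) (nat_lit 0x800040000000000008000200010000000000000000000000000000000) := T_24 (nat_lit 210) (nat_lit 227) (nat_lit 6) (nat_lit 6) (nat_lit 13) L65155 (by decide +kernel)
theorem L65157 : W_24 (nat_lit 4) (nat_lit 0x2000780010001000080000000000000000000000000000000) (nat_lit 0x0) (nat_lit 0x80004000000000000e000200010000000000000000000000000000000) := T_24 (nat_lit 158) (nat_lit 157) (nat_lit 0) (nat_lit 8) (nat_lit 10) L65156 (by decide +kernel)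
theorem L65158 : W_24 (nat_lit 10) (nat_lit 0x780010001000080000000000000000000000000000000) (nat_lit 0x0) (nat_lit 0x2c0037001f80000000e000780038000000000000000000000000000000) := Q_24 (nat_lit 193) (C_24 L65147 (C_24 L65150 (C_24 L65154 (C_24 L65157 N_24)))) (by decide +kernel)
theorem L65159 : W_24 (nat_lit 2) (nat_lit 0x7800300012001f0000000000000000000000000000000) (nat_lit 0x0) (nat_lit 0x1c00000000000000000000000000) := D_24 (nat_lit 107) (nat_lit 106) (nat_lit 108) (nat_lit 0) (nat_lit 8) (nat_lit 7) (nat_lit 0) (nat_lit 9) (nat_lit 7) (by decide +kernel)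
theorem L65160 : W_24 (nat_lit 3) (nat_lit 0x7800300012001e0000000000000000000000000000000) (nat_lit 0x0) (nat_lit 0x100010001c00000000000000000000000000) := T_24 (nat_lit 124) (nat_lit 140) (nat_lit 1) (nat_lit 8) (nat_lit 7) L65159 (by decide +kernel)
theorem L65161 : W_24 (nat_lit 4) (nat_lit 0x7800300012001c0000000000000000000000000000000) (nat_lit 0x0) (nat_lit 0x500030001c00000000000000000000000000) := T_24 (nat_lit 125) (nat_lit 142) (nat_lit 1) (nat_lit 9) (nat_lit 7) L65160 (by decide +kernel)
theorem L65162 : W_24 (nat_lit 5) (nat_lit 0x7800300012000c0000000000000000000000000000000) (nat_lit 0x0) (nat_lit 0x500130009c00000000000000000000000000) := T_24 (nat_lit 128) (nat_lit 111) (nat_lit 6) (nat_lit 8) (nat_lit 10) L65161 (by decide +kernel)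
theorem L65163 : W_24 (nat_lit 6) (nat_lit 0x780030001200080000000000000000000000000000000) (nat_lit 0x0) (nat_lit 0x50017000bc00000000000000000000000000) := T_24 (nat_lit 126) (nat_lit 109) (nat_lit 4) (nat_lit 8) (nat_lit 10) L65162 (by decide +kernel)
theorem L65164 : W_24 (nat_lit 7) (nat_lit 0x780010001200080000000000000000000000000000000) (nat_lit 0x0) (nat_lit 0x6000050017000bc00000000000000000000000000) := T_24 (nat_lit 161) (nat_lit 162) (nat_lit 2) (nat_lit 5) (nat_lit 10) L65163 (by decide +kernel)
theorem L65165 : W_24 (nat_lit 8) (nat_lit 0x1000780010001200080000000000000000000000000000000) (nat_lit 0x0) (nat_lit 0x4002e0017001a00000000e000000000000000000000000000000000000000) := T_24 (nat_lit 158) (nat_lit 157) (nat_lit 0) (nat_lit 8) (nat_lit 10) L63846 (by decide +kernel)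
theorem L65166 : W_24 (nat_lit 9) (nat_lit 0x780010001200080000000000000000000000000000000) (nat_lit 0x0) (nat_lit 0x4002e0017001b80000000e000000000000000000000000000000000000000) := T_24 (nat_lit 192) (nat_lit 191) (nat_lit 1) (nat_lit 8) (nat_lit 10) L65165 (by decide +kernel)
theorem L65167 : W_24 (nat_lit 10) (nat_lit 0x780010001000080000000000000000000000000000000) (nat_lit 0x0) (nat_lit 0x4002e0017001b80000006e00070017000bc00000000000000000000000000) := Q_24 (nat_lit 141) (C_24 L65164 (C_24 L65166 N_24)) (by decide +kernel)
theorem L65168 : W_24 (nat_lit 11) (nat_lit 0x380010001000080000000000000000000000000000000) (nat_lit 0x0) (nat_lit 0x4002e0037001f80040006e00078017800bc00000000000000000000000000) := Q_24 (nat_lit 178) (C_24 L65122 (C_24 L65158 (C_24 L65167 N_24))) (by decide +kernel)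
theorem L65169 : W_24 (nat_lit 12) (nat_lit 0x280010001000080000000000000000000000000000000) (nat_lit 0x0) (nat_lit 0x4002e0037001fe0056006f00078017800bc00000000000000000000000000) := Q_24 (nat_lit 176) (C_24 L65136 (C_24 L65137 (C_24 L65139 (C_24 L65138 (C_24 L65168 N_24))))) (by decide +kernel)
theorem L65170 : W_24 (nat_lit 7) (nat_lit 0x280014001200080000000000000000000000000000000) (nat_lit 0x0) (nat_lit 0xa0007000380000000a000500078001c00020000000000000000000000) := Q_24 (nat_lit 192) (C_24 L64992 (C_24 L63491 (C_24 L63036 (C_24 L64972 N_24)))) (by decide +kernel)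
theorem L65171 : W_24 (nat_lit 6) (nat_lit 0x280014001200080000000000000000000000000000000) (nat_lit 0x0) (nat_lit 0xa001f000780040002a000100008000000000000000000000000000000) := Q_24 (nat_lit 192) (C_24 L64944 (C_24 L63853 (C_24 L63491 (C_24 L64774 N_24)))) (by decide +kernel)
theorem L65172 : W_24 (nat_lit 7) (nat_lit 0x280014001200080000000000000000000000000000000) (nat_lit 0x0) (nat_lit 0x2001f0007800400022000500078001c00020000000000000000000000) := Q_24 (nat_lit 192) (C_24 L64972 (C_24 L64774 (C_24 L63036 N_24))) (by decide +kernel)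
theorem L65173 : W_24 (nat_lit 3) (nat_lit 0x28001c001200080000000000000000000000000000000) (nat_lit 0x0) (nat_lit 0x22000580000000000000000000000000000000000) := T_24 (nat_lit 140) (nat_lit 161) (nat_lit 0) (nat_lit 8) (nat_lit 9) L65022 (by decide +kernel)
theorem L65174 : W_24 (nat_lit 2) (nat_lit 0x28003c001200080000000000000000000000000000000) (nat_lit 0x0) (nat_lit 0x80004000400000000000000000000000000000000000000000000) := D_24 (nat_lit 194) (nat_lit 178) (nat_lit 211) (nat_lit 5) (nat_lit 8) (nat_lit 7) (nat_lit 6) (nat_lit 7) (nat_lit 12) (by decide +kernel)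
theorem L65175 : W_24 (nat_lit 3) (nat_lit 0x28001c001200080000000000000000000000000000000) (nat_lit 0x0) (nat_lit 0x80004000400020000100000000000000000000000000000000000) := T_24 (nat_lit 161) (nat_lit 140) (nat_lit 0) (nat_lit 8) (nat_lit 9) L65174 (by decide +kernel)
theorem L65176 : W_24 (nat_lit 2) (nat_lit 0x29001f001280080000000000000000000000000000000) (nat_lit 0x0) (nat_lit 0x8000800400000000000000000000000000000000000) := D_24 (nat_lit 155) (nat_lit 142) (nat_lit 171) (nat_lit 2) (nat_lit 2) (nat_lit 9) (nat_lit 1) (nat_lit 5) (nat_lit 9) (by decide +kernel)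
theorem L65177 : W_24 (nat_lit 3) (nat_lit 0x28001f001280080000000000000000000000000000000) (nat_lit 0x0) (nat_lit 0x38000800400000000000000000000000000000000000) := T_24 (nat_lit 172) (nat_lit 173) (nat_lit 1) (nat_lit 6) (nat_lit 9) L65176 (by decide +kernel)
theorem L65178 : W_24 (nat_lit 4) (nat_lit 0x28001e001280080000000000000000000000000000000) (nat_lit 0x0) (nat_lit 0x38001800440000000000000000000000000000000000) := T_24 (nat_lit 156) (nat_lit 138) (nat_lit 0) (nat_lit 6) (nat_lit 9) L65177 (by decide +kernel)
theorem L65179 : W_24 (nat_lit 5) (nat_lit 0x28001e001200080000000000000000000000000000000) (nat_lit 0x0) (nat_lit 0x380018005c0000000000000000000000000000000000) := T_24 (nat_lit 139) (nat_lit 140) (nat_lit 0) (nat_lit 7) (nat_lit 9) L65178 (by decide +kernel)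
theorem L65180 : W_24 (nat_lit 6) (nat_lit 0x28001c001200080000000000000000000000000000000) (nat_lit 0x0) (nat_lit 0x4380038005c0000000000000000000000000000000000) := T_24 (nat_lit 157) (nat_lit 178) (nat_lit 3) (nat_lit 4) (nat_lit 9) L65179 (by decide +kernel)
theorem L65181 : W_24 (nat_lit 2) (nat_lit 0x68003c0012001c0000000000000000000000000000000) (nat_lit 0x0) (nat_lit 0x40000400020000000000000000000000000000000) := D_24 (nat_lit 142) (nat_lit 125) (nat_lit 162) (nat_lit 1) (nat_lit 9) (nat_lit 7) (nat_lit 0) (nat_lit 9) (nat_lit 9) (by decide +kernel)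
theorem L65182 : W_24 (nat_lit 3) (nat_lit 0x68003c0012000c0000000000000000000000000000000) (nat_lit 0x0) (nat_lit 0x40000400120008000000000000000000000000000) := T_24 (nat_lit 128) (nat_lit 111) (nat_lit 6) (nat_lit 8) (nat_lit 10) L65181 (by decide +kernel)
theorem L65183 : W_24 (nat_lit 4) (nat_lit 0x68003c001200080000000000000000000000000000000) (nat_lit 0x0) (nat_lit 0x4000040016000a000000000000000000000000000) := T_24 (nat_lit 126) (nat_lit 109) (nat_lit 4) (nat_lit 8) (nat_lit 10) L65182 (by decide +kernel)
theorem L65184 : W_24 (nat_lit 5) (nat_lit 0x68001c001200080000000000000000000000000000000) (nat_lit 0x0) (nat_lit 0x400000006000040016000a000000000000000000000000000) := T_24 (nat_lit 161) (nat_lit 194) (nat_lit 5) (nat_lit 8) (nat_lit 7) L65183 (by decide +kernel)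
theorem L65185 : W_24 (nat_lit 6) (nat_lit 0x28001c001200080000000000000000000000000000000) (nat_lit 0x0) (nat_lit 0x400040006200040016000a000000000000000000000000000) := T_24 (nat_lit 178) (nat_lit 157) (nat_lit 3) (nat_lit 4) (nat_lit 9) L65184 (by decide +kernel)
theorem L65186 : W_24 (nat_lit 7) (nat_lit 0x280014001200080000000000000000000000000000000) (nat_lit 0x0) (nat_lit 0x8000400043806b8005c016000a000000000000000000000000000) := Q_24 (nat_lit 159) (C_24 L65173 (C_24 L65175 (C_24 L65180 (C_24 L65185 N_24)))) (by decide +kernel)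
theorem L65187 : W_24 (nat_lit 7) (nat_lit 0x280014001200080000000000000000000000000000000) (nat_lit 0x0) (nat_lit 0x2000f0007800400068000500078001c00020000000000000000000000) := Q_24 (nat_lit 192) (C_24 L65075 (C_24 L64992 (C_24 L64944 (C_24 L64972 N_24)))) (by decide +kernel)
theorem L65188 : W_24 (nat_lit 2) (nat_lit 0x580028001c001600080000000000000000000000000000000) (nat_lit 0x0) (nat_lit 0x400022000000000000000000000000000000000000000) := D_24 (nat_lit 178) (nat_lit 157) (nat_lit 161) (nat_lit 3) (nat_lit 4) (nat_lit 9) (nat_lit 5) (nat_lit 8) (nat_lit 7) (by decide +kernel)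
theorem L65189 : W_24 (nat_lit 3) (nat_lit 0x180028001c001600080000000000000000000000000000000) (nat_lit 0x0) (nat_lit 0x80004000400022000000000000000000000000000000000000000) := T_24 (nat_lit 194) (nat_lit 211) (nat_lit 4) (nat_lit 7) (nat_lit 12) L65188 (by decide +kernel)
theorem L65190 : W_24 (nat_lit 4) (nat_lit 0x1800280014001600080000000000000000000000000000000) (nat_lit 0x0) (nat_lit 0xa000400040002a000000000000000000000000000000000000000) := T_24 (nat_lit 159) (nat_lit 209) (nat_lit 6) (nat_lit 5) (nat_lit 12) L65189 (by decide +kernel)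
theorem L65191 : W_24 (nat_lit 5) (nat_lit 0x1800280014001200080000000000000000000000000000000) (nat_lit 0x0) (nat_lit 0xa000400040002a000400020000000000000000000000000000000) := T_24 (nat_lit 142) (nat_lit 125) (nat_lit 6) (nat_lit 5) (nat_lit 11) L65190 (by decide +kernel)
theorem L65192 : W_24 (nat_lit 6) (nat_lit 0x1000280014001200080000000000000000000000000000000) (nat_lit 0x0) (nat_lit 0xb000480040002a000400020000000000000000000000000000000) := T_24 (nat_lit 191) (nat_lit 208) (nat_lit 5) (nat_lit 5) (nat_lit 8) L65191 (by decide +kernel)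
theorem L65193 : W_24 (nat_lit 7) (nat_lit 0x280014001200080000000000000000000000000000000) (nat_lit 0x0) (nat_lit 0x2001f000780040002a000400078001c00020000000000000000000000) := Q_24 (nat_lit 192) (C_24 L64992 (C_24 L64774 (C_24 L65192 (C_24 L64972 N_24)))) (by decide +kernel)
theorem L65194 : W_24 (nat_lit 8) (nat_lit 0x280014001000080000000000000000000000000000000) (nat_lit 0x0) (nat_lit 0xa001f000780043806b8007c017800bc00020000000000000000000000) := Q_24 (nat_lit 141) (C_24 L65064 (C_24 L65170 (C_24 L65171 (C_24 L65172 (C_24 L65186 (C_24 L65187 (C_24 L65193 N_24))))))) (by decide +kernel)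
theorem L65195 : W_24 (nat_lit 2) (nat_lit 0x680014001000080000000000000000000000000000000) (nat_lit 0x0) (nat_lit 0x10000a000000000000000000000000000000000000000) := D_24 (nat_lit 157) (nat_lit 176) (nat_lit 159) (nat_lit 0) (nat_lit 8) (nat_lit 10) (nat_lit 3) (nat_lit 4) (nat_lit 9) (by decide +kernel)
theorem L65196 : W_24 (nat_lit 2) (nat_lit 0x68003c001600180000000000000000000000000000000) (nat_lit 0x0) (nat_lit 0x1000000000000000020001000000000000000000000000000) := D_24 (nat_lit 125) (nat_lit 108) (nat_lit 192) (nat_lit 7) (nat_lit 6) (nat_lit 6) (nat_lit 6) (nat_lit 5) (nat_lit 11) (by decide +kernel)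
theorem L65197 : W_24 (nat_lit 3) (nat_lit 0x68003c001200180000000000000000000000000000000) (nat_lit 0x0) (nat_lit 0x1000000040000400020001000000000000000000000000000) := T_24 (nat_lit 142) (nat_lit 162) (nat_lit 0) (nat_lit 9) (nat_lit 9) L65196 (by decide +kernel)
theorem L65198 : W_24 (nat_lit 4) (nat_lit 0x68003c001000180000000000000000000000000000000) (nat_lit 0x0) (nat_lit 0x1000000040000700020001000000000000000000000000000) := T_24 (nat_lit 141) (nat_lit 140) (nat_lit 0) (nat_lit 8) (nat_lit 9) L65197 (by decide +kernel)
theorem L65199 : W_24 (nat_lit 5) (nat_lit 0x68003c001000080000000000000000000000000000000) (nat_lit 0x0) (nat_lit 0x1000000040000700120009000000000000000000000000000) := T_24 (nat_lit 128) (nat_lit 111) (nat_lit 6) (nat_lit 8) (nat_lit 10) L65198 (by decide +kernel)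
theorem L65200 : W_24 (nat_lit 6) (nat_lit 0x680034001000080000000000000000000000000000000) (nat_lit 0x0) (nat_lit 0x100000004a000700120009000000000000000000000000000) := T_24 (nat_lit 159) (nat_lit 157) (nat_lit 3) (nat_lit 4) (nat_lit 9) L65199 (by decide +kernel)
theorem L65201 : W_24 (nat_lit 7) (nat_lit 0x680014001000080000000000000000000000000000000) (nat_lit 0x0) (nat_lit 0x500000006a000700120009000000000000000000000000000) := T_24 (nat_lit 161) (nat_lit 194) (nat_lit 5) (nat_lit 8) (nat_lit 7) L65200 (by decide +kernel)
theorem L65202 : W_24 (nat_lit 2) (nat_lit 0x680034001000080000000000000000000000000000000) (nat_lit 0x0) (nat_lit 0x100042000000000000000000000000000000000000000) := D_24 (nat_lit 176) (nat_lit 162) (nat_lit 157) (nat_lit 2) (nat_lit 5) (nat_lit 10) (nat_lit 0) (nat_lit 8) (nat_lit 10) (by decide +kernel)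
theorem L65203 : W_24 (nat_lit 3) (nat_lit 0x680014001000080000000000000000000000000000000) (nat_lit 0x0) (nat_lit 0x4000100062000000000000000000000000000000000000000) := T_24 (nat_lit 161) (nat_lit 194) (nat_lit 5) (nat_lit 8) (nat_lit 7) L65202 (by decide +kernel)
theorem L65204 : W_24 (nat_lit 2) (nat_lit 0x3c0009000780034001000180000000000000000000000000000000) (nat_lit 0x0) (nat_lit 0xc00020000000000000000000000000000000000000000000000000000) := D_24 (nat_lit 227) (nat_lit 226) (nat_lit 209) (nat_lit 1) (nat_lit 9) (nat_lit 12) (nat_lit 7) (nat_lit 5) (nat_lit 9) (by decide +kernel)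
theorem L65205 : W_24 (nat_lit 3) (nat_lit 0x380009000780034001000180000000000000000000000000000000) (nat_lit 0x0) (nat_lit 0xc00060002000000000000000000000000000000000000000000000000) := T_24 (nat_lit 210) (nat_lit 193) (nat_lit 0) (nat_lit 9) (nat_lit 12) L65204 (by decide +kernel)
theorem L65206 : W_24 (nat_lit 4) (nat_lit 0x180009000780034001000180000000000000000000000000000000) (nat_lit 0x0) (nat_lit 0x4c00260002000000000000000000000000000000000000000000000000) := T_24 (nat_lit 213) (nat_lit 230) (nat_lit 7) (nat_lit 8) (nat_lit 9) L65205 (by decide +kernel)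
theorem L65207 : W_24 (nat_lit 5) (nat_lit 0x100009000780034001000180000000000000000000000000000000) (nat_lit 0x0) (nat_lit 0x5c002e0002000000000000000000000000000000000000000000000000) := T_24 (nat_lit 211) (nat_lit 228) (nat_lit 5) (nat_lit 8) (nat_lit 9) L65206 (by decide +kernel)
theorem L65208 : W_24 (nat_lit 6) (nat_lit 0x9000780034001000180000000000000000000000000000000) (nat_lit 0x0) (nat_lit 0x7c003e0002000000000000000000000000000000000000000000000000) := T_24 (nat_lit 212) (nat_lit 229) (nat_lit 4) (nat_lit 8) (nat_lit 13) L65207 (by decide +kernel)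
theorem L65209 : W_24 (nat_lit 7) (nat_lit 0x9000780034001000080000000000000000000000000000000) (nat_lit 0x0) (nat_lit 0x7c003e0002000000000000000100008000000000000000000000000000) := T_24 (nat_lit 128) (nat_lit 111) (nat_lit 6) (nat_lit 8) (nat_lit 10) L65208 (by decide +kernel)
theorem L65210 : W_24 (nat_lit 8) (nat_lit 0x1000780034001000080000000000000000000000000000000) (nat_lit 0x0) (nat_lit 0x7c003e001a000000000000000100008000000000000000000000000000) := T_24 (nat_lit 195) (nat_lit 196) (nat_lit 3) (nat_lit 5) (nat_lit 10) L65209 (by decide +kernel)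
theorem L65211 : W_24 (nat_lit 9) (nat_lit 0x780034001000080000000000000000000000000000000) (nat_lit 0x0) (nat_lit 0x7c003e001b800000000000000100008000000000000000000000000000) := T_24 (nat_lit 192) (nat_lit 191) (nat_lit 1) (nat_lit 8) (nat_lit 10) L65210 (by decide +kernel)
theorem L65212 : W_24 (nat_lit 10) (nat_lit 0x680034001000080000000000000000000000000000000) (nat_lit 0x0) (nat_lit 0x7c003e001b800100040000000100008000000000000000000000000000) := T_24 (nat_lit 176) (nat_lit 162) (nat_lit 2) (nat_lit 5) (nat_lit 10) L65211 (by decide +kernel)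
theorem L65213 : W_24 (nat_lit 11) (nat_lit 0x680014001000080000000000000000000000000000000) (nat_lit 0x0) (nat_lit 0x7c003e001f800100060000000100008000000000000000000000000000) := T_24 (nat_lit 161) (nat_lit 194) (nat_lit 5) (nat_lit 8) (nat_lit 7) L65212 (by decide +kernel)
theorem L65214 : W_24 (nat_lit 12) (nat_lit 0x280014001000080000000000000000000000000000000) (nat_lit 0x0) (nat_lit 0x7c003e001f80050006a000700120009000000000000000000000000000) := Q_24 (nat_lit 178) (C_24 L65195 (C_24 L65201 (C_24 L65203 (C_24 L65213 N_24)))) (by decide +kernel)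
theorem L65215 : W_24 (nat_lit 2) (nat_lit 0x3400b0000d000600068001c001000080000000000000000000000000000000) (nat_lit 0x0) (nat_lit 0x1800000000000200000000000000000000000000000000000) := D_24 (nat_lit 192) (nat_lit 191) (nat_lit 141) (nat_lit 2) (nat_lit 4) (nat_lit 11) (nat_lit 7) (nat_lit 5) (nat_lit 8) (by decide +kernel)
theorem L65216 : W_24 (nat_lit 3) (nat_lit 0x3400b0000d000400068001c001000080000000000000000000000000000000) (nat_lit 0x0) (nat_lit 0x400000000000000003800000000000200000000000000000000000000000000000) := T_24 (nat_lit 193) (nat_lit 262) (nat_lit 4) (nat_lit 7) (nat_lit 15) L65215 (by decide +kernel)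
theorem L65217 : W_24 (nat_lit 4) (nat_lit 0x3400b0000c000400068001c001000080000000000000000000000000000000) (nat_lit 0x0) (nat_lit 0x400000000000030003800000000000200000000000000000000000000000000000) := T_24 (nat_lit 208) (nat_lit 209) (nat_lit 3) (nat_lit 4) (nat_lit 12) L65216 (by decide +kernel)
theorem L65218 : W_24 (nat_lit 5) (nat_lit 0x340030000c000400068001c001000080000000000000000000000000000000) (nat_lit 0x0) (nat_lit 0x40000000c000030003800000000000200000000000000000000000000000000000) := T_24 (nat_lit 231) (nat_lit 230) (nat_lit 1) (nat_lit 10) (nat_lit 13) L65217 (by decide +kernel)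
theorem L65219 : W_24 (nat_lit 6) (nat_lit 0x300030000c000400068001c001000080000000000000000000000000000000) (nat_lit 0x0) (nat_lit 0x40000c00c000030003800000000000200000000000000000000000000000000000) := T_24 (nat_lit 242) (nat_lit 243) (nat_lit 2) (nat_lit 4) (nat_lit 14) L65218 (by decide +kernel)
theorem L65220 : W_24 (nat_lit 7) (nat_lit 0x200030000c000400068001c001000080000000000000000000000000000000) (nat_lit 0x0) (nat_lit 0x60001c00c000030003800000000000200000000000000000000000000000000000) := T_24 (nat_lit 244) (nat_lit 261) (nat_lit 5) (nat_lit 7) (nat_lit 11) L65219 (by decide +kernel)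
theorem L65221 : W_24 (nat_lit 8) (nat_lit 0x30000c000400068001c001000080000000000000000000000000000000) (nat_lit 0x0) (nat_lit 0x60003c00c00003000b800000000000200000000000000000000000000000000000) := T_24 (nat_lit 245) (nat_lit 195) (nat_lit 6) (nat_lit 7) (nat_lit 14) L65220 (by decide +kernel)
theorem L65222 : W_24 (nat_lit 9) (nat_lit 0x20000c000400068001c001000080000000000000000000000000000000) (nat_lit 0x0) (nat_lit 0x60007c00d00003000b800000000000200000000000000000000000000000000000) := T_24 (nat_lit 228) (nat_lit 246) (nat_lit 7) (nat_lit 7) (nat_lit 10) L65221 (by decide +kernel)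
theorem L65223 : W_24 (nat_lit 10) (nat_lit 0xc000400068001c001000080000000000000000000000000000000) (nat_lit 0x0) (nat_lit 0x60007c00f00013000b800000000000200000000000000000000000000000000000) := T_24 (nat_lit 229) (nat_lit 212) (nat_lit 7) (nat_lit 7) (nat_lit 9) L65222 (by decide +kernel)
theorem L65224 : W_24 (nat_lit 11) (nat_lit 0x8000400068001c001000080000000000000000000000000000000) (nat_lit 0x0) (nat_lit 0x60007c00f80017000b800000000000200000000000000000000000000000000000) := T_24 (nat_lit 210) (nat_lit 227) (nat_lit 5) (nat_lit 7) (nat_lit 9) L65223 (by decide +kernel)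
theorem L65225 : W_24 (nat_lit 12) (nat_lit 0x400068001c001000080000000000000000000000000000000) (nat_lit 0x0) (nat_lit 0x60007c00f8001f000b800000000000600000000000000000000000000000000000) := T_24 (nat_lit 211) (nat_lit 142) (nat_lit 4) (nat_lit 7) (nat_lit 12) L65224 (by decide +kernel)
theorem L65226 : W_24 (nat_lit 13) (nat_lit 0x4000680014001000080000000000000000000000000000000) (nat_lit 0x0) (nat_lit 0x60007c00f8001f000b80000000a000600000000000000000000000000000000000) := T_24 (nat_lit 159) (nat_lit 157) (nat_lit 3) (nat_lit 4) (nat_lit 9) L65225 (by decide +kernel)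
theorem L65227 : W_24 (nat_lit 14) (nat_lit 0x680014001000080000000000000000000000000000000) (nat_lit 0x0) (nat_lit 0x60007c00f8001f000f80000002a000600000000000000000000000000000000000) := T_24 (nat_lit 194) (nat_lit 161) (nat_lit 5) (nat_lit 8) (nat_lit 7) L65226 (by decide +kernel)
theorem L65228 : W_24 (nat_lit 15) (nat_lit 0x280014001000080000000000000000000000000000000) (nat_lit 0x0) (nat_lit 0x60007c00fc003f001f80050006a000600100008000000000000000000000000000) := Q_24 (nat_lit 178) (C_24 L65195 (C_24 L65213 (C_24 L65227 N_24))) (by decide +kernel)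
theorem L65229 : W_24 (nat_lit 7) (nat_lit 0x1000280014001000080000000000000000000000000000000) (nat_lit 0x0) (nat_lit 0x200070002c00100002000700078001c00020000000000000000000000) := Q_24 (nat_lit 141) (C_24 L65060 (C_24 L64972 (C_24 L63036 N_24))) (by decide +kernel)
theorem L65230 : W_24 (nat_lit 2) (nat_lit 0x1000680034001000080000000000000000000000000000000) (nat_lit 0x0) (nat_lit 0x800100040000000000000000000000000000000000000000) := D_24 (nat_lit 176) (nat_lit 191) (nat_lit 162) (nat_lit 1) (nat_lit 8) (nat_lit 10) (nat_lit 2) (nat_lit 5) (nat_lit 10) (by decide +kernel)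
theorem L65231 : W_24 (nat_lit 3) (nat_lit 0x1000680014001000080000000000000000000000000000000) (nat_lit 0x0) (nat_lit 0x4800100060000000000000000000000000000000000000000) := T_24 (nat_lit 161) (nat_lit 194) (nat_lit 5) (nat_lit 8) (nat_lit 7) L65230 (by decide +kernel)
theorem L65232 : W_24 (nat_lit 11) (nat_lit 0x5800680014001000080000000000000000000000000000000) (nat_lit 0x0) (nat_lit 0x8001f003e001f0008000000002000300008000000000000000000000000000000) := T_24 (nat_lit 141) (nat_lit 208) (nat_lit 5) (nat_lit 5) (nat_lit 8) L64501 (by decide +kernel)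
theorem L65233 : W_24 (nat_lit 12) (nat_lit 0x5000680014001000080000000000000000000000000000000) (nat_lit 0x0) (nat_lit 0x8001f003e001f000a800000002000300008000000000000000000000000000000) := T_24 (nat_lit 191) (nat_lit 193) (nat_lit 2) (nat_lit 4) (nat_lit 11) L65232 (by decide +kernel)
theorem L65234 : W_24 (nat_lit 13) (nat_lit 0x1000680014001000080000000000000000000000000000000) (nat_lit 0x0) (nat_lit 0x8001f003e001f000e800000022000300008000000000000000000000000000000) := T_24 (nat_lit 194) (nat_lit 161) (nat_lit 5) (nat_lit 8) (nat_lit 7) L65233 (by decide +kernel)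
theorem L65235 : W_24 (nat_lit 2) (nat_lit 0x1000680014001000080000000000000000000000000000000) (nat_lit 0x0) (nat_lit 0x800100002000000000000000000000000000000000000000) := D_24 (nat_lit 176) (nat_lit 191) (nat_lit 157) (nat_lit 1) (nat_lit 8) (nat_lit 10) (nat_lit 0) (nat_lit 8) (nat_lit 10) (by decide +kernel)
theorem L65236 : W_24 (nat_lit 2) (nat_lit 0x1000680034001000080000000000000000000000000000000) (nat_lit 0x0) (nat_lit 0x100042000000000000000000000000000000000000000) := D_24 (nat_lit 176) (nat_lit 157) (nat_lit 162) (nat_lit 0) (nat_lit 8) (nat_lit 10) (nat_lit 2) (nat_lit 5) (nat_lit 10) (by decide +kernel)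
theorem L65237 : W_24 (nat_lit 3) (nat_lit 0x1000680014001000080000000000000000000000000000000) (nat_lit 0x0) (nat_lit 0x4000100062000000000000000000000000000000000000000) := T_24 (nat_lit 161) (nat_lit 194) (nat_lit 5) (nat_lit 8) (nat_lit 7) L65236 (by decide +kernel)
theorem L65238 : W_24 (nat_lit 14) (nat_lit 0x1000280014001000080000000000000000000000000000000) (nat_lit 0x0) (nat_lit 0x8001f003e001f000e800500062000300008000000000000000000000000000000) := Q_24 (nat_lit 178) (C_24 L65231 (C_24 L65234 (C_24 L65235 (C_24 L65237 N_24)))) (by decide +kernel)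
theorem L65239 : W_24 (nat_lit 2) (nat_lit 0x300010006800360012001e0000000000000000000000000000000) (nat_lit 0x0) (nat_lit 0x10001800000000000000000000000000) := D_24 (nat_lit 108) (nat_lit 107) (nat_lit 124) (nat_lit 0) (nat_lit 9) (nat_lit 7) (nat_lit 6) (nat_lit 5) (nat_lit 10) (by decide +kernel)
theorem L65240 : W_24 (nat_lit 3) (nat_lit 0x300010006800360012001c0000000000000000000000000000000) (nat_lit 0x0) (nat_lit 0x400030001800000000000000000000000000) := T_24 (nat_lit 125) (nat_lit 142) (nat_lit 1) (nat_lit 9) (nat_lit 7) L65239 (by decide +kernel)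
theorem L65241 : W_24 (nat_lit 4) (nat_lit 0x300010006800360012000c0000000000000000000000000000000) (nat_lit 0x0) (nat_lit 0x400130009800000000000000000000000000) := T_24 (nat_lit 128) (nat_lit 111) (nat_lit 6) (nat_lit 8) (nat_lit 10) L65240 (by decide +kernel)
theorem L65242 : W_24 (nat_lit 5) (nat_lit 0x30001000680036001200080000000000000000000000000000000) (nat_lit 0x0) (nat_lit 0x40017000b800000000000000000000000000) := T_24 (nat_lit 126) (nat_lit 109) (nat_lit 4) (nat_lit 8) (nat_lit 10) L65241 (by decide +kernel)
theorem L65243 : W_24 (nat_lit 6) (nat_lit 0x30001000680016001200080000000000000000000000000000000) (nat_lit 0x0) (nat_lit 0x400000002000040017000b800000000000000000000000000) := T_24 (nat_lit 161) (nat_lit 194) (nat_lit 5) (nat_lit 8) (nat_lit 7) L65242 (by decide +kernel)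
theorem L65244 : W_24 (nat_lit 7) (nat_lit 0x30001000680016001000080000000000000000000000000000000) (nat_lit 0x0) (nat_lit 0x480000002000060017000b800000000000000000000000000) := T_24 (nat_lit 141) (nat_lit 191) (nat_lit 5) (nat_lit 5) (nat_lit 8) L65243 (by decide +kernel)
theorem L65245 : W_24 (nat_lit 8) (nat_lit 0x20001000680016001000080000000000000000000000000000000) (nat_lit 0x0) (nat_lit 0x20001000480000002000060017000b800000000000000000000000000) := T_24 (nat_lit 208) (nat_lit 225) (nat_lit 5) (nat_lit 5) (nat_lit 9) L65244 (by decide +kernel)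
theorem L65246 : W_24 (nat_lit 9) (nat_lit 0x20001000280016001000080000000000000000000000000000000) (nat_lit 0x0) (nat_lit 0x20001000480050002000060017000b800000000000000000000000000) := T_24 (nat_lit 178) (nat_lit 176) (nat_lit 0) (nat_lit 8) (nat_lit 10) L65245 (by decide +kernel)
theorem L65247 : W_24 (nat_lit 10) (nat_lit 0x20001000280014001000080000000000000000000000000000000) (nat_lit 0x0) (nat_lit 0x20001000480050002200070017000b800000000000000000000000000) := T_24 (nat_lit 157) (nat_lit 140) (nat_lit 4) (nat_lit 5) (nat_lit 12) L65246 (by decide +kernel)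
theorem L65248 : W_24 (nat_lit 3) (nat_lit 0x60001000280014001300080000000000000000000000000000000) (nat_lit 0x0) (nat_lit 0x400070001000000000000000000000000000) := T_24 (nat_lit 125) (nat_lit 142) (nat_lit 6) (nat_lit 5) (nat_lit 11) L64923 (by decide +kernel)
theorem L65249 : W_24 (nat_lit 4) (nat_lit 0x60001000280014001100080000000000000000000000000000000) (nat_lit 0x0) (nat_lit 0x600078001000000000000000000000000000) := T_24 (nat_lit 141) (nat_lit 123) (nat_lit 4) (nat_lit 5) (nat_lit 11) L65248 (by decide +kernel)
theorem L65250 : W_24 (nat_lit 5) (nat_lit 0x60001000280014001000080000000000000000000000000000000) (nat_lit 0x0) (nat_lit 0x2000700078001000000000000000000000000000) := T_24 (nat_lit 140) (nat_lit 157) (nat_lit 4) (nat_lit 5) (nat_lit 12) L65249 (by decide +kernel)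
theorem L65251 : W_24 (nat_lit 6) (nat_lit 0x20001000280014001000080000000000000000000000000000000) (nat_lit 0x0) (nat_lit 0x800040000000000002000700078001000000000000000000000000000) := T_24 (nat_lit 210) (nat_lit 227) (nat_lit 7) (nat_lit 5) (nat_lit 9) L65250 (by decide +kernel)
theorem L65252 : W_24 (nat_lit 11) (nat_lit 0x1000280014001000080000000000000000000000000000000) (nat_lit 0x0) (nat_lit 0x14000e0007000480050002200070017800bc00020000000000000000000000) := Q_24 (nat_lit 209) (C_24 L64857 (C_24 L64795 (C_24 L65247 (C_24 L65251 N_24)))) (by decide +kernel)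
theorem L65253 : W_24 (nat_lit 2) (nat_lit 0x30005000680016001000080000000000000000000000000000000) (nat_lit 0x0) (nat_lit 0xa800000000000000000000000000000000000000000000000) := D_24 (nat_lit 193) (nat_lit 191) (nat_lit 195) (nat_lit 2) (nat_lit 4) (nat_lit 11) (nat_lit 1) (nat_lit 8) (nat_lit 11) (by decide +kernel)
theorem L65254 : W_24 (nat_lit 3) (nat_lit 0x30001000680016001000080000000000000000000000000000000) (nat_lit 0x0) (nat_lit 0xe800000020000000000000000000000000000000000000000) := T_24 (nat_lit 194) (nat_lit 161) (nat_lit 5) (nat_lit 8) (nat_lit 7) L65253 (by decide +kernel)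
theorem L65255 : W_24 (nat_lit 4) (nat_lit 0x20001000680016001000080000000000000000000000000000000) (nat_lit 0x0) (nat_lit 0x20001000e800000020000000000000000000000000000000000000000) := T_24 (nat_lit 208) (nat_lit 225) (nat_lit 5) (nat_lit 5) (nat_lit 9) L65254 (by decide +kernel)
theorem L65256 : W_24 (nat_lit 5) (nat_lit 0x20001000280016001000080000000000000000000000000000000) (nat_lit 0x0) (nat_lit 0x20001000e800500020000000000000000000000000000000000000000) := T_24 (nat_lit 178) (nat_lit 176) (nat_lit 0) (nat_lit 8) (nat_lit 10) L65255 (by decide +kernel)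
theorem L65257 : W_24 (nat_lit 6) (nat_lit 0x20001000280014001000080000000000000000000000000000000) (nat_lit 0x0) (nat_lit 0x20001000e800500022000100000000000000000000000000000000000) := T_24 (nat_lit 157) (nat_lit 140) (nat_lit 4) (nat_lit 5) (nat_lit 12) L65256 (by decide +kernel)
theorem L65258 : W_24 (nat_lit 2) (nat_lit 0xa00020001000280014001000080000000000000000000000000000000) (nat_lit 0x0) (nat_lit 0x14000400000000000000000000000000000000000000000000000000000000) := D_24 (nat_lit 226) (nat_lit 242) (nat_lit 244) (nat_lit 5) (nat_lit 5) (nat_lit 10) (nat_lit 7) (nat_lit 5) (nat_lit 10) (by decide +kernel)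
theorem L65259 : W_24 (nat_lit 3) (nat_lit 0x200020001000280014001000080000000000000000000000000000000) (nat_lit 0x0) (nat_lit 0x14000c00040000000000000000000000000000000000000000000000000000) := T_24 (nat_lit 227) (nat_lit 210) (nat_lit 7) (nat_lit 5) (nat_lit 9) L65258 (by decide +kernel)
theorem L65260 : W_24 (nat_lit 4) (nat_lit 0x20001000280014001000080000000000000000000000000000000) (nat_lit 0x0) (nat_lit 0x14000e00050000000000000000000000000000000000000000000000000000) := T_24 (nat_lit 225) (nat_lit 208) (nat_lit 5) (nat_lit 5) (nat_lit 9) L65259 (by decide +kernel)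
theorem L65261 : W_24 (nat_lit 2) (nat_lit 0x6000f000680016001000080000000000000000000000000000000) (nat_lit 0x0) (nat_lit 0x2000300000000000000000000000000000000000000000000000000000) := D_24 (nat_lit 212) (nat_lit 213) (nat_lit 229) (nat_lit 3) (nat_lit 5) (nat_lit 11) (nat_lit 4) (nat_lit 8) (nat_lit 13) (by decide +kernel)
theorem L65262 : W_24 (nat_lit 3) (nat_lit 0x60007000680016001000080000000000000000000000000000000) (nat_lit 0x0) (nat_lit 0x2000300018000000000000000000000000000000000000000000000000) := T_24 (nat_lit 195) (nat_lit 196) (nat_lit 1) (nat_lit 9) (nat_lit 11) L65261 (by decide +kernel)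
theorem L65263 : W_24 (nat_lit 4) (nat_lit 0x60005000680016001000080000000000000000000000000000000) (nat_lit 0x0) (nat_lit 0x200030001a800000000000000000000000000000000000000000000000) := T_24 (nat_lit 193) (nat_lit 191) (nat_lit 2) (nat_lit 4) (nat_lit 11) L65262 (by decide +kernel)
theorem L65264 : W_24 (nat_lit 5) (nat_lit 0x60001000680016001000080000000000000000000000000000000) (nat_lit 0x0) (nat_lit 0x200030001e800000020000000000000000000000000000000000000000) := T_24 (nat_lit 194) (nat_lit 161) (nat_lit 5) (nat_lit 8) (nat_lit 7) L65263 (by decide +kernel)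
theorem L65265 : W_24 (nat_lit 6) (nat_lit 0x20001000680016001000080000000000000000000000000000000) (nat_lit 0x0) (nat_lit 0x280034001e800000020000000000000000000000000000000000000000) := T_24 (nat_lit 210) (nat_lit 227) (nat_lit 7) (nat_lit 5) (nat_lit 9) L65264 (by decide +kernel)
theorem L65266 : W_24 (nat_lit 7) (nat_lit 0x20001000280016001000080000000000000000000000000000000) (nat_lit 0x0) (nat_lit 0x280034001e800500020000000000000000000000000000000000000000) := T_24 (nat_lit 178) (nat_lit 176) (nat_lit 0) (nat_lit 8) (nat_lit 10) L65265 (by decide +kernel)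
theorem L65267 : W_24 (nat_lit 8) (nat_lit 0x20001000280014001000080000000000000000000000000000000) (nat_lit 0x0) (nat_lit 0x280034001e800500022000100000000000000000000000000000000000) := T_24 (nat_lit 157) (nat_lit 140) (nat_lit 4) (nat_lit 5) (nat_lit 12) L65266 (by decide +kernel)
theorem L65268 : W_24 (nat_lit 9) (nat_lit 0x1000280014001000080000000000000000000000000000000) (nat_lit 0x0) (nat_lit 0x14002e0037001e800500022000100000000000000000000000000000000000) := Q_24 (nat_lit 209) (C_24 L64795 (C_24 L65257 (C_24 L65260 (C_24 L65267 N_24)))) (by decide +kernel)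
theorem L65269 : W_24 (nat_lit 2) (nat_lit 0x58006800140013000a0000000000000000000000000000000) (nat_lit 0x0) (nat_lit 0x50001000000000000000000000000000) := D_24 (nat_lit 124) (nat_lit 108) (nat_lit 126) (nat_lit 6) (nat_lit 5) (nat_lit 10) (nat_lit 1) (nat_lit 8) (nat_lit 7) (by decide +kernel)
theorem L65270 : W_24 (nat_lit 3) (nat_lit 0x5800680014001300080000000000000000000000000000000) (nat_lit 0x0) (nat_lit 0x400070001000000000000000000000000000) := T_24 (nat_lit 125) (nat_lit 142) (nat_lit 6) (nat_lit 5) (nat_lit 11) L65269 (by decide +kernel)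
theorem L65271 : W_24 (nat_lit 4) (nat_lit 0x5800680014001200080000000000000000000000000000000) (nat_lit 0x0) (nat_lit 0x500078001000000000000000000000000000) := T_24 (nat_lit 140) (nat_lit 123) (nat_lit 4) (nat_lit 5) (nat_lit 11) L65270 (by decide +kernel)
theorem L65272 : W_24 (nat_lit 5) (nat_lit 0x5800680014001000080000000000000000000000000000000) (nat_lit 0x0) (nat_lit 0x10000000000000000700078001000000000000000000000000000) := T_24 (nat_lit 141) (nat_lit 208) (nat_lit 5) (nat_lit 5) (nat_lit 8) L65271 (by decide +kernel)
theorem L65273 : W_24 (nat_lit 6) (nat_lit 0x5000680014001000080000000000000000000000000000000) (nat_lit 0x0) (nat_lit 0x10002800000000000700078001000000000000000000000000000) := T_24 (nat_lit 191) (nat_lit 193) (nat_lit 2) (nat_lit 4) (nat_lit 11) L65272 (by decide +kernel)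
theorem L65274 : W_24 (nat_lit 7) (nat_lit 0x1000680014001000080000000000000000000000000000000) (nat_lit 0x0) (nat_lit 0x10006800000020000700078001000000000000000000000000000) := T_24 (nat_lit 194) (nat_lit 161) (nat_lit 5) (nat_lit 8) (nat_lit 7) L65273 (by decide +kernel)
theorem L65275 : W_24 (nat_lit 8) (nat_lit 0x1000280014001000080000000000000000000000000000000) (nat_lit 0x0) (nat_lit 0x10006800500062000700078001000000000000000000000000000) := Q_24 (nat_lit 178) (C_24 L65274 (C_24 L65237 (C_24 L65235 N_24))) (by decide +kernel)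
theorem L65276 : W_24 (nat_lit 2) (nat_lit 0x10002800140013000a0000000000000000000000000000000) (nat_lit 0x0) (nat_lit 0x50001000000000000000000000000000) := D_24 (nat_lit 124) (nat_lit 108) (nat_lit 126) (nat_lit 6) (nat_lit 5) (nat_lit 10) (nat_lit 1) (nat_lit 8) (nat_lit 7) (by decide +kernel)
theorem L65277 : W_24 (nat_lit 3) (nat_lit 0x1000280014001300080000000000000000000000000000000) (nat_lit 0x0) (nat_lit 0x400070001000000000000000000000000000) := T_24 (nat_lit 125) (nat_lit 142) (nat_lit 6) (nat_lit 5) (nat_lit 11) L65276 (by decide +kernel)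
theorem L65278 : W_24 (nat_lit 4) (nat_lit 0x1000280014001200080000000000000000000000000000000) (nat_lit 0x0) (nat_lit 0x500078001000000000000000000000000000) := T_24 (nat_lit 140) (nat_lit 123) (nat_lit 4) (nat_lit 5) (nat_lit 11) L65277 (by decide +kernel)
theorem L65279 : W_24 (nat_lit 7) (nat_lit 0x1000280014001000080000000000000000000000000000000) (nat_lit 0x0) (nat_lit 0x1d0006c00500020000700078001c00020000000000000000000000) := Q_24 (nat_lit 141) (C_24 L64972 (C_24 L65060 (C_24 L65278 (C_24 L64774 N_24)))) (by decide +kernel)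
theorem L65280 : W_24 (nat_lit 2) (nat_lit 0x58006800140012000b0000400000000000000000000000000) (nat_lit 0x0) (nat_lit 0x40000800020000000000000000000000) := D_24 (nat_lit 107) (nat_lit 89) (nat_lit 126) (nat_lit 4) (nat_lit 5) (nat_lit 9) (nat_lit 0) (nat_lit 8) (nat_lit 7) (by decide +kernel)
theorem L65281 : W_24 (nat_lit 3) (nat_lit 0x58006800140012000b0000000000000000000000000000000) (nat_lit 0x0) (nat_lit 0x48000c00020000000000000000000000) := T_24 (nat_lit 106) (nat_lit 123) (nat_lit 4) (nat_lit 5) (nat_lit 10) L65280 (by decide +kernel)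
theorem L65282 : W_24 (nat_lit 4) (nat_lit 0x58006800140012000a0000000000000000000000000000000) (nat_lit 0x0) (nat_lit 0x58001c00020000000000000000000000) := T_24 (nat_lit 124) (nat_lit 108) (nat_lit 6) (nat_lit 5) (nat_lit 10) L65281 (by decide +kernel)
theorem L65283 : W_24 (nat_lit 5) (nat_lit 0x5800680014001200080000000000000000000000000000000) (nat_lit 0x0) (nat_lit 0x400078001c00020000000000000000000000) := T_24 (nat_lit 125) (nat_lit 142) (nat_lit 6) (nat_lit 5) (nat_lit 11) L65282 (by decide +kernel)
theorem L65284 : W_24 (nat_lit 6) (nat_lit 0x5800680014001000080000000000000000000000000000000) (nat_lit 0x0) (nat_lit 0x10000000000000000600078001c00020000000000000000000000) := T_24 (nat_lit 141) (nat_lit 208) (nat_lit 5) (nat_lit 5) (nat_lit 8) L65283 (by decide +kernel)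
theorem L65285 : W_24 (nat_lit 7) (nat_lit 0x5000680014001000080000000000000000000000000000000) (nat_lit 0x0) (nat_lit 0x10002800000000000600078001c00020000000000000000000000) := T_24 (nat_lit 191) (nat_lit 193) (nat_lit 2) (nat_lit 4) (nat_lit 11) L65284 (by decide +kernel)
theorem L65286 : W_24 (nat_lit 8) (nat_lit 0x1000680014001000080000000000000000000000000000000) (nat_lit 0x0) (nat_lit 0x10006800000020000600078001c00020000000000000000000000) := T_24 (nat_lit 194) (nat_lit 161) (nat_lit 5) (nat_lit 8) (nat_lit 7) L65285 (by decide +kernel)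
theorem L65287 : W_24 (nat_lit 9) (nat_lit 0x1000280014001000080000000000000000000000000000000) (nat_lit 0x0) (nat_lit 0x10006800500062000600078001c00020000000000000000000000) := Q_24 (nat_lit 178) (C_24 L65286 (C_24 L65237 (C_24 L65235 N_24))) (by decide +kernel)
theorem L65288 : W_24 (nat_lit 7) (nat_lit 0x1000280014001000080000000000000000000000000000000) (nat_lit 0x0) (nat_lit 0x800060002000100002000700078001c00020000000000000000000000) := Q_24 (nat_lit 141) (C_24 L65278 (C_24 L64379 (C_24 L63491 (C_24 L64972 (C_24 L64363 N_24))))) (by decide +kernel)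
theorem L65289 : W_24 (nat_lit 15) (nat_lit 0x280014001000080000000000000000000000000000000) (nat_lit 0x0) (nat_lit 0x8001f003e003f001fc0050006200070017800bc00020000000000000000000000) := Q_24 (nat_lit 192) (C_24 L65229 (C_24 L64775 (C_24 L65238 (C_24 L65252 (C_24 L65268 (C_24 L65275 (C_24 L65279 (C_24 L65287 (C_24 L65288 N_24))))))))) (by decide +kernel)
theorem L65290 : W_24 (nat_lit 5) (nat_lit 0x1000680016001000080000000000000000000000000000000) (nat_lit 0x0) (nat_lit 0x14000e00070000000000000000100000000000000000000000000000000000) := T_24 (nat_lit 209) (nat_lit 140) (nat_lit 4) (nat_lit 5) (nat_lit 12) L64347 (by decide +kernel)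
theorem L65291 : W_24 (nat_lit 6) (nat_lit 0x1000680014001000080000000000000000000000000000000) (nat_lit 0x0) (nat_lit 0x14000e0007000000000000a000100000000000000000000000000000000000) := T_24 (nat_lit 157) (nat_lit 159) (nat_lit 3) (nat_lit 4) (nat_lit 9) L65290 (by decide +kernel)
theorem L65292 : W_24 (nat_lit 2) (nat_lit 0x10006800360011001c0000000000000000000000000000000) (nat_lit 0x0) (nat_lit 0x200008000400000000000000000000000000) := D_24 (nat_lit 123) (nat_lit 141) (nat_lit 106) (nat_lit 4) (nat_lit 5) (nat_lit 11) (nat_lit 7) (nat_lit 4) (nat_lit 6) (by decide +kernel)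
theorem L65293 : W_24 (nat_lit 3) (nat_lit 0x10006800360010001c0000000000000000000000000000000) (nat_lit 0x0) (nat_lit 0x20000000000000000300008000400000000000000000000000000) := T_24 (nat_lit 140) (nat_lit 209) (nat_lit 4) (nat_lit 5) (nat_lit 12) L65292 (by decide +kernel)
theorem L65294 : W_24 (nat_lit 4) (nat_lit 0x10006800360010000c0000000000000000000000000000000) (nat_lit 0x0) (nat_lit 0x20000000000000000300108008400000000000000000000000000) := T_24 (nat_lit 128) (nat_lit 111) (nat_lit 6) (nat_lit 8) (nat_lit 10) L65293 (by decide +kernel)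
theorem L65295 : W_24 (nat_lit 5) (nat_lit 0x1000680036001000080000000000000000000000000000000) (nat_lit 0x0) (nat_lit 0x2000000000000000030014800a400000000000000000000000000) := T_24 (nat_lit 126) (nat_lit 109) (nat_lit 4) (nat_lit 8) (nat_lit 10) L65294 (by decide +kernel)
theorem L65296 : W_24 (nat_lit 6) (nat_lit 0x1000680016001000080000000000000000000000000000000) (nat_lit 0x0) (nat_lit 0x2000400000002000030014800a400000000000000000000000000) := T_24 (nat_lit 161) (nat_lit 194) (nat_lit 5) (nat_lit 8) (nat_lit 7) L65295 (by decide +kernel)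
theorem L65297 : W_24 (nat_lit 7) (nat_lit 0x1000680014001000080000000000000000000000000000000) (nat_lit 0x0) (nat_lit 0x2000400000002a00030014800a400000000000000000000000000) := T_24 (nat_lit 157) (nat_lit 159) (nat_lit 3) (nat_lit 4) (nat_lit 9) L65296 (by decide +kernel)
theorem L65298 : W_24 (nat_lit 2) (nat_lit 0x10005800680014001000080000000000000000000000000000000) (nat_lit 0x0) (nat_lit 0x4000200020000000000000000000000000000000000000000000000000000) := D_24 (nat_lit 225) (nat_lit 209) (nat_lit 242) (nat_lit 5) (nat_lit 5) (nat_lit 9) (nat_lit 6) (nat_lit 4) (nat_lit 14) (by decide +kernel)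
theorem L65299 : W_24 (nat_lit 3) (nat_lit 0x5800680014001000080000000000000000000000000000000) (nat_lit 0x0) (nat_lit 0x4000200030000000000000000200000000000000000000000000000000000) := T_24 (nat_lit 208) (nat_lit 141) (nat_lit 5) (nat_lit 5) (nat_lit 8) L65298 (by decide +kernel)
theorem L65300 : W_24 (nat_lit 4) (nat_lit 0x5000680014001000080000000000000000000000000000000) (nat_lit 0x0) (nat_lit 0x4000200030002800000000000200000000000000000000000000000000000) := T_24 (nat_lit 191) (nat_lit 193) (nat_lit 2) (nat_lit 4) (nat_lit 11) L65299 (by decide +kernel)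
theorem L65301 : W_24 (nat_lit 5) (nat_lit 0x1000680014001000080000000000000000000000000000000) (nat_lit 0x0) (nat_lit 0x4000200030006800000020000200000000000000000000000000000000000) := T_24 (nat_lit 194) (nat_lit 161) (nat_lit 5) (nat_lit 8) (nat_lit 7) L65300 (by decide +kernel)
theorem L65302 : W_24 (nat_lit 2) (nat_lit 0x40007000680016001000080000000000000000000000000000000) (nat_lit 0x0) (nat_lit 0x10000800080000000000000000000000000000000000000000000000000000) := D_24 (nat_lit 227) (nat_lit 244) (nat_lit 211) (nat_lit 6) (nat_lit 6) (nat_lit 14) (nat_lit 5) (nat_lit 7) (nat_lit 9) (by decide +kernel)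
theorem L65303 : W_24 (nat_lit 3) (nat_lit 0x7000680016001000080000000000000000000000000000000) (nat_lit 0x0) (nat_lit 0x100008000c0000000000000000200000000000000000000000000000000000) := T_24 (nat_lit 210) (nat_lit 141) (nat_lit 7) (nat_lit 5) (nat_lit 8) L65302 (by decide +kernel)
theorem L65304 : W_24 (nat_lit 4) (nat_lit 0x7000680014001000080000000000000000000000000000000) (nat_lit 0x0) (nat_lit 0x100008000c000000000000a000200000000000000000000000000000000000) := T_24 (nat_lit 157) (nat_lit 159) (nat_lit 3) (nat_lit 4) (nat_lit 9) L65303 (by decide +kernel)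
theorem L65305 : W_24 (nat_lit 5) (nat_lit 0x5000680014001000080000000000000000000000000000000) (nat_lit 0x0) (nat_lit 0x100008000c000280000000a000200000000000000000000000000000000000) := T_24 (nat_lit 193) (nat_lit 191) (nat_lit 2) (nat_lit 4) (nat_lit 11) L65304 (by decide +kernel)
theorem L65306 : W_24 (nat_lit 6) (nat_lit 0x1000680014001000080000000000000000000000000000000) (nat_lit 0x0) (nat_lit 0x100008000c000680000002a000200000000000000000000000000000000000) := T_24 (nat_lit 194) (nat_lit 161) (nat_lit 5) (nat_lit 8) (nat_lit 7) L65305 (by decide +kernel)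
theorem L65307 : W_24 (nat_lit 14) (nat_lit 0x680014001000080000000000000000000000000000000) (nat_lit 0x0) (nat_lit 0x8001f003e001f000f80000002a00030014800a400000000000000000000000000) := Q_24 (nat_lit 192) (C_24 L65234 (C_24 L65291 (C_24 L65297 (C_24 L65301 (C_24 L65306 N_24))))) (by decide +kernel)
theorem L65308 : W_24 (nat_lit 15) (nat_lit 0x280014001000080000000000000000000000000000000) (nat_lit 0x0) (nat_lit 0x8001f007e003f001f80050006a00030014800a400000000000000000000000000) := Q_24 (nat_lit 178) (C_24 L65195 (C_24 L65213 (C_24 L65307 N_24))) (by decide +kernel)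
theorem L65309 : W_24 (nat_lit 6) (nat_lit 0x28001c001000080000000000000000000000000000000) (nat_lit 0x0) (nat_lit 0x5380038000e0000000000000000000000000000000000) := T_24 (nat_lit 157) (nat_lit 178) (nat_lit 3) (nat_lit 4) (nat_lit 9) L64051 (by decide +kernel)
theorem L65310 : W_24 (nat_lit 2) (nat_lit 0x2000400028003c001400080000000000000000000000000000000) (nat_lit 0x0) (nat_lit 0x100040000200000000000000000000000000000000000) := D_24 (nat_lit 162) (nat_lit 176) (nat_lit 141) (nat_lit 1) (nat_lit 9) (nat_lit 9) (nat_lit 0) (nat_lit 9) (nat_lit 9) (by decide +kernel)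
theorem L65311 : W_24 (nat_lit 3) (nat_lit 0x2000400028001c001400080000000000000000000000000000000) (nat_lit 0x0) (nat_lit 0x500060000200000000000000000000000000000000000) := T_24 (nat_lit 161) (nat_lit 178) (nat_lit 5) (nat_lit 8) (nat_lit 7) L65310 (by decide +kernel)
theorem L65312 : W_24 (nat_lit 4) (nat_lit 0x400028001c001400080000000000000000000000000000000) (nat_lit 0x0) (nat_lit 0x20001000500060000200000000000000000000000000000000000) := T_24 (nat_lit 209) (nat_lit 192) (nat_lit 6) (nat_lit 5) (nat_lit 12) L65311 (by decide +kernel)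
theorem L65313 : W_24 (nat_lit 5) (nat_lit 0x28001c001400080000000000000000000000000000000) (nat_lit 0x0) (nat_lit 0xa0005000500060000200000000000000000000000000000000000) := T_24 (nat_lit 194) (nat_lit 211) (nat_lit 4) (nat_lit 7) (nat_lit 12) L65312 (by decide +kernel)
theorem L65314 : W_24 (nat_lit 2) (nat_lit 0x8000000028001c0014000a0000000000000000000000000000000) (nat_lit 0x0) (nat_lit 0x20001000100000000000000000000000000000000000000000000) := D_24 (nat_lit 192) (nat_lit 209) (nat_lit 176) (nat_lit 6) (nat_lit 5) (nat_lit 12) (nat_lit 5) (nat_lit 6) (nat_lit 7) (by decide +kernel)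
theorem L65315 : W_24 (nat_lit 3) (nat_lit 0x8000000028001c001400080000000000000000000000000000000) (nat_lit 0x0) (nat_lit 0x20001000100000000000020001000000000000000000000000000) := T_24 (nat_lit 125) (nat_lit 108) (nat_lit 7) (nat_lit 6) (nat_lit 6) L65314 (by decide +kernel)
theorem L65316 : W_24 (nat_lit 4) (nat_lit 0x28001c001400080000000000000000000000000000000) (nat_lit 0x0) (nat_lit 0xa0005000100000000000020001000000000000000000000000000) := T_24 (nat_lit 211) (nat_lit 194) (nat_lit 4) (nat_lit 7) (nat_lit 12) L65315 (by decide +kernel)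
theorem L65317 : W_24 (nat_lit 2) (nat_lit 0x400028001c001400080000000000000000000000000000000) (nat_lit 0x0) (nat_lit 0x100000000000020001000000000000000000000000000) := D_24 (nat_lit 125) (nat_lit 108) (nat_lit 176) (nat_lit 7) (nat_lit 6) (nat_lit 6) (nat_lit 7) (nat_lit 6) (nat_lit 7) (by decide +kernel)
theorem L65318 : W_24 (nat_lit 3) (nat_lit 0x28001c001400080000000000000000000000000000000) (nat_lit 0x0) (nat_lit 0x80004000100000000000020001000000000000000000000000000) := T_24 (nat_lit 194) (nat_lit 211) (nat_lit 4) (nat_lit 7) (nat_lit 12) L65317 (by decide +kernel)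
theorem L65319 : W_24 (nat_lit 6) (nat_lit 0x28001c001000080000000000000000000000000000000) (nat_lit 0x0) (nat_lit 0xa0005000500060000600020001000000000000000000000000000) := Q_24 (nat_lit 142) (C_24 L64660 (C_24 L65313 (C_24 L65316 (C_24 L65318 N_24)))) (by decide +kernel)
theorem L65320 : W_24 (nat_lit 10) (nat_lit 0x280014001000080000000000000000000000000000000) (nat_lit 0x0) (nat_lit 0xa000500053806bc007e0028001400000000000000000000000000) := Q_24 (nat_lit 159) (C_24 L65087 (C_24 L64737 (C_24 L65309 (C_24 L65319 N_24)))) (by decide +kernel)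
theorem L65321 : W_24 (nat_lit 2) (nat_lit 0x2000200030000c000400068001c001000080000000000000000000000000000000) (nat_lit 0x0) (nat_lit 0x4000400000000000000002000000000000000000000000000000000000000000000000) := D_24 (nat_lit 262) (nat_lit 193) (nat_lit 278) (nat_lit 4) (nat_lit 7) (nat_lit 15) (nat_lit 5) (nat_lit 7) (nat_lit 12) (by decide +kernel)
theorem L65322 : W_24 (nat_lit 3) (nat_lit 0x200030000c000400068001c001000080000000000000000000000000000000) (nat_lit 0x0) (nat_lit 0x4000600010000000000002000000000000000000000000000000000000000000000000) := T_24 (nat_lit 261) (nat_lit 244) (nat_lit 5) (nat_lit 7) (nat_lit 11) L65321 (by decide +kernel)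
theorem L65323 : W_24 (nat_lit 4) (nat_lit 0x30000c000400068001c001000080000000000000000000000000000000) (nat_lit 0x0) (nat_lit 0x400060003000000000000a000000000000000000000000000000000000000000000000) := T_24 (nat_lit 245) (nat_lit 195) (nat_lit 6) (nat_lit 7) (nat_lit 14) L65322 (by decide +kernel)
theorem L65324 : W_24 (nat_lit 5) (nat_lit 0x20000c000400068001c001000080000000000000000000000000000000) (nat_lit 0x0) (nat_lit 0x400060007000100000000a000000000000000000000000000000000000000000000000) := T_24 (nat_lit 228) (nat_lit 246) (nat_lit 7) (nat_lit 7) (nat_lit 10) L65323 (by decide +kernel)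
theorem L65325 : W_24 (nat_lit 6) (nat_lit 0xc000400068001c001000080000000000000000000000000000000) (nat_lit 0x0) (nat_lit 0x400060007000300010000a000000000000000000000000000000000000000000000000) := T_24 (nat_lit 229) (nat_lit 212) (nat_lit 7) (nat_lit 7) (nat_lit 9) L65324 (by decide +kernel)
theorem L65326 : W_24 (nat_lit 7) (nat_lit 0x8000400068001c001000080000000000000000000000000000000) (nat_lit 0x0) (nat_lit 0x400060007000380014000a000000000000000000000000000000000000000000000000) := T_24 (nat_lit 210) (nat_lit 227) (nat_lit 5) (nat_lit 7) (nat_lit 9) L65325 (by decide +kernel)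
theorem L65327 : W_24 (nat_lit 8) (nat_lit 0x400068001c001000080000000000000000000000000000000) (nat_lit 0x0) (nat_lit 0x40006000700038001c000a000000000000400000000000000000000000000000000000) := T_24 (nat_lit 211) (nat_lit 142) (nat_lit 4) (nat_lit 7) (nat_lit 12) L65326 (by decide +kernel)
theorem L65328 : W_24 (nat_lit 9) (nat_lit 0x68001c001000080000000000000000000000000000000) (nat_lit 0x0) (nat_lit 0x40006000700038001c000e000000020000400000000000000000000000000000000000) := T_24 (nat_lit 194) (nat_lit 161) (nat_lit 5) (nat_lit 8) (nat_lit 7) L65327 (by decide +kernel)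
theorem L65329 : W_24 (nat_lit 10) (nat_lit 0x680014001000080000000000000000000000000000000) (nat_lit 0x0) (nat_lit 0x40006000700038001c000e00000002a000400000000000000000000000000000000000) := T_24 (nat_lit 159) (nat_lit 157) (nat_lit 3) (nat_lit 4) (nat_lit 9) L65328 (by decide +kernel)
theorem L65330 : W_24 (nat_lit 12) (nat_lit 0x280014001000080000000000000000000000000000000) (nat_lit 0x0) (nat_lit 0x4000600070007c003e001f80050006a000400100008000000000000000000000000000) := Q_24 (nat_lit 178) (C_24 L65213 (C_24 L65329 (C_24 L65195 N_24))) (by decide +kernel)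
theorem L65331 : W_24 (nat_lit 2) (nat_lit 0x4000280014001000080000000000000000000000000000000) (nat_lit 0x0) (nat_lit 0x80000000400020000000000000000000000000000000000000000) := D_24 (nat_lit 161) (nat_lit 178) (nat_lit 211) (nat_lit 5) (nat_lit 8) (nat_lit 7) (nat_lit 6) (nat_lit 7) (nat_lit 12) (by decide +kernel)
theorem L65332 : W_24 (nat_lit 2) (nat_lit 0x5e000600038001c001000080000000000000000000000000000000) (nat_lit 0x0) (nat_lit 0x10018000000000000000000000000000000000000000000000000) := D_24 (nat_lit 195) (nat_lit 196) (nat_lit 208) (nat_lit 2) (nat_lit 5) (nat_lit 12) (nat_lit 2) (nat_lit 4) (nat_lit 12) (by decide +kernel)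
theorem L65333 : W_24 (nat_lit 3) (nat_lit 0x5c000600038001c001000080000000000000000000000000000000) (nat_lit 0x0) (nat_lit 0x400030018000000000000000000000000000000000000000000000000) := T_24 (nat_lit 209) (nat_lit 226) (nat_lit 5) (nat_lit 6) (nat_lit 9) L65332 (by decide +kernel)
theorem L65334 : W_24 (nat_lit 4) (nat_lit 0x1c000600038001c001000080000000000000000000000000000000) (nat_lit 0x0) (nat_lit 0x400630018000000000000000000000000000000000000000000000000) := T_24 (nat_lit 214) (nat_lit 213) (nat_lit 0) (nat_lit 10) (nat_lit 12) L65333 (by decide +kernel)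
theorem L65335 : W_24 (nat_lit 5) (nat_lit 0x1c000400038001c001000080000000000000000000000000000000) (nat_lit 0x0) (nat_lit 0x40063001a000000000000200000000000000000000000000000000000) := T_24 (nat_lit 193) (nat_lit 141) (nat_lit 4) (nat_lit 6) (nat_lit 12) L65334 (by decide +kernel)
theorem L65336 : W_24 (nat_lit 6) (nat_lit 0x1c000400028001c001000080000000000000000000000000000000) (nat_lit 0x0) (nat_lit 0x140063001a000100000000200000000000000000000000000000000000) := T_24 (nat_lit 176) (nat_lit 228) (nat_lit 4) (nat_lit 7) (nat_lit 13) L65335 (by decide +kernel)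
theorem L65337 : W_24 (nat_lit 7) (nat_lit 0x1c0004000280014001000080000000000000000000000000000000) (nat_lit 0x0) (nat_lit 0x140063001a000100008000600000000000000000000000000000000000) := T_24 (nat_lit 159) (nat_lit 142) (nat_lit 4) (nat_lit 7) (nat_lit 12) L65336 (by decide +kernel)
theorem L65338 : W_24 (nat_lit 8) (nat_lit 0xc0004000280014001000080000000000000000000000000000000) (nat_lit 0x0) (nat_lit 0x340073001a000100008000600000000000000000000000000000000000) := T_24 (nat_lit 212) (nat_lit 229) (nat_lit 7) (nat_lit 7) (nat_lit 9) L65337 (by decide +kernel)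
theorem L65339 : W_24 (nat_lit 9) (nat_lit 0x80004000280014001000080000000000000000000000000000000) (nat_lit 0x0) (nat_lit 0x3c0077001a000100008000600000000000000000000000000000000000) := T_24 (nat_lit 210) (nat_lit 227) (nat_lit 5) (nat_lit 7) (nat_lit 9) L65338 (by decide +kernel)
theorem L65340 : W_24 (nat_lit 10) (nat_lit 0x4000280014001000080000000000000000000000000000000) (nat_lit 0x0) (nat_lit 0x3c007f001a000100028000600000000000000000000000000000000000) := T_24 (nat_lit 211) (nat_lit 161) (nat_lit 6) (nat_lit 7) (nat_lit 12) L65339 (by decide +kernel)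
theorem L65341 : W_24 (nat_lit 2) (nat_lit 0x300008000400028001e001100080000400000000000000000000000000) (nat_lit 0x0) (nat_lit 0x10000800040000000000000000000000000000000000000000000000000000) := D_24 (nat_lit 227) (nat_lit 244) (nat_lit 210) (nat_lit 5) (nat_lit 7) (nat_lit 10) (nat_lit 5) (nat_lit 7) (nat_lit 9) (by decide +kernel)
theorem L65342 : W_24 (nat_lit 3) (nat_lit 0x200008000400028001e001100080000400000000000000000000000000) (nat_lit 0x0) (nat_lit 0x50001800040000000000000000000000000000000000000000000000000000) := T_24 (nat_lit 228) (nat_lit 246) (nat_lit 7) (nat_lit 7) (nat_lit 10) L65341 (by decide +kernel)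
theorem L65343 : W_24 (nat_lit 4) (nat_lit 0x200008000400028001e001100080000000000000000000000000000000) (nat_lit 0x0) (nat_lit 0x50001800040000000000000000000008000400000000000000000000000000) := T_24 (nat_lit 106) (nat_lit 123) (nat_lit 7) (nat_lit 4) (nat_lit 6) L65342 (by decide +kernel)
theorem L65344 : W_24 (nat_lit 5) (nat_lit 0x8000400028001e001100080000000000000000000000000000000) (nat_lit 0x0) (nat_lit 0x50003800140000000000000000000008000400000000000000000000000000) := T_24 (nat_lit 229) (nat_lit 212) (nat_lit 7) (nat_lit 7) (nat_lit 9) L65343 (by decide +kernel)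
theorem L65345 : W_24 (nat_lit 6) (nat_lit 0x8000400028001e001000080000000000000000000000000000000) (nat_lit 0x0) (nat_lit 0x50003800140000000000000000180008000400000000000000000000000000) := T_24 (nat_lit 140) (nat_lit 139) (nat_lit 0) (nat_lit 7) (nat_lit 9) L65344 (by decide +kernel)
theorem L65346 : W_24 (nat_lit 7) (nat_lit 0x8000400028001c001000080000000000000000000000000000000) (nat_lit 0x0) (nat_lit 0x50003800140000000400002000180008000400000000000000000000000000) := T_24 (nat_lit 157) (nat_lit 178) (nat_lit 3) (nat_lit 4) (nat_lit 9) L65345 (by decide +kernel)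
theorem L65347 : W_24 (nat_lit 8) (nat_lit 0x80004000280014001000080000000000000000000000000000000) (nat_lit 0x0) (nat_lit 0x5000380014000000040000a000580008000400000000000000000000000000) := T_24 (nat_lit 159) (nat_lit 142) (nat_lit 4) (nat_lit 7) (nat_lit 12) L65346 (by decide +kernel)
theorem L65348 : W_24 (nat_lit 2) (nat_lit 0x2800080004000280014001000080000000000000000000000000000000) (nat_lit 0x0) (nat_lit 0x50001000000000000000000000000000000000000000000000000000000000) := D_24 (nat_lit 228) (nat_lit 244) (nat_lit 246) (nat_lit 5) (nat_lit 7) (nat_lit 10) (nat_lit 7) (nat_lit 7) (nat_lit 10) (by decide +kernel)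
theorem L65349 : W_24 (nat_lit 3) (nat_lit 0x800080004000280014001000080000000000000000000000000000000) (nat_lit 0x0) (nat_lit 0x50003000100000000000000000000000000000000000000000000000000000) := T_24 (nat_lit 229) (nat_lit 212) (nat_lit 7) (nat_lit 7) (nat_lit 9) L65348 (by decide +kernel)
theorem L65350 : W_24 (nat_lit 4) (nat_lit 0x80004000280014001000080000000000000000000000000000000) (nat_lit 0x0) (nat_lit 0x50003800140000000000000000000000000000000000000000000000000000) := T_24 (nat_lit 227) (nat_lit 210) (nat_lit 5) (nat_lit 7) (nat_lit 9) L65349 (by decide +kernel)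
theorem L65351 : W_24 (nat_lit 2) (nat_lit 0x8000400028001e001000080000000000000000000000000000000) (nat_lit 0x0) (nat_lit 0x1000000000000100001000000000000000000000000000000000000000) := D_24 (nat_lit 176) (nat_lit 156) (nat_lit 228) (nat_lit 3) (nat_lit 3) (nat_lit 9) (nat_lit 4) (nat_lit 7) (nat_lit 13) (by decide +kernel)
theorem L65352 : W_24 (nat_lit 3) (nat_lit 0x8000400028001c001000080000000000000000000000000000000) (nat_lit 0x0) (nat_lit 0x1000000000000500003000000000000000000000000000000000000000) := T_24 (nat_lit 157) (nat_lit 178) (nat_lit 3) (nat_lit 4) (nat_lit 9) L65351 (by decide +kernel)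
theorem L65353 : W_24 (nat_lit 4) (nat_lit 0x80004000280014001000080000000000000000000000000000000) (nat_lit 0x0) (nat_lit 0x100000000000050000b000400000000000000000000000000000000000) := T_24 (nat_lit 159) (nat_lit 142) (nat_lit 4) (nat_lit 7) (nat_lit 12) L65352 (by decide +kernel)
theorem L65354 : W_24 (nat_lit 2) (nat_lit 0x8000400028001f001000080000000000000000000000000000000) (nat_lit 0x0) (nat_lit 0x1c0000000000000000000000000000000000) := D_24 (nat_lit 139) (nat_lit 140) (nat_lit 138) (nat_lit 0) (nat_lit 7) (nat_lit 9) (nat_lit 0) (nat_lit 6) (nat_lit 9) (by decide +kernel)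
theorem L65355 : W_24 (nat_lit 3) (nat_lit 0x8000400028001e001000080000000000000000000000000000000) (nat_lit 0x0) (nat_lit 0x1000010001c0000000000000000000000000000000000) := T_24 (nat_lit 156) (nat_lit 176) (nat_lit 3) (nat_lit 3) (nat_lit 9) L65354 (by decide +kernel)
theorem L65356 : W_24 (nat_lit 4) (nat_lit 0x8000400028001c001000080000000000000000000000000000000) (nat_lit 0x0) (nat_lit 0x5000030001c0000000000000000000000000000000000) := T_24 (nat_lit 157) (nat_lit 178) (nat_lit 3) (nat_lit 4) (nat_lit 9) L65355 (by decide +kernel)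
theorem L65357 : W_24 (nat_lit 5) (nat_lit 0x80004000280014001000080000000000000000000000000000000) (nat_lit 0x0) (nat_lit 0x50000b0005c0000000000000000000000000000000000) := T_24 (nat_lit 159) (nat_lit 142) (nat_lit 4) (nat_lit 7) (nat_lit 12) L65356 (by decide +kernel)
theorem L65358 : W_24 (nat_lit 10) (nat_lit 0x4000280014001000080000000000000000000000000000000) (nat_lit 0x0) (nat_lit 0x50003c007f001a00050000b0007c0008000400000000000000000000000000) := Q_24 (nat_lit 211) (C_24 L65347 (C_24 L65339 (C_24 L65350 (C_24 L65353 (C_24 L65357 N_24))))) (by decide +kernel)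
theorem L65359 : W_24 (nat_lit 2) (nat_lit 0x4000680014001000080000000000000000000000000000000) (nat_lit 0x0) (nat_lit 0x10000a000000000000000000000000000000000000000) := D_24 (nat_lit 157) (nat_lit 159) (nat_lit 176) (nat_lit 3) (nat_lit 4) (nat_lit 9) (nat_lit 0) (nat_lit 8) (nat_lit 10) (by decide +kernel)
theorem L65360 : W_24 (nat_lit 3) (nat_lit 0x4000280014001000080000000000000000000000000000000) (nat_lit 0x0) (nat_lit 0x50002a000000000000000000000000000000000000000) := T_24 (nat_lit 178) (nat_lit 161) (nat_lit 5) (nat_lit 8) (nat_lit 7) L65359 (by decide +kernel)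
theorem L65361 : W_24 (nat_lit 11) (nat_lit 0x280014001000080000000000000000000000000000000) (nat_lit 0x0) (nat_lit 0x50003c007f001e00050002b0007c0008000400000000000000000000000000) := Q_24 (nat_lit 194) (C_24 L65331 (C_24 L65340 (C_24 L65358 (C_24 L65360 N_24)))) (by decide +kernel)
theorem L65362 : W_24 (nat_lit 6) (nat_lit 0x280014001200080000000000000000000000000000000) (nat_lit 0x0) (nat_lit 0x1d0007c00500020000500078001000000000000000000000000000) := Q_24 (nat_lit 192) (C_24 L65278 (C_24 L65060 (C_24 L64774 N_24))) (by decide +kernel)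
theorem L65363 : W_24 (nat_lit 2) (nat_lit 0x280034001200080000000000000000000000000000000) (nat_lit 0x0) (nat_lit 0x80004000400000000000000000000000000000000000000000000) := D_24 (nat_lit 194) (nat_lit 178) (nat_lit 211) (nat_lit 5) (nat_lit 8) (nat_lit 7) (nat_lit 6) (nat_lit 7) (nat_lit 12) (by decide +kernel)
theorem L65364 : W_24 (nat_lit 4) (nat_lit 0x280014001200080000000000000000000000000000000) (nat_lit 0x0) (nat_lit 0x80004000500068000500000000000000000000000000000000000) := Q_24 (nat_lit 161) (C_24 L65363 (C_24 L62872 N_24)) (by decide +kernel)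
theorem L65365 : W_24 (nat_lit 9) (nat_lit 0x280014001000080000000000000000000000000000000) (nat_lit 0x0) (nat_lit 0xa001f0007c00500068000700178003c000a0000000000000000000000) := Q_24 (nat_lit 141) (C_24 L65362 (C_24 L65076 (C_24 L65187 (C_24 L65071 (C_24 L65364 (C_24 L63867 (C_24 L64396 N_24))))))) (by decide +kernel)
theorem L65366 : W_24 (nat_lit 5) (nat_lit 0x4000280014001000080000000000000000000000000000000) (nat_lit 0x0) (nat_lit 0x500038001c0000000000020000000000000000000000000000000000000000) := T_24 (nat_lit 211) (nat_lit 161) (nat_lit 6) (nat_lit 7) (nat_lit 12) L65350 (by decide +kernel)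
theorem L65367 : W_24 (nat_lit 6) (nat_lit 0x4000280014001000080000000000000000000000000000000) (nat_lit 0x0) (nat_lit 0x500038001c000000050000b0005c0000000000000000000000000000000000) := Q_24 (nat_lit 211) (C_24 L65350 (C_24 L65357 N_24)) (by decide +kernel)
theorem L65368 : W_24 (nat_lit 7) (nat_lit 0x280014001000080000000000000000000000000000000) (nat_lit 0x0) (nat_lit 0x500038001c000400050002b0005c0000000000000000000000000000000000) := Q_24 (nat_lit 194) (C_24 L65331 (C_24 L65366 (C_24 L65367 (C_24 L65360 N_24)))) (by decide +kernel)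
theorem L65369 : W_24 (nat_lit 16) (nat_lit 0x280010001000080000000000000000000000000000000) (nat_lit 0x0) (nat_lit 0x400068007f00fe007f001fe0053806fc007e017f00bc000a0000000000000000000000) := Q_24 (nat_lit 158) (C_24 L64365 (C_24 L65077 (C_24 L65194 (C_24 L65214 (C_24 L65228 (C_24 L65289 (C_24 L65308 (C_24 L65320 (C_24 L65330 (C_24 L65361 (C_24 L65365 (C_24 L65368 N_24)))))))))))) (by decide +kernel)
theorem L65370 : W_24 (nat_lit 17) (nat_lit 0x200010001000080000000000000000000000000000000) (nat_lit 0x0) (nat_lit 0x400068007f01ff007fc01ff805f80efc007e017f01bc000e0000000000000000000000) := Q_24 (nat_lit 175) (C_24 L64727 (C_24 L64764 (C_24 L64988 (C_24 L65092 (C_24 L65096 (C_24 L65140 (C_24 L65169 (C_24 L65369 N_24)))))))) (by decide +kernel)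
theorem L65371 : W_24 (nat_lit 2) (nat_lit 0x6000300018001c0000000000000000000000000000000) (nat_lit 0x0) (nat_lit 0x400600000000000000000000000000000000) := D_24 (nat_lit 129) (nat_lit 142) (nat_lit 130) (nat_lit 1) (nat_lit 10) (nat_lit 7) (nat_lit 1) (nat_lit 11) (nat_lit 7) (by decide +kernel)
theorem L65372 : W_24 (nat_lit 3) (nat_lit 0x6000300010001c0000000000000000000000000000000) (nat_lit 0x0) (nat_lit 0x8000000000000c00600000000000000000000000000000000) := T_24 (nat_lit 143) (nat_lit 195) (nat_lit 7) (nat_lit 7) (nat_lit 7) L65371 (by decide +kernel)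
theorem L65373 : W_24 (nat_lit 4) (nat_lit 0x6000300010000c0000000000000000000000000000000) (nat_lit 0x0) (nat_lit 0x8000000000000c00700008000000000000000000000000000) := T_24 (nat_lit 128) (nat_lit 111) (nat_lit 6) (nat_lit 8) (nat_lit 10) L65372 (by decide +kernel)
theorem L65374 : W_24 (nat_lit 2) (nat_lit 0x78003c001200180000000000000000000000000000000) (nat_lit 0x0) (nat_lit 0x2000000000000000010000800000000000000000000000000) := D_24 (nat_lit 124) (nat_lit 193) (nat_lit 107) (nat_lit 7) (nat_lit 5) (nat_lit 7) (nat_lit 7) (nat_lit 5) (nat_lit 6) (by decide +kernel)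
theorem L65375 : W_24 (nat_lit 3) (nat_lit 0x68003c001200180000000000000000000000000000000) (nat_lit 0x0) (nat_lit 0x2000100040000000010000800000000000000000000000000) := T_24 (nat_lit 176) (nat_lit 162) (nat_lit 2) (nat_lit 5) (nat_lit 10) L65374 (by decide +kernel)
theorem L65376 : W_24 (nat_lit 4) (nat_lit 0x68003c001000180000000000000000000000000000000) (nat_lit 0x0) (nat_lit 0x2000100040000300010000800000000000000000000000000) := T_24 (nat_lit 141) (nat_lit 140) (nat_lit 0) (nat_lit 8) (nat_lit 9) L65375 (by decide +kernel)
theorem L65377 : W_24 (nat_lit 5) (nat_lit 0x60003c001000180000000000000000000000000000000) (nat_lit 0x0) (nat_lit 0x20001c0040000300010000800000000000000000000000000) := T_24 (nat_lit 175) (nat_lit 174) (nat_lit 1) (nat_lit 8) (nat_lit 9) L65376 (by decide +kernel)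
theorem L65378 : W_24 (nat_lit 6) (nat_lit 0x600038001000180000000000000000000000000000000) (nat_lit 0x0) (nat_lit 0x20001c0046000300010000800000000000000000000000000) := T_24 (nat_lit 158) (nat_lit 157) (nat_lit 3) (nat_lit 4) (nat_lit 9) L65377 (by decide +kernel)
theorem L65379 : W_24 (nat_lit 7) (nat_lit 0x600038001000080000000000000000000000000000000) (nat_lit 0x0) (nat_lit 0x20001c0046000300110008800000000000000000000000000) := T_24 (nat_lit 128) (nat_lit 111) (nat_lit 6) (nat_lit 8) (nat_lit 10) L65378 (by decide +kernel)
theorem L65380 : W_24 (nat_lit 2) (nat_lit 0x100078003c001000180000000000000000000000000000000) (nat_lit 0x0) (nat_lit 0x20000000000000000400020000000000000000000000000000000) := D_24 (nat_lit 142) (nat_lit 125) (nat_lit 209) (nat_lit 5) (nat_lit 6) (nat_lit 7) (nat_lit 6) (nat_lit 5) (nat_lit 12) (by decide +kernel)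
theorem L65381 : W_24 (nat_lit 3) (nat_lit 0x78003c001000180000000000000000000000000000000) (nat_lit 0x0) (nat_lit 0x20001800000000000400020000000000000000000000000000000) := T_24 (nat_lit 192) (nat_lit 191) (nat_lit 1) (nat_lit 8) (nat_lit 10) L65380 (by decide +kernel)
theorem L65382 : W_24 (nat_lit 4) (nat_lit 0x68003c001000180000000000000000000000000000000) (nat_lit 0x0) (nat_lit 0x20001800100040000400020000000000000000000000000000000) := T_24 (nat_lit 176) (nat_lit 162) (nat_lit 2) (nat_lit 5) (nat_lit 10) L65381 (by decide +kernel)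
theorem L65383 : W_24 (nat_lit 5) (nat_lit 0x60003c001000180000000000000000000000000000000) (nat_lit 0x0) (nat_lit 0x200018001c0040000400020000000000000000000000000000000) := T_24 (nat_lit 175) (nat_lit 174) (nat_lit 1) (nat_lit 8) (nat_lit 9) L65382 (by decide +kernel)
theorem L65384 : W_24 (nat_lit 6) (nat_lit 0x60003c001000080000000000000000000000000000000) (nat_lit 0x0) (nat_lit 0x200018001c0040000400120008000000000000000000000000000) := T_24 (nat_lit 128) (nat_lit 111) (nat_lit 6) (nat_lit 8) (nat_lit 10) L65383 (by decide +kernel)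
theorem L65385 : W_24 (nat_lit 7) (nat_lit 0x600038001000080000000000000000000000000000000) (nat_lit 0x0) (nat_lit 0x200018001c0046000400120008000000000000000000000000000) := T_24 (nat_lit 158) (nat_lit 157) (nat_lit 3) (nat_lit 4) (nat_lit 9) L65384 (by decide +kernel)
theorem L65388 : W_24 (nat_lit 2) (nat_lit 0x3000300018000c0000000000000000000000000000000) (nat_lit 0x0) (nat_lit 0x8000000000002000100000000000000000000000) := D_24 (nat_lit 109) (nat_lit 159) (nat_lit 92) (nat_lit 5) (nat_lit 7) (nat_lit 6) (nat_lit 7) (nat_lit 7) (nat_lit 5) (by decide +kernel)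
theorem L65389 : W_24 (nat_lit 3) (nat_lit 0x300030001800080000000000000000000000000000000) (nat_lit 0x0) (nat_lit 0x2000000008000000040002000100000000000000000000000) := T_24 (nat_lit 126) (nat_lit 193) (nat_lit 5) (nat_lit 7) (nat_lit 7) L65388 (by decide +kernel)
theorem L65390 : W_24 (nat_lit 5) (nat_lit 0x2000300010000c0000000000000000000000000000000) (nat_lit 0x0) (nat_lit 0x8000400000000c0070000a000000000000000000000000000) := T_24 (nat_lit 178) (nat_lit 109) (nat_lit 4) (nat_lit 8) (nat_lit 10) L65373 (by decide +kernel)
theorem L65391 : W_24 (nat_lit 2) (nat_lit 0x2000300012000f0001800000000000000000000000000) (nat_lit 0x0) (nat_lit 0x4000000000000000080004000000000000000000) := D_24 (nat_lit 91) (nat_lit 74) (nat_lit 158) (nat_lit 5) (nat_lit 6) (nat_lit 4) (nat_lit 6) (nat_lit 5) (nat_lit 9) (by decide +kernel)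
theorem L65392 : W_24 (nat_lit 3) (nat_lit 0x2000300012000f0000800000000000000000000000000) (nat_lit 0x0) (nat_lit 0x4000000100001000080004000000000000000000) := T_24 (nat_lit 108) (nat_lit 128) (nat_lit 0) (nat_lit 9) (nat_lit 7) L65391 (by decide +kernel)
theorem L65393 : W_24 (nat_lit 4) (nat_lit 0x2000300012000f0000000000000000000000000000000) (nat_lit 0x0) (nat_lit 0x4000000100001c00080004000000000000000000) := T_24 (nat_lit 107) (nat_lit 106) (nat_lit 0) (nat_lit 8) (nat_lit 7) L65392 (by decide +kernel)
theorem L65394 : W_24 (nat_lit 5) (nat_lit 0x2000300012000e0000000000000000000000000000000) (nat_lit 0x0) (nat_lit 0x4000100110001c00080004000000000000000000) := T_24 (nat_lit 124) (nat_lit 140) (nat_lit 1) (nat_lit 8) (nat_lit 7) L65393 (by decide +kernel)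
theorem L65395 : W_24 (nat_lit 2) (nat_lit 0x3800300012000f8000400000000000000000000000000) (nat_lit 0x0) (nat_lit 0xc8000000000000000000000000000000000000000) := D_24 (nat_lit 162) (nat_lit 163) (nat_lit 159) (nat_lit 1) (nat_lit 10) (nat_lit 9) (nat_lit 1) (nat_lit 9) (nat_lit 9) (by decide +kernel)
theorem L65396 : W_24 (nat_lit 3) (nat_lit 0x2800300012000f8000400000000000000000000000000) (nat_lit 0x0) (nat_lit 0x1400c8000000000000000000000000000000000000000) := T_24 (nat_lit 176) (nat_lit 174) (nat_lit 2) (nat_lit 4) (nat_lit 10) L65395 (by decide +kernel)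
theorem L65397 : W_24 (nat_lit 4) (nat_lit 0x2000300012000f8000400000000000000000000000000) (nat_lit 0x0) (nat_lit 0x1c00cc000000000000000000000000000000000000000) := T_24 (nat_lit 175) (nat_lit 158) (nat_lit 4) (nat_lit 5) (nat_lit 10) L65396 (by decide +kernel)
theorem L65398 : W_24 (nat_lit 5) (nat_lit 0x2000300012000f0000400000000000000000000000000) (nat_lit 0x0) (nat_lit 0x1c00cc000000008000200000000000000000000000000) := T_24 (nat_lit 123) (nat_lit 105) (nat_lit 0) (nat_lit 7) (nat_lit 7) L65397 (by decide +kernel)
theorem L65399 : W_24 (nat_lit 6) (nat_lit 0x2000300012000f0000000000000000000000000000000) (nat_lit 0x0) (nat_lit 0x1c00cc000000008000e00000000000000000000000000) := T_24 (nat_lit 106) (nat_lit 107) (nat_lit 0) (nat_lit 8) (nat_lit 7) L65398 (by decide +kernel)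
theorem L65400 : W_24 (nat_lit 7) (nat_lit 0x2000300012000e0000000000000000000000000000000) (nat_lit 0x0) (nat_lit 0x1c00cc000100018000e00000000000000000000000000) := T_24 (nat_lit 124) (nat_lit 140) (nat_lit 1) (nat_lit 8) (nat_lit 7) L65399 (by decide +kernel)
theorem L65401 : W_24 (nat_lit 2) (nat_lit 0x2000300012000f0000800000000000000000000000000) (nat_lit 0x0) (nat_lit 0x400100001000000000000000000000000000) := D_24 (nat_lit 128) (nat_lit 142) (nat_lit 108) (nat_lit 1) (nat_lit 9) (nat_lit 7) (nat_lit 0) (nat_lit 9) (nat_lit 7) (by decide +kernel)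
theorem L65402 : W_24 (nat_lit 3) (nat_lit 0x2000300012000f0000000000000000000000000000000) (nat_lit 0x0) (nat_lit 0x400100001c00000000000000000000000000) := T_24 (nat_lit 107) (nat_lit 106) (nat_lit 0) (nat_lit 8) (nat_lit 7) L65401 (by decide +kernel)
theorem L65403 : W_24 (nat_lit 4) (nat_lit 0x2000300012000e0000000000000000000000000000000) (nat_lit 0x0) (nat_lit 0x500110001c00000000000000000000000000) := T_24 (nat_lit 124) (nat_lit 140) (nat_lit 1) (nat_lit 8) (nat_lit 7) L65402 (by decide +kernel)
theorem L65404 : W_24 (nat_lit 2) (nat_lit 0x2000300012001e0011000000000000000000000000000) (nat_lit 0x0) (nat_lit 0x200022000000000000000000000000000) := D_24 (nat_lit 129) (nat_lit 109) (nat_lit 113) (nat_lit 0) (nat_lit 10) (nat_lit 7) (nat_lit 2) (nat_lit 7) (nat_lit 7) (by decide +kernel)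
theorem L65405 : W_24 (nat_lit 3) (nat_lit 0x2000300012001e0001000000000000000000000000000) (nat_lit 0x0) (nat_lit 0x20003a000000000000000000000000000) := T_24 (nat_lit 112) (nat_lit 111) (nat_lit 2) (nat_lit 6) (nat_lit 7) L65404 (by decide +kernel)
theorem L65406 : W_24 (nat_lit 4) (nat_lit 0x2000300012001e0000000000000000000000000000000) (nat_lit 0x0) (nat_lit 0x20003b800000000000000000000000000) := T_24 (nat_lit 108) (nat_lit 107) (nat_lit 0) (nat_lit 9) (nat_lit 7) L65405 (by decide +kernel)
theorem L65407 : W_24 (nat_lit 5) (nat_lit 0x2000300012000e0000000000000000000000000000000) (nat_lit 0x0) (nat_lit 0x40030003b800000000000000000000000000) := T_24 (nat_lit 128) (nat_lit 142) (nat_lit 1) (nat_lit 9) (nat_lit 7) L65406 (by decide +kernel)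
theorem L65408 : W_24 (nat_lit 2) (nat_lit 0x3800300052003f0011000000000000000000000000000) (nat_lit 0x0) (nat_lit 0xc8000000000000000000000000000000000000000) := D_24 (nat_lit 162) (nat_lit 163) (nat_lit 159) (nat_lit 1) (nat_lit 10) (nat_lit 9) (nat_lit 1) (nat_lit 9) (nat_lit 9) (by decide +kernel)
theorem L65409 : W_24 (nat_lit 3) (nat_lit 0x2800300052003f0011000000000000000000000000000) (nat_lit 0x0) (nat_lit 0x1400c8000000000000000000000000000000000000000) := T_24 (nat_lit 176) (nat_lit 174) (nat_lit 2) (nat_lit 4) (nat_lit 10) L65408 (by decide +kernel)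
theorem L65410 : W_24 (nat_lit 4) (nat_lit 0x2000300052003f0011000000000000000000000000000) (nat_lit 0x0) (nat_lit 0x1c00cc000000000000000000000000000000000000000) := T_24 (nat_lit 175) (nat_lit 158) (nat_lit 6) (nat_lit 5) (nat_lit 10) L65409 (by decide +kernel)
theorem L65411 : W_24 (nat_lit 5) (nat_lit 0x2000300012003f0011000000000000000000000000000) (nat_lit 0x0) (nat_lit 0x1c00cc00c000000000000000000000000000000000000) := T_24 (nat_lit 146) (nat_lit 147) (nat_lit 3) (nat_lit 7) (nat_lit 7) L65410 (by decide +kernel)
theorem L65412 : W_24 (nat_lit 6) (nat_lit 0x2000300012003f0010000000000000000000000000000) (nat_lit 0x0) (nat_lit 0x1c00cc00c000000003000000000000000000000000000) := T_24 (nat_lit 108) (nat_lit 109) (nat_lit 0) (nat_lit 10) (nat_lit 7) L65411 (by decide +kernel)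
theorem L65413 : W_24 (nat_lit 7) (nat_lit 0x2000300012001f0010000000000000000000000000000) (nat_lit 0x0) (nat_lit 0x1c00cc00c000200023000000000000000000000000000) := T_24 (nat_lit 129) (nat_lit 113) (nat_lit 2) (nat_lit 7) (nat_lit 7) L65412 (by decide +kernel)
theorem L65414 : W_24 (nat_lit 8) (nat_lit 0x2000300012001f0000000000000000000000000000000) (nat_lit 0x0) (nat_lit 0x1c00cc00c00020003b000000000000000000000000000) := T_24 (nat_lit 112) (nat_lit 111) (nat_lit 2) (nat_lit 6) (nat_lit 7) L65413 (by decide +kernel)
theorem L65415 : W_24 (nat_lit 9) (nat_lit 0x2000300012001e0000000000000000000000000000000) (nat_lit 0x0) (nat_lit 0x1c00cc00c10021003b000000000000000000000000000) := T_24 (nat_lit 124) (nat_lit 140) (nat_lit 1) (nat_lit 8) (nat_lit 7) L65414 (by decide +kernel)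
theorem L65416 : W_24 (nat_lit 10) (nat_lit 0x2000300012000e0000000000000000000000000000000) (nat_lit 0x0) (nat_lit 0x1c00cc00c50031003b000000000000000000000000000) := T_24 (nat_lit 128) (nat_lit 142) (nat_lit 1) (nat_lit 9) (nat_lit 7) L65415 (by decide +kernel)
theorem L65417 : W_24 (nat_lit 11) (nat_lit 0x2000300010000e0000000000000000000000000000000) (nat_lit 0x0) (nat_lit 0x1c00cc00c70031803be00080004000000000000000000) := Q_24 (nat_lit 141) (C_24 L65394 (C_24 L65400 (C_24 L65403 (C_24 L65407 (C_24 L65416 N_24))))) (by decide +kernel)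
theorem L65418 : W_24 (nat_lit 2) (nat_lit 0x200030001a000f0000800100000000000000000000000) (nat_lit 0x0) (nat_lit 0x40000400100000000000000000000000000000000) := D_24 (nat_lit 142) (nat_lit 128) (nat_lit 162) (nat_lit 2) (nat_lit 5) (nat_lit 8) (nat_lit 3) (nat_lit 5) (nat_lit 8) (by decide +kernel)
theorem L65419 : W_24 (nat_lit 3) (nat_lit 0x2000300018000f0000800100000000000000000000000) (nat_lit 0x0) (nat_lit 0x40000700100000000000000000000000000000000) := T_24 (nat_lit 141) (nat_lit 140) (nat_lit 1) (nat_lit 8) (nat_lit 7) L65418 (by decide +kernel)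
theorem L65420 : W_24 (nat_lit 4) (nat_lit 0x2000300018000f0000000100000000000000000000000) (nat_lit 0x0) (nat_lit 0x40000700100000c00000000000000000000000000) := T_24 (nat_lit 107) (nat_lit 106) (nat_lit 0) (nat_lit 8) (nat_lit 7) L65419 (by decide +kernel)
theorem L65421 : W_24 (nat_lit 5) (nat_lit 0x2000300018000f0000000000000000000000000000000) (nat_lit 0x0) (nat_lit 0x40000700100002c00100000000000000000000000) := T_24 (nat_lit 92) (nat_lit 109) (nat_lit 7) (nat_lit 7) (nat_lit 5) L65420 (by decide +kernel)
theorem L65422 : W_24 (nat_lit 6) (nat_lit 0x2000300018000e0000000000000000000000000000000) (nat_lit 0x0) (nat_lit 0x40000700118002c00100000000000000000000000) := T_24 (nat_lit 124) (nat_lit 123) (nat_lit 3) (nat_lit 4) (nat_lit 7) L65421 (by decide +kernel)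
theorem L65423 : W_24 (nat_lit 7) (nat_lit 0x2000300010000e0000000000000000000000000000000) (nat_lit 0x0) (nat_lit 0x40000f00118003c00100000000000000000000000) := T_24 (nat_lit 143) (nat_lit 108) (nat_lit 4) (nat_lit 7) (nat_lit 10) L65422 (by decide +kernel)
theorem L65429 : W_24 (nat_lit 7) (nat_lit 0x2000300010000e0000000000000000000000000000000) (nat_lit 0x0) (nat_lit 0x20001c00c8000800018003000100000000000000000000000) := T_24 (nat_lit 143) (nat_lit 108) (nat_lit 4) (nat_lit 7) (nat_lit 10) L65428 (by decide +kernel)
theorem L65430 : W_24 (nat_lit 2) (nat_lit 0x3000300018000e0000000000000000000000000000000) (nat_lit 0x0) (nat_lit 0x8000000000002000100000000000000000000000) := D_24 (nat_lit 109) (nat_lit 159) (nat_lit 92) (nat_lit 5) (nat_lit 7) (nat_lit 6) (nat_lit 7) (nat_lit 7) (nat_lit 5) (by decide +kernel)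
theorem L65431 : W_24 (nat_lit 3) (nat_lit 0x2000300018000e0000000000000000000000000000000) (nat_lit 0x0) (nat_lit 0x2000100008000000000002000100000000000000000000000) := T_24 (nat_lit 176) (nat_lit 193) (nat_lit 5) (nat_lit 7) (nat_lit 7) L65430 (by decide +kernel)
theorem L65432 : W_24 (nat_lit 4) (nat_lit 0x2000300010000e0000000000000000000000000000000) (nat_lit 0x0) (nat_lit 0x2000100008000800000003000100000000000000000000000) := T_24 (nat_lit 143) (nat_lit 108) (nat_lit 4) (nat_lit 7) (nat_lit 10) L65431 (by decide +kernel)
theorem L65433 : W_24 (nat_lit 2) (nat_lit 0x3800300018000e8000000000000000000000000000000) (nat_lit 0x0) (nat_lit 0xc8000000000000000000000000000000000000000) := D_24 (nat_lit 162) (nat_lit 163) (nat_lit 159) (nat_lit 1) (nat_lit 10) (nat_lit 9) (nat_lit 1) (nat_lit 9) (nat_lit 9) (by decide +kernel)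
theorem L65434 : W_24 (nat_lit 3) (nat_lit 0x3000300018000e8000000000000000000000000000000) (nat_lit 0x0) (nat_lit 0xc00c8000000000000000000000000000000000000000) := T_24 (nat_lit 175) (nat_lit 174) (nat_lit 2) (nat_lit 4) (nat_lit 10) L65433 (by decide +kernel)
theorem L65435 : W_24 (nat_lit 4) (nat_lit 0x2000300018000e8000000000000000000000000000000) (nat_lit 0x0) (nat_lit 0x20001c00c8000000000000000000000000000000000000000) := T_24 (nat_lit 176) (nat_lit 193) (nat_lit 5) (nat_lit 7) (nat_lit 7) L65434 (by decide +kernel)
theorem L65436 : W_24 (nat_lit 5) (nat_lit 0x2000300018000e0000000000000000000000000000000) (nat_lit 0x0) (nat_lit 0x20001c00c8000000018000000000000000000000000000000) := T_24 (nat_lit 123) (nat_lit 124) (nat_lit 3) (nat_lit 4) (nat_lit 7) L65435 (by decide +kernel)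
theorem L65437 : W_24 (nat_lit 6) (nat_lit 0x2000300010000e0000000000000000000000000000000) (nat_lit 0x0) (nat_lit 0x20001c00c8000800018001000000000000000000000000000) := T_24 (nat_lit 143) (nat_lit 108) (nat_lit 4) (nat_lit 7) (nat_lit 10) L65436 (by decide +kernel)
theorem L65438 : W_24 (nat_lit 2) (nat_lit 0x2000300016000f8000800000000000000000000000000) (nat_lit 0x0) (nat_lit 0x48000000000000000040000000000000000000000) := D_24 (nat_lit 159) (nat_lit 162) (nat_lit 90) (nat_lit 0) (nat_lit 9) (nat_lit 9) (nat_lit 7) (nat_lit 5) (nat_lit 5) (by decide +kernel)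
theorem L65439 : W_24 (nat_lit 3) (nat_lit 0x2000300012000f8000800000000000000000000000000) (nat_lit 0x0) (nat_lit 0x48000400100000000040000000000000000000000) := T_24 (nat_lit 142) (nat_lit 128) (nat_lit 1) (nat_lit 9) (nat_lit 7) L65438 (by decide +kernel)
theorem L65440 : W_24 (nat_lit 4) (nat_lit 0x2000300012000f0000800000000000000000000000000) (nat_lit 0x0) (nat_lit 0x48000c00108000000040000000000000000000000) := T_24 (nat_lit 123) (nat_lit 143) (nat_lit 3) (nat_lit 4) (nat_lit 7) L65439 (by decide +kernel)
theorem L65441 : W_24 (nat_lit 5) (nat_lit 0x2000300012000f0000000000000000000000000000000) (nat_lit 0x0) (nat_lit 0x48000c00108000c00040000000000000000000000) := T_24 (nat_lit 107) (nat_lit 106) (nat_lit 0) (nat_lit 8) (nat_lit 7) L65440 (by decide +kernel)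
theorem L65442 : W_24 (nat_lit 6) (nat_lit 0x2000300012000e0000000000000000000000000000000) (nat_lit 0x0) (nat_lit 0x48000d00118000c00040000000000000000000000) := T_24 (nat_lit 124) (nat_lit 140) (nat_lit 1) (nat_lit 8) (nat_lit 7) L65441 (by decide +kernel)
theorem L65443 : W_24 (nat_lit 2) (nat_lit 0x3400b0001a003f0008800100020000000000000000000) (nat_lit 0x0) (nat_lit 0x100000000c000000000000000000000000000000000000) := D_24 (nat_lit 146) (nat_lit 147) (nat_lit 180) (nat_lit 3) (nat_lit 7) (nat_lit 7) (nat_lit 4) (nat_lit 10) (nat_lit 10) (by decide +kernel)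
theorem L65444 : W_24 (nat_lit 3) (nat_lit 0x3400b0001a001f0008800100020000000000000000000) (nat_lit 0x0) (nat_lit 0x100000000c000600000000000000000000000000000000) := T_24 (nat_lit 129) (nat_lit 130) (nat_lit 1) (nat_lit 11) (nat_lit 7) L65443 (by decide +kernel)
theorem L65445 : W_24 (nat_lit 4) (nat_lit 0x340030001a001f0008800100020000000000000000000) (nat_lit 0x0) (nat_lit 0x10000c000c000600000000000000000000000000000000) := T_24 (nat_lit 163) (nat_lit 162) (nat_lit 1) (nat_lit 10) (nat_lit 9) L65444 (by decide +kernel)
theorem L65446 : W_24 (nat_lit 5) (nat_lit 0x300030001a001f0008800100020000000000000000000) (nat_lit 0x0) (nat_lit 0x10c00c000c000600000000000000000000000000000000) := T_24 (nat_lit 174) (nat_lit 175) (nat_lit 2) (nat_lit 4) (nat_lit 10) L65445 (by decide +kernel)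
theorem L65447 : W_24 (nat_lit 6) (nat_lit 0x200030001a001f0008800100020000000000000000000) (nat_lit 0x0) (nat_lit 0x20011c00c000c000600000000000000000000000000000000) := T_24 (nat_lit 176) (nat_lit 193) (nat_lit 5) (nat_lit 7) (nat_lit 7) L65446 (by decide +kernel)
theorem L65448 : W_24 (nat_lit 7) (nat_lit 0x200030001a001f0008800100000000000000000000000) (nat_lit 0x0) (nat_lit 0x20011c00c000c000600000000400020000000000000000000) := T_24 (nat_lit 77) (nat_lit 94) (nat_lit 5) (nat_lit 9) (nat_lit 4) L65447 (by decide +kernel)
theorem L65449 : W_24 (nat_lit 8) (nat_lit 0x200030001a001f0008800000000000000000000000000) (nat_lit 0x0) (nat_lit 0x20011c00c000c000600002000500020000000000000000000) := T_24 (nat_lit 92) (nat_lit 109) (nat_lit 7) (nat_lit 7) (nat_lit 5) L65448 (by decide +kernel)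
theorem L65450 : W_24 (nat_lit 9) (nat_lit 0x200030001a001f0000800000000000000000000000000) (nat_lit 0x0) (nat_lit 0x20011c00c000c00060001a000500020000000000000000000) := T_24 (nat_lit 111) (nat_lit 112) (nat_lit 2) (nat_lit 6) (nat_lit 7) L65449 (by decide +kernel)
theorem L65451 : W_24 (nat_lit 10) (nat_lit 0x2000300012001f0000800000000000000000000000000) (nat_lit 0x0) (nat_lit 0x20011c00c000c80060801a000500020000000000000000000) := T_24 (nat_lit 143) (nat_lit 123) (nat_lit 3) (nat_lit 4) (nat_lit 7) L65450 (by decide +kernel)
theorem L65452 : W_24 (nat_lit 11) (nat_lit 0x2000300012001f0000000000000000000000000000000) (nat_lit 0x0) (nat_lit 0x20011c00c000c80060801ac00500020000000000000000000) := T_24 (nat_lit 107) (nat_lit 106) (nat_lit 0) (nat_lit 8) (nat_lit 7) L65451 (by decide +kernel)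
theorem L65453 : W_24 (nat_lit 12) (nat_lit 0x2000300012001e0000000000000000000000000000000) (nat_lit 0x0) (nat_lit 0x20011c00c000c90061801ac00500020000000000000000000) := T_24 (nat_lit 124) (nat_lit 140) (nat_lit 1) (nat_lit 8) (nat_lit 7) L65452 (by decide +kernel)
theorem L65454 : W_24 (nat_lit 13) (nat_lit 0x2000300012000e0000000000000000000000000000000) (nat_lit 0x0) (nat_lit 0x20011c00c000cd0071801ac00500020000000000000000000) := T_24 (nat_lit 128) (nat_lit 142) (nat_lit 1) (nat_lit 9) (nat_lit 7) L65453 (by decide +kernel)
theorem L65455 : W_24 (nat_lit 2) (nat_lit 0x2000300012007e0010000000000000000000000000000) (nat_lit 0x0) (nat_lit 0x1c000000000000000000000000000000000000) := D_24 (nat_lit 147) (nat_lit 146) (nat_lit 148) (nat_lit 3) (nat_lit 7) (nat_lit 7) (nat_lit 3) (nat_lit 8) (nat_lit 7) (by decide +kernel)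
theorem L65456 : W_24 (nat_lit 3) (nat_lit 0x2000300012003e0010000000000000000000000000000) (nat_lit 0x0) (nat_lit 0x1c800400000000000000000000000000000000) := T_24 (nat_lit 130) (nat_lit 143) (nat_lit 1) (nat_lit 11) (nat_lit 7) L65455 (by decide +kernel)
theorem L65457 : W_24 (nat_lit 4) (nat_lit 0x2000300012001e0010000000000000000000000000000) (nat_lit 0x0) (nat_lit 0x1c800600020000000000000000000000000000) := T_24 (nat_lit 129) (nat_lit 113) (nat_lit 2) (nat_lit 7) (nat_lit 7) L65456 (by decide +kernel)
theorem L65458 : W_24 (nat_lit 5) (nat_lit 0x2000300012001e0000000000000000000000000000000) (nat_lit 0x0) (nat_lit 0x1c800600038000000000000000000000000000) := T_24 (nat_lit 112) (nat_lit 111) (nat_lit 2) (nat_lit 6) (nat_lit 7) L65457 (by decide +kernel)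
theorem L65459 : W_24 (nat_lit 6) (nat_lit 0x2000300012000e0000000000000000000000000000000) (nat_lit 0x0) (nat_lit 0x1cc00700038000000000000000000000000000) := T_24 (nat_lit 128) (nat_lit 142) (nat_lit 1) (nat_lit 9) (nat_lit 7) L65458 (by decide +kernel)
theorem L65460 : W_24 (nat_lit 14) (nat_lit 0x2000300010000e0000000000000000000000000000000) (nat_lit 0x0) (nat_lit 0x20011c00cc01cf0071803ae00540020000000000000000000) := Q_24 (nat_lit 141) (C_24 L65400 (C_24 L65442 (C_24 L65454 (C_24 L65459 N_24)))) (by decide +kernel)
theorem L65461 : W_24 (nat_lit 15) (nat_lit 0x2000300010000c0000000000000000000000000000000) (nat_lit 0x0) (nat_lit 0x20011c00cc01cf0073803be005c0024000000000000000000) := Q_24 (nat_lit 125) (C_24 L65417 (C_24 L65423 (C_24 L65429 (C_24 L65432 (C_24 L65437 (C_24 L65460 N_24)))))) (by decide +kernel)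
theorem L65462 : W_24 (nat_lit 5) (nat_lit 0x2000300010000c0000000000000000000000000000000) (nat_lit 0x0) (nat_lit 0x6000300018000400000000800000002000000000000000000000000000) := T_24 (nat_lit 178) (nat_lit 109) (nat_lit 4) (nat_lit 8) (nat_lit 10) L586 (by decide +kernel)
theorem L65463 : W_24 (nat_lit 2) (nat_lit 0x2000300010001c0000000000000000000000000000000) (nat_lit 0x0) (nat_lit 0x40000000000000000a000000000000000000000000000) := D_24 (nat_lit 178) (nat_lit 109) (nat_lit 111) (nat_lit 4) (nat_lit 8) (nat_lit 10) (nat_lit 6) (nat_lit 8) (nat_lit 10) (by decide +kernel)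
theorem L65464 : W_24 (nat_lit 2) (nat_lit 0x2000300050003c001a000000008000000000000000000) (nat_lit 0x0) (nat_lit 0x1000080000000000000000400000000000000000000000) := D_24 (nat_lit 163) (nat_lit 94) (nat_lit 180) (nat_lit 4) (nat_lit 10) (nat_lit 9) (nat_lit 4) (nat_lit 10) (nat_lit 10) (by decide +kernel)
theorem L65465 : W_24 (nat_lit 3) (nat_lit 0x2000300050003c0012000000008000000000000000000) (nat_lit 0x0) (nat_lit 0x1000080000000020008000400000000000000000000000) := T_24 (nat_lit 111) (nat_lit 125) (nat_lit 2) (nat_lit 6) (nat_lit 7) L65464 (by decide +kernel)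
theorem L65466 : W_24 (nat_lit 4) (nat_lit 0x2000300050003c0002000000008000000000000000000) (nat_lit 0x0) (nat_lit 0x1000080000000020038000400000000000000000000000) := T_24 (nat_lit 112) (nat_lit 113) (nat_lit 2) (nat_lit 7) (nat_lit 7) L65465 (by decide +kernel)
theorem L65467 : W_24 (nat_lit 5) (nat_lit 0x2000300050003c0002000000000000000000000000000) (nat_lit 0x0) (nat_lit 0x1000080000000020038000500008000000000000000000) := T_24 (nat_lit 75) (nat_lit 92) (nat_lit 7) (nat_lit 7) (nat_lit 4) L65466 (by decide +kernel)
theorem L65468 : W_24 (nat_lit 6) (nat_lit 0x2000300010003c0002000000000000000000000000000) (nat_lit 0x0) (nat_lit 0x100008000c000020038000500008000000000000000000) := T_24 (nat_lit 146) (nat_lit 147) (nat_lit 3) (nat_lit 7) (nat_lit 7) L65467 (by decide +kernel)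
theorem L65469 : W_24 (nat_lit 7) (nat_lit 0x2000300010003c0000000000000000000000000000000) (nat_lit 0x0) (nat_lit 0x100008000c00002003b000500008000000000000000000) := T_24 (nat_lit 109) (nat_lit 108) (nat_lit 0) (nat_lit 10) (nat_lit 7) L65468 (by decide +kernel)
theorem L65470 : W_24 (nat_lit 2) (nat_lit 0x2000300090003c0020000000000000000000000000000) (nat_lit 0x0) (nat_lit 0x10000400040000000000000000000000000000) := D_24 (nat_lit 130) (nat_lit 114) (nat_lit 148) (nat_lit 2) (nat_lit 8) (nat_lit 7) (nat_lit 3) (nat_lit 8) (nat_lit 7) (by decide +kernel)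
theorem L65471 : W_24 (nat_lit 3) (nat_lit 0x2000300010003c0020000000000000000000000000000) (nat_lit 0x0) (nat_lit 0x1c000400040000000000000000000000000000) := T_24 (nat_lit 147) (nat_lit 146) (nat_lit 3) (nat_lit 7) (nat_lit 7) L65470 (by decide +kernel)
theorem L65472 : W_24 (nat_lit 4) (nat_lit 0x2000300010003c0000000000000000000000000000000) (nat_lit 0x0) (nat_lit 0x1c000400070000000000000000000000000000) := T_24 (nat_lit 113) (nat_lit 112) (nat_lit 2) (nat_lit 7) (nat_lit 7) L65471 (by decide +kernel)
theorem L65473 : W_24 (nat_lit 2) (nat_lit 0x2000300050003e0001000000000000000000000000000) (nat_lit 0x0) (nat_lit 0x8000600000000000000000000000000000000000) := D_24 (nat_lit 142) (nat_lit 141) (nat_lit 159) (nat_lit 1) (nat_lit 9) (nat_lit 7) (nat_lit 7) (nat_lit 6) (nat_lit 6) (by decide +kernel)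
theorem L65474 : W_24 (nat_lit 3) (nat_lit 0x2000300050003c0001000000000000000000000000000) (nat_lit 0x0) (nat_lit 0x8000600020000800000000000000000000000000) := T_24 (nat_lit 125) (nat_lit 107) (nat_lit 0) (nat_lit 9) (nat_lit 7) L65473 (by decide +kernel)
theorem L65475 : W_24 (nat_lit 4) (nat_lit 0x2000300050003c0000000000000000000000000000000) (nat_lit 0x0) (nat_lit 0x8000600020003800000000000000000000000000) := T_24 (nat_lit 108) (nat_lit 109) (nat_lit 0) (nat_lit 10) (nat_lit 7) L65474 (by decide +kernel)
theorem L65476 : W_24 (nat_lit 5) (nat_lit 0x2000300010003c0000000000000000000000000000000) (nat_lit 0x0) (nat_lit 0x800c600020003800000000000000000000000000) := T_24 (nat_lit 146) (nat_lit 147) (nat_lit 3) (nat_lit 7) (nat_lit 7) L65475 (by decide +kernel)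
theorem L65477 : W_24 (nat_lit 2) (nat_lit 0x3800300012003f8012400000008000000000000000000) (nat_lit 0x0) (nat_lit 0xc8000000000000000000000000000000000000000) := D_24 (nat_lit 162) (nat_lit 163) (nat_lit 159) (nat_lit 1) (nat_lit 10) (nat_lit 9) (nat_lit 1) (nat_lit 9) (nat_lit 9) (by decide +kernel)
theorem L65478 : W_24 (nat_lit 3) (nat_lit 0x2800300012003f8012400000008000000000000000000) (nat_lit 0x0) (nat_lit 0x1400c8000000000000000000000000000000000000000) := T_24 (nat_lit 176) (nat_lit 174) (nat_lit 2) (nat_lit 4) (nat_lit 10) L65477 (by decide +kernel)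
theorem L65479 : W_24 (nat_lit 4) (nat_lit 0x2000300012003f8012400000008000000000000000000) (nat_lit 0x0) (nat_lit 0x1c00cc000000000000000000000000000000000000000) := T_24 (nat_lit 175) (nat_lit 158) (nat_lit 4) (nat_lit 5) (nat_lit 10) L65478 (by decide +kernel)
theorem L65480 : W_24 (nat_lit 5) (nat_lit 0x2000300012003f0012400000008000000000000000000) (nat_lit 0x0) (nat_lit 0x1c00cc000000008000200000000000000000000000000) := T_24 (nat_lit 123) (nat_lit 105) (nat_lit 0) (nat_lit 7) (nat_lit 7) L65479 (by decide +kernel)
theorem L65481 : W_24 (nat_lit 6) (nat_lit 0x2000300012003f0012400000000000000000000000000) (nat_lit 0x0) (nat_lit 0x1c00cc000000008000200100008000000000000000000) := T_24 (nat_lit 75) (nat_lit 92) (nat_lit 7) (nat_lit 7) (nat_lit 4) L65480 (by decide +kernel)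
theorem L65482 : W_24 (nat_lit 7) (nat_lit 0x2000300012003f0012000000000000000000000000000) (nat_lit 0x0) (nat_lit 0x1c00cc000000008000e00100008000000000000000000) := T_24 (nat_lit 106) (nat_lit 107) (nat_lit 0) (nat_lit 8) (nat_lit 7) L65481 (by decide +kernel)
theorem L65483 : W_24 (nat_lit 8) (nat_lit 0x2000300012003e0012000000000000000000000000000) (nat_lit 0x0) (nat_lit 0x1c00cc000100018000e00100008000000000000000000) := T_24 (nat_lit 124) (nat_lit 140) (nat_lit 1) (nat_lit 8) (nat_lit 7) L65482 (by decide +kernel)
theorem L65484 : W_24 (nat_lit 9) (nat_lit 0x2000300010003e0012000000000000000000000000000) (nat_lit 0x0) (nat_lit 0x1c00cc000700018000e00100008000000000000000000) := T_24 (nat_lit 141) (nat_lit 142) (nat_lit 1) (nat_lit 9) (nat_lit 7) L65483 (by decide +kernel)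
theorem L65485 : W_24 (nat_lit 10) (nat_lit 0x2000300010003c0012000000000000000000000000000) (nat_lit 0x0) (nat_lit 0x1c00cc000700038008e00100008000000000000000000) := T_24 (nat_lit 125) (nat_lit 111) (nat_lit 2) (nat_lit 6) (nat_lit 7) L65484 (by decide +kernel)
theorem L65486 : W_24 (nat_lit 11) (nat_lit 0x2000300010003c0002000000000000000000000000000) (nat_lit 0x0) (nat_lit 0x1c00cc000700038038e00100008000000000000000000) := T_24 (nat_lit 112) (nat_lit 113) (nat_lit 2) (nat_lit 7) (nat_lit 7) L65485 (by decide +kernel)
theorem L65487 : W_24 (nat_lit 12) (nat_lit 0x2000300010003c0000000000000000000000000000000) (nat_lit 0x0) (nat_lit 0x1c00cc00070003803be00100008000000000000000000) := T_24 (nat_lit 109) (nat_lit 108) (nat_lit 0) (nat_lit 10) (nat_lit 7) L65486 (by decide +kernel)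
theorem L65488 : W_24 (nat_lit 13) (nat_lit 0x2000300010001c0000000000000000000000000000000) (nat_lit 0x0) (nat_lit 0x11c00cc01c70063807be00500008000000000000000000) := Q_24 (nat_lit 129) (C_24 L65469 (C_24 L65472 (C_24 L65476 (C_24 L65487 N_24)))) (by decide +kernel)
theorem L65489 : W_24 (nat_lit 2) (nat_lit 0x2000300090003c0022000000008000000000000000000) (nat_lit 0x0) (nat_lit 0x10000400040000000000000000000000000000) := D_24 (nat_lit 130) (nat_lit 148) (nat_lit 114) (nat_lit 3) (nat_lit 8) (nat_lit 7) (nat_lit 2) (nat_lit 8) (nat_lit 7) (by decide +kernel)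
theorem L65490 : W_24 (nat_lit 3) (nat_lit 0x2000300090003c0002000000008000000000000000000) (nat_lit 0x0) (nat_lit 0x10000400070000000000000000000000000000) := T_24 (nat_lit 113) (nat_lit 112) (nat_lit 2) (nat_lit 7) (nat_lit 7) L65489 (by decide +kernel)
theorem L65491 : W_24 (nat_lit 4) (nat_lit 0x2000300010003c0002000000008000000000000000000) (nat_lit 0x0) (nat_lit 0x1c000400070000000000000000000000000000) := T_24 (nat_lit 147) (nat_lit 146) (nat_lit 3) (nat_lit 7) (nat_lit 7) L65490 (by decide +kernel)
theorem L65492 : W_24 (nat_lit 5) (nat_lit 0x2000300010003c0002000000000000000000000000000) (nat_lit 0x0) (nat_lit 0x1c000400070000100008000000000000000000) := T_24 (nat_lit 75) (nat_lit 92) (nat_lit 7) (nat_lit 7) (nat_lit 4) L65491 (by decide +kernel)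
theorem L65493 : W_24 (nat_lit 6) (nat_lit 0x2000300010001c0002000000000000000000000000000) (nat_lit 0x0) (nat_lit 0x1c000600071000100008000000000000000000) := T_24 (nat_lit 129) (nat_lit 108) (nat_lit 0) (nat_lit 10) (nat_lit 7) L65492 (by decide +kernel)
theorem L65494 : W_24 (nat_lit 7) (nat_lit 0x2000300010001c0000000000000000000000000000000) (nat_lit 0x0) (nat_lit 0x40000001c000600073000100008000000000000000000) := T_24 (nat_lit 109) (nat_lit 178) (nat_lit 4) (nat_lit 8) (nat_lit 10) L65493 (by decide +kernel)
theorem L65495 : W_24 (nat_lit 2) (nat_lit 0x2000300014001e0008000000020000000000000000000) (nat_lit 0x0) (nat_lit 0x8000000000001800000000000000000000000000) := D_24 (nat_lit 108) (nat_lit 107) (nat_lit 159) (nat_lit 0) (nat_lit 9) (nat_lit 7) (nat_lit 7) (nat_lit 6) (nat_lit 6) (by decide +kernel)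
theorem L65496 : W_24 (nat_lit 3) (nat_lit 0x2000300010001e0008000000020000000000000000000) (nat_lit 0x0) (nat_lit 0x8000600000001800000000000000000000000000) := T_24 (nat_lit 142) (nat_lit 141) (nat_lit 1) (nat_lit 9) (nat_lit 7) L65495 (by decide +kernel)
theorem L65497 : W_24 (nat_lit 4) (nat_lit 0x2000300010001c0008000000020000000000000000000) (nat_lit 0x0) (nat_lit 0x8000600020011800000000000000000000000000) := T_24 (nat_lit 125) (nat_lit 112) (nat_lit 2) (nat_lit 6) (nat_lit 7) L65496 (by decide +kernel)
theorem L65498 : W_24 (nat_lit 5) (nat_lit 0x2000300010001c0008000000000000000000000000000) (nat_lit 0x0) (nat_lit 0x8000600020011800400020000000000000000000) := T_24 (nat_lit 77) (nat_lit 94) (nat_lit 5) (nat_lit 9) (nat_lit 4) L65497 (by decide +kernel)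
theorem L65499 : W_24 (nat_lit 6) (nat_lit 0x2000300010001c0000000000000000000000000000000) (nat_lit 0x0) (nat_lit 0x400008000600020019800400020000000000000000000) := T_24 (nat_lit 111) (nat_lit 178) (nat_lit 6) (nat_lit 8) (nat_lit 10) L65498 (by decide +kernel)
theorem L65500 : W_24 (nat_lit 14) (nat_lit 0x2000300010000c0000000000000000000000000000000) (nat_lit 0x0) (nat_lit 0x15c00cc01c70073807be00500028000000000000000000) := Q_24 (nat_lit 128) (C_24 L65463 (C_24 L65488 (C_24 L65494 (C_24 L65499 N_24)))) (by decide +kernel)
theorem L65501 : W_24 (nat_lit 2) (nat_lit 0x6000300018001e8000000000000000000000000000000) (nat_lit 0x0) (nat_lit 0x600200000000000000000000000000000000) := D_24 (nat_lit 142) (nat_lit 141) (nat_lit 129) (nat_lit 2) (nat_lit 5) (nat_lit 8) (nat_lit 1) (nat_lit 10) (nat_lit 7) (by decide +kernel)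
theorem L65502 : W_24 (nat_lit 3) (nat_lit 0x6000300018000e8000000000000000000000000000000) (nat_lit 0x0) (nat_lit 0x600300008000000000000000000000000000) := T_24 (nat_lit 128) (nat_lit 111) (nat_lit 6) (nat_lit 8) (nat_lit 10) L65501 (by decide +kernel)
theorem L65503 : W_24 (nat_lit 4) (nat_lit 0x2000300018000e8000000000000000000000000000000) (nat_lit 0x0) (nat_lit 0x8000400000000600300008000000000000000000000000000) := T_24 (nat_lit 178) (nat_lit 195) (nat_lit 7) (nat_lit 7) (nat_lit 7) L65502 (by decide +kernel)
theorem L65504 : W_24 (nat_lit 5) (nat_lit 0x2000300018000e0000000000000000000000000000000) (nat_lit 0x0) (nat_lit 0x8000400000000600318008000000000000000000000000000) := T_24 (nat_lit 123) (nat_lit 124) (nat_lit 3) (nat_lit 4) (nat_lit 7) L65503 (by decide +kernel)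
theorem L65505 : W_24 (nat_lit 6) (nat_lit 0x2000300018000c0000000000000000000000000000000) (nat_lit 0x0) (nat_lit 0x8000400000000600338009000000000000000000000000000) := T_24 (nat_lit 125) (nat_lit 108) (nat_lit 4) (nat_lit 7) (nat_lit 10) L65504 (by decide +kernel)
theorem L65506 : W_24 (nat_lit 2) (nat_lit 0x3400b0001a000f0000800000000000000000000000000) (nat_lit 0x0) (nat_lit 0x8000400100000000000000000000000000000000) := D_24 (nat_lit 142) (nat_lit 128) (nat_lit 159) (nat_lit 2) (nat_lit 5) (nat_lit 8) (nat_lit 4) (nat_lit 6) (nat_lit 10) (by decide +kernel)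
theorem L65507 : W_24 (nat_lit 3) (nat_lit 0x3400b0001a000f0000000000000000000000000000000) (nat_lit 0x0) (nat_lit 0x8000400100000c00000000000000000000000000) := T_24 (nat_lit 107) (nat_lit 106) (nat_lit 0) (nat_lit 8) (nat_lit 7) L65506 (by decide +kernel)
theorem L65508 : W_24 (nat_lit 4) (nat_lit 0x3400b00018000f0000000000000000000000000000000) (nat_lit 0x0) (nat_lit 0x8000700100000c00000000000000000000000000) := T_24 (nat_lit 141) (nat_lit 140) (nat_lit 1) (nat_lit 8) (nat_lit 7) L65507 (by decide +kernel)
theorem L65509 : W_24 (nat_lit 5) (nat_lit 0x3400b00018000e0000000000000000000000000000000) (nat_lit 0x0) (nat_lit 0x8000700118000c00000000000000000000000000) := T_24 (nat_lit 124) (nat_lit 123) (nat_lit 3) (nat_lit 4) (nat_lit 7) L65508 (by decide +kernel)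
theorem L65510 : W_24 (nat_lit 6) (nat_lit 0x3400b00018000c0000000000000000000000000000000) (nat_lit 0x0) (nat_lit 0x8000700138001c00000000000000000000000000) := T_24 (nat_lit 125) (nat_lit 108) (nat_lit 4) (nat_lit 7) (nat_lit 10) L65509 (by decide +kernel)
theorem L65511 : W_24 (nat_lit 7) (nat_lit 0x3400300018000c0000000000000000000000000000000) (nat_lit 0x0) (nat_lit 0xc8000700138001c00000000000000000000000000) := T_24 (nat_lit 163) (nat_lit 162) (nat_lit 1) (nat_lit 10) (nat_lit 9) L65510 (by decide +kernel)
theorem L65512 : W_24 (nat_lit 8) (nat_lit 0x3000300018000c0000000000000000000000000000000) (nat_lit 0x0) (nat_lit 0xc00c8000700138001c00000000000000000000000000) := T_24 (nat_lit 174) (nat_lit 175) (nat_lit 2) (nat_lit 4) (nat_lit 10) L65511 (by decide +kernel)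
theorem L65513 : W_24 (nat_lit 9) (nat_lit 0x2000300018000c0000000000000000000000000000000) (nat_lit 0x0) (nat_lit 0x20001c00c8000700138001c00000000000000000000000000) := T_24 (nat_lit 176) (nat_lit 193) (nat_lit 5) (nat_lit 7) (nat_lit 7) L65512 (by decide +kernel)
theorem L65514 : W_24 (nat_lit 6) (nat_lit 0x2000300018000c0000000000000000000000000000000) (nat_lit 0x0) (nat_lit 0x20001c00c8000000038001000000000000000000000000000) := T_24 (nat_lit 125) (nat_lit 108) (nat_lit 4) (nat_lit 7) (nat_lit 10) L65436 (by decide +kernel)
theorem L65515 : W_24 (nat_lit 3) (nat_lit 0x6000300018000c0000000000000000000000000000000) (nat_lit 0x0) (nat_lit 0x400700008000000000000000000000000000) := T_24 (nat_lit 128) (nat_lit 111) (nat_lit 6) (nat_lit 8) (nat_lit 10) L65371 (by decide +kernel)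
theorem L65516 : W_24 (nat_lit 4) (nat_lit 0x2000300018000c0000000000000000000000000000000) (nat_lit 0x0) (nat_lit 0x8000400000000400700008000000000000000000000000000) := T_24 (nat_lit 178) (nat_lit 195) (nat_lit 7) (nat_lit 7) (nat_lit 7) L65515 (by decide +kernel)
theorem L65517 : W_24 (nat_lit 10) (nat_lit 0x2000300010000c0000000000000000000000000000000) (nat_lit 0x0) (nat_lit 0xa0005c00c8000f00738009c00000000000000000000000000) := Q_24 (nat_lit 143) (C_24 L65505 (C_24 L65513 (C_24 L65514 (C_24 L65516 N_24)))) (by decide +kernel)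
theorem L65518 : W_24 (nat_lit 16) (nat_lit 0x200030001000080000000000000000000000000000000) (nat_lit 0x0) (nat_lit 0x600030001a0015c00cc01cf0077807be005c002c000000000000000000) := Q_24 (nat_lit 126) (C_24 L65390 (C_24 L65461 (C_24 L65462 (C_24 L65500 (C_24 L65517 N_24))))) (by decide +kernel)
theorem L65519 : W_24 (nat_lit 2) (nat_lit 0x60003c0012001c0000000000000000000000000000000) (nat_lit 0x0) (nat_lit 0x40000400020000000000000000000000000000000) := D_24 (nat_lit 142) (nat_lit 162) (nat_lit 125) (nat_lit 0) (nat_lit 9) (nat_lit 9) (nat_lit 1) (nat_lit 9) (nat_lit 7) (by decide +kernel)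
theorem L65520 : W_24 (nat_lit 3) (nat_lit 0x60003c0010001c0000000000000000000000000000000) (nat_lit 0x0) (nat_lit 0x40000700020000000000000000000000000000000) := T_24 (nat_lit 141) (nat_lit 140) (nat_lit 0) (nat_lit 8) (nat_lit 9) L65519 (by decide +kernel)
theorem L65521 : W_24 (nat_lit 4) (nat_lit 0x6000380010001c0000000000000000000000000000000) (nat_lit 0x0) (nat_lit 0x46000700020000000000000000000000000000000) := T_24 (nat_lit 158) (nat_lit 157) (nat_lit 3) (nat_lit 4) (nat_lit 9) L65520 (by decide +kernel)
theorem L65522 : W_24 (nat_lit 5) (nat_lit 0x6000380010000c0000000000000000000000000000000) (nat_lit 0x0) (nat_lit 0x46000700120008000000000000000000000000000) := T_24 (nat_lit 128) (nat_lit 111) (nat_lit 6) (nat_lit 8) (nat_lit 10) L65521 (by decide +kernel)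
theorem L65523 : W_24 (nat_lit 6) (nat_lit 0x600038001000080000000000000000000000000000000) (nat_lit 0x0) (nat_lit 0x4600070016000a000000000000000000000000000) := T_24 (nat_lit 126) (nat_lit 109) (nat_lit 4) (nat_lit 8) (nat_lit 10) L65522 (by decide +kernel)
theorem L65524 : W_24 (nat_lit 7) (nat_lit 0x200038001000080000000000000000000000000000000) (nat_lit 0x0) (nat_lit 0x400040004600070016000a000000000000000000000000000) := T_24 (nat_lit 178) (nat_lit 194) (nat_lit 5) (nat_lit 8) (nat_lit 7) L65523 (by decide +kernel)
theorem L65525 : W_24 (nat_lit 8) (nat_lit 0x200038001000080000000000000000000000000000000) (nat_lit 0x0) (nat_lit 0x200058005c0046000400120008000000000000000000000000000) := T_24 (nat_lit 178) (nat_lit 194) (nat_lit 5) (nat_lit 8) (nat_lit 7) L65385 (by decide +kernel)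
theorem L65526 : W_24 (nat_lit 2) (nat_lit 0x22000fc009200080000000000000000000000000000000) (nat_lit 0x0) (nat_lit 0x4000100010000000000000000000000000000000000000) := D_24 (nat_lit 164) (nat_lit 148) (nat_lit 182) (nat_lit 2) (nat_lit 8) (nat_lit 9) (nat_lit 3) (nat_lit 8) (nat_lit 9) (by decide +kernel)
theorem L65527 : W_24 (nat_lit 3) (nat_lit 0x2000fc009200080000000000000000000000000000000) (nat_lit 0x0) (nat_lit 0x7000100010000000000000000000000000000000000000) := T_24 (nat_lit 181) (nat_lit 180) (nat_lit 3) (nat_lit 7) (nat_lit 9) L65526 (by decide +kernel)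
theorem L65528 : W_24 (nat_lit 4) (nat_lit 0x2000fc001200080000000000000000000000000000000) (nat_lit 0x0) (nat_lit 0x700010001c000000000000000000000000000000000000) := T_24 (nat_lit 147) (nat_lit 146) (nat_lit 2) (nat_lit 7) (nat_lit 9) L65527 (by decide +kernel)
theorem L65529 : W_24 (nat_lit 5) (nat_lit 0x20007c001200080000000000000000000000000000000) (nat_lit 0x0) (nat_lit 0x710018001c000000000000000000000000000000000000) := T_24 (nat_lit 163) (nat_lit 176) (nat_lit 1) (nat_lit 10) (nat_lit 9) L65528 (by decide +kernel)
theorem L65530 : W_24 (nat_lit 6) (nat_lit 0x20003c001200080000000000000000000000000000000) (nat_lit 0x0) (nat_lit 0x71001c001c400000000000000000000000000000000000) := T_24 (nat_lit 162) (nat_lit 142) (nat_lit 0) (nat_lit 9) (nat_lit 9) L65529 (by decide +kernel)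
theorem L65531 : W_24 (nat_lit 7) (nat_lit 0x200038001200080000000000000000000000000000000) (nat_lit 0x0) (nat_lit 0x71001c401c500000000000000000000000000000000000) := T_24 (nat_lit 158) (nat_lit 140) (nat_lit 0) (nat_lit 8) (nat_lit 9) L65530 (by decide +kernel)
theorem L65532 : W_24 (nat_lit 2) (nat_lit 0x200038001600080000000000000000000000000000000) (nat_lit 0x0) (nat_lit 0x4000180000000000000000000000000000000000) := D_24 (nat_lit 140) (nat_lit 158) (nat_lit 139) (nat_lit 0) (nat_lit 8) (nat_lit 9) (nat_lit 3) (nat_lit 3) (nat_lit 8) (by decide +kernel)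
theorem L65533 : W_24 (nat_lit 3) (nat_lit 0x200038001200080000000000000000000000000000000) (nat_lit 0x0) (nat_lit 0x44000580000000000000000000000000000000000) := T_24 (nat_lit 142) (nat_lit 162) (nat_lit 0) (nat_lit 9) (nat_lit 9) L65532 (by decide +kernel)
theorem L65534 : W_24 (nat_lit 5) (nat_lit 0x200038001200080000000000000000000000000000000) (nat_lit 0x0) (nat_lit 0x20001c0044000100010000800000000000000000000000000) := T_24 (nat_lit 158) (nat_lit 140) (nat_lit 0) (nat_lit 8) (nat_lit 9) L62977 (by decide +kernel)
theorem L65537 : W_24 (nat_lit 2) (nat_lit 0x24003f801200080000000000000000000000000000000) (nat_lit 0x0) (nat_lit 0xe0000000000000000000000000000000000) := D_24 (nat_lit 138) (nat_lit 139) (nat_lit 137) (nat_lit 0) (nat_lit 6) (nat_lit 9) (nat_lit 0) (nat_lit 5) (nat_lit 9) (by decide +kernel)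
theorem L65538 : W_24 (nat_lit 3) (nat_lit 0x24003f001200080000000000000000000000000000000) (nat_lit 0x0) (nat_lit 0x8004e0000000000000000000000000000000000) := T_24 (nat_lit 155) (nat_lit 142) (nat_lit 2) (nat_lit 2) (nat_lit 9) L65537 (by decide +kernel)
theorem L65539 : W_24 (nat_lit 4) (nat_lit 0x24003e001200080000000000000000000000000000000) (nat_lit 0x0) (nat_lit 0x1000018004e0000000000000000000000000000000000) := T_24 (nat_lit 156) (nat_lit 176) (nat_lit 3) (nat_lit 3) (nat_lit 9) L65538 (by decide +kernel)
theorem L65540 : W_24 (nat_lit 5) (nat_lit 0x24003c001200080000000000000000000000000000000) (nat_lit 0x0) (nat_lit 0x1200038004e0000000000000000000000000000000000) := T_24 (nat_lit 157) (nat_lit 173) (nat_lit 1) (nat_lit 7) (nat_lit 9) L65539 (by decide +kernel)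
theorem L65541 : W_24 (nat_lit 6) (nat_lit 0x20003c001200080000000000000000000000000000000) (nat_lit 0x0) (nat_lit 0x1e00038004e0000000000000000000000000000000000) := T_24 (nat_lit 174) (nat_lit 175) (nat_lit 1) (nat_lit 8) (nat_lit 9) L65540 (by decide +kernel)
theorem L65542 : W_24 (nat_lit 7) (nat_lit 0x200038001200080000000000000000000000000000000) (nat_lit 0x0) (nat_lit 0x1e00078005e0000000000000000000000000000000000) := T_24 (nat_lit 158) (nat_lit 140) (nat_lit 0) (nat_lit 8) (nat_lit 9) L65541 (by decide +kernel)
theorem L65543 : W_24 (nat_lit 8) (nat_lit 0x200038001000080000000000000000000000000000000) (nat_lit 0x0) (nat_lit 0x20071e01c781c7e0010000800000000000000000000000000) := Q_24 (nat_lit 141) (C_24 L65531 (C_24 L65533 (C_24 L65534 (C_24 L65536 (C_24 L65542 N_24))))) (by decide +kernel)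
theorem L65544 : W_24 (nat_lit 8) (nat_lit 0x200038001000080000000000000000000000000000000) (nat_lit 0x0) (nat_lit 0x60005c0046000300110008800000000000000000000000000) := T_24 (nat_lit 178) (nat_lit 194) (nat_lit 5) (nat_lit 8) (nat_lit 7) L65379 (by decide +kernel)
theorem L65545 : W_24 (nat_lit 2) (nat_lit 0x4000300078001000080000000000000000000000000000000) (nat_lit 0x0) (nat_lit 0x600020000000000000000000000000000000) := D_24 (nat_lit 142) (nat_lit 125) (nat_lit 141) (nat_lit 7) (nat_lit 6) (nat_lit 7) (nat_lit 0) (nat_lit 9) (nat_lit 9) (by decide +kernel)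
theorem L65546 : W_24 (nat_lit 3) (nat_lit 0x4000300038001000080000000000000000000000000000000) (nat_lit 0x0) (nat_lit 0xc0000600020000000000000000000000000000000) := T_24 (nat_lit 162) (nat_lit 163) (nat_lit 1) (nat_lit 10) (nat_lit 9) L65545 (by decide +kernel)
theorem L65547 : W_24 (nat_lit 4) (nat_lit 0x300038001000080000000000000000000000000000000) (nat_lit 0x0) (nat_lit 0x40004000c0000600020000000000000000000000000000000) := T_24 (nat_lit 194) (nat_lit 178) (nat_lit 5) (nat_lit 8) (nat_lit 7) L65546 (by decide +kernel)
theorem L65549 : W_24 (nat_lit 2) (nat_lit 0x20000200090007800380010001c0000000000000000000000000000000) (nat_lit 0x0) (nat_lit 0x2000000000000400020000000000000000000000000000000) := D_24 (nat_lit 142) (nat_lit 125) (nat_lit 193) (nat_lit 5) (nat_lit 6) (nat_lit 7) (nat_lit 5) (nat_lit 6) (nat_lit 8) (by decide +kernel)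
theorem L65550 : W_24 (nat_lit 3) (nat_lit 0x20000000090007800380010001c0000000000000000000000000000000) (nat_lit 0x0) (nat_lit 0x400020002000000000000400020000000000000000000000000000000) := T_24 (nat_lit 209) (nat_lit 226) (nat_lit 6) (nat_lit 5) (nat_lit 13) L65549 (by decide +kernel)
theorem L65551 : W_24 (nat_lit 4) (nat_lit 0x90007800380010001c0000000000000000000000000000000) (nat_lit 0x0) (nat_lit 0x2400120002000000000000400020000000000000000000000000000000) := T_24 (nat_lit 229) (nat_lit 212) (nat_lit 4) (nat_lit 8) (nat_lit 13) L65550 (by decide +kernel)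
theorem L65552 : W_24 (nat_lit 5) (nat_lit 0x80007800380010001c0000000000000000000000000000000) (nat_lit 0x0) (nat_lit 0x2400120003800000000000400020000000000000000000000000000000) := T_24 (nat_lit 192) (nat_lit 191) (nat_lit 1) (nat_lit 8) (nat_lit 10) L65551 (by decide +kernel)
theorem L65553 : W_24 (nat_lit 6) (nat_lit 0x7800380010001c0000000000000000000000000000000) (nat_lit 0x0) (nat_lit 0x240012001b800000000000400020000000000000000000000000000000) := T_24 (nat_lit 195) (nat_lit 196) (nat_lit 3) (nat_lit 5) (nat_lit 10) L65552 (by decide +kernel)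
theorem L65554 : W_24 (nat_lit 7) (nat_lit 0x7800380010000c0000000000000000000000000000000) (nat_lit 0x0) (nat_lit 0x240012001b800000000000400120008000000000000000000000000000) := T_24 (nat_lit 128) (nat_lit 111) (nat_lit 6) (nat_lit 8) (nat_lit 10) L65553 (by decide +kernel)
theorem L65555 : W_24 (nat_lit 8) (nat_lit 0x780038001000080000000000000000000000000000000) (nat_lit 0x0) (nat_lit 0x240012001b80000000000040016000a000000000000000000000000000) := T_24 (nat_lit 126) (nat_lit 109) (nat_lit 4) (nat_lit 8) (nat_lit 10) L65554 (by decide +kernel)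
theorem L65556 : W_24 (nat_lit 9) (nat_lit 0x380038001000080000000000000000000000000000000) (nat_lit 0x0) (nat_lit 0x240012001f80040000000040016000a000000000000000000000000000) := T_24 (nat_lit 178) (nat_lit 194) (nat_lit 5) (nat_lit 8) (nat_lit 7) L65555 (by decide +kernel)
theorem L65557 : W_24 (nat_lit 10) (nat_lit 0x300038001000080000000000000000000000000000000) (nat_lit 0x0) (nat_lit 0x240012001f8004c000000040016000a000000000000000000000000000) := T_24 (nat_lit 175) (nat_lit 174) (nat_lit 2) (nat_lit 4) (nat_lit 10) L65556 (by decide +kernel)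
theorem L65558 : W_24 (nat_lit 11) (nat_lit 0x200038001000080000000000000000000000000000000) (nat_lit 0x0) (nat_lit 0x240012001f8005c00c000060016000a000000000000000000000000000) := Q_24 (nat_lit 176) (C_24 L65547 (C_24 L65548 (C_24 L65557 N_24))) (by decide +kernel)
theorem L65560 : W_24 (nat_lit 3) (nat_lit 0x68003c0012001c0000000000000000000000000000000) (nat_lit 0x0) (nat_lit 0x400030001800000000000000000000000000) := T_24 (nat_lit 125) (nat_lit 142) (nat_lit 1) (nat_lit 9) (nat_lit 7) L65559 (by decide +kernel)
theorem L65561 : W_24 (nat_lit 4) (nat_lit 0x68003c0010001c0000000000000000000000000000000) (nat_lit 0x0) (nat_lit 0x700030001800000000000000000000000000) := T_24 (nat_lit 141) (nat_lit 140) (nat_lit 0) (nat_lit 8) (nat_lit 9) L65560 (by decide +kernel)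
theorem L65562 : W_24 (nat_lit 5) (nat_lit 0x60003c0010001c0000000000000000000000000000000) (nat_lit 0x0) (nat_lit 0xc0000000700030001800000000000000000000000000) := T_24 (nat_lit 175) (nat_lit 174) (nat_lit 1) (nat_lit 8) (nat_lit 9) L65561 (by decide +kernel)
theorem L65563 : W_24 (nat_lit 6) (nat_lit 0x6000380010001c0000000000000000000000000000000) (nat_lit 0x0) (nat_lit 0xc0006000700030001800000000000000000000000000) := T_24 (nat_lit 158) (nat_lit 157) (nat_lit 3) (nat_lit 4) (nat_lit 9) L65562 (by decide +kernel)
theorem L65564 : W_24 (nat_lit 7) (nat_lit 0x6000380010000c0000000000000000000000000000000) (nat_lit 0x0) (nat_lit 0xc0006000700130009800000000000000000000000000) := T_24 (nat_lit 128) (nat_lit 111) (nat_lit 6) (nat_lit 8) (nat_lit 10) L65563 (by decide +kernel)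
theorem L65565 : W_24 (nat_lit 8) (nat_lit 0x600038001000080000000000000000000000000000000) (nat_lit 0x0) (nat_lit 0xc000600070017000b800000000000000000000000000) := T_24 (nat_lit 126) (nat_lit 109) (nat_lit 4) (nat_lit 8) (nat_lit 10) L65564 (by decide +kernel)
theorem L65566 : W_24 (nat_lit 9) (nat_lit 0x200038001000080000000000000000000000000000000) (nat_lit 0x0) (nat_lit 0x40004c000600070017000b800000000000000000000000000) := T_24 (nat_lit 178) (nat_lit 194) (nat_lit 5) (nat_lit 8) (nat_lit 7) L65565 (by decide +kernel)
theorem L65567 : W_24 (nat_lit 12) (nat_lit 0x200030001000080000000000000000000000000000000) (nat_lit 0x0) (nat_lit 0x240012001f8075e01cf81c7e017000b800000000000000000000000000) := Q_24 (nat_lit 159) (C_24 L65524 (C_24 L65525 (C_24 L65543 (C_24 L65544 (C_24 L65558 (C_24 L65566 N_24)))))) (by decide +kernel)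
theorem L65568 : W_24 (nat_lit 2) (nat_lit 0x200030001000080000000000000000000000000000000) (nat_lit 0x0) (nat_lit 0x4000400000000800000000000000000000000000000000000) := D_24 (nat_lit 194) (nat_lit 178) (nat_lit 143) (nat_lit 5) (nat_lit 8) (nat_lit 7) (nat_lit 6) (nat_lit 7) (nat_lit 11) (by decide +kernel)
theorem L65569 : W_24 (nat_lit 4) (nat_lit 0x300030001000080000000000000000000000000000000) (nat_lit 0x0) (nat_lit 0x6000000008000800040002000100000000000000000000000) := T_24 (nat_lit 143) (nat_lit 194) (nat_lit 6) (nat_lit 7) (nat_lit 11) L65389 (by decide +kernel)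
theorem L65570 : W_24 (nat_lit 2) (nat_lit 0x3400b0001a003f0008800100000000000000000000000) (nat_lit 0x0) (nat_lit 0x100000000c000000000000000000000000000000000000) := D_24 (nat_lit 146) (nat_lit 147) (nat_lit 180) (nat_lit 3) (nat_lit 7) (nat_lit 7) (nat_lit 4) (nat_lit 10) (nat_lit 10) (by decide +kernel)
theorem L65571 : W_24 (nat_lit 3) (nat_lit 0x3400b0001a001f0008800100000000000000000000000) (nat_lit 0x0) (nat_lit 0x100000000c000600000000000000000000000000000000) := T_24 (nat_lit 129) (nat_lit 130) (nat_lit 1) (nat_lit 11) (nat_lit 7) L65570 (by decide +kernel)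
theorem L65572 : W_24 (nat_lit 4) (nat_lit 0x3400b0001a001f0000800100000000000000000000000) (nat_lit 0x0) (nat_lit 0x100000000c000600018000000000000000000000000000) := T_24 (nat_lit 111) (nat_lit 112) (nat_lit 2) (nat_lit 6) (nat_lit 7) L65571 (by decide +kernel)
theorem L65573 : W_24 (nat_lit 5) (nat_lit 0x3400b0001a000f0000800100000000000000000000000) (nat_lit 0x0) (nat_lit 0x100000000c400700018000000000000000000000000000) := T_24 (nat_lit 128) (nat_lit 142) (nat_lit 2) (nat_lit 5) (nat_lit 8) L65572 (by decide +kernel)
theorem L65574 : W_24 (nat_lit 6) (nat_lit 0x3400b00018000f0000800100000000000000000000000) (nat_lit 0x0) (nat_lit 0x100000000c700700018000000000000000000000000000) := T_24 (nat_lit 141) (nat_lit 140) (nat_lit 1) (nat_lit 8) (nat_lit 7) L65573 (by decide +kernel)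
theorem L65575 : W_24 (nat_lit 7) (nat_lit 0x3400b00018000f0000000100000000000000000000000) (nat_lit 0x0) (nat_lit 0x100000000c700700018c00000000000000000000000000) := T_24 (nat_lit 107) (nat_lit 106) (nat_lit 0) (nat_lit 8) (nat_lit 7) L65574 (by decide +kernel)
theorem L65576 : W_24 (nat_lit 8) (nat_lit 0x3400b00018000f0000000000000000000000000000000) (nat_lit 0x0) (nat_lit 0x100000000c70070001ac00100000000000000000000000) := T_24 (nat_lit 92) (nat_lit 109) (nat_lit 7) (nat_lit 7) (nat_lit 5) L65575 (by decide +kernel)
theorem L65577 : W_24 (nat_lit 9) (nat_lit 0x3400b00018000e0000000000000000000000000000000) (nat_lit 0x0) (nat_lit 0x100000000c70071801ac00100000000000000000000000) := T_24 (nat_lit 124) (nat_lit 123) (nat_lit 3) (nat_lit 4) (nat_lit 7) L65576 (by decide +kernel)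
theorem L65578 : W_24 (nat_lit 10) (nat_lit 0x3400b00018000c0000000000000000000000000000000) (nat_lit 0x0) (nat_lit 0x100000000c70073801bc00100000000000000000000000) := T_24 (nat_lit 125) (nat_lit 108) (nat_lit 4) (nat_lit 7) (nat_lit 10) L65577 (by decide +kernel)
theorem L65579 : W_24 (nat_lit 11) (nat_lit 0x3400b0001800080000000000000000000000000000000) (nat_lit 0x0) (nat_lit 0x200100000000c70077801bc00100000000000000000000000) := T_24 (nat_lit 126) (nat_lit 193) (nat_lit 5) (nat_lit 7) (nat_lit 7) L65578 (by decide +kernel)
theorem L65580 : W_24 (nat_lit 12) (nat_lit 0x3400b0001000080000000000000000000000000000000) (nat_lit 0x0) (nat_lit 0x600100000000cf0077801bc00100000000000000000000000) := T_24 (nat_lit 143) (nat_lit 194) (nat_lit 6) (nat_lit 7) (nat_lit 11) L65579 (by decide +kernel)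
theorem L65581 : W_24 (nat_lit 13) (nat_lit 0x3000b0001000080000000000000000000000000000000) (nat_lit 0x0) (nat_lit 0x60010c000000cf0077801bc00100000000000000000000000) := T_24 (nat_lit 174) (nat_lit 175) (nat_lit 2) (nat_lit 4) (nat_lit 10) L65580 (by decide +kernel)
theorem L65582 : W_24 (nat_lit 14) (nat_lit 0x300030001000080000000000000000000000000000000) (nat_lit 0x0) (nat_lit 0x60010c00c000cf0077801bc00100000000000000000000000) := T_24 (nat_lit 163) (nat_lit 162) (nat_lit 1) (nat_lit 10) (nat_lit 9) L65581 (by decide +kernel)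
theorem L65583 : W_24 (nat_lit 15) (nat_lit 0x200030001000080000000000000000000000000000000) (nat_lit 0x0) (nat_lit 0x60011c00c800cf0077801bc00100000000000000000000000) := Q_24 (nat_lit 176) (C_24 L65569 (C_24 L65387 (C_24 L65582 N_24))) (by decide +kernel)
theorem L65584 : W_24 (nat_lit 17) (nat_lit 0x200010001000080000000000000000000000000000000) (nat_lit 0x0) (nat_lit 0x640032001f8075e01ef81cfe077807be005c002c000000000000000000) := Q_24 (nat_lit 161) (C_24 L65518 (C_24 L65567 (C_24 L65568 (C_24 L65583 N_24)))) (by decide +kernel)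
theorem L65585 : W_24 (nat_lit 18) (nat_lit 0x200000001000080000000000000000000000000000000) (nat_lit 0x0) (nat_lit 0x400068007f01ff007fc01ff875f81ffc1cfe077f07be005e002f000380004000000000) := Q_24 (nat_lit 160) (C_24 L63948 (C_24 L63949 (C_24 L64725 (C_24 L64726 (C_24 L65370 (C_24 L65584 N_24)))))) (by decide +kernel)
end Crest.Agent.Helper32.Snaky.R1_0
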