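import Crest.Agent.Helper32.Snaky.Gen.R1_0_p2
set_option autoImplicit false
set_option maxRecDepth 100000
set_option linter.all false
set_option Elab.async false
namespace Crest.Agent.Helper32.Snaky.R1_0
@[reducible] def W_25 (d M Bz Z : Nat) : Prop := Crest.Agent.Helper32.Snaky.Wins (nat_lit 17) d M Bz Z
theorem D_25 {d M Bz Z : Nat} (m t1 t2 o1 x1 y1 o2 x2 y2 : Nat) (h : Crest.Agent.Helper32.Snaky.chkDoubleC (nat_lit 17) d M Bz Z m t1 t2 o1 x1 y1 o2 x2 y2 = true) : W_25 d M Bz Z := Crest.Agent.Helper32.Snaky.doubleC m t1 t2 o1 x1 y1 o2 x2 y2 h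
theorem T_25 {d M Bz Z cd cM cBz cZ : Nat} (m t o x y : Nat) (child : W_25 cd cM cBz cZ) (h : Crest.Agent.Helper32.Snaky.chkThreatC (nat_lit 17) d M Bz Z cd cM cBz cZ m t o x y = true) : W_25 d M Bz Z := Crest.Agent.Helper32.Snaky.threatC m t o x y child h
theorem Q_25 {d M Bz Z : Nat} (m : Nat) {l : List Crest.Agent.Helper32.Snaky.Spec} (kids : Crest.Agent.Helper32.Snaky.AllWins (nat_lit 17) l) (h : Crest.Agent.Helper32.Snaky.chkQuiet d M Bz Z m l = true) : W_25 d M Bz Z := Crest.Agent.Helper32.Snaky.quiet m kids h
theorem C_25 {cd cM cBz cZ : Nat} {l : List Crest.Agent.Helper32.Snaky.Spec} (h : W_25 cd cM cBz cZ) (hl : Crest.Agent.Helper32.Snaky.AllWins (nat_lit 17) l) : Crest.Agent.Helper32.Snaky.AllWins (nat_lit 17) ((cd, cM, cBz, cZ) :: l) := Crest.Agent.Helper32.Snaky.AllWins.cons h hl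
theorem N_25 : Crest.Agent.Helper32.Snaky.AllWins (nat_lit 17) [] := Crest.Agent.Helper32.Snaky.AllWins.nil
theorem L5543 : W_25 (nat_lit 2) (nat_lit 0x14000f00008001400080000000000000000000000000000000) (nat_lit 0x0) (nat_lit 0x80003000000000000000000000000000000000000000000000000) := D_25 (nat_lit 193) (nat_lit 192) (nat_lit 211) (nat_lit 1) (nat_lit 9) (nat_lit 10) (nat_lit 7) (nat_lit 6) (nat_lit 8) (by decide +kernel)
theorem L5544 : W_25 (nat_lit 3) (nat_lit 0x14000f00008001000080000000000000000000000000000000) (nat_lit 0x0) (nat_lit 0x80003000000000000400020000000000000000000000000000000) := T_25 (nat_lit 142) (nat_lit 125) (nat_lit 7) (nat_lit 6) (nat_lit 7) L5543 (by decide +kernel)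
theorem L5545 : W_25 (nat_lit 4) (nat_lit 0x4000f00008001000080000000000000000000000000000000) (nat_lit 0x0) (nat_lit 0x80033000000000000400020000000000000000000000000000000) := T_25 (nat_lit 196) (nat_lit 197) (nat_lit 3) (nat_lit 6) (nat_lit 10) L5544 (by decide +kernel)
theorem L5546 : W_25 (nat_lit 5) (nat_lit 0x4000f00000001000080000000000000000000000000000000) (nat_lit 0x0) (nat_lit 0x8003300000000c000400020000000000000000000000000000000) := T_25 (nat_lit 159) (nat_lit 158) (nat_lit 0) (nat_lit 9) (nat_lit 10) L5545 (by decide +kernel)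
theorem L5547 : W_25 (nat_lit 2) (nat_lit 0x14000f00058001000080000000000000000000000000000000) (nat_lit 0x0) (nat_lit 0x80000000000000000400020000000000000000000000000000000) := D_25 (nat_lit 142) (nat_lit 125) (nat_lit 211) (nat_lit 7) (nat_lit 6) (nat_lit 7) (nat_lit 4) (nat_lit 7) (nat_lit 12) (by decide +kernel)
theorem L5548 : W_25 (nat_lit 3) (nat_lit 0x14000f00050001000080000000000000000000000000000000) (nat_lit 0x0) (nat_lit 0x8000000000000c000400020000000000000000000000000000000) := T_25 (nat_lit 159) (nat_lit 158) (nat_lit 0) (nat_lit 9) (nat_lit 10) L5547 (by decide +kernel)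
theorem L5549 : W_25 (nat_lit 4) (nat_lit 0x14000f00010001000080000000000000000000000000000000) (nat_lit 0x0) (nat_lit 0x800000000000cc000400020000000000000000000000000000000) := T_25 (nat_lit 162) (nat_lit 163) (nat_lit 2) (nat_lit 6) (nat_lit 10) L5548 (by decide +kernel)
theorem L5550 : W_25 (nat_lit 5) (nat_lit 0x4000f00010001000080000000000000000000000000000000) (nat_lit 0x0) (nat_lit 0x800300000000cc000400020000000000000000000000000000000) := T_25 (nat_lit 196) (nat_lit 197) (nat_lit 3) (nat_lit 6) (nat_lit 10) L5549 (by decide +kernel)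
theorem L5551 : W_25 (nat_lit 6) (nat_lit 0x4000f00000001000080000000000000000000000000000000) (nat_lit 0x0) (nat_lit 0x800300000000dc000c00020000000000000000000000000000000) := T_25 (nat_lit 160) (nat_lit 143) (nat_lit 6) (nat_lit 7) (nat_lit 11) L5550 (by decide +kernel)
theorem L5552 : W_25 (nat_lit 2) (nat_lit 0x40016000f000180010000a0000000000000000000000000000000) (nat_lit 0x0) (nat_lit 0x400020008000000000000000000000000000000000000000000000000) := D_25 (nat_lit 209) (nat_lit 195) (nat_lit 226) (nat_lit 1) (nat_lit 9) (nat_lit 11) (nat_lit 5) (nat_lit 6) (nat_lit 9) (by decide +kernel)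
theorem L5553 : W_25 (nat_lit 3) (nat_lit 0x40006000f000180010000a0000000000000000000000000000000) (nat_lit 0x0) (nat_lit 0x400020038000000000000000000000000000000000000000000000000) := T_25 (nat_lit 196) (nat_lit 197) (nat_lit 3) (nat_lit 6) (nat_lit 10) L5552 (by decide +kernel)
theorem L5554 : W_25 (nat_lit 4) (nat_lit 0x6000f000180010000a0000000000000000000000000000000) (nat_lit 0x0) (nat_lit 0xc00060038000000000000000000000000000000000000000000000000) := T_25 (nat_lit 210) (nat_lit 227) (nat_lit 6) (nat_lit 6) (nat_lit 13) L5553 (by decide +kernel)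
theorem L5555 : W_25 (nat_lit 5) (nat_lit 0x6000f000080010000a0000000000000000000000000000000) (nat_lit 0x0) (nat_lit 0xc00060038000000010000800000000000000000000000000000000000) := T_25 (nat_lit 160) (nat_lit 143) (nat_lit 6) (nat_lit 7) (nat_lit 11) L5554 (by decide +kernel)
theorem L5556 : W_25 (nat_lit 6) (nat_lit 0x6000f00008001000080000000000000000000000000000000) (nat_lit 0x0) (nat_lit 0xc00060038000000010000c00020000000000000000000000000000000) := T_25 (nat_lit 125) (nat_lit 142) (nat_lit 7) (nat_lit 6) (nat_lit 7) L5555 (by decide +kernel)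
theorem L5557 : W_25 (nat_lit 7) (nat_lit 0x4000f00008001000080000000000000000000000000000000) (nat_lit 0x0) (nat_lit 0xc0006003b000000010000c00020000000000000000000000000000000) := T_25 (nat_lit 193) (nat_lit 192) (nat_lit 1) (nat_lit 9) (nat_lit 10) L5556 (by decide +kernel)
theorem L5558 : W_25 (nat_lit 8) (nat_lit 0x4000f00000001000080000000000000000000000000000000) (nat_lit 0x0) (nat_lit 0xc0006003b00000001c000c00020000000000000000000000000000000) := T_25 (nat_lit 159) (nat_lit 158) (nat_lit 0) (nat_lit 9) (nat_lit 10) L5557 (by decide +kernel)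
theorem L5562 : W_25 (nat_lit 2) (nat_lit 0x200024001e000f00050001000080000000000000000000000000000000) (nat_lit 0x0) (nat_lit 0xc0004000000000000000000000000000000000000000000000000000000000) := D_25 (nat_lit 230) (nat_lit 247) (nat_lit 246) (nat_lit 4) (nat_lit 9) (nat_lit 14) (nat_lit 5) (nat_lit 9) (nat_lit 10) (by decide +kernel)
theorem L5563 : W_25 (nat_lit 3) (nat_lit 0x200004001e000f00050001000080000000000000000000000000000000) (nat_lit 0x0) (nat_lit 0xc0004000600000000000000000000000000000000000000000000000000000) := T_25 (nat_lit 213) (nat_lit 214) (nat_lit 3) (nat_lit 6) (nat_lit 11) L5562 (by decide +kernel)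
theorem L5564 : W_25 (nat_lit 4) (nat_lit 0x4001e000f00050001000080000000000000000000000000000000) (nat_lit 0x0) (nat_lit 0xc0006000700000000000000000000000000000000000000000000000000000) := T_25 (nat_lit 229) (nat_lit 212) (nat_lit 6) (nat_lit 8) (nat_lit 13) L5563 (by decide +kernel)
theorem L5565 : W_25 (nat_lit 5) (nat_lit 0x4001e000f00010001000080000000000000000000000000000000) (nat_lit 0x0) (nat_lit 0xc00060007000000000000c0000000000000000000000000000000000000000) := T_25 (nat_lit 162) (nat_lit 163) (nat_lit 2) (nat_lit 6) (nat_lit 10) L5564 (by decide +kernel)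
theorem L5566 : W_25 (nat_lit 6) (nat_lit 0x40016000f00010001000080000000000000000000000000000000) (nat_lit 0x0) (nat_lit 0xc00060007200080000000c0000000000000000000000000000000000000000) := T_25 (nat_lit 195) (nat_lit 209) (nat_lit 1) (nat_lit 9) (nat_lit 11) L5565 (by decide +kernel)
theorem L5567 : W_25 (nat_lit 7) (nat_lit 0x40006000f00010001000080000000000000000000000000000000) (nat_lit 0x0) (nat_lit 0xc00060007200380000000c0000000000000000000000000000000000000000) := T_25 (nat_lit 196) (nat_lit 197) (nat_lit 3) (nat_lit 6) (nat_lit 10) L5566 (by decide +kernel)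
theorem L5568 : W_25 (nat_lit 8) (nat_lit 0x6000f00010001000080000000000000000000000000000000) (nat_lit 0x0) (nat_lit 0xc00068007600380000000c0000000000000000000000000000000000000000) := T_25 (nat_lit 210) (nat_lit 227) (nat_lit 6) (nat_lit 6) (nat_lit 13) L5567 (by decide +kernel)
theorem L5569 : W_25 (nat_lit 9) (nat_lit 0x6000f00000001000080000000000000000000000000000000) (nat_lit 0x0) (nat_lit 0xc00068007600380000000d0000800000000000000000000000000000000000) := T_25 (nat_lit 160) (nat_lit 143) (nat_lit 6) (nat_lit 7) (nat_lit 11) L5568 (by decide +kernel)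
theorem L5570 : W_25 (nat_lit 10) (nat_lit 0x4000f00000001000080000000000000000000000000000000) (nat_lit 0x0) (nat_lit 0xc000680076003b0000000d0000800000000000000000000000000000000000) := T_25 (nat_lit 193) (nat_lit 192) (nat_lit 1) (nat_lit 9) (nat_lit 10) L5569 (by decide +kernel)
theorem L5571 : W_25 (nat_lit 11) (nat_lit 0xf00000001000080000000000000000000000000000000) (nat_lit 0x0) (nat_lit 0xc0006c007e003f0000000dc000c00020000000000000000000000000000000) := Q_25 (nat_lit 194) (C_25 L5546 (C_25 L5551 (C_25 L5558 (C_25 L5561 (C_25 L5570 N_25))))) (by decide +kernel)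
theorem L5572 : W_25 (nat_lit 2) (nat_lit 0x12000f00044001000080000000000000000000000000000000) (nat_lit 0x0) (nat_lit 0x8000080002000000000000000000000000000000000000000) := D_25 (nat_lit 175) (nat_lit 195) (nat_lit 157) (nat_lit 3) (nat_lit 5) (nat_lit 10) (nat_lit 0) (nat_lit 8) (nat_lit 10) (by decide +kernel)
theorem L5573 : W_25 (nat_lit 3) (nat_lit 0x2000f00044001000080000000000000000000000000000000) (nat_lit 0x0) (nat_lit 0x38000080002000000000000000000000000000000000000000) := T_25 (nat_lit 196) (nat_lit 197) (nat_lit 3) (nat_lit 6) (nat_lit 10) L5572 (by decide +kernel)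
theorem L5574 : W_25 (nat_lit 4) (nat_lit 0x2000f00040001000080000000000000000000000000000000) (nat_lit 0x0) (nat_lit 0x3800008000e000000000000000000000000000000000000000) := T_25 (nat_lit 158) (nat_lit 159) (nat_lit 0) (nat_lit 9) (nat_lit 10) L5573 (by decide +kernel)
theorem L5575 : W_25 (nat_lit 5) (nat_lit 0xf00040001000080000000000000000000000000000000) (nat_lit 0x0) (nat_lit 0x3b00008000e000000000000000000000000000000000000000) := T_25 (nat_lit 193) (nat_lit 192) (nat_lit 1) (nat_lit 9) (nat_lit 10) L5574 (by decide +kernel)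
theorem L5576 : W_25 (nat_lit 6) (nat_lit 0xf00000001000080000000000000000000000000000000) (nat_lit 0x0) (nat_lit 0x3b0000800ce000000000000000000000000000000000000000) := T_25 (nat_lit 162) (nat_lit 163) (nat_lit 2) (nat_lit 6) (nat_lit 10) L5575 (by decide +kernel)
theorem L5579 : W_25 (nat_lit 4) (nat_lit 0x1000f00040001000080000000000000000000000000000000) (nat_lit 0x0) (nat_lit 0x3080008000e000000000000000000000000000000000000000) := T_25 (nat_lit 196) (nat_lit 197) (nat_lit 3) (nat_lit 6) (nat_lit 10) L5578 (by decide +kernel)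
theorem L5580 : W_25 (nat_lit 5) (nat_lit 0xf00040001000080000000000000000000000000000000) (nat_lit 0x0) (nat_lit 0x3380008000e000000000000000000000000000000000000000) := T_25 (nat_lit 192) (nat_lit 193) (nat_lit 1) (nat_lit 9) (nat_lit 10) L5579 (by decide +kernel)
theorem L5581 : W_25 (nat_lit 6) (nat_lit 0xf00000001000080000000000000000000000000000000) (nat_lit 0x0) (nat_lit 0x338000800ce000000000000000000000000000000000000000) := T_25 (nat_lit 162) (nat_lit 163) (nat_lit 2) (nat_lit 6) (nat_lit 10) L5580 (by decide +kernel)
theorem L5585 : W_25 (nat_lit 2) (nat_lit 0x12400fc0042001000080000000000000000000000000000000) (nat_lit 0x0) (nat_lit 0x4200020000000000000000000000000000000000000000000) := D_25 (nat_lit 173) (nat_lit 194) (nat_lit 189) (nat_lit 3) (nat_lit 3) (nat_lit 10) (nat_lit 1) (nat_lit 6) (nat_lit 10) (by decide +kernel)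
theorem L5586 : W_25 (nat_lit 3) (nat_lit 0x12000fc0042001000080000000000000000000000000000000) (nat_lit 0x0) (nat_lit 0x4e00020000000000000000000000000000000000000000000) := T_25 (nat_lit 190) (nat_lit 191) (nat_lit 1) (nat_lit 7) (nat_lit 10) L5585 (by decide +kernel)
theorem L5587 : W_25 (nat_lit 4) (nat_lit 0x12000f80042001000080000000000000000000000000000000) (nat_lit 0x0) (nat_lit 0x4e00060001000000000000000000000000000000000000000) := T_25 (nat_lit 174) (nat_lit 156) (nat_lit 0) (nat_lit 7) (nat_lit 10) L5586 (by decide +kernel)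
theorem L5588 : W_25 (nat_lit 5) (nat_lit 0x12000f80002001000080000000000000000000000000000000) (nat_lit 0x0) (nat_lit 0x4e000600c1000000000000000000000000000000000000000) := T_25 (nat_lit 162) (nat_lit 163) (nat_lit 2) (nat_lit 6) (nat_lit 10) L5587 (by decide +kernel)
theorem L5589 : W_25 (nat_lit 6) (nat_lit 0x12000f80000001000080000000000000000000000000000000) (nat_lit 0x0) (nat_lit 0x4e000600c7000000000000000000000000000000000000000) := T_25 (nat_lit 157) (nat_lit 158) (nat_lit 0) (nat_lit 8) (nat_lit 10) L5588 (by decide +kernel)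
theorem L5590 : W_25 (nat_lit 7) (nat_lit 0x12000f00000001000080000000000000000000000000000000) (nat_lit 0x0) (nat_lit 0xce000e00c7000000000000000000000000000000000000000) := T_25 (nat_lit 175) (nat_lit 195) (nat_lit 3) (nat_lit 5) (nat_lit 10) L5589 (by decide +kernel)
theorem L5591 : W_25 (nat_lit 8) (nat_lit 0x2000f00000001000080000000000000000000000000000000) (nat_lit 0x0) (nat_lit 0x3ce000e00c7000000000000000000000000000000000000000) := T_25 (nat_lit 196) (nat_lit 197) (nat_lit 3) (nat_lit 6) (nat_lit 10) L5590 (by decide +kernel)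
theorem L5592 : W_25 (nat_lit 9) (nat_lit 0xf00000001000080000000000000000000000000000000) (nat_lit 0x0) (nat_lit 0x3fe000e00c7000000000000000000000000000000000000000) := T_25 (nat_lit 193) (nat_lit 192) (nat_lit 1) (nat_lit 9) (nat_lit 10) L5591 (by decide +kernel)
theorem L5593 : W_25 (nat_lit 2) (nat_lit 0x11000f00040001000080000000000000000000000000000000) (nat_lit 0x0) (nat_lit 0x8800080000000000000000000000000000000000000000000) := D_25 (nat_lit 175) (nat_lit 195) (nat_lit 191) (nat_lit 3) (nat_lit 5) (nat_lit 10) (nat_lit 1) (nat_lit 8) (nat_lit 10) (by decide +kernel)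
theorem L5594 : W_25 (nat_lit 3) (nat_lit 0x1000f00040001000080000000000000000000000000000000) (nat_lit 0x0) (nat_lit 0x38800080000000000000000000000000000000000000000000) := T_25 (nat_lit 196) (nat_lit 197) (nat_lit 3) (nat_lit 6) (nat_lit 10) L5593 (by decide +kernel)
theorem L5595 : W_25 (nat_lit 4) (nat_lit 0xf00040001000080000000000000000000000000000000) (nat_lit 0x0) (nat_lit 0x3b800080000000000000000000000000000000000000000000) := T_25 (nat_lit 192) (nat_lit 193) (nat_lit 1) (nat_lit 9) (nat_lit 10) L5594 (by decide +kernel)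
theorem L5596 : W_25 (nat_lit 5) (nat_lit 0xf00000001000080000000000000000000000000000000) (nat_lit 0x0) (nat_lit 0x3b8000800c0000000000000000000000000000000000000000) := T_25 (nat_lit 162) (nat_lit 163) (nat_lit 2) (nat_lit 6) (nat_lit 10) L5595 (by decide +kernel)
theorem L5597 : W_25 (nat_lit 12) (nat_lit 0xe00000001000080000000000000000000000000000000) (nat_lit 0x0) (nat_lit 0xc0006c007e003fe001e00df000c00020000000000000000000000000000000) := Q_25 (nat_lit 176) (C_25 L5571 (C_25 L5576 (C_25 L4767 (C_25 L5581 (C_25 L5584 (C_25 L5592 (C_25 L5596 N_25))))))) (by decide +kernel)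
theorem L5598 : W_25 (nat_lit 2) (nat_lit 0x20001e000900058002c0003400000008000000000000000000) (nat_lit 0x0) (nat_lit 0x8000400020000000000000000000000000000) := D_25 (nat_lit 130) (nat_lit 147) (nat_lit 113) (nat_lit 6) (nat_lit 10) (nat_lit 11) (nat_lit 6) (nat_lit 10) (nat_lit 10) (by decide +kernel)
theorem L5599 : W_25 (nat_lit 3) (nat_lit 0x20001e000900018002c0003400000008000000000000000000) (nat_lit 0x0) (nat_lit 0x1000000000000c000400020000000000000000000000000000) := T_25 (nat_lit 146) (nat_lit 196) (nat_lit 5) (nat_lit 10) (nat_lit 7) L5598 (by decide +kernel)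
theorem L5600 : W_25 (nat_lit 4) (nat_lit 0x20001e000900018000c0003400000008000000000000000000) (nat_lit 0x0) (nat_lit 0x1000000000000c000700020000000000000000000000000000) := T_25 (nat_lit 129) (nat_lit 128) (nat_lit 0) (nat_lit 10) (nat_lit 7) L5599 (by decide +kernel)
theorem L5601 : W_25 (nat_lit 5) (nat_lit 0x20001e000900018000c0003400000000000000000000000000) (nat_lit 0x0) (nat_lit 0x1000000000000c000700020000100008000000000000000000) := T_25 (nat_lit 75) (nat_lit 92) (nat_lit 7) (nat_lit 7) (nat_lit 4) L5600 (by decide +kernel)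
theorem L5602 : W_25 (nat_lit 6) (nat_lit 0x20001e000900018000c0003000000000000000000000000000) (nat_lit 0x0) (nat_lit 0x1000000000000c000700020c00100008000000000000000000) := T_25 (nat_lit 106) (nat_lit 107) (nat_lit 3) (nat_lit 4) (nat_lit 6) L5601 (by decide +kernel)
theorem L5603 : W_25 (nat_lit 7) (nat_lit 0x20001e000900018000c0001000000000000000000000000000) (nat_lit 0x0) (nat_lit 0x1000000000000c000700022c00180008000000000000000000) := T_25 (nat_lit 109) (nat_lit 91) (nat_lit 4) (nat_lit 7) (nat_lit 9) L5602 (by decide +kernel)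
theorem L5604 : W_25 (nat_lit 8) (nat_lit 0x20001e000900018000c0000000000000000000000000000000) (nat_lit 0x0) (nat_lit 0x1000000000000c000720023c00180008000000000000000000) := T_25 (nat_lit 108) (nat_lit 125) (nat_lit 4) (nat_lit 7) (nat_lit 10) L5603 (by decide +kernel)
theorem L5605 : W_25 (nat_lit 9) (nat_lit 0x20001e00090001800080000000000000000000000000000000) (nat_lit 0x0) (nat_lit 0x1800000000000c000760023c00180008000000000000000000) := T_25 (nat_lit 126) (nat_lit 195) (nat_lit 7) (nat_lit 7) (nat_lit 7) L5604 (by decide +kernel)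
theorem L5606 : W_25 (nat_lit 10) (nat_lit 0x20001e00090001000080000000000000000000000000000000) (nat_lit 0x0) (nat_lit 0x1c00000000000c800760023c00180008000000000000000000) := T_25 (nat_lit 143) (nat_lit 194) (nat_lit 6) (nat_lit 7) (nat_lit 11) L5605 (by decide +kernel)
theorem L5607 : W_25 (nat_lit 11) (nat_lit 0x20001e00080001000080000000000000000000000000000000) (nat_lit 0x0) (nat_lit 0x1c00000001800c800760023c00180008000000000000000000) := T_25 (nat_lit 160) (nat_lit 159) (nat_lit 0) (nat_lit 10) (nat_lit 10) L5606 (by decide +kernel)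
theorem L5608 : W_25 (nat_lit 12) (nat_lit 0x1e00080001000080000000000000000000000000000000) (nat_lit 0x0) (nat_lit 0x7c00000001800c800760023c00180008000000000000000000) := T_25 (nat_lit 197) (nat_lit 198) (nat_lit 3) (nat_lit 7) (nat_lit 10) L5607 (by decide +kernel)
theorem L5609 : W_25 (nat_lit 13) (nat_lit 0x1e00000001000080000000000000000000000000000000) (nat_lit 0x0) (nat_lit 0x7c00000019800c800760023c00180008000000000000000000) := T_25 (nat_lit 163) (nat_lit 164) (nat_lit 2) (nat_lit 7) (nat_lit 10) L5608 (by decide +kernel)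
theorem L5614 : W_25 (nat_lit 14) (nat_lit 0xe00000001000080000000000000000000000000000000) (nat_lit 0x0) (nat_lit 0xfe00300039800c800760023c00180008000000000000000000) := Q_25 (nat_lit 180) (C_25 L4777 (C_25 L4781 (C_25 L5609 (C_25 L5613 N_25)))) (by decide +kernel)
theorem L5621 : W_25 (nat_lit 8) (nat_lit 0xe00000001000080000000000000000000000000000000) (nat_lit 0x0) (nat_lit 0x7f0031c03ce000000000000000000000000000000000000000) := Q_25 (nat_lit 180) (C_25 L4781 (C_25 L5617 (C_25 L5620 (C_25 L4802 N_25)))) (by decide +kernel)
theorem L5622 : W_25 (nat_lit 10) (nat_lit 0xe00000001000080000000000000000000000000000000) (nat_lit 0x0) (nat_lit 0x100008000cc00fc0031c03d8000800000000000000000000000000000000000) := Q_25 (nat_lit 180) (C_25 L5617 (C_25 L5613 (C_25 L4813 (C_25 L4821 N_25)))) (by decide +kernel)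
theorem L5627 : W_25 (nat_lit 2) (nat_lit 0x22000f00040001000080000000000000000000000000000000) (nat_lit 0x0) (nat_lit 0x44001000000000000000000000000000000000000000000000) := D_25 (nat_lit 180) (nat_lit 198) (nat_lit 194) (nat_lit 3) (nat_lit 7) (nat_lit 10) (nat_lit 1) (nat_lit 10) (nat_lit 10) (by decide +kernel)
theorem L5628 : W_25 (nat_lit 3) (nat_lit 0x20000f00040001000080000000000000000000000000000000) (nat_lit 0x0) (nat_lit 0x47001000000000000000000000000000000000000000000000) := T_25 (nat_lit 193) (nat_lit 192) (nat_lit 1) (nat_lit 9) (nat_lit 10) L5627 (by decide +kernel)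
theorem L5629 : W_25 (nat_lit 4) (nat_lit 0xf00040001000080000000000000000000000000000000) (nat_lit 0x0) (nat_lit 0x77001000000000000000000000000000000000000000000000) := T_25 (nat_lit 197) (nat_lit 196) (nat_lit 3) (nat_lit 6) (nat_lit 10) L5628 (by decide +kernel)
theorem L5630 : W_25 (nat_lit 5) (nat_lit 0xf00000001000080000000000000000000000000000000) (nat_lit 0x0) (nat_lit 0x770010000c0000000000000000000000000000000000000000) := T_25 (nat_lit 162) (nat_lit 163) (nat_lit 2) (nat_lit 6) (nat_lit 10) L5629 (by decide +kernel)
theorem L5631 : W_25 (nat_lit 6) (nat_lit 0xe00000001000080000000000000000000000000000000) (nat_lit 0x0) (nat_lit 0x778011801de000000000000000000000000000000000000000) := Q_25 (nat_lit 176) (C_25 L5626 (C_25 L5584 (C_25 L5630 N_25))) (by decide +kernel)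
theorem L5638 : W_25 (nat_lit 7) (nat_lit 0xe00000001000080000000000000000000000000000000) (nat_lit 0x0) (nat_lit 0x10000800078011801de000c00000000000000000000000000000000000) := Q_25 (nat_lit 176) (C_25 L5635 (C_25 L5584 (C_25 L5637 (C_25 L4847 N_25)))) (by decide +kernel)
theorem L5639 : W_25 (nat_lit 6) (nat_lit 0xe00000001000080000000000000000000000000000000) (nat_lit 0x0) (nat_lit 0x3b8011801de000000000000000000000000000000000000000) := Q_25 (nat_lit 176) (C_25 L5626 (C_25 L5596 (C_25 L5584 N_25))) (by decide +kernel)
theorem L5640 : W_25 (nat_lit 2) (nat_lit 0x20001f00000001000080000000000000000000000000000000) (nat_lit 0x0) (nat_lit 0x7000000000000000000000000000000000000000000000000) := D_25 (nat_lit 193) (nat_lit 192) (nat_lit 194) (nat_lit 1) (nat_lit 9) (nat_lit 10) (nat_lit 1) (nat_lit 10) (nat_lit 10) (by decide +kernel)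
theorem L5641 : W_25 (nat_lit 3) (nat_lit 0x20001e00000001000080000000000000000000000000000000) (nat_lit 0x0) (nat_lit 0x17000100000000000000000000000000000000000000000000) := T_25 (nat_lit 176) (nat_lit 196) (nat_lit 3) (nat_lit 6) (nat_lit 10) L5640 (by decide +kernel)
theorem L5642 : W_25 (nat_lit 4) (nat_lit 0x1e00000001000080000000000000000000000000000000) (nat_lit 0x0) (nat_lit 0x77000100000000000000000000000000000000000000000000) := T_25 (nat_lit 197) (nat_lit 198) (nat_lit 3) (nat_lit 7) (nat_lit 10) L5641 (by decide +kernel)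
theorem L5643 : W_25 (nat_lit 6) (nat_lit 0xe00000001000080000000000000000000000000000000) (nat_lit 0x0) (nat_lit 0x7f0031003c0000000000000000000000000000000000000000) := Q_25 (nat_lit 180) (C_25 L5620 (C_25 L4781 (C_25 L5617 (C_25 L5642 N_25)))) (by decide +kernel)
theorem L5644 : W_25 (nat_lit 6) (nat_lit 0xe00000001000080000000000000000000000000000000) (nat_lit 0x0) (nat_lit 0x3f80118001e000000000000000000000000000000000000000) := Q_25 (nat_lit 176) (C_25 L4838 (C_25 L5584 (C_25 L4767 (C_25 L4774 N_25)))) (by decide +kernel)
theorem L5645 : W_25 (nat_lit 15) (nat_lit 0x600000001000080000000000000000000000000000000) (nat_lit 0x0) (nat_lit 0x1c000fc00fe00ffe039e03df00cc00760023c00180008000000000000000000) := Q_25 (nat_lit 179) (C_25 L5597 (C_25 L5614 (C_25 L5621 (C_25 L5622 (C_25 L5631 (C_25 L5638 (C_25 L5639 (C_25 L5643 (C_25 L5644 N_25))))))))) (by decide +kernel)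
theorem L5646 : W_25 (nat_lit 2) (nat_lit 0xe000200018001c0000000000000000000000000000000) (nat_lit 0x0) (nat_lit 0x400600000000000000000000000000000000) := D_25 (nat_lit 129) (nat_lit 130) (nat_lit 142) (nat_lit 1) (nat_lit 11) (nat_lit 7) (nat_lit 1) (nat_lit 10) (nat_lit 7) (by decide +kernel)
theorem L5647 : W_25 (nat_lit 3) (nat_lit 0xe000200018000c0000000000000000000000000000000) (nat_lit 0x0) (nat_lit 0x400700008000000000000000000000000000) := T_25 (nat_lit 128) (nat_lit 111) (nat_lit 6) (nat_lit 8) (nat_lit 10) L5646 (by decide +kernel)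
theorem L5648 : W_25 (nat_lit 4) (nat_lit 0xe000200010000c0000000000000000000000000000000) (nat_lit 0x0) (nat_lit 0x8000000000000c00700008000000000000000000000000000) := T_25 (nat_lit 143) (nat_lit 195) (nat_lit 4) (nat_lit 8) (nat_lit 11) L5647 (by decide +kernel)
theorem L5649 : W_25 (nat_lit 5) (nat_lit 0x6000200010000c0000000000000000000000000000000) (nat_lit 0x0) (nat_lit 0x18000800000000c00700008000000000000000000000000000) := T_25 (nat_lit 179) (nat_lit 196) (nat_lit 7) (nat_lit 8) (nat_lit 7) L5648 (by decide +kernel)
theorem L5650 : W_25 (nat_lit 6) (nat_lit 0x600020001000080000000000000000000000000000000) (nat_lit 0x0) (nat_lit 0x18000800000000c0074000a000000000000000000000000000) := T_25 (nat_lit 126) (nat_lit 109) (nat_lit 4) (nat_lit 8) (nat_lit 10) L5649 (by decide +kernel)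
theorem L5651 : W_25 (nat_lit 7) (nat_lit 0x600000001000080000000000000000000000000000000) (nat_lit 0x0) (nat_lit 0x1c000800020000c0074000a000000000000000000000000000) := T_25 (nat_lit 161) (nat_lit 194) (nat_lit 5) (nat_lit 8) (nat_lit 7) L5650 (by decide +kernel)
theorem L5652 : W_25 (nat_lit 9) (nat_lit 0x600000001000080000000000000000000000000000000) (nat_lit 0x0) (nat_lit 0x10000c00378019801fe000c00040000000000000000000000000000000) := Q_25 (nat_lit 179) (C_25 L4870 (C_25 L5638 (C_25 L4877 N_25))) (by decide +kernel)
theorem L5653 : W_25 (nat_lit 12) (nat_lit 0x600000001000080000000000000000000000000000000) (nat_lit 0x0) (nat_lit 0x1a000f0007f8039801fe000000000000000000000000000000000000000) := Q_25 (nat_lit 179) (C_25 L4870 (C_25 L4892 (C_25 L5639 N_25))) (by decide +kernel)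
theorem L5654 : W_25 (nat_lit 2) (nat_lit 0x6000200018001c0000000000000000000000000000000) (nat_lit 0x0) (nat_lit 0x400600000000000000000000000000000000) := D_25 (nat_lit 129) (nat_lit 130) (nat_lit 142) (nat_lit 1) (nat_lit 11) (nat_lit 7) (nat_lit 1) (nat_lit 10) (nat_lit 7) (by decide +kernel)
theorem L5655 : W_25 (nat_lit 3) (nat_lit 0x6000200010001c0000000000000000000000000000000) (nat_lit 0x0) (nat_lit 0x8000000000000c00600000000000000000000000000000000) := T_25 (nat_lit 143) (nat_lit 195) (nat_lit 4) (nat_lit 8) (nat_lit 11) L5654 (by decide +kernel)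
theorem L5656 : W_25 (nat_lit 4) (nat_lit 0x6000200010000c0000000000000000000000000000000) (nat_lit 0x0) (nat_lit 0x8000000000000c00700008000000000000000000000000000) := T_25 (nat_lit 128) (nat_lit 111) (nat_lit 6) (nat_lit 8) (nat_lit 10) L5655 (by decide +kernel)
theorem L5657 : W_25 (nat_lit 5) (nat_lit 0x600020001000080000000000000000000000000000000) (nat_lit 0x0) (nat_lit 0x8000000000000c0074000a000000000000000000000000000) := T_25 (nat_lit 126) (nat_lit 109) (nat_lit 4) (nat_lit 8) (nat_lit 10) L5656 (by decide +kernel)
theorem L5658 : W_25 (nat_lit 6) (nat_lit 0x600000001000080000000000000000000000000000000) (nat_lit 0x0) (nat_lit 0xc000000020000c0074000a000000000000000000000000000) := T_25 (nat_lit 161) (nat_lit 194) (nat_lit 5) (nat_lit 8) (nat_lit 7) L5657 (by decide +kernel)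
theorem L5659 : W_25 (nat_lit 2) (nat_lit 0x2000f000680010000c0000000000000000000000000000000) (nat_lit 0x0) (nat_lit 0x10000c00000000000000000000000000000000000) := D_25 (nat_lit 143) (nat_lit 160) (nat_lit 142) (nat_lit 5) (nat_lit 7) (nat_lit 7) (nat_lit 6) (nat_lit 6) (nat_lit 11) (by decide +kernel)
theorem L5660 : W_25 (nat_lit 3) (nat_lit 0x2000f000600010000c0000000000000000000000000000000) (nat_lit 0x0) (nat_lit 0x1c000c00000000000000000000000000000000000) := T_25 (nat_lit 159) (nat_lit 158) (nat_lit 0) (nat_lit 9) (nat_lit 10) L5659 (by decide +kernel)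
theorem L5661 : W_25 (nat_lit 4) (nat_lit 0xf000600010000c0000000000000000000000000000000) (nat_lit 0x0) (nat_lit 0x300000001c000c00000000000000000000000000000000000) := T_25 (nat_lit 193) (nat_lit 192) (nat_lit 1) (nat_lit 9) (nat_lit 10) L5660 (by decide +kernel)
theorem L5662 : W_25 (nat_lit 5) (nat_lit 0xf000200010000c0000000000000000000000000000000) (nat_lit 0x0) (nat_lit 0x30000000dc000c00000000000000000000000000000000000) := T_25 (nat_lit 162) (nat_lit 163) (nat_lit 2) (nat_lit 6) (nat_lit 10) L5661 (by decide +kernel)
theorem L5663 : W_25 (nat_lit 6) (nat_lit 0x7000200010000c0000000000000000000000000000000) (nat_lit 0x0) (nat_lit 0x130008000dc000c00000000000000000000000000000000000) := T_25 (nat_lit 179) (nat_lit 196) (nat_lit 7) (nat_lit 8) (nat_lit 7) L5662 (by decide +kernel)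
theorem L5664 : W_25 (nat_lit 7) (nat_lit 0x700020001000080000000000000000000000000000000) (nat_lit 0x0) (nat_lit 0x130008000dc000c00040002000000000000000000000000000) := T_25 (nat_lit 126) (nat_lit 109) (nat_lit 4) (nat_lit 8) (nat_lit 10) L5663 (by decide +kernel)
theorem L5665 : W_25 (nat_lit 2) (nat_lit 0x1000780020001000180000000000000000000000000000000) (nat_lit 0x0) (nat_lit 0x12000800000000000000000000000000000000000000000000) := D_25 (nat_lit 179) (nat_lit 196) (nat_lit 193) (nat_lit 7) (nat_lit 8) (nat_lit 7) (nat_lit 1) (nat_lit 9) (nat_lit 10) (by decide +kernel)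
theorem L5666 : W_25 (nat_lit 3) (nat_lit 0x780020001000180000000000000000000000000000000) (nat_lit 0x0) (nat_lit 0x13800800000000000000000000000000000000000000000000) := T_25 (nat_lit 192) (nat_lit 191) (nat_lit 1) (nat_lit 8) (nat_lit 10) L5665 (by decide +kernel)
theorem L5667 : W_25 (nat_lit 4) (nat_lit 0x700020001000180000000000000000000000000000000) (nat_lit 0x0) (nat_lit 0x13800880040000000000000000000000000000000000000000) := T_25 (nat_lit 175) (nat_lit 162) (nat_lit 2) (nat_lit 5) (nat_lit 10) L5666 (by decide +kernel)
theorem L5668 : W_25 (nat_lit 5) (nat_lit 0x700020001000080000000000000000000000000000000) (nat_lit 0x0) (nat_lit 0x13800880040000000100008000000000000000000000000000) := T_25 (nat_lit 128) (nat_lit 111) (nat_lit 6) (nat_lit 8) (nat_lit 10) L5667 (by decide +kernel)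
theorem L5676 : W_25 (nat_lit 2) (nat_lit 0x2000f000280010001c0000000000000000000000000000000) (nat_lit 0x0) (nat_lit 0x10000c00000000000000000000000000000000000) := D_25 (nat_lit 143) (nat_lit 160) (nat_lit 142) (nat_lit 5) (nat_lit 7) (nat_lit 7) (nat_lit 6) (nat_lit 6) (nat_lit 11) (by decide +kernel)
theorem L5677 : W_25 (nat_lit 3) (nat_lit 0x2000f000200010001c0000000000000000000000000000000) (nat_lit 0x0) (nat_lit 0x1c000c00000000000000000000000000000000000) := T_25 (nat_lit 159) (nat_lit 158) (nat_lit 0) (nat_lit 9) (nat_lit 10) L5676 (by decide +kernel)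
theorem L5678 : W_25 (nat_lit 4) (nat_lit 0xf000200010001c0000000000000000000000000000000) (nat_lit 0x0) (nat_lit 0x300000001c000c00000000000000000000000000000000000) := T_25 (nat_lit 193) (nat_lit 192) (nat_lit 1) (nat_lit 9) (nat_lit 10) L5677 (by decide +kernel)
theorem L5679 : W_25 (nat_lit 5) (nat_lit 0x7000200010001c0000000000000000000000000000000) (nat_lit 0x0) (nat_lit 0x1300080001c000c00000000000000000000000000000000000) := T_25 (nat_lit 179) (nat_lit 196) (nat_lit 7) (nat_lit 8) (nat_lit 7) L5678 (by decide +kernel)
theorem L5680 : W_25 (nat_lit 6) (nat_lit 0x7000200010000c0000000000000000000000000000000) (nat_lit 0x0) (nat_lit 0x1300080001c000c00100008000000000000000000000000000) := T_25 (nat_lit 128) (nat_lit 111) (nat_lit 6) (nat_lit 8) (nat_lit 10) L5679 (by decide +kernel)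
theorem L5681 : W_25 (nat_lit 7) (nat_lit 0x700020001000080000000000000000000000000000000) (nat_lit 0x0) (nat_lit 0x1300080001c000c0014000a000000000000000000000000000) := T_25 (nat_lit 126) (nat_lit 109) (nat_lit 4) (nat_lit 8) (nat_lit 10) L5680 (by decide +kernel)
theorem L5682 : W_25 (nat_lit 8) (nat_lit 0x600020001000080000000000000000000000000000000) (nat_lit 0x0) (nat_lit 0x13c009c00dc000c0014000a000000000000000000000000000) := Q_25 (nat_lit 176) (C_25 L5664 (C_25 L5668 (C_25 L5673 (C_25 L5675 (C_25 L5681 N_25))))) (by decide +kernel)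
theorem L5683 : W_25 (nat_lit 2) (nat_lit 0x2003f000680010000c0000000000000000000000000000000) (nat_lit 0x0) (nat_lit 0xe0000000000000000000000000000000000000000000000000) := D_25 (nat_lit 198) (nat_lit 197) (nat_lit 199) (nat_lit 3) (nat_lit 7) (nat_lit 10) (nat_lit 3) (nat_lit 8) (nat_lit 10) (by decide +kernel)
theorem L5684 : W_25 (nat_lit 3) (nat_lit 0x2001f000680010000c0000000000000000000000000000000) (nat_lit 0x0) (nat_lit 0xe0006000000000000000000000000000000000000000000000) := T_25 (nat_lit 181) (nat_lit 182) (nat_lit 0) (nat_lit 12) (nat_lit 10) L5683 (by decide +kernel)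
theorem L5685 : W_25 (nat_lit 4) (nat_lit 0x2000f000680010000c0000000000000000000000000000000) (nat_lit 0x0) (nat_lit 0xe0007000010000000000000000000000000000000000000000) := T_25 (nat_lit 180) (nat_lit 160) (nat_lit 3) (nat_lit 6) (nat_lit 9) L5684 (by decide +kernel)
theorem L5686 : W_25 (nat_lit 5) (nat_lit 0x2000f00068001000080000000000000000000000000000000) (nat_lit 0x0) (nat_lit 0xe0007000010000000040002000000000000000000000000000) := T_25 (nat_lit 126) (nat_lit 109) (nat_lit 4) (nat_lit 8) (nat_lit 10) L5685 (by decide +kernel)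
theorem L5687 : W_25 (nat_lit 6) (nat_lit 0x2000f00060001000080000000000000000000000000000000) (nat_lit 0x0) (nat_lit 0xe000700001c000000040002000000000000000000000000000) := T_25 (nat_lit 159) (nat_lit 158) (nat_lit 0) (nat_lit 9) (nat_lit 10) L5686 (by decide +kernel)
theorem L5688 : W_25 (nat_lit 7) (nat_lit 0xf00060001000080000000000000000000000000000000) (nat_lit 0x0) (nat_lit 0xe300700001c000000040002000000000000000000000000000) := T_25 (nat_lit 193) (nat_lit 192) (nat_lit 1) (nat_lit 9) (nat_lit 10) L5687 (by decide +kernel)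
theorem L5689 : W_25 (nat_lit 8) (nat_lit 0xf00020001000080000000000000000000000000000000) (nat_lit 0x0) (nat_lit 0xe30070000dc000000040002000000000000000000000000000) := T_25 (nat_lit 162) (nat_lit 163) (nat_lit 2) (nat_lit 6) (nat_lit 10) L5688 (by decide +kernel)
theorem L5690 : W_25 (nat_lit 9) (nat_lit 0x700020001000080000000000000000000000000000000) (nat_lit 0x0) (nat_lit 0xf30078000dc000000040002000000000000000000000000000) := T_25 (nat_lit 179) (nat_lit 196) (nat_lit 7) (nat_lit 8) (nat_lit 7) L5689 (by decide +kernel)
theorem L5696 : W_25 (nat_lit 11) (nat_lit 0x600020001000080000000000000000000000000000000) (nat_lit 0x0) (nat_lit 0xf3c079c03dc00000014000a000000000000000000000000000) := Q_25 (nat_lit 176) (C_25 L5690 (C_25 L5675 (C_25 L5673 (C_25 L5695 N_25)))) (by decide +kernel)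
theorem L5700 : W_25 (nat_lit 16) (nat_lit 0x600020001000080000000000000000000000000000000) (nat_lit 0x0) (nat_lit 0x100008000f3c079c01dc03c800f000e8000000000000000000000000000) := Q_25 (nat_lit 176) (C_25 L5699 (C_25 L5675 (C_25 L4938 (C_25 L4981 N_25)))) (by decide +kernel)
theorem L5701 : W_25 (nat_lit 17) (nat_lit 0x600000001000080000000000000000000000000000000) (nat_lit 0x0) (nat_lit 0x10000a000fbc079c03fc03cc00f400ea000000000000000000000000000) := Q_25 (nat_lit 161) (C_25 L5657 (C_25 L5682 (C_25 L5696 (C_25 L994 (C_25 L5700 N_25))))) (by decide +kernel)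
theorem L5702 : W_25 (nat_lit 18) (nat_lit 0x200000001000080000000000000000000000000000000) (nat_lit 0x0) (nat_lit 0x1c001fc00fe00ffe07de03ff03cc00f600ebc00180008000000000000000000) := Q_25 (nat_lit 178) (C_25 L5645 (C_25 L5651 (C_25 L5652 (C_25 L5653 (C_25 L5658 (C_25 L5701 N_25)))))) (by decide +kernel)
theorem L5994 : W_25 (nat_lit 2) (nat_lit 0x10000e000c000340000001000080000000000000000000000000000000) (nat_lit 0x0) (nat_lit 0x100012000000000000000000000000000000000000000000000000) := D_25 (nat_lit 196) (nat_lit 193) (nat_lit 212) (nat_lit 1) (nat_lit 9) (nat_lit 11) (nat_lit 2) (nat_lit 5) (nat_lit 12) (by decide +kernel)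
theorem L5995 : W_25 (nat_lit 3) (nat_lit 0x10000c000c000340000001000080000000000000000000000000000000) (nat_lit 0x0) (nat_lit 0x130012000000000000000000000000000000000000000000000000) := T_25 (nat_lit 209) (nat_lit 208) (nat_lit 2) (nat_lit 4) (nat_lit 12) L5994 (by decide +kernel)
theorem L5996 : W_25 (nat_lit 4) (nat_lit 0x10000c000c000300000001000080000000000000000000000000000000) (nat_lit 0x0) (nat_lit 0x1300120000c0000000000000000000000000000000000000000000) := T_25 (nat_lit 174) (nat_lit 175) (nat_lit 3) (nat_lit 4) (nat_lit 10) L5995 (by decide +kernel)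
theorem L5997 : W_25 (nat_lit 5) (nat_lit 0x10000c000c000200000001000080000000000000000000000000000000) (nat_lit 0x0) (nat_lit 0x1300120001c0008000000000000000000000000000000000000000) := T_25 (nat_lit 176) (nat_lit 159) (nat_lit 4) (nat_lit 7) (nat_lit 13) L5996 (by decide +kernel)
theorem L5998 : W_25 (nat_lit 2) (nat_lit 0x18000c001c000200000001000080000000000000000000000000000000) (nat_lit 0x0) (nat_lit 0x30002000000000000000000000000000000000000000000000000) := D_25 (nat_lit 209) (nat_lit 208) (nat_lit 193) (nat_lit 2) (nat_lit 4) (nat_lit 12) (nat_lit 1) (nat_lit 9) (nat_lit 11) (by decide +kernel)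
theorem L5999 : W_25 (nat_lit 3) (nat_lit 0x18000c000c000200000001000080000000000000000000000000000000) (nat_lit 0x0) (nat_lit 0x30032000000000000000000000000000000000000000000000000) := T_25 (nat_lit 196) (nat_lit 197) (nat_lit 1) (nat_lit 10) (nat_lit 11) L5998 (by decide +kernel)
theorem L6000 : W_25 (nat_lit 4) (nat_lit 0x10000c000c000200000001000080000000000000000000000000000000) (nat_lit 0x0) (nat_lit 0x10000800030032000000000000000000000000000000000000000000000000) := T_25 (nat_lit 227) (nat_lit 244) (nat_lit 5) (nat_lit 7) (nat_lit 10) L5999 (by decide +kernel)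
theorem L6001 : W_25 (nat_lit 2) (nat_lit 0x10000e000c000200000001000080000000000000000000000000000000) (nat_lit 0x0) (nat_lit 0x100030000000000000000000000000000000000000000000000000) := D_25 (nat_lit 196) (nat_lit 197) (nat_lit 212) (nat_lit 1) (nat_lit 10) (nat_lit 11) (nat_lit 2) (nat_lit 5) (nat_lit 12) (by decide +kernel)
theorem L6002 : W_25 (nat_lit 3) (nat_lit 0x10000c000c000200000001000080000000000000000000000000000000) (nat_lit 0x0) (nat_lit 0x130030000000000000000000000000000000000000000000000000) := T_25 (nat_lit 209) (nat_lit 208) (nat_lit 2) (nat_lit 4) (nat_lit 12) L6001 (by decide +kernel)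
theorem L6006 : W_25 (nat_lit 5) (nat_lit 0x18000c000c000380000001000080000000000000000000000000000000) (nat_lit 0x0) (nat_lit 0x8000600138002000000004000000000000000000000000000000000000000) := T_25 (nat_lit 193) (nat_lit 158) (nat_lit 4) (nat_lit 6) (nat_lit 13) L6005 (by decide +kernel)
theorem L6007 : W_25 (nat_lit 6) (nat_lit 0x10000c000c000380000001000080000000000000000000000000000000) (nat_lit 0x0) (nat_lit 0x18000e00138002000000004000000000000000000000000000000000000000) := T_25 (nat_lit 227) (nat_lit 244) (nat_lit 5) (nat_lit 7) (nat_lit 10) L6006 (by decide +kernel)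
theorem L6008 : W_25 (nat_lit 7) (nat_lit 0x10000c000c000300000001000080000000000000000000000000000000) (nat_lit 0x0) (nat_lit 0x18000e001380020000c0004000000000000000000000000000000000000000) := T_25 (nat_lit 175) (nat_lit 174) (nat_lit 3) (nat_lit 4) (nat_lit 10) L6007 (by decide +kernel)
theorem L6009 : W_25 (nat_lit 8) (nat_lit 0x10000c000c000200000001000080000000000000000000000000000000) (nat_lit 0x0) (nat_lit 0x18000e001380020001c000c000000000000000000000000000000000000000) := T_25 (nat_lit 176) (nat_lit 159) (nat_lit 4) (nat_lit 7) (nat_lit 13) L6008 (by decide +kernel)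
theorem L6010 : W_25 (nat_lit 2) (nat_lit 0x18000c000c000380000001000080000000000000000000000000000000) (nat_lit 0x0) (nat_lit 0x32000000000000000000000000000000000000000000000000) := D_25 (nat_lit 196) (nat_lit 197) (nat_lit 193) (nat_lit 1) (nat_lit 10) (nat_lit 11) (nat_lit 0) (nat_lit 9) (nat_lit 11) (by decide +kernel)
theorem L6011 : W_25 (nat_lit 3) (nat_lit 0x18000c000c000300000001000080000000000000000000000000000000) (nat_lit 0x0) (nat_lit 0x320000c0000000000000000000000000000000000000000000) := T_25 (nat_lit 175) (nat_lit 174) (nat_lit 3) (nat_lit 4) (nat_lit 10) L6010 (by decide +kernel)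
theorem L6012 : W_25 (nat_lit 4) (nat_lit 0x18000c000c000200000001000080000000000000000000000000000000) (nat_lit 0x0) (nat_lit 0x320001c0008000000000000000000000000000000000000000) := T_25 (nat_lit 176) (nat_lit 159) (nat_lit 4) (nat_lit 7) (nat_lit 13) L6011 (by decide +kernel)
theorem L6013 : W_25 (nat_lit 5) (nat_lit 0x10000c000c000200000001000080000000000000000000000000000000) (nat_lit 0x0) (nat_lit 0x100008000000320001c0008000000000000000000000000000000000000000) := T_25 (nat_lit 227) (nat_lit 244) (nat_lit 5) (nat_lit 7) (nat_lit 10) L6012 (by decide +kernel)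
theorem L6014 : W_25 (nat_lit 9) (nat_lit 0x10000c0004000200000001000080000000000000000000000000000000) (nat_lit 0x0) (nat_lit 0x18000e0013803a0001c000c000000000000000000000000000000000000000) := Q_25 (nat_lit 195) (C_25 L5997 (C_25 L6000 (C_25 L6002 (C_25 L6009 (C_25 L6013 N_25))))) (by decide +kernel)
theorem L6025 : W_25 (nat_lit 4) (nat_lit 0x18000c0004000200000001000080000000000000000000000000000000) (nat_lit 0x0) (nat_lit 0x40006000030000000100008000000000000000000000000000000000000000) := T_25 (nat_lit 176) (nat_lit 159) (nat_lit 4) (nat_lit 7) (nat_lit 13) L6024 (by decide +kernel)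
theorem L6026 : W_25 (nat_lit 5) (nat_lit 0x10000c0004000200000001000080000000000000000000000000000000) (nat_lit 0x0) (nat_lit 0x50006800030000000100008000000000000000000000000000000000000000) := T_25 (nat_lit 227) (nat_lit 244) (nat_lit 5) (nat_lit 7) (nat_lit 10) L6025 (by decide +kernel)
theorem L6040 : W_25 (nat_lit 11) (nat_lit 0x1000080004000200000001000080000000000000000000000000000000) (nat_lit 0x0) (nat_lit 0x1dc00ef0077803a0001c000c000000000000000000000000000000000000000) := Q_25 (nat_lit 210) (C_25 L6014 (C_25 L6022 (C_25 L6026 (C_25 L6035 (C_25 L6039 N_25))))) (by decide +kernel)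
theorem L6041 : W_25 (nat_lit 2) (nat_lit 0x10003000080004000300000001000080000000000000000000000000000000) (nat_lit 0x0) (nat_lit 0x200020000000000002000000000000000000000000000000000000000000000000) := D_25 (nat_lit 245) (nat_lit 261) (nat_lit 193) (nat_lit 5) (nat_lit 7) (nat_lit 11) (nat_lit 4) (nat_lit 7) (nat_lit 14) (by decide +kernel)
theorem L6042 : W_25 (nat_lit 3) (nat_lit 0x10003000080004000200000001000080000000000000000000000000000000) (nat_lit 0x0) (nat_lit 0x200020000000000002000100008000000000000000000000000000000000000000) := T_25 (nat_lit 176) (nat_lit 159) (nat_lit 4) (nat_lit 7) (nat_lit 13) L6041 (by decide +kernel)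
theorem L6043 : W_25 (nat_lit 4) (nat_lit 0x3000080004000200000001000080000000000000000000000000000000) (nat_lit 0x0) (nat_lit 0x200030000800000002000100008000000000000000000000000000000000000000) := T_25 (nat_lit 244) (nat_lit 227) (nat_lit 5) (nat_lit 7) (nat_lit 10) L6042 (by decide +kernel)
theorem L6044 : W_25 (nat_lit 5) (nat_lit 0x1000080004000200000001000080000000000000000000000000000000) (nat_lit 0x0) (nat_lit 0x200070002800000002000100008000000000000000000000000000000000000000) := T_25 (nat_lit 229) (nat_lit 246) (nat_lit 7) (nat_lit 7) (nat_lit 10) L6043 (by decide +kernel)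
theorem L6052 : W_25 (nat_lit 6) (nat_lit 0x3000080004000200000001000080000000000000000000000000000000) (nat_lit 0x0) (nat_lit 0xc00060003000000010000a000100008000000000000000000000000000000000000000) := T_25 (nat_lit 176) (nat_lit 159) (nat_lit 4) (nat_lit 7) (nat_lit 13) L6051 (by decide +kernel)
theorem L6053 : W_25 (nat_lit 7) (nat_lit 0x1000080004000200000001000080000000000000000000000000000000) (nat_lit 0x0) (nat_lit 0xc00060007000200010000a000100008000000000000000000000000000000000000000) := T_25 (nat_lit 229) (nat_lit 246) (nat_lit 7) (nat_lit 7) (nat_lit 10) L6052 (by decide +kernel)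
theorem L6068 : W_25 (nat_lit 12) (nat_lit 0x80004000200000001000080000000000000000000000000000000) (nat_lit 0x0) (nat_lit 0x1c000e001fc00ff0077803a0001c000c000000000000000000000000000000000000000) := Q_25 (nat_lit 228) (C_25 L6040 (C_25 L6044 (C_25 L6047 (C_25 L6053 (C_25 L6061 (C_25 L6064 (C_25 L6067 N_25))))))) (by decide +kernel)
theorem L6069 : W_25 (nat_lit 6) (nat_lit 0x80004000200000001000080000000000000000000000000000000) (nat_lit 0x0) (nat_lit 0x40003800140000000100038000400000000000000000000000000000000000) := T_25 (nat_lit 160) (nat_lit 161) (nat_lit 6) (nat_lit 7) (nat_lit 12) L5487 (by decide +kernel)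
theorem L6074 : W_25 (nat_lit 2) (nat_lit 0xc0004000200000001000080000000000000000000000000000000) (nat_lit 0x0) (nat_lit 0x800000000000000030000000000000000000000000000000000000000) := D_25 (nat_lit 160) (nat_lit 161) (nat_lit 227) (nat_lit 6) (nat_lit 7) (nat_lit 12) (nat_lit 5) (nat_lit 7) (nat_lit 9) (by decide +kernel)
theorem L6075 : W_25 (nat_lit 2) (nat_lit 0x20003e0005000200000001000080000000000000000000000000000000) (nat_lit 0x0) (nat_lit 0xe00000000000000000000000000000000000000000000000000000000) := D_25 (nat_lit 226) (nat_lit 225) (nat_lit 227) (nat_lit 1) (nat_lit 8) (nat_lit 12) (nat_lit 1) (nat_lit 9) (nat_lit 12) (by decide +kernel)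
theorem L6076 : W_25 (nat_lit 3) (nat_lit 0x20001e0005000200000001000080000000000000000000000000000000) (nat_lit 0x0) (nat_lit 0xe00200002000000000000000000000000000000000000000000000000) := T_25 (nat_lit 213) (nat_lit 193) (nat_lit 0) (nat_lit 9) (nat_lit 12) L6075 (by decide +kernel)
theorem L6077 : W_25 (nat_lit 4) (nat_lit 0x1e0005000200000001000080000000000000000000000000000000) (nat_lit 0x0) (nat_lit 0x6e00200002000000000000000000000000000000000000000000000000) := T_25 (nat_lit 229) (nat_lit 230) (nat_lit 3) (nat_lit 5) (nat_lit 12) L6076 (by decide +kernel)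
theorem L6078 : W_25 (nat_lit 5) (nat_lit 0x1e0004000200000001000080000000000000000000000000000000) (nat_lit 0x0) (nat_lit 0x6e00200003800000000000000000000000000000000000000000000000) := T_25 (nat_lit 192) (nat_lit 191) (nat_lit 0) (nat_lit 8) (nat_lit 12) L6077 (by decide +kernel)
theorem L6079 : W_25 (nat_lit 2) (nat_lit 0x800000002c001e0005000200000001000080000000000000000000000000000000) (nat_lit 0x0) (nat_lit 0x200010000000000000000080000000000000000000000000000000000000000000) := D_25 (nat_lit 244) (nat_lit 261) (nat_lit 175) (nat_lit 6) (nat_lit 6) (nat_lit 15) (nat_lit 7) (nat_lit 5) (nat_lit 10) (by decide +kernel)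
theorem L6080 : W_25 (nat_lit 3) (nat_lit 0x8000000024001e0005000200000001000080000000000000000000000000000000) (nat_lit 0x0) (nat_lit 0x200010000800200000000080000000000000000000000000000000000000000000) := T_25 (nat_lit 227) (nat_lit 213) (nat_lit 1) (nat_lit 9) (nat_lit 12) L6079 (by decide +kernel)
theorem L6081 : W_25 (nat_lit 4) (nat_lit 0x8000000020001e0005000200000001000080000000000000000000000000000000) (nat_lit 0x0) (nat_lit 0x200010000e00200000000080000000000000000000000000000000000000000000) := T_25 (nat_lit 226) (nat_lit 225) (nat_lit 1) (nat_lit 8) (nat_lit 12) L6080 (by decide +kernel)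
theorem L6082 : W_25 (nat_lit 5) (nat_lit 0x20001e0005000200000001000080000000000000000000000000000000) (nat_lit 0x0) (nat_lit 0xa00050000e00200000000080000000000000000000000000000000000000000000) := T_25 (nat_lit 263) (nat_lit 246) (nat_lit 4) (nat_lit 8) (nat_lit 15) L6081 (by decide +kernel)
theorem L6083 : W_25 (nat_lit 6) (nat_lit 0x20001e0004000200000001000080000000000000000000000000000000) (nat_lit 0x0) (nat_lit 0xa00050000e00200001800080000000000000000000000000000000000000000000) := T_25 (nat_lit 192) (nat_lit 191) (nat_lit 0) (nat_lit 8) (nat_lit 12) L6082 (by decide +kernel)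
theorem L6084 : W_25 (nat_lit 7) (nat_lit 0x1e0004000200000001000080000000000000000000000000000000) (nat_lit 0x0) (nat_lit 0xa00050006e00200001800080000000000000000000000000000000000000000000) := T_25 (nat_lit 229) (nat_lit 230) (nat_lit 3) (nat_lit 5) (nat_lit 12) L6083 (by decide +kernel)
theorem L6085 : W_25 (nat_lit 2) (nat_lit 0x24007e0004000200000001000080000000000000000000000000000000) (nat_lit 0x0) (nat_lit 0x70000000000000000000000000000000000000000000000000) := D_25 (nat_lit 197) (nat_lit 196) (nat_lit 198) (nat_lit 2) (nat_lit 6) (nat_lit 12) (nat_lit 2) (nat_lit 7) (nat_lit 12) (by decide +kernel)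
theorem L6086 : W_25 (nat_lit 3) (nat_lit 0x24003e0004000200000001000080000000000000000000000000000000) (nat_lit 0x0) (nat_lit 0x400072000000000000000000000000000000000000000000000000) := T_25 (nat_lit 214) (nat_lit 193) (nat_lit 0) (nat_lit 10) (nat_lit 12) L6085 (by decide +kernel)
theorem L6087 : W_25 (nat_lit 4) (nat_lit 0x24001e0004000200000001000080000000000000000000000000000000) (nat_lit 0x0) (nat_lit 0x800600072000000000000000000000000000000000000000000000000) := T_25 (nat_lit 213) (nat_lit 227) (nat_lit 1) (nat_lit 9) (nat_lit 12) L6086 (by decide +kernel)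
theorem L6088 : W_25 (nat_lit 5) (nat_lit 0x4001e0004000200000001000080000000000000000000000000000000) (nat_lit 0x0) (nat_lit 0x6800600072000000000000000000000000000000000000000000000000) := T_25 (nat_lit 229) (nat_lit 230) (nat_lit 3) (nat_lit 5) (nat_lit 12) L6087 (by decide +kernel)
theorem L6089 : W_25 (nat_lit 6) (nat_lit 0x1e0004000200000001000080000000000000000000000000000000) (nat_lit 0x0) (nat_lit 0x6e00600072000000000000000000000000000000000000000000000000) := T_25 (nat_lit 226) (nat_lit 225) (nat_lit 1) (nat_lit 8) (nat_lit 12) L6088 (by decide +kernel)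
theorem L6111 : W_25 (nat_lit 12) (nat_lit 0xe0004000200000001000080000000000000000000000000000000) (nat_lit 0x0) (nat_lit 0xb0005800efc071c073c001c000a000000000000000000000000000000000000000) := Q_25 (nat_lit 212) (C_25 L6078 (C_25 L6084 (C_25 L6089 (C_25 L6099 (C_25 L6102 (C_25 L6107 (C_25 L6110 N_25))))))) (by decide +kernel)
theorem L6121 : W_25 (nat_lit 8) (nat_lit 0xe0004000200000001000080000000000000000000000000000000) (nat_lit 0x0) (nat_lit 0xa0005000ee0070007b800080000000000000000000000000000000000000000000) := Q_25 (nat_lit 212) (C_25 L6110 (C_25 L6084 (C_25 L6089 (C_25 L6120 (C_25 L6102 N_25))))) (by decide +kernel)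
theorem L6125 : W_25 (nat_lit 13) (nat_lit 0xc0004000200000001000080000000000000000000000000000000) (nat_lit 0x0) (nat_lit 0xb0005800efc073c07be001c000a000000000000000000000000000000000000000) := Q_25 (nat_lit 209) (C_25 L6111 (C_25 L6114 (C_25 L6118 (C_25 L6121 (C_25 L6124 N_25))))) (by decide +kernel)
theorem L6131 : W_25 (nat_lit 7) (nat_lit 0xe0004000200000001000080000000000000000000000000000000) (nat_lit 0x0) (nat_lit 0x2600100003800180038000400000000000000000000000000000000000) := T_25 (nat_lit 160) (nat_lit 161) (nat_lit 6) (nat_lit 7) (nat_lit 12) L6130 (by decide +kernel)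
theorem L6132 : W_25 (nat_lit 8) (nat_lit 0xc0004000200000001000080000000000000000000000000000000) (nat_lit 0x0) (nat_lit 0x278013800be00180038000400000000000000000000000000000000000) := Q_25 (nat_lit 209) (C_25 L6124 (C_25 L6118 (C_25 L6131 (C_25 L6114 N_25)))) (by decide +kernel)
theorem L6133 : W_25 (nat_lit 14) (nat_lit 0x80004000200000001000080000000000000000000000000000000) (nat_lit 0x0) (nat_lit 0xb0005800efc077c07be001c003a000400000000000000000000000000000000000) := Q_25 (nat_lit 210) (C_25 L6074 (C_25 L6125 (C_25 L6132 N_25))) (by decide +kernel)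
theorem L6141 : W_25 (nat_lit 9) (nat_lit 0x80004000200000001000080000000000000000000000000000000) (nat_lit 0x0) (nat_lit 0x4000e00070003800040002000100038000400000000000000000000000000000000000) := T_25 (nat_lit 160) (nat_lit 161) (nat_lit 6) (nat_lit 7) (nat_lit 12) L6140 (by decide +kernel)
theorem L6149 : W_25 (nat_lit 9) (nat_lit 0x80004000200000001000080000000000000000000000000000000) (nat_lit 0x0) (nat_lit 0x10000e00070003800100008000100038000400000000000000000000000000000000000) := T_25 (nat_lit 160) (nat_lit 161) (nat_lit 6) (nat_lit 7) (nat_lit 12) L6148 (by decide +kernel)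
theorem L6153 : W_25 (nat_lit 5) (nat_lit 0x80004000200000001000080000000000000000000000000000000) (nat_lit 0x0) (nat_lit 0x40003000100000000100038000400000000000000000000000000000000000) := T_25 (nat_lit 160) (nat_lit 161) (nat_lit 6) (nat_lit 7) (nat_lit 12) L6152 (by decide +kernel)
theorem L6157 : W_25 (nat_lit 5) (nat_lit 0x80004000200000001000080000000000000000000000000000000) (nat_lit 0x0) (nat_lit 0x10001800040000000100038000400000000000000000000000000000000000) := T_25 (nat_lit 160) (nat_lit 161) (nat_lit 6) (nat_lit 7) (nat_lit 12) L6156 (by decide +kernel)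
theorem L6158 : W_25 (nat_lit 15) (nat_lit 0x4000200000001000080000000000000000000000000000000) (nat_lit 0x0) (nat_lit 0x1c000f001fc00ffc07fc07be001c003e000400000000000000000000000000000000000) := Q_25 (nat_lit 211) (C_25 L6068 (C_25 L6069 (C_25 L6073 (C_25 L6133 (C_25 L6141 (C_25 L6149 (C_25 L6153 (C_25 L6157 N_25)))))))) (by decide +kernel)
theorem L6166 : W_25 (nat_lit 2) (nat_lit 0x8003c001a000c000200020001000080000000000000000000000000000000) (nat_lit 0x0) (nat_lit 0x4000040010000000000000000000000000000000000000000000000000) := D_25 (nat_lit 210) (nat_lit 230) (nat_lit 196) (nat_lit 3) (nat_lit 5) (nat_lit 12) (nat_lit 2) (nat_lit 5) (nat_lit 12) (by decide +kernel)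
theorem L6167 : W_25 (nat_lit 3) (nat_lit 0x8003c0018000c000200020001000080000000000000000000000000000000) (nat_lit 0x0) (nat_lit 0x4000070010000000000000000000000000000000000000000000000000) := T_25 (nat_lit 209) (nat_lit 208) (nat_lit 0) (nat_lit 8) (nat_lit 13) L6166 (by decide +kernel)
theorem L6168 : W_25 (nat_lit 4) (nat_lit 0x3c0018000c000200020001000080000000000000000000000000000000) (nat_lit 0x0) (nat_lit 0xc004000070010000000000000000000000000000000000000000000000000) := T_25 (nat_lit 243) (nat_lit 242) (nat_lit 1) (nat_lit 8) (nat_lit 13) L6167 (by decide +kernel)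
theorem L6169 : W_25 (nat_lit 5) (nat_lit 0x380018000c000200020001000080000000000000000000000000000000) (nat_lit 0x0) (nat_lit 0xc004600070010000000000000000000000000000000000000000000000000) := T_25 (nat_lit 226) (nat_lit 225) (nat_lit 2) (nat_lit 4) (nat_lit 13) L6168 (by decide +kernel)
theorem L6170 : W_25 (nat_lit 6) (nat_lit 0x300018000c000200020001000080000000000000000000000000000000) (nat_lit 0x0) (nat_lit 0x1c004e00070010000000000000000000000000000000000000000000000000) := T_25 (nat_lit 227) (nat_lit 244) (nat_lit 5) (nat_lit 7) (nat_lit 10) L6169 (by decide +kernel)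
theorem L6171 : W_25 (nat_lit 7) (nat_lit 0x300018000c000200000001000080000000000000000000000000000000) (nat_lit 0x0) (nat_lit 0x1c004e00070010000400020000000000000000000000000000000000000000) := T_25 (nat_lit 161) (nat_lit 178) (nat_lit 6) (nat_lit 7) (nat_lit 13) L6170 (by decide +kernel)
theorem L6172 : W_25 (nat_lit 8) (nat_lit 0x100018000c000200000001000080000000000000000000000000000000) (nat_lit 0x0) (nat_lit 0x5c006e00070010000400020000000000000000000000000000000000000000) := T_25 (nat_lit 229) (nat_lit 246) (nat_lit 7) (nat_lit 7) (nat_lit 10) L6171 (by decide +kernel)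
theorem L6179 : W_25 (nat_lit 9) (nat_lit 0x100008000c000200000001000080000000000000000000000000000000) (nat_lit 0x0) (nat_lit 0xdc00ee00770010003c00060000000000000000000000000000000000000000) := Q_25 (nat_lit 212) (C_25 L6162 (C_25 L6165 (C_25 L6172 (C_25 L6178 N_25)))) (by decide +kernel)
theorem L6180 : W_25 (nat_lit 2) (nat_lit 0x800078002d000c000340000001000080000000000000000000000000000000) (nat_lit 0x0) (nat_lit 0x1000000000400100000000000000000000000000000000000000000000000000000) := D_25 (nat_lit 212) (nat_lit 226) (nat_lit 264) (nat_lit 2) (nat_lit 5) (nat_lit 13) (nat_lit 4) (nat_lit 9) (nat_lit 15) (by decide +kernel)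
theorem L6181 : W_25 (nat_lit 3) (nat_lit 0x800078000d000c000340000001000080000000000000000000000000000000) (nat_lit 0x0) (nat_lit 0x1000000000400700000000000000000000000000000000000000000000000000000) := T_25 (nat_lit 213) (nat_lit 214) (nat_lit 2) (nat_lit 6) (nat_lit 13) L6180 (by decide +kernel)
theorem L6182 : W_25 (nat_lit 4) (nat_lit 0x78000d000c000340000001000080000000000000000000000000000000) (nat_lit 0x0) (nat_lit 0x1000180000400700000000000000000000000000000000000000000000000000000) := T_25 (nat_lit 247) (nat_lit 248) (nat_lit 3) (nat_lit 6) (nat_lit 13) L6181 (by decide +kernel)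
theorem L6183 : W_25 (nat_lit 5) (nat_lit 0x70000d000c000340000001000080000000000000000000000000000000) (nat_lit 0x0) (nat_lit 0x1000190000c00700000000000000000000000000000000000000000000000000000) := T_25 (nat_lit 227) (nat_lit 244) (nat_lit 5) (nat_lit 7) (nat_lit 10) L6182 (by decide +kernel)
theorem L6184 : W_25 (nat_lit 6) (nat_lit 0x70000d000c000300000001000080000000000000000000000000000000) (nat_lit 0x0) (nat_lit 0x1000190000c007000000000c0000000000000000000000000000000000000000000) := T_25 (nat_lit 174) (nat_lit 175) (nat_lit 3) (nat_lit 4) (nat_lit 10) L6183 (by decide +kernel)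
theorem L6185 : W_25 (nat_lit 7) (nat_lit 0x70000d000c000200000001000080000000000000000000000000000000) (nat_lit 0x0) (nat_lit 0x1000190000c007000000001c0008000000000000000000000000000000000000000) := T_25 (nat_lit 176) (nat_lit 159) (nat_lit 4) (nat_lit 7) (nat_lit 13) L6184 (by decide +kernel)
theorem L6186 : W_25 (nat_lit 8) (nat_lit 0x30000d000c000200000001000080000000000000000000000000000000) (nat_lit 0x0) (nat_lit 0x100019000cc007000000001c0008000000000000000000000000000000000000000) := T_25 (nat_lit 230) (nat_lit 231) (nat_lit 0) (nat_lit 10) (nat_lit 13) L6185 (by decide +kernel)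
theorem L6187 : W_25 (nat_lit 9) (nat_lit 0x30000c000c000200000001000080000000000000000000000000000000) (nat_lit 0x0) (nat_lit 0x100019000cc007300000001c0008000000000000000000000000000000000000000) := T_25 (nat_lit 208) (nat_lit 209) (nat_lit 3) (nat_lit 4) (nat_lit 12) L6186 (by decide +kernel)
theorem L6188 : W_25 (nat_lit 10) (nat_lit 0x10000c000c000200000001000080000000000000000000000000000000) (nat_lit 0x0) (nat_lit 0x10001d000ec007300000001c0008000000000000000000000000000000000000000) := T_25 (nat_lit 229) (nat_lit 246) (nat_lit 7) (nat_lit 7) (nat_lit 10) L6187 (by decide +kernel)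
theorem L6189 : W_25 (nat_lit 2) (nat_lit 0x38000c002c000340000001000080000000000000000000000000000000) (nat_lit 0x0) (nat_lit 0x4000030000000000000000000000000000000000000000000000000000) := D_25 (nat_lit 209) (nat_lit 208) (nat_lit 230) (nat_lit 3) (nat_lit 4) (nat_lit 12) (nat_lit 0) (nat_lit 9) (nat_lit 13) (by decide +kernel)
theorem L6190 : W_25 (nat_lit 3) (nat_lit 0x18000c002c000340000001000080000000000000000000000000000000) (nat_lit 0x0) (nat_lit 0x40006000030000000000000000000000000000000000000000000000000000) := T_25 (nat_lit 229) (nat_lit 246) (nat_lit 7) (nat_lit 7) (nat_lit 10) L6189 (by decide +kernel)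
theorem L6191 : W_25 (nat_lit 4) (nat_lit 0x18000c000c000340000001000080000000000000000000000000000000) (nat_lit 0x0) (nat_lit 0x40006000030030000000000000000000000000000000000000000000000000) := T_25 (nat_lit 197) (nat_lit 196) (nat_lit 1) (nat_lit 10) (nat_lit 11) L6190 (by decide +kernel)
theorem L6192 : W_25 (nat_lit 5) (nat_lit 0x18000c000c000300000001000080000000000000000000000000000000) (nat_lit 0x0) (nat_lit 0x400060000300300000c0000000000000000000000000000000000000000000) := T_25 (nat_lit 174) (nat_lit 175) (nat_lit 3) (nat_lit 4) (nat_lit 10) L6191 (by decide +kernel)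
theorem L6193 : W_25 (nat_lit 6) (nat_lit 0x18000c000c000200000001000080000000000000000000000000000000) (nat_lit 0x0) (nat_lit 0x400060000300300001c0008000000000000000000000000000000000000000) := T_25 (nat_lit 176) (nat_lit 159) (nat_lit 4) (nat_lit 7) (nat_lit 13) L6192 (by decide +kernel)
theorem L6194 : W_25 (nat_lit 7) (nat_lit 0x10000c000c000200000001000080000000000000000000000000000000) (nat_lit 0x0) (nat_lit 0x500068000300300001c0008000000000000000000000000000000000000000) := T_25 (nat_lit 227) (nat_lit 244) (nat_lit 5) (nat_lit 7) (nat_lit 10) L6193 (by decide +kernel)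
theorem L6195 : W_25 (nat_lit 2) (nat_lit 0x7e002c002c000340000001000080000000000000000000000000000000) (nat_lit 0x0) (nat_lit 0xe000000000000000000000000000000000000000000000000000000000000) := D_25 (nat_lit 242) (nat_lit 243) (nat_lit 241) (nat_lit 1) (nat_lit 8) (nat_lit 13) (nat_lit 1) (nat_lit 7) (nat_lit 13) (by decide +kernel)
theorem L6196 : W_25 (nat_lit 3) (nat_lit 0x7c002c002c000340000001000080000000000000000000000000000000) (nat_lit 0x0) (nat_lit 0xe000300000000000000000000000000000000000000000000000000000000) := T_25 (nat_lit 225) (nat_lit 224) (nat_lit 2) (nat_lit 3) (nat_lit 13) L6195 (by decide +kernel)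
theorem L6197 : W_25 (nat_lit 4) (nat_lit 0x78002c002c000340000001000080000000000000000000000000000000) (nat_lit 0x0) (nat_lit 0xe000700100000000000000000000000000000000000000000000000000000) := T_25 (nat_lit 226) (nat_lit 212) (nat_lit 2) (nat_lit 5) (nat_lit 13) L6196 (by decide +kernel)
theorem L6198 : W_25 (nat_lit 5) (nat_lit 0x78000c002c000340000001000080000000000000000000000000000000) (nat_lit 0x0) (nat_lit 0xe000700700000000000000000000000000000000000000000000000000000) := T_25 (nat_lit 213) (nat_lit 214) (nat_lit 2) (nat_lit 6) (nat_lit 13) L6197 (by decide +kernel)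
theorem L6199 : W_25 (nat_lit 6) (nat_lit 0x38000c002c000340000001000080000000000000000000000000000000) (nat_lit 0x0) (nat_lit 0xe00c700700000000000000000000000000000000000000000000000000000) := T_25 (nat_lit 230) (nat_lit 231) (nat_lit 0) (nat_lit 10) (nat_lit 13) L6198 (by decide +kernel)
theorem L6200 : W_25 (nat_lit 7) (nat_lit 0x18000c002c000340000001000080000000000000000000000000000000) (nat_lit 0x0) (nat_lit 0x4e00e700700000000000000000000000000000000000000000000000000000) := T_25 (nat_lit 229) (nat_lit 246) (nat_lit 7) (nat_lit 7) (nat_lit 10) L6199 (by decide +kernel)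
theorem L6201 : W_25 (nat_lit 8) (nat_lit 0x18000c000c000340000001000080000000000000000000000000000000) (nat_lit 0x0) (nat_lit 0x4e00e700700030000000000000000000000000000000000000000000000000) := T_25 (nat_lit 197) (nat_lit 196) (nat_lit 1) (nat_lit 10) (nat_lit 11) L6200 (by decide +kernel)
theorem L6202 : W_25 (nat_lit 9) (nat_lit 0x18000c000c000300000001000080000000000000000000000000000000) (nat_lit 0x0) (nat_lit 0x4e00e7007000300000c0000000000000000000000000000000000000000000) := T_25 (nat_lit 174) (nat_lit 175) (nat_lit 3) (nat_lit 4) (nat_lit 10) L6201 (by decide +kernel)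
theorem L6203 : W_25 (nat_lit 10) (nat_lit 0x18000c000c000200000001000080000000000000000000000000000000) (nat_lit 0x0) (nat_lit 0x4e00e7007000300001c0008000000000000000000000000000000000000000) := T_25 (nat_lit 176) (nat_lit 159) (nat_lit 4) (nat_lit 7) (nat_lit 13) L6202 (by decide +kernel)
theorem L6204 : W_25 (nat_lit 11) (nat_lit 0x10000c000c000200000001000080000000000000000000000000000000) (nat_lit 0x0) (nat_lit 0x5e00ef007000300001c0008000000000000000000000000000000000000000) := T_25 (nat_lit 227) (nat_lit 244) (nat_lit 5) (nat_lit 7) (nat_lit 10) L6203 (by decide +kernel)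
theorem L6205 : W_25 (nat_lit 12) (nat_lit 0x100008000c000200000001000080000000000000000000000000000000) (nat_lit 0x0) (nat_lit 0x10001de00ef007700300001c0008000000000000000000000000000000000000000) := Q_25 (nat_lit 210) (C_25 L6188 (C_25 L6002 (C_25 L6194 (C_25 L6204 N_25)))) (by decide +kernel)
theorem L6208 : W_25 (nat_lit 4) (nat_lit 0x380008000c000780004001000080000000000000000000000000000000) (nat_lit 0x0) (nat_lit 0x600070001800000000000000000000000000000000000000000000000) := T_25 (nat_lit 192) (nat_lit 191) (nat_lit 1) (nat_lit 8) (nat_lit 10) L6207 (by decide +kernel)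
theorem L6209 : W_25 (nat_lit 5) (nat_lit 0x380008000c000780000001000080000000000000000000000000000000) (nat_lit 0x0) (nat_lit 0x600070001800000006000000000000000000000000000000000000000) := T_25 (nat_lit 158) (nat_lit 157) (nat_lit 0) (nat_lit 8) (nat_lit 10) L6208 (by decide +kernel)
theorem L6210 : W_25 (nat_lit 6) (nat_lit 0x300008000c000780000001000080000000000000000000000000000000) (nat_lit 0x0) (nat_lit 0x10000e00070001800000006000000000000000000000000000000000000000) := T_25 (nat_lit 227) (nat_lit 244) (nat_lit 5) (nat_lit 7) (nat_lit 10) L6209 (by decide +kernel)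
theorem L6211 : W_25 (nat_lit 7) (nat_lit 0x300008000c000700000001000080000000000000000000000000000000) (nat_lit 0x0) (nat_lit 0x10000e000700018000c0006000000000000000000000000000000000000000) := T_25 (nat_lit 175) (nat_lit 174) (nat_lit 3) (nat_lit 4) (nat_lit 10) L6210 (by decide +kernel)
theorem L6212 : W_25 (nat_lit 8) (nat_lit 0x300008000c000600000001000080000000000000000000000000000000) (nat_lit 0x0) (nat_lit 0x10000e000700018001c000e000000000000000000000000000000000000000) := T_25 (nat_lit 176) (nat_lit 159) (nat_lit 4) (nat_lit 7) (nat_lit 13) L6211 (by decide +kernel)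
theorem L6213 : W_25 (nat_lit 9) (nat_lit 0x300008000c000200000001000080000000000000000000000000000000) (nat_lit 0x0) (nat_lit 0x10000e000700018005c002e000000000000000000000000000000000000000) := T_25 (nat_lit 178) (nat_lit 161) (nat_lit 6) (nat_lit 7) (nat_lit 13) L6212 (by decide +kernel)
theorem L6214 : W_25 (nat_lit 10) (nat_lit 0x100008000c000200000001000080000000000000000000000000000000) (nat_lit 0x0) (nat_lit 0x50002e000700018005c002e000000000000000000000000000000000000000) := T_25 (nat_lit 229) (nat_lit 246) (nat_lit 7) (nat_lit 7) (nat_lit 10) L6213 (by decide +kernel)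
theorem L6215 : W_25 (nat_lit 2) (nat_lit 0x380008000c000700000001000080000000000000000000000000000000) (nat_lit 0x0) (nat_lit 0x100000c0000000000000000000000000000000000000000000) := D_25 (nat_lit 175) (nat_lit 196) (nat_lit 174) (nat_lit 3) (nat_lit 5) (nat_lit 10) (nat_lit 3) (nat_lit 4) (nat_lit 10) (by decide +kernel)
theorem L6216 : W_25 (nat_lit 3) (nat_lit 0x380008000c000600000001000080000000000000000000000000000000) (nat_lit 0x0) (nat_lit 0x100001c0008000000000000000000000000000000000000000) := T_25 (nat_lit 176) (nat_lit 159) (nat_lit 4) (nat_lit 7) (nat_lit 13) L6215 (by decide +kernel)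
theorem L6217 : W_25 (nat_lit 4) (nat_lit 0x380008000c000200000001000080000000000000000000000000000000) (nat_lit 0x0) (nat_lit 0x100005c0028000000000000000000000000000000000000000) := T_25 (nat_lit 178) (nat_lit 161) (nat_lit 6) (nat_lit 7) (nat_lit 13) L6216 (by decide +kernel)
theorem L6218 : W_25 (nat_lit 5) (nat_lit 0x180008000c000200000001000080000000000000000000000000000000) (nat_lit 0x0) (nat_lit 0x400020000000100005c0028000000000000000000000000000000000000000) := T_25 (nat_lit 229) (nat_lit 246) (nat_lit 7) (nat_lit 7) (nat_lit 10) L6217 (by decide +kernel)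
theorem L6219 : W_25 (nat_lit 6) (nat_lit 0x100008000c000200000001000080000000000000000000000000000000) (nat_lit 0x0) (nat_lit 0x500028000000100005c0028000000000000000000000000000000000000000) := T_25 (nat_lit 227) (nat_lit 244) (nat_lit 5) (nat_lit 7) (nat_lit 10) L6218 (by decide +kernel)
theorem L6220 : W_25 (nat_lit 2) (nat_lit 0x100008000c000380000001000080000000000000000000000000000000) (nat_lit 0x0) (nat_lit 0x10000400020000000000000000000000000000000000000000) := D_25 (nat_lit 178) (nat_lit 161) (nat_lit 196) (nat_lit 6) (nat_lit 7) (nat_lit 13) (nat_lit 3) (nat_lit 5) (nat_lit 10) (by decide +kernel)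
theorem L6221 : W_25 (nat_lit 3) (nat_lit 0x100008000c000300000001000080000000000000000000000000000000) (nat_lit 0x0) (nat_lit 0x100004c0020000000000000000000000000000000000000000) := T_25 (nat_lit 175) (nat_lit 174) (nat_lit 3) (nat_lit 4) (nat_lit 10) L6220 (by decide +kernel)
theorem L6222 : W_25 (nat_lit 4) (nat_lit 0x100008000c000200000001000080000000000000000000000000000000) (nat_lit 0x0) (nat_lit 0x100005c0028000000000000000000000000000000000000000) := T_25 (nat_lit 176) (nat_lit 159) (nat_lit 4) (nat_lit 7) (nat_lit 13) L6221 (by decide +kernel)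
theorem L6223 : W_25 (nat_lit 13) (nat_lit 0x1000080004000200000001000080000000000000000000000000000000) (nat_lit 0x0) (nat_lit 0x10001de00ef00770039803dc006e000000000000000000000000000000000000000) := Q_25 (nat_lit 195) (C_25 L6179 (C_25 L6205 (C_25 L6214 (C_25 L6219 (C_25 L6222 N_25))))) (by decide +kernel)
theorem L6230 : W_25 (nat_lit 14) (nat_lit 0x80004000200000001000080000000000000000000000000000000) (nat_lit 0x0) (nat_lit 0x1a001fe00ff00770039803dc006e000000000000000000000000000000000000000) := Q_25 (nat_lit 228) (C_25 L6047 (C_25 L6223 (C_25 L6226 (C_25 L6229 N_25)))) (by decide +kernel)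
theorem L6240 : W_25 (nat_lit 4) (nat_lit 0x8003c00180004000600000001000080000000000000000000000000000000) (nat_lit 0x0) (nat_lit 0x180004000070008000000000000000000000000000000000000000000000000) := T_25 (nat_lit 209) (nat_lit 208) (nat_lit 0) (nat_lit 8) (nat_lit 13) L6239 (by decide +kernel)
theorem L6241 : W_25 (nat_lit 5) (nat_lit 0x3c00180004000600000001000080000000000000000000000000000000) (nat_lit 0x0) (nat_lit 0x18c004000070008000000000000000000000000000000000000000000000000) := T_25 (nat_lit 243) (nat_lit 242) (nat_lit 1) (nat_lit 8) (nat_lit 13) L6240 (by decide +kernel)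
theorem L6242 : W_25 (nat_lit 6) (nat_lit 0x3800180004000600000001000080000000000000000000000000000000) (nat_lit 0x0) (nat_lit 0x18c004600070008000000000000000000000000000000000000000000000000) := T_25 (nat_lit 226) (nat_lit 225) (nat_lit 2) (nat_lit 4) (nat_lit 13) L6241 (by decide +kernel)
theorem L6243 : W_25 (nat_lit 7) (nat_lit 0x3000180004000600000001000080000000000000000000000000000000) (nat_lit 0x0) (nat_lit 0x19c004e00070008000000000000000000000000000000000000000000000000) := T_25 (nat_lit 227) (nat_lit 244) (nat_lit 5) (nat_lit 7) (nat_lit 10) L6242 (by decide +kernel)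
theorem L6244 : W_25 (nat_lit 8) (nat_lit 0x3000180004000200000001000080000000000000000000000000000000) (nat_lit 0x0) (nat_lit 0x19c004e00070008000400020000000000000000000000000000000000000000) := T_25 (nat_lit 178) (nat_lit 161) (nat_lit 6) (nat_lit 7) (nat_lit 13) L6243 (by decide +kernel)
theorem L6245 : W_25 (nat_lit 9) (nat_lit 0x1000180004000200000001000080000000000000000000000000000000) (nat_lit 0x0) (nat_lit 0x1dc006e00070008000400020000000000000000000000000000000000000000) := T_25 (nat_lit 229) (nat_lit 246) (nat_lit 7) (nat_lit 7) (nat_lit 10) L6244 (by decide +kernel)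
theorem L6246 : W_25 (nat_lit 2) (nat_lit 0x700058000e800e00000001000080000000000000000000000000000000) (nat_lit 0x0) (nat_lit 0x8000060000000000000000000000000000000000000000000000000000) := D_25 (nat_lit 210) (nat_lit 209) (nat_lit 231) (nat_lit 3) (nat_lit 5) (nat_lit 12) (nat_lit 0) (nat_lit 10) (nat_lit 13) (by decide +kernel)
theorem L6247 : W_25 (nat_lit 3) (nat_lit 0x300058000e800e00000001000080000000000000000000000000000000) (nat_lit 0x0) (nat_lit 0x8000c000060000000000000000000000000000000000000000000000000000) := T_25 (nat_lit 230) (nat_lit 247) (nat_lit 7) (nat_lit 8) (nat_lit 10) L6246 (by decide +kernel)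
theorem L6248 : W_25 (nat_lit 4) (nat_lit 0x3000580006800e00000001000080000000000000000000000000000000) (nat_lit 0x0) (nat_lit 0x8000c000060008000000040000000000000000000000000000000000000000) := T_25 (nat_lit 195) (nat_lit 162) (nat_lit 6) (nat_lit 8) (nat_lit 13) L6247 (by decide +kernel)
theorem L6249 : W_25 (nat_lit 5) (nat_lit 0x3000580006800600000001000080000000000000000000000000000000) (nat_lit 0x0) (nat_lit 0x8000c000060008001800040000000000000000000000000000000000000000) := T_25 (nat_lit 179) (nat_lit 180) (nat_lit 1) (nat_lit 10) (nat_lit 10) L6248 (by decide +kernel)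
theorem L6250 : W_25 (nat_lit 6) (nat_lit 0x3000580006800200000001000080000000000000000000000000000000) (nat_lit 0x0) (nat_lit 0x8000c000060008001c00060000000000000000000000000000000000000000) := T_25 (nat_lit 178) (nat_lit 161) (nat_lit 6) (nat_lit 7) (nat_lit 13) L6249 (by decide +kernel)
theorem L6251 : W_25 (nat_lit 7) (nat_lit 0x3000180006800200000001000080000000000000000000000000000000) (nat_lit 0x0) (nat_lit 0x8000c000660008001c00060000000000000000000000000000000000000000) := T_25 (nat_lit 214) (nat_lit 213) (nat_lit 0) (nat_lit 10) (nat_lit 12) L6250 (by decide +kernel)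
theorem L6252 : W_25 (nat_lit 8) (nat_lit 0x3000180006000200000001000080000000000000000000000000000000) (nat_lit 0x0) (nat_lit 0x8000c000660009801c00060000000000000000000000000000000000000000) := T_25 (nat_lit 191) (nat_lit 192) (nat_lit 3) (nat_lit 4) (nat_lit 11) L6251 (by decide +kernel)
theorem L6253 : W_25 (nat_lit 9) (nat_lit 0x1000180006000200000001000080000000000000000000000000000000) (nat_lit 0x0) (nat_lit 0xc000e000660009801c00060000000000000000000000000000000000000000) := T_25 (nat_lit 229) (nat_lit 246) (nat_lit 7) (nat_lit 7) (nat_lit 10) L6252 (by decide +kernel)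
theorem L6267 : W_25 (nat_lit 5) (nat_lit 0x1000180006800e00000001000080000000000000000000000000000000) (nat_lit 0x0) (nat_lit 0xc000e000060008000000040000000000000000000000000000000000000000) := T_25 (nat_lit 229) (nat_lit 246) (nat_lit 7) (nat_lit 7) (nat_lit 10) L6266 (by decide +kernel)
theorem L6268 : W_25 (nat_lit 6) (nat_lit 0x1000180006800600000001000080000000000000000000000000000000) (nat_lit 0x0) (nat_lit 0xc000e000060008001800040000000000000000000000000000000000000000) := T_25 (nat_lit 179) (nat_lit 180) (nat_lit 1) (nat_lit 10) (nat_lit 10) L6267 (by decide +kernel)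
theorem L6269 : W_25 (nat_lit 7) (nat_lit 0x1000180006800200000001000080000000000000000000000000000000) (nat_lit 0x0) (nat_lit 0xc000e000060008001c00060000000000000000000000000000000000000000) := T_25 (nat_lit 178) (nat_lit 161) (nat_lit 6) (nat_lit 7) (nat_lit 13) L6268 (by decide +kernel)
theorem L6270 : W_25 (nat_lit 8) (nat_lit 0x1000180006000200000001000080000000000000000000000000000000) (nat_lit 0x0) (nat_lit 0xc000e000060009801c00060000000000000000000000000000000000000000) := T_25 (nat_lit 191) (nat_lit 192) (nat_lit 3) (nat_lit 4) (nat_lit 11) L6269 (by decide +kernel)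
theorem L6274 : W_25 (nat_lit 5) (nat_lit 0x3000580006800600000001000080000000000000000000000000000000) (nat_lit 0x0) (nat_lit 0x8001c000800008001800040000000000000000000000000000000000000000) := T_25 (nat_lit 179) (nat_lit 180) (nat_lit 1) (nat_lit 10) (nat_lit 10) L6273 (by decide +kernel)
theorem L6275 : W_25 (nat_lit 6) (nat_lit 0x3000580006800200000001000080000000000000000000000000000000) (nat_lit 0x0) (nat_lit 0x8001c000800008001c00060000000000000000000000000000000000000000) := T_25 (nat_lit 178) (nat_lit 161) (nat_lit 6) (nat_lit 7) (nat_lit 13) L6274 (by decide +kernel)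
theorem L6276 : W_25 (nat_lit 7) (nat_lit 0x3000580006000200000001000080000000000000000000000000000000) (nat_lit 0x0) (nat_lit 0x8001c000800009801c00060000000000000000000000000000000000000000) := T_25 (nat_lit 191) (nat_lit 192) (nat_lit 3) (nat_lit 4) (nat_lit 11) L6275 (by decide +kernel)
theorem L6277 : W_25 (nat_lit 8) (nat_lit 0x3000180006000200000001000080000000000000000000000000000000) (nat_lit 0x0) (nat_lit 0x8001c000e00009801c00060000000000000000000000000000000000000000) := T_25 (nat_lit 214) (nat_lit 213) (nat_lit 0) (nat_lit 10) (nat_lit 12) L6276 (by decide +kernel)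
theorem L6278 : W_25 (nat_lit 9) (nat_lit 0x1000180006000200000001000080000000000000000000000000000000) (nat_lit 0x0) (nat_lit 0xc001e000e00009801c00060000000000000000000000000000000000000000) := T_25 (nat_lit 229) (nat_lit 246) (nat_lit 7) (nat_lit 7) (nat_lit 10) L6277 (by decide +kernel)
theorem L6279 : W_25 (nat_lit 2) (nat_lit 0x1000380006000200020001000080000000000000000000000000000000) (nat_lit 0x0) (nat_lit 0x40001800000000000000000000000000000000000000000000000) := D_25 (nat_lit 192) (nat_lit 191) (nat_lit 210) (nat_lit 3) (nat_lit 4) (nat_lit 11) (nat_lit 0) (nat_lit 9) (nat_lit 12) (by decide +kernel)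
theorem L6280 : W_25 (nat_lit 3) (nat_lit 0x1000180006000200020001000080000000000000000000000000000000) (nat_lit 0x0) (nat_lit 0x640001800000000000000000000000000000000000000000000000) := T_25 (nat_lit 213) (nat_lit 214) (nat_lit 0) (nat_lit 10) (nat_lit 12) L6279 (by decide +kernel)
theorem L6281 : W_25 (nat_lit 4) (nat_lit 0x1000180006000200000001000080000000000000000000000000000000) (nat_lit 0x0) (nat_lit 0x640001800400020000000000000000000000000000000000000000) := T_25 (nat_lit 161) (nat_lit 178) (nat_lit 6) (nat_lit 7) (nat_lit 13) L6280 (by decide +kernel)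
theorem L6282 : W_25 (nat_lit 10) (nat_lit 0x1000180004000200000001000080000000000000000000000000000000) (nat_lit 0x0) (nat_lit 0xc001e000e6000b801c00060000000000000000000000000000000000000000) := Q_25 (nat_lit 193) (C_25 L6253 (C_25 L6256 (C_25 L6263 (C_25 L6270 (C_25 L6278 (C_25 L6281 N_25)))))) (by decide +kernel)
theorem L6283 : W_25 (nat_lit 11) (nat_lit 0x1000080004000200000001000080000000000000000000000000000000) (nat_lit 0x0) (nat_lit 0x1dc01ee00f7000b801c00060000000000000000000000000000000000000000) := Q_25 (nat_lit 212) (C_25 L6234 (C_25 L6237 (C_25 L6245 (C_25 L6282 N_25)))) (by decide +kernel)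
theorem L6284 : W_25 (nat_lit 12) (nat_lit 0x80004000200000001000080000000000000000000000000000000) (nat_lit 0x0) (nat_lit 0xa001fc01fe00f7000b801c00060000000000000000000000000000000000000000) := Q_25 (nat_lit 228) (C_25 L6229 (C_25 L6047 (C_25 L6283 (C_25 L6226 N_25)))) (by decide +kernel)
theorem L6288 : W_25 (nat_lit 2) (nat_lit 0x8003c005a0006000200020001000080000000000000000000000000000000) (nat_lit 0x0) (nat_lit 0x100000004000040000000000000000000000000000000000000000000000000000) := D_25 (nat_lit 210) (nat_lit 230) (nat_lit 260) (nat_lit 3) (nat_lit 5) (nat_lit 12) (nat_lit 6) (nat_lit 5) (nat_lit 15) (by decide +kernel)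
theorem L6289 : W_25 (nat_lit 3) (nat_lit 0x8003c00580006000200020001000080000000000000000000000000000000) (nat_lit 0x0) (nat_lit 0x100000004000070000000000000000000000000000000000000000000000000000) := T_25 (nat_lit 209) (nat_lit 208) (nat_lit 0) (nat_lit 8) (nat_lit 13) L6288 (by decide +kernel)
theorem L6290 : W_25 (nat_lit 4) (nat_lit 0x3c00580006000200020001000080000000000000000000000000000000) (nat_lit 0x0) (nat_lit 0x10000c004000070000000000000000000000000000000000000000000000000000) := T_25 (nat_lit 243) (nat_lit 242) (nat_lit 1) (nat_lit 8) (nat_lit 13) L6289 (by decide +kernel)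
theorem L6291 : W_25 (nat_lit 5) (nat_lit 0x1c00580006000200020001000080000000000000000000000000000000) (nat_lit 0x0) (nat_lit 0x10004c006000070000000000000000000000000000000000000000000000000000) := T_25 (nat_lit 229) (nat_lit 246) (nat_lit 7) (nat_lit 7) (nat_lit 10) L6290 (by decide +kernel)
theorem L6292 : W_25 (nat_lit 6) (nat_lit 0x1800580006000200020001000080000000000000000000000000000000) (nat_lit 0x0) (nat_lit 0x10004c006600070000000000000000000000000000000000000000000000000000) := T_25 (nat_lit 226) (nat_lit 225) (nat_lit 2) (nat_lit 4) (nat_lit 13) L6291 (by decide +kernel)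
theorem L6293 : W_25 (nat_lit 7) (nat_lit 0x1000580006000200020001000080000000000000000000000000000000) (nat_lit 0x0) (nat_lit 0x10005c006e00070000000000000000000000000000000000000000000000000000) := T_25 (nat_lit 227) (nat_lit 244) (nat_lit 5) (nat_lit 7) (nat_lit 10) L6292 (by decide +kernel)
theorem L6294 : W_25 (nat_lit 8) (nat_lit 0x1000580006000200000001000080000000000000000000000000000000) (nat_lit 0x0) (nat_lit 0x10005c006e00070000000400020000000000000000000000000000000000000000) := T_25 (nat_lit 161) (nat_lit 178) (nat_lit 6) (nat_lit 7) (nat_lit 13) L6293 (by decide +kernel)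
theorem L6295 : W_25 (nat_lit 9) (nat_lit 0x1000180006000200000001000080000000000000000000000000000000) (nat_lit 0x0) (nat_lit 0x10005c006e00670000000400020000000000000000000000000000000000000000) := T_25 (nat_lit 214) (nat_lit 213) (nat_lit 0) (nat_lit 10) (nat_lit 12) L6294 (by decide +kernel)
theorem L6296 : W_25 (nat_lit 2) (nat_lit 0x8003c001a0006801600000001000080000000000000000000000000000000) (nat_lit 0x0) (nat_lit 0x100000004000040000000000000000000000000000000000000000000000000000) := D_25 (nat_lit 210) (nat_lit 230) (nat_lit 260) (nat_lit 3) (nat_lit 5) (nat_lit 12) (nat_lit 6) (nat_lit 5) (nat_lit 15) (by decide +kernel)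
theorem L6297 : W_25 (nat_lit 3) (nat_lit 0x8003c00180006801600000001000080000000000000000000000000000000) (nat_lit 0x0) (nat_lit 0x100000004000070000000000000000000000000000000000000000000000000000) := T_25 (nat_lit 209) (nat_lit 208) (nat_lit 0) (nat_lit 8) (nat_lit 13) L6296 (by decide +kernel)
theorem L6298 : W_25 (nat_lit 4) (nat_lit 0x3c00180006801600000001000080000000000000000000000000000000) (nat_lit 0x0) (nat_lit 0x10000c004000070000000000000000000000000000000000000000000000000000) := T_25 (nat_lit 243) (nat_lit 242) (nat_lit 1) (nat_lit 8) (nat_lit 13) L6297 (by decide +kernel)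
theorem L6299 : W_25 (nat_lit 5) (nat_lit 0x3800180006801600000001000080000000000000000000000000000000) (nat_lit 0x0) (nat_lit 0x10000c004600070000000000000000000000000000000000000000000000000000) := T_25 (nat_lit 226) (nat_lit 225) (nat_lit 2) (nat_lit 4) (nat_lit 13) L6298 (by decide +kernel)
theorem L6300 : W_25 (nat_lit 6) (nat_lit 0x3000180006801600000001000080000000000000000000000000000000) (nat_lit 0x0) (nat_lit 0x10001c004e00070000000000000000000000000000000000000000000000000000) := T_25 (nat_lit 227) (nat_lit 244) (nat_lit 5) (nat_lit 7) (nat_lit 10) L6299 (by decide +kernel)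
theorem L6301 : W_25 (nat_lit 7) (nat_lit 0x3000180006800600000001000080000000000000000000000000000000) (nat_lit 0x0) (nat_lit 0x10001c004e00070000001800000000000000000000000000000000000000000000) := T_25 (nat_lit 180) (nat_lit 179) (nat_lit 1) (nat_lit 10) (nat_lit 10) L6300 (by decide +kernel)
theorem L6302 : W_25 (nat_lit 8) (nat_lit 0x3000180006800200000001000080000000000000000000000000000000) (nat_lit 0x0) (nat_lit 0x10001c004e00070000001c00020000000000000000000000000000000000000000) := T_25 (nat_lit 178) (nat_lit 161) (nat_lit 6) (nat_lit 7) (nat_lit 13) L6301 (by decide +kernel)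
theorem L6303 : W_25 (nat_lit 9) (nat_lit 0x3000180006000200000001000080000000000000000000000000000000) (nat_lit 0x0) (nat_lit 0x10001c004e00070001801c00020000000000000000000000000000000000000000) := T_25 (nat_lit 191) (nat_lit 192) (nat_lit 3) (nat_lit 4) (nat_lit 11) L6302 (by decide +kernel)
theorem L6304 : W_25 (nat_lit 10) (nat_lit 0x1000180006000200000001000080000000000000000000000000000000) (nat_lit 0x0) (nat_lit 0x10005c006e00070001801c00020000000000000000000000000000000000000000) := T_25 (nat_lit 229) (nat_lit 246) (nat_lit 7) (nat_lit 7) (nat_lit 10) L6303 (by decide +kernel)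
theorem L6308 : W_25 (nat_lit 11) (nat_lit 0x1000080006000200000001000080000000000000000000000000000000) (nat_lit 0x0) (nat_lit 0x10005c006e00770001801c00020000000000000000000000000000000000000000) := Q_25 (nat_lit 212) (C_25 L6281 (C_25 L6256 (C_25 L6295 (C_25 L6304 (C_25 L6307 N_25))))) (by decide +kernel)
theorem L6312 : W_25 (nat_lit 5) (nat_lit 0x10000c0006000300000001000080000000000000000000000000000000) (nat_lit 0x0) (nat_lit 0x5000e800130000000000000000000000000000000000000000000000000000) := T_25 (nat_lit 244) (nat_lit 227) (nat_lit 6) (nat_lit 6) (nat_lit 14) L6311 (by decide +kernel)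
theorem L6313 : W_25 (nat_lit 6) (nat_lit 0x10000c0006000200000001000080000000000000000000000000000000) (nat_lit 0x0) (nat_lit 0x5000e800130000000100008000000000000000000000000000000000000000) := T_25 (nat_lit 176) (nat_lit 159) (nat_lit 7) (nat_lit 6) (nat_lit 9) L6312 (by decide +kernel)
theorem L6314 : W_25 (nat_lit 2) (nat_lit 0x800078002d0006000200000001000080000000000000000000000000000000) (nat_lit 0x0) (nat_lit 0x400100001000000000000000000000000000000000000000000000000) := D_25 (nat_lit 212) (nat_lit 226) (nat_lit 192) (nat_lit 2) (nat_lit 5) (nat_lit 13) (nat_lit 0) (nat_lit 9) (nat_lit 12) (by decide +kernel)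
theorem L6315 : W_25 (nat_lit 3) (nat_lit 0x800078000d0006000200000001000080000000000000000000000000000000) (nat_lit 0x0) (nat_lit 0x400700001000000000000000000000000000000000000000000000000) := T_25 (nat_lit 213) (nat_lit 214) (nat_lit 2) (nat_lit 6) (nat_lit 13) L6314 (by decide +kernel)
theorem L6316 : W_25 (nat_lit 4) (nat_lit 0x78000d0006000200000001000080000000000000000000000000000000) (nat_lit 0x0) (nat_lit 0x180000400700001000000000000000000000000000000000000000000000000) := T_25 (nat_lit 247) (nat_lit 248) (nat_lit 3) (nat_lit 6) (nat_lit 13) L6315 (by decide +kernel)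
theorem L6317 : W_25 (nat_lit 5) (nat_lit 0x70000d0006000200000001000080000000000000000000000000000000) (nat_lit 0x0) (nat_lit 0x190000c00700001000000000000000000000000000000000000000000000000) := T_25 (nat_lit 227) (nat_lit 244) (nat_lit 6) (nat_lit 6) (nat_lit 14) L6316 (by decide +kernel)
theorem L6318 : W_25 (nat_lit 6) (nat_lit 0x30000d0006000200000001000080000000000000000000000000000000) (nat_lit 0x0) (nat_lit 0x19000cc00700001000000000000000000000000000000000000000000000000) := T_25 (nat_lit 230) (nat_lit 231) (nat_lit 0) (nat_lit 10) (nat_lit 13) L6317 (by decide +kernel)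
theorem L6319 : W_25 (nat_lit 7) (nat_lit 0x30000c0006000200000001000080000000000000000000000000000000) (nat_lit 0x0) (nat_lit 0x19000cc00730001000000000000000000000000000000000000000000000000) := T_25 (nat_lit 208) (nat_lit 209) (nat_lit 3) (nat_lit 4) (nat_lit 12) L6318 (by decide +kernel)
theorem L6320 : W_25 (nat_lit 8) (nat_lit 0x10000c0006000200000001000080000000000000000000000000000000) (nat_lit 0x0) (nat_lit 0x1d000ec00730001000000000000000000000000000000000000000000000000) := T_25 (nat_lit 229) (nat_lit 246) (nat_lit 7) (nat_lit 7) (nat_lit 10) L6319 (by decide +kernel)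
theorem L6321 : W_25 (nat_lit 2) (nat_lit 0x38000c00060003a0000001000080000000000000000000000000000000) (nat_lit 0x0) (nat_lit 0x4000030000000000000000000000000000000000000000000000000000) := D_25 (nat_lit 209) (nat_lit 208) (nat_lit 230) (nat_lit 3) (nat_lit 4) (nat_lit 12) (nat_lit 0) (nat_lit 9) (nat_lit 13) (by decide +kernel)
theorem L6322 : W_25 (nat_lit 3) (nat_lit 0x18000c00060003a0000001000080000000000000000000000000000000) (nat_lit 0x0) (nat_lit 0x40006000030000000000000000000000000000000000000000000000000000) := T_25 (nat_lit 229) (nat_lit 246) (nat_lit 7) (nat_lit 7) (nat_lit 10) L6321 (by decide +kernel)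
theorem L6323 : W_25 (nat_lit 4) (nat_lit 0x18000c0006000380000001000080000000000000000000000000000000) (nat_lit 0x0) (nat_lit 0x40006000030000000060000000000000000000000000000000000000000000) := T_25 (nat_lit 173) (nat_lit 174) (nat_lit 3) (nat_lit 3) (nat_lit 10) L6322 (by decide +kernel)
theorem L6324 : W_25 (nat_lit 5) (nat_lit 0x18000c0006000300000001000080000000000000000000000000000000) (nat_lit 0x0) (nat_lit 0x400060000300000000e0004000000000000000000000000000000000000000) := T_25 (nat_lit 175) (nat_lit 158) (nat_lit 4) (nat_lit 6) (nat_lit 13) L6323 (by decide +kernel)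
theorem L6325 : W_25 (nat_lit 6) (nat_lit 0x18000c0006000200000001000080000000000000000000000000000000) (nat_lit 0x0) (nat_lit 0x400060000300000001e000c000000000000000000000000000000000000000) := T_25 (nat_lit 176) (nat_lit 159) (nat_lit 7) (nat_lit 6) (nat_lit 9) L6324 (by decide +kernel)
theorem L6326 : W_25 (nat_lit 7) (nat_lit 0x10000c0006000200000001000080000000000000000000000000000000) (nat_lit 0x0) (nat_lit 0x500068000300000001e000c000000000000000000000000000000000000000) := T_25 (nat_lit 227) (nat_lit 244) (nat_lit 6) (nat_lit 6) (nat_lit 14) L6325 (by decide +kernel)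
theorem L6328 : W_25 (nat_lit 3) (nat_lit 0x18000c0006000300000001000080000000000000000000000000000000) (nat_lit 0x0) (nat_lit 0x8000700100000000000000000000000000000000000000000000000000000) := T_25 (nat_lit 226) (nat_lit 243) (nat_lit 5) (nat_lit 6) (nat_lit 10) L6327 (by decide +kernel)
theorem L6329 : W_25 (nat_lit 4) (nat_lit 0x10000c0006000300000001000080000000000000000000000000000000) (nat_lit 0x0) (nat_lit 0x18000f00100000000000000000000000000000000000000000000000000000) := T_25 (nat_lit 227) (nat_lit 244) (nat_lit 6) (nat_lit 6) (nat_lit 14) L6328 (by decide +kernel)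
theorem L6330 : W_25 (nat_lit 5) (nat_lit 0x10000c0006000200000001000080000000000000000000000000000000) (nat_lit 0x0) (nat_lit 0x18000f00100000000100008000000000000000000000000000000000000000) := T_25 (nat_lit 176) (nat_lit 159) (nat_lit 7) (nat_lit 6) (nat_lit 9) L6329 (by decide +kernel)
theorem L6335 : W_25 (nat_lit 9) (nat_lit 0x1000080006000200000001000080000000000000000000000000000000) (nat_lit 0x0) (nat_lit 0x1d800ef007700010001e000c000000000000000000000000000000000000000) := Q_25 (nat_lit 210) (C_25 L6313 (C_25 L6320 (C_25 L6326 (C_25 L6330 (C_25 L6334 N_25))))) (by decide +kernel)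
theorem L6336 : W_25 (nat_lit 2) (nat_lit 0x3800280016000f00040001000080000000000000000000000000000000) (nat_lit 0x0) (nat_lit 0xc000400000000000000000000000000000000000000000000000000000) := D_25 (nat_lit 214) (nat_lit 230) (nat_lit 231) (nat_lit 2) (nat_lit 6) (nat_lit 13) (nat_lit 7) (nat_lit 9) (nat_lit 9) (by decide +kernel)
theorem L6337 : W_25 (nat_lit 3) (nat_lit 0x3800080016000f00040001000080000000000000000000000000000000) (nat_lit 0x0) (nat_lit 0xc000700000000000000000000000000000000000000000000000000000) := T_25 (nat_lit 213) (nat_lit 212) (nat_lit 5) (nat_lit 9) (nat_lit 9) L6336 (by decide +kernel)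
theorem L6338 : W_25 (nat_lit 4) (nat_lit 0x3800080016000f00000001000080000000000000000000000000000000) (nat_lit 0x0) (nat_lit 0xc0007000000000000c0000000000000000000000000000000000000000) := T_25 (nat_lit 162) (nat_lit 163) (nat_lit 2) (nat_lit 6) (nat_lit 10) L6337 (by decide +kernel)
theorem L6339 : W_25 (nat_lit 5) (nat_lit 0x3800080006000f00000001000080000000000000000000000000000000) (nat_lit 0x0) (nat_lit 0xc0007000300000000c0000000000000000000000000000000000000000) := T_25 (nat_lit 196) (nat_lit 197) (nat_lit 3) (nat_lit 6) (nat_lit 10) L6338 (by decide +kernel)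
theorem L6340 : W_25 (nat_lit 6) (nat_lit 0x3800080006000e00000001000080000000000000000000000000000000) (nat_lit 0x0) (nat_lit 0xc0007000300001000c8000000000000000000000000000000000000000) := T_25 (nat_lit 176) (nat_lit 159) (nat_lit 4) (nat_lit 7) (nat_lit 13) L6339 (by decide +kernel)
theorem L6341 : W_25 (nat_lit 7) (nat_lit 0x3000080006000e00000001000080000000000000000000000000000000) (nat_lit 0x0) (nat_lit 0x1000c8007000300001000c8000000000000000000000000000000000000000) := T_25 (nat_lit 227) (nat_lit 244) (nat_lit 5) (nat_lit 7) (nat_lit 10) L6340 (by decide +kernel)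
theorem L6342 : W_25 (nat_lit 8) (nat_lit 0x3000080006000600000001000080000000000000000000000000000000) (nat_lit 0x0) (nat_lit 0x1000c8007000300019000c8000000000000000000000000000000000000000) := T_25 (nat_lit 179) (nat_lit 180) (nat_lit 1) (nat_lit 10) (nat_lit 10) L6341 (by decide +kernel)
theorem L6343 : W_25 (nat_lit 9) (nat_lit 0x3000080006000200000001000080000000000000000000000000000000) (nat_lit 0x0) (nat_lit 0x1000c800700030001d000e8000000000000000000000000000000000000000) := T_25 (nat_lit 178) (nat_lit 161) (nat_lit 6) (nat_lit 7) (nat_lit 13) L6342 (by decide +kernel)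
theorem L6344 : W_25 (nat_lit 10) (nat_lit 0x1000080006000200000001000080000000000000000000000000000000) (nat_lit 0x0) (nat_lit 0x5000e800700030001d000e8000000000000000000000000000000000000000) := T_25 (nat_lit 229) (nat_lit 246) (nat_lit 7) (nat_lit 7) (nat_lit 10) L6343 (by decide +kernel)
theorem L6345 : W_25 (nat_lit 12) (nat_lit 0x1000080004000200000001000080000000000000000000000000000000) (nat_lit 0x0) (nat_lit 0x1001dc00ef00770033801de00ec000000000000000000000000000000000000000) := Q_25 (nat_lit 193) (C_25 L6287 (C_25 L6308 (C_25 L6335 (C_25 L6344 N_25)))) (by decide +kernel)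
theorem L6346 : W_25 (nat_lit 13) (nat_lit 0x80004000200000001000080000000000000000000000000000000) (nat_lit 0x0) (nat_lit 0xb001fc00ff00770033801de00ec000000000000000000000000000000000000000) := Q_25 (nat_lit 228) (C_25 L6067 (C_25 L6047 (C_25 L6345 (C_25 L6064 N_25)))) (by decide +kernel)
theorem L6353 : W_25 (nat_lit 2) (nat_lit 0x80007000200000001000080000000000000000000000000000000) (nat_lit 0x0) (nat_lit 0x100000800400000000000000000000000000000000000000000000) := D_25 (nat_lit 191) (nat_lit 178) (nat_lit 212) (nat_lit 2) (nat_lit 4) (nat_lit 11) (nat_lit 3) (nat_lit 4) (nat_lit 11) (by decide +kernel)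
theorem L6354 : W_25 (nat_lit 2) (nat_lit 0x80007800200000001000080000000000000000000000000000000) (nat_lit 0x0) (nat_lit 0x40000400100000000000000000000000000000000000000000000) := D_25 (nat_lit 190) (nat_lit 176) (nat_lit 210) (nat_lit 2) (nat_lit 3) (nat_lit 11) (nat_lit 3) (nat_lit 3) (nat_lit 11) (by decide +kernel)
theorem L6355 : W_25 (nat_lit 3) (nat_lit 0x80007000200000001000080000000000000000000000000000000) (nat_lit 0x0) (nat_lit 0x40000c00500000000000000000000000000000000000000000000) := T_25 (nat_lit 191) (nat_lit 178) (nat_lit 2) (nat_lit 4) (nat_lit 11) L6354 (by decide +kernel)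
theorem L6356 : W_25 (nat_lit 2) (nat_lit 0x4000000018001f000280000001000080000000000000000000000000000000) (nat_lit 0x0) (nat_lit 0x1c00000000000000000000000000000000000000000000) := D_25 (nat_lit 179) (nat_lit 178) (nat_lit 180) (nat_lit 2) (nat_lit 5) (nat_lit 11) (nat_lit 2) (nat_lit 6) (nat_lit 11) (by decide +kernel)
theorem L6357 : W_25 (nat_lit 3) (nat_lit 0x4000000018000f000280000001000080000000000000000000000000000000) (nat_lit 0x0) (nat_lit 0x10001d00000000000000000000000000000000000000000000) := T_25 (nat_lit 196) (nat_lit 176) (nat_lit 0) (nat_lit 9) (nat_lit 11) L6356 (by decide +kernel)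
theorem L6358 : W_25 (nat_lit 4) (nat_lit 0x18000f000280000001000080000000000000000000000000000000) (nat_lit 0x0) (nat_lit 0x40002000000010001d00000000000000000000000000000000000000000000) := T_25 (nat_lit 246) (nat_lit 229) (nat_lit 4) (nat_lit 8) (nat_lit 14) L6357 (by decide +kernel)
theorem L6359 : W_25 (nat_lit 5) (nat_lit 0x8000f000280000001000080000000000000000000000000000000) (nat_lit 0x0) (nat_lit 0x40002000300010001d00000000000000000000000000000000000000000000) := T_25 (nat_lit 212) (nat_lit 213) (nat_lit 3) (nat_lit 5) (nat_lit 11) L6358 (by decide +kernel)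
theorem L6360 : W_25 (nat_lit 6) (nat_lit 0x8000f000200000001000080000000000000000000000000000000) (nat_lit 0x0) (nat_lit 0x40002000300010001dc0000000000000000000000000000000000000000000) := T_25 (nat_lit 175) (nat_lit 174) (nat_lit 0) (nat_lit 8) (nat_lit 11) L6359 (by decide +kernel)
theorem L6361 : W_25 (nat_lit 2) (nat_lit 0x400000001e000f000680000001000080000000000000000000000000000000) (nat_lit 0x0) (nat_lit 0x800000000000000004000200000000000000000000000000000000000) := D_25 (nat_lit 158) (nat_lit 227) (nat_lit 141) (nat_lit 7) (nat_lit 5) (nat_lit 9) (nat_lit 7) (nat_lit 5) (nat_lit 8) (by decide +kernel)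
theorem L6362 : W_25 (nat_lit 3) (nat_lit 0x400000001a000f000680000001000080000000000000000000000000000000) (nat_lit 0x0) (nat_lit 0x800040010000000004000200000000000000000000000000000000000) := T_25 (nat_lit 210) (nat_lit 196) (nat_lit 2) (nat_lit 5) (nat_lit 12) L6361 (by decide +kernel)
theorem L6363 : W_25 (nat_lit 4) (nat_lit 0x4000000018000f000680000001000080000000000000000000000000000000) (nat_lit 0x0) (nat_lit 0x800070010000000004000200000000000000000000000000000000000) := T_25 (nat_lit 209) (nat_lit 208) (nat_lit 1) (nat_lit 8) (nat_lit 11) L6362 (by decide +kernel)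
theorem L6364 : W_25 (nat_lit 5) (nat_lit 0x4000000018000f000600000001000080000000000000000000000000000000) (nat_lit 0x0) (nat_lit 0x8000700100000c0004000200000000000000000000000000000000000) := T_25 (nat_lit 175) (nat_lit 174) (nat_lit 0) (nat_lit 8) (nat_lit 11) L6363 (by decide +kernel)
theorem L6365 : W_25 (nat_lit 6) (nat_lit 0x18000f000600000001000080000000000000000000000000000000) (nat_lit 0x0) (nat_lit 0x400028000700100000c0004000200000000000000000000000000000000000) := T_25 (nat_lit 246) (nat_lit 229) (nat_lit 4) (nat_lit 8) (nat_lit 14) L6364 (by decide +kernel)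
theorem L6366 : W_25 (nat_lit 7) (nat_lit 0x8000f000600000001000080000000000000000000000000000000) (nat_lit 0x0) (nat_lit 0x400028003700100000c0004000200000000000000000000000000000000000) := T_25 (nat_lit 212) (nat_lit 213) (nat_lit 3) (nat_lit 5) (nat_lit 11) L6365 (by decide +kernel)
theorem L6367 : W_25 (nat_lit 8) (nat_lit 0x8000f000200000001000080000000000000000000000000000000) (nat_lit 0x0) (nat_lit 0x40002800370010000cc0004000200000000000000000000000000000000000) := T_25 (nat_lit 178) (nat_lit 179) (nat_lit 2) (nat_lit 5) (nat_lit 11) L6366 (by decide +kernel)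
theorem L6372 : W_25 (nat_lit 2) (nat_lit 0x20001a000f000680000001000080000000000000000000000000000000) (nat_lit 0x0) (nat_lit 0x80004000040000000000000000000000000000000000000000000000000000) := D_25 (nat_lit 230) (nat_lit 247) (nat_lit 210) (nat_lit 7) (nat_lit 8) (nat_lit 10) (nat_lit 3) (nat_lit 5) (nat_lit 12) (by decide +kernel)
theorem L6373 : W_25 (nat_lit 3) (nat_lit 0x20001a000f000280000001000080000000000000000000000000000000) (nat_lit 0x0) (nat_lit 0x80004000040000000c00000000000000000000000000000000000000000000) := T_25 (nat_lit 178) (nat_lit 179) (nat_lit 2) (nat_lit 5) (nat_lit 11) L6372 (by decide +kernel)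
theorem L6374 : W_25 (nat_lit 4) (nat_lit 0x1a000f000280000001000080000000000000000000000000000000) (nat_lit 0x0) (nat_lit 0xc0006000040000000c00000000000000000000000000000000000000000000) := T_25 (nat_lit 229) (nat_lit 246) (nat_lit 4) (nat_lit 8) (nat_lit 14) L6373 (by decide +kernel)
theorem L6375 : W_25 (nat_lit 5) (nat_lit 0xa000f000280000001000080000000000000000000000000000000) (nat_lit 0x0) (nat_lit 0xc0006000340000000c00000000000000000000000000000000000000000000) := T_25 (nat_lit 212) (nat_lit 213) (nat_lit 3) (nat_lit 5) (nat_lit 11) L6374 (by decide +kernel)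
theorem L6376 : W_25 (nat_lit 6) (nat_lit 0xa000f000200000001000080000000000000000000000000000000) (nat_lit 0x0) (nat_lit 0xc0006000340000000cc0000000000000000000000000000000000000000000) := T_25 (nat_lit 175) (nat_lit 174) (nat_lit 0) (nat_lit 8) (nat_lit 11) L6375 (by decide +kernel)
theorem L6377 : W_25 (nat_lit 7) (nat_lit 0x8000f000200000001000080000000000000000000000000000000) (nat_lit 0x0) (nat_lit 0xc0006000370000000cc0000000000000000000000000000000000000000000) := T_25 (nat_lit 209) (nat_lit 208) (nat_lit 1) (nat_lit 8) (nat_lit 11) L6376 (by decide +kernel)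
theorem L6378 : W_25 (nat_lit 2) (nat_lit 0xa000f000680000001000080000000000000000000000000000000) (nat_lit 0x0) (nat_lit 0x40010000100000000000000000000000000000000000000000000) := D_25 (nat_lit 196) (nat_lit 176) (nat_lit 210) (nat_lit 3) (nat_lit 5) (nat_lit 10) (nat_lit 1) (nat_lit 9) (nat_lit 11) (by decide +kernel)
theorem L6379 : W_25 (nat_lit 3) (nat_lit 0x8000f000680000001000080000000000000000000000000000000) (nat_lit 0x0) (nat_lit 0x70010000100000000000000000000000000000000000000000000) := T_25 (nat_lit 209) (nat_lit 208) (nat_lit 1) (nat_lit 8) (nat_lit 11) L6378 (by decide +kernel)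
theorem L6380 : W_25 (nat_lit 4) (nat_lit 0x8000f000600000001000080000000000000000000000000000000) (nat_lit 0x0) (nat_lit 0x700100001c0000000000000000000000000000000000000000000) := T_25 (nat_lit 175) (nat_lit 174) (nat_lit 0) (nat_lit 8) (nat_lit 11) L6379 (by decide +kernel)
theorem L6381 : W_25 (nat_lit 5) (nat_lit 0x8000f000200000001000080000000000000000000000000000000) (nat_lit 0x0) (nat_lit 0x70010000dc0000000000000000000000000000000000000000000) := T_25 (nat_lit 178) (nat_lit 179) (nat_lit 2) (nat_lit 5) (nat_lit 11) L6380 (by decide +kernel)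
theorem L6382 : W_25 (nat_lit 9) (nat_lit 0x80007000200000001000080000000000000000000000000000000) (nat_lit 0x0) (nat_lit 0xc0006800370018001dc0004000200000000000000000000000000000000000) := Q_25 (nat_lit 195) (C_25 L6360 (C_25 L6367 (C_25 L6371 (C_25 L6377 (C_25 L6381 N_25))))) (by decide +kernel)
theorem L6383 : W_25 (nat_lit 3) (nat_lit 0x80007000200000001000080000000000000000000000000000000) (nat_lit 0x0) (nat_lit 0x140000c00100000000000000000000000000000000000000000000) := T_25 (nat_lit 191) (nat_lit 212) (nat_lit 3) (nat_lit 4) (nat_lit 11) L6354 (by decide +kernel)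
theorem L6384 : W_25 (nat_lit 10) (nat_lit 0x80006000200000001000080000000000000000000000000000000) (nat_lit 0x0) (nat_lit 0xc0006800370019c01dc0004000200000000000000000000000000000000000) := Q_25 (nat_lit 192) (C_25 L6353 (C_25 L6355 (C_25 L6382 (C_25 L6383 N_25)))) (by decide +kernel)
theorem L6385 : W_25 (nat_lit 2) (nat_lit 0x80016000fc0040001400080000000000000000000000000000000) (nat_lit 0x0) (nat_lit 0x7000000000000000000000000000000000000000) := D_25 (nat_lit 157) (nat_lit 158) (nat_lit 156) (nat_lit 0) (nat_lit 8) (nat_lit 10) (nat_lit 0) (nat_lit 7) (nat_lit 10) (by decide +kernel)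
theorem L6386 : W_25 (nat_lit 3) (nat_lit 0x80016000f80040001400080000000000000000000000000000000) (nat_lit 0x0) (nat_lit 0x60007000000000000000000000000000000000000000) := T_25 (nat_lit 174) (nat_lit 173) (nat_lit 3) (nat_lit 3) (nat_lit 10) L6385 (by decide +kernel)
theorem L6387 : W_25 (nat_lit 4) (nat_lit 0x80016000f00040001400080000000000000000000000000000000) (nat_lit 0x0) (nat_lit 0x80000e0007000000000000000000000000000000000000000) := T_25 (nat_lit 175) (nat_lit 195) (nat_lit 3) (nat_lit 5) (nat_lit 10) L6386 (by decide +kernel)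
theorem L6388 : W_25 (nat_lit 5) (nat_lit 0x80006000f00040001400080000000000000000000000000000000) (nat_lit 0x0) (nat_lit 0x380000e0007000000000000000000000000000000000000000) := T_25 (nat_lit 196) (nat_lit 197) (nat_lit 3) (nat_lit 6) (nat_lit 10) L6387 (by decide +kernel)
theorem L6389 : W_25 (nat_lit 6) (nat_lit 0x80006000f00000001400080000000000000000000000000000000) (nat_lit 0x0) (nat_lit 0x380000e00c7000000000000000000000000000000000000000) := T_25 (nat_lit 162) (nat_lit 163) (nat_lit 2) (nat_lit 6) (nat_lit 10) L6388 (by decide +kernel)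
theorem L6390 : W_25 (nat_lit 7) (nat_lit 0x80006000700000001400080000000000000000000000000000000) (nat_lit 0x0) (nat_lit 0x380018e00c7000000000000000000000000000000000000000) := T_25 (nat_lit 179) (nat_lit 180) (nat_lit 1) (nat_lit 10) (nat_lit 10) L6389 (by decide +kernel)
theorem L6391 : W_25 (nat_lit 8) (nat_lit 0x80006000700000001000080000000000000000000000000000000) (nat_lit 0x0) (nat_lit 0x380018e00cf000400000000000000000000000000000000000) := T_25 (nat_lit 142) (nat_lit 159) (nat_lit 7) (nat_lit 6) (nat_lit 8) L6390 (by decide +kernel)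
theorem L6392 : W_25 (nat_lit 9) (nat_lit 0x80006000300000001000080000000000000000000000000000000) (nat_lit 0x0) (nat_lit 0x38001ce00ef000400000000000000000000000000000000000) := T_25 (nat_lit 178) (nat_lit 161) (nat_lit 5) (nat_lit 8) (nat_lit 7) L6391 (by decide +kernel)
theorem L6393 : W_25 (nat_lit 2) (nat_lit 0xd002c0006000380000001400080000000000000000000000000000000) (nat_lit 0x0) (nat_lit 0x8000060000000000000000000000000000000000000000000) := D_25 (nat_lit 174) (nat_lit 195) (nat_lit 173) (nat_lit 3) (nat_lit 4) (nat_lit 10) (nat_lit 3) (nat_lit 3) (nat_lit 10) (by decide +kernel)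
theorem L6394 : W_25 (nat_lit 3) (nat_lit 0xd002c0006000300000001400080000000000000000000000000000000) (nat_lit 0x0) (nat_lit 0x80000e0004000000000000000000000000000000000000000) := T_25 (nat_lit 175) (nat_lit 158) (nat_lit 4) (nat_lit 6) (nat_lit 13) L6393 (by decide +kernel)
theorem L6395 : W_25 (nat_lit 4) (nat_lit 0xd000c0006000300000001400080000000000000000000000000000000) (nat_lit 0x0) (nat_lit 0x3000080000e0004000000000000000000000000000000000000000) := T_25 (nat_lit 213) (nat_lit 212) (nat_lit 1) (nat_lit 9) (nat_lit 12) L6394 (by decide +kernel)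
theorem L6396 : W_25 (nat_lit 5) (nat_lit 0xc000c0006000300000001400080000000000000000000000000000000) (nat_lit 0x0) (nat_lit 0x3003000080000e0004000000000000000000000000000000000000000) := T_25 (nat_lit 224) (nat_lit 225) (nat_lit 2) (nat_lit 3) (nat_lit 13) L6395 (by decide +kernel)
theorem L6397 : W_25 (nat_lit 6) (nat_lit 0x8000c0006000300000001400080000000000000000000000000000000) (nat_lit 0x0) (nat_lit 0x80007003000080000e0004000000000000000000000000000000000000000) := T_25 (nat_lit 226) (nat_lit 243) (nat_lit 5) (nat_lit 6) (nat_lit 10) L6396 (by decide +kernel)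
theorem L6398 : W_25 (nat_lit 7) (nat_lit 0xc0006000300000001400080000000000000000000000000000000) (nat_lit 0x0) (nat_lit 0x18000f003000080000e0004000000000000000000000000000000000000000) := T_25 (nat_lit 227) (nat_lit 244) (nat_lit 6) (nat_lit 6) (nat_lit 14) L6397 (by decide +kernel)
theorem L6399 : W_25 (nat_lit 8) (nat_lit 0xc0006000300000001000080000000000000000000000000000000) (nat_lit 0x0) (nat_lit 0x18000f003000080000e000c000400000000000000000000000000000000000) := T_25 (nat_lit 142) (nat_lit 159) (nat_lit 7) (nat_lit 6) (nat_lit 8) L6398 (by decide +kernel)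
theorem L6400 : W_25 (nat_lit 2) (nat_lit 0x100000000e0006000300008001000080000000000000000000000000000000) (nat_lit 0x0) (nat_lit 0x18008000000000000000000000000000000000000000000000000) := D_25 (nat_lit 208) (nat_lit 195) (nat_lit 207) (nat_lit 2) (nat_lit 4) (nat_lit 12) (nat_lit 2) (nat_lit 3) (nat_lit 12) (by decide +kernel)
theorem L6401 : W_25 (nat_lit 3) (nat_lit 0x100000000c0006000300008001000080000000000000000000000000000000) (nat_lit 0x0) (nat_lit 0x400038008000000000000000000000000000000000000000000000000) := T_25 (nat_lit 209) (nat_lit 226) (nat_lit 5) (nat_lit 6) (nat_lit 9) L6400 (by decide +kernel)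
theorem L6402 : W_25 (nat_lit 4) (nat_lit 0x100000000c0006000300000001000080000000000000000000000000000000) (nat_lit 0x0) (nat_lit 0x400038008000000008000400000000000000000000000000000000000) := T_25 (nat_lit 159) (nat_lit 142) (nat_lit 7) (nat_lit 6) (nat_lit 8) L6401 (by decide +kernel)
theorem L6403 : W_25 (nat_lit 5) (nat_lit 0xc0006000300000001000080000000000000000000000000000000) (nat_lit 0x0) (nat_lit 0x10000c00038008000000008000400000000000000000000000000000000000) := T_25 (nat_lit 244) (nat_lit 227) (nat_lit 6) (nat_lit 6) (nat_lit 14) L6402 (by decide +kernel)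
theorem L6404 : W_25 (nat_lit 2) (nat_lit 0xd002c00068003c0002001400080000000000000000000000000000000) (nat_lit 0x0) (nat_lit 0x38000000000000000000000000000000000000000000000000000) := D_25 (nat_lit 208) (nat_lit 207) (nat_lit 209) (nat_lit 5) (nat_lit 4) (nat_lit 9) (nat_lit 7) (nat_lit 4) (nat_lit 9) (by decide +kernel)
theorem L6405 : W_25 (nat_lit 3) (nat_lit 0xd002c00068003c0000001400080000000000000000000000000000000) (nat_lit 0x0) (nat_lit 0x38000000000003000000000000000000000000000000000000000) := T_25 (nat_lit 157) (nat_lit 156) (nat_lit 0) (nat_lit 7) (nat_lit 10) L6404 (by decide +kernel)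
theorem L6406 : W_25 (nat_lit 4) (nat_lit 0xd002c00060003c0000001400080000000000000000000000000000000) (nat_lit 0x0) (nat_lit 0x38000c00000003000000000000000000000000000000000000000) := T_25 (nat_lit 191) (nat_lit 190) (nat_lit 1) (nat_lit 7) (nat_lit 10) L6405 (by decide +kernel)
theorem L6407 : W_25 (nat_lit 5) (nat_lit 0xd002c0006000380000001400080000000000000000000000000000000) (nat_lit 0x0) (nat_lit 0x38000c00060003000000000000000000000000000000000000000) := T_25 (nat_lit 174) (nat_lit 173) (nat_lit 3) (nat_lit 3) (nat_lit 10) L6406 (by decide +kernel)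
theorem L6408 : W_25 (nat_lit 6) (nat_lit 0xd002c0006000300000001400080000000000000000000000000000000) (nat_lit 0x0) (nat_lit 0x38000c000e0007000000000000000000000000000000000000000) := T_25 (nat_lit 175) (nat_lit 158) (nat_lit 4) (nat_lit 6) (nat_lit 13) L6407 (by decide +kernel)
theorem L6409 : W_25 (nat_lit 7) (nat_lit 0xd000c0006000300000001400080000000000000000000000000000000) (nat_lit 0x0) (nat_lit 0x338000c000e0007000000000000000000000000000000000000000) := T_25 (nat_lit 213) (nat_lit 212) (nat_lit 1) (nat_lit 9) (nat_lit 12) L6408 (by decide +kernel)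
theorem L6410 : W_25 (nat_lit 8) (nat_lit 0xc000c0006000300000001400080000000000000000000000000000000) (nat_lit 0x0) (nat_lit 0x300338000c000e0007000000000000000000000000000000000000000) := T_25 (nat_lit 224) (nat_lit 225) (nat_lit 2) (nat_lit 3) (nat_lit 13) L6409 (by decide +kernel)
theorem L6411 : W_25 (nat_lit 9) (nat_lit 0x8000c0006000300000001400080000000000000000000000000000000) (nat_lit 0x0) (nat_lit 0x8000700338000c000e0007000000000000000000000000000000000000000) := T_25 (nat_lit 226) (nat_lit 243) (nat_lit 5) (nat_lit 6) (nat_lit 10) L6410 (by decide +kernel)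
theorem L6412 : W_25 (nat_lit 10) (nat_lit 0xc0006000300000001400080000000000000000000000000000000) (nat_lit 0x0) (nat_lit 0x18000f00338000c000e0007000000000000000000000000000000000000000) := T_25 (nat_lit 227) (nat_lit 244) (nat_lit 6) (nat_lit 6) (nat_lit 14) L6411 (by decide +kernel)
theorem L6413 : W_25 (nat_lit 11) (nat_lit 0xc0006000300000001000080000000000000000000000000000000) (nat_lit 0x0) (nat_lit 0x18000f00338000c000e000f000400000000000000000000000000000000000) := T_25 (nat_lit 142) (nat_lit 159) (nat_lit 7) (nat_lit 6) (nat_lit 8) L6412 (by decide +kernel)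
theorem L6414 : W_25 (nat_lit 2) (nat_lit 0xd002c0006000380000001000080000000000000000000000000000000) (nat_lit 0x0) (nat_lit 0x8000060000000000000000000000000000000000000000000) := D_25 (nat_lit 174) (nat_lit 195) (nat_lit 173) (nat_lit 3) (nat_lit 4) (nat_lit 10) (nat_lit 3) (nat_lit 3) (nat_lit 10) (by decide +kernel)
theorem L6415 : W_25 (nat_lit 3) (nat_lit 0xd002c0006000300000001000080000000000000000000000000000000) (nat_lit 0x0) (nat_lit 0x80000e0004000000000000000000000000000000000000000) := T_25 (nat_lit 175) (nat_lit 158) (nat_lit 4) (nat_lit 6) (nat_lit 13) L6414 (by decide +kernel)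
theorem L6416 : W_25 (nat_lit 4) (nat_lit 0xd000c0006000300000001000080000000000000000000000000000000) (nat_lit 0x0) (nat_lit 0x3000080000e0004000000000000000000000000000000000000000) := T_25 (nat_lit 213) (nat_lit 212) (nat_lit 1) (nat_lit 9) (nat_lit 12) L6415 (by decide +kernel)
theorem L6417 : W_25 (nat_lit 5) (nat_lit 0xc000c0006000300000001000080000000000000000000000000000000) (nat_lit 0x0) (nat_lit 0x3003000080000e0004000000000000000000000000000000000000000) := T_25 (nat_lit 224) (nat_lit 225) (nat_lit 2) (nat_lit 3) (nat_lit 13) L6416 (by decide +kernel)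
theorem L6418 : W_25 (nat_lit 6) (nat_lit 0x8000c0006000300000001000080000000000000000000000000000000) (nat_lit 0x0) (nat_lit 0x80007003000080000e0004000000000000000000000000000000000000000) := T_25 (nat_lit 226) (nat_lit 243) (nat_lit 5) (nat_lit 6) (nat_lit 10) L6417 (by decide +kernel)
theorem L6419 : W_25 (nat_lit 7) (nat_lit 0xc0006000300000001000080000000000000000000000000000000) (nat_lit 0x0) (nat_lit 0x18000f003000080000e0004000000000000000000000000000000000000000) := T_25 (nat_lit 227) (nat_lit 244) (nat_lit 6) (nat_lit 6) (nat_lit 14) L6418 (by decide +kernel)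
theorem L6423 : W_25 (nat_lit 2) (nat_lit 0x8000c0006000380000001400080000000000000000000000000000000) (nat_lit 0x0) (nat_lit 0x8000060000000000000000000000000000000000000000000) := D_25 (nat_lit 174) (nat_lit 195) (nat_lit 173) (nat_lit 3) (nat_lit 4) (nat_lit 10) (nat_lit 3) (nat_lit 3) (nat_lit 10) (by decide +kernel)
theorem L6424 : W_25 (nat_lit 3) (nat_lit 0x8000c0006000300000001400080000000000000000000000000000000) (nat_lit 0x0) (nat_lit 0x80000e0004000000000000000000000000000000000000000) := T_25 (nat_lit 175) (nat_lit 158) (nat_lit 4) (nat_lit 6) (nat_lit 13) L6423 (by decide +kernel)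
theorem L6425 : W_25 (nat_lit 4) (nat_lit 0xc0006000300000001400080000000000000000000000000000000) (nat_lit 0x0) (nat_lit 0x100008000000080000e0004000000000000000000000000000000000000000) := T_25 (nat_lit 227) (nat_lit 244) (nat_lit 6) (nat_lit 6) (nat_lit 14) L6424 (by decide +kernel)
theorem L6426 : W_25 (nat_lit 5) (nat_lit 0xc0006000300000001000080000000000000000000000000000000) (nat_lit 0x0) (nat_lit 0x100008000000080000e000c000400000000000000000000000000000000000) := T_25 (nat_lit 142) (nat_lit 159) (nat_lit 7) (nat_lit 6) (nat_lit 8) L6425 (by decide +kernel)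
theorem L6427 : W_25 (nat_lit 12) (nat_lit 0x80006000300000001000080000000000000000000000000000000) (nat_lit 0x0) (nat_lit 0x18000f00378008c000e000f000400000000000000000000000000000000000) := Q_25 (nat_lit 210) (C_25 L6399 (C_25 L6403 (C_25 L6413 (C_25 L6419 (C_25 L6422 (C_25 L6426 N_25)))))) (by decide +kernel)
theorem L6429 : W_25 (nat_lit 3) (nat_lit 0x80006000300008001000080000000000000000000000000000000) (nat_lit 0x0) (nat_lit 0x1c00024000000000000000000000000000000000000000) := T_25 (nat_lit 178) (nat_lit 161) (nat_lit 5) (nat_lit 8) (nat_lit 7) L6428 (by decide +kernel)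
theorem L6430 : W_25 (nat_lit 4) (nat_lit 0x80006000300000001000080000000000000000000000000000000) (nat_lit 0x0) (nat_lit 0x1c0002c000400000000000000000000000000000000000) := T_25 (nat_lit 159) (nat_lit 142) (nat_lit 7) (nat_lit 6) (nat_lit 8) L6429 (by decide +kernel)
theorem L6431 : W_25 (nat_lit 2) (nat_lit 0x80016000fc0040001000080000000000000000000000000000000) (nat_lit 0x0) (nat_lit 0x7000000000000000000000000000000000000000) := D_25 (nat_lit 157) (nat_lit 158) (nat_lit 156) (nat_lit 0) (nat_lit 8) (nat_lit 10) (nat_lit 0) (nat_lit 7) (nat_lit 10) (by decide +kernel)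
theorem L6432 : W_25 (nat_lit 3) (nat_lit 0x80016000f80040001000080000000000000000000000000000000) (nat_lit 0x0) (nat_lit 0x60007000000000000000000000000000000000000000) := T_25 (nat_lit 174) (nat_lit 173) (nat_lit 3) (nat_lit 3) (nat_lit 10) L6431 (by decide +kernel)
theorem L6433 : W_25 (nat_lit 4) (nat_lit 0x80016000f00040001000080000000000000000000000000000000) (nat_lit 0x0) (nat_lit 0x80000e0007000000000000000000000000000000000000000) := T_25 (nat_lit 175) (nat_lit 195) (nat_lit 3) (nat_lit 5) (nat_lit 10) L6432 (by decide +kernel)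
theorem L6434 : W_25 (nat_lit 5) (nat_lit 0x80006000f00040001000080000000000000000000000000000000) (nat_lit 0x0) (nat_lit 0x380000e0007000000000000000000000000000000000000000) := T_25 (nat_lit 196) (nat_lit 197) (nat_lit 3) (nat_lit 6) (nat_lit 10) L6433 (by decide +kernel)
theorem L6435 : W_25 (nat_lit 6) (nat_lit 0x80006000f00000001000080000000000000000000000000000000) (nat_lit 0x0) (nat_lit 0x380000e00c7000000000000000000000000000000000000000) := T_25 (nat_lit 162) (nat_lit 163) (nat_lit 2) (nat_lit 6) (nat_lit 10) L6434 (by decide +kernel)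
theorem L6436 : W_25 (nat_lit 7) (nat_lit 0x80006000700000001000080000000000000000000000000000000) (nat_lit 0x0) (nat_lit 0x380018e00c7000000000000000000000000000000000000000) := T_25 (nat_lit 179) (nat_lit 180) (nat_lit 1) (nat_lit 10) (nat_lit 10) L6435 (by decide +kernel)
theorem L6437 : W_25 (nat_lit 8) (nat_lit 0x80006000300000001000080000000000000000000000000000000) (nat_lit 0x0) (nat_lit 0x38001ce00e7000000000000000000000000000000000000000) := T_25 (nat_lit 178) (nat_lit 161) (nat_lit 5) (nat_lit 8) (nat_lit 7) L6436 (by decide +kernel)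
theorem L6438 : W_25 (nat_lit 2) (nat_lit 0x200028001e000f00040001400080000000000000000000000000000000) (nat_lit 0x0) (nat_lit 0xc0004000000000000000000000000000000000000000000000000000000000) := D_25 (nat_lit 230) (nat_lit 247) (nat_lit 246) (nat_lit 4) (nat_lit 9) (nat_lit 14) (nat_lit 5) (nat_lit 9) (nat_lit 10) (by decide +kernel)
theorem L6439 : W_25 (nat_lit 3) (nat_lit 0x200008001e000f00040001400080000000000000000000000000000000) (nat_lit 0x0) (nat_lit 0xc0004000600000000000000000000000000000000000000000000000000000) := T_25 (nat_lit 213) (nat_lit 214) (nat_lit 3) (nat_lit 6) (nat_lit 11) L6438 (by decide +kernel)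
theorem L6440 : W_25 (nat_lit 4) (nat_lit 0x8001e000f00040001400080000000000000000000000000000000) (nat_lit 0x0) (nat_lit 0xc0006000700000000000000000000000000000000000000000000000000000) := T_25 (nat_lit 229) (nat_lit 212) (nat_lit 6) (nat_lit 8) (nat_lit 13) L6439 (by decide +kernel)
theorem L6441 : W_25 (nat_lit 5) (nat_lit 0x80016000f00040001400080000000000000000000000000000000) (nat_lit 0x0) (nat_lit 0xc0006000700008000080000000000000000000000000000000000000000000) := T_25 (nat_lit 195) (nat_lit 175) (nat_lit 3) (nat_lit 5) (nat_lit 10) L6440 (by decide +kernel)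
theorem L6442 : W_25 (nat_lit 6) (nat_lit 0x80006000f00040001400080000000000000000000000000000000) (nat_lit 0x0) (nat_lit 0xc0006000700038000080000000000000000000000000000000000000000000) := T_25 (nat_lit 196) (nat_lit 197) (nat_lit 3) (nat_lit 6) (nat_lit 10) L6441 (by decide +kernel)
theorem L6443 : W_25 (nat_lit 7) (nat_lit 0x80006000f00000001400080000000000000000000000000000000) (nat_lit 0x0) (nat_lit 0xc00060007000380000800c0000000000000000000000000000000000000000) := T_25 (nat_lit 162) (nat_lit 163) (nat_lit 2) (nat_lit 6) (nat_lit 10) L6442 (by decide +kernel)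
theorem L6444 : W_25 (nat_lit 8) (nat_lit 0x80006000700000001400080000000000000000000000000000000) (nat_lit 0x0) (nat_lit 0xc00060007000380018800c0000000000000000000000000000000000000000) := T_25 (nat_lit 179) (nat_lit 180) (nat_lit 1) (nat_lit 10) (nat_lit 10) L6443 (by decide +kernel)
theorem L6445 : W_25 (nat_lit 9) (nat_lit 0x80006000700000001000080000000000000000000000000000000) (nat_lit 0x0) (nat_lit 0xc00060007000380018800c8000400000000000000000000000000000000000) := T_25 (nat_lit 142) (nat_lit 159) (nat_lit 7) (nat_lit 6) (nat_lit 8) L6444 (by decide +kernel)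
theorem L6446 : W_25 (nat_lit 10) (nat_lit 0x80006000300000001000080000000000000000000000000000000) (nat_lit 0x0) (nat_lit 0xc0006000700038001c800e8000400000000000000000000000000000000000) := T_25 (nat_lit 178) (nat_lit 161) (nat_lit 5) (nat_lit 8) (nat_lit 7) L6445 (by decide +kernel)
theorem L6447 : W_25 (nat_lit 13) (nat_lit 0x80006000200000001000080000000000000000000000000000000) (nat_lit 0x0) (nat_lit 0xd8006f00778038c01de00ef000400000000000000000000000000000000000) := Q_25 (nat_lit 176) (C_25 L6392 (C_25 L6427 (C_25 L6430 (C_25 L6437 (C_25 L6446 N_25))))) (by decide +kernel)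
theorem L6448 : W_25 (nat_lit 2) (nat_lit 0x80007000600000001000080000000000000000000000000000000) (nat_lit 0x0) (nat_lit 0x8000900000000000000000000000000000000000000000000) := D_25 (nat_lit 179) (nat_lit 176) (nat_lit 195) (nat_lit 1) (nat_lit 9) (nat_lit 10) (nat_lit 2) (nat_lit 5) (nat_lit 11) (by decide +kernel)
theorem L6449 : W_25 (nat_lit 3) (nat_lit 0x80006000600000001000080000000000000000000000000000000) (nat_lit 0x0) (nat_lit 0x9800900000000000000000000000000000000000000000000) := T_25 (nat_lit 192) (nat_lit 191) (nat_lit 2) (nat_lit 4) (nat_lit 11) L6448 (by decide +kernel)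
theorem L6450 : W_25 (nat_lit 4) (nat_lit 0x80006000200000001000080000000000000000000000000000000) (nat_lit 0x0) (nat_lit 0x9800d00020000000000000000000000000000000000000000) := T_25 (nat_lit 178) (nat_lit 161) (nat_lit 5) (nat_lit 8) (nat_lit 7) L6449 (by decide +kernel)
theorem L6456 : W_25 (nat_lit 4) (nat_lit 0x80007800200000001000080000000000000000000000000000000) (nat_lit 0x0) (nat_lit 0x5c000400060000000000000000000000000000000000000000000) := T_25 (nat_lit 174) (nat_lit 173) (nat_lit 0) (nat_lit 7) (nat_lit 11) L6455 (by decide +kernel)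
theorem L6459 : W_25 (nat_lit 2) (nat_lit 0x90007800240000001000080000000000000000000000000000000) (nat_lit 0x0) (nat_lit 0x20008000080000000000000000000000000000000000000000000) := D_25 (nat_lit 195) (nat_lit 175) (nat_lit 209) (nat_lit 0) (nat_lit 8) (nat_lit 11) (nat_lit 1) (nat_lit 8) (nat_lit 11) (by decide +kernel)
theorem L6460 : W_25 (nat_lit 3) (nat_lit 0x80007800240000001000080000000000000000000000000000000) (nat_lit 0x0) (nat_lit 0x38008000080000000000000000000000000000000000000000000) := T_25 (nat_lit 208) (nat_lit 207) (nat_lit 1) (nat_lit 7) (nat_lit 11) L6459 (by decide +kernel)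
theorem L6461 : W_25 (nat_lit 4) (nat_lit 0x80007800200000001000080000000000000000000000000000000) (nat_lit 0x0) (nat_lit 0x380080000e0000000000000000000000000000000000000000000) := T_25 (nat_lit 174) (nat_lit 173) (nat_lit 0) (nat_lit 7) (nat_lit 11) L6460 (by decide +kernel)
theorem L6462 : W_25 (nat_lit 5) (nat_lit 0x80007000200000001000080000000000000000000000000000000) (nat_lit 0x0) (nat_lit 0x7c008c001e0000000000000000000000000000000000000000000) := Q_25 (nat_lit 191) (C_25 L6354 (C_25 L6456 (C_25 L6458 (C_25 L6461 N_25)))) (by decide +kernel)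
theorem L6463 : W_25 (nat_lit 5) (nat_lit 0x80007000200000001000080000000000000000000000000000000) (nat_lit 0x0) (nat_lit 0x1380088000e0000000000000000000000000000000000000000000) := T_25 (nat_lit 191) (nat_lit 212) (nat_lit 3) (nat_lit 4) (nat_lit 11) L6461 (by decide +kernel)
theorem L6464 : W_25 (nat_lit 2) (nat_lit 0x20001e000f000280000001000080000000000000000000000000000000) (nat_lit 0x0) (nat_lit 0x10000800000000000000004000000000000000000000000000000000000000) := D_25 (nat_lit 227) (nat_lit 244) (nat_lit 158) (nat_lit 6) (nat_lit 6) (nat_lit 14) (nat_lit 7) (nat_lit 5) (nat_lit 9) (by decide +kernel)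
theorem L6465 : W_25 (nat_lit 3) (nat_lit 0x20001a000f000280000001000080000000000000000000000000000000) (nat_lit 0x0) (nat_lit 0x10004800040000000000004000000000000000000000000000000000000000) := T_25 (nat_lit 210) (nat_lit 230) (nat_lit 3) (nat_lit 5) (nat_lit 12) L6464 (by decide +kernel)
theorem L6466 : W_25 (nat_lit 4) (nat_lit 0x200018000f000280000001000080000000000000000000000000000000) (nat_lit 0x0) (nat_lit 0x10004800070000000000004000000000000000000000000000000000000000) := T_25 (nat_lit 209) (nat_lit 208) (nat_lit 1) (nat_lit 8) (nat_lit 11) L6465 (by decide +kernel)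
theorem L6467 : W_25 (nat_lit 5) (nat_lit 0x18000f000280000001000080000000000000000000000000000000) (nat_lit 0x0) (nat_lit 0x50006800070000000000004000000000000000000000000000000000000000) := T_25 (nat_lit 229) (nat_lit 246) (nat_lit 4) (nat_lit 8) (nat_lit 14) L6466 (by decide +kernel)
theorem L6468 : W_25 (nat_lit 6) (nat_lit 0x8000f000280000001000080000000000000000000000000000000) (nat_lit 0x0) (nat_lit 0x50006800370000000000004000000000000000000000000000000000000000) := T_25 (nat_lit 212) (nat_lit 213) (nat_lit 3) (nat_lit 5) (nat_lit 11) L6467 (by decide +kernel)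
theorem L6469 : W_25 (nat_lit 7) (nat_lit 0x8000f000200000001000080000000000000000000000000000000) (nat_lit 0x0) (nat_lit 0x500068003700000000c0004000000000000000000000000000000000000000) := T_25 (nat_lit 175) (nat_lit 174) (nat_lit 0) (nat_lit 8) (nat_lit 11) L6468 (by decide +kernel)
theorem L6470 : W_25 (nat_lit 2) (nat_lit 0xa000f000280000001000080000000000000000000000000000000) (nat_lit 0x0) (nat_lit 0x40010000100000000000000000000000000000000000000000000) := D_25 (nat_lit 196) (nat_lit 210) (nat_lit 176) (nat_lit 1) (nat_lit 9) (nat_lit 11) (nat_lit 0) (nat_lit 9) (nat_lit 11) (by decide +kernel)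
theorem L6471 : W_25 (nat_lit 3) (nat_lit 0xa000f000200000001000080000000000000000000000000000000) (nat_lit 0x0) (nat_lit 0x400100001c0000000000000000000000000000000000000000000) := T_25 (nat_lit 175) (nat_lit 174) (nat_lit 0) (nat_lit 8) (nat_lit 11) L6470 (by decide +kernel)
theorem L6472 : W_25 (nat_lit 4) (nat_lit 0x8000f000200000001000080000000000000000000000000000000) (nat_lit 0x0) (nat_lit 0x700100001c0000000000000000000000000000000000000000000) := T_25 (nat_lit 209) (nat_lit 208) (nat_lit 1) (nat_lit 8) (nat_lit 11) L6471 (by decide +kernel)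
theorem L6473 : W_25 (nat_lit 2) (nat_lit 0x400000001a001f001280000001000080000000000000000000000000000000) (nat_lit 0x0) (nat_lit 0x60002000000000000000000000000000000000000000000000) := D_25 (nat_lit 197) (nat_lit 198) (nat_lit 181) (nat_lit 1) (nat_lit 11) (nat_lit 11) (nat_lit 2) (nat_lit 7) (nat_lit 11) (by decide +kernel)
theorem L6474 : W_25 (nat_lit 3) (nat_lit 0x400000001a001f000280000001000080000000000000000000000000000000) (nat_lit 0x0) (nat_lit 0x60003800000000000000000000000000000000000000000000) := T_25 (nat_lit 180) (nat_lit 179) (nat_lit 2) (nat_lit 6) (nat_lit 11) L6473 (by decide +kernel)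
theorem L6475 : W_25 (nat_lit 4) (nat_lit 0x400000001a000f000280000001000080000000000000000000000000000000) (nat_lit 0x0) (nat_lit 0x70003900000000000000000000000000000000000000000000) := T_25 (nat_lit 196) (nat_lit 176) (nat_lit 0) (nat_lit 9) (nat_lit 11) L6474 (by decide +kernel)
theorem L6476 : W_25 (nat_lit 5) (nat_lit 0x400000001a000f000200000001000080000000000000000000000000000000) (nat_lit 0x0) (nat_lit 0x700039c0000000000000000000000000000000000000000000) := T_25 (nat_lit 175) (nat_lit 174) (nat_lit 0) (nat_lit 8) (nat_lit 11) L6475 (by decide +kernel)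
theorem L6477 : W_25 (nat_lit 6) (nat_lit 0x1a000f000200000001000080000000000000000000000000000000) (nat_lit 0x0) (nat_lit 0x400020000000700039c0000000000000000000000000000000000000000000) := T_25 (nat_lit 246) (nat_lit 229) (nat_lit 4) (nat_lit 8) (nat_lit 14) L6476 (by decide +kernel)
theorem L6478 : W_25 (nat_lit 7) (nat_lit 0xa000f000200000001000080000000000000000000000000000000) (nat_lit 0x0) (nat_lit 0x400020003000700039c0000000000000000000000000000000000000000000) := T_25 (nat_lit 212) (nat_lit 213) (nat_lit 3) (nat_lit 5) (nat_lit 11) L6477 (by decide +kernel)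
theorem L6479 : W_25 (nat_lit 8) (nat_lit 0x8000f000200000001000080000000000000000000000000000000) (nat_lit 0x0) (nat_lit 0x400020003300700039c0000000000000000000000000000000000000000000) := T_25 (nat_lit 209) (nat_lit 208) (nat_lit 1) (nat_lit 8) (nat_lit 11) L6478 (by decide +kernel)
theorem L6480 : W_25 (nat_lit 2) (nat_lit 0x4000000018001f000280000001000080000000000000000000000000000000) (nat_lit 0x0) (nat_lit 0x40060000000000000000000000000000000000000000000000000) := D_25 (nat_lit 197) (nat_lit 210) (nat_lit 198) (nat_lit 1) (nat_lit 10) (nat_lit 11) (nat_lit 1) (nat_lit 11) (nat_lit 11) (by decide +kernel)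
theorem L6481 : W_25 (nat_lit 3) (nat_lit 0x4000000018000f000280000001000080000000000000000000000000000000) (nat_lit 0x0) (nat_lit 0x40070000100000000000000000000000000000000000000000000) := T_25 (nat_lit 196) (nat_lit 176) (nat_lit 0) (nat_lit 9) (nat_lit 11) L6480 (by decide +kernel)
theorem L6482 : W_25 (nat_lit 4) (nat_lit 0x18000f000280000001000080000000000000000000000000000000) (nat_lit 0x0) (nat_lit 0x40002000040070000100000000000000000000000000000000000000000000) := T_25 (nat_lit 246) (nat_lit 229) (nat_lit 4) (nat_lit 8) (nat_lit 14) L6481 (by decide +kernel)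
theorem L6483 : W_25 (nat_lit 5) (nat_lit 0x8000f000280000001000080000000000000000000000000000000) (nat_lit 0x0) (nat_lit 0x40002000340070000100000000000000000000000000000000000000000000) := T_25 (nat_lit 212) (nat_lit 213) (nat_lit 3) (nat_lit 5) (nat_lit 11) L6482 (by decide +kernel)
theorem L6484 : W_25 (nat_lit 6) (nat_lit 0x8000f000200000001000080000000000000000000000000000000) (nat_lit 0x0) (nat_lit 0x400020003400700001c0000000000000000000000000000000000000000000) := T_25 (nat_lit 175) (nat_lit 174) (nat_lit 0) (nat_lit 8) (nat_lit 11) L6483 (by decide +kernel)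
theorem L6485 : W_25 (nat_lit 9) (nat_lit 0x80007000200000001000080000000000000000000000000000000) (nat_lit 0x0) (nat_lit 0x500068003700780039c0004000000000000000000000000000000000000000) := Q_25 (nat_lit 195) (C_25 L6371 (C_25 L6469 (C_25 L6472 (C_25 L6479 (C_25 L6484 N_25))))) (by decide +kernel)
theorem L6486 : W_25 (nat_lit 10) (nat_lit 0x80006000200000001000080000000000000000000000000000000) (nat_lit 0x0) (nat_lit 0x5000680037c079c039e0004000000000000000000000000000000000000000) := Q_25 (nat_lit 192) (C_25 L6462 (C_25 L6463 (C_25 L6383 (C_25 L6485 N_25)))) (by decide +kernel)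
theorem L6487 : W_25 (nat_lit 2) (nat_lit 0xa001f000280020001000080000000000000000000000000000000) (nat_lit 0x0) (nat_lit 0x700000000000000000000000000000000000000000000000000000) := D_25 (nat_lit 213) (nat_lit 212) (nat_lit 214) (nat_lit 3) (nat_lit 5) (nat_lit 11) (nat_lit 3) (nat_lit 6) (nat_lit 11) (by decide +kernel)
theorem L6488 : W_25 (nat_lit 3) (nat_lit 0xa000f000280020001000080000000000000000000000000000000) (nat_lit 0x0) (nat_lit 0x700010000100000000000000000000000000000000000000000000) := T_25 (nat_lit 196) (nat_lit 176) (nat_lit 0) (nat_lit 9) (nat_lit 11) L6487 (by decide +kernel)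
theorem L6489 : W_25 (nat_lit 4) (nat_lit 0x8000f000280020001000080000000000000000000000000000000) (nat_lit 0x0) (nat_lit 0x730010000100000000000000000000000000000000000000000000) := T_25 (nat_lit 209) (nat_lit 208) (nat_lit 1) (nat_lit 8) (nat_lit 11) L6488 (by decide +kernel)
theorem L6490 : W_25 (nat_lit 5) (nat_lit 0x8000f000200020001000080000000000000000000000000000000) (nat_lit 0x0) (nat_lit 0x7300100001c0000000000000000000000000000000000000000000) := T_25 (nat_lit 175) (nat_lit 174) (nat_lit 0) (nat_lit 8) (nat_lit 11) L6489 (by decide +kernel)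
theorem L6491 : W_25 (nat_lit 6) (nat_lit 0x8000f000200000001000080000000000000000000000000000000) (nat_lit 0x0) (nat_lit 0x7300100005c0020000000000000000000000000000000000000000) := T_25 (nat_lit 161) (nat_lit 178) (nat_lit 5) (nat_lit 8) (nat_lit 7) L6490 (by decide +kernel)
theorem L6492 : W_25 (nat_lit 8) (nat_lit 0x80007000200000001000080000000000000000000000000000000) (nat_lit 0x0) (nat_lit 0x500068007700780005c0024000000000000000000000000000000000000000) := Q_25 (nat_lit 195) (C_25 L6472 (C_25 L6484 (C_25 L6469 (C_25 L6371 (C_25 L6491 N_25))))) (by decide +kernel)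
theorem L6493 : W_25 (nat_lit 9) (nat_lit 0x80006000200000001000080000000000000000000000000000000) (nat_lit 0x0) (nat_lit 0x5000680077c079c005e0024000000000000000000000000000000000000000) := Q_25 (nat_lit 192) (C_25 L6463 (C_25 L6383 (C_25 L6462 (C_25 L6492 N_25)))) (by decide +kernel)
theorem L6494 : W_25 (nat_lit 14) (nat_lit 0x80004000200000001000080000000000000000000000000000000) (nat_lit 0x0) (nat_lit 0xd8006f0077c07bc03de00ef000600000000000000000000000000000000000) := Q_25 (nat_lit 193) (C_25 L6349 (C_25 L6352 (C_25 L6384 (C_25 L6447 (C_25 L6450 (C_25 L6453 (C_25 L6486 (C_25 L6493 N_25)))))))) (by decide +kernel)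
theorem L6495 : W_25 (nat_lit 2) (nat_lit 0x78000d000c000600000001000080000000000000000000000000000000) (nat_lit 0x0) (nat_lit 0x180000000100000000000000000000000000000000000000000000000000000) := D_25 (nat_lit 247) (nat_lit 248) (nat_lit 212) (nat_lit 3) (nat_lit 6) (nat_lit 13) (nat_lit 7) (nat_lit 8) (nat_lit 10) (by decide +kernel)
theorem L6496 : W_25 (nat_lit 3) (nat_lit 0x70000d000c000600000001000080000000000000000000000000000000) (nat_lit 0x0) (nat_lit 0x190000800100000000000000000000000000000000000000000000000000000) := T_25 (nat_lit 227) (nat_lit 244) (nat_lit 5) (nat_lit 7) (nat_lit 10) L6495 (by decide +kernel)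
theorem L6497 : W_25 (nat_lit 4) (nat_lit 0x70000d000c000200000001000080000000000000000000000000000000) (nat_lit 0x0) (nat_lit 0x190000800100000000400020000000000000000000000000000000000000000) := T_25 (nat_lit 178) (nat_lit 161) (nat_lit 6) (nat_lit 7) (nat_lit 13) L6496 (by decide +kernel)
theorem L6498 : W_25 (nat_lit 5) (nat_lit 0x30000d000c000200000001000080000000000000000000000000000000) (nat_lit 0x0) (nat_lit 0x19000c800100000000400020000000000000000000000000000000000000000) := T_25 (nat_lit 230) (nat_lit 231) (nat_lit 0) (nat_lit 10) (nat_lit 13) L6497 (by decide +kernel)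
theorem L6499 : W_25 (nat_lit 6) (nat_lit 0x30000c000c000200000001000080000000000000000000000000000000) (nat_lit 0x0) (nat_lit 0x19000c800130000000400020000000000000000000000000000000000000000) := T_25 (nat_lit 208) (nat_lit 209) (nat_lit 3) (nat_lit 4) (nat_lit 12) L6498 (by decide +kernel)
theorem L6500 : W_25 (nat_lit 7) (nat_lit 0x10000c000c000200000001000080000000000000000000000000000000) (nat_lit 0x0) (nat_lit 0x1d000e800130000000400020000000000000000000000000000000000000000) := T_25 (nat_lit 229) (nat_lit 246) (nat_lit 7) (nat_lit 7) (nat_lit 10) L6499 (by decide +kernel)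
theorem L6504 : W_25 (nat_lit 5) (nat_lit 0x18000c000c000600000001000080000000000000000000000000000000) (nat_lit 0x0) (nat_lit 0x1c000e000100030000000000000000000000000000000000000000000000000) := T_25 (nat_lit 197) (nat_lit 196) (nat_lit 1) (nat_lit 10) (nat_lit 11) L6503 (by decide +kernel)
theorem L6505 : W_25 (nat_lit 6) (nat_lit 0x18000c000c000200000001000080000000000000000000000000000000) (nat_lit 0x0) (nat_lit 0x1c000e000100030000400020000000000000000000000000000000000000000) := T_25 (nat_lit 178) (nat_lit 161) (nat_lit 6) (nat_lit 7) (nat_lit 13) L6504 (by decide +kernel)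
theorem L6506 : W_25 (nat_lit 7) (nat_lit 0x10000c000c000200000001000080000000000000000000000000000000) (nat_lit 0x0) (nat_lit 0x1d000e800100030000400020000000000000000000000000000000000000000) := T_25 (nat_lit 227) (nat_lit 244) (nat_lit 5) (nat_lit 7) (nat_lit 10) L6505 (by decide +kernel)
theorem L6507 : W_25 (nat_lit 8) (nat_lit 0x100008000c000200000001000080000000000000000000000000000000) (nat_lit 0x0) (nat_lit 0x1d000e800170032000400020000000000000000000000000000000000000000) := Q_25 (nat_lit 210) (C_25 L6500 (C_25 L6002 (C_25 L6000 (C_25 L6506 N_25)))) (by decide +kernel)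
theorem L6508 : W_25 (nat_lit 2) (nat_lit 0x300008000c000380000001000080000000000000000000000000000000) (nat_lit 0x0) (nat_lit 0x32000000000000000000000000000000000000000000000000) := D_25 (nat_lit 196) (nat_lit 197) (nat_lit 193) (nat_lit 0) (nat_lit 10) (nat_lit 11) (nat_lit 0) (nat_lit 9) (nat_lit 11) (by decide +kernel)
theorem L6509 : W_25 (nat_lit 3) (nat_lit 0x300008000c000300000001000080000000000000000000000000000000) (nat_lit 0x0) (nat_lit 0x320000c0000000000000000000000000000000000000000000) := T_25 (nat_lit 175) (nat_lit 174) (nat_lit 3) (nat_lit 4) (nat_lit 10) L6508 (by decide +kernel)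
theorem L6510 : W_25 (nat_lit 4) (nat_lit 0x300008000c000200000001000080000000000000000000000000000000) (nat_lit 0x0) (nat_lit 0x320001c0008000000000000000000000000000000000000000) := T_25 (nat_lit 176) (nat_lit 159) (nat_lit 4) (nat_lit 7) (nat_lit 13) L6509 (by decide +kernel)
theorem L6511 : W_25 (nat_lit 5) (nat_lit 0x100008000c000200000001000080000000000000000000000000000000) (nat_lit 0x0) (nat_lit 0x400020000000320001c0008000000000000000000000000000000000000000) := T_25 (nat_lit 229) (nat_lit 246) (nat_lit 7) (nat_lit 7) (nat_lit 10) L6510 (by decide +kernel)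
theorem L6512 : W_25 (nat_lit 11) (nat_lit 0x1000080004000200000001000080000000000000000000000000000000) (nat_lit 0x0) (nat_lit 0x1d000ee0017003b8005c002e000000000000000000000000000000000000000) := Q_25 (nat_lit 195) (C_25 L6222 (C_25 L6507 (C_25 L6511 (C_25 L6214 N_25)))) (by decide +kernel)
theorem L6513 : W_25 (nat_lit 12) (nat_lit 0x80004000200000001000080000000000000000000000000000000) (nat_lit 0x0) (nat_lit 0xa001f000fe0017003b8005c002e000000000000000000000000000000000000000) := Q_25 (nat_lit 228) (C_25 L6229 (C_25 L6067 (C_25 L6512 (C_25 L6226 N_25)))) (by decide +kernel)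
theorem L6514 : W_25 (nat_lit 2) (nat_lit 0x800078000d000c000600000001000080000000000000000000000000000000) (nat_lit 0x0) (nat_lit 0x600010000000000000000000000000000000000000000000000000) := D_25 (nat_lit 213) (nat_lit 214) (nat_lit 196) (nat_lit 2) (nat_lit 6) (nat_lit 13) (nat_lit 4) (nat_lit 9) (nat_lit 14) (by decide +kernel)
theorem L6515 : W_25 (nat_lit 3) (nat_lit 0x78000d000c000600000001000080000000000000000000000000000000) (nat_lit 0x0) (nat_lit 0x180000000600010000000000000000000000000000000000000000000000000) := T_25 (nat_lit 247) (nat_lit 248) (nat_lit 3) (nat_lit 6) (nat_lit 13) L6514 (by decide +kernel)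
theorem L6516 : W_25 (nat_lit 4) (nat_lit 0x70000d000c000600000001000080000000000000000000000000000000) (nat_lit 0x0) (nat_lit 0x190000800600010000000000000000000000000000000000000000000000000) := T_25 (nat_lit 227) (nat_lit 244) (nat_lit 5) (nat_lit 7) (nat_lit 10) L6515 (by decide +kernel)
theorem L6517 : W_25 (nat_lit 5) (nat_lit 0x70000d000c000200000001000080000000000000000000000000000000) (nat_lit 0x0) (nat_lit 0x190000800600010000400020000000000000000000000000000000000000000) := T_25 (nat_lit 178) (nat_lit 161) (nat_lit 6) (nat_lit 7) (nat_lit 13) L6516 (by decide +kernel)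
theorem L6518 : W_25 (nat_lit 6) (nat_lit 0x30000d000c000200000001000080000000000000000000000000000000) (nat_lit 0x0) (nat_lit 0x19000c800600010000400020000000000000000000000000000000000000000) := T_25 (nat_lit 230) (nat_lit 231) (nat_lit 0) (nat_lit 10) (nat_lit 13) L6517 (by decide +kernel)
theorem L6519 : W_25 (nat_lit 7) (nat_lit 0x30000c000c000200000001000080000000000000000000000000000000) (nat_lit 0x0) (nat_lit 0x19000c800630010000400020000000000000000000000000000000000000000) := T_25 (nat_lit 208) (nat_lit 209) (nat_lit 3) (nat_lit 4) (nat_lit 12) L6518 (by decide +kernel)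
theorem L6520 : W_25 (nat_lit 8) (nat_lit 0x10000c000c000200000001000080000000000000000000000000000000) (nat_lit 0x0) (nat_lit 0x1d000e800630010000400020000000000000000000000000000000000000000) := T_25 (nat_lit 229) (nat_lit 246) (nat_lit 7) (nat_lit 7) (nat_lit 10) L6519 (by decide +kernel)
theorem L6525 : W_25 (nat_lit 2) (nat_lit 0x800078002c000c000200000001000080000000000000000000000000000000) (nat_lit 0x0) (nat_lit 0x10000400020000000000000000000000000000000000000000) := D_25 (nat_lit 178) (nat_lit 161) (nat_lit 196) (nat_lit 6) (nat_lit 7) (nat_lit 13) (nat_lit 4) (nat_lit 9) (nat_lit 14) (by decide +kernel)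
theorem L6526 : W_25 (nat_lit 3) (nat_lit 0x800078000c000c000200000001000080000000000000000000000000000000) (nat_lit 0x0) (nat_lit 0x600010000400020000000000000000000000000000000000000000) := T_25 (nat_lit 213) (nat_lit 214) (nat_lit 2) (nat_lit 6) (nat_lit 13) L6525 (by decide +kernel)
theorem L6527 : W_25 (nat_lit 4) (nat_lit 0x78000c000c000200000001000080000000000000000000000000000000) (nat_lit 0x0) (nat_lit 0x180000000600010000400020000000000000000000000000000000000000000) := T_25 (nat_lit 247) (nat_lit 248) (nat_lit 3) (nat_lit 6) (nat_lit 13) L6526 (by decide +kernel)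
theorem L6528 : W_25 (nat_lit 5) (nat_lit 0x70000c000c000200000001000080000000000000000000000000000000) (nat_lit 0x0) (nat_lit 0x190000800600010000400020000000000000000000000000000000000000000) := T_25 (nat_lit 227) (nat_lit 244) (nat_lit 5) (nat_lit 7) (nat_lit 10) L6527 (by decide +kernel)
theorem L6529 : W_25 (nat_lit 6) (nat_lit 0x30000c000c000200000001000080000000000000000000000000000000) (nat_lit 0x0) (nat_lit 0x19000c800600010000400020000000000000000000000000000000000000000) := T_25 (nat_lit 230) (nat_lit 231) (nat_lit 0) (nat_lit 10) (nat_lit 13) L6528 (by decide +kernel)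
theorem L6530 : W_25 (nat_lit 7) (nat_lit 0x10000c000c000200000001000080000000000000000000000000000000) (nat_lit 0x0) (nat_lit 0x1d000e800600010000400020000000000000000000000000000000000000000) := T_25 (nat_lit 229) (nat_lit 246) (nat_lit 7) (nat_lit 7) (nat_lit 10) L6529 (by decide +kernel)
theorem L6534 : W_25 (nat_lit 5) (nat_lit 0x70000d000c000600000001000080000000000000000000000000000000) (nat_lit 0x0) (nat_lit 0x80000000600033001800000000000000000000000000000000000000000000) := T_25 (nat_lit 196) (nat_lit 197) (nat_lit 1) (nat_lit 10) (nat_lit 11) L6533 (by decide +kernel)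
theorem L6535 : W_25 (nat_lit 6) (nat_lit 0x30000d000c000600000001000080000000000000000000000000000000) (nat_lit 0x0) (nat_lit 0x8000c000600033001800000000000000000000000000000000000000000000) := T_25 (nat_lit 230) (nat_lit 231) (nat_lit 0) (nat_lit 10) (nat_lit 13) L6534 (by decide +kernel)
theorem L6536 : W_25 (nat_lit 7) (nat_lit 0x10000d000c000600000001000080000000000000000000000000000000) (nat_lit 0x0) (nat_lit 0xc000e000600033001800000000000000000000000000000000000000000000) := T_25 (nat_lit 229) (nat_lit 246) (nat_lit 7) (nat_lit 7) (nat_lit 10) L6535 (by decide +kernel)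
theorem L6537 : W_25 (nat_lit 8) (nat_lit 0x10000c000c000600000001000080000000000000000000000000000000) (nat_lit 0x0) (nat_lit 0xc000e000630033001800000000000000000000000000000000000000000000) := T_25 (nat_lit 208) (nat_lit 209) (nat_lit 2) (nat_lit 4) (nat_lit 12) L6536 (by decide +kernel)
theorem L6538 : W_25 (nat_lit 9) (nat_lit 0x10000c000c000200000001000080000000000000000000000000000000) (nat_lit 0x0) (nat_lit 0xc000e000630033001c00020000000000000000000000000000000000000000) := T_25 (nat_lit 178) (nat_lit 161) (nat_lit 6) (nat_lit 7) (nat_lit 13) L6537 (by decide +kernel)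
theorem L6539 : W_25 (nat_lit 10) (nat_lit 0x100008000c000200000001000080000000000000000000000000000000) (nat_lit 0x0) (nat_lit 0x1d000e800670033001c00020000000000000000000000000000000000000000) := Q_25 (nat_lit 210) (C_25 L6520 (C_25 L6000 (C_25 L6524 (C_25 L6530 (C_25 L6538 N_25))))) (by decide +kernel)
theorem L6540 : W_25 (nat_lit 11) (nat_lit 0x1000080004000200000001000080000000000000000000000000000000) (nat_lit 0x0) (nat_lit 0x1d000ee0067003b801dc002e000000000000000000000000000000000000000) := Q_25 (nat_lit 195) (C_25 L6511 (C_25 L6539 (C_25 L6222 (C_25 L6214 N_25)))) (by decide +kernel)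
theorem L6541 : W_25 (nat_lit 12) (nat_lit 0x80004000200000001000080000000000000000000000000000000) (nat_lit 0x0) (nat_lit 0xa001f000fe0067003b801dc002e000000000000000000000000000000000000000) := Q_25 (nat_lit 228) (C_25 L6229 (C_25 L6067 (C_25 L6540 (C_25 L6226 N_25)))) (by decide +kernel)
theorem L6542 : W_25 (nat_lit 2) (nat_lit 0x3800180004000200000001000080000000000000000000000000000000) (nat_lit 0x0) (nat_lit 0x600200000000000000000000000000000000000000000000000000000) := D_25 (nat_lit 226) (nat_lit 213) (nat_lit 225) (nat_lit 2) (nat_lit 5) (nat_lit 13) (nat_lit 2) (nat_lit 4) (nat_lit 13) (by decide +kernel)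
theorem L6543 : W_25 (nat_lit 3) (nat_lit 0x3000180004000200000001000080000000000000000000000000000000) (nat_lit 0x0) (nat_lit 0x10000e00200000000000000000000000000000000000000000000000000000) := T_25 (nat_lit 227) (nat_lit 244) (nat_lit 5) (nat_lit 7) (nat_lit 10) L6542 (by decide +kernel)
theorem L6544 : W_25 (nat_lit 4) (nat_lit 0x1000180004000200000001000080000000000000000000000000000000) (nat_lit 0x0) (nat_lit 0x50002e00200000000000000000000000000000000000000000000000000000) := T_25 (nat_lit 229) (nat_lit 246) (nat_lit 7) (nat_lit 7) (nat_lit 10) L6543 (by decide +kernel)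
theorem L6545 : W_25 (nat_lit 2) (nat_lit 0x8003c001a0005000700000001000080000000000000000000000000000000) (nat_lit 0x0) (nat_lit 0x8000c0000000000000000000000000000000000000000000) := D_25 (nat_lit 191) (nat_lit 174) (nat_lit 175) (nat_lit 4) (nat_lit 5) (nat_lit 14) (nat_lit 1) (nat_lit 8) (nat_lit 10) (by decide +kernel)
theorem L6546 : W_25 (nat_lit 3) (nat_lit 0x8003c001a0004000700000001000080000000000000000000000000000000) (nat_lit 0x0) (nat_lit 0x38000c0000000000000000000000000000000000000000000) := T_25 (nat_lit 192) (nat_lit 193) (nat_lit 6) (nat_lit 5) (nat_lit 14) L6545 (by decide +kernel)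
theorem L6547 : W_25 (nat_lit 4) (nat_lit 0x8003c00180004000700000001000080000000000000000000000000000000) (nat_lit 0x0) (nat_lit 0x300038000c0000000000000000000000000000000000000000000) := T_25 (nat_lit 209) (nat_lit 208) (nat_lit 0) (nat_lit 8) (nat_lit 13) L6546 (by decide +kernel)
theorem L6548 : W_25 (nat_lit 5) (nat_lit 0x3c00180004000700000001000080000000000000000000000000000000) (nat_lit 0x0) (nat_lit 0xc0000000300038000c0000000000000000000000000000000000000000000) := T_25 (nat_lit 243) (nat_lit 242) (nat_lit 1) (nat_lit 8) (nat_lit 13) L6547 (by decide +kernel)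
theorem L6549 : W_25 (nat_lit 6) (nat_lit 0x3800180004000700000001000080000000000000000000000000000000) (nat_lit 0x0) (nat_lit 0xc0006000300038000c0000000000000000000000000000000000000000000) := T_25 (nat_lit 226) (nat_lit 225) (nat_lit 2) (nat_lit 4) (nat_lit 13) L6548 (by decide +kernel)
theorem L6550 : W_25 (nat_lit 7) (nat_lit 0x3000180004000700000001000080000000000000000000000000000000) (nat_lit 0x0) (nat_lit 0x1c000e000300038000c0000000000000000000000000000000000000000000) := T_25 (nat_lit 227) (nat_lit 244) (nat_lit 5) (nat_lit 7) (nat_lit 10) L6549 (by decide +kernel)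
theorem L6551 : W_25 (nat_lit 8) (nat_lit 0x1000180004000700000001000080000000000000000000000000000000) (nat_lit 0x0) (nat_lit 0x5c002e000300038000c0000000000000000000000000000000000000000000) := T_25 (nat_lit 229) (nat_lit 246) (nat_lit 7) (nat_lit 7) (nat_lit 10) L6550 (by decide +kernel)
theorem L6552 : W_25 (nat_lit 9) (nat_lit 0x1000180004000300000001000080000000000000000000000000000000) (nat_lit 0x0) (nat_lit 0x5c002e000300038004c0020000000000000000000000000000000000000000) := T_25 (nat_lit 178) (nat_lit 161) (nat_lit 6) (nat_lit 7) (nat_lit 13) L6551 (by decide +kernel)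
theorem L6553 : W_25 (nat_lit 10) (nat_lit 0x1000180004000200000001000080000000000000000000000000000000) (nat_lit 0x0) (nat_lit 0x5c002e000300038005c0028000000000000000000000000000000000000000) := T_25 (nat_lit 176) (nat_lit 159) (nat_lit 4) (nat_lit 7) (nat_lit 13) L6552 (by decide +kernel)
theorem L6554 : W_25 (nat_lit 2) (nat_lit 0x300018000c000f40000001000080000000000000000000000000000000) (nat_lit 0x0) (nat_lit 0x3001000000000000000000000000000000000000000000000) := D_25 (nat_lit 193) (nat_lit 192) (nat_lit 180) (nat_lit 2) (nat_lit 5) (nat_lit 11) (nat_lit 1) (nat_lit 10) (nat_lit 10) (by decide +kernel)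
theorem L6555 : W_25 (nat_lit 3) (nat_lit 0x300018000c000740000001000080000000000000000000000000000000) (nat_lit 0x0) (nat_lit 0x3001800040000000000000000000000000000000000000000) := T_25 (nat_lit 179) (nat_lit 162) (nat_lit 6) (nat_lit 8) (nat_lit 13) L6554 (by decide +kernel)
theorem L6556 : W_25 (nat_lit 4) (nat_lit 0x100018000c000740000001000080000000000000000000000000000000) (nat_lit 0x0) (nat_lit 0x40002000000003001800040000000000000000000000000000000000000000) := T_25 (nat_lit 229) (nat_lit 246) (nat_lit 7) (nat_lit 7) (nat_lit 10) L6555 (by decide +kernel)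
theorem L6557 : W_25 (nat_lit 5) (nat_lit 0x100018000c000340000001000080000000000000000000000000000000) (nat_lit 0x0) (nat_lit 0x40002000000003001c00060000000000000000000000000000000000000000) := T_25 (nat_lit 178) (nat_lit 161) (nat_lit 6) (nat_lit 7) (nat_lit 13) L6556 (by decide +kernel)
theorem L6558 : W_25 (nat_lit 6) (nat_lit 0x100018000c000300000001000080000000000000000000000000000000) (nat_lit 0x0) (nat_lit 0x40002000000003001cc0060000000000000000000000000000000000000000) := T_25 (nat_lit 174) (nat_lit 175) (nat_lit 3) (nat_lit 4) (nat_lit 10) L6557 (by decide +kernel)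
theorem L6559 : W_25 (nat_lit 7) (nat_lit 0x100018000c000200000001000080000000000000000000000000000000) (nat_lit 0x0) (nat_lit 0x40002000000003001dc0068000000000000000000000000000000000000000) := T_25 (nat_lit 176) (nat_lit 159) (nat_lit 4) (nat_lit 7) (nat_lit 13) L6558 (by decide +kernel)
theorem L6560 : W_25 (nat_lit 2) (nat_lit 0x300018000c000380000001000080000000000000000000000000000000) (nat_lit 0x0) (nat_lit 0x32000000000000000000000000000000000000000000000000) := D_25 (nat_lit 196) (nat_lit 197) (nat_lit 193) (nat_lit 0) (nat_lit 10) (nat_lit 11) (nat_lit 0) (nat_lit 9) (nat_lit 11) (by decide +kernel)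
theorem L6561 : W_25 (nat_lit 3) (nat_lit 0x300018000c000300000001000080000000000000000000000000000000) (nat_lit 0x0) (nat_lit 0x320000c0000000000000000000000000000000000000000000) := T_25 (nat_lit 175) (nat_lit 174) (nat_lit 3) (nat_lit 4) (nat_lit 10) L6560 (by decide +kernel)
theorem L6562 : W_25 (nat_lit 4) (nat_lit 0x300018000c000200000001000080000000000000000000000000000000) (nat_lit 0x0) (nat_lit 0x320001c0008000000000000000000000000000000000000000) := T_25 (nat_lit 176) (nat_lit 159) (nat_lit 4) (nat_lit 7) (nat_lit 13) L6561 (by decide +kernel)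
theorem L6563 : W_25 (nat_lit 5) (nat_lit 0x100018000c000200000001000080000000000000000000000000000000) (nat_lit 0x0) (nat_lit 0x400020000000320001c0008000000000000000000000000000000000000000) := T_25 (nat_lit 229) (nat_lit 246) (nat_lit 7) (nat_lit 7) (nat_lit 10) L6562 (by decide +kernel)
theorem L6568 : W_25 (nat_lit 2) (nat_lit 0x300018000c000700000001000080000000000000000000000000000000) (nat_lit 0x0) (nat_lit 0x100000c0000000000000000000000000000000000000000000) := D_25 (nat_lit 175) (nat_lit 196) (nat_lit 174) (nat_lit 3) (nat_lit 5) (nat_lit 10) (nat_lit 3) (nat_lit 4) (nat_lit 10) (by decide +kernel)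
theorem L6569 : W_25 (nat_lit 3) (nat_lit 0x300018000c000600000001000080000000000000000000000000000000) (nat_lit 0x0) (nat_lit 0x100001c0008000000000000000000000000000000000000000) := T_25 (nat_lit 176) (nat_lit 159) (nat_lit 4) (nat_lit 7) (nat_lit 13) L6568 (by decide +kernel)
theorem L6570 : W_25 (nat_lit 4) (nat_lit 0x300018000c000200000001000080000000000000000000000000000000) (nat_lit 0x0) (nat_lit 0x100005c0028000000000000000000000000000000000000000) := T_25 (nat_lit 178) (nat_lit 161) (nat_lit 6) (nat_lit 7) (nat_lit 13) L6569 (by decide +kernel)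
theorem L6571 : W_25 (nat_lit 5) (nat_lit 0x100018000c000200000001000080000000000000000000000000000000) (nat_lit 0x0) (nat_lit 0x400020000000100005c0028000000000000000000000000000000000000000) := T_25 (nat_lit 229) (nat_lit 246) (nat_lit 7) (nat_lit 7) (nat_lit 10) L6570 (by decide +kernel)
theorem L6572 : W_25 (nat_lit 2) (nat_lit 0x100018000c000380020001000080000000000000000000000000000000) (nat_lit 0x0) (nat_lit 0x32000000000000000000000000000000000000000000000000) := D_25 (nat_lit 196) (nat_lit 197) (nat_lit 193) (nat_lit 0) (nat_lit 10) (nat_lit 11) (nat_lit 0) (nat_lit 9) (nat_lit 11) (by decide +kernel)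
theorem L6573 : W_25 (nat_lit 3) (nat_lit 0x100018000c000300020001000080000000000000000000000000000000) (nat_lit 0x0) (nat_lit 0x320000c0000000000000000000000000000000000000000000) := T_25 (nat_lit 175) (nat_lit 174) (nat_lit 3) (nat_lit 4) (nat_lit 10) L6572 (by decide +kernel)
theorem L6574 : W_25 (nat_lit 4) (nat_lit 0x100018000c000200020001000080000000000000000000000000000000) (nat_lit 0x0) (nat_lit 0x320001c0008000000000000000000000000000000000000000) := T_25 (nat_lit 176) (nat_lit 159) (nat_lit 4) (nat_lit 7) (nat_lit 13) L6573 (by decide +kernel)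
theorem L6575 : W_25 (nat_lit 5) (nat_lit 0x100018000c000200000001000080000000000000000000000000000000) (nat_lit 0x0) (nat_lit 0x320005c0028000000000000000000000000000000000000000) := T_25 (nat_lit 161) (nat_lit 178) (nat_lit 6) (nat_lit 7) (nat_lit 13) L6574 (by decide +kernel)
theorem L6576 : W_25 (nat_lit 8) (nat_lit 0x1000180004000200000001000080000000000000000000000000000000) (nat_lit 0x0) (nat_lit 0x4000200000003b001dc0068000000000000000000000000000000000000000) := Q_25 (nat_lit 195) (C_25 L6559 (C_25 L6563 (C_25 L6567 (C_25 L6571 (C_25 L6575 N_25))))) (by decide +kernel)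
theorem L6577 : W_25 (nat_lit 2) (nat_lit 0x1000180007000300000001000080000000000000000000000000000000) (nat_lit 0x0) (nat_lit 0xc00020000000000000000000000000000000000000000) := D_25 (nat_lit 178) (nat_lit 161) (nat_lit 179) (nat_lit 6) (nat_lit 7) (nat_lit 13) (nat_lit 1) (nat_lit 9) (nat_lit 10) (by decide +kernel)
theorem L6578 : W_25 (nat_lit 3) (nat_lit 0x1000180006000300000001000080000000000000000000000000000000) (nat_lit 0x0) (nat_lit 0x1800c00020000000000000000000000000000000000000000) := T_25 (nat_lit 192) (nat_lit 191) (nat_lit 3) (nat_lit 4) (nat_lit 11) L6577 (by decide +kernel)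
theorem L6579 : W_25 (nat_lit 4) (nat_lit 0x1000180006000200000001000080000000000000000000000000000000) (nat_lit 0x0) (nat_lit 0x1800d00028000000000000000000000000000000000000000) := T_25 (nat_lit 176) (nat_lit 159) (nat_lit 4) (nat_lit 7) (nat_lit 13) L6578 (by decide +kernel)
theorem L6582 : W_25 (nat_lit 2) (nat_lit 0x1a00580016000fc0000001000080000000000000000000000000000000) (nat_lit 0x0) (nat_lit 0x7000000000000000000000000000000000000000) := D_25 (nat_lit 157) (nat_lit 158) (nat_lit 156) (nat_lit 0) (nat_lit 8) (nat_lit 10) (nat_lit 0) (nat_lit 7) (nat_lit 10) (by decide +kernel)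
theorem L6583 : W_25 (nat_lit 3) (nat_lit 0x1a00580016000f80000001000080000000000000000000000000000000) (nat_lit 0x0) (nat_lit 0x60007000000000000000000000000000000000000000) := T_25 (nat_lit 174) (nat_lit 173) (nat_lit 3) (nat_lit 3) (nat_lit 10) L6582 (by decide +kernel)
theorem L6584 : W_25 (nat_lit 4) (nat_lit 0x1a00580016000f00000001000080000000000000000000000000000000) (nat_lit 0x0) (nat_lit 0x80000e0007000000000000000000000000000000000000000) := T_25 (nat_lit 175) (nat_lit 195) (nat_lit 3) (nat_lit 5) (nat_lit 10) L6583 (by decide +kernel)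
theorem L6585 : W_25 (nat_lit 5) (nat_lit 0x1a00580006000f00000001000080000000000000000000000000000000) (nat_lit 0x0) (nat_lit 0x380000e0007000000000000000000000000000000000000000) := T_25 (nat_lit 196) (nat_lit 197) (nat_lit 3) (nat_lit 6) (nat_lit 10) L6584 (by decide +kernel)
theorem L6586 : W_25 (nat_lit 6) (nat_lit 0x1a00580006000e00000001000080000000000000000000000000000000) (nat_lit 0x0) (nat_lit 0x380001e000f000000000000000000000000000000000000000) := T_25 (nat_lit 176) (nat_lit 159) (nat_lit 4) (nat_lit 7) (nat_lit 13) L6585 (by decide +kernel)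
theorem L6587 : W_25 (nat_lit 7) (nat_lit 0x1a00580006000600000001000080000000000000000000000000000000) (nat_lit 0x0) (nat_lit 0x380019e000f000000000000000000000000000000000000000) := T_25 (nat_lit 179) (nat_lit 180) (nat_lit 1) (nat_lit 10) (nat_lit 10) L6586 (by decide +kernel)
theorem L6588 : W_25 (nat_lit 8) (nat_lit 0x1a00580006000200000001000080000000000000000000000000000000) (nat_lit 0x0) (nat_lit 0x38001de002f000000000000000000000000000000000000000) := T_25 (nat_lit 178) (nat_lit 161) (nat_lit 6) (nat_lit 7) (nat_lit 13) L6587 (by decide +kernel)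
theorem L6589 : W_25 (nat_lit 9) (nat_lit 0x1a00180006000200000001000080000000000000000000000000000000) (nat_lit 0x0) (nat_lit 0x600038001de002f000000000000000000000000000000000000000) := T_25 (nat_lit 214) (nat_lit 213) (nat_lit 1) (nat_lit 10) (nat_lit 12) L6588 (by decide +kernel)
theorem L6590 : W_25 (nat_lit 10) (nat_lit 0x1800180006000200000001000080000000000000000000000000000000) (nat_lit 0x0) (nat_lit 0x600600038001de002f000000000000000000000000000000000000000) := T_25 (nat_lit 225) (nat_lit 226) (nat_lit 2) (nat_lit 4) (nat_lit 13) L6589 (by decide +kernel)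
theorem L6591 : W_25 (nat_lit 11) (nat_lit 0x1000180006000200000001000080000000000000000000000000000000) (nat_lit 0x0) (nat_lit 0x10000e00600038001de002f000000000000000000000000000000000000000) := T_25 (nat_lit 227) (nat_lit 244) (nat_lit 5) (nat_lit 7) (nat_lit 10) L6590 (by decide +kernel)
theorem L6592 : W_25 (nat_lit 12) (nat_lit 0x1000180004000200000001000080000000000000000000000000000000) (nat_lit 0x0) (nat_lit 0x10000e0060003b801de002f000000000000000000000000000000000000000) := Q_25 (nat_lit 193) (C_25 L6579 (C_25 L6581 (C_25 L6591 N_25))) (by decide +kernel)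
theorem L6593 : W_25 (nat_lit 13) (nat_lit 0x1000080004000200000001000080000000000000000000000000000000) (nat_lit 0x0) (nat_lit 0x5c002e0073003b801de006f000000000000000000000000000000000000000) := Q_25 (nat_lit 212) (C_25 L6234 (C_25 L6544 (C_25 L6553 (C_25 L6576 (C_25 L6592 N_25))))) (by decide +kernel)
theorem L6594 : W_25 (nat_lit 14) (nat_lit 0x80004000200000001000080000000000000000000000000000000) (nat_lit 0x0) (nat_lit 0xa0007c003e0073003b801de006f000000000000000000000000000000000000000) := Q_25 (nat_lit 228) (C_25 L6229 (C_25 L6067 (C_25 L6593 (C_25 L6226 N_25)))) (by decide +kernel)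
theorem L6595 : W_25 (nat_lit 2) (nat_lit 0x3800080006000e00000001000080000000000000000000000000000000) (nat_lit 0x0) (nat_lit 0x9800000000000000000000000000000000000000000000000) := D_25 (nat_lit 192) (nat_lit 191) (nat_lit 195) (nat_lit 2) (nat_lit 4) (nat_lit 11) (nat_lit 2) (nat_lit 5) (nat_lit 11) (by decide +kernel)
theorem L6596 : W_25 (nat_lit 3) (nat_lit 0x3800080006000600000001000080000000000000000000000000000000) (nat_lit 0x0) (nat_lit 0x9801800000000000000000000000000000000000000000000) := T_25 (nat_lit 179) (nat_lit 180) (nat_lit 1) (nat_lit 10) (nat_lit 10) L6595 (by decide +kernel)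
theorem L6597 : W_25 (nat_lit 4) (nat_lit 0x3000080006000600000001000080000000000000000000000000000000) (nat_lit 0x0) (nat_lit 0x10000800000009801800000000000000000000000000000000000000000000) := T_25 (nat_lit 227) (nat_lit 244) (nat_lit 5) (nat_lit 7) (nat_lit 10) L6596 (by decide +kernel)
theorem L6598 : W_25 (nat_lit 5) (nat_lit 0x3000080006000200000001000080000000000000000000000000000000) (nat_lit 0x0) (nat_lit 0x10000800000009801c00020000000000000000000000000000000000000000) := T_25 (nat_lit 178) (nat_lit 161) (nat_lit 6) (nat_lit 7) (nat_lit 13) L6597 (by decide +kernel)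
theorem L6599 : W_25 (nat_lit 6) (nat_lit 0x1000080006000200000001000080000000000000000000000000000000) (nat_lit 0x0) (nat_lit 0x50002800000009801c00020000000000000000000000000000000000000000) := T_25 (nat_lit 229) (nat_lit 246) (nat_lit 7) (nat_lit 7) (nat_lit 10) L6598 (by decide +kernel)
theorem L6603 : W_25 (nat_lit 5) (nat_lit 0x1000180006800300000001000080000000000000000000000000000000) (nat_lit 0x0) (nat_lit 0x5c002e00040000000000000000000000000000000000000000000000000000) := T_25 (nat_lit 229) (nat_lit 246) (nat_lit 7) (nat_lit 7) (nat_lit 10) L6602 (by decide +kernel)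
theorem L6604 : W_25 (nat_lit 6) (nat_lit 0x1000180006000300000001000080000000000000000000000000000000) (nat_lit 0x0) (nat_lit 0x5c002e00040001800000000000000000000000000000000000000000000000) := T_25 (nat_lit 191) (nat_lit 192) (nat_lit 3) (nat_lit 4) (nat_lit 11) L6603 (by decide +kernel)
theorem L6605 : W_25 (nat_lit 7) (nat_lit 0x1000180006000200000001000080000000000000000000000000000000) (nat_lit 0x0) (nat_lit 0x5c002e00040001800100008000000000000000000000000000000000000000) := T_25 (nat_lit 176) (nat_lit 159) (nat_lit 4) (nat_lit 7) (nat_lit 13) L6604 (by decide +kernel)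
theorem L6606 : W_25 (nat_lit 8) (nat_lit 0x1000080006000200000001000080000000000000000000000000000000) (nat_lit 0x0) (nat_lit 0x5c002e00740009800100008000000000000000000000000000000000000000) := Q_25 (nat_lit 212) (C_25 L6581 (C_25 L6307 (C_25 L6605 N_25))) (by decide +kernel)
theorem L6607 : W_25 (nat_lit 11) (nat_lit 0x1000080004000200000001000080000000000000000000000000000000) (nat_lit 0x0) (nat_lit 0x5c00ee0074003b801d000e8000000000000000000000000000000000000000) := Q_25 (nat_lit 193) (C_25 L6599 (C_25 L6606 (C_25 L6344 (C_25 L6287 N_25)))) (by decide +kernel)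
theorem L6608 : W_25 (nat_lit 12) (nat_lit 0x80004000200000001000080000000000000000000000000000000) (nat_lit 0x0) (nat_lit 0xa0007c00fe0074003b801d000e8000000000000000000000000000000000000000) := Q_25 (nat_lit 228) (C_25 L6229 (C_25 L6067 (C_25 L6607 (C_25 L6226 N_25)))) (by decide +kernel)
theorem L6609 : W_25 (nat_lit 2) (nat_lit 0x70001d000c000e00000001000080000000000000000000000000000000) (nat_lit 0x0) (nat_lit 0x3001000000000000000000000000000000000000000000000) := D_25 (nat_lit 193) (nat_lit 192) (nat_lit 180) (nat_lit 2) (nat_lit 5) (nat_lit 11) (nat_lit 1) (nat_lit 10) (nat_lit 10) (by decide +kernel)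
theorem L6610 : W_25 (nat_lit 3) (nat_lit 0x70001d000c000600000001000080000000000000000000000000000000) (nat_lit 0x0) (nat_lit 0x3001800040000000000000000000000000000000000000000) := T_25 (nat_lit 179) (nat_lit 162) (nat_lit 6) (nat_lit 8) (nat_lit 13) L6609 (by decide +kernel)
theorem L6611 : W_25 (nat_lit 4) (nat_lit 0x70000d000c000600000001000080000000000000000000000000000000) (nat_lit 0x0) (nat_lit 0x80000000100003001800040000000000000000000000000000000000000000) := T_25 (nat_lit 212) (nat_lit 247) (nat_lit 7) (nat_lit 8) (nat_lit 10) L6610 (by decide +kernel)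
theorem L6612 : W_25 (nat_lit 5) (nat_lit 0x70000d000c000200000001000080000000000000000000000000000000) (nat_lit 0x0) (nat_lit 0x80000000100003001c00060000000000000000000000000000000000000000) := T_25 (nat_lit 178) (nat_lit 161) (nat_lit 6) (nat_lit 7) (nat_lit 13) L6611 (by decide +kernel)
theorem L6613 : W_25 (nat_lit 6) (nat_lit 0x30000d000c000200000001000080000000000000000000000000000000) (nat_lit 0x0) (nat_lit 0x8000c000100003001c00060000000000000000000000000000000000000000) := T_25 (nat_lit 230) (nat_lit 231) (nat_lit 0) (nat_lit 10) (nat_lit 13) L6612 (by decide +kernel)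
theorem L6614 : W_25 (nat_lit 7) (nat_lit 0x30000c000c000200000001000080000000000000000000000000000000) (nat_lit 0x0) (nat_lit 0x8000c000130003001c00060000000000000000000000000000000000000000) := T_25 (nat_lit 208) (nat_lit 209) (nat_lit 3) (nat_lit 4) (nat_lit 12) L6613 (by decide +kernel)
theorem L6615 : W_25 (nat_lit 8) (nat_lit 0x10000c000c000200000001000080000000000000000000000000000000) (nat_lit 0x0) (nat_lit 0xc000e000130003001c00060000000000000000000000000000000000000000) := T_25 (nat_lit 229) (nat_lit 246) (nat_lit 7) (nat_lit 7) (nat_lit 10) L6614 (by decide +kernel)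
theorem L6616 : W_25 (nat_lit 2) (nat_lit 0x70001c002c000e00000001000080000000000000000000000000000000) (nat_lit 0x0) (nat_lit 0x42001000000000000000000000000000000000000000000000) := D_25 (nat_lit 180) (nat_lit 198) (nat_lit 193) (nat_lit 3) (nat_lit 7) (nat_lit 10) (nat_lit 1) (nat_lit 10) (nat_lit 10) (by decide +kernel)
theorem L6617 : W_25 (nat_lit 3) (nat_lit 0x70001c002c000600000001000080000000000000000000000000000000) (nat_lit 0x0) (nat_lit 0x42001800040000000000000000000000000000000000000000) := T_25 (nat_lit 179) (nat_lit 162) (nat_lit 6) (nat_lit 8) (nat_lit 13) L6616 (by decide +kernel)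
theorem L6618 : W_25 (nat_lit 4) (nat_lit 0x70000c002c000600000001000080000000000000000000000000000000) (nat_lit 0x0) (nat_lit 0x80000000100042001800040000000000000000000000000000000000000000) := T_25 (nat_lit 212) (nat_lit 247) (nat_lit 7) (nat_lit 8) (nat_lit 10) L6617 (by decide +kernel)
theorem L6619 : W_25 (nat_lit 5) (nat_lit 0x30000c002c000600000001000080000000000000000000000000000000) (nat_lit 0x0) (nat_lit 0x8000c000100042001800040000000000000000000000000000000000000000) := T_25 (nat_lit 230) (nat_lit 231) (nat_lit 0) (nat_lit 10) (nat_lit 13) L6618 (by decide +kernel)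
theorem L6620 : W_25 (nat_lit 6) (nat_lit 0x10000c002c000600000001000080000000000000000000000000000000) (nat_lit 0x0) (nat_lit 0xc000e000100042001800040000000000000000000000000000000000000000) := T_25 (nat_lit 229) (nat_lit 246) (nat_lit 7) (nat_lit 7) (nat_lit 10) L6619 (by decide +kernel)
theorem L6621 : W_25 (nat_lit 7) (nat_lit 0x10000c000c000600000001000080000000000000000000000000000000) (nat_lit 0x0) (nat_lit 0xc000e000100072001800040000000000000000000000000000000000000000) := T_25 (nat_lit 197) (nat_lit 196) (nat_lit 1) (nat_lit 10) (nat_lit 11) L6620 (by decide +kernel)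
theorem L6622 : W_25 (nat_lit 8) (nat_lit 0x10000c000c000200000001000080000000000000000000000000000000) (nat_lit 0x0) (nat_lit 0xc000e000100072001c00060000000000000000000000000000000000000000) := T_25 (nat_lit 178) (nat_lit 161) (nat_lit 6) (nat_lit 7) (nat_lit 13) L6621 (by decide +kernel)
theorem L6623 : W_25 (nat_lit 10) (nat_lit 0x100008000c000200000001000080000000000000000000000000000000) (nat_lit 0x0) (nat_lit 0xc000e000770073001c00060000000000000000000000000000000000000000) := Q_25 (nat_lit 210) (C_25 L6615 (C_25 L6002 (C_25 L6538 (C_25 L6622 N_25)))) (by decide +kernel)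
theorem L6624 : W_25 (nat_lit 2) (nat_lit 0x300008000f000780004001000080000000000000000000000000000000) (nat_lit 0x0) (nat_lit 0x40000000000000000200010000000000000000000000000000000) := D_25 (nat_lit 141) (nat_lit 210) (nat_lit 124) (nat_lit 7) (nat_lit 5) (nat_lit 8) (nat_lit 7) (nat_lit 5) (nat_lit 7) (by decide +kernel)
theorem L6625 : W_25 (nat_lit 3) (nat_lit 0x300008000d000780004001000080000000000000000000000000000000) (nat_lit 0x0) (nat_lit 0x40002000800000000200010000000000000000000000000000000) := T_25 (nat_lit 193) (nat_lit 179) (nat_lit 2) (nat_lit 5) (nat_lit 11) L6624 (by decide +kernel)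
theorem L6626 : W_25 (nat_lit 4) (nat_lit 0x300008000d000780000001000080000000000000000000000000000000) (nat_lit 0x0) (nat_lit 0x40002000800006000200010000000000000000000000000000000) := T_25 (nat_lit 158) (nat_lit 157) (nat_lit 0) (nat_lit 8) (nat_lit 10) L6625 (by decide +kernel)
theorem L6627 : W_25 (nat_lit 5) (nat_lit 0x300008000c000780000001000080000000000000000000000000000000) (nat_lit 0x0) (nat_lit 0x40003800800006000200010000000000000000000000000000000) := T_25 (nat_lit 192) (nat_lit 191) (nat_lit 1) (nat_lit 8) (nat_lit 10) L6626 (by decide +kernel)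
theorem L6628 : W_25 (nat_lit 6) (nat_lit 0x300008000c000380000001000080000000000000000000000000000000) (nat_lit 0x0) (nat_lit 0x40003800c00026000200010000000000000000000000000000000) := T_25 (nat_lit 178) (nat_lit 161) (nat_lit 6) (nat_lit 7) (nat_lit 13) L6627 (by decide +kernel)
theorem L6629 : W_25 (nat_lit 7) (nat_lit 0x300008000c000300000001000080000000000000000000000000000000) (nat_lit 0x0) (nat_lit 0x40003800cc0026000200010000000000000000000000000000000) := T_25 (nat_lit 175) (nat_lit 174) (nat_lit 3) (nat_lit 4) (nat_lit 10) L6628 (by decide +kernel)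
theorem L6630 : W_25 (nat_lit 8) (nat_lit 0x300008000c000200000001000080000000000000000000000000000000) (nat_lit 0x0) (nat_lit 0x40003800dc002e000200010000000000000000000000000000000) := T_25 (nat_lit 176) (nat_lit 159) (nat_lit 4) (nat_lit 7) (nat_lit 13) L6629 (by decide +kernel)
theorem L6631 : W_25 (nat_lit 9) (nat_lit 0x100008000c000200000001000080000000000000000000000000000000) (nat_lit 0x0) (nat_lit 0x40002000040003800dc002e000200010000000000000000000000000000000) := T_25 (nat_lit 229) (nat_lit 246) (nat_lit 7) (nat_lit 7) (nat_lit 10) L6630 (by decide +kernel)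
theorem L6632 : W_25 (nat_lit 11) (nat_lit 0x1000080004000200000001000080000000000000000000000000000000) (nat_lit 0x0) (nat_lit 0xc000e00077007b801dc006e000200010000000000000000000000000000000) := Q_25 (nat_lit 195) (C_25 L6623 (C_25 L6511 (C_25 L6222 (C_25 L6631 N_25)))) (by decide +kernel)
theorem L6633 : W_25 (nat_lit 2) (nat_lit 0x1000080004000700000001000080000000000000000000000000000000) (nat_lit 0x0) (nat_lit 0x2000000000000a000000000000000000000000000000000000000000000000) := D_25 (nat_lit 245) (nat_lit 195) (nat_lit 193) (nat_lit 6) (nat_lit 7) (nat_lit 14) (nat_lit 4) (nat_lit 7) (nat_lit 14) (by decide +kernel)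
theorem L6634 : W_25 (nat_lit 3) (nat_lit 0x1000080004000300000001000080000000000000000000000000000000) (nat_lit 0x0) (nat_lit 0x2000000000000a000400020000000000000000000000000000000000000000) := T_25 (nat_lit 178) (nat_lit 161) (nat_lit 6) (nat_lit 7) (nat_lit 13) L6633 (by decide +kernel)
theorem L6635 : W_25 (nat_lit 4) (nat_lit 0x1000080004000200000001000080000000000000000000000000000000) (nat_lit 0x0) (nat_lit 0x2000000000000a000500028000000000000000000000000000000000000000) := T_25 (nat_lit 176) (nat_lit 159) (nat_lit 4) (nat_lit 7) (nat_lit 13) L6634 (by decide +kernel)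
theorem L6636 : W_25 (nat_lit 12) (nat_lit 0x80004000200000001000080000000000000000000000000000000) (nat_lit 0x0) (nat_lit 0x8000e000f00077007b801dc006e000200010000000000000000000000000000000) := Q_25 (nat_lit 228) (C_25 L6226 (C_25 L6064 (C_25 L6632 (C_25 L6635 N_25)))) (by decide +kernel)
theorem L6641 : W_25 (nat_lit 2) (nat_lit 0x1c005c0006800380000001000080000000000000000000000000000000) (nat_lit 0x0) (nat_lit 0x400060000000000000000000000000000000000000000000) := D_25 (nat_lit 174) (nat_lit 173) (nat_lit 190) (nat_lit 3) (nat_lit 3) (nat_lit 10) (nat_lit 1) (nat_lit 7) (nat_lit 10) (by decide +kernel)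
theorem L6642 : W_25 (nat_lit 3) (nat_lit 0x1c005c0006800300000001000080000000000000000000000000000000) (nat_lit 0x0) (nat_lit 0x4000e0004000000000000000000000000000000000000000) := T_25 (nat_lit 175) (nat_lit 158) (nat_lit 4) (nat_lit 6) (nat_lit 13) L6641 (by decide +kernel)
theorem L6643 : W_25 (nat_lit 4) (nat_lit 0x1c00580006800300000001000080000000000000000000000000000000) (nat_lit 0x0) (nat_lit 0x80000000400004000e0004000000000000000000000000000000000000000) := T_25 (nat_lit 210) (nat_lit 243) (nat_lit 5) (nat_lit 6) (nat_lit 10) L6642 (by decide +kernel)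
theorem L6644 : W_25 (nat_lit 5) (nat_lit 0x1800580006800300000001000080000000000000000000000000000000) (nat_lit 0x0) (nat_lit 0x80006000400004000e0004000000000000000000000000000000000000000) := T_25 (nat_lit 226) (nat_lit 225) (nat_lit 2) (nat_lit 4) (nat_lit 13) L6643 (by decide +kernel)
theorem L6645 : W_25 (nat_lit 6) (nat_lit 0x1000580006800300000001000080000000000000000000000000000000) (nat_lit 0x0) (nat_lit 0x18000e000400004000e0004000000000000000000000000000000000000000) := T_25 (nat_lit 227) (nat_lit 244) (nat_lit 5) (nat_lit 7) (nat_lit 10) L6644 (by decide +kernel)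
theorem L6646 : W_25 (nat_lit 7) (nat_lit 0x1000180006800300000001000080000000000000000000000000000000) (nat_lit 0x0) (nat_lit 0x18000e006400004000e0004000000000000000000000000000000000000000) := T_25 (nat_lit 214) (nat_lit 213) (nat_lit 0) (nat_lit 10) (nat_lit 12) L6645 (by decide +kernel)
theorem L6647 : W_25 (nat_lit 8) (nat_lit 0x1000180006000300000001000080000000000000000000000000000000) (nat_lit 0x0) (nat_lit 0x18000e00640001c000e0004000000000000000000000000000000000000000) := T_25 (nat_lit 191) (nat_lit 192) (nat_lit 3) (nat_lit 4) (nat_lit 11) L6646 (by decide +kernel)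
theorem L6648 : W_25 (nat_lit 9) (nat_lit 0x1000180006000200000001000080000000000000000000000000000000) (nat_lit 0x0) (nat_lit 0x18000e00640001c001e000c000000000000000000000000000000000000000) := T_25 (nat_lit 176) (nat_lit 159) (nat_lit 4) (nat_lit 7) (nat_lit 13) L6647 (by decide +kernel)
theorem L6649 : W_25 (nat_lit 2) (nat_lit 0x1c00180006000200000001000080000000000000000000000000000000) (nat_lit 0x0) (nat_lit 0x640000000000000000000000000000000000000000000000000000) := D_25 (nat_lit 213) (nat_lit 214) (nat_lit 210) (nat_lit 1) (nat_lit 10) (nat_lit 12) (nat_lit 1) (nat_lit 9) (nat_lit 12) (by decide +kernel)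
theorem L6650 : W_25 (nat_lit 3) (nat_lit 0x1800180006000200000001000080000000000000000000000000000000) (nat_lit 0x0) (nat_lit 0x600640000000000000000000000000000000000000000000000000000) := T_25 (nat_lit 226) (nat_lit 225) (nat_lit 2) (nat_lit 4) (nat_lit 13) L6649 (by decide +kernel)
theorem L6651 : W_25 (nat_lit 4) (nat_lit 0x1000180006000200000001000080000000000000000000000000000000) (nat_lit 0x0) (nat_lit 0x10000e00640000000000000000000000000000000000000000000000000000) := T_25 (nat_lit 227) (nat_lit 244) (nat_lit 5) (nat_lit 7) (nat_lit 10) L6650 (by decide +kernel)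
theorem L6652 : W_25 (nat_lit 2) (nat_lit 0x1c001c0006800380000001000080000000000000000000000000000000) (nat_lit 0x0) (nat_lit 0x8400040000000000000000000000000000000000000000000) := D_25 (nat_lit 174) (nat_lit 195) (nat_lit 190) (nat_lit 3) (nat_lit 4) (nat_lit 10) (nat_lit 1) (nat_lit 7) (nat_lit 10) (by decide +kernel)
theorem L6653 : W_25 (nat_lit 3) (nat_lit 0x1c001c0006800300000001000080000000000000000000000000000000) (nat_lit 0x0) (nat_lit 0x84000c0004000000000000000000000000000000000000000) := T_25 (nat_lit 175) (nat_lit 158) (nat_lit 4) (nat_lit 6) (nat_lit 13) L6652 (by decide +kernel)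
theorem L6654 : W_25 (nat_lit 4) (nat_lit 0x1c00180006800300000001000080000000000000000000000000000000) (nat_lit 0x0) (nat_lit 0x80000000400084000c0004000000000000000000000000000000000000000) := T_25 (nat_lit 210) (nat_lit 243) (nat_lit 5) (nat_lit 6) (nat_lit 10) L6653 (by decide +kernel)
theorem L6655 : W_25 (nat_lit 5) (nat_lit 0x1800180006800300000001000080000000000000000000000000000000) (nat_lit 0x0) (nat_lit 0x80006000400084000c0004000000000000000000000000000000000000000) := T_25 (nat_lit 226) (nat_lit 225) (nat_lit 2) (nat_lit 4) (nat_lit 13) L6654 (by decide +kernel)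
theorem L6656 : W_25 (nat_lit 6) (nat_lit 0x1000180006800300000001000080000000000000000000000000000000) (nat_lit 0x0) (nat_lit 0x18000e000400084000c0004000000000000000000000000000000000000000) := T_25 (nat_lit 227) (nat_lit 244) (nat_lit 5) (nat_lit 7) (nat_lit 10) L6655 (by decide +kernel)
theorem L6657 : W_25 (nat_lit 7) (nat_lit 0x1000180006800200000001000080000000000000000000000000000000) (nat_lit 0x0) (nat_lit 0x18000e000400084001c000c000000000000000000000000000000000000000) := T_25 (nat_lit 176) (nat_lit 159) (nat_lit 4) (nat_lit 7) (nat_lit 13) L6656 (by decide +kernel)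
theorem L6658 : W_25 (nat_lit 8) (nat_lit 0x1000180006000200000001000080000000000000000000000000000000) (nat_lit 0x0) (nat_lit 0x18000e00040009c001c000c000000000000000000000000000000000000000) := T_25 (nat_lit 191) (nat_lit 192) (nat_lit 3) (nat_lit 4) (nat_lit 11) L6657 (by decide +kernel)
theorem L6659 : W_25 (nat_lit 10) (nat_lit 0x1000080006000200000001000080000000000000000000000000000000) (nat_lit 0x0) (nat_lit 0x18000e00740009c001e000c000000000000000000000000000000000000000) := Q_25 (nat_lit 212) (C_25 L6581 (C_25 L6648 (C_25 L6651 (C_25 L6658 N_25)))) (by decide +kernel)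
theorem L6660 : W_25 (nat_lit 2) (nat_lit 0x1800080016000f80000001000080000000000000000000000000000000) (nat_lit 0x0) (nat_lit 0x40000000000006000000000000000000000000000000000000000) := D_25 (nat_lit 158) (nat_lit 210) (nat_lit 157) (nat_lit 4) (nat_lit 6) (nat_lit 13) (nat_lit 0) (nat_lit 8) (nat_lit 10) (by decide +kernel)
theorem L6661 : W_25 (nat_lit 3) (nat_lit 0x1800080016000f00000001000080000000000000000000000000000000) (nat_lit 0x0) (nat_lit 0x40008000080006000000000000000000000000000000000000000) := T_25 (nat_lit 175) (nat_lit 195) (nat_lit 3) (nat_lit 5) (nat_lit 10) L6660 (by decide +kernel)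
theorem L6662 : W_25 (nat_lit 4) (nat_lit 0x1800080006000f00000001000080000000000000000000000000000000) (nat_lit 0x0) (nat_lit 0x40038000080006000000000000000000000000000000000000000) := T_25 (nat_lit 196) (nat_lit 197) (nat_lit 3) (nat_lit 6) (nat_lit 10) L6661 (by decide +kernel)
theorem L6663 : W_25 (nat_lit 5) (nat_lit 0x1800080006000e00000001000080000000000000000000000000000000) (nat_lit 0x0) (nat_lit 0x4003800018000e000000000000000000000000000000000000000) := T_25 (nat_lit 176) (nat_lit 159) (nat_lit 4) (nat_lit 7) (nat_lit 13) L6662 (by decide +kernel)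
theorem L6664 : W_25 (nat_lit 6) (nat_lit 0x1800080006000600000001000080000000000000000000000000000000) (nat_lit 0x0) (nat_lit 0x4003800198000e000000000000000000000000000000000000000) := T_25 (nat_lit 179) (nat_lit 180) (nat_lit 1) (nat_lit 10) (nat_lit 10) L6663 (by decide +kernel)
theorem L6665 : W_25 (nat_lit 7) (nat_lit 0x1800080006000200000001000080000000000000000000000000000000) (nat_lit 0x0) (nat_lit 0x40038001d8002e000000000000000000000000000000000000000) := T_25 (nat_lit 178) (nat_lit 161) (nat_lit 6) (nat_lit 7) (nat_lit 13) L6664 (by decide +kernel)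
theorem L6666 : W_25 (nat_lit 8) (nat_lit 0x1000080006000200000001000080000000000000000000000000000000) (nat_lit 0x0) (nat_lit 0x10000800040038001d8002e000000000000000000000000000000000000000) := T_25 (nat_lit 227) (nat_lit 244) (nat_lit 5) (nat_lit 7) (nat_lit 10) L6665 (by decide +kernel)
theorem L6667 : W_25 (nat_lit 11) (nat_lit 0x1000080004000200000001000080000000000000000000000000000000) (nat_lit 0x0) (nat_lit 0x18000e0074003bc01de002e000000000000000000000000000000000000000) := Q_25 (nat_lit 193) (C_25 L6640 (C_25 L6659 (C_25 L6287 (C_25 L6666 N_25)))) (by decide +kernel)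
theorem L6668 : W_25 (nat_lit 12) (nat_lit 0x80004000200000001000080000000000000000000000000000000) (nat_lit 0x0) (nat_lit 0x200038001e0074003bc01de002e000000000000000000000000000000000000000) := Q_25 (nat_lit 228) (C_25 L6229 (C_25 L6635 (C_25 L6067 (C_25 L6667 N_25)))) (by decide +kernel)
theorem L6669 : W_25 (nat_lit 15) (nat_lit 0x4000200000001000080000000000000000000000000000000) (nat_lit 0x0) (nat_lit 0x1c001f001fe01ff00ffc07bc03de00ef000600010000000000000000000000000000000) := Q_25 (nat_lit 211) (C_25 L6230 (C_25 L6068 (C_25 L6284 (C_25 L6346 (C_25 L6494 (C_25 L6513 (C_25 L6541 (C_25 L6594 (C_25 L6608 (C_25 L6636 (C_25 L6668 N_25))))))))))) (by decide +kernel)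
theorem L6698 : W_25 (nat_lit 3) (nat_lit 0x10000c000c000200000001000080000000000000000000000000000000) (nat_lit 0x0) (nat_lit 0x400020000000100002000400000000000000000000000000000000000000000000) := T_25 (nat_lit 245) (nat_lit 178) (nat_lit 6) (nat_lit 7) (nat_lit 14) L6697 (by decide +kernel)
theorem L6703 : W_25 (nat_lit 6) (nat_lit 0x10000c0004000200000001000080000000000000000000000000000000) (nat_lit 0x0) (nat_lit 0x60003000000013003a000400000000000000000000000000000000000000000000) := Q_25 (nat_lit 195) (C_25 L6698 (C_25 L6002 (C_25 L6702 N_25))) (by decide +kernel)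
theorem L6717 : W_25 (nat_lit 7) (nat_lit 0x10000c0004000200000001000080000000000000000000000000000000) (nat_lit 0x0) (nat_lit 0x400020002b8013801a000400018000400000000000000000000000000000000000) := Q_25 (nat_lit 209) (C_25 L6704 (C_25 L6706 (C_25 L6711 (C_25 L6716 N_25)))) (by decide +kernel)
theorem L6718 : W_25 (nat_lit 8) (nat_lit 0x1000080004000200000001000080000000000000000000000000000000) (nat_lit 0x0) (nat_lit 0x600030002b8017803a000400018000400000000000000000000000000000000000) := Q_25 (nat_lit 210) (C_25 L6692 (C_25 L6696 (C_25 L6703 (C_25 L6717 N_25)))) (by decide +kernel)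
theorem L6719 : W_25 (nat_lit 11) (nat_lit 0x80004000200000001000080000000000000000000000000000000) (nat_lit 0x0) (nat_lit 0x1c000f801f0003b8017803a000400018000400000000000000000000000000000000000) := Q_25 (nat_lit 228) (C_25 L6047 (C_25 L6672 (C_25 L6677 (C_25 L6682 (C_25 L6691 (C_25 L6718 N_25)))))) (by decide +kernel)
theorem L6721 : W_25 (nat_lit 13) (nat_lit 0x4000200000001000080000000000000000000000000000000) (nat_lit 0x0) (nat_lit 0x1c000f801fc01ff80ff803b801c00078000400000000000000000000000000000000000) := Q_25 (nat_lit 211) (C_25 L6073 (C_25 L6284 (C_25 L6719 (C_25 L6720 N_25)))) (by decide +kernel)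
theorem L6722 : W_25 (nat_lit 2) (nat_lit 0x600018001c001c000340000001000080000000000000000000000000000000) (nat_lit 0x0) (nat_lit 0x600200000000000000000000000000000000000000000000000000000) := D_25 (nat_lit 226) (nat_lit 225) (nat_lit 213) (nat_lit 3) (nat_lit 4) (nat_lit 13) (nat_lit 1) (nat_lit 9) (nat_lit 12) (by decide +kernel)
theorem L6723 : W_25 (nat_lit 3) (nat_lit 0x600010001c001c000340000001000080000000000000000000000000000000) (nat_lit 0x0) (nat_lit 0xe00200000000000010000000000000000000000000000000000000000) := T_25 (nat_lit 227) (nat_lit 160) (nat_lit 5) (nat_lit 7) (nat_lit 9) L6722 (by decide +kernel)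
theorem L6724 : W_25 (nat_lit 4) (nat_lit 0x6000100018001c000340000001000080000000000000000000000000000000) (nat_lit 0x0) (nat_lit 0xe00260000000000010000000000000000000000000000000000000000) := T_25 (nat_lit 210) (nat_lit 209) (nat_lit 2) (nat_lit 5) (nat_lit 12) L6723 (by decide +kernel)
theorem L6725 : W_25 (nat_lit 5) (nat_lit 0x6000100018000c000340000001000080000000000000000000000000000000) (nat_lit 0x0) (nat_lit 0xe00260030000000010000000000000000000000000000000000000000) := T_25 (nat_lit 196) (nat_lit 197) (nat_lit 0) (nat_lit 10) (nat_lit 11) L6724 (by decide +kernel)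
theorem L6726 : W_25 (nat_lit 6) (nat_lit 0x6000100008000c000340000001000080000000000000000000000000000000) (nat_lit 0x0) (nat_lit 0x400000000e00360030000000010000000000000000000000000000000000000000) := T_25 (nat_lit 212) (nat_lit 262) (nat_lit 6) (nat_lit 7) (nat_lit 15) L6725 (by decide +kernel)
theorem L6727 : W_25 (nat_lit 7) (nat_lit 0x6000100008000c000300000001000080000000000000000000000000000000) (nat_lit 0x0) (nat_lit 0x400000000e003600300000c0010000000000000000000000000000000000000000) := T_25 (nat_lit 174) (nat_lit 175) (nat_lit 3) (nat_lit 4) (nat_lit 10) L6726 (by decide +kernel)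
theorem L6728 : W_25 (nat_lit 8) (nat_lit 0x60001000080004000300000001000080000000000000000000000000000000) (nat_lit 0x0) (nat_lit 0x400000000e003600380004c0010000000000000000000000000000000000000000) := T_25 (nat_lit 195) (nat_lit 178) (nat_lit 6) (nat_lit 7) (nat_lit 14) L6727 (by decide +kernel)
theorem L6729 : W_25 (nat_lit 9) (nat_lit 0x40001000080004000300000001000080000000000000000000000000000000) (nat_lit 0x0) (nat_lit 0xc00020000e003600380004c0010000000000000000000000000000000000000000) := T_25 (nat_lit 245) (nat_lit 263) (nat_lit 7) (nat_lit 7) (nat_lit 11) L6728 (by decide +kernel)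
theorem L6730 : W_25 (nat_lit 10) (nat_lit 0x1000080004000300000001000080000000000000000000000000000000) (nat_lit 0x0) (nat_lit 0xc00060002e003600380004c0010000000000000000000000000000000000000000) := T_25 (nat_lit 246) (nat_lit 229) (nat_lit 7) (nat_lit 7) (nat_lit 10) L6729 (by decide +kernel)
theorem L6731 : W_25 (nat_lit 11) (nat_lit 0x1000080004000200000001000080000000000000000000000000000000) (nat_lit 0x0) (nat_lit 0xc00060002e003600380005c0018000000000000000000000000000000000000000) := T_25 (nat_lit 176) (nat_lit 159) (nat_lit 4) (nat_lit 7) (nat_lit 13) L6730 (by decide +kernel)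
theorem L6732 : W_25 (nat_lit 2) (nat_lit 0x1800080004000200010001000080000000000000000000000000000000) (nat_lit 0x0) (nat_lit 0x100008000400000000000000000000000000000000000) := D_25 (nat_lit 159) (nat_lit 142) (nat_lit 176) (nat_lit 4) (nat_lit 7) (nat_lit 12) (nat_lit 4) (nat_lit 7) (nat_lit 13) (by decide +kernel)
theorem L6733 : W_25 (nat_lit 3) (nat_lit 0x1800080004000200000001000080000000000000000000000000000000) (nat_lit 0x0) (nat_lit 0x40000000100018000400000000000000000000000000000000000) := T_25 (nat_lit 160) (nat_lit 210) (nat_lit 5) (nat_lit 7) (nat_lit 9) L6732 (by decide +kernel)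
theorem L6734 : W_25 (nat_lit 4) (nat_lit 0x1000080004000200000001000080000000000000000000000000000000) (nat_lit 0x0) (nat_lit 0x10000800040000000100018000400000000000000000000000000000000000) := T_25 (nat_lit 227) (nat_lit 244) (nat_lit 5) (nat_lit 7) (nat_lit 10) L6733 (by decide +kernel)
theorem L6735 : W_25 (nat_lit 12) (nat_lit 0x80004000200000001000080000000000000000000000000000000) (nat_lit 0x0) (nat_lit 0x14000e00070003e003600380005c0018000400000000000000000000000000000000000) := Q_25 (nat_lit 228) (C_25 L6047 (C_25 L6682 (C_25 L6672 (C_25 L6677 (C_25 L6731 (C_25 L6734 N_25)))))) (by decide +kernel)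
theorem L6736 : W_25 (nat_lit 5) (nat_lit 0x80004000200000001000080000000000000000000000000000000) (nat_lit 0x0) (nat_lit 0xa00070003800140002000100018000400000000000000000000000000000000000) := Q_25 (nat_lit 228) (C_25 L6734 (C_25 L6067 (C_25 L6672 (C_25 L6064 N_25)))) (by decide +kernel)
theorem L6742 : W_25 (nat_lit 11) (nat_lit 0x80004000200000001000080000000000000000000000000000000) (nat_lit 0x0) (nat_lit 0x1c000f801f000380014000a000500010000000000000000000000000000000000000000) := Q_25 (nat_lit 228) (C_25 L6682 (C_25 L6047 (C_25 L6691 (C_25 L6672 (C_25 L6677 (C_25 L6741 N_25)))))) (by decide +kernel)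
theorem L6746 : W_25 (nat_lit 2) (nat_lit 0x1e0004000200000001000080000000000000000000000000000000) (nat_lit 0x0) (nat_lit 0x10018000000000000000000000000000000000000000000000000) := D_25 (nat_lit 195) (nat_lit 196) (nat_lit 208) (nat_lit 2) (nat_lit 5) (nat_lit 12) (nat_lit 2) (nat_lit 4) (nat_lit 12) (by decide +kernel)
theorem L6747 : W_25 (nat_lit 8) (nat_lit 0x1c0004000200000001000080000000000000000000000000000000) (nat_lit 0x0) (nat_lit 0xa00050006e00230019800080000000000000000000000000000000000000000000) := Q_25 (nat_lit 209) (C_25 L6120 (C_25 L6084 (C_25 L6746 N_25))) (by decide +kernel)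
theorem L6750 : W_25 (nat_lit 2) (nat_lit 0x2000000048003c001c000200000001000080000000000000000000000000000000) (nat_lit 0x0) (nat_lit 0x1000080000000000000000400000000000000000000000000000000000000000000) := D_25 (nat_lit 247) (nat_lit 264) (nat_lit 178) (nat_lit 4) (nat_lit 9) (nat_lit 15) (nat_lit 4) (nat_lit 9) (nat_lit 14) (by decide +kernel)
theorem L6751 : W_25 (nat_lit 3) (nat_lit 0x2000000048003c0014000200000001000080000000000000000000000000000000) (nat_lit 0x0) (nat_lit 0x1000080000000020008000400000000000000000000000000000000000000000000) := T_25 (nat_lit 195) (nat_lit 209) (nat_lit 2) (nat_lit 5) (nat_lit 12) L6750 (by decide +kernel)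
theorem L6752 : W_25 (nat_lit 4) (nat_lit 0x2000000048003c0004000200000001000080000000000000000000000000000000) (nat_lit 0x0) (nat_lit 0x1000080000000020038000400000000000000000000000000000000000000000000) := T_25 (nat_lit 196) (nat_lit 197) (nat_lit 2) (nat_lit 6) (nat_lit 12) L6751 (by decide +kernel)
theorem L6753 : W_25 (nat_lit 5) (nat_lit 0x2000000008003c0004000200000001000080000000000000000000000000000000) (nat_lit 0x0) (nat_lit 0x100008000c000020038000400000000000000000000000000000000000000000000) := T_25 (nat_lit 230) (nat_lit 231) (nat_lit 3) (nat_lit 6) (nat_lit 12) L6752 (by decide +kernel)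
theorem L6754 : W_25 (nat_lit 6) (nat_lit 0x8003c0004000200000001000080000000000000000000000000000000) (nat_lit 0x0) (nat_lit 0x120009000c000020038000400000000000000000000000000000000000000000000) := T_25 (nat_lit 261) (nat_lit 244) (nat_lit 6) (nat_lit 6) (nat_lit 15) L6753 (by decide +kernel)
theorem L6755 : W_25 (nat_lit 7) (nat_lit 0x8001c0004000200000001000080000000000000000000000000000000) (nat_lit 0x0) (nat_lit 0x120009000c400220038000400000000000000000000000000000000000000000000) := T_25 (nat_lit 213) (nat_lit 226) (nat_lit 1) (nat_lit 9) (nat_lit 12) L6754 (by decide +kernel)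
theorem L6756 : W_25 (nat_lit 8) (nat_lit 0x1c0004000200000001000080000000000000000000000000000000) (nat_lit 0x0) (nat_lit 0x120009000cc00220038000400010000000000000000000000000000000000000000) := T_25 (nat_lit 227) (nat_lit 160) (nat_lit 5) (nat_lit 7) (nat_lit 9) L6755 (by decide +kernel)
theorem L6757 : W_25 (nat_lit 9) (nat_lit 0xc0004000200000001000080000000000000000000000000000000) (nat_lit 0x0) (nat_lit 0x1a000d000ee00330039800480010000000000000000000000000000000000000000) := Q_25 (nat_lit 212) (C_25 L6745 (C_25 L6747 (C_25 L6749 (C_25 L6756 N_25)))) (by decide +kernel)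
theorem L6758 : W_25 (nat_lit 5) (nat_lit 0x1c0004000200000001000080000000000000000000000000000000) (nat_lit 0x0) (nat_lit 0xe00023001b800000000000000000000000000000000000000000000000) := Q_25 (nat_lit 209) (C_25 L6746 (C_25 L6110 N_25)) (by decide +kernel)
theorem L6759 : W_25 (nat_lit 2) (nat_lit 0x8000000024001e0007000200000001000080000000000000000000000000000000) (nat_lit 0x0) (nat_lit 0x100008000000000000000100000000000000000000000000000000000000000000) := D_25 (nat_lit 243) (nat_lit 260) (nat_lit 176) (nat_lit 6) (nat_lit 5) (nat_lit 15) (nat_lit 6) (nat_lit 5) (nat_lit 14) (by decide +kernel)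
theorem L6760 : W_25 (nat_lit 3) (nat_lit 0x8000000024001e0005000200000001000080000000000000000000000000000000) (nat_lit 0x0) (nat_lit 0x100008000000200002000100000000000000000000000000000000000000000000) := T_25 (nat_lit 193) (nat_lit 213) (nat_lit 0) (nat_lit 9) (nat_lit 12) L6759 (by decide +kernel)
theorem L6761 : W_25 (nat_lit 4) (nat_lit 0x8000000024001e0004000200000001000080000000000000000000000000000000) (nat_lit 0x0) (nat_lit 0x100008000000200003800100000000000000000000000000000000000000000000) := T_25 (nat_lit 192) (nat_lit 191) (nat_lit 0) (nat_lit 8) (nat_lit 12) L6760 (by decide +kernel)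
theorem L6762 : W_25 (nat_lit 5) (nat_lit 0x8000000020001e0004000200000001000080000000000000000000000000000000) (nat_lit 0x0) (nat_lit 0x100008000600200003800100000000000000000000000000000000000000000000) := T_25 (nat_lit 226) (nat_lit 225) (nat_lit 1) (nat_lit 8) (nat_lit 12) L6761 (by decide +kernel)
theorem L6763 : W_25 (nat_lit 6) (nat_lit 0x8000000020001c0004000200000001000080000000000000000000000000000000) (nat_lit 0x0) (nat_lit 0x100008004600220003800100000000000000000000000000000000000000000000) := T_25 (nat_lit 209) (nat_lit 230) (nat_lit 3) (nat_lit 5) (nat_lit 12) L6762 (by decide +kernel)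
theorem L6764 : W_25 (nat_lit 7) (nat_lit 0x20001c0004000200000001000080000000000000000000000000000000) (nat_lit 0x0) (nat_lit 0x900048004600220003800100000000000000000000000000000000000000000000) := T_25 (nat_lit 263) (nat_lit 246) (nat_lit 4) (nat_lit 8) (nat_lit 15) L6763 (by decide +kernel)
theorem L6765 : W_25 (nat_lit 8) (nat_lit 0x1c0004000200000001000080000000000000000000000000000000) (nat_lit 0x0) (nat_lit 0x900048006600220003800100010000000000000000000000000000000000000000) := T_25 (nat_lit 229) (nat_lit 160) (nat_lit 7) (nat_lit 7) (nat_lit 9) L6764 (by decide +kernel)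
theorem L6766 : W_25 (nat_lit 2) (nat_lit 0x84003e0025000200000001000080000000000000000000000000000000) (nat_lit 0x0) (nat_lit 0x10000400040000000000000000000000000000000000000000000000000) := D_25 (nat_lit 214) (nat_lit 232) (nat_lit 198) (nat_lit 3) (nat_lit 7) (nat_lit 12) (nat_lit 2) (nat_lit 7) (nat_lit 12) (by decide +kernel)
theorem L6767 : W_25 (nat_lit 3) (nat_lit 0x84003e0005000200000001000080000000000000000000000000000000) (nat_lit 0x0) (nat_lit 0x10000400070000000000000000000000000000000000000000000000000) := T_25 (nat_lit 197) (nat_lit 196) (nat_lit 2) (nat_lit 6) (nat_lit 12) L6766 (by decide +kernel)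
theorem L6768 : W_25 (nat_lit 4) (nat_lit 0x4003e0005000200000001000080000000000000000000000000000000) (nat_lit 0x0) (nat_lit 0x1c000400070000000000000000000000000000000000000000000000000) := T_25 (nat_lit 231) (nat_lit 230) (nat_lit 3) (nat_lit 6) (nat_lit 12) L6767 (by decide +kernel)
theorem L6769 : W_25 (nat_lit 5) (nat_lit 0x4001e0005000200000001000080000000000000000000000000000000) (nat_lit 0x0) (nat_lit 0x1c000600072000000000000000000000000000000000000000000000000) := T_25 (nat_lit 213) (nat_lit 193) (nat_lit 0) (nat_lit 9) (nat_lit 12) L6768 (by decide +kernel)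
theorem L6770 : W_25 (nat_lit 6) (nat_lit 0x1e0005000200000001000080000000000000000000000000000000) (nat_lit 0x0) (nat_lit 0x1c600600072000000000000000000000000000000000000000000000000) := T_25 (nat_lit 226) (nat_lit 225) (nat_lit 1) (nat_lit 8) (nat_lit 12) L6769 (by decide +kernel)
theorem L6771 : W_25 (nat_lit 7) (nat_lit 0x1e0004000200000001000080000000000000000000000000000000) (nat_lit 0x0) (nat_lit 0x1c600600073800000000000000000000000000000000000000000000000) := T_25 (nat_lit 192) (nat_lit 191) (nat_lit 0) (nat_lit 8) (nat_lit 12) L6770 (by decide +kernel)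
theorem L6772 : W_25 (nat_lit 2) (nat_lit 0x1f0005000200000001000080000000000000000000000000000000) (nat_lit 0x0) (nat_lit 0x208002000000000000000000000000000000000000000000000000) := D_25 (nat_lit 193) (nat_lit 207) (nat_lit 213) (nat_lit 2) (nat_lit 3) (nat_lit 12) (nat_lit 0) (nat_lit 9) (nat_lit 12) (by decide +kernel)
theorem L6773 : W_25 (nat_lit 3) (nat_lit 0x1e0005000200000001000080000000000000000000000000000000) (nat_lit 0x0) (nat_lit 0x21800a000000000000000000000000000000000000000000000000) := T_25 (nat_lit 208) (nat_lit 195) (nat_lit 2) (nat_lit 4) (nat_lit 12) L6772 (by decide +kernel)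
theorem L6774 : W_25 (nat_lit 4) (nat_lit 0x1e0004000200000001000080000000000000000000000000000000) (nat_lit 0x0) (nat_lit 0x21800b800000000000000000000000000000000000000000000000) := T_25 (nat_lit 192) (nat_lit 191) (nat_lit 0) (nat_lit 8) (nat_lit 12) L6773 (by decide +kernel)
theorem L6775 : W_25 (nat_lit 8) (nat_lit 0x1c0004000200000001000080000000000000000000000000000000) (nat_lit 0x0) (nat_lit 0x1c60063807b800000000000000000000000000000000000000000000000) := Q_25 (nat_lit 209) (C_25 L6746 (C_25 L6771 (C_25 L6774 N_25))) (by decide +kernel)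
theorem L6776 : W_25 (nat_lit 9) (nat_lit 0xc0004000200000001000080000000000000000000000000000000) (nat_lit 0x0) (nat_lit 0x90004801e60073807b800100010000000000000000000000000000000000000000) := Q_25 (nat_lit 212) (C_25 L6749 (C_25 L6758 (C_25 L6765 (C_25 L6775 N_25)))) (by decide +kernel)
theorem L6777 : W_25 (nat_lit 14) (nat_lit 0x80004000200000001000080000000000000000000000000000000) (nat_lit 0x0) (nat_lit 0x1b000d801efc077c07be005c001a000000000000000000000000000000000000000) := Q_25 (nat_lit 210) (C_25 L6744 (C_25 L6757 (C_25 L6125 (C_25 L6776 N_25)))) (by decide +kernel)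
theorem L6778 : W_25 (nat_lit 5) (nat_lit 0x80004000200000001000080000000000000000000000000000000) (nat_lit 0x0) (nat_lit 0xa00070003800040002000100018000400000000000000000000000000000000000) := Q_25 (nat_lit 228) (C_25 L6734 (C_25 L6067 (C_25 L6047 (C_25 L6064 N_25)))) (by decide +kernel)
theorem L6779 : W_25 (nat_lit 2) (nat_lit 0x3800180004000300000001000080000000000000000000000000000000) (nat_lit 0x0) (nat_lit 0x600200000000000000000000000000000000000000000000000000000) := D_25 (nat_lit 226) (nat_lit 213) (nat_lit 225) (nat_lit 2) (nat_lit 5) (nat_lit 13) (nat_lit 2) (nat_lit 4) (nat_lit 13) (by decide +kernel)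
theorem L6780 : W_25 (nat_lit 3) (nat_lit 0x3000180004000300000001000080000000000000000000000000000000) (nat_lit 0x0) (nat_lit 0x10000e00200000000000000000000000000000000000000000000000000000) := T_25 (nat_lit 227) (nat_lit 244) (nat_lit 5) (nat_lit 7) (nat_lit 10) L6779 (by decide +kernel)
theorem L6781 : W_25 (nat_lit 4) (nat_lit 0x3000080004000300000001000080000000000000000000000000000000) (nat_lit 0x0) (nat_lit 0x10000e00300000000000010000000000000000000000000000000000000000) := T_25 (nat_lit 212) (nat_lit 160) (nat_lit 7) (nat_lit 7) (nat_lit 9) L6780 (by decide +kernel)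
theorem L6782 : W_25 (nat_lit 5) (nat_lit 0x1000080004000300000001000080000000000000000000000000000000) (nat_lit 0x0) (nat_lit 0x50002e00300000000000010000000000000000000000000000000000000000) := T_25 (nat_lit 229) (nat_lit 246) (nat_lit 7) (nat_lit 7) (nat_lit 10) L6781 (by decide +kernel)
theorem L6783 : W_25 (nat_lit 6) (nat_lit 0x1000080004000200000001000080000000000000000000000000000000) (nat_lit 0x0) (nat_lit 0x50002e00300000000100018000000000000000000000000000000000000000) := T_25 (nat_lit 176) (nat_lit 159) (nat_lit 4) (nat_lit 7) (nat_lit 13) L6782 (by decide +kernel)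
theorem L6784 : W_25 (nat_lit 7) (nat_lit 0x80004000200000001000080000000000000000000000000000000) (nat_lit 0x0) (nat_lit 0x14000e00070003e0030000a000500018000000000000000000000000000000000000000) := Q_25 (nat_lit 228) (C_25 L6067 (C_25 L6682 (C_25 L6783 (C_25 L6677 (C_25 L6064 N_25))))) (by decide +kernel)
theorem L6785 : W_25 (nat_lit 2) (nat_lit 0x3000080004000200008001000080000000000000000000000000000000) (nat_lit 0x0) (nat_lit 0x100000000000010000400000000000000000000000000000000000) := D_25 (nat_lit 160) (nat_lit 212) (nat_lit 142) (nat_lit 7) (nat_lit 7) (nat_lit 9) (nat_lit 4) (nat_lit 7) (nat_lit 12) (by decide +kernel)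
theorem L6786 : W_25 (nat_lit 3) (nat_lit 0x1000080004000200008001000080000000000000000000000000000000) (nat_lit 0x0) (nat_lit 0x40002000100000000000010000400000000000000000000000000000000000) := T_25 (nat_lit 229) (nat_lit 246) (nat_lit 7) (nat_lit 7) (nat_lit 10) L6785 (by decide +kernel)
theorem L6787 : W_25 (nat_lit 4) (nat_lit 0x1000080004000200000001000080000000000000000000000000000000) (nat_lit 0x0) (nat_lit 0x40002000100000000100018000400000000000000000000000000000000000) := T_25 (nat_lit 159) (nat_lit 176) (nat_lit 4) (nat_lit 7) (nat_lit 13) L6786 (by decide +kernel)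
theorem L6788 : W_25 (nat_lit 2) (nat_lit 0x80003000100008000c000300000001000080000000000000000000000000000000) (nat_lit 0x0) (nat_lit 0x10000400000000000100000000000000000000000000000000000000000000000000000) := D_25 (nat_lit 262) (nat_lit 280) (nat_lit 212) (nat_lit 7) (nat_lit 7) (nat_lit 12) (nat_lit 6) (nat_lit 7) (nat_lit 15) (by decide +kernel)
theorem L6789 : W_25 (nat_lit 3) (nat_lit 0x800030001000080004000300000001000080000000000000000000000000000000) (nat_lit 0x0) (nat_lit 0x10000400000000000100008000400000000000000000000000000000000000000000000) := T_25 (nat_lit 195) (nat_lit 178) (nat_lit 6) (nat_lit 7) (nat_lit 14) L6788 (by decide +kernel)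
theorem L6790 : W_25 (nat_lit 4) (nat_lit 0x30001000080004000300000001000080000000000000000000000000000000) (nat_lit 0x0) (nat_lit 0x10000c00040000000100008000400000000000000000000000000000000000000000000) := T_25 (nat_lit 263) (nat_lit 246) (nat_lit 7) (nat_lit 7) (nat_lit 11) L6789 (by decide +kernel)
theorem L6791 : W_25 (nat_lit 5) (nat_lit 0x20001000080004000300000001000080000000000000000000000000000000) (nat_lit 0x0) (nat_lit 0x10000e00050000000100008000400000000000000000000000000000000000000000000) := T_25 (nat_lit 244) (nat_lit 261) (nat_lit 5) (nat_lit 7) (nat_lit 11) L6790 (by decide +kernel)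
theorem L6792 : W_25 (nat_lit 6) (nat_lit 0x1000080004000300000001000080000000000000000000000000000000) (nat_lit 0x0) (nat_lit 0x10000e0007000000010000a000400000000000000000000000000000000000000000000) := T_25 (nat_lit 245) (nat_lit 193) (nat_lit 4) (nat_lit 7) (nat_lit 14) L6791 (by decide +kernel)
theorem L6793 : W_25 (nat_lit 7) (nat_lit 0x1000080004000200000001000080000000000000000000000000000000) (nat_lit 0x0) (nat_lit 0x10000e0007000000010000a000500008000000000000000000000000000000000000000) := T_25 (nat_lit 176) (nat_lit 159) (nat_lit 4) (nat_lit 7) (nat_lit 13) L6792 (by decide +kernel)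
theorem L6799 : W_25 (nat_lit 8) (nat_lit 0x80004000200000001000080000000000000000000000000000000) (nat_lit 0x0) (nat_lit 0x14000e0007000300010000a000500018000400000000000000000000000000000000000) := Q_25 (nat_lit 228) (C_25 L6064 (C_25 L6677 (C_25 L6787 (C_25 L6793 (C_25 L6798 N_25))))) (by decide +kernel)
theorem L6806 : W_25 (nat_lit 8) (nat_lit 0x80004000200000001000080000000000000000000000000000000) (nat_lit 0x0) (nat_lit 0x14000e0007000180014000a0005c0018000400000000000000000000000000000000000) := Q_25 (nat_lit 228) (C_25 L6734 (C_25 L6798 (C_25 L6682 (C_25 L6805 N_25)))) (by decide +kernel)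
theorem L6815 : W_25 (nat_lit 11) (nat_lit 0x80004000200000001000080000000000000000000000000000000) (nat_lit 0x0) (nat_lit 0x1c000f801e000380016003a0005c0018000400000000000000000000000000000000000) := Q_25 (nat_lit 228) (C_25 L6064 (C_25 L6787 (C_25 L6805 (C_25 L6691 (C_25 L6814 N_25))))) (by decide +kernel)
theorem L6816 : W_25 (nat_lit 10) (nat_lit 0x80004000200000001000080000000000000000000000000000000) (nat_lit 0x0) (nat_lit 0x4000600030003b8017803a0005c0018000400000000000000000000000000000000000) := Q_25 (nat_lit 228) (C_25 L6734 (C_25 L6814 (C_25 L6798 (C_25 L6718 (C_25 L6741 N_25))))) (by decide +kernel)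
theorem L6817 : W_25 (nat_lit 10) (nat_lit 0x80004000200000001000080000000000000000000000000000000) (nat_lit 0x0) (nat_lit 0x10000c0007000380016003a0005c0018000400000000000000000000000000000000000) := Q_25 (nat_lit 228) (C_25 L6734 (C_25 L6814 (C_25 L6805 (C_25 L6672 N_25)))) (by decide +kernel)
theorem L6818 : W_25 (nat_lit 15) (nat_lit 0x4000200000001000080000000000000000000000000000000) (nat_lit 0x0) (nat_lit 0x1c001f801fc01ffc07fc07be005c001e000400000000000000000000000000000000000) := Q_25 (nat_lit 211) (C_25 L6735 (C_25 L6068 (C_25 L6719 (C_25 L6736 (C_25 L6742 (C_25 L6777 (C_25 L6778 (C_25 L6784 (C_25 L6799 (C_25 L6806 (C_25 L6815 (C_25 L6816 (C_25 L6817 N_25))))))))))))) (by decide +kernel)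
theorem L6819 : W_25 (nat_lit 15) (nat_lit 0x4000200000001000080000000000000000000000000000000) (nat_lit 0x0) (nat_lit 0x14001e001fe00ff007f0039803dc007e000400000000000000000000000000000000000) := Q_25 (nat_lit 211) (C_25 L6157 (C_25 L6735 (C_25 L6230 (C_25 L6720 N_25)))) (by decide +kernel)
theorem L6820 : W_25 (nat_lit 14) (nat_lit 0x4000200000001000080000000000000000000000000000000) (nat_lit 0x0) (nat_lit 0xb001fc00ff007f0033801de00fc000400000000000000000000000000000000000) := Q_25 (nat_lit 211) (C_25 L6720 (C_25 L6778 (C_25 L6346 N_25))) (by decide +kernel)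
theorem L6821 : W_25 (nat_lit 13) (nat_lit 0x4000200000001000080000000000000000000000000000000) (nat_lit 0x0) (nat_lit 0x1c000f801fc01fe00ff000b801d00070000000000000000000000000000000000000000) := Q_25 (nat_lit 211) (C_25 L6720 (C_25 L6073 (C_25 L6742 (C_25 L6284 N_25)))) (by decide +kernel)
theorem L6822 : W_25 (nat_lit 2) (nat_lit 0x60005000280006001200080000000000000000000000000000000) (nat_lit 0x0) (nat_lit 0x8000400020000000000000000000000000000000) := D_25 (nat_lit 142) (nat_lit 125) (nat_lit 159) (nat_lit 6) (nat_lit 5) (nat_lit 11) (nat_lit 6) (nat_lit 5) (nat_lit 12) (by decide +kernel)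
theorem L6823 : W_25 (nat_lit 3) (nat_lit 0x60005000280006001000080000000000000000000000000000000) (nat_lit 0x0) (nat_lit 0x2000000008000600020000000000000000000000000000000) := T_25 (nat_lit 141) (nat_lit 193) (nat_lit 7) (nat_lit 5) (nat_lit 8) L6822 (by decide +kernel)
theorem L6824 : W_25 (nat_lit 4) (nat_lit 0x20005000280006001000080000000000000000000000000000000) (nat_lit 0x0) (nat_lit 0x800040002000000008000600020000000000000000000000000000000) := T_25 (nat_lit 210) (nat_lit 227) (nat_lit 7) (nat_lit 5) (nat_lit 9) L6823 (by decide +kernel)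
theorem L6825 : W_25 (nat_lit 5) (nat_lit 0x20005000280004001000080000000000000000000000000000000) (nat_lit 0x0) (nat_lit 0x80004000200000000a000700020000000000000000000000000000000) := T_25 (nat_lit 157) (nat_lit 140) (nat_lit 4) (nat_lit 5) (nat_lit 12) L6824 (by decide +kernel)
theorem L6830 : W_25 (nat_lit 2) (nat_lit 0x300050002c000e001200080000000000000000000000000000000) (nat_lit 0x0) (nat_lit 0x30010000000000000000000000000000000000000000) := D_25 (nat_lit 173) (nat_lit 172) (nat_lit 160) (nat_lit 2) (nat_lit 2) (nat_lit 10) (nat_lit 1) (nat_lit 7) (nat_lit 9) (by decide +kernel)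
theorem L6831 : W_25 (nat_lit 3) (nat_lit 0x3000500028000e001200080000000000000000000000000000000) (nat_lit 0x0) (nat_lit 0x400000000000070010000000000000000000000000000000000000000) := T_25 (nat_lit 174) (nat_lit 226) (nat_lit 4) (nat_lit 5) (nat_lit 13) L6830 (by decide +kernel)
theorem L6832 : W_25 (nat_lit 4) (nat_lit 0x3000500028000e001000080000000000000000000000000000000) (nat_lit 0x0) (nat_lit 0x400000000800070010000200000000000000000000000000000000000) := T_25 (nat_lit 141) (nat_lit 191) (nat_lit 5) (nat_lit 5) (nat_lit 8) L6831 (by decide +kernel)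
theorem L6833 : W_25 (nat_lit 5) (nat_lit 0x2000500028000e001000080000000000000000000000000000000) (nat_lit 0x0) (nat_lit 0x600010000800070010000200000000000000000000000000000000000) := T_25 (nat_lit 208) (nat_lit 225) (nat_lit 5) (nat_lit 5) (nat_lit 9) L6832 (by decide +kernel)
theorem L6834 : W_25 (nat_lit 6) (nat_lit 0x2000500028000c001000080000000000000000000000000000000) (nat_lit 0x0) (nat_lit 0x600010000800070012000300000000000000000000000000000000000) := T_25 (nat_lit 157) (nat_lit 140) (nat_lit 4) (nat_lit 5) (nat_lit 12) L6833 (by decide +kernel)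
theorem L6835 : W_25 (nat_lit 7) (nat_lit 0x20005000280004001000080000000000000000000000000000000) (nat_lit 0x0) (nat_lit 0x60001000080007001a000700000000000000000000000000000000000) := T_25 (nat_lit 159) (nat_lit 142) (nat_lit 6) (nat_lit 5) (nat_lit 12) L6834 (by decide +kernel)
theorem L6836 : W_25 (nat_lit 2) (nat_lit 0x60005000280004001200080000000000000000000000000000000) (nat_lit 0x0) (nat_lit 0x8000400020000000000000000000000000000000) := D_25 (nat_lit 142) (nat_lit 125) (nat_lit 159) (nat_lit 6) (nat_lit 5) (nat_lit 11) (nat_lit 6) (nat_lit 5) (nat_lit 12) (by decide +kernel)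
theorem L6837 : W_25 (nat_lit 3) (nat_lit 0x60005000280004001000080000000000000000000000000000000) (nat_lit 0x0) (nat_lit 0x2000000008000600020000000000000000000000000000000) := T_25 (nat_lit 141) (nat_lit 193) (nat_lit 7) (nat_lit 5) (nat_lit 8) L6836 (by decide +kernel)
theorem L6838 : W_25 (nat_lit 4) (nat_lit 0x20005000280004001000080000000000000000000000000000000) (nat_lit 0x0) (nat_lit 0x800040002000000008000600020000000000000000000000000000000) := T_25 (nat_lit 210) (nat_lit 227) (nat_lit 7) (nat_lit 5) (nat_lit 9) L6837 (by decide +kernel)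
theorem L6839 : W_25 (nat_lit 8) (nat_lit 0x20005000280000001000080000000000000000000000000000000) (nat_lit 0x0) (nat_lit 0x4000e0005000280007001e000700020000000000000000000000000000000) := Q_25 (nat_lit 158) (C_25 L6825 (C_25 L6829 (C_25 L6835 (C_25 L6838 N_25)))) (by decide +kernel)
theorem L6842 : W_25 (nat_lit 4) (nat_lit 0x3000d000280000001000080000000000000000000000000000000) (nat_lit 0x0) (nat_lit 0x200000000800000006000300008000000000000000000000000000000) := T_25 (nat_lit 158) (nat_lit 225) (nat_lit 5) (nat_lit 5) (nat_lit 9) L6841 (by decide +kernel)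
theorem L6843 : W_25 (nat_lit 5) (nat_lit 0x30005000280000001000080000000000000000000000000000000) (nat_lit 0x0) (nat_lit 0x20000000a800000006000300008000000000000000000000000000000) := T_25 (nat_lit 195) (nat_lit 193) (nat_lit 1) (nat_lit 8) (nat_lit 11) L6842 (by decide +kernel)
theorem L6846 : W_25 (nat_lit 4) (nat_lit 0x30005000280000001000080000000000000000000000000000000) (nat_lit 0x0) (nat_lit 0x200000000800000006000300008000000000000000000000000000000) := T_25 (nat_lit 158) (nat_lit 225) (nat_lit 5) (nat_lit 5) (nat_lit 9) L6845 (by decide +kernel)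
theorem L6847 : W_25 (nat_lit 2) (nat_lit 0x70005000280006001000080000000000000000000000000000000) (nat_lit 0x0) (nat_lit 0x800a000000000000000000000000000000000000000000000000) := D_25 (nat_lit 193) (nat_lit 207) (nat_lit 195) (nat_lit 2) (nat_lit 3) (nat_lit 12) (nat_lit 1) (nat_lit 8) (nat_lit 11) (by decide +kernel)
theorem L6848 : W_25 (nat_lit 3) (nat_lit 0x30005000280006001000080000000000000000000000000000000) (nat_lit 0x0) (nat_lit 0x80004800a000000000000000000000000000000000000000000000000) := T_25 (nat_lit 210) (nat_lit 227) (nat_lit 7) (nat_lit 5) (nat_lit 9) L6847 (by decide +kernel)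
theorem L6849 : W_25 (nat_lit 4) (nat_lit 0x30005000280004001000080000000000000000000000000000000) (nat_lit 0x0) (nat_lit 0x80004800a000000002000100000000000000000000000000000000000) := T_25 (nat_lit 157) (nat_lit 140) (nat_lit 4) (nat_lit 5) (nat_lit 12) L6848 (by decide +kernel)
theorem L6850 : W_25 (nat_lit 5) (nat_lit 0x30005000280000001000080000000000000000000000000000000) (nat_lit 0x0) (nat_lit 0xa0004800a000000006000100000000000000000000000000000000000) := T_25 (nat_lit 158) (nat_lit 225) (nat_lit 5) (nat_lit 5) (nat_lit 9) L6849 (by decide +kernel)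
theorem L6851 : W_25 (nat_lit 2) (nat_lit 0x30007000280000001000080000000000000000000000000000000) (nat_lit 0x0) (nat_lit 0x48000800000000000000000000000000000000000000000000000) := D_25 (nat_lit 207) (nat_lit 191) (nat_lit 210) (nat_lit 1) (nat_lit 7) (nat_lit 11) (nat_lit 2) (nat_lit 3) (nat_lit 12) (by decide +kernel)
theorem L6852 : W_25 (nat_lit 3) (nat_lit 0x30005000280000001000080000000000000000000000000000000) (nat_lit 0x0) (nat_lit 0x4800a800000000000000000000000000000000000000000000000) := T_25 (nat_lit 193) (nat_lit 195) (nat_lit 1) (nat_lit 8) (nat_lit 11) L6851 (by decide +kernel)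
theorem L6853 : W_25 (nat_lit 6) (nat_lit 0x20005000280000001000080000000000000000000000000000000) (nat_lit 0x0) (nat_lit 0xa0005800a800000006000300008000000000000000000000000000000) := Q_25 (nat_lit 208) (C_25 L6843 (C_25 L6846 (C_25 L6850 (C_25 L6852 N_25)))) (by decide +kernel)
theorem L6854 : W_25 (nat_lit 2) (nat_lit 0x70005000280006001400080000000000000000000000000000000) (nat_lit 0x0) (nat_lit 0x800000000000200020000000000000000000000000000000) := D_25 (nat_lit 141) (nat_lit 191) (nat_lit 125) (nat_lit 5) (nat_lit 5) (nat_lit 8) (nat_lit 6) (nat_lit 5) (nat_lit 11) (by decide +kernel)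
theorem L6855 : W_25 (nat_lit 3) (nat_lit 0x60005000280006001400080000000000000000000000000000000) (nat_lit 0x0) (nat_lit 0x200010000800000000000200020000000000000000000000000000000) := T_25 (nat_lit 208) (nat_lit 225) (nat_lit 5) (nat_lit 5) (nat_lit 9) L6854 (by decide +kernel)
theorem L6856 : W_25 (nat_lit 4) (nat_lit 0x60005000280006001000080000000000000000000000000000000) (nat_lit 0x0) (nat_lit 0x200010000800000008000600020000000000000000000000000000000) := T_25 (nat_lit 142) (nat_lit 159) (nat_lit 6) (nat_lit 5) (nat_lit 12) L6855 (by decide +kernel)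
theorem L6857 : W_25 (nat_lit 5) (nat_lit 0x20005000280006001000080000000000000000000000000000000) (nat_lit 0x0) (nat_lit 0xa00050000800000008000600020000000000000000000000000000000) := T_25 (nat_lit 210) (nat_lit 227) (nat_lit 7) (nat_lit 5) (nat_lit 9) L6856 (by decide +kernel)
theorem L6858 : W_25 (nat_lit 6) (nat_lit 0x20005000280004001000080000000000000000000000000000000) (nat_lit 0x0) (nat_lit 0xa0005000080000000a000700020000000000000000000000000000000) := T_25 (nat_lit 157) (nat_lit 140) (nat_lit 4) (nat_lit 5) (nat_lit 12) L6857 (by decide +kernel)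
theorem L6859 : W_25 (nat_lit 2) (nat_lit 0x30005000280004001200080000000000000000000000000000000) (nat_lit 0x0) (nat_lit 0x8000400020000000000000000000000000000000) := D_25 (nat_lit 142) (nat_lit 159) (nat_lit 125) (nat_lit 6) (nat_lit 5) (nat_lit 12) (nat_lit 6) (nat_lit 5) (nat_lit 11) (by decide +kernel)
theorem L6860 : W_25 (nat_lit 3) (nat_lit 0x30005000280004001000080000000000000000000000000000000) (nat_lit 0x0) (nat_lit 0x800000008000600020000000000000000000000000000000) := T_25 (nat_lit 141) (nat_lit 191) (nat_lit 5) (nat_lit 5) (nat_lit 8) L6859 (by decide +kernel)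
theorem L6861 : W_25 (nat_lit 4) (nat_lit 0x20005000280004001000080000000000000000000000000000000) (nat_lit 0x0) (nat_lit 0x200010000800000008000600020000000000000000000000000000000) := T_25 (nat_lit 208) (nat_lit 225) (nat_lit 5) (nat_lit 5) (nat_lit 9) L6860 (by decide +kernel)
theorem L6862 : W_25 (nat_lit 2) (nat_lit 0x600050002c000e001000080000000000000000000000000000000) (nat_lit 0x0) (nat_lit 0x30010000000000000000000000000000000000000000) := D_25 (nat_lit 173) (nat_lit 172) (nat_lit 160) (nat_lit 2) (nat_lit 2) (nat_lit 10) (nat_lit 1) (nat_lit 7) (nat_lit 9) (by decide +kernel)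
theorem L6863 : W_25 (nat_lit 3) (nat_lit 0x6000500028000e001000080000000000000000000000000000000) (nat_lit 0x0) (nat_lit 0x400000000000070010000000000000000000000000000000000000000) := T_25 (nat_lit 174) (nat_lit 226) (nat_lit 4) (nat_lit 5) (nat_lit 13) L6862 (by decide +kernel)
theorem L6864 : W_25 (nat_lit 4) (nat_lit 0x60005000280006001000080000000000000000000000000000000) (nat_lit 0x0) (nat_lit 0x400000000000070018000400000000000000000000000000000000000) := T_25 (nat_lit 159) (nat_lit 142) (nat_lit 6) (nat_lit 5) (nat_lit 12) L6863 (by decide +kernel)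
theorem L6865 : W_25 (nat_lit 5) (nat_lit 0x60005000280004001000080000000000000000000000000000000) (nat_lit 0x0) (nat_lit 0x40000000000007001a000500000000000000000000000000000000000) := T_25 (nat_lit 157) (nat_lit 140) (nat_lit 4) (nat_lit 5) (nat_lit 12) L6864 (by decide +kernel)
theorem L6866 : W_25 (nat_lit 6) (nat_lit 0x20005000280004001000080000000000000000000000000000000) (nat_lit 0x0) (nat_lit 0xc0004000000007001a000500000000000000000000000000000000000) := T_25 (nat_lit 210) (nat_lit 227) (nat_lit 7) (nat_lit 5) (nat_lit 9) L6865 (by decide +kernel)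
theorem L6867 : W_25 (nat_lit 8) (nat_lit 0x20005000280000001000080000000000000000000000000000000) (nat_lit 0x0) (nat_lit 0x4000e0005000080007001e000700020000000000000000000000000000000) := Q_25 (nat_lit 158) (C_25 L6835 (C_25 L6829 (C_25 L6858 (C_25 L6861 (C_25 L6866 N_25))))) (by decide +kernel)
theorem L6868 : W_25 (nat_lit 2) (nat_lit 0x7000500028000e001000080000000000000000000000000000000) (nat_lit 0x0) (nat_lit 0x800a000000000000000000000000000000000000000000000000) := D_25 (nat_lit 193) (nat_lit 207) (nat_lit 195) (nat_lit 2) (nat_lit 3) (nat_lit 12) (nat_lit 1) (nat_lit 8) (nat_lit 11) (by decide +kernel)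
theorem L6869 : W_25 (nat_lit 3) (nat_lit 0x6000500028000e001000080000000000000000000000000000000) (nat_lit 0x0) (nat_lit 0x20001800a000000000000000000000000000000000000000000000000) := T_25 (nat_lit 208) (nat_lit 225) (nat_lit 5) (nat_lit 5) (nat_lit 9) L6868 (by decide +kernel)
theorem L6870 : W_25 (nat_lit 4) (nat_lit 0x60005000280006001000080000000000000000000000000000000) (nat_lit 0x0) (nat_lit 0x20001800a000000008000400000000000000000000000000000000000) := T_25 (nat_lit 159) (nat_lit 142) (nat_lit 6) (nat_lit 5) (nat_lit 12) L6869 (by decide +kernel)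
theorem L6871 : W_25 (nat_lit 5) (nat_lit 0x20005000280006001000080000000000000000000000000000000) (nat_lit 0x0) (nat_lit 0xa0005800a000000008000400000000000000000000000000000000000) := T_25 (nat_lit 210) (nat_lit 227) (nat_lit 7) (nat_lit 5) (nat_lit 9) L6870 (by decide +kernel)
theorem L6872 : W_25 (nat_lit 6) (nat_lit 0x20005000280004001000080000000000000000000000000000000) (nat_lit 0x0) (nat_lit 0xa0005800a00000000a000500000000000000000000000000000000000) := T_25 (nat_lit 157) (nat_lit 140) (nat_lit 4) (nat_lit 5) (nat_lit 12) L6871 (by decide +kernel)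
theorem L6873 : W_25 (nat_lit 2) (nat_lit 0x8001800040003000d00028000e001000080000000000000000000000000000000) (nat_lit 0x0) (nat_lit 0x1000100000000000000000800000000000000000000000000000000000000000000000) := D_25 (nat_lit 260) (nat_lit 191) (nat_lit 276) (nat_lit 4) (nat_lit 5) (nat_lit 15) (nat_lit 5) (nat_lit 5) (nat_lit 12) (by decide +kernel)
theorem L6874 : W_25 (nat_lit 3) (nat_lit 0x1800040003000d00028000e001000080000000000000000000000000000000) (nat_lit 0x0) (nat_lit 0x1000180004000000000000800000000000000000000000000000000000000000000000) := T_25 (nat_lit 259) (nat_lit 242) (nat_lit 5) (nat_lit 5) (nat_lit 11) L6873 (by decide +kernel)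
theorem L6875 : W_25 (nat_lit 4) (nat_lit 0x1000040003000d00028000e001000080000000000000000000000000000000) (nat_lit 0x0) (nat_lit 0x100038000c000000000000800000000000000000000000000000000000000000000000) := T_25 (nat_lit 243) (nat_lit 261) (nat_lit 7) (nat_lit 5) (nat_lit 11) L6874 (by decide +kernel)
theorem L6876 : W_25 (nat_lit 5) (nat_lit 0x40003000d00028000e001000080000000000000000000000000000000) (nat_lit 0x0) (nat_lit 0x100038001c000800000000800000000000000000000000000000000000000000000000) := T_25 (nat_lit 244) (nat_lit 227) (nat_lit 7) (nat_lit 5) (nat_lit 10) L6875 (by decide +kernel)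
theorem L6877 : W_25 (nat_lit 6) (nat_lit 0x3000d00028000e001000080000000000000000000000000000000) (nat_lit 0x0) (nat_lit 0x100038001c000c00000000800040000000000000000000000000000000000000000000) := T_25 (nat_lit 226) (nat_lit 174) (nat_lit 4) (nat_lit 5) (nat_lit 13) L6876 (by decide +kernel)
theorem L6878 : W_25 (nat_lit 7) (nat_lit 0x3000d000280006001000080000000000000000000000000000000) (nat_lit 0x0) (nat_lit 0x100038001c000c00000000800040008000400000000000000000000000000000000000) := T_25 (nat_lit 159) (nat_lit 142) (nat_lit 6) (nat_lit 5) (nat_lit 12) L6877 (by decide +kernel)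
theorem L6879 : W_25 (nat_lit 8) (nat_lit 0x3000d000280004001000080000000000000000000000000000000) (nat_lit 0x0) (nat_lit 0x100038001c000c0000000080004000a000500000000000000000000000000000000000) := T_25 (nat_lit 157) (nat_lit 140) (nat_lit 4) (nat_lit 5) (nat_lit 12) L6878 (by decide +kernel)
theorem L6880 : W_25 (nat_lit 9) (nat_lit 0x30005000280004001000080000000000000000000000000000000) (nat_lit 0x0) (nat_lit 0x100038001c000c0000000a80004000a000500000000000000000000000000000000000) := T_25 (nat_lit 195) (nat_lit 193) (nat_lit 1) (nat_lit 8) (nat_lit 11) L6879 (by decide +kernel)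
theorem L6881 : W_25 (nat_lit 10) (nat_lit 0x20005000280004001000080000000000000000000000000000000) (nat_lit 0x0) (nat_lit 0x100038001c000e0001000a80004000a000500000000000000000000000000000000000) := T_25 (nat_lit 208) (nat_lit 225) (nat_lit 5) (nat_lit 5) (nat_lit 9) L6880 (by decide +kernel)
theorem L6882 : W_25 (nat_lit 2) (nat_lit 0x70005000280004001000080000000000000000000000000000000) (nat_lit 0x0) (nat_lit 0x800a000000000000000000000000000000000000000000000000) := D_25 (nat_lit 193) (nat_lit 207) (nat_lit 195) (nat_lit 2) (nat_lit 3) (nat_lit 12) (nat_lit 1) (nat_lit 8) (nat_lit 11) (by decide +kernel)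
theorem L6883 : W_25 (nat_lit 3) (nat_lit 0x60005000280004001000080000000000000000000000000000000) (nat_lit 0x0) (nat_lit 0x20001800a000000000000000000000000000000000000000000000000) := T_25 (nat_lit 208) (nat_lit 225) (nat_lit 5) (nat_lit 5) (nat_lit 9) L6882 (by decide +kernel)
theorem L6884 : W_25 (nat_lit 4) (nat_lit 0x20005000280004001000080000000000000000000000000000000) (nat_lit 0x0) (nat_lit 0xa0005800a000000000000000000000000000000000000000000000000) := T_25 (nat_lit 210) (nat_lit 227) (nat_lit 7) (nat_lit 5) (nat_lit 9) L6883 (by decide +kernel)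
theorem L6885 : W_25 (nat_lit 2) (nat_lit 0x3000d0002c000e001000080000000000000000000000000000000) (nat_lit 0x0) (nat_lit 0x30010000000000000000000000000000000000000000) := D_25 (nat_lit 173) (nat_lit 172) (nat_lit 160) (nat_lit 2) (nat_lit 2) (nat_lit 10) (nat_lit 1) (nat_lit 7) (nat_lit 9) (by decide +kernel)
theorem L6886 : W_25 (nat_lit 3) (nat_lit 0x3000d00028000e001000080000000000000000000000000000000) (nat_lit 0x0) (nat_lit 0x400000000000070010000000000000000000000000000000000000000) := T_25 (nat_lit 174) (nat_lit 226) (nat_lit 4) (nat_lit 5) (nat_lit 13) L6885 (by decide +kernel)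
theorem L6887 : W_25 (nat_lit 4) (nat_lit 0x3000500028000e001000080000000000000000000000000000000) (nat_lit 0x0) (nat_lit 0x40000000a000070010000000000000000000000000000000000000000) := T_25 (nat_lit 195) (nat_lit 193) (nat_lit 1) (nat_lit 8) (nat_lit 11) L6886 (by decide +kernel)
theorem L6888 : W_25 (nat_lit 5) (nat_lit 0x2000500028000e001000080000000000000000000000000000000) (nat_lit 0x0) (nat_lit 0x60001000a000070010000000000000000000000000000000000000000) := T_25 (nat_lit 208) (nat_lit 225) (nat_lit 5) (nat_lit 5) (nat_lit 9) L6887 (by decide +kernel)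
theorem L6889 : W_25 (nat_lit 6) (nat_lit 0x2000500028000c001000080000000000000000000000000000000) (nat_lit 0x0) (nat_lit 0x60001000a000070012000100000000000000000000000000000000000) := T_25 (nat_lit 157) (nat_lit 140) (nat_lit 4) (nat_lit 5) (nat_lit 12) L6888 (by decide +kernel)
theorem L6890 : W_25 (nat_lit 7) (nat_lit 0x20005000280004001000080000000000000000000000000000000) (nat_lit 0x0) (nat_lit 0x60001000a00007001a000500000000000000000000000000000000000) := T_25 (nat_lit 159) (nat_lit 142) (nat_lit 6) (nat_lit 5) (nat_lit 12) L6889 (by decide +kernel)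
theorem L6891 : W_25 (nat_lit 11) (nat_lit 0x20005000280000001000080000000000000000000000000000000) (nat_lit 0x0) (nat_lit 0x100038001c000e0005800a80007001e000500000000000000000000000000000000000) := Q_25 (nat_lit 158) (C_25 L6866 (C_25 L6829 (C_25 L6872 (C_25 L6881 (C_25 L6884 (C_25 L6890 N_25)))))) (by decide +kernel)
theorem L6892 : W_25 (nat_lit 2) (nat_lit 0x800040002000d0002c0000001000080000000000000000000000000000000) (nat_lit 0x0) (nat_lit 0x200010000800000000000000000000000000000000000000000000000000000000) := D_25 (nat_lit 244) (nat_lit 227) (nat_lit 261) (nat_lit 7) (nat_lit 5) (nat_lit 10) (nat_lit 7) (nat_lit 5) (nat_lit 11) (by decide +kernel)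
theorem L6893 : W_25 (nat_lit 3) (nat_lit 0x40002000d0002c0000001000080000000000000000000000000000000) (nat_lit 0x0) (nat_lit 0x200018000800000000800000000000000000000000000000000000000000000000) := T_25 (nat_lit 243) (nat_lit 191) (nat_lit 4) (nat_lit 5) (nat_lit 14) L6892 (by decide +kernel)
theorem L6894 : W_25 (nat_lit 4) (nat_lit 0x4000200050002c0000001000080000000000000000000000000000000) (nat_lit 0x0) (nat_lit 0x20001800080000000a800000000000000000000000000000000000000000000000) := T_25 (nat_lit 195) (nat_lit 193) (nat_lit 0) (nat_lit 8) (nat_lit 11) L6893 (by decide +kernel)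
theorem L6895 : W_25 (nat_lit 5) (nat_lit 0x400020005000280000001000080000000000000000000000000000000) (nat_lit 0x0) (nat_lit 0x20001800080000000a800040002000000000000000000000000000000000000000) := T_25 (nat_lit 174) (nat_lit 157) (nat_lit 4) (nat_lit 5) (nat_lit 13) L6894 (by decide +kernel)
theorem L6896 : W_25 (nat_lit 2) (nat_lit 0xe000200058002c0004001400080000000000000000000000000000000) (nat_lit 0x0) (nat_lit 0x200030000000000000000000000000000000) := D_25 (nat_lit 141) (nat_lit 124) (nat_lit 125) (nat_lit 5) (nat_lit 5) (nat_lit 7) (nat_lit 6) (nat_lit 5) (nat_lit 11) (by decide +kernel)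
theorem L6897 : W_25 (nat_lit 3) (nat_lit 0xe000200058002c0004001000080000000000000000000000000000000) (nat_lit 0x0) (nat_lit 0x8000600030000000000000000000000000000000) := T_25 (nat_lit 142) (nat_lit 159) (nat_lit 6) (nat_lit 5) (nat_lit 12) L6896 (by decide +kernel)
theorem L6898 : W_25 (nat_lit 4) (nat_lit 0xe000200050002c0004001000080000000000000000000000000000000) (nat_lit 0x0) (nat_lit 0x8000000000000800000008000600030000000000000000000000000000000) := T_25 (nat_lit 191) (nat_lit 243) (nat_lit 4) (nat_lit 5) (nat_lit 14) L6897 (by decide +kernel)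
theorem L6899 : W_25 (nat_lit 5) (nat_lit 0xe000200050002c0000001000080000000000000000000000000000000) (nat_lit 0x0) (nat_lit 0x800000001000080000000c000600030000000000000000000000000000000) := T_25 (nat_lit 158) (nat_lit 208) (nat_lit 5) (nat_lit 5) (nat_lit 9) L6898 (by decide +kernel)
theorem L6900 : W_25 (nat_lit 6) (nat_lit 0xc000200050002c0000001000080000000000000000000000000000000) (nat_lit 0x0) (nat_lit 0xc00020001000080000000c000600030000000000000000000000000000000) := T_25 (nat_lit 225) (nat_lit 242) (nat_lit 5) (nat_lit 5) (nat_lit 10) L6899 (by decide +kernel)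
theorem L6901 : W_25 (nat_lit 7) (nat_lit 0xc00020005000280000001000080000000000000000000000000000000) (nat_lit 0x0) (nat_lit 0xc00020001000080004000e000600030000000000000000000000000000000) := T_25 (nat_lit 174) (nat_lit 157) (nat_lit 4) (nat_lit 5) (nat_lit 13) L6900 (by decide +kernel)
theorem L6902 : W_25 (nat_lit 8) (nat_lit 0x400020005000280000001000080000000000000000000000000000000) (nat_lit 0x0) (nat_lit 0x1c000a0001000080004000e000600030000000000000000000000000000000) := T_25 (nat_lit 227) (nat_lit 244) (nat_lit 7) (nat_lit 5) (nat_lit 10) L6901 (by decide +kernel)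
theorem L6903 : W_25 (nat_lit 2) (nat_lit 0xe00020005000280004001500080000000000000000000000000000000) (nat_lit 0x0) (nat_lit 0x200028000000000000000000000000000000) := D_25 (nat_lit 141) (nat_lit 123) (nat_lit 125) (nat_lit 4) (nat_lit 5) (nat_lit 11) (nat_lit 6) (nat_lit 5) (nat_lit 11) (by decide +kernel)
theorem L6904 : W_25 (nat_lit 3) (nat_lit 0xe00020005000280004001100080000000000000000000000000000000) (nat_lit 0x0) (nat_lit 0x8000600028000000000000000000000000000000) := T_25 (nat_lit 142) (nat_lit 159) (nat_lit 6) (nat_lit 5) (nat_lit 12) L6903 (by decide +kernel)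
theorem L6905 : W_25 (nat_lit 4) (nat_lit 0xe00020005000280004001000080000000000000000000000000000000) (nat_lit 0x0) (nat_lit 0xa000700028000000000000000000000000000000) := T_25 (nat_lit 140) (nat_lit 157) (nat_lit 4) (nat_lit 5) (nat_lit 12) L6904 (by decide +kernel)
theorem L6906 : W_25 (nat_lit 5) (nat_lit 0xe00020005000280000001000080000000000000000000000000000000) (nat_lit 0x0) (nat_lit 0x1000000000000e000700028000000000000000000000000000000) := T_25 (nat_lit 158) (nat_lit 208) (nat_lit 5) (nat_lit 5) (nat_lit 9) L6905 (by decide +kernel)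
theorem L6907 : W_25 (nat_lit 6) (nat_lit 0xc00020005000280000001000080000000000000000000000000000000) (nat_lit 0x0) (nat_lit 0x400020001000000000000e000700028000000000000000000000000000000) := T_25 (nat_lit 225) (nat_lit 242) (nat_lit 5) (nat_lit 5) (nat_lit 10) L6906 (by decide +kernel)
theorem L6908 : W_25 (nat_lit 7) (nat_lit 0x400020005000280000001000080000000000000000000000000000000) (nat_lit 0x0) (nat_lit 0x14000a0001000000000000e000700028000000000000000000000000000000) := T_25 (nat_lit 227) (nat_lit 244) (nat_lit 7) (nat_lit 5) (nat_lit 10) L6907 (by decide +kernel)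
theorem L6909 : W_25 (nat_lit 2) (nat_lit 0x600020005000280004001000080000000000000000000000000000000) (nat_lit 0x0) (nat_lit 0x40002000100000000000000000000000000000000000) := D_25 (nat_lit 157) (nat_lit 140) (nat_lit 174) (nat_lit 4) (nat_lit 5) (nat_lit 12) (nat_lit 4) (nat_lit 5) (nat_lit 13) (by decide +kernel)
theorem L6910 : W_25 (nat_lit 3) (nat_lit 0x600020005000280000001000080000000000000000000000000000000) (nat_lit 0x0) (nat_lit 0x10000000040006000100000000000000000000000000000000000) := T_25 (nat_lit 158) (nat_lit 208) (nat_lit 5) (nat_lit 5) (nat_lit 9) L6909 (by decide +kernel)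
theorem L6911 : W_25 (nat_lit 4) (nat_lit 0x400020005000280000001000080000000000000000000000000000000) (nat_lit 0x0) (nat_lit 0x4000200010000000040006000100000000000000000000000000000000000) := T_25 (nat_lit 225) (nat_lit 242) (nat_lit 5) (nat_lit 5) (nat_lit 10) L6910 (by decide +kernel)
theorem L6912 : W_25 (nat_lit 2) (nat_lit 0xe00030005000280000001000080000000000000000000000000000000) (nat_lit 0x0) (nat_lit 0x100000c000000000000000000000000000000000000000000000000000) := D_25 (nat_lit 207) (nat_lit 206) (nat_lit 228) (nat_lit 3) (nat_lit 2) (nat_lit 12) (nat_lit 0) (nat_lit 7) (nat_lit 13) (by decide +kernel)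
theorem L6913 : W_25 (nat_lit 3) (nat_lit 0xe00020005000280000001000080000000000000000000000000000000) (nat_lit 0x0) (nat_lit 0x100001c000000000004000000000000000000000000000000000000000) := T_25 (nat_lit 208) (nat_lit 158) (nat_lit 5) (nat_lit 5) (nat_lit 9) L6912 (by decide +kernel)
theorem L6914 : W_25 (nat_lit 4) (nat_lit 0xc00020005000280000001000080000000000000000000000000000000) (nat_lit 0x0) (nat_lit 0x400120001c000000000004000000000000000000000000000000000000000) := T_25 (nat_lit 225) (nat_lit 242) (nat_lit 5) (nat_lit 5) (nat_lit 10) L6913 (by decide +kernel)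
theorem L6915 : W_25 (nat_lit 5) (nat_lit 0x400020005000280000001000080000000000000000000000000000000) (nat_lit 0x0) (nat_lit 0x14001a0001c000000000004000000000000000000000000000000000000000) := T_25 (nat_lit 227) (nat_lit 244) (nat_lit 7) (nat_lit 5) (nat_lit 10) L6914 (by decide +kernel)
theorem L6916 : W_25 (nat_lit 9) (nat_lit 0x20005000280000001000080000000000000000000000000000000) (nat_lit 0x0) (nat_lit 0x20001c001e0001c00a80004000e000700038000000000000000000000000000000) := Q_25 (nat_lit 226) (C_25 L6895 (C_25 L6902 (C_25 L6908 (C_25 L6911 (C_25 L6915 N_25))))) (by decide +kernel)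
theorem L6917 : W_25 (nat_lit 2) (nat_lit 0x8000c000200050002c0000001000080000000000000000000000000000000) (nat_lit 0x0) (nat_lit 0x80004000200000000000000000000000000000000000000000000000000000000) := D_25 (nat_lit 242) (nat_lit 225) (nat_lit 259) (nat_lit 5) (nat_lit 5) (nat_lit 10) (nat_lit 5) (nat_lit 5) (nat_lit 11) (by decide +kernel)
theorem L6918 : W_25 (nat_lit 3) (nat_lit 0xc000200050002c0000001000080000000000000000000000000000000) (nat_lit 0x0) (nat_lit 0x8000c000200000000800000000000000000000000000000000000000000000000) := T_25 (nat_lit 243) (nat_lit 191) (nat_lit 4) (nat_lit 5) (nat_lit 14) L6917 (by decide +kernel)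
theorem L6919 : W_25 (nat_lit 4) (nat_lit 0x4000200050002c0000001000080000000000000000000000000000000) (nat_lit 0x0) (nat_lit 0x8001c000a00000000800000000000000000000000000000000000000000000000) := T_25 (nat_lit 227) (nat_lit 244) (nat_lit 7) (nat_lit 5) (nat_lit 10) L6918 (by decide +kernel)
theorem L6920 : W_25 (nat_lit 5) (nat_lit 0x400020005000280000001000080000000000000000000000000000000) (nat_lit 0x0) (nat_lit 0x8001c000a00000000800040002000000000000000000000000000000000000000) := T_25 (nat_lit 174) (nat_lit 157) (nat_lit 4) (nat_lit 5) (nat_lit 13) L6919 (by decide +kernel)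
theorem L6921 : W_25 (nat_lit 2) (nat_lit 0x14000400020005000280000001000080000000000000000000000000000000) (nat_lit 0x0) (nat_lit 0x280008000000000000000000000000000000000000000000000000000000000000) := D_25 (nat_lit 243) (nat_lit 259) (nat_lit 261) (nat_lit 5) (nat_lit 5) (nat_lit 11) (nat_lit 7) (nat_lit 5) (nat_lit 11) (by decide +kernel)
theorem L6922 : W_25 (nat_lit 3) (nat_lit 0x4000400020005000280000001000080000000000000000000000000000000) (nat_lit 0x0) (nat_lit 0x280018000800000000000000000000000000000000000000000000000000000000) := T_25 (nat_lit 244) (nat_lit 227) (nat_lit 7) (nat_lit 5) (nat_lit 10) L6921 (by decide +kernel)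
theorem L6923 : W_25 (nat_lit 4) (nat_lit 0x400020005000280000001000080000000000000000000000000000000) (nat_lit 0x0) (nat_lit 0x28001c000a00000000000000000000000000000000000000000000000000000000) := T_25 (nat_lit 242) (nat_lit 225) (nat_lit 5) (nat_lit 5) (nat_lit 10) L6922 (by decide +kernel)
theorem L6924 : W_25 (nat_lit 2) (nat_lit 0x6000200070002c0000001000080000000000000000000000000000000) (nat_lit 0x0) (nat_lit 0x8000000000000800020000000000000000000000000000000000000000000) := D_25 (nat_lit 191) (nat_lit 243) (nat_lit 173) (nat_lit 4) (nat_lit 5) (nat_lit 14) (nat_lit 0) (nat_lit 7) (nat_lit 11) (by decide +kernel)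
theorem L6925 : W_25 (nat_lit 3) (nat_lit 0x6000200050002c0000001000080000000000000000000000000000000) (nat_lit 0x0) (nat_lit 0x800000000000a800020000000000000000000000000000000000000000000) := T_25 (nat_lit 193) (nat_lit 195) (nat_lit 0) (nat_lit 8) (nat_lit 11) L6924 (by decide +kernel)
theorem L6926 : W_25 (nat_lit 4) (nat_lit 0x600020005000280000001000080000000000000000000000000000000) (nat_lit 0x0) (nat_lit 0x800000000000a800060002000000000000000000000000000000000000000) := T_25 (nat_lit 174) (nat_lit 157) (nat_lit 4) (nat_lit 5) (nat_lit 13) L6925 (by decide +kernel)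
theorem L6927 : W_25 (nat_lit 5) (nat_lit 0x400020005000280000001000080000000000000000000000000000000) (nat_lit 0x0) (nat_lit 0xc00020000000a800060002000000000000000000000000000000000000000) := T_25 (nat_lit 225) (nat_lit 242) (nat_lit 5) (nat_lit 5) (nat_lit 10) L6926 (by decide +kernel)
theorem L6928 : W_25 (nat_lit 2) (nat_lit 0x4000200070002c0000001000080000000000000000000000000000000) (nat_lit 0x0) (nat_lit 0x800030000000000000000000000000000000000000000000) := D_25 (nat_lit 173) (nat_lit 191) (nat_lit 172) (nat_lit 0) (nat_lit 7) (nat_lit 11) (nat_lit 3) (nat_lit 2) (nat_lit 10) (by decide +kernel)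
theorem L6929 : W_25 (nat_lit 3) (nat_lit 0x4000200050002c0000001000080000000000000000000000000000000) (nat_lit 0x0) (nat_lit 0xa800030000000000000000000000000000000000000000000) := T_25 (nat_lit 193) (nat_lit 195) (nat_lit 0) (nat_lit 8) (nat_lit 11) L6928 (by decide +kernel)
theorem L6930 : W_25 (nat_lit 4) (nat_lit 0x400020005000280000001000080000000000000000000000000000000) (nat_lit 0x0) (nat_lit 0xa800070002000000000000000000000000000000000000000) := T_25 (nat_lit 174) (nat_lit 157) (nat_lit 4) (nat_lit 5) (nat_lit 13) L6929 (by decide +kernel)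
theorem L6931 : W_25 (nat_lit 6) (nat_lit 0x20005000280000001000080000000000000000000000000000000) (nat_lit 0x0) (nat_lit 0x28001c000e0000000a800070002000000000000000000000000000000000000000) := Q_25 (nat_lit 226) (C_25 L6895 (C_25 L6920 (C_25 L6923 (C_25 L6927 (C_25 L6930 N_25))))) (by decide +kernel)
theorem L6932 : W_25 (nat_lit 8) (nat_lit 0x20005000280000001000080000000000000000000000000000000) (nat_lit 0x0) (nat_lit 0xe0005800a00007001e000500000000000000000000000000000000000) := Q_25 (nat_lit 158) (C_25 L6890 (C_25 L6884 (C_25 L6866 N_25))) (by decide +kernel)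
theorem L6933 : W_25 (nat_lit 2) (nat_lit 0x30005000280006001200080000000000000000000000000000000) (nat_lit 0x0) (nat_lit 0x4000a000000000000000000000000000000000000000000000000) := D_25 (nat_lit 193) (nat_lit 195) (nat_lit 210) (nat_lit 1) (nat_lit 8) (nat_lit 11) (nat_lit 7) (nat_lit 5) (nat_lit 8) (by decide +kernel)
theorem L6934 : W_25 (nat_lit 3) (nat_lit 0x30005000280006001000080000000000000000000000000000000) (nat_lit 0x0) (nat_lit 0x4000a800000000000200000000000000000000000000000000000) := T_25 (nat_lit 141) (nat_lit 191) (nat_lit 5) (nat_lit 5) (nat_lit 8) L6933 (by decide +kernel)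
theorem L6935 : W_25 (nat_lit 4) (nat_lit 0x20005000280006001000080000000000000000000000000000000) (nat_lit 0x0) (nat_lit 0x20005000a800000000000200000000000000000000000000000000000) := T_25 (nat_lit 208) (nat_lit 225) (nat_lit 5) (nat_lit 5) (nat_lit 9) L6934 (by decide +kernel)
theorem L6936 : W_25 (nat_lit 5) (nat_lit 0x20005000280004001000080000000000000000000000000000000) (nat_lit 0x0) (nat_lit 0x20005000a800000002000300000000000000000000000000000000000) := T_25 (nat_lit 157) (nat_lit 140) (nat_lit 4) (nat_lit 5) (nat_lit 12) L6935 (by decide +kernel)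
theorem L6937 : W_25 (nat_lit 2) (nat_lit 0x200050002c000e001000080000000000000000000000000000000) (nat_lit 0x0) (nat_lit 0x30010000000000000000000000000000000000000000) := D_25 (nat_lit 173) (nat_lit 172) (nat_lit 160) (nat_lit 2) (nat_lit 2) (nat_lit 10) (nat_lit 1) (nat_lit 7) (nat_lit 9) (by decide +kernel)
theorem L6938 : W_25 (nat_lit 3) (nat_lit 0x2000500028000e001000080000000000000000000000000000000) (nat_lit 0x0) (nat_lit 0x400000000000070010000000000000000000000000000000000000000) := T_25 (nat_lit 174) (nat_lit 226) (nat_lit 4) (nat_lit 5) (nat_lit 13) L6937 (by decide +kernel)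
theorem L6939 : W_25 (nat_lit 4) (nat_lit 0x20005000280006001000080000000000000000000000000000000) (nat_lit 0x0) (nat_lit 0x400000000000070018000400000000000000000000000000000000000) := T_25 (nat_lit 159) (nat_lit 142) (nat_lit 6) (nat_lit 5) (nat_lit 12) L6938 (by decide +kernel)
theorem L6940 : W_25 (nat_lit 5) (nat_lit 0x20005000280004001000080000000000000000000000000000000) (nat_lit 0x0) (nat_lit 0x40000000000007001a000500000000000000000000000000000000000) := T_25 (nat_lit 157) (nat_lit 140) (nat_lit 4) (nat_lit 5) (nat_lit 12) L6939 (by decide +kernel)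
theorem L6941 : W_25 (nat_lit 8) (nat_lit 0x20005000280000001000080000000000000000000000000000000) (nat_lit 0x0) (nat_lit 0x60005000a80007001e000700020000000000000000000000000000000) := Q_25 (nat_lit 158) (C_25 L6890 (C_25 L6861 (C_25 L6936 (C_25 L6940 N_25)))) (by decide +kernel)
theorem L6942 : W_25 (nat_lit 4) (nat_lit 0x30005000280000001000080000000000000000000000000000000) (nat_lit 0x0) (nat_lit 0x20000000080000000c000600020000000000000000000000000000000) := T_25 (nat_lit 158) (nat_lit 225) (nat_lit 5) (nat_lit 5) (nat_lit 9) L6860 (by decide +kernel)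
theorem L6943 : W_25 (nat_lit 2) (nat_lit 0x30007000280004001000080000000000000000000000000000000) (nat_lit 0x0) (nat_lit 0x800040000000000000000200000000000000000000000000000000000) := D_25 (nat_lit 210) (nat_lit 227) (nat_lit 141) (nat_lit 7) (nat_lit 5) (nat_lit 9) (nat_lit 7) (nat_lit 5) (nat_lit 8) (by decide +kernel)
theorem L6944 : W_25 (nat_lit 3) (nat_lit 0x30005000280004001000080000000000000000000000000000000) (nat_lit 0x0) (nat_lit 0x80004000a000000000000200000000000000000000000000000000000) := T_25 (nat_lit 193) (nat_lit 195) (nat_lit 1) (nat_lit 8) (nat_lit 11) L6943 (by decide +kernel)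
theorem L6945 : W_25 (nat_lit 4) (nat_lit 0x30005000280000001000080000000000000000000000000000000) (nat_lit 0x0) (nat_lit 0xa0004000a000000004000200000000000000000000000000000000000) := T_25 (nat_lit 158) (nat_lit 225) (nat_lit 5) (nat_lit 5) (nat_lit 9) L6944 (by decide +kernel)
theorem L6946 : W_25 (nat_lit 5) (nat_lit 0x20005000280000001000080000000000000000000000000000000) (nat_lit 0x0) (nat_lit 0xa0005800a80000000c000600020000000000000000000000000000000) := Q_25 (nat_lit 208) (C_25 L6852 (C_25 L6942 (C_25 L6945 N_25))) (by decide +kernel)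
theorem L6947 : W_25 (nat_lit 2) (nat_lit 0x60005800280006801600080000000000000000000000000000000) (nat_lit 0x0) (nat_lit 0x400000000000040000000000010000000000000000000000000000000) := D_25 (nat_lit 174) (nat_lit 124) (nat_lit 226) (nat_lit 5) (nat_lit 5) (nat_lit 7) (nat_lit 4) (nat_lit 5) (nat_lit 13) (by decide +kernel)
theorem L6948 : W_25 (nat_lit 3) (nat_lit 0x60005000280006801600080000000000000000000000000000000) (nat_lit 0x0) (nat_lit 0x400010000800040000000000010000000000000000000000000000000) := T_25 (nat_lit 191) (nat_lit 208) (nat_lit 5) (nat_lit 5) (nat_lit 8) L6947 (by decide +kernel)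
theorem L6949 : W_25 (nat_lit 4) (nat_lit 0x60005000280006001600080000000000000000000000000000000) (nat_lit 0x0) (nat_lit 0x400010000800040001800000010000000000000000000000000000000) := T_25 (nat_lit 155) (nat_lit 156) (nat_lit 2) (nat_lit 2) (nat_lit 9) L6948 (by decide +kernel)
theorem L6950 : W_25 (nat_lit 5) (nat_lit 0x60005000280006001200080000000000000000000000000000000) (nat_lit 0x0) (nat_lit 0x400010000800040001800400030000000000000000000000000000000) := T_25 (nat_lit 142) (nat_lit 125) (nat_lit 6) (nat_lit 5) (nat_lit 11) L6949 (by decide +kernel)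
theorem L6951 : W_25 (nat_lit 6) (nat_lit 0x60005000280006001000080000000000000000000000000000000) (nat_lit 0x0) (nat_lit 0x400010002800040001800600030000000000000000000000000000000) := T_25 (nat_lit 141) (nat_lit 193) (nat_lit 7) (nat_lit 5) (nat_lit 8) L6950 (by decide +kernel)
theorem L6952 : W_25 (nat_lit 7) (nat_lit 0x20005000280006001000080000000000000000000000000000000) (nat_lit 0x0) (nat_lit 0xc00050002800040001800600030000000000000000000000000000000) := T_25 (nat_lit 210) (nat_lit 227) (nat_lit 7) (nat_lit 5) (nat_lit 9) L6951 (by decide +kernel)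
theorem L6953 : W_25 (nat_lit 8) (nat_lit 0x20005000280004001000080000000000000000000000000000000) (nat_lit 0x0) (nat_lit 0xc00050002800040003800700030000000000000000000000000000000) := T_25 (nat_lit 157) (nat_lit 140) (nat_lit 4) (nat_lit 5) (nat_lit 12) L6952 (by decide +kernel)
theorem L6954 : W_25 (nat_lit 2) (nat_lit 0x60005800280006001200080000000000000000000000000000000) (nat_lit 0x0) (nat_lit 0x400000000000040000000000010000000000000000000000000000000) := D_25 (nat_lit 174) (nat_lit 124) (nat_lit 226) (nat_lit 5) (nat_lit 5) (nat_lit 7) (nat_lit 4) (nat_lit 5) (nat_lit 13) (by decide +kernel)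
theorem L6955 : W_25 (nat_lit 3) (nat_lit 0x60005000280006001200080000000000000000000000000000000) (nat_lit 0x0) (nat_lit 0x400010000800040000000000010000000000000000000000000000000) := T_25 (nat_lit 191) (nat_lit 208) (nat_lit 5) (nat_lit 5) (nat_lit 8) L6954 (by decide +kernel)
theorem L6956 : W_25 (nat_lit 4) (nat_lit 0x60005000280006001000080000000000000000000000000000000) (nat_lit 0x0) (nat_lit 0x400010002800040000000200010000000000000000000000000000000) := T_25 (nat_lit 141) (nat_lit 193) (nat_lit 7) (nat_lit 5) (nat_lit 8) L6955 (by decide +kernel)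
theorem L6957 : W_25 (nat_lit 5) (nat_lit 0x20005000280006001000080000000000000000000000000000000) (nat_lit 0x0) (nat_lit 0xc00050002800040000000200010000000000000000000000000000000) := T_25 (nat_lit 210) (nat_lit 227) (nat_lit 7) (nat_lit 5) (nat_lit 9) L6956 (by decide +kernel)
theorem L6958 : W_25 (nat_lit 6) (nat_lit 0x20005000280004001000080000000000000000000000000000000) (nat_lit 0x0) (nat_lit 0xc00050002800040002000300010000000000000000000000000000000) := T_25 (nat_lit 157) (nat_lit 140) (nat_lit 4) (nat_lit 5) (nat_lit 12) L6957 (by decide +kernel)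
theorem L6959 : W_25 (nat_lit 9) (nat_lit 0x20005000280000001000080000000000000000000000000000000) (nat_lit 0x0) (nat_lit 0xc0005000280007001f800700030000000000000000000000000000000) := Q_25 (nat_lit 158) (C_25 L6940 (C_25 L6838 (C_25 L6953 (C_25 L6958 N_25)))) (by decide +kernel)
theorem L6960 : W_25 (nat_lit 12) (nat_lit 0x5000280000001000080000000000000000000000000000000) (nat_lit 0x0) (nat_lit 0x100038001c001e0007c00a80007001f800700038000000000000000000000000000000) := Q_25 (nat_lit 209) (C_25 L6839 (C_25 L6853 (C_25 L6867 (C_25 L6891 (C_25 L6916 (C_25 L6931 (C_25 L6932 (C_25 L6941 (C_25 L6946 (C_25 L6959 N_25)))))))))) (by decide +kernel)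
theorem L6961 : W_25 (nat_lit 2) (nat_lit 0x20007000280004001300080000000000000000000000000000000) (nat_lit 0x0) (nat_lit 0x8000400020000000000000000000000000000000) := D_25 (nat_lit 142) (nat_lit 125) (nat_lit 159) (nat_lit 6) (nat_lit 5) (nat_lit 11) (nat_lit 6) (nat_lit 5) (nat_lit 12) (by decide +kernel)
theorem L6962 : W_25 (nat_lit 3) (nat_lit 0x7000280004001300080000000000000000000000000000000) (nat_lit 0x0) (nat_lit 0x2000000000000a000400020000000000000000000000000000000) := T_25 (nat_lit 209) (nat_lit 157) (nat_lit 4) (nat_lit 5) (nat_lit 12) L6961 (by decide +kernel)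
theorem L6963 : W_25 (nat_lit 4) (nat_lit 0x5000280004001300080000000000000000000000000000000) (nat_lit 0x0) (nat_lit 0x6000200000000a000400020000000000000000000000000000000) := T_25 (nat_lit 193) (nat_lit 210) (nat_lit 7) (nat_lit 5) (nat_lit 8) L6962 (by decide +kernel)
theorem L6964 : W_25 (nat_lit 5) (nat_lit 0x5000280004001200080000000000000000000000000000000) (nat_lit 0x0) (nat_lit 0x6000200000000a000500028000000000000000000000000000000) := T_25 (nat_lit 140) (nat_lit 123) (nat_lit 4) (nat_lit 5) (nat_lit 11) L6963 (by decide +kernel)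
theorem L6965 : W_25 (nat_lit 2) (nat_lit 0x5000280004001700080000000000000000000000000000000) (nat_lit 0x0) (nat_lit 0x2000000000000a000000000000000000000000000000000000000) := D_25 (nat_lit 209) (nat_lit 159) (nat_lit 157) (nat_lit 6) (nat_lit 5) (nat_lit 12) (nat_lit 4) (nat_lit 5) (nat_lit 12) (by decide +kernel)
theorem L6966 : W_25 (nat_lit 3) (nat_lit 0x5000280004001600080000000000000000000000000000000) (nat_lit 0x0) (nat_lit 0x2000000000000a000100008000000000000000000000000000000) := T_25 (nat_lit 140) (nat_lit 123) (nat_lit 4) (nat_lit 5) (nat_lit 11) L6965 (by decide +kernel)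
theorem L6967 : W_25 (nat_lit 4) (nat_lit 0x5000280004001200080000000000000000000000000000000) (nat_lit 0x0) (nat_lit 0x2000000000000a000500028000000000000000000000000000000) := T_25 (nat_lit 142) (nat_lit 125) (nat_lit 6) (nat_lit 5) (nat_lit 11) L6966 (by decide +kernel)
theorem L6968 : W_25 (nat_lit 2) (nat_lit 0x7800280004001300080000000000000000000000000000000) (nat_lit 0x0) (nat_lit 0x60000000000010000000000000000000000000000000) := D_25 (nat_lit 174) (nat_lit 124) (nat_lit 173) (nat_lit 5) (nat_lit 5) (nat_lit 7) (nat_lit 0) (nat_lit 7) (nat_lit 11) (by decide +kernel)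
theorem L6969 : W_25 (nat_lit 3) (nat_lit 0x7000280004001300080000000000000000000000000000000) (nat_lit 0x0) (nat_lit 0x10000800060000000000010000000000000000000000000000000) := T_25 (nat_lit 191) (nat_lit 208) (nat_lit 5) (nat_lit 5) (nat_lit 8) L6968 (by decide +kernel)
theorem L6970 : W_25 (nat_lit 4) (nat_lit 0x7000280004001200080000000000000000000000000000000) (nat_lit 0x0) (nat_lit 0x10000800060000000100018000000000000000000000000000000) := T_25 (nat_lit 140) (nat_lit 123) (nat_lit 4) (nat_lit 5) (nat_lit 11) L6969 (by decide +kernel)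
theorem L6971 : W_25 (nat_lit 5) (nat_lit 0x5000280004001200080000000000000000000000000000000) (nat_lit 0x0) (nat_lit 0x50002800060000000100018000000000000000000000000000000) := T_25 (nat_lit 193) (nat_lit 210) (nat_lit 7) (nat_lit 5) (nat_lit 8) L6970 (by decide +kernel)
theorem L6972 : W_25 (nat_lit 2) (nat_lit 0x20007000280004001600080000000000000000000000000000000) (nat_lit 0x0) (nat_lit 0x200010000800000000000000000000000000000000000000000000000) := D_25 (nat_lit 208) (nat_lit 225) (nat_lit 191) (nat_lit 5) (nat_lit 5) (nat_lit 9) (nat_lit 5) (nat_lit 5) (nat_lit 8) (by decide +kernel)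
theorem L6973 : W_25 (nat_lit 3) (nat_lit 0x7000280004001600080000000000000000000000000000000) (nat_lit 0x0) (nat_lit 0x200030000800000008000000000000000000000000000000000000000) := T_25 (nat_lit 209) (nat_lit 159) (nat_lit 6) (nat_lit 5) (nat_lit 12) L6972 (by decide +kernel)
theorem L6974 : W_25 (nat_lit 4) (nat_lit 0x5000280004001600080000000000000000000000000000000) (nat_lit 0x0) (nat_lit 0x200070002800000008000000000000000000000000000000000000000) := T_25 (nat_lit 193) (nat_lit 210) (nat_lit 7) (nat_lit 5) (nat_lit 8) L6973 (by decide +kernel)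
theorem L6975 : W_25 (nat_lit 5) (nat_lit 0x5000280004001200080000000000000000000000000000000) (nat_lit 0x0) (nat_lit 0x200070002800000008000400020000000000000000000000000000000) := T_25 (nat_lit 142) (nat_lit 125) (nat_lit 6) (nat_lit 5) (nat_lit 11) L6974 (by decide +kernel)
theorem L6976 : W_25 (nat_lit 6) (nat_lit 0x5000280004001000080000000000000000000000000000000) (nat_lit 0x0) (nat_lit 0x20007000280006000a000700038000000000000000000000000000000) := Q_25 (nat_lit 141) (C_25 L6964 (C_25 L6967 (C_25 L6971 (C_25 L6975 N_25)))) (by decide +kernel)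
theorem L6977 : W_25 (nat_lit 6) (nat_lit 0x5000280004001000080000000000000000000000000000000) (nat_lit 0x0) (nat_lit 0x4000e0007000080007001a000700020000000000000000000000000000000) := Q_25 (nat_lit 209) (C_25 L6940 (C_25 L6861 (C_25 L6829 N_25))) (by decide +kernel)
theorem L6978 : W_25 (nat_lit 2) (nat_lit 0x60005000280006001200080000000000000000000000000000000) (nat_lit 0x0) (nat_lit 0x200010000800000000000000000000000000000000000000000000000) := D_25 (nat_lit 208) (nat_lit 191) (nat_lit 225) (nat_lit 5) (nat_lit 5) (nat_lit 8) (nat_lit 5) (nat_lit 5) (nat_lit 9) (by decide +kernel)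
theorem L6979 : W_25 (nat_lit 3) (nat_lit 0x60005000280006001000080000000000000000000000000000000) (nat_lit 0x0) (nat_lit 0x200010002800000000000200000000000000000000000000000000000) := T_25 (nat_lit 141) (nat_lit 193) (nat_lit 7) (nat_lit 5) (nat_lit 8) L6978 (by decide +kernel)
theorem L6980 : W_25 (nat_lit 4) (nat_lit 0x20005000280006001000080000000000000000000000000000000) (nat_lit 0x0) (nat_lit 0xa00050002800000000000200000000000000000000000000000000000) := T_25 (nat_lit 210) (nat_lit 227) (nat_lit 7) (nat_lit 5) (nat_lit 9) L6979 (by decide +kernel)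
theorem L6981 : W_25 (nat_lit 5) (nat_lit 0x20005000280004001000080000000000000000000000000000000) (nat_lit 0x0) (nat_lit 0xa00050002800000002000300000000000000000000000000000000000) := T_25 (nat_lit 157) (nat_lit 140) (nat_lit 4) (nat_lit 5) (nat_lit 12) L6980 (by decide +kernel)
theorem L6982 : W_25 (nat_lit 2) (nat_lit 0x6000500028000c001200080000000000000000000000000000000) (nat_lit 0x0) (nat_lit 0x200010000800000000000000000000000000000000000000000000000) := D_25 (nat_lit 208) (nat_lit 191) (nat_lit 225) (nat_lit 5) (nat_lit 5) (nat_lit 8) (nat_lit 5) (nat_lit 5) (nat_lit 9) (by decide +kernel)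
theorem L6983 : W_25 (nat_lit 3) (nat_lit 0x6000500028000c001000080000000000000000000000000000000) (nat_lit 0x0) (nat_lit 0x200010002800000000000200000000000000000000000000000000000) := T_25 (nat_lit 141) (nat_lit 193) (nat_lit 7) (nat_lit 5) (nat_lit 8) L6982 (by decide +kernel)
theorem L6984 : W_25 (nat_lit 4) (nat_lit 0x2000500028000c001000080000000000000000000000000000000) (nat_lit 0x0) (nat_lit 0xa00050002800000000000200000000000000000000000000000000000) := T_25 (nat_lit 210) (nat_lit 227) (nat_lit 7) (nat_lit 5) (nat_lit 9) L6983 (by decide +kernel)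
theorem L6985 : W_25 (nat_lit 5) (nat_lit 0x20005000280004001000080000000000000000000000000000000) (nat_lit 0x0) (nat_lit 0xa00050002800000008000600000000000000000000000000000000000) := T_25 (nat_lit 159) (nat_lit 142) (nat_lit 6) (nat_lit 5) (nat_lit 12) L6984 (by decide +kernel)
theorem L6986 : W_25 (nat_lit 7) (nat_lit 0x5000280004001000080000000000000000000000000000000) (nat_lit 0x0) (nat_lit 0xe0007000280007001a000700010000000000000000000000000000000) := Q_25 (nat_lit 209) (C_25 L6958 (C_25 L6940 (C_25 L6981 (C_25 L6985 N_25)))) (by decide +kernel)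
theorem L6987 : W_25 (nat_lit 2) (nat_lit 0x20005000280004001700080000000000000000000000000000000) (nat_lit 0x0) (nat_lit 0x200010000800000000000000000000000000000000000000000000000) := D_25 (nat_lit 208) (nat_lit 191) (nat_lit 225) (nat_lit 5) (nat_lit 5) (nat_lit 8) (nat_lit 5) (nat_lit 5) (nat_lit 9) (by decide +kernel)
theorem L6988 : W_25 (nat_lit 3) (nat_lit 0x5000280004001700080000000000000000000000000000000) (nat_lit 0x0) (nat_lit 0x200030000800000002000000000000000000000000000000000000000) := T_25 (nat_lit 209) (nat_lit 157) (nat_lit 4) (nat_lit 5) (nat_lit 12) L6987 (by decide +kernel)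
theorem L6989 : W_25 (nat_lit 4) (nat_lit 0x5000280004001300080000000000000000000000000000000) (nat_lit 0x0) (nat_lit 0x200030000800000002000400020000000000000000000000000000000) := T_25 (nat_lit 142) (nat_lit 125) (nat_lit 6) (nat_lit 5) (nat_lit 11) L6988 (by decide +kernel)
theorem L6990 : W_25 (nat_lit 5) (nat_lit 0x5000280004001200080000000000000000000000000000000) (nat_lit 0x0) (nat_lit 0x200030000800000002000500028000000000000000000000000000000) := T_25 (nat_lit 140) (nat_lit 123) (nat_lit 4) (nat_lit 5) (nat_lit 11) L6989 (by decide +kernel)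
theorem L6991 : W_25 (nat_lit 2) (nat_lit 0x7000280004001200090000000000000000000000000000000) (nat_lit 0x0) (nat_lit 0x400020001000000000000000000000000000) := D_25 (nat_lit 125) (nat_lit 108) (nat_lit 142) (nat_lit 6) (nat_lit 5) (nat_lit 10) (nat_lit 6) (nat_lit 5) (nat_lit 11) (by decide +kernel)
theorem L6992 : W_25 (nat_lit 3) (nat_lit 0x7000280004001200080000000000000000000000000000000) (nat_lit 0x0) (nat_lit 0x100000000400030001000000000000000000000000000) := T_25 (nat_lit 124) (nat_lit 176) (nat_lit 7) (nat_lit 5) (nat_lit 7) L6991 (by decide +kernel)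
theorem L6993 : W_25 (nat_lit 4) (nat_lit 0x5000280004001200080000000000000000000000000000000) (nat_lit 0x0) (nat_lit 0x40002000100000000400030001000000000000000000000000000) := T_25 (nat_lit 193) (nat_lit 210) (nat_lit 7) (nat_lit 5) (nat_lit 8) L6992 (by decide +kernel)
theorem L6994 : W_25 (nat_lit 6) (nat_lit 0x5000280004001000080000000000000000000000000000000) (nat_lit 0x0) (nat_lit 0x200070002800160002000700038001000000000000000000000000000) := Q_25 (nat_lit 141) (C_25 L6971 (C_25 L6990 (C_25 L6993 N_25))) (by decide +kernel)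
theorem L6995 : W_25 (nat_lit 2) (nat_lit 0x20007000280004001300090000000000000000000000000000000) (nat_lit 0x0) (nat_lit 0x200010000800000000000000000000000000000000000000000000000) := D_25 (nat_lit 208) (nat_lit 191) (nat_lit 225) (nat_lit 5) (nat_lit 5) (nat_lit 8) (nat_lit 5) (nat_lit 5) (nat_lit 9) (by decide +kernel)
theorem L6996 : W_25 (nat_lit 3) (nat_lit 0x7000280004001300090000000000000000000000000000000) (nat_lit 0x0) (nat_lit 0x200030000800000002000000000000000000000000000000000000000) := T_25 (nat_lit 209) (nat_lit 157) (nat_lit 4) (nat_lit 5) (nat_lit 12) L6995 (by decide +kernel)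
theorem L6997 : W_25 (nat_lit 4) (nat_lit 0x7000280004001300080000000000000000000000000000000) (nat_lit 0x0) (nat_lit 0x200030000800100002000000010000000000000000000000000000000) := T_25 (nat_lit 124) (nat_lit 176) (nat_lit 7) (nat_lit 5) (nat_lit 7) L6996 (by decide +kernel)
theorem L6998 : W_25 (nat_lit 5) (nat_lit 0x5000280004001300080000000000000000000000000000000) (nat_lit 0x0) (nat_lit 0x200070002800100002000000010000000000000000000000000000000) := T_25 (nat_lit 193) (nat_lit 210) (nat_lit 7) (nat_lit 5) (nat_lit 8) L6997 (by decide +kernel)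
theorem L6999 : W_25 (nat_lit 6) (nat_lit 0x5000280004001200080000000000000000000000000000000) (nat_lit 0x0) (nat_lit 0x200070002800100002000100018000000000000000000000000000000) := T_25 (nat_lit 140) (nat_lit 123) (nat_lit 4) (nat_lit 5) (nat_lit 11) L6998 (by decide +kernel)
theorem L7000 : W_25 (nat_lit 7) (nat_lit 0x5000280004001000080000000000000000000000000000000) (nat_lit 0x0) (nat_lit 0x200070002800100002000700038001000000000000000000000000000) := Q_25 (nat_lit 141) (C_25 L6993 (C_25 L6990 (C_25 L6999 N_25))) (by decide +kernel)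
theorem L7001 : W_25 (nat_lit 2) (nat_lit 0x6000500028000e001000080000000000000000000000000000000) (nat_lit 0x0) (nat_lit 0x400000000000100001000000000000000000000000000000000000000) := D_25 (nat_lit 176) (nat_lit 156) (nat_lit 226) (nat_lit 3) (nat_lit 3) (nat_lit 9) (nat_lit 6) (nat_lit 5) (nat_lit 13) (by decide +kernel)
theorem L7002 : W_25 (nat_lit 3) (nat_lit 0x60005000280006001000080000000000000000000000000000000) (nat_lit 0x0) (nat_lit 0x400000000000100009000400000000000000000000000000000000000) := T_25 (nat_lit 159) (nat_lit 142) (nat_lit 6) (nat_lit 5) (nat_lit 12) L7001 (by decide +kernel)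
theorem L7003 : W_25 (nat_lit 4) (nat_lit 0x20005000280006001000080000000000000000000000000000000) (nat_lit 0x0) (nat_lit 0xc00040000000100009000400000000000000000000000000000000000) := T_25 (nat_lit 210) (nat_lit 227) (nat_lit 7) (nat_lit 5) (nat_lit 9) L7002 (by decide +kernel)
theorem L7004 : W_25 (nat_lit 5) (nat_lit 0x20005000280004001000080000000000000000000000000000000) (nat_lit 0x0) (nat_lit 0xc0004000000010000b000500000000000000000000000000000000000) := T_25 (nat_lit 157) (nat_lit 140) (nat_lit 4) (nat_lit 5) (nat_lit 12) L7003 (by decide +kernel)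
theorem L7005 : W_25 (nat_lit 2) (nat_lit 0x40006000500028000c001000080000000000000000000000000000000) (nat_lit 0x0) (nat_lit 0x4000200010000000000000000000000000000000000000000000000000000) := D_25 (nat_lit 225) (nat_lit 242) (nat_lit 208) (nat_lit 5) (nat_lit 5) (nat_lit 10) (nat_lit 5) (nat_lit 5) (nat_lit 9) (by decide +kernel)
theorem L7006 : W_25 (nat_lit 3) (nat_lit 0x6000500028000c001000080000000000000000000000000000000) (nat_lit 0x0) (nat_lit 0x4000600010000000100000000000000000000000000000000000000000000) := T_25 (nat_lit 226) (nat_lit 176) (nat_lit 6) (nat_lit 5) (nat_lit 13) L7005 (by decide +kernel)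
theorem L7007 : W_25 (nat_lit 4) (nat_lit 0x2000500028000c001000080000000000000000000000000000000) (nat_lit 0x0) (nat_lit 0x4000e00050000000100000000000000000000000000000000000000000000) := T_25 (nat_lit 210) (nat_lit 227) (nat_lit 7) (nat_lit 5) (nat_lit 9) L7006 (by decide +kernel)
theorem L7008 : W_25 (nat_lit 5) (nat_lit 0x20005000280004001000080000000000000000000000000000000) (nat_lit 0x0) (nat_lit 0x4000e00050000000100008000400000000000000000000000000000000000) := T_25 (nat_lit 159) (nat_lit 142) (nat_lit 6) (nat_lit 5) (nat_lit 12) L7007 (by decide +kernel)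
theorem L7009 : W_25 (nat_lit 2) (nat_lit 0x100078005400280006001000080000000000000000000000000000000) (nat_lit 0x0) (nat_lit 0x800060000000000000000000000000000000000000000000) := D_25 (nat_lit 174) (nat_lit 191) (nat_lit 173) (nat_lit 5) (nat_lit 4) (nat_lit 9) (nat_lit 6) (nat_lit 3) (nat_lit 13) (by decide +kernel)
theorem L7010 : W_25 (nat_lit 3) (nat_lit 0x100078005000280006001000080000000000000000000000000000000) (nat_lit 0x0) (nat_lit 0xe00060000000000000000000000000000000000000000000) := T_25 (nat_lit 190) (nat_lit 189) (nat_lit 0) (nat_lit 6) (nat_lit 12) L7009 (by decide +kernel)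
theorem L7011 : W_25 (nat_lit 4) (nat_lit 0x78005000280006001000080000000000000000000000000000000) (nat_lit 0x0) (nat_lit 0x180000000e00060000000000000000000000000000000000000000000) := T_25 (nat_lit 224) (nat_lit 223) (nat_lit 1) (nat_lit 6) (nat_lit 12) L7010 (by decide +kernel)
theorem L7012 : W_25 (nat_lit 5) (nat_lit 0x70005000280006001000080000000000000000000000000000000) (nat_lit 0x0) (nat_lit 0x180008002e00060000000000000000000000000000000000000000000) := T_25 (nat_lit 207) (nat_lit 193) (nat_lit 2) (nat_lit 3) (nat_lit 12) L7011 (by decide +kernel)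
theorem L7013 : W_25 (nat_lit 6) (nat_lit 0x30005000280006001000080000000000000000000000000000000) (nat_lit 0x0) (nat_lit 0x980048002e00060000000000000000000000000000000000000000000) := T_25 (nat_lit 210) (nat_lit 227) (nat_lit 7) (nat_lit 5) (nat_lit 9) L7012 (by decide +kernel)
theorem L7014 : W_25 (nat_lit 7) (nat_lit 0x30005000280004001000080000000000000000000000000000000) (nat_lit 0x0) (nat_lit 0x980048002e00060002000100000000000000000000000000000000000) := T_25 (nat_lit 157) (nat_lit 140) (nat_lit 4) (nat_lit 5) (nat_lit 12) L7013 (by decide +kernel)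
theorem L7015 : W_25 (nat_lit 8) (nat_lit 0x20005000280004001000080000000000000000000000000000000) (nat_lit 0x0) (nat_lit 0xb80058002e00060002000100000000000000000000000000000000000) := T_25 (nat_lit 208) (nat_lit 225) (nat_lit 5) (nat_lit 5) (nat_lit 9) L7014 (by decide +kernel)
theorem L7016 : W_25 (nat_lit 9) (nat_lit 0x5000280004001000080000000000000000000000000000000) (nat_lit 0x0) (nat_lit 0x4000f80078002e0017001b000500000000000000000000000000000000000) := Q_25 (nat_lit 209) (C_25 L6940 (C_25 L6829 (C_25 L7004 (C_25 L7008 (C_25 L7015 N_25))))) (by decide +kernel)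
theorem L7017 : W_25 (nat_lit 2) (nat_lit 0x20005800380004001300090000000000000000000000000000000) (nat_lit 0x0) (nat_lit 0x8000400000000800000000000000000000000000) := D_25 (nat_lit 159) (nat_lit 107) (nat_lit 142) (nat_lit 7) (nat_lit 5) (nat_lit 6) (nat_lit 6) (nat_lit 5) (nat_lit 12) (by decide +kernel)
theorem L7018 : W_25 (nat_lit 3) (nat_lit 0x20005800280004001300090000000000000000000000000000000) (nat_lit 0x0) (nat_lit 0x2000100008000400000000800000000000000000000000000) := T_25 (nat_lit 176) (nat_lit 193) (nat_lit 7) (nat_lit 5) (nat_lit 7) L7017 (by decide +kernel)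
theorem L7019 : W_25 (nat_lit 4) (nat_lit 0x5800280004001300090000000000000000000000000000000) (nat_lit 0x0) (nat_lit 0x2000200010000a000400000000800000000000000000000000000) := T_25 (nat_lit 209) (nat_lit 157) (nat_lit 4) (nat_lit 5) (nat_lit 12) L7018 (by decide +kernel)
theorem L7020 : W_25 (nat_lit 5) (nat_lit 0x5800280004001300080000000000000000000000000000000) (nat_lit 0x0) (nat_lit 0x2000200014000a000400010000800000000000000000000000000) := T_25 (nat_lit 124) (nat_lit 174) (nat_lit 5) (nat_lit 5) (nat_lit 7) L7019 (by decide +kernel)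
theorem L7021 : W_25 (nat_lit 6) (nat_lit 0x5000280004001300080000000000000000000000000000000) (nat_lit 0x0) (nat_lit 0x3000280014000a000400010000800000000000000000000000000) := T_25 (nat_lit 191) (nat_lit 208) (nat_lit 5) (nat_lit 5) (nat_lit 8) L7020 (by decide +kernel)
theorem L7022 : W_25 (nat_lit 7) (nat_lit 0x5000280004001200080000000000000000000000000000000) (nat_lit 0x0) (nat_lit 0x3000280014000a000500018000800000000000000000000000000) := T_25 (nat_lit 140) (nat_lit 123) (nat_lit 4) (nat_lit 5) (nat_lit 11) L7021 (by decide +kernel)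
theorem L7023 : W_25 (nat_lit 2) (nat_lit 0x5800280004001300090000000000000000000000000000000) (nat_lit 0x0) (nat_lit 0x60001000000000000000000000000000) := D_25 (nat_lit 125) (nat_lit 126) (nat_lit 108) (nat_lit 1) (nat_lit 8) (nat_lit 7) (nat_lit 6) (nat_lit 5) (nat_lit 10) (by decide +kernel)
theorem L7024 : W_25 (nat_lit 3) (nat_lit 0x5800280004001300080000000000000000000000000000000) (nat_lit 0x0) (nat_lit 0x40000000000070001000000000000000000000000000) := T_25 (nat_lit 124) (nat_lit 174) (nat_lit 5) (nat_lit 5) (nat_lit 7) L7023 (by decide +kernel)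
theorem L7025 : W_25 (nat_lit 4) (nat_lit 0x5000280004001300080000000000000000000000000000000) (nat_lit 0x0) (nat_lit 0x10000800040000000000070001000000000000000000000000000) := T_25 (nat_lit 191) (nat_lit 208) (nat_lit 5) (nat_lit 5) (nat_lit 8) L7024 (by decide +kernel)
theorem L7026 : W_25 (nat_lit 5) (nat_lit 0x5000280004001200080000000000000000000000000000000) (nat_lit 0x0) (nat_lit 0x10000800040000000100078001000000000000000000000000000) := T_25 (nat_lit 140) (nat_lit 123) (nat_lit 4) (nat_lit 5) (nat_lit 11) L7025 (by decide +kernel)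
theorem L7027 : W_25 (nat_lit 2) (nat_lit 0x5800280004001200090000000000000000000000000000000) (nat_lit 0x0) (nat_lit 0x400020001000000000000000000000000000) := D_25 (nat_lit 125) (nat_lit 142) (nat_lit 108) (nat_lit 6) (nat_lit 5) (nat_lit 11) (nat_lit 6) (nat_lit 5) (nat_lit 10) (by decide +kernel)
theorem L7028 : W_25 (nat_lit 3) (nat_lit 0x5800280004001200080000000000000000000000000000000) (nat_lit 0x0) (nat_lit 0x40000000400030001000000000000000000000000000) := T_25 (nat_lit 124) (nat_lit 174) (nat_lit 5) (nat_lit 5) (nat_lit 7) L7027 (by decide +kernel)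
theorem L7029 : W_25 (nat_lit 4) (nat_lit 0x5000280004001200080000000000000000000000000000000) (nat_lit 0x0) (nat_lit 0x10000800040000000400030001000000000000000000000000000) := T_25 (nat_lit 191) (nat_lit 208) (nat_lit 5) (nat_lit 5) (nat_lit 8) L7028 (by decide +kernel)
theorem L7030 : W_25 (nat_lit 8) (nat_lit 0x5000280004001000080000000000000000000000000000000) (nat_lit 0x0) (nat_lit 0x20003000280014000a000700078001800000000000000000000000000) := Q_25 (nat_lit 141) (C_25 L6990 (C_25 L7022 (C_25 L7026 (C_25 L6967 (C_25 L7029 N_25))))) (by decide +kernel)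
theorem L7031 : W_25 (nat_lit 2) (nat_lit 0x400030005000380006001200080000000000000000000000000000000) (nat_lit 0x0) (nat_lit 0x8000000000002000000000000000010000000000000000000000000000000) := D_25 (nat_lit 193) (nat_lit 124) (nat_lit 243) (nat_lit 7) (nat_lit 5) (nat_lit 7) (nat_lit 6) (nat_lit 5) (nat_lit 14) (by decide +kernel)
theorem L7032 : W_25 (nat_lit 3) (nat_lit 0x400030005000280006001200080000000000000000000000000000000) (nat_lit 0x0) (nat_lit 0x8000000000002000100008000000010000000000000000000000000000000) := T_25 (nat_lit 176) (nat_lit 159) (nat_lit 6) (nat_lit 5) (nat_lit 13) L7031 (by decide +kernel)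
theorem L7033 : W_25 (nat_lit 4) (nat_lit 0x30005000280006001200080000000000000000000000000000000) (nat_lit 0x0) (nat_lit 0x8000400000002000140008000000010000000000000000000000000000000) := T_25 (nat_lit 226) (nat_lit 174) (nat_lit 4) (nat_lit 5) (nat_lit 13) L7032 (by decide +kernel)
theorem L7034 : W_25 (nat_lit 5) (nat_lit 0x30005000280006001000080000000000000000000000000000000) (nat_lit 0x0) (nat_lit 0x8000400000002800140008000200010000000000000000000000000000000) := T_25 (nat_lit 141) (nat_lit 191) (nat_lit 5) (nat_lit 5) (nat_lit 8) L7033 (by decide +kernel)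
theorem L7035 : W_25 (nat_lit 6) (nat_lit 0x20005000280006001000080000000000000000000000000000000) (nat_lit 0x0) (nat_lit 0x8000600010002800140008000200010000000000000000000000000000000) := T_25 (nat_lit 208) (nat_lit 225) (nat_lit 5) (nat_lit 5) (nat_lit 9) L7034 (by decide +kernel)
theorem L7036 : W_25 (nat_lit 7) (nat_lit 0x20005000280004001000080000000000000000000000000000000) (nat_lit 0x0) (nat_lit 0x800060001000280014000a000300010000000000000000000000000000000) := T_25 (nat_lit 157) (nat_lit 140) (nat_lit 4) (nat_lit 5) (nat_lit 12) L7035 (by decide +kernel)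
theorem L7037 : W_25 (nat_lit 2) (nat_lit 0x60005000280004001200080000000000000000000000000000000) (nat_lit 0x0) (nat_lit 0x200010000800000000000000000000000000000000000000000000000) := D_25 (nat_lit 208) (nat_lit 191) (nat_lit 225) (nat_lit 5) (nat_lit 5) (nat_lit 8) (nat_lit 5) (nat_lit 5) (nat_lit 9) (by decide +kernel)
theorem L7038 : W_25 (nat_lit 3) (nat_lit 0x60005000280004001000080000000000000000000000000000000) (nat_lit 0x0) (nat_lit 0x200010002800000000000200000000000000000000000000000000000) := T_25 (nat_lit 141) (nat_lit 193) (nat_lit 7) (nat_lit 5) (nat_lit 8) L7037 (by decide +kernel)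
theorem L7039 : W_25 (nat_lit 4) (nat_lit 0x20005000280004001000080000000000000000000000000000000) (nat_lit 0x0) (nat_lit 0xa00050002800000000000200000000000000000000000000000000000) := T_25 (nat_lit 210) (nat_lit 227) (nat_lit 7) (nat_lit 5) (nat_lit 9) L7038 (by decide +kernel)
theorem L7040 : W_25 (nat_lit 2) (nat_lit 0x600050002c0006001200080000000000000000000000000000000) (nat_lit 0x0) (nat_lit 0x800000000000000010000800000000000000000000000000) := D_25 (nat_lit 124) (nat_lit 107) (nat_lit 191) (nat_lit 5) (nat_lit 5) (nat_lit 6) (nat_lit 5) (nat_lit 5) (nat_lit 7) (by decide +kernel)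
theorem L7041 : W_25 (nat_lit 3) (nat_lit 0x60005000280006001200080000000000000000000000000000000) (nat_lit 0x0) (nat_lit 0x400000000800040000000000010000800000000000000000000000000) := T_25 (nat_lit 174) (nat_lit 226) (nat_lit 4) (nat_lit 5) (nat_lit 13) L7040 (by decide +kernel)
theorem L7042 : W_25 (nat_lit 4) (nat_lit 0x60005000280006001000080000000000000000000000000000000) (nat_lit 0x0) (nat_lit 0x400000002800040000000200010000800000000000000000000000000) := T_25 (nat_lit 141) (nat_lit 193) (nat_lit 7) (nat_lit 5) (nat_lit 8) L7041 (by decide +kernel)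
theorem L7043 : W_25 (nat_lit 5) (nat_lit 0x20005000280006001000080000000000000000000000000000000) (nat_lit 0x0) (nat_lit 0xc00040002800040000000200010000800000000000000000000000000) := T_25 (nat_lit 210) (nat_lit 227) (nat_lit 7) (nat_lit 5) (nat_lit 9) L7042 (by decide +kernel)
theorem L7044 : W_25 (nat_lit 6) (nat_lit 0x20005000280004001000080000000000000000000000000000000) (nat_lit 0x0) (nat_lit 0xc00040002800040002000300010000800000000000000000000000000) := T_25 (nat_lit 157) (nat_lit 140) (nat_lit 4) (nat_lit 5) (nat_lit 12) L7043 (by decide +kernel)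
theorem L7045 : W_25 (nat_lit 9) (nat_lit 0x5000280004001000080000000000000000000000000000000) (nat_lit 0x0) (nat_lit 0xc000f80078002e0016000a000300010000800000000000000000000000000) := Q_25 (nat_lit 209) (C_25 L7015 (C_25 L6829 (C_25 L6981 (C_25 L7036 (C_25 L7039 (C_25 L7044 N_25)))))) (by decide +kernel)
theorem L7046 : W_25 (nat_lit 2) (nat_lit 0x7000280006001300090000000000000000000000000000000) (nat_lit 0x0) (nat_lit 0x40000000000000000800040000000000000000000000) := D_25 (nat_lit 107) (nat_lit 90) (nat_lit 174) (nat_lit 5) (nat_lit 5) (nat_lit 5) (nat_lit 5) (nat_lit 5) (nat_lit 6) (by decide +kernel)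
theorem L7047 : W_25 (nat_lit 3) (nat_lit 0x7000280004001300090000000000000000000000000000000) (nat_lit 0x0) (nat_lit 0x20000000040002000000000000800040000000000000000000000) := T_25 (nat_lit 157) (nat_lit 209) (nat_lit 4) (nat_lit 5) (nat_lit 12) L7046 (by decide +kernel)
theorem L7048 : W_25 (nat_lit 4) (nat_lit 0x7000280004001300080000000000000000000000000000000) (nat_lit 0x0) (nat_lit 0x20000000140002000000010000800040000000000000000000000) := T_25 (nat_lit 124) (nat_lit 176) (nat_lit 7) (nat_lit 5) (nat_lit 7) L7047 (by decide +kernel)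
theorem L7049 : W_25 (nat_lit 5) (nat_lit 0x5000280004001300080000000000000000000000000000000) (nat_lit 0x0) (nat_lit 0x60002000140002000000010000800040000000000000000000000) := T_25 (nat_lit 193) (nat_lit 210) (nat_lit 7) (nat_lit 5) (nat_lit 8) L7048 (by decide +kernel)
theorem L7050 : W_25 (nat_lit 6) (nat_lit 0x5000280004001200080000000000000000000000000000000) (nat_lit 0x0) (nat_lit 0x60002000140002000100018000800040000000000000000000000) := T_25 (nat_lit 140) (nat_lit 123) (nat_lit 4) (nat_lit 5) (nat_lit 11) L7049 (by decide +kernel)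
theorem L7051 : W_25 (nat_lit 7) (nat_lit 0x5000280004001000080000000000000000000000000000000) (nat_lit 0x0) (nat_lit 0x6000200014000a000700038001800040000000000000000000000) := Q_25 (nat_lit 141) (C_25 L6993 (C_25 L6967 (C_25 L7050 N_25))) (by decide +kernel)
theorem L7052 : W_25 (nat_lit 2) (nat_lit 0x7c00280004001700080000000000000000000000000000000) (nat_lit 0x0) (nat_lit 0x70000000000000000000000000000000000000000000) := D_25 (nat_lit 173) (nat_lit 174) (nat_lit 172) (nat_lit 0) (nat_lit 7) (nat_lit 11) (nat_lit 0) (nat_lit 6) (nat_lit 11) (by decide +kernel)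
theorem L7053 : W_25 (nat_lit 3) (nat_lit 0x7800280004001700080000000000000000000000000000000) (nat_lit 0x0) (nat_lit 0x400170000000000000000000000000000000000000000000) := T_25 (nat_lit 190) (nat_lit 176) (nat_lit 2) (nat_lit 3) (nat_lit 11) L7052 (by decide +kernel)
theorem L7054 : W_25 (nat_lit 4) (nat_lit 0x7000280004001700080000000000000000000000000000000) (nat_lit 0x0) (nat_lit 0x10000c00170000000000000000000000000000000000000000000) := T_25 (nat_lit 191) (nat_lit 208) (nat_lit 5) (nat_lit 5) (nat_lit 8) L7053 (by decide +kernel)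
theorem L7055 : W_25 (nat_lit 5) (nat_lit 0x5000280004001700080000000000000000000000000000000) (nat_lit 0x0) (nat_lit 0x50002c00170000000000000000000000000000000000000000000) := T_25 (nat_lit 193) (nat_lit 210) (nat_lit 7) (nat_lit 5) (nat_lit 8) L7054 (by decide +kernel)
theorem L7056 : W_25 (nat_lit 6) (nat_lit 0x5000280004001300080000000000000000000000000000000) (nat_lit 0x0) (nat_lit 0x50002c00170000000400020000000000000000000000000000000) := T_25 (nat_lit 142) (nat_lit 125) (nat_lit 6) (nat_lit 5) (nat_lit 11) L7055 (by decide +kernel)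
theorem L7057 : W_25 (nat_lit 7) (nat_lit 0x5000280004001200080000000000000000000000000000000) (nat_lit 0x0) (nat_lit 0x50002c00170000000500028000000000000000000000000000000) := T_25 (nat_lit 140) (nat_lit 123) (nat_lit 4) (nat_lit 5) (nat_lit 11) L7056 (by decide +kernel)
theorem L7058 : W_25 (nat_lit 8) (nat_lit 0x5000280004001000080000000000000000000000000000000) (nat_lit 0x0) (nat_lit 0x50002c00170000000700038001000000000000000000000000000) := Q_25 (nat_lit 141) (C_25 L7029 (C_25 L6971 (C_25 L6993 (C_25 L7057 N_25)))) (by decide +kernel)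
theorem L7059 : W_25 (nat_lit 6) (nat_lit 0x5000280004001000080000000000000000000000000000000) (nat_lit 0x0) (nat_lit 0x4000e00070002800100008000600020000000000000000000000000000000) := Q_25 (nat_lit 209) (C_25 L7039 (C_25 L7008 (C_25 L6861 (C_25 L6838 N_25)))) (by decide +kernel)
theorem L7060 : W_25 (nat_lit 10) (nat_lit 0x5000280000001000080000000000000000000000000000000) (nat_lit 0x0) (nat_lit 0xc000f80078002e0017001f000700078001800040000000000000000000000) := Q_25 (nat_lit 158) (C_25 L6976 (C_25 L6977 (C_25 L6986 (C_25 L6994 (C_25 L7000 (C_25 L7016 (C_25 L7030 (C_25 L7045 (C_25 L7051 (C_25 L7058 (C_25 L7059 N_25))))))))))) (by decide +kernel)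
theorem L7061 : W_25 (nat_lit 6) (nat_lit 0x5000280004001000080000000000000000000000000000000) (nat_lit 0x0) (nat_lit 0x4000e0007000080014000b000700020000000000000000000000000000000) := Q_25 (nat_lit 209) (C_25 L7008 (C_25 L6861 (C_25 L6829 (C_25 L7004 N_25)))) (by decide +kernel)
theorem L7062 : W_25 (nat_lit 2) (nat_lit 0x2000500028000e001000080000000000000000000000000000000) (nat_lit 0x0) (nat_lit 0x400000000000100001000000000000000000000000000000000000000) := D_25 (nat_lit 176) (nat_lit 156) (nat_lit 226) (nat_lit 3) (nat_lit 3) (nat_lit 9) (nat_lit 6) (nat_lit 5) (nat_lit 13) (by decide +kernel)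
theorem L7063 : W_25 (nat_lit 3) (nat_lit 0x20005000280006001000080000000000000000000000000000000) (nat_lit 0x0) (nat_lit 0x400000000000100009000400000000000000000000000000000000000) := T_25 (nat_lit 159) (nat_lit 142) (nat_lit 6) (nat_lit 5) (nat_lit 12) L7062 (by decide +kernel)
theorem L7064 : W_25 (nat_lit 4) (nat_lit 0x20005000280004001000080000000000000000000000000000000) (nat_lit 0x0) (nat_lit 0x40000000000010000b000500000000000000000000000000000000000) := T_25 (nat_lit 157) (nat_lit 140) (nat_lit 4) (nat_lit 5) (nat_lit 12) L7063 (by decide +kernel)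
theorem L7065 : W_25 (nat_lit 11) (nat_lit 0x5000280004001000080000000000000000000000000000000) (nat_lit 0x0) (nat_lit 0x100038001c000f8007800ae0016000b000500000000000000000000000000000000000) := Q_25 (nat_lit 209) (C_25 L7015 (C_25 L7008 (C_25 L6881 (C_25 L7064 N_25)))) (by decide +kernel)
theorem L7066 : W_25 (nat_lit 12) (nat_lit 0x5000280000001000080000000000000000000000000000000) (nat_lit 0x0) (nat_lit 0x100038001c000f8007800ae0017000f000700078001800040000000000000000000000) := Q_25 (nat_lit 158) (C_25 L7059 (C_25 L6976 (C_25 L7061 (C_25 L7045 (C_25 L7058 (C_25 L7065 (C_25 L7030 (C_25 L7051 N_25)))))))) (by decide +kernel)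
theorem L7067 : W_25 (nat_lit 2) (nat_lit 0x700050002800060012000b0000400000000000000000000000000) (nat_lit 0x0) (nat_lit 0x40000800020000000000000000000000) := D_25 (nat_lit 107) (nat_lit 89) (nat_lit 126) (nat_lit 4) (nat_lit 5) (nat_lit 9) (nat_lit 0) (nat_lit 8) (nat_lit 7) (by decide +kernel)
theorem L7068 : W_25 (nat_lit 3) (nat_lit 0x700050002800060012000b0000000000000000000000000000000) (nat_lit 0x0) (nat_lit 0x48000c00020000000000000000000000) := T_25 (nat_lit 106) (nat_lit 123) (nat_lit 4) (nat_lit 5) (nat_lit 10) L7067 (by decide +kernel)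
theorem L7069 : W_25 (nat_lit 4) (nat_lit 0x700050002800060012000a0000000000000000000000000000000) (nat_lit 0x0) (nat_lit 0x58001c00020000000000000000000000) := T_25 (nat_lit 124) (nat_lit 108) (nat_lit 6) (nat_lit 5) (nat_lit 10) L7068 (by decide +kernel)
theorem L7070 : W_25 (nat_lit 5) (nat_lit 0x70005000280006001200080000000000000000000000000000000) (nat_lit 0x0) (nat_lit 0x400078001c00020000000000000000000000) := T_25 (nat_lit 125) (nat_lit 142) (nat_lit 6) (nat_lit 5) (nat_lit 11) L7069 (by decide +kernel)
theorem L7071 : W_25 (nat_lit 6) (nat_lit 0x70005000280006001000080000000000000000000000000000000) (nat_lit 0x0) (nat_lit 0x800000000000600078001c00020000000000000000000000) := T_25 (nat_lit 141) (nat_lit 191) (nat_lit 5) (nat_lit 5) (nat_lit 8) L7070 (by decide +kernel)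
theorem L7072 : W_25 (nat_lit 7) (nat_lit 0x60005000280006001000080000000000000000000000000000000) (nat_lit 0x0) (nat_lit 0x200010000800000000000600078001c00020000000000000000000000) := T_25 (nat_lit 208) (nat_lit 225) (nat_lit 5) (nat_lit 5) (nat_lit 9) L7071 (by decide +kernel)
theorem L7073 : W_25 (nat_lit 8) (nat_lit 0x20005000280006001000080000000000000000000000000000000) (nat_lit 0x0) (nat_lit 0xa00050000800000000000600078001c00020000000000000000000000) := T_25 (nat_lit 210) (nat_lit 227) (nat_lit 7) (nat_lit 5) (nat_lit 9) L7072 (by decide +kernel)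
theorem L7074 : W_25 (nat_lit 9) (nat_lit 0x20005000280004001000080000000000000000000000000000000) (nat_lit 0x0) (nat_lit 0xa00050000800000002000700078001c00020000000000000000000000) := T_25 (nat_lit 157) (nat_lit 140) (nat_lit 4) (nat_lit 5) (nat_lit 12) L7073 (by decide +kernel)
theorem L7076 : W_25 (nat_lit 10) (nat_lit 0x20005000280000001000080000000000000000000000000000000) (nat_lit 0x0) (nat_lit 0xe0005000080010000f000700078001c00020000000000000000000000) := Q_25 (nat_lit 158) (C_25 L7064 (C_25 L6861 (C_25 L7074 (C_25 L7075 N_25)))) (by decide +kernel)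
theorem L7077 : W_25 (nat_lit 2) (nat_lit 0x4000200050002c0000001000080000000000000000000000000000000) (nat_lit 0x0) (nat_lit 0x8000100008000000000000000000000000000000000000000) := D_25 (nat_lit 176) (nat_lit 195) (nat_lit 159) (nat_lit 3) (nat_lit 4) (nat_lit 10) (nat_lit 6) (nat_lit 5) (nat_lit 13) (by decide +kernel)
theorem L7078 : W_25 (nat_lit 3) (nat_lit 0x400020005000280000001000080000000000000000000000000000000) (nat_lit 0x0) (nat_lit 0x800014000a000000000000000000000000000000000000000) := T_25 (nat_lit 174) (nat_lit 157) (nat_lit 4) (nat_lit 5) (nat_lit 13) L7077 (by decide +kernel)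
theorem L7079 : W_25 (nat_lit 5) (nat_lit 0x20005000280000001000080000000000000000000000000000000) (nat_lit 0x0) (nat_lit 0x28001c000e0001000800014000e000100000000000000000000000000000000000) := Q_25 (nat_lit 226) (C_25 L6923 (C_25 L6911 (C_25 L7078 N_25))) (by decide +kernel)
theorem L7080 : W_25 (nat_lit 2) (nat_lit 0x4000200050003c0000001000080000000000000000000000000000000) (nat_lit 0x0) (nat_lit 0x8000000000000c00000000000000000000000000000000000000000000000) := D_25 (nat_lit 191) (nat_lit 243) (nat_lit 190) (nat_lit 4) (nat_lit 5) (nat_lit 14) (nat_lit 1) (nat_lit 7) (nat_lit 10) (by decide +kernel)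
theorem L7081 : W_25 (nat_lit 3) (nat_lit 0x4000200050002c0000001000080000000000000000000000000000000) (nat_lit 0x0) (nat_lit 0x8000000000008c00100000000000000000000000000000000000000000000) := T_25 (nat_lit 176) (nat_lit 195) (nat_lit 3) (nat_lit 4) (nat_lit 10) L7080 (by decide +kernel)
theorem L7082 : W_25 (nat_lit 4) (nat_lit 0x400020005000280000001000080000000000000000000000000000000) (nat_lit 0x0) (nat_lit 0x8000000000008c00140002000000000000000000000000000000000000000) := T_25 (nat_lit 174) (nat_lit 157) (nat_lit 4) (nat_lit 5) (nat_lit 13) L7081 (by decide +kernel)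
theorem L7083 : W_25 (nat_lit 5) (nat_lit 0x20005000280000001000080000000000000000000000000000000) (nat_lit 0x0) (nat_lit 0x28001c000e00010008c00140006000100000000000000000000000000000000000) := Q_25 (nat_lit 226) (C_25 L6923 (C_25 L6911 (C_25 L7082 N_25))) (by decide +kernel)
theorem L7084 : W_25 (nat_lit 5) (nat_lit 0x20005000280000001000080000000000000000000000000000000) (nat_lit 0x0) (nat_lit 0x28001c000e00000008c0014000a000000000000000000000000000000000000000) := Q_25 (nat_lit 226) (C_25 L7082 (C_25 L6923 (C_25 L7078 N_25))) (by decide +kernel)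
theorem L7085 : W_25 (nat_lit 2) (nat_lit 0x200050003c0000001000080000000000000000000000000000000) (nat_lit 0x0) (nat_lit 0x40000000000000000a000000000000000000000000000000000000000) := D_25 (nat_lit 226) (nat_lit 157) (nat_lit 159) (nat_lit 4) (nat_lit 5) (nat_lit 13) (nat_lit 6) (nat_lit 5) (nat_lit 13) (by decide +kernel)
theorem L7086 : W_25 (nat_lit 3) (nat_lit 0x200050002c0000001000080000000000000000000000000000000) (nat_lit 0x0) (nat_lit 0x40000000800010000a000000000000000000000000000000000000000) := T_25 (nat_lit 176) (nat_lit 195) (nat_lit 3) (nat_lit 4) (nat_lit 10) L7085 (by decide +kernel)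
theorem L7087 : W_25 (nat_lit 2) (nat_lit 0x80004000200050002c0000001000080000000000000000000000000000000) (nat_lit 0x0) (nat_lit 0x80004000200000000000000000000000000000000000000000000000000000000) := D_25 (nat_lit 242) (nat_lit 225) (nat_lit 259) (nat_lit 5) (nat_lit 5) (nat_lit 10) (nat_lit 5) (nat_lit 5) (nat_lit 11) (by decide +kernel)
theorem L7088 : W_25 (nat_lit 3) (nat_lit 0x4000200050002c0000001000080000000000000000000000000000000) (nat_lit 0x0) (nat_lit 0x8000c000200000000800000000000000000000000000000000000000000000000) := T_25 (nat_lit 243) (nat_lit 191) (nat_lit 4) (nat_lit 5) (nat_lit 14) L7087 (by decide +kernel)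
theorem L7089 : W_25 (nat_lit 4) (nat_lit 0x200050002c0000001000080000000000000000000000000000000) (nat_lit 0x0) (nat_lit 0x8000c000600000000800000002000000000000000000000000000000000000000) := T_25 (nat_lit 226) (nat_lit 157) (nat_lit 4) (nat_lit 5) (nat_lit 13) L7088 (by decide +kernel)
theorem L7090 : W_25 (nat_lit 2) (nat_lit 0x200050003c0010001000080000000000000000000000000000000) (nat_lit 0x0) (nat_lit 0x400000000000020008000000000000000000000000000000000000000) := D_25 (nat_lit 159) (nat_lit 173) (nat_lit 226) (nat_lit 2) (nat_lit 3) (nat_lit 10) (nat_lit 6) (nat_lit 5) (nat_lit 13) (by decide +kernel)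
theorem L7091 : W_25 (nat_lit 3) (nat_lit 0x200050003c0000001000080000000000000000000000000000000) (nat_lit 0x0) (nat_lit 0x400000000000020038000000000000000000000000000000000000000) := T_25 (nat_lit 160) (nat_lit 161) (nat_lit 2) (nat_lit 4) (nat_lit 10) L7090 (by decide +kernel)
theorem L7092 : W_25 (nat_lit 4) (nat_lit 0x200050002c0000001000080000000000000000000000000000000) (nat_lit 0x0) (nat_lit 0x400000008000120038000000000000000000000000000000000000000) := T_25 (nat_lit 176) (nat_lit 195) (nat_lit 3) (nat_lit 4) (nat_lit 10) L7091 (by decide +kernel)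
theorem L7093 : W_25 (nat_lit 2) (nat_lit 0x200050003e0010001000080000000000000000000000000000000) (nat_lit 0x0) (nat_lit 0xe00000000000000000000000000000000000000000000000) := D_25 (nat_lit 190) (nat_lit 189) (nat_lit 191) (nat_lit 1) (nat_lit 6) (nat_lit 10) (nat_lit 1) (nat_lit 7) (nat_lit 10) (by decide +kernel)
theorem L7094 : W_25 (nat_lit 3) (nat_lit 0x200050003c0010001000080000000000000000000000000000000) (nat_lit 0x0) (nat_lit 0xe00020008000000000000000000000000000000000000000) := T_25 (nat_lit 173) (nat_lit 159) (nat_lit 2) (nat_lit 3) (nat_lit 10) L7093 (by decide +kernel)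
theorem L7095 : W_25 (nat_lit 4) (nat_lit 0x200050003c0000001000080000000000000000000000000000000) (nat_lit 0x0) (nat_lit 0xe00020038000000000000000000000000000000000000000) := T_25 (nat_lit 160) (nat_lit 161) (nat_lit 2) (nat_lit 4) (nat_lit 10) L7094 (by decide +kernel)
theorem L7096 : W_25 (nat_lit 5) (nat_lit 0x200050002c0000001000080000000000000000000000000000000) (nat_lit 0x0) (nat_lit 0x8e00120038000000000000000000000000000000000000000) := T_25 (nat_lit 176) (nat_lit 195) (nat_lit 3) (nat_lit 4) (nat_lit 10) L7095 (by decide +kernel)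
theorem L7097 : W_25 (nat_lit 6) (nat_lit 0x20005000280000001000080000000000000000000000000000000) (nat_lit 0x0) (nat_lit 0x8000c000600000008e0016003a000000000000000000000000000000000000000) := Q_25 (nat_lit 174) (C_25 L7086 (C_25 L7089 (C_25 L7092 (C_25 L7096 N_25)))) (by decide +kernel)
theorem L7098 : W_25 (nat_lit 2) (nat_lit 0x600020005000280004001000080000000000000000000000000000000) (nat_lit 0x0) (nat_lit 0x100008000400000000000000000000000000000000000) := D_25 (nat_lit 159) (nat_lit 176) (nat_lit 142) (nat_lit 6) (nat_lit 5) (nat_lit 13) (nat_lit 6) (nat_lit 5) (nat_lit 12) (by decide +kernel)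
theorem L7099 : W_25 (nat_lit 3) (nat_lit 0x600020005000280000001000080000000000000000000000000000000) (nat_lit 0x0) (nat_lit 0x1000000010000c000400000000000000000000000000000000000) := T_25 (nat_lit 158) (nat_lit 208) (nat_lit 5) (nat_lit 5) (nat_lit 9) L7098 (by decide +kernel)
theorem L7100 : W_25 (nat_lit 4) (nat_lit 0x400020005000280000001000080000000000000000000000000000000) (nat_lit 0x0) (nat_lit 0x400020001000000010000c000400000000000000000000000000000000000) := T_25 (nat_lit 225) (nat_lit 242) (nat_lit 5) (nat_lit 5) (nat_lit 10) L7099 (by decide +kernel)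
theorem L7101 : W_25 (nat_lit 3) (nat_lit 0x400020005000380000001000080000000000000000000000000000000) (nat_lit 0x0) (nat_lit 0x8000000000008c00040000000000000000000000000000000000000000000) := T_25 (nat_lit 174) (nat_lit 195) (nat_lit 3) (nat_lit 4) (nat_lit 10) L7080 (by decide +kernel)
theorem L7102 : W_25 (nat_lit 4) (nat_lit 0x400020005000280000001000080000000000000000000000000000000) (nat_lit 0x0) (nat_lit 0x8000000000008c00140008000000000000000000000000000000000000000) := T_25 (nat_lit 176) (nat_lit 159) (nat_lit 6) (nat_lit 5) (nat_lit 13) L7101 (by decide +kernel)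
theorem L7103 : W_25 (nat_lit 5) (nat_lit 0x20005000280000001000080000000000000000000000000000000) (nat_lit 0x0) (nat_lit 0x28001c000e00010008c0014000c000400000000000000000000000000000000000) := Q_25 (nat_lit 226) (C_25 L6923 (C_25 L7100 (C_25 L7102 N_25))) (by decide +kernel)
theorem L7104 : W_25 (nat_lit 2) (nat_lit 0x700054002a001f001080080000000000000000000000000000000) (nat_lit 0x0) (nat_lit 0xc000200000000000000000000000000000000000000000000000) := D_25 (nat_lit 189) (nat_lit 206) (nat_lit 207) (nat_lit 5) (nat_lit 3) (nat_lit 8) (nat_lit 0) (nat_lit 6) (nat_lit 12) (by decide +kernel)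
theorem L7105 : W_25 (nat_lit 3) (nat_lit 0x700050002a001f001080080000000000000000000000000000000) (nat_lit 0x0) (nat_lit 0xc000e00000000000000000000000000000000000000000000000) := T_25 (nat_lit 190) (nat_lit 191) (nat_lit 7) (nat_lit 3) (nat_lit 8) L7104 (by decide +kernel)
theorem L7106 : W_25 (nat_lit 4) (nat_lit 0x600050002a001f001080080000000000000000000000000000000) (nat_lit 0x0) (nat_lit 0x20001c000e00000000000000000000000000000000000000000000000) := T_25 (nat_lit 208) (nat_lit 225) (nat_lit 5) (nat_lit 5) (nat_lit 9) L7105 (by decide +kernel)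
theorem L7107 : W_25 (nat_lit 5) (nat_lit 0x600050002a000f001080080000000000000000000000000000000) (nat_lit 0x0) (nat_lit 0x20001c000e00040010000000000000000000000000000000000000000) := T_25 (nat_lit 160) (nat_lit 174) (nat_lit 1) (nat_lit 7) (nat_lit 9) L7106 (by decide +kernel)
theorem L7108 : W_25 (nat_lit 6) (nat_lit 0x600050002a000f001000080000000000000000000000000000000) (nat_lit 0x0) (nat_lit 0x20001c000e000400100000c0000000000000000000000000000000000) := T_25 (nat_lit 139) (nat_lit 138) (nat_lit 0) (nat_lit 6) (nat_lit 9) L7107 (by decide +kernel)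
theorem L7109 : W_25 (nat_lit 7) (nat_lit 0x6000500028000f001000080000000000000000000000000000000) (nat_lit 0x0) (nat_lit 0x20001c000e000700100000c0000000000000000000000000000000000) := T_25 (nat_lit 173) (nat_lit 172) (nat_lit 1) (nat_lit 6) (nat_lit 9) L7108 (by decide +kernel)
theorem L7110 : W_25 (nat_lit 8) (nat_lit 0x6000500028000e001000080000000000000000000000000000000) (nat_lit 0x0) (nat_lit 0x20001c000e001700110000c0000000000000000000000000000000000) := T_25 (nat_lit 156) (nat_lit 176) (nat_lit 3) (nat_lit 3) (nat_lit 9) L7109 (by decide +kernel)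
theorem L7111 : W_25 (nat_lit 9) (nat_lit 0x60005000280006001000080000000000000000000000000000000) (nat_lit 0x0) (nat_lit 0x20001c000e001700190004c0000000000000000000000000000000000) := T_25 (nat_lit 159) (nat_lit 142) (nat_lit 6) (nat_lit 5) (nat_lit 12) L7110 (by decide +kernel)
theorem L7112 : W_25 (nat_lit 10) (nat_lit 0x20005000280006001000080000000000000000000000000000000) (nat_lit 0x0) (nat_lit 0xa0005c000e001700190004c0000000000000000000000000000000000) := T_25 (nat_lit 210) (nat_lit 227) (nat_lit 7) (nat_lit 5) (nat_lit 9) L7111 (by decide +kernel)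
theorem L7113 : W_25 (nat_lit 11) (nat_lit 0x20005000280004001000080000000000000000000000000000000) (nat_lit 0x0) (nat_lit 0xa0005c000e0017001b0005c0000000000000000000000000000000000) := T_25 (nat_lit 157) (nat_lit 140) (nat_lit 4) (nat_lit 5) (nat_lit 12) L7112 (by decide +kernel)
theorem L7114 : W_25 (nat_lit 2) (nat_lit 0x700050002e000f001040080000000000000000000000000000000) (nat_lit 0x0) (nat_lit 0xc00020000000000000000000000000000000000) := D_25 (nat_lit 155) (nat_lit 137) (nat_lit 154) (nat_lit 0) (nat_lit 5) (nat_lit 9) (nat_lit 3) (nat_lit 1) (nat_lit 9) (by decide +kernel)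
theorem L7115 : W_25 (nat_lit 3) (nat_lit 0x700050002a000f001040080000000000000000000000000000000) (nat_lit 0x0) (nat_lit 0x40010c00020000000000000000000000000000000000) := T_25 (nat_lit 174) (nat_lit 160) (nat_lit 1) (nat_lit 7) (nat_lit 9) L7114 (by decide +kernel)
theorem L7116 : W_25 (nat_lit 4) (nat_lit 0x700050002a000f001000080000000000000000000000000000000) (nat_lit 0x0) (nat_lit 0x40010c000e0000000000000000000000000000000000) := T_25 (nat_lit 138) (nat_lit 139) (nat_lit 0) (nat_lit 6) (nat_lit 9) L7115 (by decide +kernel)
theorem L7117 : W_25 (nat_lit 5) (nat_lit 0x7000500028000f001000080000000000000000000000000000000) (nat_lit 0x0) (nat_lit 0x70010c000e0000000000000000000000000000000000) := T_25 (nat_lit 173) (nat_lit 172) (nat_lit 1) (nat_lit 6) (nat_lit 9) L7116 (by decide +kernel)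
theorem L7118 : W_25 (nat_lit 6) (nat_lit 0x7000500028000e001000080000000000000000000000000000000) (nat_lit 0x0) (nat_lit 0x170011c000e0000000000000000000000000000000000) := T_25 (nat_lit 156) (nat_lit 176) (nat_lit 3) (nat_lit 3) (nat_lit 9) L7117 (by decide +kernel)
theorem L7119 : W_25 (nat_lit 7) (nat_lit 0x70005000280006001000080000000000000000000000000000000) (nat_lit 0x0) (nat_lit 0x170019c004e0000000000000000000000000000000000) := T_25 (nat_lit 159) (nat_lit 142) (nat_lit 6) (nat_lit 5) (nat_lit 12) L7118 (by decide +kernel)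
theorem L7120 : W_25 (nat_lit 8) (nat_lit 0x30005000280006001000080000000000000000000000000000000) (nat_lit 0x0) (nat_lit 0x800040000000170019c004e0000000000000000000000000000000000) := T_25 (nat_lit 210) (nat_lit 227) (nat_lit 7) (nat_lit 5) (nat_lit 9) L7119 (by decide +kernel)
theorem L7121 : W_25 (nat_lit 9) (nat_lit 0x30005000280004001000080000000000000000000000000000000) (nat_lit 0x0) (nat_lit 0x80004000000017001bc005e0000000000000000000000000000000000) := T_25 (nat_lit 157) (nat_lit 140) (nat_lit 4) (nat_lit 5) (nat_lit 12) L7120 (by decide +kernel)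
theorem L7122 : W_25 (nat_lit 10) (nat_lit 0x20005000280004001000080000000000000000000000000000000) (nat_lit 0x0) (nat_lit 0xa0005000000017001bc005e0000000000000000000000000000000000) := T_25 (nat_lit 208) (nat_lit 225) (nat_lit 5) (nat_lit 5) (nat_lit 9) L7121 (by decide +kernel)
theorem L7123 : W_25 (nat_lit 2) (nat_lit 0x200050002e000f001080080000000000000000000000000000000) (nat_lit 0x0) (nat_lit 0x800000000000000004000200000000000000000000000000) := D_25 (nat_lit 122) (nat_lit 191) (nat_lit 105) (nat_lit 7) (nat_lit 3) (nat_lit 7) (nat_lit 7) (nat_lit 3) (nat_lit 6) (by decide +kernel)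
theorem L7124 : W_25 (nat_lit 3) (nat_lit 0x200050002a000f001080080000000000000000000000000000000) (nat_lit 0x0) (nat_lit 0x800040010000000004000200000000000000000000000000) := T_25 (nat_lit 174) (nat_lit 160) (nat_lit 1) (nat_lit 7) (nat_lit 9) L7123 (by decide +kernel)
theorem L7125 : W_25 (nat_lit 4) (nat_lit 0x200050002a000f001000080000000000000000000000000000000) (nat_lit 0x0) (nat_lit 0x8000400100000c0004000200000000000000000000000000) := T_25 (nat_lit 139) (nat_lit 138) (nat_lit 0) (nat_lit 6) (nat_lit 9) L7124 (by decide +kernel)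
theorem L7126 : W_25 (nat_lit 5) (nat_lit 0x2000500028000f001000080000000000000000000000000000000) (nat_lit 0x0) (nat_lit 0x8000700100000c0004000200000000000000000000000000) := T_25 (nat_lit 173) (nat_lit 172) (nat_lit 1) (nat_lit 6) (nat_lit 9) L7125 (by decide +kernel)
theorem L7127 : W_25 (nat_lit 6) (nat_lit 0x2000500028000e001000080000000000000000000000000000000) (nat_lit 0x0) (nat_lit 0x8001700110000c0004000200000000000000000000000000) := T_25 (nat_lit 156) (nat_lit 176) (nat_lit 3) (nat_lit 3) (nat_lit 9) L7126 (by decide +kernel)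
theorem L7128 : W_25 (nat_lit 7) (nat_lit 0x2000500028000c001000080000000000000000000000000000000) (nat_lit 0x0) (nat_lit 0x8001700130001c0004000200000000000000000000000000) := T_25 (nat_lit 157) (nat_lit 140) (nat_lit 4) (nat_lit 5) (nat_lit 12) L7127 (by decide +kernel)
theorem L7129 : W_25 (nat_lit 8) (nat_lit 0x20005000280004001000080000000000000000000000000000000) (nat_lit 0x0) (nat_lit 0x80017001b0005c0004000200000000000000000000000000) := T_25 (nat_lit 159) (nat_lit 142) (nat_lit 6) (nat_lit 5) (nat_lit 12) L7128 (by decide +kernel)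
theorem L7130 : W_25 (nat_lit 12) (nat_lit 0x20005000280000001000080000000000000000000000000000000) (nat_lit 0x0) (nat_lit 0xa0005c000e0017001fc007e002c000200000000000000000000000000) := Q_25 (nat_lit 158) (C_25 L7075 (C_25 L7113 (C_25 L7122 (C_25 L6861 (C_25 L7129 N_25))))) (by decide +kernel)
theorem L7131 : W_25 (nat_lit 2) (nat_lit 0x600050002c0006001000080000000000000000000000000000000) (nat_lit 0x0) (nat_lit 0x8000100001000000000000000000000000000000000000000) := D_25 (nat_lit 176) (nat_lit 195) (nat_lit 156) (nat_lit 3) (nat_lit 4) (nat_lit 10) (nat_lit 0) (nat_lit 7) (nat_lit 10) (by decide +kernel)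
theorem L7132 : W_25 (nat_lit 3) (nat_lit 0x60005000280006001000080000000000000000000000000000000) (nat_lit 0x0) (nat_lit 0x400000008000140001000000000000000000000000000000000000000) := T_25 (nat_lit 174) (nat_lit 226) (nat_lit 4) (nat_lit 5) (nat_lit 13) L7131 (by decide +kernel)
theorem L7133 : W_25 (nat_lit 4) (nat_lit 0x20005000280006001000080000000000000000000000000000000) (nat_lit 0x0) (nat_lit 0xc00040008000140001000000000000000000000000000000000000000) := T_25 (nat_lit 210) (nat_lit 227) (nat_lit 7) (nat_lit 5) (nat_lit 9) L7132 (by decide +kernel)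
theorem L7134 : W_25 (nat_lit 5) (nat_lit 0x20005000280004001000080000000000000000000000000000000) (nat_lit 0x0) (nat_lit 0xc00040008000140003000100000000000000000000000000000000000) := T_25 (nat_lit 157) (nat_lit 140) (nat_lit 4) (nat_lit 5) (nat_lit 12) L7133 (by decide +kernel)
theorem L7135 : W_25 (nat_lit 2) (nat_lit 0x2800080004000600050002d002c001000080000000000000000000000000000000) (nat_lit 0x0) (nat_lit 0x5000100000000000000000000000000000000000000000000000000000000000000000) := D_25 (nat_lit 260) (nat_lit 278) (nat_lit 276) (nat_lit 7) (nat_lit 5) (nat_lit 12) (nat_lit 5) (nat_lit 5) (nat_lit 12) (by decide +kernel)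
theorem L7136 : W_25 (nat_lit 3) (nat_lit 0x2000080004000600050002d002c001000080000000000000000000000000000000) (nat_lit 0x0) (nat_lit 0x5000180004000000000000000000000000000000000000000000000000000000000000) := T_25 (nat_lit 259) (nat_lit 242) (nat_lit 5) (nat_lit 5) (nat_lit 11) L7135 (by decide +kernel)
theorem L7137 : W_25 (nat_lit 4) (nat_lit 0x80004000600050002d002c001000080000000000000000000000000000000) (nat_lit 0x0) (nat_lit 0x5000380014000000000000000000000000000000000000000000000000000000000000) := T_25 (nat_lit 261) (nat_lit 244) (nat_lit 7) (nat_lit 5) (nat_lit 11) L7136 (by decide +kernel)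
theorem L7138 : W_25 (nat_lit 5) (nat_lit 0x80004000600050002d000c001000080000000000000000000000000000000) (nat_lit 0x0) (nat_lit 0x5000380014000000000000000000030000000000000000000000000000000000000000) := T_25 (nat_lit 161) (nat_lit 160) (nat_lit 1) (nat_lit 8) (nat_lit 9) L7137 (by decide +kernel)
theorem L7139 : W_25 (nat_lit 6) (nat_lit 0x4000600050002d000c001000080000000000000000000000000000000) (nat_lit 0x0) (nat_lit 0x500038001c000000000000800000030000000000000000000000000000000000000000) := T_25 (nat_lit 243) (nat_lit 191) (nat_lit 4) (nat_lit 5) (nat_lit 14) L7138 (by decide +kernel)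
theorem L7140 : W_25 (nat_lit 7) (nat_lit 0x4000600050002c000c001000080000000000000000000000000000000) (nat_lit 0x0) (nat_lit 0x500038001c000000000000800030030000000000000000000000000000000000000000) := T_25 (nat_lit 172) (nat_lit 173) (nat_lit 2) (nat_lit 2) (nat_lit 10) L7139 (by decide +kernel)
theorem L7141 : W_25 (nat_lit 8) (nat_lit 0x40006000500028000c001000080000000000000000000000000000000) (nat_lit 0x0) (nat_lit 0x500038001c000000000000800070032000000000000000000000000000000000000000) := T_25 (nat_lit 174) (nat_lit 157) (nat_lit 4) (nat_lit 5) (nat_lit 13) L7140 (by decide +kernel)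
theorem L7142 : W_25 (nat_lit 9) (nat_lit 0x6000500028000c001000080000000000000000000000000000000) (nat_lit 0x0) (nat_lit 0x500038001c000400000000800170032000000000000000000000000000000000000000) := T_25 (nat_lit 226) (nat_lit 176) (nat_lit 6) (nat_lit 5) (nat_lit 13) L7141 (by decide +kernel)
theorem L7143 : W_25 (nat_lit 10) (nat_lit 0x2000500028000c001000080000000000000000000000000000000) (nat_lit 0x0) (nat_lit 0x500038001c000c00040000800170032000000000000000000000000000000000000000) := T_25 (nat_lit 210) (nat_lit 227) (nat_lit 7) (nat_lit 5) (nat_lit 9) L7142 (by decide +kernel)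
theorem L7144 : W_25 (nat_lit 11) (nat_lit 0x20005000280004001000080000000000000000000000000000000) (nat_lit 0x0) (nat_lit 0x500038001c000c0004000080017003a000400000000000000000000000000000000000) := T_25 (nat_lit 159) (nat_lit 142) (nat_lit 6) (nat_lit 5) (nat_lit 12) L7143 (by decide +kernel)
theorem L7145 : W_25 (nat_lit 2) (nat_lit 0x600050003c000c001000080000000000000000000000000000000) (nat_lit 0x0) (nat_lit 0x20030000000000000000000000000000000000000000) := D_25 (nat_lit 160) (nat_lit 161) (nat_lit 173) (nat_lit 2) (nat_lit 4) (nat_lit 10) (nat_lit 2) (nat_lit 3) (nat_lit 10) (by decide +kernel)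
theorem L7146 : W_25 (nat_lit 3) (nat_lit 0x6000500038000c001000080000000000000000000000000000000) (nat_lit 0x0) (nat_lit 0x8000060030000000000000000000000000000000000000000) := T_25 (nat_lit 174) (nat_lit 195) (nat_lit 3) (nat_lit 4) (nat_lit 10) L7145 (by decide +kernel)
theorem L7147 : W_25 (nat_lit 4) (nat_lit 0x6000500028000c001000080000000000000000000000000000000) (nat_lit 0x0) (nat_lit 0x400000008000160030000000000000000000000000000000000000000) := T_25 (nat_lit 176) (nat_lit 226) (nat_lit 6) (nat_lit 5) (nat_lit 13) L7146 (by decide +kernel)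
theorem L7148 : W_25 (nat_lit 5) (nat_lit 0x2000500028000c001000080000000000000000000000000000000) (nat_lit 0x0) (nat_lit 0xc00040008000160030000000000000000000000000000000000000000) := T_25 (nat_lit 210) (nat_lit 227) (nat_lit 7) (nat_lit 5) (nat_lit 9) L7147 (by decide +kernel)
theorem L7149 : W_25 (nat_lit 6) (nat_lit 0x20005000280004001000080000000000000000000000000000000) (nat_lit 0x0) (nat_lit 0xc00040008000160038000400000000000000000000000000000000000) := T_25 (nat_lit 159) (nat_lit 142) (nat_lit 6) (nat_lit 5) (nat_lit 12) L7148 (by decide +kernel)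
theorem L7150 : W_25 (nat_lit 12) (nat_lit 0x20005000280000001000080000000000000000000000000000000) (nat_lit 0x0) (nat_lit 0x500038001c000c0004000880017003f0005c0004000200000000000000000000000000) := Q_25 (nat_lit 158) (C_25 L7129 (C_25 L7064 (C_25 L6940 (C_25 L7134 (C_25 L7144 (C_25 L7149 N_25)))))) (by decide +kernel)
theorem L7151 : W_25 (nat_lit 13) (nat_lit 0x5000280000001000080000000000000000000000000000000) (nat_lit 0x0) (nat_lit 0x500038001c000e0007c008e0017003fc007e007c001e00020000000000000000000000) := Q_25 (nat_lit 209) (C_25 L7076 (C_25 L6867 (C_25 L7079 (C_25 L7083 (C_25 L7084 (C_25 L7097 (C_25 L7103 (C_25 L7130 (C_25 L7150 N_25))))))))) (by decide +kernel)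
theorem L7152 : W_25 (nat_lit 2) (nat_lit 0x70002c0000001000080000000000000000000000000000000) (nat_lit 0x0) (nat_lit 0x800030000000000000000000000000000000000000000000) := D_25 (nat_lit 173) (nat_lit 191) (nat_lit 172) (nat_lit 0) (nat_lit 7) (nat_lit 11) (nat_lit 3) (nat_lit 2) (nat_lit 10) (by decide +kernel)
theorem L7153 : W_25 (nat_lit 3) (nat_lit 0x50002c0000001000080000000000000000000000000000000) (nat_lit 0x0) (nat_lit 0xa800030000000000000000000000000000000000000000000) := T_25 (nat_lit 193) (nat_lit 195) (nat_lit 0) (nat_lit 8) (nat_lit 11) L7152 (by decide +kernel)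
theorem L7154 : W_25 (nat_lit 2) (nat_lit 0x50003e0010001000080000000000000000000000000000000) (nat_lit 0x0) (nat_lit 0xe00000000000000000000000000000000000000000000000) := D_25 (nat_lit 190) (nat_lit 189) (nat_lit 191) (nat_lit 1) (nat_lit 6) (nat_lit 10) (nat_lit 1) (nat_lit 7) (nat_lit 10) (by decide +kernel)
theorem L7155 : W_25 (nat_lit 3) (nat_lit 0x50003c0010001000080000000000000000000000000000000) (nat_lit 0x0) (nat_lit 0xe00020008000000000000000000000000000000000000000) := T_25 (nat_lit 173) (nat_lit 159) (nat_lit 2) (nat_lit 3) (nat_lit 10) L7154 (by decide +kernel)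
theorem L7156 : W_25 (nat_lit 4) (nat_lit 0x50003c0000001000080000000000000000000000000000000) (nat_lit 0x0) (nat_lit 0xe00020038000000000000000000000000000000000000000) := T_25 (nat_lit 160) (nat_lit 161) (nat_lit 2) (nat_lit 4) (nat_lit 10) L7155 (by decide +kernel)
theorem L7157 : W_25 (nat_lit 5) (nat_lit 0x50002c0000001000080000000000000000000000000000000) (nat_lit 0x0) (nat_lit 0x8e00120038000000000000000000000000000000000000000) := T_25 (nat_lit 176) (nat_lit 195) (nat_lit 3) (nat_lit 4) (nat_lit 10) L7156 (by decide +kernel)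
theorem L7158 : W_25 (nat_lit 2) (nat_lit 0x78003c0002001000080000000000000000000000000000000) (nat_lit 0x0) (nat_lit 0x400020000000000000000100000000000000000000000000000000000) := D_25 (nat_lit 209) (nat_lit 226) (nat_lit 140) (nat_lit 4) (nat_lit 5) (nat_lit 13) (nat_lit 7) (nat_lit 4) (nat_lit 8) (by decide +kernel)
theorem L7159 : W_25 (nat_lit 3) (nat_lit 0x78003c0000001000080000000000000000000000000000000) (nat_lit 0x0) (nat_lit 0x400020000000000003000100000000000000000000000000000000000) := T_25 (nat_lit 157) (nat_lit 156) (nat_lit 0) (nat_lit 7) (nat_lit 10) L7158 (by decide +kernel)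
theorem L7160 : W_25 (nat_lit 4) (nat_lit 0x78002c0000001000080000000000000000000000000000000) (nat_lit 0x0) (nat_lit 0x400020000400100003000100000000000000000000000000000000000) := T_25 (nat_lit 176) (nat_lit 190) (nat_lit 2) (nat_lit 3) (nat_lit 11) L7159 (by decide +kernel)
theorem L7161 : W_25 (nat_lit 5) (nat_lit 0x58002c0000001000080000000000000000000000000000000) (nat_lit 0x0) (nat_lit 0x400020002400120003000100000000000000000000000000000000000) := T_25 (nat_lit 193) (nat_lit 173) (nat_lit 0) (nat_lit 7) (nat_lit 11) L7160 (by decide +kernel)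
theorem L7162 : W_25 (nat_lit 2) (nat_lit 0x100078002c0000001000080000000000000000000000000000000) (nat_lit 0x0) (nat_lit 0x200000000000000004000200000000000000000000000000000000000) := D_25 (nat_lit 158) (nat_lit 141) (nat_lit 225) (nat_lit 5) (nat_lit 5) (nat_lit 8) (nat_lit 6) (nat_lit 4) (nat_lit 13) (by decide +kernel)
theorem L7163 : W_25 (nat_lit 3) (nat_lit 0x78002c0000001000080000000000000000000000000000000) (nat_lit 0x0) (nat_lit 0x200018000000000004000200000000000000000000000000000000000) := T_25 (nat_lit 208) (nat_lit 207) (nat_lit 1) (nat_lit 7) (nat_lit 11) L7162 (by decide +kernel)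
theorem L7164 : W_25 (nat_lit 4) (nat_lit 0x58002c0000001000080000000000000000000000000000000) (nat_lit 0x0) (nat_lit 0x200018002000020004000200000000000000000000000000000000000) := T_25 (nat_lit 193) (nat_lit 173) (nat_lit 0) (nat_lit 7) (nat_lit 11) L7163 (by decide +kernel)
theorem L7168 : W_25 (nat_lit 6) (nat_lit 0x50002c0000001000080000000000000000000000000000000) (nat_lit 0x0) (nat_lit 0x600038002c00120007000300000000000000000000000000000000000) := Q_25 (nat_lit 191) (C_25 L7161 (C_25 L7164 (C_25 L7167 N_25))) (by decide +kernel)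
theorem L7169 : W_25 (nat_lit 2) (nat_lit 0x50002c0000001000080000000000000000000000000000000) (nat_lit 0x0) (nat_lit 0xa000100000000000000000000000000000000000000000000) := D_25 (nat_lit 195) (nat_lit 193) (nat_lit 176) (nat_lit 0) (nat_lit 8) (nat_lit 11) (nat_lit 3) (nat_lit 4) (nat_lit 10) (by decide +kernel)
theorem L7170 : W_25 (nat_lit 7) (nat_lit 0x5000280000001000080000000000000000000000000000000) (nat_lit 0x0) (nat_lit 0x60003800ae0017003f000300000000000000000000000000000000000) := Q_25 (nat_lit 174) (C_25 L7153 (C_25 L7157 (C_25 L7168 (C_25 L7169 N_25)))) (by decide +kernel)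
theorem L7171 : W_25 (nat_lit 2) (nat_lit 0x58003c0012001000080000000000000000000000000000000) (nat_lit 0x0) (nat_lit 0x400020000000000000000100000000000000000000000000000000000) := D_25 (nat_lit 209) (nat_lit 226) (nat_lit 140) (nat_lit 4) (nat_lit 5) (nat_lit 13) (nat_lit 7) (nat_lit 4) (nat_lit 8) (by decide +kernel)
theorem L7172 : W_25 (nat_lit 3) (nat_lit 0x58003c0010001000080000000000000000000000000000000) (nat_lit 0x0) (nat_lit 0x400020000000000003000100000000000000000000000000000000000) := T_25 (nat_lit 157) (nat_lit 156) (nat_lit 0) (nat_lit 7) (nat_lit 10) L7171 (by decide +kernel)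
theorem L7173 : W_25 (nat_lit 4) (nat_lit 0x50003c0010001000080000000000000000000000000000000) (nat_lit 0x0) (nat_lit 0x400020000c00000003000100000000000000000000000000000000000) := T_25 (nat_lit 191) (nat_lit 190) (nat_lit 1) (nat_lit 7) (nat_lit 10) L7172 (by decide +kernel)
theorem L7174 : W_25 (nat_lit 5) (nat_lit 0x50003c0000001000080000000000000000000000000000000) (nat_lit 0x0) (nat_lit 0x400020000c00000033000100000000000000000000000000000000000) := T_25 (nat_lit 160) (nat_lit 161) (nat_lit 2) (nat_lit 4) (nat_lit 10) L7173 (by decide +kernel)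
theorem L7175 : W_25 (nat_lit 6) (nat_lit 0x50002c0000001000080000000000000000000000000000000) (nat_lit 0x0) (nat_lit 0x400020008c00100033000100000000000000000000000000000000000) := T_25 (nat_lit 176) (nat_lit 195) (nat_lit 3) (nat_lit 4) (nat_lit 10) L7174 (by decide +kernel)
theorem L7176 : W_25 (nat_lit 7) (nat_lit 0x5000280000001000080000000000000000000000000000000) (nat_lit 0x0) (nat_lit 0x60003800ac00170037000300000000000000000000000000000000000) := Q_25 (nat_lit 174) (C_25 L7153 (C_25 L7169 (C_25 L7175 (C_25 L7168 N_25)))) (by decide +kernel)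
theorem L7177 : W_25 (nat_lit 5) (nat_lit 0x5000280004001000080000000000000000000000000000000) (nat_lit 0x0) (nat_lit 0xa0007800a80000000a000700028000000000000000000000000000000) := Q_25 (nat_lit 209) (C_25 L7075 (C_25 L6884 (C_25 L6838 N_25))) (by decide +kernel)
theorem L7178 : W_25 (nat_lit 6) (nat_lit 0x5000280004001000080000000000000000000000000000000) (nat_lit 0x0) (nat_lit 0x4000e0007000080010000b000700008000000000000000000000000000000) := Q_25 (nat_lit 209) (C_25 L7075 (C_25 L7064 (C_25 L7008 N_25))) (by decide +kernel)
theorem L7179 : W_25 (nat_lit 5) (nat_lit 0x5000280004001000080000000000000000000000000000000) (nat_lit 0x0) (nat_lit 0xe0007800a00010000b000500000000000000000000000000000000000) := Q_25 (nat_lit 209) (C_25 L7064 (C_25 L6884 N_25)) (by decide +kernel)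
theorem L7180 : W_25 (nat_lit 2) (nat_lit 0x1400040002000580028000c001340080000000000000000000000000000000) (nat_lit 0x0) (nat_lit 0x280008000000000000000000000000000000000000000000000000000000000000) := D_25 (nat_lit 243) (nat_lit 259) (nat_lit 261) (nat_lit 5) (nat_lit 5) (nat_lit 11) (nat_lit 7) (nat_lit 5) (nat_lit 11) (by decide +kernel)
theorem L7181 : W_25 (nat_lit 3) (nat_lit 0x400040002000580028000c001340080000000000000000000000000000000) (nat_lit 0x0) (nat_lit 0x280018000800000000000000000000000000000000000000000000000000000000) := T_25 (nat_lit 244) (nat_lit 227) (nat_lit 7) (nat_lit 5) (nat_lit 10) L7180 (by decide +kernel)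
theorem L7182 : W_25 (nat_lit 4) (nat_lit 0x40002000580028000c001340080000000000000000000000000000000) (nat_lit 0x0) (nat_lit 0x28001c000a00000000000000000000000000000000000000000000000000000000) := T_25 (nat_lit 242) (nat_lit 225) (nat_lit 5) (nat_lit 5) (nat_lit 10) L7181 (by decide +kernel)
theorem L7183 : W_25 (nat_lit 5) (nat_lit 0x2000580028000c001340080000000000000000000000000000000) (nat_lit 0x0) (nat_lit 0x28001c000e00000000000100000000000000000000000000000000000000000000) := T_25 (nat_lit 226) (nat_lit 176) (nat_lit 6) (nat_lit 5) (nat_lit 13) L7182 (by decide +kernel)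
theorem L7184 : W_25 (nat_lit 6) (nat_lit 0x2000580028000c001300080000000000000000000000000000000) (nat_lit 0x0) (nat_lit 0x28001c000e000000000001000000000c0000000000000000000000000000000000) := T_25 (nat_lit 138) (nat_lit 139) (nat_lit 3) (nat_lit 2) (nat_lit 8) L7183 (by decide +kernel)
theorem L7185 : W_25 (nat_lit 7) (nat_lit 0x20005800280004001300080000000000000000000000000000000) (nat_lit 0x0) (nat_lit 0x28001c000e000000000001000080004c0000000000000000000000000000000000) := T_25 (nat_lit 159) (nat_lit 142) (nat_lit 6) (nat_lit 5) (nat_lit 12) L7184 (by decide +kernel)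
theorem L7186 : W_25 (nat_lit 8) (nat_lit 0x5800280004001300080000000000000000000000000000000) (nat_lit 0x0) (nat_lit 0x28001c000e0002000000010000a0004c0000000000000000000000000000000000) := T_25 (nat_lit 209) (nat_lit 157) (nat_lit 4) (nat_lit 5) (nat_lit 12) L7185 (by decide +kernel)
theorem L7187 : W_25 (nat_lit 9) (nat_lit 0x5000280004001300080000000000000000000000000000000) (nat_lit 0x0) (nat_lit 0x28001c000e0003000080010000a0004c0000000000000000000000000000000000) := T_25 (nat_lit 191) (nat_lit 208) (nat_lit 5) (nat_lit 5) (nat_lit 8) L7186 (by decide +kernel)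
theorem L7188 : W_25 (nat_lit 10) (nat_lit 0x5000280004001200080000000000000000000000000000000) (nat_lit 0x0) (nat_lit 0x28001c000e0003000080010000a0005c0008000000000000000000000000000000) := T_25 (nat_lit 140) (nat_lit 123) (nat_lit 4) (nat_lit 5) (nat_lit 11) L7187 (by decide +kernel)
theorem L7189 : W_25 (nat_lit 2) (nat_lit 0x10005000280004001300080000000000000000000000000000000) (nat_lit 0x0) (nat_lit 0x200020000000000002000000000000000000000000000000000000000) := D_25 (nat_lit 209) (nat_lit 157) (nat_lit 225) (nat_lit 4) (nat_lit 5) (nat_lit 12) (nat_lit 5) (nat_lit 5) (nat_lit 9) (by decide +kernel)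
theorem L7190 : W_25 (nat_lit 3) (nat_lit 0x5000280004001300080000000000000000000000000000000) (nat_lit 0x0) (nat_lit 0x200030000800000002000000000000000000000000000000000000000) := T_25 (nat_lit 208) (nat_lit 191) (nat_lit 5) (nat_lit 5) (nat_lit 8) L7189 (by decide +kernel)
theorem L7191 : W_25 (nat_lit 4) (nat_lit 0x5000280004001200080000000000000000000000000000000) (nat_lit 0x0) (nat_lit 0x200030000800000002000100008000000000000000000000000000000) := T_25 (nat_lit 140) (nat_lit 123) (nat_lit 4) (nat_lit 5) (nat_lit 11) L7190 (by decide +kernel)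
theorem L7192 : W_25 (nat_lit 2) (nat_lit 0x58002800040013000a0000000000000000000000000000000) (nat_lit 0x0) (nat_lit 0x50001000000000000000000000000000) := D_25 (nat_lit 124) (nat_lit 108) (nat_lit 126) (nat_lit 6) (nat_lit 5) (nat_lit 10) (nat_lit 1) (nat_lit 8) (nat_lit 7) (by decide +kernel)
theorem L7193 : W_25 (nat_lit 3) (nat_lit 0x5800280004001300080000000000000000000000000000000) (nat_lit 0x0) (nat_lit 0x400070001000000000000000000000000000) := T_25 (nat_lit 125) (nat_lit 142) (nat_lit 6) (nat_lit 5) (nat_lit 11) L7192 (by decide +kernel)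
theorem L7194 : W_25 (nat_lit 4) (nat_lit 0x5000280004001300080000000000000000000000000000000) (nat_lit 0x0) (nat_lit 0x10000800000000000400070001000000000000000000000000000) := T_25 (nat_lit 191) (nat_lit 208) (nat_lit 5) (nat_lit 5) (nat_lit 8) L7193 (by decide +kernel)
theorem L7195 : W_25 (nat_lit 5) (nat_lit 0x5000280004001200080000000000000000000000000000000) (nat_lit 0x0) (nat_lit 0x10000800000000000500078001000000000000000000000000000) := T_25 (nat_lit 140) (nat_lit 123) (nat_lit 4) (nat_lit 5) (nat_lit 11) L7194 (by decide +kernel)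
theorem L7196 : W_25 (nat_lit 2) (nat_lit 0x10005000280004001600080000000000000000000000000000000) (nat_lit 0x0) (nat_lit 0x200020000000000008000000000000000000000000000000000000000) := D_25 (nat_lit 209) (nat_lit 159) (nat_lit 225) (nat_lit 6) (nat_lit 5) (nat_lit 12) (nat_lit 5) (nat_lit 5) (nat_lit 9) (by decide +kernel)
theorem L7197 : W_25 (nat_lit 3) (nat_lit 0x5000280004001600080000000000000000000000000000000) (nat_lit 0x0) (nat_lit 0x200030000800000008000000000000000000000000000000000000000) := T_25 (nat_lit 208) (nat_lit 191) (nat_lit 5) (nat_lit 5) (nat_lit 8) L7196 (by decide +kernel)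
theorem L7198 : W_25 (nat_lit 4) (nat_lit 0x5000280004001200080000000000000000000000000000000) (nat_lit 0x0) (nat_lit 0x200030000800000008000400020000000000000000000000000000000) := T_25 (nat_lit 142) (nat_lit 125) (nat_lit 6) (nat_lit 5) (nat_lit 11) L7197 (by decide +kernel)
theorem L7199 : W_25 (nat_lit 11) (nat_lit 0x5000280004001000080000000000000000000000000000000) (nat_lit 0x0) (nat_lit 0x28001c000e0003000080010000a0007c0078001000000000000000000000000000) := Q_25 (nat_lit 141) (C_25 L6990 (C_25 L7188 (C_25 L7191 (C_25 L6967 (C_25 L7195 (C_25 L7198 N_25)))))) (by decide +kernel)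
theorem L7200 : W_25 (nat_lit 2) (nat_lit 0x8000c00020005000380006001000080000000000000000000000000000000) (nat_lit 0x0) (nat_lit 0x80004000200000000000000000000000000000000000000000000000000000000) := D_25 (nat_lit 242) (nat_lit 259) (nat_lit 225) (nat_lit 5) (nat_lit 5) (nat_lit 11) (nat_lit 5) (nat_lit 5) (nat_lit 10) (by decide +kernel)
theorem L7201 : W_25 (nat_lit 3) (nat_lit 0xc00020005000380006001000080000000000000000000000000000000) (nat_lit 0x0) (nat_lit 0x8000c000200000002000000000000000000000000000000000000000000000000) := T_25 (nat_lit 243) (nat_lit 193) (nat_lit 6) (nat_lit 5) (nat_lit 14) L7200 (by decide +kernel)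
theorem L7202 : W_25 (nat_lit 4) (nat_lit 0xc00020005000280006001000080000000000000000000000000000000) (nat_lit 0x0) (nat_lit 0x8000c000200000002000100008000000000000000000000000000000000000000) := T_25 (nat_lit 176) (nat_lit 159) (nat_lit 6) (nat_lit 5) (nat_lit 13) L7201 (by decide +kernel)
theorem L7203 : W_25 (nat_lit 5) (nat_lit 0x800020005000280006001000080000000000000000000000000000000) (nat_lit 0x0) (nat_lit 0x8001c000600000002000100008000000000000000000000000000000000000000) := T_25 (nat_lit 226) (nat_lit 244) (nat_lit 7) (nat_lit 5) (nat_lit 10) L7202 (by decide +kernel)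
theorem L7204 : W_25 (nat_lit 6) (nat_lit 0x20005000280006001000080000000000000000000000000000000) (nat_lit 0x0) (nat_lit 0x8001c000e00040002000100008000000000000000000000000000000000000000) := T_25 (nat_lit 227) (nat_lit 210) (nat_lit 7) (nat_lit 5) (nat_lit 9) L7203 (by decide +kernel)
theorem L7205 : W_25 (nat_lit 7) (nat_lit 0x20005000280004001000080000000000000000000000000000000) (nat_lit 0x0) (nat_lit 0x8001c000e0004000200010000a000100000000000000000000000000000000000) := T_25 (nat_lit 157) (nat_lit 140) (nat_lit 4) (nat_lit 5) (nat_lit 12) L7204 (by decide +kernel)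
theorem L7206 : W_25 (nat_lit 2) (nat_lit 0x60005000280004001200080000000000000000000000000000000) (nat_lit 0x0) (nat_lit 0x2000100008000000000000000000000000000000) := D_25 (nat_lit 140) (nat_lit 157) (nat_lit 123) (nat_lit 4) (nat_lit 5) (nat_lit 12) (nat_lit 4) (nat_lit 5) (nat_lit 11) (by decide +kernel)
theorem L7207 : W_25 (nat_lit 3) (nat_lit 0x60005000280004001000080000000000000000000000000000000) (nat_lit 0x0) (nat_lit 0x2000000002000300008000000000000000000000000000000) := T_25 (nat_lit 141) (nat_lit 193) (nat_lit 7) (nat_lit 5) (nat_lit 8) L7206 (by decide +kernel)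
theorem L7208 : W_25 (nat_lit 4) (nat_lit 0x20005000280004001000080000000000000000000000000000000) (nat_lit 0x0) (nat_lit 0x800040002000000002000300008000000000000000000000000000000) := T_25 (nat_lit 210) (nat_lit 227) (nat_lit 7) (nat_lit 5) (nat_lit 9) L7207 (by decide +kernel)
theorem L7209 : W_25 (nat_lit 8) (nat_lit 0x5000280004001000080000000000000000000000000000000) (nat_lit 0x0) (nat_lit 0x8001c000e0007800a80010000a000300008000000000000000000000000000000) := Q_25 (nat_lit 209) (C_25 L7075 (C_25 L6884 (C_25 L7205 (C_25 L7208 N_25)))) (by decide +kernel)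
theorem L7210 : W_25 (nat_lit 2) (nat_lit 0x7000380004001300080000000000000000000000000000000) (nat_lit 0x0) (nat_lit 0x10000c00000000000000000000000000000000000000000000000) := D_25 (nat_lit 191) (nat_lit 208) (nat_lit 190) (nat_lit 5) (nat_lit 5) (nat_lit 8) (nat_lit 2) (nat_lit 3) (nat_lit 11) (by decide +kernel)
theorem L7211 : W_25 (nat_lit 3) (nat_lit 0x7000280004001300080000000000000000000000000000000) (nat_lit 0x0) (nat_lit 0x10000c00100000000000010000000000000000000000000000000) := T_25 (nat_lit 176) (nat_lit 124) (nat_lit 7) (nat_lit 5) (nat_lit 7) L7210 (by decide +kernel)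
theorem L7212 : W_25 (nat_lit 4) (nat_lit 0x5000280004001300080000000000000000000000000000000) (nat_lit 0x0) (nat_lit 0x50002c00100000000000010000000000000000000000000000000) := T_25 (nat_lit 193) (nat_lit 210) (nat_lit 7) (nat_lit 5) (nat_lit 8) L7211 (by decide +kernel)
theorem L7213 : W_25 (nat_lit 5) (nat_lit 0x5000280004001200080000000000000000000000000000000) (nat_lit 0x0) (nat_lit 0x50002c00100000000100018000000000000000000000000000000) := T_25 (nat_lit 140) (nat_lit 123) (nat_lit 4) (nat_lit 5) (nat_lit 11) L7212 (by decide +kernel)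
theorem L7214 : W_25 (nat_lit 2) (nat_lit 0x8007c002a0005001700080000000000000000000000000000000) (nat_lit 0x0) (nat_lit 0x8000c0000000000000000000000000000000000) := D_25 (nat_lit 155) (nat_lit 138) (nat_lit 139) (nat_lit 4) (nat_lit 3) (nat_lit 12) (nat_lit 1) (nat_lit 6) (nat_lit 8) (by decide +kernel)
theorem L7215 : W_25 (nat_lit 3) (nat_lit 0x8007c002a0004001700080000000000000000000000000000000) (nat_lit 0x0) (nat_lit 0x38000c0000000000000000000000000000000000) := T_25 (nat_lit 156) (nat_lit 157) (nat_lit 6) (nat_lit 3) (nat_lit 12) L7214 (by decide +kernel)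
theorem L7216 : W_25 (nat_lit 4) (nat_lit 0x8007c00280004001700080000000000000000000000000000000) (nat_lit 0x0) (nat_lit 0x300038000c0000000000000000000000000000000000) := T_25 (nat_lit 173) (nat_lit 172) (nat_lit 0) (nat_lit 6) (nat_lit 11) L7215 (by decide +kernel)
theorem L7217 : W_25 (nat_lit 5) (nat_lit 0x7c00280004001700080000000000000000000000000000000) (nat_lit 0x0) (nat_lit 0xc0000000300038000c0000000000000000000000000000000000) := T_25 (nat_lit 207) (nat_lit 206) (nat_lit 1) (nat_lit 6) (nat_lit 11) L7216 (by decide +kernel)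
theorem L7218 : W_25 (nat_lit 6) (nat_lit 0x7800280004001700080000000000000000000000000000000) (nat_lit 0x0) (nat_lit 0xc0004001300038000c0000000000000000000000000000000000) := T_25 (nat_lit 190) (nat_lit 176) (nat_lit 2) (nat_lit 3) (nat_lit 11) L7217 (by decide +kernel)
theorem L7219 : W_25 (nat_lit 7) (nat_lit 0x5800280004001700080000000000000000000000000000000) (nat_lit 0x0) (nat_lit 0x4c0024001300038000c0000000000000000000000000000000000) := T_25 (nat_lit 193) (nat_lit 210) (nat_lit 7) (nat_lit 5) (nat_lit 8) L7218 (by decide +kernel)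
theorem L7220 : W_25 (nat_lit 8) (nat_lit 0x5800280004001600080000000000000000000000000000000) (nat_lit 0x0) (nat_lit 0x4c0024001300038001c0008000000000000000000000000000000) := T_25 (nat_lit 140) (nat_lit 123) (nat_lit 4) (nat_lit 5) (nat_lit 11) L7219 (by decide +kernel)
theorem L7221 : W_25 (nat_lit 9) (nat_lit 0x5800280004001200080000000000000000000000000000000) (nat_lit 0x0) (nat_lit 0x4c0024001300038005c0028000000000000000000000000000000) := T_25 (nat_lit 142) (nat_lit 125) (nat_lit 6) (nat_lit 5) (nat_lit 11) L7220 (by decide +kernel)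
theorem L7222 : W_25 (nat_lit 10) (nat_lit 0x5000280004001200080000000000000000000000000000000) (nat_lit 0x0) (nat_lit 0x5c002c001300038005c0028000000000000000000000000000000) := T_25 (nat_lit 191) (nat_lit 208) (nat_lit 5) (nat_lit 5) (nat_lit 8) L7221 (by decide +kernel)
theorem L7223 : W_25 (nat_lit 11) (nat_lit 0x5000280004001000080000000000000000000000000000000) (nat_lit 0x0) (nat_lit 0x5c002c001300038007c0078001000000000000000000000000000) := Q_25 (nat_lit 141) (C_25 L7195 (C_25 L6993 (C_25 L7213 (C_25 L7222 N_25)))) (by decide +kernel)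
theorem L7224 : W_25 (nat_lit 2) (nat_lit 0x20007000380004001300080000000000000000000000000000000) (nat_lit 0x0) (nat_lit 0x400000000000000008000400000000000000000000000000000000000) := D_25 (nat_lit 159) (nat_lit 142) (nat_lit 226) (nat_lit 6) (nat_lit 5) (nat_lit 12) (nat_lit 6) (nat_lit 5) (nat_lit 13) (by decide +kernel)
theorem L7225 : W_25 (nat_lit 3) (nat_lit 0x7000380004001300080000000000000000000000000000000) (nat_lit 0x0) (nat_lit 0x40002000000000000a000400000000000000000000000000000000000) := T_25 (nat_lit 209) (nat_lit 157) (nat_lit 4) (nat_lit 5) (nat_lit 12) L7224 (by decide +kernel)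
theorem L7226 : W_25 (nat_lit 4) (nat_lit 0x7000280004001300080000000000000000000000000000000) (nat_lit 0x0) (nat_lit 0x40002000000010000a000400010000000000000000000000000000000) := T_25 (nat_lit 176) (nat_lit 124) (nat_lit 7) (nat_lit 5) (nat_lit 7) L7225 (by decide +kernel)
theorem L7227 : W_25 (nat_lit 5) (nat_lit 0x5000280004001300080000000000000000000000000000000) (nat_lit 0x0) (nat_lit 0x40006000200010000a000400010000000000000000000000000000000) := T_25 (nat_lit 193) (nat_lit 210) (nat_lit 7) (nat_lit 5) (nat_lit 8) L7226 (by decide +kernel)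
theorem L7228 : W_25 (nat_lit 6) (nat_lit 0x5000280004001200080000000000000000000000000000000) (nat_lit 0x0) (nat_lit 0x40006000200010000a000500018000000000000000000000000000000) := T_25 (nat_lit 140) (nat_lit 123) (nat_lit 4) (nat_lit 5) (nat_lit 11) L7227 (by decide +kernel)
theorem L7229 : W_25 (nat_lit 2) (nat_lit 0x7000280004001300090000000000000000000000000000000) (nat_lit 0x0) (nat_lit 0x60001000000000000000000000000000) := D_25 (nat_lit 125) (nat_lit 108) (nat_lit 126) (nat_lit 6) (nat_lit 5) (nat_lit 10) (nat_lit 1) (nat_lit 8) (nat_lit 7) (by decide +kernel)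
theorem L7230 : W_25 (nat_lit 3) (nat_lit 0x7000280004001300080000000000000000000000000000000) (nat_lit 0x0) (nat_lit 0x100000000000070001000000000000000000000000000) := T_25 (nat_lit 124) (nat_lit 176) (nat_lit 7) (nat_lit 5) (nat_lit 7) L7229 (by decide +kernel)
theorem L7231 : W_25 (nat_lit 4) (nat_lit 0x5000280004001300080000000000000000000000000000000) (nat_lit 0x0) (nat_lit 0x40002000100000000000070001000000000000000000000000000) := T_25 (nat_lit 193) (nat_lit 210) (nat_lit 7) (nat_lit 5) (nat_lit 8) L7230 (by decide +kernel)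
theorem L7232 : W_25 (nat_lit 5) (nat_lit 0x5000280004001200080000000000000000000000000000000) (nat_lit 0x0) (nat_lit 0x40002000100000000100078001000000000000000000000000000) := T_25 (nat_lit 140) (nat_lit 123) (nat_lit 4) (nat_lit 5) (nat_lit 11) L7231 (by decide +kernel)
theorem L7233 : W_25 (nat_lit 7) (nat_lit 0x5000280004001000080000000000000000000000000000000) (nat_lit 0x0) (nat_lit 0x40006000200010000a000700078001000000000000000000000000000) := Q_25 (nat_lit 141) (C_25 L6993 (C_25 L6967 (C_25 L7228 (C_25 L7232 N_25)))) (by decide +kernel)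
theorem L7234 : W_25 (nat_lit 12) (nat_lit 0x5000280000001000080000000000000000000000000000000) (nat_lit 0x0) (nat_lit 0x28001c000e0007c00ac0013000f8007c0078001000000000000000000000000000) := Q_25 (nat_lit 158) (C_25 L7177 (C_25 L7178 (C_25 L7000 (C_25 L7179 (C_25 L7199 (C_25 L7209 (C_25 L7223 (C_25 L7059 (C_25 L7233 N_25))))))))) (by decide +kernel)
theorem L7235 : W_25 (nat_lit 2) (nat_lit 0x100078002c0000001000080000000000000000000000000000000) (nat_lit 0x0) (nat_lit 0x4000200000000000000004000000000000000000000000000000000000000) := D_25 (nat_lit 225) (nat_lit 158) (nat_lit 242) (nat_lit 6) (nat_lit 4) (nat_lit 13) (nat_lit 6) (nat_lit 4) (nat_lit 14) (by decide +kernel)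
theorem L7236 : W_25 (nat_lit 3) (nat_lit 0x78002c0000001000080000000000000000000000000000000) (nat_lit 0x0) (nat_lit 0x4000200018000000000004000000000000000000000000000000000000000) := T_25 (nat_lit 208) (nat_lit 207) (nat_lit 1) (nat_lit 7) (nat_lit 11) L7235 (by decide +kernel)
theorem L7237 : W_25 (nat_lit 4) (nat_lit 0x58002c0000001000080000000000000000000000000000000) (nat_lit 0x0) (nat_lit 0x4000200018002000020004000000000000000000000000000000000000000) := T_25 (nat_lit 193) (nat_lit 173) (nat_lit 0) (nat_lit 7) (nat_lit 11) L7236 (by decide +kernel)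
theorem L7238 : W_25 (nat_lit 5) (nat_lit 0x50002c0000001000080000000000000000000000000000000) (nat_lit 0x0) (nat_lit 0x4000600038002c00120007000100000000000000000000000000000000000) := Q_25 (nat_lit 191) (C_25 L7167 (C_25 L7237 N_25)) (by decide +kernel)
theorem L7239 : W_25 (nat_lit 7) (nat_lit 0x5000280000001000080000000000000000000000000000000) (nat_lit 0x0) (nat_lit 0x400060003800ac00170037000100000000000000000000000000000000000) := Q_25 (nat_lit 174) (C_25 L7153 (C_25 L7175 (C_25 L7238 (C_25 L7169 N_25)))) (by decide +kernel)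
theorem L7240 : W_25 (nat_lit 2) (nat_lit 0x3000d0002c0004001000080000000000000000000000000000000) (nat_lit 0x0) (nat_lit 0x400000000000000002000100000000000000000000000000000000000) := D_25 (nat_lit 157) (nat_lit 140) (nat_lit 226) (nat_lit 4) (nat_lit 5) (nat_lit 12) (nat_lit 4) (nat_lit 5) (nat_lit 13) (by decide +kernel)
theorem L7241 : W_25 (nat_lit 3) (nat_lit 0x3000d0002c0000001000080000000000000000000000000000000) (nat_lit 0x0) (nat_lit 0x600000000000000006000100000000000000000000000000000000000) := T_25 (nat_lit 158) (nat_lit 225) (nat_lit 5) (nat_lit 5) (nat_lit 9) L7240 (by decide +kernel)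
theorem L7242 : W_25 (nat_lit 4) (nat_lit 0x3000d000280000001000080000000000000000000000000000000) (nat_lit 0x0) (nat_lit 0x600000000000140006000100000000000000000000000000000000000) := T_25 (nat_lit 174) (nat_lit 176) (nat_lit 3) (nat_lit 4) (nat_lit 10) L7241 (by decide +kernel)
theorem L7243 : W_25 (nat_lit 5) (nat_lit 0x30005000280000001000080000000000000000000000000000000) (nat_lit 0x0) (nat_lit 0x60000000a000140006000100000000000000000000000000000000000) := T_25 (nat_lit 195) (nat_lit 193) (nat_lit 1) (nat_lit 8) (nat_lit 11) L7242 (by decide +kernel)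
theorem L7244 : W_25 (nat_lit 6) (nat_lit 0x20005000280000001000080000000000000000000000000000000) (nat_lit 0x0) (nat_lit 0x60005800a80014000e000700020000000000000000000000000000000) := Q_25 (nat_lit 208) (C_25 L6942 (C_25 L6852 (C_25 L7243 N_25))) (by decide +kernel)
theorem L7245 : W_25 (nat_lit 3) (nat_lit 0x400020005000380000001000080000000000000000000000000000000) (nat_lit 0x0) (nat_lit 0x8000000000000c00040002000000000000000000000000000000000000000) := T_25 (nat_lit 174) (nat_lit 157) (nat_lit 4) (nat_lit 5) (nat_lit 13) L7080 (by decide +kernel)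
theorem L7246 : W_25 (nat_lit 4) (nat_lit 0x20005000380000001000080000000000000000000000000000000) (nat_lit 0x0) (nat_lit 0x8000400000000c0004000a000000000000000000000000000000000000000) := T_25 (nat_lit 226) (nat_lit 159) (nat_lit 6) (nat_lit 5) (nat_lit 13) L7245 (by decide +kernel)
theorem L7247 : W_25 (nat_lit 2) (nat_lit 0x200050003c0000001000080000000000000000000000000000000) (nat_lit 0x0) (nat_lit 0x400000000000000003000000000000000000000000000000000000000) := D_25 (nat_lit 157) (nat_lit 156) (nat_lit 226) (nat_lit 0) (nat_lit 7) (nat_lit 10) (nat_lit 4) (nat_lit 5) (nat_lit 13) (by decide +kernel)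
theorem L7248 : W_25 (nat_lit 3) (nat_lit 0x20005000380000001000080000000000000000000000000000000) (nat_lit 0x0) (nat_lit 0x400000008000040003000000000000000000000000000000000000000) := T_25 (nat_lit 174) (nat_lit 195) (nat_lit 3) (nat_lit 4) (nat_lit 10) L7247 (by decide +kernel)
theorem L7249 : W_25 (nat_lit 2) (nat_lit 0x8000400020005000380000001000080000000000000000000000000000000) (nat_lit 0x0) (nat_lit 0x200010000800000000000000000000000000000000000000000000000000000000) := D_25 (nat_lit 244) (nat_lit 227) (nat_lit 261) (nat_lit 7) (nat_lit 5) (nat_lit 10) (nat_lit 7) (nat_lit 5) (nat_lit 11) (by decide +kernel)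
theorem L7250 : W_25 (nat_lit 3) (nat_lit 0x400020005000380000001000080000000000000000000000000000000) (nat_lit 0x0) (nat_lit 0x200018000800000002000000000000000000000000000000000000000000000000) := T_25 (nat_lit 243) (nat_lit 193) (nat_lit 6) (nat_lit 5) (nat_lit 14) L7249 (by decide +kernel)
theorem L7251 : W_25 (nat_lit 4) (nat_lit 0x20005000380000001000080000000000000000000000000000000) (nat_lit 0x0) (nat_lit 0x200018000c00000002000000008000000000000000000000000000000000000000) := T_25 (nat_lit 226) (nat_lit 159) (nat_lit 6) (nat_lit 5) (nat_lit 13) L7250 (by decide +kernel)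
theorem L7252 : W_25 (nat_lit 2) (nat_lit 0x200058003c0010001000080000000000000000000000000000000) (nat_lit 0x0) (nat_lit 0x3000100000000000000000000000000000000000) := D_25 (nat_lit 157) (nat_lit 156) (nat_lit 140) (nat_lit 0) (nat_lit 7) (nat_lit 10) (nat_lit 7) (nat_lit 4) (nat_lit 8) (by decide +kernel)
theorem L7253 : W_25 (nat_lit 3) (nat_lit 0x200050003c0010001000080000000000000000000000000000000) (nat_lit 0x0) (nat_lit 0xc00000003000100000000000000000000000000000000000) := T_25 (nat_lit 191) (nat_lit 190) (nat_lit 1) (nat_lit 7) (nat_lit 10) L7252 (by decide +kernel)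
theorem L7254 : W_25 (nat_lit 4) (nat_lit 0x200050003c0000001000080000000000000000000000000000000) (nat_lit 0x0) (nat_lit 0xc00000033000100000000000000000000000000000000000) := T_25 (nat_lit 160) (nat_lit 161) (nat_lit 2) (nat_lit 4) (nat_lit 10) L7253 (by decide +kernel)
theorem L7255 : W_25 (nat_lit 5) (nat_lit 0x20005000380000001000080000000000000000000000000000000) (nat_lit 0x0) (nat_lit 0x8c00040033000100000000000000000000000000000000000) := T_25 (nat_lit 174) (nat_lit 195) (nat_lit 3) (nat_lit 4) (nat_lit 10) L7254 (by decide +kernel)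
theorem L7256 : W_25 (nat_lit 6) (nat_lit 0x20005000280000001000080000000000000000000000000000000) (nat_lit 0x0) (nat_lit 0x200018000c0000000ac0014003b000100000000000000000000000000000000000) := Q_25 (nat_lit 176) (C_25 L7246 (C_25 L7248 (C_25 L7251 (C_25 L7255 N_25)))) (by decide +kernel)
theorem L7257 : W_25 (nat_lit 11) (nat_lit 0x5000280000001000080000000000000000000000000000000) (nat_lit 0x0) (nat_lit 0x28001c000e0007800ac0014003f000700078001c00020000000000000000000000) := Q_25 (nat_lit 209) (C_25 L7076 (C_25 L6946 (C_25 L7103 (C_25 L7083 (C_25 L7084 (C_25 L7079 (C_25 L7244 (C_25 L7256 N_25)))))))) (by decide +kernel)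
theorem L7258 : W_25 (nat_lit 2) (nat_lit 0x50003e0002001000080000000000000000000000000000000) (nat_lit 0x0) (nat_lit 0xe00000000000000000000000000000000000000000000000) := D_25 (nat_lit 190) (nat_lit 189) (nat_lit 191) (nat_lit 1) (nat_lit 6) (nat_lit 10) (nat_lit 1) (nat_lit 7) (nat_lit 10) (by decide +kernel)
theorem L7259 : W_25 (nat_lit 3) (nat_lit 0x50003c0002001000080000000000000000000000000000000) (nat_lit 0x0) (nat_lit 0x2e00020000000000000000000000000000000000000000000) := T_25 (nat_lit 173) (nat_lit 193) (nat_lit 3) (nat_lit 3) (nat_lit 10) L7258 (by decide +kernel)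
theorem L7260 : W_25 (nat_lit 4) (nat_lit 0x50003c0000001000080000000000000000000000000000000) (nat_lit 0x0) (nat_lit 0x2e00020003000000000000000000000000000000000000000) := T_25 (nat_lit 157) (nat_lit 156) (nat_lit 0) (nat_lit 7) (nat_lit 10) L7259 (by decide +kernel)
theorem L7261 : W_25 (nat_lit 2) (nat_lit 0x50003e0000001000080000000000000000000000000000000) (nat_lit 0x0) (nat_lit 0x38000000000000000000000000000000000000000) := D_25 (nat_lit 160) (nat_lit 159) (nat_lit 161) (nat_lit 2) (nat_lit 3) (nat_lit 10) (nat_lit 2) (nat_lit 4) (nat_lit 10) (by decide +kernel)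
theorem L7262 : W_25 (nat_lit 3) (nat_lit 0x50003c0000001000080000000000000000000000000000000) (nat_lit 0x0) (nat_lit 0x2000020038000000000000000000000000000000000000000) := T_25 (nat_lit 173) (nat_lit 193) (nat_lit 3) (nat_lit 3) (nat_lit 10) L7261 (by decide +kernel)
theorem L7263 : W_25 (nat_lit 6) (nat_lit 0x50002c0000001000080000000000000000000000000000000) (nat_lit 0x0) (nat_lit 0x400020002e0012003b000100000000000000000000000000000000000) := Q_25 (nat_lit 176) (C_25 L7174 (C_25 L7260 (C_25 L7262 N_25))) (by decide +kernel)
theorem L7264 : W_25 (nat_lit 7) (nat_lit 0x5000280000001000080000000000000000000000000000000) (nat_lit 0x0) (nat_lit 0x40002000ae0017003b000100000000000000000000000000000000000) := Q_25 (nat_lit 174) (C_25 L7153 (C_25 L7175 (C_25 L7263 (C_25 L7169 N_25)))) (by decide +kernel)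
theorem L7265 : W_25 (nat_lit 6) (nat_lit 0x20005000280000001000080000000000000000000000000000000) (nat_lit 0x0) (nat_lit 0x4000e0005000200010000f000700008000000000000000000000000000000) := Q_25 (nat_lit 158) (C_25 L7208 (C_25 L7064 (C_25 L7008 N_25))) (by decide +kernel)
theorem L7266 : W_25 (nat_lit 2) (nat_lit 0x6000200050002c0004001000080000000000000000000000000000000) (nat_lit 0x0) (nat_lit 0x10000800040000000000000000000000000000000000000000000000000000) := D_25 (nat_lit 227) (nat_lit 244) (nat_lit 210) (nat_lit 7) (nat_lit 5) (nat_lit 10) (nat_lit 7) (nat_lit 5) (nat_lit 9) (by decide +kernel)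
theorem L7267 : W_25 (nat_lit 3) (nat_lit 0x6000200050002c0000001000080000000000000000000000000000000) (nat_lit 0x0) (nat_lit 0x10000800050000000000004000000000000000000000000000000000000000) := T_25 (nat_lit 158) (nat_lit 208) (nat_lit 5) (nat_lit 5) (nat_lit 9) L7266 (by decide +kernel)
theorem L7268 : W_25 (nat_lit 4) (nat_lit 0x4000200050002c0000001000080000000000000000000000000000000) (nat_lit 0x0) (nat_lit 0x14000a00050000000000004000000000000000000000000000000000000000) := T_25 (nat_lit 225) (nat_lit 242) (nat_lit 5) (nat_lit 5) (nat_lit 10) L7267 (by decide +kernel)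
theorem L7269 : W_25 (nat_lit 5) (nat_lit 0x200050002c0000001000080000000000000000000000000000000) (nat_lit 0x0) (nat_lit 0x14000e00050000000000006000000000000000000000000000000000000000) := T_25 (nat_lit 226) (nat_lit 157) (nat_lit 4) (nat_lit 5) (nat_lit 13) L7268 (by decide +kernel)
theorem L7270 : W_25 (nat_lit 2) (nat_lit 0x200050002c0000001000080000000000000000000000000000000) (nat_lit 0x0) (nat_lit 0xa000100000000000000000000000000000000000000000000) := D_25 (nat_lit 195) (nat_lit 193) (nat_lit 176) (nat_lit 0) (nat_lit 8) (nat_lit 11) (nat_lit 3) (nat_lit 4) (nat_lit 10) (by decide +kernel)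
theorem L7271 : W_25 (nat_lit 6) (nat_lit 0x20005000280000001000080000000000000000000000000000000) (nat_lit 0x0) (nat_lit 0x14000e0005000a000140006000000000000000000000000000000000000000) := Q_25 (nat_lit 174) (C_25 L7269 (C_25 L7270 N_25)) (by decide +kernel)
theorem L7272 : W_25 (nat_lit 5) (nat_lit 0x20005000280000001000080000000000000000000000000000000) (nat_lit 0x0) (nat_lit 0x28001c000e0000000800014000a000000000000000000000000000000000000000) := Q_25 (nat_lit 226) (C_25 L6923 (C_25 L7078 N_25)) (by decide +kernel)
theorem L7273 : W_25 (nat_lit 2) (nat_lit 0x6000200050002c0004001000080000000000000000000000000000000) (nat_lit 0x0) (nat_lit 0x100008000400000000000000000000000000000000000) := D_25 (nat_lit 159) (nat_lit 176) (nat_lit 142) (nat_lit 6) (nat_lit 5) (nat_lit 13) (nat_lit 6) (nat_lit 5) (nat_lit 12) (by decide +kernel)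
theorem L7274 : W_25 (nat_lit 3) (nat_lit 0x6000200050002c0000001000080000000000000000000000000000000) (nat_lit 0x0) (nat_lit 0x1000000010000c000400000000000000000000000000000000000) := T_25 (nat_lit 158) (nat_lit 208) (nat_lit 5) (nat_lit 5) (nat_lit 9) L7273 (by decide +kernel)
theorem L7275 : W_25 (nat_lit 4) (nat_lit 0x4000200050002c0000001000080000000000000000000000000000000) (nat_lit 0x0) (nat_lit 0x400020001000000010000c000400000000000000000000000000000000000) := T_25 (nat_lit 225) (nat_lit 242) (nat_lit 5) (nat_lit 5) (nat_lit 10) L7274 (by decide +kernel)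
theorem L7276 : W_25 (nat_lit 5) (nat_lit 0x200050002c0000001000080000000000000000000000000000000) (nat_lit 0x0) (nat_lit 0x400060001000000010000e000400000000000000000000000000000000000) := T_25 (nat_lit 226) (nat_lit 157) (nat_lit 4) (nat_lit 5) (nat_lit 13) L7275 (by decide +kernel)
theorem L7277 : W_25 (nat_lit 2) (nat_lit 0x6000200070002d0004001200080000000000000000000000000000000) (nat_lit 0x0) (nat_lit 0x8000400020000000000000000000000000000000) := D_25 (nat_lit 142) (nat_lit 125) (nat_lit 159) (nat_lit 6) (nat_lit 5) (nat_lit 11) (nat_lit 6) (nat_lit 5) (nat_lit 12) (by decide +kernel)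
theorem L7278 : W_25 (nat_lit 3) (nat_lit 0x6000200070002d0004001000080000000000000000000000000000000) (nat_lit 0x0) (nat_lit 0x40000000000008000600020000000000000000000000000000000) := T_25 (nat_lit 141) (nat_lit 210) (nat_lit 7) (nat_lit 5) (nat_lit 8) L7277 (by decide +kernel)
theorem L7279 : W_25 (nat_lit 4) (nat_lit 0x6000200070002c0004001000080000000000000000000000000000000) (nat_lit 0x0) (nat_lit 0x40000000030008000600020000000000000000000000000000000) := T_25 (nat_lit 172) (nat_lit 173) (nat_lit 3) (nat_lit 2) (nat_lit 10) L7278 (by decide +kernel)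
theorem L7280 : W_25 (nat_lit 5) (nat_lit 0x6000200070002c0000001000080000000000000000000000000000000) (nat_lit 0x0) (nat_lit 0x5000000003000c000600020000000000000000000000000000000) := T_25 (nat_lit 158) (nat_lit 208) (nat_lit 5) (nat_lit 5) (nat_lit 9) L7279 (by decide +kernel)
theorem L7281 : W_25 (nat_lit 6) (nat_lit 0x4000200070002c0000001000080000000000000000000000000000000) (nat_lit 0x0) (nat_lit 0x400020005000000003000c000600020000000000000000000000000000000) := T_25 (nat_lit 225) (nat_lit 242) (nat_lit 5) (nat_lit 5) (nat_lit 10) L7280 (by decide +kernel)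
theorem L7282 : W_25 (nat_lit 7) (nat_lit 0x4000200050002c0000001000080000000000000000000000000000000) (nat_lit 0x0) (nat_lit 0x400020005000a00003000c000600020000000000000000000000000000000) := T_25 (nat_lit 193) (nat_lit 195) (nat_lit 0) (nat_lit 8) (nat_lit 11) L7281 (by decide +kernel)
theorem L7283 : W_25 (nat_lit 8) (nat_lit 0x200050002c0000001000080000000000000000000000000000000) (nat_lit 0x0) (nat_lit 0x400060005000a00003000e000600020000000000000000000000000000000) := T_25 (nat_lit 226) (nat_lit 157) (nat_lit 4) (nat_lit 5) (nat_lit 13) L7282 (by decide +kernel)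
theorem L7284 : W_25 (nat_lit 9) (nat_lit 0x20005000280000001000080000000000000000000000000000000) (nat_lit 0x0) (nat_lit 0x400060005000a00017000e000600020000000000000000000000000000000) := Q_25 (nat_lit 174) (C_25 L7276 (C_25 L7283 (C_25 L7270 N_25))) (by decide +kernel)
theorem L7285 : W_25 (nat_lit 2) (nat_lit 0x2000d000280000001000080000000000000000000000000000000) (nat_lit 0x0) (nat_lit 0x10002000040000000000000000000000000000000000000000000) := D_25 (nat_lit 193) (nat_lit 174) (nat_lit 208) (nat_lit 0) (nat_lit 8) (nat_lit 11) (nat_lit 1) (nat_lit 8) (nat_lit 11) (by decide +kernel)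
theorem L7286 : W_25 (nat_lit 2) (nat_lit 0x60002002d000380004001000080000000000000000000000000000000) (nat_lit 0x0) (nat_lit 0x10000800040000000000000000000000000000000000000000000000000000) := D_25 (nat_lit 227) (nat_lit 244) (nat_lit 210) (nat_lit 7) (nat_lit 5) (nat_lit 10) (nat_lit 7) (nat_lit 5) (nat_lit 9) (by decide +kernel)
theorem L7287 : W_25 (nat_lit 3) (nat_lit 0x60002002d000380000001000080000000000000000000000000000000) (nat_lit 0x0) (nat_lit 0x10000800050000000000004000000000000000000000000000000000000000) := T_25 (nat_lit 158) (nat_lit 208) (nat_lit 5) (nat_lit 5) (nat_lit 9) L7286 (by decide +kernel)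
theorem L7288 : W_25 (nat_lit 4) (nat_lit 0x40002002d000380000001000080000000000000000000000000000000) (nat_lit 0x0) (nat_lit 0x14000a00050000000000004000000000000000000000000000000000000000) := T_25 (nat_lit 225) (nat_lit 242) (nat_lit 5) (nat_lit 5) (nat_lit 10) L7287 (by decide +kernel)
theorem L7289 : W_25 (nat_lit 5) (nat_lit 0x2002d000380000001000080000000000000000000000000000000) (nat_lit 0x0) (nat_lit 0x14000e0005000000000000c000000000000000000000000000000000000000) := T_25 (nat_lit 226) (nat_lit 159) (nat_lit 6) (nat_lit 5) (nat_lit 13) L7288 (by decide +kernel)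
theorem L7290 : W_25 (nat_lit 6) (nat_lit 0x2000d000380000001000080000000000000000000000000000000) (nat_lit 0x0) (nat_lit 0x14000e0005003000000000c000000000000000000000000000000000000000) := T_25 (nat_lit 197) (nat_lit 196) (nat_lit 0) (nat_lit 10) (nat_lit 11) L7289 (by decide +kernel)
theorem L7291 : W_25 (nat_lit 7) (nat_lit 0x2000d000280000001000080000000000000000000000000000000) (nat_lit 0x0) (nat_lit 0x14000e0005003000014000c000000000000000000000000000000000000000) := T_25 (nat_lit 176) (nat_lit 174) (nat_lit 3) (nat_lit 4) (nat_lit 10) L7290 (by decide +kernel)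
theorem L7292 : W_25 (nat_lit 2) (nat_lit 0x2000f000280000001000080000000000000000000000000000000) (nat_lit 0x0) (nat_lit 0x40010000100000000000000000000000000000000000000000000) := D_25 (nat_lit 196) (nat_lit 176) (nat_lit 210) (nat_lit 0) (nat_lit 9) (nat_lit 11) (nat_lit 1) (nat_lit 9) (nat_lit 11) (by decide +kernel)
theorem L7293 : W_25 (nat_lit 3) (nat_lit 0x2000d000280000001000080000000000000000000000000000000) (nat_lit 0x0) (nat_lit 0x50012000100000000000000000000000000000000000000000000) := T_25 (nat_lit 193) (nat_lit 208) (nat_lit 1) (nat_lit 8) (nat_lit 11) L7292 (by decide +kernel)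
theorem L7294 : W_25 (nat_lit 2) (nat_lit 0x2000d000280000001000080000000000000000000000000000000) (nat_lit 0x0) (nat_lit 0x2000140000000000000000000000000000000000000000000) := D_25 (nat_lit 174) (nat_lit 176) (nat_lit 193) (nat_lit 3) (nat_lit 4) (nat_lit 10) (nat_lit 0) (nat_lit 8) (nat_lit 11) (by decide +kernel)
theorem L7295 : W_25 (nat_lit 8) (nat_lit 0x20005000280000001000080000000000000000000000000000000) (nat_lit 0x0) (nat_lit 0x14000e0005003a00014000c000000000000000000000000000000000000000) := Q_25 (nat_lit 195) (C_25 L7285 (C_25 L7291 (C_25 L7293 (C_25 L7294 N_25)))) (by decide +kernel)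
theorem L7296 : W_25 (nat_lit 2) (nat_lit 0x300070002a001f801040080000000000000000000000000000000) (nat_lit 0x0) (nat_lit 0xc000400000000000000000000000000000000000000000000000) := D_25 (nat_lit 207) (nat_lit 190) (nat_lit 206) (nat_lit 4) (nat_lit 3) (nat_lit 12) (nat_lit 2) (nat_lit 2) (nat_lit 12) (by decide +kernel)
theorem L7297 : W_25 (nat_lit 3) (nat_lit 0x300050002a001f801040080000000000000000000000000000000) (nat_lit 0x0) (nat_lit 0xc00a400000000000000000000000000000000000000000000000) := T_25 (nat_lit 193) (nat_lit 195) (nat_lit 1) (nat_lit 8) (nat_lit 11) L7296 (by decide +kernel)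
theorem L7298 : W_25 (nat_lit 4) (nat_lit 0x200050002a001f801040080000000000000000000000000000000) (nat_lit 0x0) (nat_lit 0x20001c00a400000000000000000000000000000000000000000000000) := T_25 (nat_lit 208) (nat_lit 225) (nat_lit 5) (nat_lit 5) (nat_lit 9) L7297 (by decide +kernel)
theorem L7299 : W_25 (nat_lit 5) (nat_lit 0x200050002a001f001040080000000000000000000000000000000) (nat_lit 0x0) (nat_lit 0x20001c00a400000000800020000000000000000000000000000000000) := T_25 (nat_lit 155) (nat_lit 137) (nat_lit 0) (nat_lit 5) (nat_lit 9) L7298 (by decide +kernel)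
theorem L7300 : W_25 (nat_lit 6) (nat_lit 0x200050002a000f001040080000000000000000000000000000000) (nat_lit 0x0) (nat_lit 0x20001c00a400040010800020000000000000000000000000000000000) := T_25 (nat_lit 160) (nat_lit 174) (nat_lit 1) (nat_lit 7) (nat_lit 9) L7299 (by decide +kernel)
theorem L7301 : W_25 (nat_lit 7) (nat_lit 0x200050002a000f001000080000000000000000000000000000000) (nat_lit 0x0) (nat_lit 0x20001c00a4000400108000e0000000000000000000000000000000000) := T_25 (nat_lit 138) (nat_lit 139) (nat_lit 0) (nat_lit 6) (nat_lit 9) L7300 (by decide +kernel)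
theorem L7302 : W_25 (nat_lit 8) (nat_lit 0x2000500028000f001000080000000000000000000000000000000) (nat_lit 0x0) (nat_lit 0x20001c00a4000700108000e0000000000000000000000000000000000) := T_25 (nat_lit 173) (nat_lit 172) (nat_lit 1) (nat_lit 6) (nat_lit 9) L7301 (by decide +kernel)
theorem L7303 : W_25 (nat_lit 9) (nat_lit 0x2000500028000e001000080000000000000000000000000000000) (nat_lit 0x0) (nat_lit 0x20001c00a4001700118000e0000000000000000000000000000000000) := T_25 (nat_lit 156) (nat_lit 176) (nat_lit 3) (nat_lit 3) (nat_lit 9) L7302 (by decide +kernel)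
theorem L7304 : W_25 (nat_lit 10) (nat_lit 0x20005000280006001000080000000000000000000000000000000) (nat_lit 0x0) (nat_lit 0x20001c00a4001700198004e0000000000000000000000000000000000) := T_25 (nat_lit 159) (nat_lit 142) (nat_lit 6) (nat_lit 5) (nat_lit 12) L7303 (by decide +kernel)
theorem L7305 : W_25 (nat_lit 11) (nat_lit 0x20005000280004001000080000000000000000000000000000000) (nat_lit 0x0) (nat_lit 0x20001c00a40017001b8005e0000000000000000000000000000000000) := T_25 (nat_lit 157) (nat_lit 140) (nat_lit 4) (nat_lit 5) (nat_lit 12) L7304 (by decide +kernel)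
theorem L7306 : W_25 (nat_lit 12) (nat_lit 0x20005000280000001000080000000000000000000000000000000) (nat_lit 0x0) (nat_lit 0xa0005c00a40017001fc007e0008000000000000000000000000000000) := Q_25 (nat_lit 158) (C_25 L7208 (C_25 L7122 (C_25 L7305 (C_25 L6884 N_25)))) (by decide +kernel)
theorem L7307 : W_25 (nat_lit 2) (nat_lit 0x200050003e0000001000080000000000000000000000000000000) (nat_lit 0x0) (nat_lit 0x38000000000000000000000000000000000000000) := D_25 (nat_lit 160) (nat_lit 159) (nat_lit 161) (nat_lit 2) (nat_lit 3) (nat_lit 10) (nat_lit 2) (nat_lit 4) (nat_lit 10) (by decide +kernel)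
theorem L7308 : W_25 (nat_lit 3) (nat_lit 0x200050003c0000001000080000000000000000000000000000000) (nat_lit 0x0) (nat_lit 0x2000020038000000000000000000000000000000000000000) := T_25 (nat_lit 173) (nat_lit 193) (nat_lit 3) (nat_lit 3) (nat_lit 10) L7307 (by decide +kernel)
theorem L7309 : W_25 (nat_lit 4) (nat_lit 0x20005000380000001000080000000000000000000000000000000) (nat_lit 0x0) (nat_lit 0xa000060038000000000000000000000000000000000000000) := T_25 (nat_lit 174) (nat_lit 195) (nat_lit 3) (nat_lit 4) (nat_lit 10) L7308 (by decide +kernel)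
theorem L7310 : W_25 (nat_lit 5) (nat_lit 0x20005000280000001000080000000000000000000000000000000) (nat_lit 0x0) (nat_lit 0x200018000c0000000a00016003b000000000000000000000000000000000000000) := Q_25 (nat_lit 176) (C_25 L7251 (C_25 L7248 (C_25 L7309 N_25))) (by decide +kernel)
theorem L7311 : W_25 (nat_lit 13) (nat_lit 0x5000280000001000080000000000000000000000000000000) (nat_lit 0x0) (nat_lit 0x28001c000e0007c03a40017003fc007e0028000000000000000000000000000000) := Q_25 (nat_lit 209) (C_25 L7265 (C_25 L6932 (C_25 L7079 (C_25 L7271 (C_25 L7272 (C_25 L7284 (C_25 L7295 (C_25 L7306 (C_25 L7310 N_25))))))))) (by decide +kernel)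
theorem L7312 : W_25 (nat_lit 2) (nat_lit 0x58003c0016001300080000000000000000000000000000000) (nat_lit 0x0) (nat_lit 0x8000080004000000000000000000000000000000) := D_25 (nat_lit 139) (nat_lit 159) (nat_lit 122) (nat_lit 0) (nat_lit 7) (nat_lit 9) (nat_lit 4) (nat_lit 4) (nat_lit 11) (by decide +kernel)
theorem L7313 : W_25 (nat_lit 3) (nat_lit 0x58003c0012001300080000000000000000000000000000000) (nat_lit 0x0) (nat_lit 0x1000000000000c000080004000000000000000000000000000000) := T_25 (nat_lit 158) (nat_lit 208) (nat_lit 6) (nat_lit 4) (nat_lit 12) L7312 (by decide +kernel)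
theorem L7314 : W_25 (nat_lit 4) (nat_lit 0x58003c0012001100080000000000000000000000000000000) (nat_lit 0x0) (nat_lit 0x1000000000000c000280014000000000000000000000000000000) := T_25 (nat_lit 141) (nat_lit 124) (nat_lit 6) (nat_lit 4) (nat_lit 11) L7313 (by decide +kernel)
theorem L7315 : W_25 (nat_lit 5) (nat_lit 0x50003c0012001100080000000000000000000000000000000) (nat_lit 0x0) (nat_lit 0x10000c0000000c000280014000000000000000000000000000000) := T_25 (nat_lit 191) (nat_lit 190) (nat_lit 1) (nat_lit 7) (nat_lit 10) L7314 (by decide +kernel)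
theorem L7316 : W_25 (nat_lit 6) (nat_lit 0x50003c0012001000080000000000000000000000000000000) (nat_lit 0x0) (nat_lit 0x10000c0000000c00038001c000000000000000000000000000000) := T_25 (nat_lit 140) (nat_lit 123) (nat_lit 7) (nat_lit 4) (nat_lit 7) L7315 (by decide +kernel)
theorem L7317 : W_25 (nat_lit 7) (nat_lit 0x50003c0002001000080000000000000000000000000000000) (nat_lit 0x0) (nat_lit 0x10000c0000003c00038001c000000000000000000000000000000) := T_25 (nat_lit 160) (nat_lit 161) (nat_lit 2) (nat_lit 4) (nat_lit 10) L7316 (by decide +kernel)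
theorem L7318 : W_25 (nat_lit 8) (nat_lit 0x50003c0000001000080000000000000000000000000000000) (nat_lit 0x0) (nat_lit 0x10000c0000003f00038001c000000000000000000000000000000) := T_25 (nat_lit 157) (nat_lit 156) (nat_lit 0) (nat_lit 7) (nat_lit 10) L7317 (by decide +kernel)
theorem L7319 : W_25 (nat_lit 9) (nat_lit 0x50002c0000001000080000000000000000000000000000000) (nat_lit 0x0) (nat_lit 0x10002e0012003f00038001c000000000000000000000000000000) := Q_25 (nat_lit 176) (C_25 L7262 (C_25 L7260 (C_25 L7156 (C_25 L7318 N_25)))) (by decide +kernel)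
theorem L7320 : W_25 (nat_lit 10) (nat_lit 0x5000280000001000080000000000000000000000000000000) (nat_lit 0x0) (nat_lit 0x1000ae0017003f00038001c000000000000000000000000000000) := Q_25 (nat_lit 174) (C_25 L7153 (C_25 L7169 (C_25 L7157 (C_25 L7319 N_25)))) (by decide +kernel)
theorem L7321 : W_25 (nat_lit 2) (nat_lit 0x58003c001a001400080000000000000000000000000000000) (nat_lit 0x0) (nat_lit 0x400020000000000004000000000000000000000000000000000000000) := D_25 (nat_lit 209) (nat_lit 226) (nat_lit 158) (nat_lit 6) (nat_lit 5) (nat_lit 13) (nat_lit 6) (nat_lit 5) (nat_lit 12) (by decide +kernel)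
theorem L7322 : W_25 (nat_lit 3) (nat_lit 0x58003c001a001000080000000000000000000000000000000) (nat_lit 0x0) (nat_lit 0x400020000000000004000400020000000000000000000000000000000) := T_25 (nat_lit 142) (nat_lit 125) (nat_lit 7) (nat_lit 6) (nat_lit 7) L7321 (by decide +kernel)
theorem L7323 : W_25 (nat_lit 4) (nat_lit 0x58003c0012001000080000000000000000000000000000000) (nat_lit 0x0) (nat_lit 0x40002000000002000c000400020000000000000000000000000000000) := T_25 (nat_lit 159) (nat_lit 173) (nat_lit 2) (nat_lit 3) (nat_lit 10) L7322 (by decide +kernel)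
theorem L7324 : W_25 (nat_lit 5) (nat_lit 0x58003c0002001000080000000000000000000000000000000) (nat_lit 0x0) (nat_lit 0x40002000000002003c000400020000000000000000000000000000000) := T_25 (nat_lit 160) (nat_lit 161) (nat_lit 2) (nat_lit 4) (nat_lit 10) L7323 (by decide +kernel)
theorem L7325 : W_25 (nat_lit 6) (nat_lit 0x58003c0000001000080000000000000000000000000000000) (nat_lit 0x0) (nat_lit 0x40002000000002003f000400020000000000000000000000000000000) := T_25 (nat_lit 157) (nat_lit 156) (nat_lit 0) (nat_lit 7) (nat_lit 10) L7324 (by decide +kernel)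
theorem L7326 : W_25 (nat_lit 7) (nat_lit 0x58002c0000001000080000000000000000000000000000000) (nat_lit 0x0) (nat_lit 0x40002000040012003f000400020000000000000000000000000000000) := T_25 (nat_lit 176) (nat_lit 190) (nat_lit 1) (nat_lit 7) (nat_lit 10) L7325 (by decide +kernel)
theorem L7327 : W_25 (nat_lit 2) (nat_lit 0x24005e002c0000001000080000000000000000000000000000000) (nat_lit 0x0) (nat_lit 0x8000400000000000000002000000000000000000000000000000000000000) := D_25 (nat_lit 226) (nat_lit 157) (nat_lit 243) (nat_lit 4) (nat_lit 5) (nat_lit 13) (nat_lit 4) (nat_lit 5) (nat_lit 14) (by decide +kernel)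
theorem L7328 : W_25 (nat_lit 3) (nat_lit 0x4005e002c0000001000080000000000000000000000000000000) (nat_lit 0x0) (nat_lit 0x8000400060000000000002000000000000000000000000000000000000000) := T_25 (nat_lit 209) (nat_lit 210) (nat_lit 3) (nat_lit 2) (nat_lit 11) L7327 (by decide +kernel)
theorem L7329 : W_25 (nat_lit 4) (nat_lit 0x5e002c0000001000080000000000000000000000000000000) (nat_lit 0x0) (nat_lit 0x8000400066000000000002000000000000000000000000000000000000000) := T_25 (nat_lit 206) (nat_lit 205) (nat_lit 1) (nat_lit 5) (nat_lit 11) L7328 (by decide +kernel)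
theorem L7330 : W_25 (nat_lit 5) (nat_lit 0x5c002c0000001000080000000000000000000000000000000) (nat_lit 0x0) (nat_lit 0x8000400066000300000002000000000000000000000000000000000000000) := T_25 (nat_lit 189) (nat_lit 188) (nat_lit 2) (nat_lit 1) (nat_lit 11) L7329 (by decide +kernel)
theorem L7331 : W_25 (nat_lit 6) (nat_lit 0x58002c0000001000080000000000000000000000000000000) (nat_lit 0x0) (nat_lit 0x8000400066000700100002000000000000000000000000000000000000000) := T_25 (nat_lit 190) (nat_lit 176) (nat_lit 1) (nat_lit 7) (nat_lit 10) L7330 (by decide +kernel)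
theorem L7332 : W_25 (nat_lit 8) (nat_lit 0x50002c0000001000080000000000000000000000000000000) (nat_lit 0x0) (nat_lit 0xc00060007e002f0012003f000400020000000000000000000000000000000) := Q_25 (nat_lit 191) (C_25 L7237 (C_25 L7326 (C_25 L7331 N_25))) (by decide +kernel)
theorem L7333 : W_25 (nat_lit 9) (nat_lit 0x5000280000001000080000000000000000000000000000000) (nat_lit 0x0) (nat_lit 0xc00060007e00af0017003f000400020000000000000000000000000000000) := Q_25 (nat_lit 174) (C_25 L7153 (C_25 L7169 (C_25 L7157 (C_25 L7332 N_25)))) (by decide +kernel)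
theorem L7334 : W_25 (nat_lit 2) (nat_lit 0x200010007c002a0000001000080000000000000000000000000000000) (nat_lit 0x0) (nat_lit 0x20000000000004000200000000000000000000000000000000000) := D_25 (nat_lit 158) (nat_lit 141) (nat_lit 209) (nat_lit 5) (nat_lit 5) (nat_lit 8) (nat_lit 5) (nat_lit 5) (nat_lit 9) (by decide +kernel)
theorem L7335 : W_25 (nat_lit 3) (nat_lit 0x10007c002a0000001000080000000000000000000000000000000) (nat_lit 0x0) (nat_lit 0x4000200020000000000004000200000000000000000000000000000000000) := T_25 (nat_lit 225) (nat_lit 242) (nat_lit 6) (nat_lit 4) (nat_lit 14) L7334 (by decide +kernel)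
theorem L7336 : W_25 (nat_lit 4) (nat_lit 0x10007c00280000001000080000000000000000000000000000000) (nat_lit 0x0) (nat_lit 0x4000200020000000030004000200000000000000000000000000000000000) := T_25 (nat_lit 173) (nat_lit 172) (nat_lit 0) (nat_lit 6) (nat_lit 11) L7335 (by decide +kernel)
theorem L7337 : W_25 (nat_lit 5) (nat_lit 0x10007800280000001000080000000000000000000000000000000) (nat_lit 0x0) (nat_lit 0x4000200020000400130004000200000000000000000000000000000000000) := T_25 (nat_lit 190) (nat_lit 176) (nat_lit 2) (nat_lit 3) (nat_lit 11) L7336 (by decide +kernel)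
theorem L7338 : W_25 (nat_lit 6) (nat_lit 0x7800280000001000080000000000000000000000000000000) (nat_lit 0x0) (nat_lit 0x4000200038000400130004000200000000000000000000000000000000000) := T_25 (nat_lit 208) (nat_lit 207) (nat_lit 1) (nat_lit 7) (nat_lit 11) L7337 (by decide +kernel)
theorem L7339 : W_25 (nat_lit 2) (nat_lit 0x30007800280000001000080000000000000000000000000000000) (nat_lit 0x0) (nat_lit 0x4000200000000000000004000000000000000000000000000000000000000) := D_25 (nat_lit 225) (nat_lit 242) (nat_lit 158) (nat_lit 6) (nat_lit 4) (nat_lit 14) (nat_lit 5) (nat_lit 5) (nat_lit 9) (by decide +kernel)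
theorem L7340 : W_25 (nat_lit 3) (nat_lit 0x10007800280000001000080000000000000000000000000000000) (nat_lit 0x0) (nat_lit 0x4000200020008000000004000000000000000000000000000000000000000) := T_25 (nat_lit 209) (nat_lit 195) (nat_lit 1) (nat_lit 8) (nat_lit 11) L7339 (by decide +kernel)
theorem L7341 : W_25 (nat_lit 4) (nat_lit 0x7800280000001000080000000000000000000000000000000) (nat_lit 0x0) (nat_lit 0x4000200038008000000004000000000000000000000000000000000000000) := T_25 (nat_lit 208) (nat_lit 207) (nat_lit 1) (nat_lit 7) (nat_lit 11) L7340 (by decide +kernel)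
theorem L7342 : W_25 (nat_lit 2) (nat_lit 0x4000000030007c002a0000001080080000000000000000000000000000000) (nat_lit 0x0) (nat_lit 0x40000300000000000000000000000000000000000000000000000) := D_25 (nat_lit 189) (nat_lit 188) (nat_lit 210) (nat_lit 3) (nat_lit 1) (nat_lit 11) (nat_lit 3) (nat_lit 2) (nat_lit 11) (by decide +kernel)
theorem L7343 : W_25 (nat_lit 3) (nat_lit 0x4000000010007c002a0000001080080000000000000000000000000000000) (nat_lit 0x0) (nat_lit 0x60008300000000000000000000000000000000000000000000000) := T_25 (nat_lit 209) (nat_lit 195) (nat_lit 1) (nat_lit 8) (nat_lit 11) L7342 (by decide +kernel)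
theorem L7344 : W_25 (nat_lit 4) (nat_lit 0x4000000010007c002a0000001000080000000000000000000000000000000) (nat_lit 0x0) (nat_lit 0x60008300000001000080000000000000000000000000000000000) := T_25 (nat_lit 139) (nat_lit 156) (nat_lit 7) (nat_lit 3) (nat_lit 8) L7343 (by decide +kernel)
theorem L7345 : W_25 (nat_lit 5) (nat_lit 0x10007c002a0000001000080000000000000000000000000000000) (nat_lit 0x0) (nat_lit 0x4000200060008300000001000080000000000000000000000000000000000) := T_25 (nat_lit 242) (nat_lit 225) (nat_lit 6) (nat_lit 4) (nat_lit 14) L7344 (by decide +kernel)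
theorem L7346 : W_25 (nat_lit 6) (nat_lit 0x10007c00280000001000080000000000000000000000000000000) (nat_lit 0x0) (nat_lit 0x4000200060008300030001000080000000000000000000000000000000000) := T_25 (nat_lit 173) (nat_lit 172) (nat_lit 0) (nat_lit 6) (nat_lit 11) L7345 (by decide +kernel)
theorem L7347 : W_25 (nat_lit 7) (nat_lit 0x10007800280000001000080000000000000000000000000000000) (nat_lit 0x0) (nat_lit 0x4000200060008700130001000080000000000000000000000000000000000) := T_25 (nat_lit 190) (nat_lit 176) (nat_lit 2) (nat_lit 3) (nat_lit 11) L7346 (by decide +kernel)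
theorem L7348 : W_25 (nat_lit 8) (nat_lit 0x7800280000001000080000000000000000000000000000000) (nat_lit 0x0) (nat_lit 0x4000200078008700130001000080000000000000000000000000000000000) := T_25 (nat_lit 208) (nat_lit 207) (nat_lit 1) (nat_lit 7) (nat_lit 11) L7347 (by decide +kernel)
theorem L7349 : W_25 (nat_lit 2) (nat_lit 0x8007800280000001000080000000000000000000000000000000) (nat_lit 0x0) (nat_lit 0x4000400100000000000000000000000000000000000000000000) := D_25 (nat_lit 190) (nat_lit 176) (nat_lit 206) (nat_lit 2) (nat_lit 3) (nat_lit 11) (nat_lit 1) (nat_lit 6) (nat_lit 11) (by decide +kernel)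
theorem L7350 : W_25 (nat_lit 3) (nat_lit 0x7800280000001000080000000000000000000000000000000) (nat_lit 0x0) (nat_lit 0x1c000400100000000000000000000000000000000000000000000) := T_25 (nat_lit 207) (nat_lit 208) (nat_lit 1) (nat_lit 7) (nat_lit 11) L7349 (by decide +kernel)
theorem L7351 : W_25 (nat_lit 2) (nat_lit 0x4007c00290000001000080000000000000000000000000000000) (nat_lit 0x0) (nat_lit 0x2000200008000000000000000000000000000000000000000000) := D_25 (nat_lit 189) (nat_lit 205) (nat_lit 171) (nat_lit 1) (nat_lit 5) (nat_lit 11) (nat_lit 0) (nat_lit 5) (nat_lit 11) (by decide +kernel)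
theorem L7352 : W_25 (nat_lit 3) (nat_lit 0x4007c00280000001000080000000000000000000000000000000) (nat_lit 0x0) (nat_lit 0x2000200038000000000000000000000000000000000000000000) := T_25 (nat_lit 172) (nat_lit 173) (nat_lit 0) (nat_lit 6) (nat_lit 11) L7351 (by decide +kernel)
theorem L7353 : W_25 (nat_lit 4) (nat_lit 0x7c00280000001000080000000000000000000000000000000) (nat_lit 0x0) (nat_lit 0xe000200038000000000000000000000000000000000000000000) := T_25 (nat_lit 206) (nat_lit 207) (nat_lit 1) (nat_lit 6) (nat_lit 11) L7352 (by decide +kernel)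
theorem L7354 : W_25 (nat_lit 5) (nat_lit 0x7800280000001000080000000000000000000000000000000) (nat_lit 0x0) (nat_lit 0xe000600138000000000000000000000000000000000000000000) := T_25 (nat_lit 190) (nat_lit 176) (nat_lit 2) (nat_lit 3) (nat_lit 11) L7353 (by decide +kernel)
theorem L7355 : W_25 (nat_lit 2) (nat_lit 0x24007e00290000001000080000000000000000000000000000000) (nat_lit 0x0) (nat_lit 0x10008100000000000000000000000000000000000000000000000) := D_25 (nat_lit 208) (nat_lit 188) (nat_lit 195) (nat_lit 3) (nat_lit 1) (nat_lit 11) (nat_lit 1) (nat_lit 8) (nat_lit 11) (by decide +kernel)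
theorem L7356 : W_25 (nat_lit 3) (nat_lit 0x4007e00290000001000080000000000000000000000000000000) (nat_lit 0x0) (nat_lit 0x70008100000000000000000000000000000000000000000000000) := T_25 (nat_lit 209) (nat_lit 210) (nat_lit 3) (nat_lit 2) (nat_lit 11) L7355 (by decide +kernel)
theorem L7357 : W_25 (nat_lit 4) (nat_lit 0x7e00290000001000080000000000000000000000000000000) (nat_lit 0x0) (nat_lit 0x76008100000000000000000000000000000000000000000000000) := T_25 (nat_lit 206) (nat_lit 205) (nat_lit 1) (nat_lit 5) (nat_lit 11) L7356 (by decide +kernel)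
theorem L7358 : W_25 (nat_lit 5) (nat_lit 0x7c00290000001000080000000000000000000000000000000) (nat_lit 0x0) (nat_lit 0x76008300008000000000000000000000000000000000000000000) := T_25 (nat_lit 189) (nat_lit 171) (nat_lit 0) (nat_lit 5) (nat_lit 11) L7357 (by decide +kernel)
theorem L7359 : W_25 (nat_lit 6) (nat_lit 0x7c00280000001000080000000000000000000000000000000) (nat_lit 0x0) (nat_lit 0x76008300038000000000000000000000000000000000000000000) := T_25 (nat_lit 172) (nat_lit 173) (nat_lit 0) (nat_lit 6) (nat_lit 11) L7358 (by decide +kernel)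
theorem L7360 : W_25 (nat_lit 7) (nat_lit 0x7800280000001000080000000000000000000000000000000) (nat_lit 0x0) (nat_lit 0x76008700138000000000000000000000000000000000000000000) := T_25 (nat_lit 190) (nat_lit 176) (nat_lit 2) (nat_lit 3) (nat_lit 11) L7359 (by decide +kernel)
theorem L7361 : W_25 (nat_lit 9) (nat_lit 0x7000280000001000080000000000000000000000000000000) (nat_lit 0x0) (nat_lit 0x400020007e008f00138005000280000000000000000000000000000000000) := Q_25 (nat_lit 191) (C_25 L7338 (C_25 L7341 (C_25 L7348 (C_25 L7350 (C_25 L7354 (C_25 L7360 N_25)))))) (by decide +kernel)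
theorem L7362 : W_25 (nat_lit 2) (nat_lit 0x16000f000280000001000080000000000000000000000000000000) (nat_lit 0x0) (nat_lit 0x10000800000000000000004000000000000000000000000000000000000000) := D_25 (nat_lit 227) (nat_lit 244) (nat_lit 158) (nat_lit 6) (nat_lit 6) (nat_lit 14) (nat_lit 7) (nat_lit 5) (nat_lit 9) (by decide +kernel)
theorem L7363 : W_25 (nat_lit 3) (nat_lit 0x12000f000280000001000080000000000000000000000000000000) (nat_lit 0x0) (nat_lit 0x10000800040010000000004000000000000000000000000000000000000000) := T_25 (nat_lit 210) (nat_lit 196) (nat_lit 1) (nat_lit 9) (nat_lit 11) L7362 (by decide +kernel)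
theorem L7364 : W_25 (nat_lit 4) (nat_lit 0x2000f000280000001000080000000000000000000000000000000) (nat_lit 0x0) (nat_lit 0x10000800340010000000004000000000000000000000000000000000000000) := T_25 (nat_lit 212) (nat_lit 213) (nat_lit 3) (nat_lit 5) (nat_lit 11) L7363 (by decide +kernel)
theorem L7365 : W_25 (nat_lit 5) (nat_lit 0xf000280000001000080000000000000000000000000000000) (nat_lit 0x0) (nat_lit 0x10000800370010000000004000000000000000000000000000000000000000) := T_25 (nat_lit 209) (nat_lit 208) (nat_lit 1) (nat_lit 8) (nat_lit 11) L7364 (by decide +kernel)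
theorem L7366 : W_25 (nat_lit 6) (nat_lit 0x7000280000001000080000000000000000000000000000000) (nat_lit 0x0) (nat_lit 0x10000800370018000040004000000000000000000000000000000000000000) := T_25 (nat_lit 195) (nat_lit 174) (nat_lit 0) (nat_lit 8) (nat_lit 11) L7365 (by decide +kernel)
theorem L7367 : W_25 (nat_lit 4) (nat_lit 0x7800280000001000080000000000000000000000000000000) (nat_lit 0x0) (nat_lit 0x4000200018000000060004000000000000000000000000000000000000000) := T_25 (nat_lit 174) (nat_lit 173) (nat_lit 0) (nat_lit 7) (nat_lit 11) L7236 (by decide +kernel)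
theorem L7368 : W_25 (nat_lit 2) (nat_lit 0x600024007e002d0004001200080000000000000000000000000000000) (nat_lit 0x0) (nat_lit 0x8000400020000000000000000000000000000000) := D_25 (nat_lit 142) (nat_lit 159) (nat_lit 125) (nat_lit 6) (nat_lit 5) (nat_lit 12) (nat_lit 6) (nat_lit 5) (nat_lit 11) (by decide +kernel)
theorem L7369 : W_25 (nat_lit 3) (nat_lit 0x600024007e002d0004001000080000000000000000000000000000000) (nat_lit 0x0) (nat_lit 0x8000600030000000000000000000000000000000) := T_25 (nat_lit 141) (nat_lit 124) (nat_lit 5) (nat_lit 5) (nat_lit 7) L7368 (by decide +kernel)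
theorem L7370 : W_25 (nat_lit 4) (nat_lit 0x600024007e002d0000001000080000000000000000000000000000000) (nat_lit 0x0) (nat_lit 0x1000000000000c000600030000000000000000000000000000000) := T_25 (nat_lit 158) (nat_lit 208) (nat_lit 6) (nat_lit 4) (nat_lit 13) L7369 (by decide +kernel)
theorem L7371 : W_25 (nat_lit 5) (nat_lit 0x400024007e002d0000001000080000000000000000000000000000000) (nat_lit 0x0) (nat_lit 0x400020001000000000000c000600030000000000000000000000000000000) := T_25 (nat_lit 225) (nat_lit 242) (nat_lit 5) (nat_lit 5) (nat_lit 10) L7370 (by decide +kernel)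
theorem L7372 : W_25 (nat_lit 6) (nat_lit 0x24007e002d0000001000080000000000000000000000000000000) (nat_lit 0x0) (nat_lit 0xc00060001000000000000c000600030000000000000000000000000000000) := T_25 (nat_lit 226) (nat_lit 243) (nat_lit 4) (nat_lit 5) (nat_lit 14) L7371 (by decide +kernel)
theorem L7373 : W_25 (nat_lit 7) (nat_lit 0x24007e002c0000001000080000000000000000000000000000000) (nat_lit 0x0) (nat_lit 0xc00060001000000001800c000600030000000000000000000000000000000) := T_25 (nat_lit 172) (nat_lit 171) (nat_lit 0) (nat_lit 5) (nat_lit 11) L7372 (by decide +kernel)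
theorem L7374 : W_25 (nat_lit 8) (nat_lit 0x4007e002c0000001000080000000000000000000000000000000) (nat_lit 0x0) (nat_lit 0xc00060007000000001800c000600030000000000000000000000000000000) := T_25 (nat_lit 209) (nat_lit 210) (nat_lit 3) (nat_lit 2) (nat_lit 11) L7373 (by decide +kernel)
theorem L7375 : W_25 (nat_lit 9) (nat_lit 0x7e002c0000001000080000000000000000000000000000000) (nat_lit 0x0) (nat_lit 0xc00060007600000001800c000600030000000000000000000000000000000) := T_25 (nat_lit 206) (nat_lit 205) (nat_lit 1) (nat_lit 5) (nat_lit 11) L7374 (by decide +kernel)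
theorem L7376 : W_25 (nat_lit 10) (nat_lit 0x7c002c0000001000080000000000000000000000000000000) (nat_lit 0x0) (nat_lit 0xc00060007600030001800c000600030000000000000000000000000000000) := T_25 (nat_lit 189) (nat_lit 188) (nat_lit 2) (nat_lit 1) (nat_lit 11) L7375 (by decide +kernel)
theorem L7377 : W_25 (nat_lit 11) (nat_lit 0x78002c0000001000080000000000000000000000000000000) (nat_lit 0x0) (nat_lit 0xc00060007600070011800c000600030000000000000000000000000000000) := T_25 (nat_lit 190) (nat_lit 176) (nat_lit 2) (nat_lit 3) (nat_lit 11) L7376 (by decide +kernel)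
theorem L7378 : W_25 (nat_lit 12) (nat_lit 0x7800280000001000080000000000000000000000000000000) (nat_lit 0x0) (nat_lit 0xc00060007600070017800c000600030000000000000000000000000000000) := T_25 (nat_lit 174) (nat_lit 173) (nat_lit 0) (nat_lit 7) (nat_lit 11) L7377 (by decide +kernel)
theorem L7379 : W_25 (nat_lit 13) (nat_lit 0x7000280000001000080000000000000000000000000000000) (nat_lit 0x0) (nat_lit 0xc00060007e000f0017800c000600030000000000000000000000000000000) := Q_25 (nat_lit 191) (C_25 L7354 (C_25 L7367 (C_25 L7350 (C_25 L7378 N_25)))) (by decide +kernel)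
theorem L7380 : W_25 (nat_lit 2) (nat_lit 0x1f000280000001000080000000000000000000000000000000) (nat_lit 0x0) (nat_lit 0x700000000000000000000000000000000000000000000000000000) := D_25 (nat_lit 213) (nat_lit 212) (nat_lit 214) (nat_lit 3) (nat_lit 5) (nat_lit 11) (nat_lit 3) (nat_lit 6) (nat_lit 11) (by decide +kernel)
theorem L7381 : W_25 (nat_lit 3) (nat_lit 0xf000280000001000080000000000000000000000000000000) (nat_lit 0x0) (nat_lit 0x700010000100000000000000000000000000000000000000000000) := T_25 (nat_lit 196) (nat_lit 176) (nat_lit 0) (nat_lit 9) (nat_lit 11) L7380 (by decide +kernel)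
theorem L7382 : W_25 (nat_lit 4) (nat_lit 0x7000280000001000080000000000000000000000000000000) (nat_lit 0x0) (nat_lit 0x700018000140000000000000000000000000000000000000000000) := T_25 (nat_lit 195) (nat_lit 174) (nat_lit 0) (nat_lit 8) (nat_lit 11) L7381 (by decide +kernel)
theorem L7383 : W_25 (nat_lit 14) (nat_lit 0x5000280000001000080000000000000000000000000000000) (nat_lit 0x0) (nat_lit 0x1c000e0077e01af0017800d000680030000000000000000000000000000000) := Q_25 (nat_lit 193) (C_25 L7361 (C_25 L7366 (C_25 L7379 (C_25 L7382 N_25)))) (by decide +kernel)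
theorem L7384 : W_25 (nat_lit 7) (nat_lit 0x50002c0000001000080000000000000000000000000000000) (nat_lit 0x0) (nat_lit 0xc00060007e002f00120006000000000000000000000000000000000000000) := Q_25 (nat_lit 191) (C_25 L7331 (C_25 L7237 N_25)) (by decide +kernel)
theorem L7385 : W_25 (nat_lit 8) (nat_lit 0x5000280000001000080000000000000000000000000000000) (nat_lit 0x0) (nat_lit 0xc00060007e00af0017003e000000000000000000000000000000000000000) := Q_25 (nat_lit 174) (C_25 L7153 (C_25 L7169 (C_25 L7157 (C_25 L7384 N_25)))) (by decide +kernel)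
theorem L7386 : W_25 (nat_lit 15) (nat_lit 0x4000280000001000080000000000000000000000000000000) (nat_lit 0x0) (nat_lit 0x500038001c001f8077e03bf0017803fc007e007c001e00060000000000000000000000) := Q_25 (nat_lit 192) (C_25 L6960 (C_25 L7060 (C_25 L7066 (C_25 L7151 (C_25 L7170 (C_25 L7176 (C_25 L7234 (C_25 L7239 (C_25 L7257 (C_25 L7264 (C_25 L7311 (C_25 L7320 (C_25 L7333 (C_25 L7383 (C_25 L7385 N_25))))))))))))))) (by decide +kernel)
theorem L7390 : W_25 (nat_lit 5) (nat_lit 0x4000380020001000080000000000000000000000000000000) (nat_lit 0x0) (nat_lit 0xe00060013800000000000000000000000000000000000000) := T_25 (nat_lit 174) (nat_lit 160) (nat_lit 2) (nat_lit 4) (nat_lit 10) L7389 (by decide +kernel)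
theorem L7391 : W_25 (nat_lit 6) (nat_lit 0x4000380000001000080000000000000000000000000000000) (nat_lit 0x0) (nat_lit 0xe00460033800000000000000000000000000000000000000) := T_25 (nat_lit 161) (nat_lit 178) (nat_lit 5) (nat_lit 8) (nat_lit 7) L7390 (by decide +kernel)
theorem L7403 : W_25 (nat_lit 7) (nat_lit 0x4000780000001000080000000000000000000000000000000) (nat_lit 0x0) (nat_lit 0x198038001ce000000000000000000000000000000000000000) := T_25 (nat_lit 195) (nat_lit 196) (nat_lit 3) (nat_lit 5) (nat_lit 10) L7402 (by decide +kernel)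
theorem L7404 : W_25 (nat_lit 8) (nat_lit 0x4000380000001000080000000000000000000000000000000) (nat_lit 0x0) (nat_lit 0x19803c001ee000000000000000000000000000000000000000) := T_25 (nat_lit 178) (nat_lit 161) (nat_lit 5) (nat_lit 8) (nat_lit 7) L7403 (by decide +kernel)
theorem L7408 : W_25 (nat_lit 3) (nat_lit 0x40003c0010001000080000000000000000000000000000000) (nat_lit 0x0) (nat_lit 0xe00020008000000000000000000000000000000000000000) := T_25 (nat_lit 173) (nat_lit 159) (nat_lit 2) (nat_lit 3) (nat_lit 10) L7407 (by decide +kernel)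
theorem L7409 : W_25 (nat_lit 4) (nat_lit 0x40003c0000001000080000000000000000000000000000000) (nat_lit 0x0) (nat_lit 0xe00020038000000000000000000000000000000000000000) := T_25 (nat_lit 160) (nat_lit 161) (nat_lit 2) (nat_lit 4) (nat_lit 10) L7408 (by decide +kernel)
theorem L7410 : W_25 (nat_lit 5) (nat_lit 0x4000380000001000080000000000000000000000000000000) (nat_lit 0x0) (nat_lit 0x8e00060038000000000000000000000000000000000000000) := T_25 (nat_lit 174) (nat_lit 195) (nat_lit 3) (nat_lit 4) (nat_lit 10) L7409 (by decide +kernel)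
theorem L7411 : W_25 (nat_lit 9) (nat_lit 0x4000280000001000080000000000000000000000000000000) (nat_lit 0x0) (nat_lit 0x19e03d601ff800000000000000000000000000000000000000) := Q_25 (nat_lit 176) (C_25 L7391 (C_25 L7393 (C_25 L7397 (C_25 L7404 (C_25 L7406 (C_25 L7410 N_25)))))) (by decide +kernel)
theorem L7415 : W_25 (nat_lit 5) (nat_lit 0x4000380000001000080000000000000000000000000000000) (nat_lit 0x0) (nat_lit 0x3800c0002e000000000000000000000000000000000000000) := T_25 (nat_lit 178) (nat_lit 161) (nat_lit 5) (nat_lit 8) (nat_lit 7) L7414 (by decide +kernel)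
theorem L7419 : W_25 (nat_lit 2) (nat_lit 0x40003e0020001000080000000000000000000000000000000) (nat_lit 0x0) (nat_lit 0xe00000000000000000000000000000000000000000000000) := D_25 (nat_lit 190) (nat_lit 189) (nat_lit 191) (nat_lit 1) (nat_lit 6) (nat_lit 10) (nat_lit 1) (nat_lit 7) (nat_lit 10) (by decide +kernel)
theorem L7420 : W_25 (nat_lit 3) (nat_lit 0x40003c0020001000080000000000000000000000000000000) (nat_lit 0x0) (nat_lit 0x2e00020000000000000000000000000000000000000000000) := T_25 (nat_lit 173) (nat_lit 193) (nat_lit 3) (nat_lit 3) (nat_lit 10) L7419 (by decide +kernel)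
theorem L7421 : W_25 (nat_lit 4) (nat_lit 0x4000380020001000080000000000000000000000000000000) (nat_lit 0x0) (nat_lit 0xae00060000000000000000000000000000000000000000000) := T_25 (nat_lit 174) (nat_lit 195) (nat_lit 3) (nat_lit 4) (nat_lit 10) L7420 (by decide +kernel)
theorem L7422 : W_25 (nat_lit 5) (nat_lit 0x4000380000001000080000000000000000000000000000000) (nat_lit 0x0) (nat_lit 0xae00460020000000000000000000000000000000000000000) := T_25 (nat_lit 161) (nat_lit 178) (nat_lit 5) (nat_lit 8) (nat_lit 7) L7421 (by decide +kernel)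
theorem L7423 : W_25 (nat_lit 7) (nat_lit 0x4000280000001000080000000000000000000000000000000) (nat_lit 0x0) (nat_lit 0xbe00d6002f800000000000000000000000000000000000000) := Q_25 (nat_lit 176) (C_25 L7415 (C_25 L7397 (C_25 L7393 (C_25 L7418 (C_25 L7422 N_25))))) (by decide +kernel)
theorem L7424 : W_25 (nat_lit 6) (nat_lit 0x5000280004001000080000000000000000000000000000000) (nat_lit 0x0) (nat_lit 0xc0006000200007001a000700028000000000000000000000000000000) := Q_25 (nat_lit 209) (C_25 L7208 (C_25 L6940 (C_25 L6838 N_25))) (by decide +kernel)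
theorem L7429 : W_25 (nat_lit 6) (nat_lit 0x5000280004001000080000000000000000000000000000000) (nat_lit 0x0) (nat_lit 0x10002800440020000300018000400000000000000000000000000) := T_25 (nat_lit 178) (nat_lit 161) (nat_lit 5) (nat_lit 8) (nat_lit 7) L7428 (by decide +kernel)
theorem L7430 : W_25 (nat_lit 2) (nat_lit 0x5800680004001700080000000000000000000000000000000) (nat_lit 0x0) (nat_lit 0x2000000000000a000000000000000000000000000000000000000) := D_25 (nat_lit 209) (nat_lit 157) (nat_lit 159) (nat_lit 4) (nat_lit 5) (nat_lit 12) (nat_lit 6) (nat_lit 5) (nat_lit 12) (by decide +kernel)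
theorem L7431 : W_25 (nat_lit 3) (nat_lit 0x5800680004001300080000000000000000000000000000000) (nat_lit 0x0) (nat_lit 0x2000000000000a000400020000000000000000000000000000000) := T_25 (nat_lit 142) (nat_lit 125) (nat_lit 6) (nat_lit 5) (nat_lit 11) L7430 (by decide +kernel)
theorem L7432 : W_25 (nat_lit 4) (nat_lit 0x5800680004001200080000000000000000000000000000000) (nat_lit 0x0) (nat_lit 0x2000000000000a000500028000000000000000000000000000000) := T_25 (nat_lit 140) (nat_lit 123) (nat_lit 4) (nat_lit 5) (nat_lit 11) L7431 (by decide +kernel)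
theorem L7433 : W_25 (nat_lit 5) (nat_lit 0x5800680004001000080000000000000000000000000000000) (nat_lit 0x0) (nat_lit 0x3000000000000a000700028000000000000000000000000000000) := T_25 (nat_lit 141) (nat_lit 208) (nat_lit 5) (nat_lit 5) (nat_lit 8) L7432 (by decide +kernel)
theorem L7434 : W_25 (nat_lit 6) (nat_lit 0x5000680004001000080000000000000000000000000000000) (nat_lit 0x0) (nat_lit 0x3000280000000a000700028000000000000000000000000000000) := T_25 (nat_lit 191) (nat_lit 193) (nat_lit 2) (nat_lit 4) (nat_lit 11) L7433 (by decide +kernel)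
theorem L7435 : W_25 (nat_lit 7) (nat_lit 0x5000280004001000080000000000000000000000000000000) (nat_lit 0x0) (nat_lit 0x3000280040002a000700028000000000000000000000000000000) := T_25 (nat_lit 178) (nat_lit 161) (nat_lit 5) (nat_lit 8) (nat_lit 7) L7434 (by decide +kernel)
theorem L7436 : W_25 (nat_lit 2) (nat_lit 0x8007800520028002c001000080000000000000000000000000000000) (nat_lit 0x0) (nat_lit 0x40004000100000000000000000000000000000000000000000000000) := D_25 (nat_lit 206) (nat_lit 222) (nat_lit 188) (nat_lit 1) (nat_lit 5) (nat_lit 12) (nat_lit 0) (nat_lit 5) (nat_lit 12) (by decide +kernel)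
theorem L7437 : W_25 (nat_lit 3) (nat_lit 0x8007800500028002c001000080000000000000000000000000000000) (nat_lit 0x0) (nat_lit 0x40004000700000000000000000000000000000000000000000000000) := T_25 (nat_lit 189) (nat_lit 190) (nat_lit 0) (nat_lit 6) (nat_lit 12) L7436 (by decide +kernel)
theorem L7438 : W_25 (nat_lit 4) (nat_lit 0x7800500028002c001000080000000000000000000000000000000) (nat_lit 0x0) (nat_lit 0x1c0004000700000000000000000000000000000000000000000000000) := T_25 (nat_lit 223) (nat_lit 224) (nat_lit 1) (nat_lit 6) (nat_lit 12) L7437 (by decide +kernel)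
theorem L7439 : W_25 (nat_lit 5) (nat_lit 0x7000500028002c001000080000000000000000000000000000000) (nat_lit 0x0) (nat_lit 0x1c000c002700000000000000000000000000000000000000000000000) := T_25 (nat_lit 207) (nat_lit 193) (nat_lit 2) (nat_lit 3) (nat_lit 12) L7438 (by decide +kernel)
theorem L7440 : W_25 (nat_lit 6) (nat_lit 0x6000500028002c001000080000000000000000000000000000000) (nat_lit 0x0) (nat_lit 0x3c001c002700000000000000000000000000000000000000000000000) := T_25 (nat_lit 208) (nat_lit 225) (nat_lit 5) (nat_lit 5) (nat_lit 9) L7439 (by decide +kernel)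
theorem L7441 : W_25 (nat_lit 7) (nat_lit 0x60005000280024001000080000000000000000000000000000000) (nat_lit 0x0) (nat_lit 0x3c001c002700000008000400000000000000000000000000000000000) := T_25 (nat_lit 159) (nat_lit 142) (nat_lit 6) (nat_lit 5) (nat_lit 12) L7440 (by decide +kernel)
theorem L7442 : W_25 (nat_lit 8) (nat_lit 0x20005000280024001000080000000000000000000000000000000) (nat_lit 0x0) (nat_lit 0xbc005c002700000008000400000000000000000000000000000000000) := T_25 (nat_lit 210) (nat_lit 227) (nat_lit 7) (nat_lit 5) (nat_lit 9) L7441 (by decide +kernel)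
theorem L7443 : W_25 (nat_lit 9) (nat_lit 0x20005000280004001000080000000000000000000000000000000) (nat_lit 0x0) (nat_lit 0xbc005c002700400028000400000000000000000000000000000000000) := T_25 (nat_lit 161) (nat_lit 178) (nat_lit 5) (nat_lit 8) (nat_lit 7) L7442 (by decide +kernel)
theorem L7444 : W_25 (nat_lit 10) (nat_lit 0x5000280004001000080000000000000000000000000000000) (nat_lit 0x0) (nat_lit 0xfc007c002f0047003a000500000000000000000000000000000000000) := Q_25 (nat_lit 209) (C_25 L7015 (C_25 L6940 (C_25 L7443 N_25))) (by decide +kernel)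
theorem L7449 : W_25 (nat_lit 6) (nat_lit 0x5000280004001000080000000000000000000000000000000) (nat_lit 0x0) (nat_lit 0x10002800440020000600030001000000000000000000000000000) := T_25 (nat_lit 178) (nat_lit 161) (nat_lit 5) (nat_lit 8) (nat_lit 7) L7448 (by decide +kernel)
theorem L7450 : W_25 (nat_lit 11) (nat_lit 0x5000280000001000080000000000000000000000000000000) (nat_lit 0x0) (nat_lit 0x4000fc007c002f0047003e000700038001400000000000000000000000000) := Q_25 (nat_lit 158) (C_25 L7424 (C_25 L6977 (C_25 L6976 (C_25 L6986 (C_25 L7429 (C_25 L7435 (C_25 L7444 (C_25 L7449 N_25)))))))) (by decide +kernel)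
theorem L7451 : W_25 (nat_lit 2) (nat_lit 0x7000680000001000080000000000000000000000000000000) (nat_lit 0x0) (nat_lit 0x8001800000000000000000000000000000000000000000000) := D_25 (nat_lit 179) (nat_lit 180) (nat_lit 195) (nat_lit 1) (nat_lit 10) (nat_lit 10) (nat_lit 2) (nat_lit 5) (nat_lit 11) (by decide +kernel)
theorem L7452 : W_25 (nat_lit 3) (nat_lit 0x5000680000001000080000000000000000000000000000000) (nat_lit 0x0) (nat_lit 0xa801800000000000000000000000000000000000000000000) := T_25 (nat_lit 193) (nat_lit 191) (nat_lit 2) (nat_lit 4) (nat_lit 11) L7451 (by decide +kernel)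
theorem L7453 : W_25 (nat_lit 4) (nat_lit 0x5000280000001000080000000000000000000000000000000) (nat_lit 0x0) (nat_lit 0xa801c00020000000000000000000000000000000000000000) := T_25 (nat_lit 178) (nat_lit 161) (nat_lit 5) (nat_lit 8) (nat_lit 7) L7452 (by decide +kernel)
theorem L7454 : W_25 (nat_lit 2) (nat_lit 0x7000500028002c001100080000000000000000000000000000000) (nat_lit 0x0) (nat_lit 0x10000200008000000000000000000000000000000) := D_25 (nat_lit 141) (nat_lit 123) (nat_lit 160) (nat_lit 4) (nat_lit 5) (nat_lit 11) (nat_lit 0) (nat_lit 8) (nat_lit 9) (by decide +kernel)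
theorem L7455 : W_25 (nat_lit 3) (nat_lit 0x7000500028002c001000080000000000000000000000000000000) (nat_lit 0x0) (nat_lit 0x12000300008000000000000000000000000000000) := T_25 (nat_lit 140) (nat_lit 157) (nat_lit 4) (nat_lit 5) (nat_lit 12) L7454 (by decide +kernel)
theorem L7456 : W_25 (nat_lit 4) (nat_lit 0x6000500028002c001000080000000000000000000000000000000) (nat_lit 0x0) (nat_lit 0x200010000000000012000300008000000000000000000000000000000) := T_25 (nat_lit 208) (nat_lit 225) (nat_lit 5) (nat_lit 5) (nat_lit 9) L7455 (by decide +kernel)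
theorem L7457 : W_25 (nat_lit 5) (nat_lit 0x60005000280024001000080000000000000000000000000000000) (nat_lit 0x0) (nat_lit 0x20001000000000001a000700008000000000000000000000000000000) := T_25 (nat_lit 159) (nat_lit 142) (nat_lit 6) (nat_lit 5) (nat_lit 12) L7456 (by decide +kernel)
theorem L7458 : W_25 (nat_lit 6) (nat_lit 0x20005000280024001000080000000000000000000000000000000) (nat_lit 0x0) (nat_lit 0xa0005000000000001a000700008000000000000000000000000000000) := T_25 (nat_lit 210) (nat_lit 227) (nat_lit 7) (nat_lit 5) (nat_lit 9) L7457 (by decide +kernel)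
theorem L7459 : W_25 (nat_lit 7) (nat_lit 0x20005000280004001000080000000000000000000000000000000) (nat_lit 0x0) (nat_lit 0xa0005000000040003a000700008000000000000000000000000000000) := T_25 (nat_lit 161) (nat_lit 178) (nat_lit 5) (nat_lit 8) (nat_lit 7) L7458 (by decide +kernel)
theorem L7460 : W_25 (nat_lit 2) (nat_lit 0x2000600050002c002c001000080000000000000000000000000000000) (nat_lit 0x0) (nat_lit 0x4000400000000000000002000000000000000000000000000000000000000) := D_25 (nat_lit 226) (nat_lit 157) (nat_lit 242) (nat_lit 4) (nat_lit 5) (nat_lit 13) (nat_lit 5) (nat_lit 5) (nat_lit 10) (by decide +kernel)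
theorem L7461 : W_25 (nat_lit 3) (nat_lit 0x600050002c002c001000080000000000000000000000000000000) (nat_lit 0x0) (nat_lit 0x4000600010000000000002000000000000000000000000000000000000000) := T_25 (nat_lit 225) (nat_lit 208) (nat_lit 5) (nat_lit 5) (nat_lit 9) L7460 (by decide +kernel)
theorem L7462 : W_25 (nat_lit 4) (nat_lit 0x6000500028002c001000080000000000000000000000000000000) (nat_lit 0x0) (nat_lit 0x4000600010000000040012000000000000000000000000000000000000000) := T_25 (nat_lit 174) (nat_lit 160) (nat_lit 1) (nat_lit 8) (nat_lit 9) L7461 (by decide +kernel)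
theorem L7463 : W_25 (nat_lit 5) (nat_lit 0x60005000280024001000080000000000000000000000000000000) (nat_lit 0x0) (nat_lit 0x400060001000000004001a000400000000000000000000000000000000000) := T_25 (nat_lit 159) (nat_lit 142) (nat_lit 6) (nat_lit 5) (nat_lit 12) L7462 (by decide +kernel)
theorem L7464 : W_25 (nat_lit 6) (nat_lit 0x20005000280024001000080000000000000000000000000000000) (nat_lit 0x0) (nat_lit 0x4000e0005000000004001a000400000000000000000000000000000000000) := T_25 (nat_lit 210) (nat_lit 227) (nat_lit 7) (nat_lit 5) (nat_lit 9) L7463 (by decide +kernel)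
theorem L7465 : W_25 (nat_lit 7) (nat_lit 0x20005000280004001000080000000000000000000000000000000) (nat_lit 0x0) (nat_lit 0x4000e0005000000044003a000400000000000000000000000000000000000) := T_25 (nat_lit 161) (nat_lit 178) (nat_lit 5) (nat_lit 8) (nat_lit 7) L7464 (by decide +kernel)
theorem L7466 : W_25 (nat_lit 2) (nat_lit 0x60002000500028000c001000080000000000000000000000000000000) (nat_lit 0x0) (nat_lit 0x10000800040000000000000000000000000000000000000000000000000000) := D_25 (nat_lit 227) (nat_lit 210) (nat_lit 244) (nat_lit 7) (nat_lit 5) (nat_lit 9) (nat_lit 7) (nat_lit 5) (nat_lit 10) (by decide +kernel)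
theorem L7467 : W_25 (nat_lit 3) (nat_lit 0x20002000500028000c001000080000000000000000000000000000000) (nat_lit 0x0) (nat_lit 0x14000c00040000000000000000000000000000000000000000000000000000) := T_25 (nat_lit 226) (nat_lit 242) (nat_lit 5) (nat_lit 5) (nat_lit 10) L7466 (by decide +kernel)
theorem L7468 : W_25 (nat_lit 4) (nat_lit 0x200020005000280004001000080000000000000000000000000000000) (nat_lit 0x0) (nat_lit 0x14000c00040000000000008000400000000000000000000000000000000000) := T_25 (nat_lit 159) (nat_lit 142) (nat_lit 6) (nat_lit 5) (nat_lit 12) L7467 (by decide +kernel)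
theorem L7469 : W_25 (nat_lit 5) (nat_lit 0x20005000280004001000080000000000000000000000000000000) (nat_lit 0x0) (nat_lit 0x14000e00050000000000008000400000000000000000000000000000000000) := T_25 (nat_lit 225) (nat_lit 208) (nat_lit 5) (nat_lit 5) (nat_lit 9) L7468 (by decide +kernel)
theorem L7470 : W_25 (nat_lit 8) (nat_lit 0x5000280004001000080000000000000000000000000000000) (nat_lit 0x0) (nat_lit 0x14000e0007000000047003a000700008000000000000000000000000000000) := Q_25 (nat_lit 209) (C_25 L6940 (C_25 L6829 (C_25 L7459 (C_25 L7465 (C_25 L7469 N_25))))) (by decide +kernel)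
theorem L7471 : W_25 (nat_lit 2) (nat_lit 0x600050002c0026801600080000000000000000000000000000000) (nat_lit 0x0) (nat_lit 0x800000000000000010000800000000000000000000000000) := D_25 (nat_lit 124) (nat_lit 107) (nat_lit 191) (nat_lit 5) (nat_lit 5) (nat_lit 6) (nat_lit 5) (nat_lit 5) (nat_lit 7) (by decide +kernel)
theorem L7472 : W_25 (nat_lit 3) (nat_lit 0x60005000280026801600080000000000000000000000000000000) (nat_lit 0x0) (nat_lit 0x400000000800040000000000010000800000000000000000000000000) := T_25 (nat_lit 174) (nat_lit 226) (nat_lit 4) (nat_lit 5) (nat_lit 13) L7471 (by decide +kernel)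
theorem L7473 : W_25 (nat_lit 4) (nat_lit 0x60005000280026001600080000000000000000000000000000000) (nat_lit 0x0) (nat_lit 0x400000000800040001800000010000800000000000000000000000000) := T_25 (nat_lit 155) (nat_lit 156) (nat_lit 2) (nat_lit 2) (nat_lit 9) L7472 (by decide +kernel)
theorem L7474 : W_25 (nat_lit 5) (nat_lit 0x60005000280026001400080000000000000000000000000000000) (nat_lit 0x0) (nat_lit 0x400000000800040001800200030000800000000000000000000000000) := T_25 (nat_lit 141) (nat_lit 125) (nat_lit 6) (nat_lit 5) (nat_lit 11) L7473 (by decide +kernel)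
theorem L7475 : W_25 (nat_lit 6) (nat_lit 0x60005000280024001400080000000000000000000000000000000) (nat_lit 0x0) (nat_lit 0x400000000800040003800300030000800000000000000000000000000) := T_25 (nat_lit 157) (nat_lit 140) (nat_lit 4) (nat_lit 5) (nat_lit 12) L7474 (by decide +kernel)
theorem L7476 : W_25 (nat_lit 7) (nat_lit 0x60005000280024001000080000000000000000000000000000000) (nat_lit 0x0) (nat_lit 0x40000000080004000b800700030000800000000000000000000000000) := T_25 (nat_lit 142) (nat_lit 159) (nat_lit 6) (nat_lit 5) (nat_lit 12) L7475 (by decide +kernel)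
theorem L7477 : W_25 (nat_lit 8) (nat_lit 0x20005000280024001000080000000000000000000000000000000) (nat_lit 0x0) (nat_lit 0xc0004000080004000b800700030000800000000000000000000000000) := T_25 (nat_lit 210) (nat_lit 227) (nat_lit 7) (nat_lit 5) (nat_lit 9) L7476 (by decide +kernel)
theorem L7478 : W_25 (nat_lit 9) (nat_lit 0x20005000280004001000080000000000000000000000000000000) (nat_lit 0x0) (nat_lit 0xc0004000080044002b800700030000800000000000000000000000000) := T_25 (nat_lit 161) (nat_lit 178) (nat_lit 5) (nat_lit 8) (nat_lit 7) L7477 (by decide +kernel)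
theorem L7479 : W_25 (nat_lit 10) (nat_lit 0x5000280004001000080000000000000000000000000000000) (nat_lit 0x0) (nat_lit 0x14000e0007000080044002b800700038000800000000000000000000000000) := Q_25 (nat_lit 209) (C_25 L7469 (C_25 L7075 (C_25 L7478 N_25))) (by decide +kernel)
theorem L7480 : W_25 (nat_lit 2) (nat_lit 0xa00020005000280024001700080000000000000000000000000000000) (nat_lit 0x0) (nat_lit 0x14000400000000000000000000000000000000000000000000000000000000) := D_25 (nat_lit 226) (nat_lit 242) (nat_lit 244) (nat_lit 5) (nat_lit 5) (nat_lit 10) (nat_lit 7) (nat_lit 5) (nat_lit 10) (by decide +kernel)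
theorem L7481 : W_25 (nat_lit 3) (nat_lit 0x200020005000280024001700080000000000000000000000000000000) (nat_lit 0x0) (nat_lit 0x14000c00040000000000000000000000000000000000000000000000000000) := T_25 (nat_lit 227) (nat_lit 210) (nat_lit 7) (nat_lit 5) (nat_lit 9) L7480 (by decide +kernel)
theorem L7482 : W_25 (nat_lit 4) (nat_lit 0x20005000280024001700080000000000000000000000000000000) (nat_lit 0x0) (nat_lit 0x14000e00050000000000000000000000000000000000000000000000000000) := T_25 (nat_lit 225) (nat_lit 208) (nat_lit 5) (nat_lit 5) (nat_lit 9) L7481 (by decide +kernel)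
theorem L7483 : W_25 (nat_lit 5) (nat_lit 0x5000280024001700080000000000000000000000000000000) (nat_lit 0x0) (nat_lit 0x14000e00070000000000002000000000000000000000000000000000000000) := T_25 (nat_lit 209) (nat_lit 157) (nat_lit 4) (nat_lit 5) (nat_lit 12) L7482 (by decide +kernel)
theorem L7484 : W_25 (nat_lit 6) (nat_lit 0x5000280024001600080000000000000000000000000000000) (nat_lit 0x0) (nat_lit 0x14000e00070000000000002000100008000000000000000000000000000000) := T_25 (nat_lit 140) (nat_lit 123) (nat_lit 4) (nat_lit 5) (nat_lit 11) L7483 (by decide +kernel)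
theorem L7485 : W_25 (nat_lit 7) (nat_lit 0x5000280024001200080000000000000000000000000000000) (nat_lit 0x0) (nat_lit 0x14000e00070000000000002000500028000000000000000000000000000000) := T_25 (nat_lit 142) (nat_lit 125) (nat_lit 6) (nat_lit 5) (nat_lit 11) L7484 (by decide +kernel)
theorem L7486 : W_25 (nat_lit 8) (nat_lit 0x5000280004001200080000000000000000000000000000000) (nat_lit 0x0) (nat_lit 0x14000e00070000000400022000500028000000000000000000000000000000) := T_25 (nat_lit 161) (nat_lit 178) (nat_lit 5) (nat_lit 8) (nat_lit 7) L7485 (by decide +kernel)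
theorem L7487 : W_25 (nat_lit 2) (nat_lit 0x200050002800240013000a0000000000000000000000000000000) (nat_lit 0x0) (nat_lit 0x50001000000000000000000000000000) := D_25 (nat_lit 124) (nat_lit 108) (nat_lit 126) (nat_lit 6) (nat_lit 5) (nat_lit 10) (nat_lit 1) (nat_lit 8) (nat_lit 7) (by decide +kernel)
theorem L7488 : W_25 (nat_lit 3) (nat_lit 0x20005000280024001300080000000000000000000000000000000) (nat_lit 0x0) (nat_lit 0x400070001000000000000000000000000000) := T_25 (nat_lit 125) (nat_lit 142) (nat_lit 6) (nat_lit 5) (nat_lit 11) L7487 (by decide +kernel)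
theorem L7489 : W_25 (nat_lit 4) (nat_lit 0x5000280024001300080000000000000000000000000000000) (nat_lit 0x0) (nat_lit 0x20000000000002000400070001000000000000000000000000000) := T_25 (nat_lit 209) (nat_lit 157) (nat_lit 4) (nat_lit 5) (nat_lit 12) L7488 (by decide +kernel)
theorem L7490 : W_25 (nat_lit 5) (nat_lit 0x5000280004001300080000000000000000000000000000000) (nat_lit 0x0) (nat_lit 0x20000000400022000400070001000000000000000000000000000) := T_25 (nat_lit 161) (nat_lit 178) (nat_lit 5) (nat_lit 8) (nat_lit 7) L7489 (by decide +kernel)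
theorem L7491 : W_25 (nat_lit 6) (nat_lit 0x5000280004001200080000000000000000000000000000000) (nat_lit 0x0) (nat_lit 0x20000000400022000500078001000000000000000000000000000) := T_25 (nat_lit 140) (nat_lit 123) (nat_lit 4) (nat_lit 5) (nat_lit 11) L7490 (by decide +kernel)
theorem L7492 : W_25 (nat_lit 9) (nat_lit 0x5000280004001000080000000000000000000000000000000) (nat_lit 0x0) (nat_lit 0x14000e00070000800440022000700078001000000000000000000000000000) := Q_25 (nat_lit 141) (C_25 L7195 (C_25 L7191 (C_25 L7486 (C_25 L7029 (C_25 L7491 N_25))))) (by decide +kernel)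
theorem L7493 : W_25 (nat_lit 2) (nat_lit 0x6000500028002c001100080000000000000000000000000000000) (nat_lit 0x0) (nat_lit 0x10000200008000000000000000000000000000000) := D_25 (nat_lit 141) (nat_lit 123) (nat_lit 160) (nat_lit 4) (nat_lit 5) (nat_lit 11) (nat_lit 0) (nat_lit 8) (nat_lit 9) (by decide +kernel)
theorem L7494 : W_25 (nat_lit 3) (nat_lit 0x6000500028002c001000080000000000000000000000000000000) (nat_lit 0x0) (nat_lit 0x12000300008000000000000000000000000000000) := T_25 (nat_lit 140) (nat_lit 157) (nat_lit 4) (nat_lit 5) (nat_lit 12) L7493 (by decide +kernel)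
theorem L7495 : W_25 (nat_lit 4) (nat_lit 0x60005000280024001000080000000000000000000000000000000) (nat_lit 0x0) (nat_lit 0x1a000700008000000000000000000000000000000) := T_25 (nat_lit 159) (nat_lit 142) (nat_lit 6) (nat_lit 5) (nat_lit 12) L7494 (by decide +kernel)
theorem L7496 : W_25 (nat_lit 5) (nat_lit 0x20005000280024001000080000000000000000000000000000000) (nat_lit 0x0) (nat_lit 0x80004000000000001a000700008000000000000000000000000000000) := T_25 (nat_lit 210) (nat_lit 227) (nat_lit 7) (nat_lit 5) (nat_lit 9) L7495 (by decide +kernel)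
theorem L7497 : W_25 (nat_lit 6) (nat_lit 0x20005000280004001000080000000000000000000000000000000) (nat_lit 0x0) (nat_lit 0x80004000000040003a000700008000000000000000000000000000000) := T_25 (nat_lit 161) (nat_lit 178) (nat_lit 5) (nat_lit 8) (nat_lit 7) L7496 (by decide +kernel)
theorem L7498 : W_25 (nat_lit 7) (nat_lit 0x5000280004001000080000000000000000000000000000000) (nat_lit 0x0) (nat_lit 0x14000e0007000080040003a000700008000000000000000000000000000000) := Q_25 (nat_lit 209) (C_25 L7469 (C_25 L7075 (C_25 L7497 N_25))) (by decide +kernel)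
theorem L7499 : W_25 (nat_lit 2) (nat_lit 0x3000500068000c001000080000000000000000000000000000000) (nat_lit 0x0) (nat_lit 0x12000100000000000000000000000000000000000) := D_25 (nat_lit 157) (nat_lit 160) (nat_lit 140) (nat_lit 3) (nat_lit 4) (nat_lit 9) (nat_lit 4) (nat_lit 5) (nat_lit 12) (by decide +kernel)
theorem L7500 : W_25 (nat_lit 3) (nat_lit 0x30005000680004001000080000000000000000000000000000000) (nat_lit 0x0) (nat_lit 0x1a000500000000000000000000000000000000000) := T_25 (nat_lit 159) (nat_lit 142) (nat_lit 6) (nat_lit 5) (nat_lit 12) L7499 (by decide +kernel)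
theorem L7501 : W_25 (nat_lit 4) (nat_lit 0x20005000680004001000080000000000000000000000000000000) (nat_lit 0x0) (nat_lit 0x20001000000000001a000500000000000000000000000000000000000) := T_25 (nat_lit 208) (nat_lit 225) (nat_lit 5) (nat_lit 5) (nat_lit 9) L7500 (by decide +kernel)
theorem L7502 : W_25 (nat_lit 5) (nat_lit 0x20005000280004001000080000000000000000000000000000000) (nat_lit 0x0) (nat_lit 0x20001000000040003a000500000000000000000000000000000000000) := T_25 (nat_lit 178) (nat_lit 161) (nat_lit 5) (nat_lit 8) (nat_lit 7) L7501 (by decide +kernel)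
theorem L7503 : W_25 (nat_lit 6) (nat_lit 0x5000280004001000080000000000000000000000000000000) (nat_lit 0x0) (nat_lit 0x14000e0007000000047003a000500000000000000000000000000000000000) := Q_25 (nat_lit 209) (C_25 L7469 (C_25 L6829 (C_25 L6940 (C_25 L7502 N_25)))) (by decide +kernel)
theorem L7504 : W_25 (nat_lit 7) (nat_lit 0x5000280004001000080000000000000000000000000000000) (nat_lit 0x0) (nat_lit 0x20003000080040002a000700078001000000000000000000000000000) := Q_25 (nat_lit 141) (C_25 L7491 (C_25 L7198 (C_25 L7191 (C_25 L7195 N_25)))) (by decide +kernel)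
theorem L7505 : W_25 (nat_lit 2) (nat_lit 0xc00030005800280024001000080000000000000000000000000000000) (nat_lit 0x0) (nat_lit 0x8000000000000000040002000000000000000000000000000000000000000) := D_25 (nat_lit 174) (nat_lit 157) (nat_lit 243) (nat_lit 7) (nat_lit 4) (nat_lit 9) (nat_lit 4) (nat_lit 5) (nat_lit 14) (by decide +kernel)
theorem L7506 : W_25 (nat_lit 3) (nat_lit 0x800030005800280024001000080000000000000000000000000000000) (nat_lit 0x0) (nat_lit 0x18000400000000000040002000000000000000000000000000000000000000) := T_25 (nat_lit 226) (nat_lit 244) (nat_lit 7) (nat_lit 5) (nat_lit 10) L7505 (by decide +kernel)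
theorem L7507 : W_25 (nat_lit 4) (nat_lit 0x30005800280024001000080000000000000000000000000000000) (nat_lit 0x0) (nat_lit 0x18000c00040000000040002000000000000000000000000000000000000000) := T_25 (nat_lit 227) (nat_lit 210) (nat_lit 7) (nat_lit 5) (nat_lit 9) L7506 (by decide +kernel)
theorem L7508 : W_25 (nat_lit 5) (nat_lit 0x30005000280024001000080000000000000000000000000000000) (nat_lit 0x0) (nat_lit 0x18000c00040000800040002000200000000000000000000000000000000000) := T_25 (nat_lit 191) (nat_lit 141) (nat_lit 5) (nat_lit 5) (nat_lit 8) L7507 (by decide +kernel)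
theorem L7509 : W_25 (nat_lit 6) (nat_lit 0x20005000280024001000080000000000000000000000000000000) (nat_lit 0x0) (nat_lit 0x18000e00050000800040002000200000000000000000000000000000000000) := T_25 (nat_lit 208) (nat_lit 225) (nat_lit 5) (nat_lit 5) (nat_lit 9) L7508 (by decide +kernel)
theorem L7510 : W_25 (nat_lit 7) (nat_lit 0x20005000280004001000080000000000000000000000000000000) (nat_lit 0x0) (nat_lit 0x18000e00050000800440022000200000000000000000000000000000000000) := T_25 (nat_lit 161) (nat_lit 178) (nat_lit 5) (nat_lit 8) (nat_lit 7) L7509 (by decide +kernel)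
theorem L7511 : W_25 (nat_lit 2) (nat_lit 0xc00020005000280024001000080000000000000000000000000000000) (nat_lit 0x0) (nat_lit 0x4000200010000000000000000000000000000000000000000000000000000) := D_25 (nat_lit 225) (nat_lit 242) (nat_lit 208) (nat_lit 5) (nat_lit 5) (nat_lit 10) (nat_lit 5) (nat_lit 5) (nat_lit 9) (by decide +kernel)
theorem L7512 : W_25 (nat_lit 3) (nat_lit 0x800020005000280024001000080000000000000000000000000000000) (nat_lit 0x0) (nat_lit 0x14000600010000000000000000000000000000000000000000000000000000) := T_25 (nat_lit 226) (nat_lit 244) (nat_lit 7) (nat_lit 5) (nat_lit 10) L7511 (by decide +kernel)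
theorem L7513 : W_25 (nat_lit 4) (nat_lit 0x800020005000280004001000080000000000000000000000000000000) (nat_lit 0x0) (nat_lit 0x14000600010000000400020000000000000000000000000000000000000000) := T_25 (nat_lit 161) (nat_lit 178) (nat_lit 5) (nat_lit 8) (nat_lit 7) L7512 (by decide +kernel)
theorem L7514 : W_25 (nat_lit 5) (nat_lit 0x20005000280004001000080000000000000000000000000000000) (nat_lit 0x0) (nat_lit 0x14000e00050000000400020000000000000000000000000000000000000000) := T_25 (nat_lit 227) (nat_lit 210) (nat_lit 7) (nat_lit 5) (nat_lit 9) L7513 (by decide +kernel)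
theorem L7515 : W_25 (nat_lit 2) (nat_lit 0x400020005000280026001000080000000000000000000000000000000) (nat_lit 0x0) (nat_lit 0x10000800040000000000000000000000000000000000000000000000000000) := D_25 (nat_lit 227) (nat_lit 210) (nat_lit 244) (nat_lit 7) (nat_lit 5) (nat_lit 9) (nat_lit 7) (nat_lit 5) (nat_lit 10) (by decide +kernel)
theorem L7516 : W_25 (nat_lit 3) (nat_lit 0x20005000280026001000080000000000000000000000000000000) (nat_lit 0x0) (nat_lit 0x10000c00040000000040000000000000000000000000000000000000000000) := T_25 (nat_lit 226) (nat_lit 174) (nat_lit 4) (nat_lit 5) (nat_lit 13) L7515 (by decide +kernel)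
theorem L7517 : W_25 (nat_lit 4) (nat_lit 0x20005000280006001000080000000000000000000000000000000) (nat_lit 0x0) (nat_lit 0x10000c00040000000440020000000000000000000000000000000000000000) := T_25 (nat_lit 161) (nat_lit 178) (nat_lit 5) (nat_lit 8) (nat_lit 7) L7516 (by decide +kernel)
theorem L7518 : W_25 (nat_lit 5) (nat_lit 0x20005000280004001000080000000000000000000000000000000) (nat_lit 0x0) (nat_lit 0x10000c00040000000440022000100000000000000000000000000000000000) := T_25 (nat_lit 157) (nat_lit 140) (nat_lit 4) (nat_lit 5) (nat_lit 12) L7517 (by decide +kernel)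
theorem L7519 : W_25 (nat_lit 8) (nat_lit 0x5000280004001000080000000000000000000000000000000) (nat_lit 0x0) (nat_lit 0x1c000e00070000800440022000300008000000000000000000000000000000) := Q_25 (nat_lit 209) (C_25 L7075 (C_25 L6829 (C_25 L7510 (C_25 L7514 (C_25 L7518 N_25))))) (by decide +kernel)
theorem L7520 : W_25 (nat_lit 2) (nat_lit 0x5800280024001200090000000000000000000000000000000) (nat_lit 0x0) (nat_lit 0x100008000400000000000000000000000000) := D_25 (nat_lit 123) (nat_lit 106) (nat_lit 140) (nat_lit 4) (nat_lit 5) (nat_lit 10) (nat_lit 4) (nat_lit 5) (nat_lit 11) (by decide +kernel)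
theorem L7521 : W_25 (nat_lit 3) (nat_lit 0x5800280024001200080000000000000000000000000000000) (nat_lit 0x0) (nat_lit 0x40000000100018000400000000000000000000000000) := T_25 (nat_lit 124) (nat_lit 174) (nat_lit 5) (nat_lit 5) (nat_lit 7) L7520 (by decide +kernel)
theorem L7522 : W_25 (nat_lit 4) (nat_lit 0x5000280024001200080000000000000000000000000000000) (nat_lit 0x0) (nat_lit 0x10000800040000000100018000400000000000000000000000000) := T_25 (nat_lit 191) (nat_lit 208) (nat_lit 5) (nat_lit 5) (nat_lit 8) L7521 (by decide +kernel)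
theorem L7523 : W_25 (nat_lit 5) (nat_lit 0x5000280004001200080000000000000000000000000000000) (nat_lit 0x0) (nat_lit 0x10000800440020000100018000400000000000000000000000000) := T_25 (nat_lit 161) (nat_lit 178) (nat_lit 5) (nat_lit 8) (nat_lit 7) L7522 (by decide +kernel)
theorem L7524 : W_25 (nat_lit 2) (nat_lit 0x50002800340013000a0000000000000000000000000000000) (nat_lit 0x0) (nat_lit 0x50001000000000000000000000000000) := D_25 (nat_lit 124) (nat_lit 108) (nat_lit 126) (nat_lit 6) (nat_lit 5) (nat_lit 10) (nat_lit 1) (nat_lit 8) (nat_lit 7) (by decide +kernel)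
theorem L7525 : W_25 (nat_lit 3) (nat_lit 0x5000280034001300080000000000000000000000000000000) (nat_lit 0x0) (nat_lit 0x400070001000000000000000000000000000) := T_25 (nat_lit 125) (nat_lit 142) (nat_lit 6) (nat_lit 5) (nat_lit 11) L7524 (by decide +kernel)
theorem L7526 : W_25 (nat_lit 4) (nat_lit 0x5000280024001300080000000000000000000000000000000) (nat_lit 0x0) (nat_lit 0x18000400070001000000000000000000000000000) := T_25 (nat_lit 160) (nat_lit 159) (nat_lit 0) (nat_lit 8) (nat_lit 9) L7525 (by decide +kernel)
theorem L7527 : W_25 (nat_lit 5) (nat_lit 0x5000280004001300080000000000000000000000000000000) (nat_lit 0x0) (nat_lit 0x400038000400070001000000000000000000000000000) := T_25 (nat_lit 161) (nat_lit 178) (nat_lit 5) (nat_lit 8) (nat_lit 7) L7526 (by decide +kernel)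
theorem L7528 : W_25 (nat_lit 6) (nat_lit 0x5000280004001200080000000000000000000000000000000) (nat_lit 0x0) (nat_lit 0x400038000500078001000000000000000000000000000) := T_25 (nat_lit 140) (nat_lit 123) (nat_lit 4) (nat_lit 5) (nat_lit 11) L7527 (by decide +kernel)
theorem L7529 : W_25 (nat_lit 2) (nat_lit 0x580028002d001780084000000000000000000000000000000) (nat_lit 0x0) (nat_lit 0x60002000000000000000000000000000000000000000) := D_25 (nat_lit 174) (nat_lit 157) (nat_lit 173) (nat_lit 4) (nat_lit 4) (nat_lit 11) (nat_lit 7) (nat_lit 3) (nat_lit 7) (by decide +kernel)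
theorem L7530 : W_25 (nat_lit 3) (nat_lit 0x580028002d001780080000000000000000000000000000000) (nat_lit 0x0) (nat_lit 0x60002000000006000000000000000000000000000000) := T_25 (nat_lit 122) (nat_lit 121) (nat_lit 0) (nat_lit 6) (nat_lit 8) L7529 (by decide +kernel)
theorem L7531 : W_25 (nat_lit 4) (nat_lit 0x580028002c001780080000000000000000000000000000000) (nat_lit 0x0) (nat_lit 0x60003800000006000000000000000000000000000000) := T_25 (nat_lit 156) (nat_lit 155) (nat_lit 1) (nat_lit 6) (nat_lit 8) L7530 (by decide +kernel)
theorem L7532 : W_25 (nat_lit 5) (nat_lit 0x580028002c001700080000000000000000000000000000000) (nat_lit 0x0) (nat_lit 0x600038000c0006000000000000000000000000000000) := T_25 (nat_lit 139) (nat_lit 138) (nat_lit 3) (nat_lit 2) (nat_lit 8) L7531 (by decide +kernel)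
theorem L7533 : W_25 (nat_lit 6) (nat_lit 0x5800280024001700080000000000000000000000000000000) (nat_lit 0x0) (nat_lit 0x6001b8000c0006000000000000000000000000000000) := T_25 (nat_lit 159) (nat_lit 160) (nat_lit 0) (nat_lit 8) (nat_lit 9) L7532 (by decide +kernel)
theorem L7534 : W_25 (nat_lit 7) (nat_lit 0x5800280004001700080000000000000000000000000000000) (nat_lit 0x0) (nat_lit 0x46003b8000c0006000000000000000000000000000000) := T_25 (nat_lit 161) (nat_lit 178) (nat_lit 5) (nat_lit 8) (nat_lit 7) L7533 (by decide +kernel)
theorem L7535 : W_25 (nat_lit 8) (nat_lit 0x5800280004001600080000000000000000000000000000000) (nat_lit 0x0) (nat_lit 0x46003b8001c000e000000000000000000000000000000) := T_25 (nat_lit 140) (nat_lit 123) (nat_lit 4) (nat_lit 5) (nat_lit 11) L7534 (by decide +kernel)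
theorem L7536 : W_25 (nat_lit 9) (nat_lit 0x5000280004001600080000000000000000000000000000000) (nat_lit 0x0) (nat_lit 0x1000080046003b8001c000e000000000000000000000000000000) := T_25 (nat_lit 191) (nat_lit 208) (nat_lit 5) (nat_lit 5) (nat_lit 8) L7535 (by decide +kernel)
theorem L7537 : W_25 (nat_lit 10) (nat_lit 0x5000280004001200080000000000000000000000000000000) (nat_lit 0x0) (nat_lit 0x1000080046003b8005c002e000000000000000000000000000000) := T_25 (nat_lit 142) (nat_lit 125) (nat_lit 6) (nat_lit 5) (nat_lit 11) L7536 (by decide +kernel)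
theorem L7538 : W_25 (nat_lit 11) (nat_lit 0x5000280004001000080000000000000000000000000000000) (nat_lit 0x0) (nat_lit 0x1000080046003b8007c007e001400000000000000000000000000) := Q_25 (nat_lit 141) (C_25 L7195 (C_25 L7029 (C_25 L7523 (C_25 L7528 (C_25 L7537 N_25))))) (by decide +kernel)
theorem L7539 : W_25 (nat_lit 2) (nat_lit 0x40004000600050002d002c001000080000000000000000000000000000000) (nat_lit 0x0) (nat_lit 0x80008000000000000800000000000000000000000000000000000000000000000) := D_25 (nat_lit 243) (nat_lit 191) (nat_lit 259) (nat_lit 4) (nat_lit 5) (nat_lit 14) (nat_lit 5) (nat_lit 5) (nat_lit 11) (by decide +kernel)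
theorem L7540 : W_25 (nat_lit 3) (nat_lit 0x4000600050002d002c001000080000000000000000000000000000000) (nat_lit 0x0) (nat_lit 0x8000c000200000000800000000000000000000000000000000000000000000000) := T_25 (nat_lit 242) (nat_lit 225) (nat_lit 5) (nat_lit 5) (nat_lit 10) L7539 (by decide +kernel)
theorem L7541 : W_25 (nat_lit 4) (nat_lit 0x4000600050002c002c001000080000000000000000000000000000000) (nat_lit 0x0) (nat_lit 0x8000c000200000000800030000000000000000000000000000000000000000000) := T_25 (nat_lit 172) (nat_lit 173) (nat_lit 2) (nat_lit 2) (nat_lit 10) L7540 (by decide +kernel)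
theorem L7542 : W_25 (nat_lit 5) (nat_lit 0x600050002c002c001000080000000000000000000000000000000) (nat_lit 0x0) (nat_lit 0x8000c000600000000800030002000000000000000000000000000000000000000) := T_25 (nat_lit 226) (nat_lit 157) (nat_lit 4) (nat_lit 5) (nat_lit 13) L7541 (by decide +kernel)
theorem L7543 : W_25 (nat_lit 6) (nat_lit 0x200050002c002c001000080000000000000000000000000000000) (nat_lit 0x0) (nat_lit 0x8000c000e00040000800030002000000000000000000000000000000000000000) := T_25 (nat_lit 210) (nat_lit 227) (nat_lit 7) (nat_lit 5) (nat_lit 9) L7542 (by decide +kernel)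
theorem L7544 : W_25 (nat_lit 7) (nat_lit 0x2000500028002c001000080000000000000000000000000000000) (nat_lit 0x0) (nat_lit 0x8000c000e00040000800070012000000000000000000000000000000000000000) := T_25 (nat_lit 174) (nat_lit 160) (nat_lit 1) (nat_lit 8) (nat_lit 9) L7543 (by decide +kernel)
theorem L7545 : W_25 (nat_lit 8) (nat_lit 0x20005000280024001000080000000000000000000000000000000) (nat_lit 0x0) (nat_lit 0x8000c000e0004000080007001a000400000000000000000000000000000000000) := T_25 (nat_lit 159) (nat_lit 142) (nat_lit 6) (nat_lit 5) (nat_lit 12) L7544 (by decide +kernel)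
theorem L7546 : W_25 (nat_lit 9) (nat_lit 0x20005000280004001000080000000000000000000000000000000) (nat_lit 0x0) (nat_lit 0x8000c000e0004000080047003a000400000000000000000000000000000000000) := T_25 (nat_lit 161) (nat_lit 178) (nat_lit 5) (nat_lit 8) (nat_lit 7) L7545 (by decide +kernel)
theorem L7547 : W_25 (nat_lit 5) (nat_lit 0x4000600050002d002c001000080000000000000000000000000000000) (nat_lit 0x0) (nat_lit 0x500038001c000000000000800000000000000000000000000000000000000000000000) := T_25 (nat_lit 243) (nat_lit 191) (nat_lit 4) (nat_lit 5) (nat_lit 14) L7137 (by decide +kernel)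
theorem L7548 : W_25 (nat_lit 6) (nat_lit 0x600050002d002c001000080000000000000000000000000000000) (nat_lit 0x0) (nat_lit 0x500038001c000400000000800000002000000000000000000000000000000000000000) := T_25 (nat_lit 226) (nat_lit 157) (nat_lit 4) (nat_lit 5) (nat_lit 13) L7547 (by decide +kernel)
theorem L7549 : W_25 (nat_lit 7) (nat_lit 0x600050002c002c001000080000000000000000000000000000000) (nat_lit 0x0) (nat_lit 0x500038001c000400000000800030002000000000000000000000000000000000000000) := T_25 (nat_lit 172) (nat_lit 173) (nat_lit 2) (nat_lit 2) (nat_lit 10) L7548 (by decide +kernel)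
theorem L7550 : W_25 (nat_lit 8) (nat_lit 0x6000500028002c001000080000000000000000000000000000000) (nat_lit 0x0) (nat_lit 0x500038001c000400000000800070012000000000000000000000000000000000000000) := T_25 (nat_lit 174) (nat_lit 160) (nat_lit 1) (nat_lit 8) (nat_lit 9) L7549 (by decide +kernel)
theorem L7551 : W_25 (nat_lit 9) (nat_lit 0x60005000280024001000080000000000000000000000000000000) (nat_lit 0x0) (nat_lit 0x500038001c00040000000080007001a000400000000000000000000000000000000000) := T_25 (nat_lit 159) (nat_lit 142) (nat_lit 6) (nat_lit 5) (nat_lit 12) L7550 (by decide +kernel)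
theorem L7552 : W_25 (nat_lit 10) (nat_lit 0x60005000280004001000080000000000000000000000000000000) (nat_lit 0x0) (nat_lit 0x500038001c00040000000080047003a000400000000000000000000000000000000000) := T_25 (nat_lit 161) (nat_lit 178) (nat_lit 5) (nat_lit 8) (nat_lit 7) L7551 (by decide +kernel)
theorem L7553 : W_25 (nat_lit 11) (nat_lit 0x20005000280004001000080000000000000000000000000000000) (nat_lit 0x0) (nat_lit 0x500038001c000c0004000080047003a000400000000000000000000000000000000000) := T_25 (nat_lit 210) (nat_lit 227) (nat_lit 7) (nat_lit 5) (nat_lit 9) L7552 (by decide +kernel)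
theorem L7554 : W_25 (nat_lit 12) (nat_lit 0x5000280004001000080000000000000000000000000000000) (nat_lit 0x0) (nat_lit 0x500038001c000e0007000080047003a000600020000000000000000000000000000000) := Q_25 (nat_lit 209) (C_25 L7514 (C_25 L7469 (C_25 L6861 (C_25 L7546 (C_25 L7553 N_25))))) (by decide +kernel)
theorem L7555 : W_25 (nat_lit 7) (nat_lit 0x5000280004001000080000000000000000000000000000000) (nat_lit 0x0) (nat_lit 0x200030000800440038000700078001400000000000000000000000000) := Q_25 (nat_lit 141) (C_25 L7528 (C_25 L7523 (C_25 L7198 N_25))) (by decide +kernel)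
theorem L7556 : W_25 (nat_lit 2) (nat_lit 0x4000c000200050002c002c001000080000000000000000000000000000000) (nat_lit 0x0) (nat_lit 0x80008000000000000800000000000000000000000000000000000000000000000) := D_25 (nat_lit 243) (nat_lit 259) (nat_lit 191) (nat_lit 5) (nat_lit 5) (nat_lit 11) (nat_lit 4) (nat_lit 5) (nat_lit 14) (by decide +kernel)
theorem L7557 : W_25 (nat_lit 3) (nat_lit 0x4000c0002000500028002c001000080000000000000000000000000000000) (nat_lit 0x0) (nat_lit 0x80008000000000000800040010000000000000000000000000000000000000000) := T_25 (nat_lit 174) (nat_lit 160) (nat_lit 1) (nat_lit 8) (nat_lit 9) L7556 (by decide +kernel)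
theorem L7558 : W_25 (nat_lit 4) (nat_lit 0x4000c0002000500028000c001000080000000000000000000000000000000) (nat_lit 0x0) (nat_lit 0x80008000000000000800440030000000000000000000000000000000000000000) := T_25 (nat_lit 161) (nat_lit 178) (nat_lit 5) (nat_lit 8) (nat_lit 7) L7557 (by decide +kernel)
theorem L7559 : W_25 (nat_lit 5) (nat_lit 0xc0002000500028000c001000080000000000000000000000000000000) (nat_lit 0x0) (nat_lit 0x8000c000200000000800440030000000000000000000000000000000000000000) := T_25 (nat_lit 242) (nat_lit 225) (nat_lit 5) (nat_lit 5) (nat_lit 10) L7558 (by decide +kernel)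
theorem L7560 : W_25 (nat_lit 6) (nat_lit 0x80002000500028000c001000080000000000000000000000000000000) (nat_lit 0x0) (nat_lit 0x8001c000600000000800440030000000000000000000000000000000000000000) := T_25 (nat_lit 226) (nat_lit 244) (nat_lit 7) (nat_lit 5) (nat_lit 10) L7559 (by decide +kernel)
theorem L7561 : W_25 (nat_lit 7) (nat_lit 0x800020005000280004001000080000000000000000000000000000000) (nat_lit 0x0) (nat_lit 0x8001c000600000000800440038000400000000000000000000000000000000000) := T_25 (nat_lit 159) (nat_lit 142) (nat_lit 6) (nat_lit 5) (nat_lit 12) L7560 (by decide +kernel)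
theorem L7562 : W_25 (nat_lit 8) (nat_lit 0x20005000280004001000080000000000000000000000000000000) (nat_lit 0x0) (nat_lit 0x8001c000e00040000800440038000400000000000000000000000000000000000) := T_25 (nat_lit 227) (nat_lit 210) (nat_lit 7) (nat_lit 5) (nat_lit 9) L7561 (by decide +kernel)
theorem L7563 : W_25 (nat_lit 12) (nat_lit 0x5000280004001000080000000000000000000000000000000) (nat_lit 0x0) (nat_lit 0x500038001c000e0006000080047003a000700008000000000000000000000000000000) := Q_25 (nat_lit 209) (C_25 L7553 (C_25 L7518 (C_25 L6940 (C_25 L7497 (C_25 L7562 N_25))))) (by decide +kernel)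
theorem L7564 : W_25 (nat_lit 13) (nat_lit 0x5000280000001000080000000000000000000000000000000) (nat_lit 0x0) (nat_lit 0x500038001c000e0007000080047003f8007c007e001c00000000000000000000000000) := Q_25 (nat_lit 158) (C_25 L7470 (C_25 L7479 (C_25 L6977 (C_25 L7492 (C_25 L7498 (C_25 L7503 (C_25 L7504 (C_25 L7519 (C_25 L7538 (C_25 L7554 (C_25 L7555 (C_25 L7563 N_25)))))))))))) (by decide +kernel)
theorem L7565 : W_25 (nat_lit 2) (nat_lit 0x20002000500028002e001000080000000000000000000000000000000) (nat_lit 0x0) (nat_lit 0x4000400000000000040000000000000000000000000000000000000000000) := D_25 (nat_lit 226) (nat_lit 242) (nat_lit 174) (nat_lit 5) (nat_lit 5) (nat_lit 10) (nat_lit 4) (nat_lit 5) (nat_lit 13) (by decide +kernel)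
theorem L7566 : W_25 (nat_lit 3) (nat_lit 0x20002000500028002c001000080000000000000000000000000000000) (nat_lit 0x0) (nat_lit 0x4000400000000000040002000100000000000000000000000000000000000) := T_25 (nat_lit 157) (nat_lit 140) (nat_lit 4) (nat_lit 5) (nat_lit 12) L7565 (by decide +kernel)
theorem L7567 : W_25 (nat_lit 4) (nat_lit 0x2000500028002c001000080000000000000000000000000000000) (nat_lit 0x0) (nat_lit 0x4000600010000000040002000100000000000000000000000000000000000) := T_25 (nat_lit 225) (nat_lit 208) (nat_lit 5) (nat_lit 5) (nat_lit 9) L7566 (by decide +kernel)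
theorem L7568 : W_25 (nat_lit 5) (nat_lit 0x20005000280024001000080000000000000000000000000000000) (nat_lit 0x0) (nat_lit 0x400060001000000004000a000500000000000000000000000000000000000) := T_25 (nat_lit 159) (nat_lit 142) (nat_lit 6) (nat_lit 5) (nat_lit 12) L7567 (by decide +kernel)
theorem L7569 : W_25 (nat_lit 6) (nat_lit 0x20005000280004001000080000000000000000000000000000000) (nat_lit 0x0) (nat_lit 0x400060001000000044002a000500000000000000000000000000000000000) := T_25 (nat_lit 161) (nat_lit 178) (nat_lit 5) (nat_lit 8) (nat_lit 7) L7568 (by decide +kernel)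
theorem L7570 : W_25 (nat_lit 10) (nat_lit 0x5000280004001000080000000000000000000000000000000) (nat_lit 0x0) (nat_lit 0x14000fc007c00270044002a000500000000000000000000000000000000000) := Q_25 (nat_lit 209) (C_25 L7518 (C_25 L7469 (C_25 L7569 (C_25 L7443 N_25)))) (by decide +kernel)
theorem L7571 : W_25 (nat_lit 2) (nat_lit 0x3000d0002800240013000a0000000000000000000000000000000) (nat_lit 0x0) (nat_lit 0x50001000000000000000000000000000) := D_25 (nat_lit 124) (nat_lit 108) (nat_lit 126) (nat_lit 6) (nat_lit 5) (nat_lit 10) (nat_lit 1) (nat_lit 8) (nat_lit 7) (by decide +kernel)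
theorem L7572 : W_25 (nat_lit 3) (nat_lit 0x3000d000280024001300080000000000000000000000000000000) (nat_lit 0x0) (nat_lit 0x400070001000000000000000000000000000) := T_25 (nat_lit 125) (nat_lit 142) (nat_lit 6) (nat_lit 5) (nat_lit 11) L7571 (by decide +kernel)
theorem L7573 : W_25 (nat_lit 4) (nat_lit 0x3000d000280024001100080000000000000000000000000000000) (nat_lit 0x0) (nat_lit 0x600078001000000000000000000000000000) := T_25 (nat_lit 141) (nat_lit 123) (nat_lit 4) (nat_lit 5) (nat_lit 11) L7572 (by decide +kernel)
theorem L7574 : W_25 (nat_lit 5) (nat_lit 0x3000d000280024001000080000000000000000000000000000000) (nat_lit 0x0) (nat_lit 0x2000700078001000000000000000000000000000) := T_25 (nat_lit 140) (nat_lit 157) (nat_lit 4) (nat_lit 5) (nat_lit 12) L7573 (by decide +kernel)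
theorem L7575 : W_25 (nat_lit 6) (nat_lit 0x30005000280024001000080000000000000000000000000000000) (nat_lit 0x0) (nat_lit 0xa000000002000700078001000000000000000000000000000) := T_25 (nat_lit 195) (nat_lit 193) (nat_lit 1) (nat_lit 8) (nat_lit 11) L7574 (by decide +kernel)
theorem L7576 : W_25 (nat_lit 7) (nat_lit 0x20005000280024001000080000000000000000000000000000000) (nat_lit 0x0) (nat_lit 0x20001000a000000002000700078001000000000000000000000000000) := T_25 (nat_lit 208) (nat_lit 225) (nat_lit 5) (nat_lit 5) (nat_lit 9) L7575 (by decide +kernel)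
theorem L7577 : W_25 (nat_lit 8) (nat_lit 0x20005000280004001000080000000000000000000000000000000) (nat_lit 0x0) (nat_lit 0x20001000a000400022000700078001000000000000000000000000000) := T_25 (nat_lit 161) (nat_lit 178) (nat_lit 5) (nat_lit 8) (nat_lit 7) L7576 (by decide +kernel)
theorem L7578 : W_25 (nat_lit 9) (nat_lit 0x5000280004001000080000000000000000000000000000000) (nat_lit 0x0) (nat_lit 0x14000e0007000a000440022000700078001000000000000000000000000000) := Q_25 (nat_lit 209) (C_25 L7518 (C_25 L7208 (C_25 L7577 (C_25 L7514 N_25)))) (by decide +kernel)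
theorem L7579 : W_25 (nat_lit 9) (nat_lit 0x5000280004001000080000000000000000000000000000000) (nat_lit 0x0) (nat_lit 0x14000e0007000a00040003a000700078001000000000000000000000000000) := Q_25 (nat_lit 209) (C_25 L7514 (C_25 L7577 (C_25 L7469 (C_25 L7497 N_25)))) (by decide +kernel)
theorem L7580 : W_25 (nat_lit 2) (nat_lit 0x5000280026001100080000000000000000000000000000000) (nat_lit 0x0) (nat_lit 0x200008000400000000000000000000000000) := D_25 (nat_lit 123) (nat_lit 141) (nat_lit 106) (nat_lit 4) (nat_lit 5) (nat_lit 11) (nat_lit 7) (nat_lit 4) (nat_lit 6) (by decide +kernel)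
theorem L7581 : W_25 (nat_lit 3) (nat_lit 0x5000280024001100080000000000000000000000000000000) (nat_lit 0x0) (nat_lit 0x20000000000002000200008000400000000000000000000000000) := T_25 (nat_lit 157) (nat_lit 209) (nat_lit 4) (nat_lit 5) (nat_lit 12) L7580 (by decide +kernel)
theorem L7582 : W_25 (nat_lit 4) (nat_lit 0x5000280004001100080000000000000000000000000000000) (nat_lit 0x0) (nat_lit 0x20000000400022000200008000400000000000000000000000000) := T_25 (nat_lit 161) (nat_lit 178) (nat_lit 5) (nat_lit 8) (nat_lit 7) L7581 (by decide +kernel)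
theorem L7583 : W_25 (nat_lit 6) (nat_lit 0x5000280004001100080000000000000000000000000000000) (nat_lit 0x0) (nat_lit 0x400038000600078001000000000000000000000000000) := T_25 (nat_lit 141) (nat_lit 123) (nat_lit 4) (nat_lit 5) (nat_lit 11) L7527 (by decide +kernel)
theorem L7584 : W_25 (nat_lit 2) (nat_lit 0x20005000280004001300080000000000000000000000000000000) (nat_lit 0x0) (nat_lit 0x8000400020000000000000000000000000000000) := D_25 (nat_lit 142) (nat_lit 159) (nat_lit 125) (nat_lit 6) (nat_lit 5) (nat_lit 12) (nat_lit 6) (nat_lit 5) (nat_lit 11) (by decide +kernel)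
theorem L7585 : W_25 (nat_lit 3) (nat_lit 0x20005000280004001100080000000000000000000000000000000) (nat_lit 0x0) (nat_lit 0x8000600028000000000000000000000000000000) := T_25 (nat_lit 141) (nat_lit 123) (nat_lit 4) (nat_lit 5) (nat_lit 11) L7584 (by decide +kernel)
theorem L7586 : W_25 (nat_lit 4) (nat_lit 0x5000280004001100080000000000000000000000000000000) (nat_lit 0x0) (nat_lit 0x2000000000000a000600028000000000000000000000000000000) := T_25 (nat_lit 209) (nat_lit 157) (nat_lit 4) (nat_lit 5) (nat_lit 12) L7585 (by decide +kernel)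
theorem L7587 : W_25 (nat_lit 2) (nat_lit 0x5000280026001100080000000000000000000000000000000) (nat_lit 0x0) (nat_lit 0x40000000000008000400000000000000000000000000) := D_25 (nat_lit 123) (nat_lit 106) (nat_lit 174) (nat_lit 7) (nat_lit 4) (nat_lit 6) (nat_lit 7) (nat_lit 4) (nat_lit 7) (by decide +kernel)
theorem L7588 : W_25 (nat_lit 3) (nat_lit 0x5000280024001100080000000000000000000000000000000) (nat_lit 0x0) (nat_lit 0x20000000040002000000008000400000000000000000000000000) := T_25 (nat_lit 157) (nat_lit 209) (nat_lit 4) (nat_lit 5) (nat_lit 12) L7587 (by decide +kernel)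
theorem L7589 : W_25 (nat_lit 4) (nat_lit 0x5000280004001100080000000000000000000000000000000) (nat_lit 0x0) (nat_lit 0x20000000440022000000008000400000000000000000000000000) := T_25 (nat_lit 161) (nat_lit 178) (nat_lit 5) (nat_lit 8) (nat_lit 7) L7588 (by decide +kernel)
theorem L7590 : W_25 (nat_lit 2) (nat_lit 0x2000500028002c001100080000000000000000000000000000000) (nat_lit 0x0) (nat_lit 0x40010000200000000000000000000000000000000000) := D_25 (nat_lit 160) (nat_lit 174) (nat_lit 141) (nat_lit 1) (nat_lit 8) (nat_lit 9) (nat_lit 0) (nat_lit 8) (nat_lit 9) (by decide +kernel)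
theorem L7591 : W_25 (nat_lit 3) (nat_lit 0x20005000280024001100080000000000000000000000000000000) (nat_lit 0x0) (nat_lit 0x40018000600000000000000000000000000000000000) := T_25 (nat_lit 159) (nat_lit 142) (nat_lit 6) (nat_lit 5) (nat_lit 12) L7590 (by decide +kernel)
theorem L7592 : W_25 (nat_lit 4) (nat_lit 0x20005000280004001100080000000000000000000000000000000) (nat_lit 0x0) (nat_lit 0x440038000600000000000000000000000000000000000) := T_25 (nat_lit 161) (nat_lit 178) (nat_lit 5) (nat_lit 8) (nat_lit 7) L7591 (by decide +kernel)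
theorem L7593 : W_25 (nat_lit 5) (nat_lit 0x5000280004001100080000000000000000000000000000000) (nat_lit 0x0) (nat_lit 0x2000000044003a000600000000000000000000000000000000000) := T_25 (nat_lit 209) (nat_lit 157) (nat_lit 4) (nat_lit 5) (nat_lit 12) L7592 (by decide +kernel)
theorem L7594 : W_25 (nat_lit 7) (nat_lit 0x5000280004001000080000000000000000000000000000000) (nat_lit 0x0) (nat_lit 0x2000000044003a000700078001400000000000000000000000000) := Q_25 (nat_lit 140) (C_25 L7582 (C_25 L7583 (C_25 L7586 (C_25 L7589 (C_25 L7593 N_25))))) (by decide +kernel)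
theorem L7595 : W_25 (nat_lit 2) (nat_lit 0x2c0003400d000680006001000080000000000000000000000000000000) (nat_lit 0x0) (nat_lit 0x100000000000018000000000000000000000000000000000000000) := D_25 (nat_lit 160) (nat_lit 159) (nat_lit 212) (nat_lit 3) (nat_lit 4) (nat_lit 9) (nat_lit 4) (nat_lit 8) (nat_lit 13) (by decide +kernel)
theorem L7596 : W_25 (nat_lit 3) (nat_lit 0xc0003400d000680006001000080000000000000000000000000000000) (nat_lit 0x0) (nat_lit 0x3000100000000000018000000000000000000000000000000000000000) := T_25 (nat_lit 229) (nat_lit 228) (nat_lit 0) (nat_lit 8) (nat_lit 13) L7595 (by decide +kernel)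
theorem L7597 : W_25 (nat_lit 4) (nat_lit 0xc0003000d000680006001000080000000000000000000000000000000) (nat_lit 0x0) (nat_lit 0x300010c000000000018000000000000000000000000000000000000000) := T_25 (nat_lit 206) (nat_lit 207) (nat_lit 3) (nat_lit 2) (nat_lit 12) L7596 (by decide +kernel)
theorem L7598 : W_25 (nat_lit 5) (nat_lit 0x40003000d000680006001000080000000000000000000000000000000) (nat_lit 0x0) (nat_lit 0x1000380010c000000000018000000000000000000000000000000000000000) := T_25 (nat_lit 227) (nat_lit 244) (nat_lit 7) (nat_lit 5) (nat_lit 10) L7597 (by decide +kernel)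
theorem L7599 : W_25 (nat_lit 6) (nat_lit 0x40003000d000280006001000080000000000000000000000000000000) (nat_lit 0x0) (nat_lit 0x1000380010c000000400038000000000000000000000000000000000000000) := T_25 (nat_lit 178) (nat_lit 161) (nat_lit 5) (nat_lit 8) (nat_lit 7) L7598 (by decide +kernel)
theorem L7600 : W_25 (nat_lit 7) (nat_lit 0x3000d000280006001000080000000000000000000000000000000) (nat_lit 0x0) (nat_lit 0x10003c0010c000000440038000000000000000000000000000000000000000) := T_25 (nat_lit 226) (nat_lit 174) (nat_lit 4) (nat_lit 5) (nat_lit 13) L7599 (by decide +kernel)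
theorem L7601 : W_25 (nat_lit 8) (nat_lit 0x30005000280006001000080000000000000000000000000000000) (nat_lit 0x0) (nat_lit 0x10003c0010c00a000440038000000000000000000000000000000000000000) := T_25 (nat_lit 195) (nat_lit 193) (nat_lit 1) (nat_lit 8) (nat_lit 11) L7600 (by decide +kernel)
theorem L7602 : W_25 (nat_lit 9) (nat_lit 0x20005000280006001000080000000000000000000000000000000) (nat_lit 0x0) (nat_lit 0x10003e0011c00a000440038000000000000000000000000000000000000000) := T_25 (nat_lit 208) (nat_lit 225) (nat_lit 5) (nat_lit 5) (nat_lit 9) L7601 (by decide +kernel)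
theorem L7603 : W_25 (nat_lit 10) (nat_lit 0x20005000280004001000080000000000000000000000000000000) (nat_lit 0x0) (nat_lit 0x10003e0011c00a00044003a000100000000000000000000000000000000000) := T_25 (nat_lit 157) (nat_lit 140) (nat_lit 4) (nat_lit 5) (nat_lit 12) L7602 (by decide +kernel)
theorem L7604 : W_25 (nat_lit 2) (nat_lit 0x30007000280006001000080000000000000000000000000000000) (nat_lit 0x0) (nat_lit 0x48000000000000000200000000000000000000000000000000000) := D_25 (nat_lit 210) (nat_lit 141) (nat_lit 207) (nat_lit 7) (nat_lit 5) (nat_lit 8) (nat_lit 2) (nat_lit 3) (nat_lit 12) (by decide +kernel)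
theorem L7605 : W_25 (nat_lit 3) (nat_lit 0x30005000280006001000080000000000000000000000000000000) (nat_lit 0x0) (nat_lit 0x4800a000000000000200000000000000000000000000000000000) := T_25 (nat_lit 193) (nat_lit 195) (nat_lit 1) (nat_lit 8) (nat_lit 11) L7604 (by decide +kernel)
theorem L7606 : W_25 (nat_lit 4) (nat_lit 0x20005000280006001000080000000000000000000000000000000) (nat_lit 0x0) (nat_lit 0x20005800a000000000000200000000000000000000000000000000000) := T_25 (nat_lit 208) (nat_lit 225) (nat_lit 5) (nat_lit 5) (nat_lit 9) L7605 (by decide +kernel)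
theorem L7607 : W_25 (nat_lit 5) (nat_lit 0x20005000280004001000080000000000000000000000000000000) (nat_lit 0x0) (nat_lit 0x20005800a000000002000300000000000000000000000000000000000) := T_25 (nat_lit 157) (nat_lit 140) (nat_lit 4) (nat_lit 5) (nat_lit 12) L7606 (by decide +kernel)
theorem L7608 : W_25 (nat_lit 11) (nat_lit 0x5000280004001000080000000000000000000000000000000) (nat_lit 0x0) (nat_lit 0x14003e0017c00a00044003a000300008000000000000000000000000000000) := Q_25 (nat_lit 209) (C_25 L7514 (C_25 L7518 (C_25 L7208 (C_25 L7603 (C_25 L7607 N_25))))) (by decide +kernel)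
theorem L7609 : W_25 (nat_lit 2) (nat_lit 0x20001f000280034001300080000000000000000000000000000000) (nat_lit 0x0) (nat_lit 0x1800040000000000000000000000000000000000000000) := D_25 (nat_lit 179) (nat_lit 180) (nat_lit 162) (nat_lit 2) (nat_lit 6) (nat_lit 11) (nat_lit 4) (nat_lit 9) (nat_lit 12) (by decide +kernel)
theorem L7610 : W_25 (nat_lit 3) (nat_lit 0x20000f000280034001300080000000000000000000000000000000) (nat_lit 0x0) (nat_lit 0x400010001800040000000000000000000000000000000000000000) := T_25 (nat_lit 196) (nat_lit 214) (nat_lit 3) (nat_lit 6) (nat_lit 11) L7609 (by decide +kernel)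
theorem L7611 : W_25 (nat_lit 4) (nat_lit 0xf000280034001300080000000000000000000000000000000) (nat_lit 0x0) (nat_lit 0x700010001800040000000000000000000000000000000000000000) := T_25 (nat_lit 213) (nat_lit 212) (nat_lit 3) (nat_lit 5) (nat_lit 11) L7610 (by decide +kernel)
theorem L7612 : W_25 (nat_lit 5) (nat_lit 0xf000280024001300080000000000000000000000000000000) (nat_lit 0x0) (nat_lit 0x700010001800058000000000000000000000000000000000000000) := T_25 (nat_lit 160) (nat_lit 159) (nat_lit 0) (nat_lit 8) (nat_lit 9) L7611 (by decide +kernel)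
theorem L7613 : W_25 (nat_lit 6) (nat_lit 0xf000280024001200080000000000000000000000000000000) (nat_lit 0x0) (nat_lit 0x700010001800058000100008000000000000000000000000000000) := T_25 (nat_lit 140) (nat_lit 123) (nat_lit 4) (nat_lit 5) (nat_lit 11) L7612 (by decide +kernel)
theorem L7614 : W_25 (nat_lit 7) (nat_lit 0x7000280024001200080000000000000000000000000000000) (nat_lit 0x0) (nat_lit 0x700018001840058000100008000000000000000000000000000000) := T_25 (nat_lit 195) (nat_lit 174) (nat_lit 0) (nat_lit 8) (nat_lit 11) L7613 (by decide +kernel)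
theorem L7615 : W_25 (nat_lit 8) (nat_lit 0x5000280024001200080000000000000000000000000000000) (nat_lit 0x0) (nat_lit 0x74001a001840058000100008000000000000000000000000000000) := T_25 (nat_lit 193) (nat_lit 210) (nat_lit 7) (nat_lit 5) (nat_lit 8) L7614 (by decide +kernel)
theorem L7616 : W_25 (nat_lit 9) (nat_lit 0x5000280004001200080000000000000000000000000000000) (nat_lit 0x0) (nat_lit 0x74001a001c40078000100008000000000000000000000000000000) := T_25 (nat_lit 161) (nat_lit 178) (nat_lit 5) (nat_lit 8) (nat_lit 7) L7615 (by decide +kernel)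
theorem L7617 : W_25 (nat_lit 2) (nat_lit 0x20001f000280024001700080000000000000000000000000000000) (nat_lit 0x0) (nat_lit 0x1800040000000000000000000000000000000000000000) := D_25 (nat_lit 179) (nat_lit 180) (nat_lit 162) (nat_lit 2) (nat_lit 6) (nat_lit 11) (nat_lit 4) (nat_lit 9) (nat_lit 12) (by decide +kernel)
theorem L7618 : W_25 (nat_lit 3) (nat_lit 0x20000f000280024001700080000000000000000000000000000000) (nat_lit 0x0) (nat_lit 0x400010001800040000000000000000000000000000000000000000) := T_25 (nat_lit 196) (nat_lit 214) (nat_lit 3) (nat_lit 6) (nat_lit 11) L7617 (by decide +kernel)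
theorem L7619 : W_25 (nat_lit 4) (nat_lit 0xf000280024001700080000000000000000000000000000000) (nat_lit 0x0) (nat_lit 0x700010001800040000000000000000000000000000000000000000) := T_25 (nat_lit 213) (nat_lit 212) (nat_lit 3) (nat_lit 5) (nat_lit 11) L7618 (by decide +kernel)
theorem L7620 : W_25 (nat_lit 5) (nat_lit 0x7000280024001700080000000000000000000000000000000) (nat_lit 0x0) (nat_lit 0x700018001840040000000000000000000000000000000000000000) := T_25 (nat_lit 195) (nat_lit 174) (nat_lit 0) (nat_lit 8) (nat_lit 11) L7619 (by decide +kernel)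
theorem L7621 : W_25 (nat_lit 6) (nat_lit 0x5000280024001700080000000000000000000000000000000) (nat_lit 0x0) (nat_lit 0x74001a001840040000000000000000000000000000000000000000) := T_25 (nat_lit 193) (nat_lit 210) (nat_lit 7) (nat_lit 5) (nat_lit 8) L7620 (by decide +kernel)
theorem L7622 : W_25 (nat_lit 7) (nat_lit 0x5000280004001700080000000000000000000000000000000) (nat_lit 0x0) (nat_lit 0x74001a001c40060000000000000000000000000000000000000000) := T_25 (nat_lit 161) (nat_lit 178) (nat_lit 5) (nat_lit 8) (nat_lit 7) L7621 (by decide +kernel)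
theorem L7623 : W_25 (nat_lit 8) (nat_lit 0x5000280004001300080000000000000000000000000000000) (nat_lit 0x0) (nat_lit 0x74001a001c40060000400020000000000000000000000000000000) := T_25 (nat_lit 142) (nat_lit 125) (nat_lit 6) (nat_lit 5) (nat_lit 11) L7622 (by decide +kernel)
theorem L7624 : W_25 (nat_lit 9) (nat_lit 0x5000280004001200080000000000000000000000000000000) (nat_lit 0x0) (nat_lit 0x74001a001c40060000500028000000000000000000000000000000) := T_25 (nat_lit 140) (nat_lit 123) (nat_lit 4) (nat_lit 5) (nat_lit 11) L7623 (by decide +kernel)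
theorem L7625 : W_25 (nat_lit 2) (nat_lit 0x10000f000680004001600080000000000000000000000000000000) (nat_lit 0x0) (nat_lit 0x40002000000000000000010000000000000000000000000000000000000000) := D_25 (nat_lit 229) (nat_lit 160) (nat_lit 246) (nat_lit 4) (nat_lit 8) (nat_lit 13) (nat_lit 4) (nat_lit 8) (nat_lit 14) (by decide +kernel)
theorem L7626 : W_25 (nat_lit 3) (nat_lit 0x10000f000280004001600080000000000000000000000000000000) (nat_lit 0x0) (nat_lit 0x40002000000000000c00010000000000000000000000000000000000000000) := T_25 (nat_lit 178) (nat_lit 179) (nat_lit 2) (nat_lit 5) (nat_lit 11) L7625 (by decide +kernel)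
theorem L7627 : W_25 (nat_lit 4) (nat_lit 0xf000280004001600080000000000000000000000000000000) (nat_lit 0x0) (nat_lit 0x40002000300000000c00010000000000000000000000000000000000000000) := T_25 (nat_lit 212) (nat_lit 213) (nat_lit 3) (nat_lit 5) (nat_lit 11) L7626 (by decide +kernel)
theorem L7628 : W_25 (nat_lit 5) (nat_lit 0xf000280004001200080000000000000000000000000000000) (nat_lit 0x0) (nat_lit 0x40002000300000000c00010000400020000000000000000000000000000000) := T_25 (nat_lit 142) (nat_lit 125) (nat_lit 6) (nat_lit 5) (nat_lit 11) L7627 (by decide +kernel)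
theorem L7629 : W_25 (nat_lit 6) (nat_lit 0x7000280004001200080000000000000000000000000000000) (nat_lit 0x0) (nat_lit 0x40002000300008000c40010000400020000000000000000000000000000000) := T_25 (nat_lit 195) (nat_lit 174) (nat_lit 0) (nat_lit 8) (nat_lit 11) L7628 (by decide +kernel)
theorem L7630 : W_25 (nat_lit 7) (nat_lit 0x5000280004001200080000000000000000000000000000000) (nat_lit 0x0) (nat_lit 0x4000200034000a000c40010000400020000000000000000000000000000000) := T_25 (nat_lit 193) (nat_lit 210) (nat_lit 7) (nat_lit 5) (nat_lit 8) L7629 (by decide +kernel)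
theorem L7631 : W_25 (nat_lit 2) (nat_lit 0x70002d000400160009a000800080000000000000000000000) (nat_lit 0x0) (nat_lit 0x8000000000000000040004000000000000000000) := D_25 (nat_lit 90) (nat_lit 159) (nat_lit 74) (nat_lit 7) (nat_lit 5) (nat_lit 5) (nat_lit 6) (nat_lit 5) (nat_lit 8) (by decide +kernel)
theorem L7632 : W_25 (nat_lit 3) (nat_lit 0x70002d000400160009a000800000000000000000000000000) (nat_lit 0x0) (nat_lit 0x80000000000010000c0004000000000000000000) := T_25 (nat_lit 91) (nat_lit 108) (nat_lit 6) (nat_lit 5) (nat_lit 9) L7631 (by decide +kernel)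
theorem L7633 : W_25 (nat_lit 4) (nat_lit 0x70002d000400160009a000000000000000000000000000000) (nat_lit 0x0) (nat_lit 0xa0000000000018000c0004000000000000000000) := T_25 (nat_lit 107) (nat_lit 157) (nat_lit 5) (nat_lit 5) (nat_lit 6) L7632 (by decide +kernel)
theorem L7634 : W_25 (nat_lit 5) (nat_lit 0x70002d0004001600098000000000000000000000000000000) (nat_lit 0x0) (nat_lit 0xa0000000060018000c0004000000000000000000) := T_25 (nat_lit 121) (nat_lit 122) (nat_lit 3) (nat_lit 2) (nat_lit 7) L7633 (by decide +kernel)
theorem L7635 : W_25 (nat_lit 6) (nat_lit 0x70002d0004001600088000000000000000000000000000000) (nat_lit 0x0) (nat_lit 0xa000000016001c000c0004000000000000000000) := T_25 (nat_lit 124) (nat_lit 106) (nat_lit 4) (nat_lit 5) (nat_lit 10) L7634 (by decide +kernel)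
theorem L7636 : W_25 (nat_lit 7) (nat_lit 0x70002c0004001600088000000000000000000000000000000) (nat_lit 0x0) (nat_lit 0x3000a000000016001c000c0004000000000000000000) := T_25 (nat_lit 172) (nat_lit 173) (nat_lit 3) (nat_lit 2) (nat_lit 10) L7635 (by decide +kernel)
theorem L7637 : W_25 (nat_lit 8) (nat_lit 0x70002c0004001600080000000000000000000000000000000) (nat_lit 0x0) (nat_lit 0x3000a00010001e001c000c0004000000000000000000) := T_25 (nat_lit 123) (nat_lit 140) (nat_lit 4) (nat_lit 5) (nat_lit 11) L7636 (by decide +kernel)
theorem L7638 : W_25 (nat_lit 9) (nat_lit 0x7000280004001600080000000000000000000000000000000) (nat_lit 0x0) (nat_lit 0x800007000a00010001e001c000c0004000000000000000000) := T_25 (nat_lit 174) (nat_lit 195) (nat_lit 0) (nat_lit 8) (nat_lit 11) L7637 (by decide +kernel)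
theorem L7639 : W_25 (nat_lit 10) (nat_lit 0x5000280004001600080000000000000000000000000000000) (nat_lit 0x0) (nat_lit 0x4000a00007000a00010001e001c000c0004000000000000000000) := T_25 (nat_lit 193) (nat_lit 210) (nat_lit 7) (nat_lit 5) (nat_lit 8) L7638 (by decide +kernel)
theorem L7640 : W_25 (nat_lit 11) (nat_lit 0x5000280004001200080000000000000000000000000000000) (nat_lit 0x0) (nat_lit 0x4000a00007000a00050003e001c000c0004000000000000000000) := T_25 (nat_lit 142) (nat_lit 125) (nat_lit 6) (nat_lit 5) (nat_lit 11) L7639 (by decide +kernel)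
theorem L7641 : W_25 (nat_lit 12) (nat_lit 0x5000280004001000080000000000000000000000000000000) (nat_lit 0x0) (nat_lit 0x4000200074001a001c7007a00070007e001c000c0004000000000000000000) := Q_25 (nat_lit 141) (C_25 L7616 (C_25 L7624 (C_25 L7630 (C_25 L7528 (C_25 L7640 N_25))))) (by decide +kernel)
theorem L7642 : W_25 (nat_lit 2) (nat_lit 0x2000200050002c002c001000080000000000000000000000000000000) (nat_lit 0x0) (nat_lit 0x4000400000000000000002000000000000000000000000000000000000000) := D_25 (nat_lit 226) (nat_lit 157) (nat_lit 242) (nat_lit 4) (nat_lit 5) (nat_lit 13) (nat_lit 5) (nat_lit 5) (nat_lit 10) (by decide +kernel)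
theorem L7643 : W_25 (nat_lit 3) (nat_lit 0x200050002c002c001000080000000000000000000000000000000) (nat_lit 0x0) (nat_lit 0x4000600010000000000002000000000000000000000000000000000000000) := T_25 (nat_lit 225) (nat_lit 208) (nat_lit 5) (nat_lit 5) (nat_lit 9) L7642 (by decide +kernel)
theorem L7644 : W_25 (nat_lit 4) (nat_lit 0x2000500028002c001000080000000000000000000000000000000) (nat_lit 0x0) (nat_lit 0x4000600010000000040012000000000000000000000000000000000000000) := T_25 (nat_lit 174) (nat_lit 160) (nat_lit 1) (nat_lit 8) (nat_lit 9) L7643 (by decide +kernel)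
theorem L7645 : W_25 (nat_lit 5) (nat_lit 0x2000500028000c001000080000000000000000000000000000000) (nat_lit 0x0) (nat_lit 0x4000600010000000440032000000000000000000000000000000000000000) := T_25 (nat_lit 161) (nat_lit 178) (nat_lit 5) (nat_lit 8) (nat_lit 7) L7644 (by decide +kernel)
theorem L7646 : W_25 (nat_lit 6) (nat_lit 0x20005000280004001000080000000000000000000000000000000) (nat_lit 0x0) (nat_lit 0x400060001000000044003a000400000000000000000000000000000000000) := T_25 (nat_lit 159) (nat_lit 142) (nat_lit 6) (nat_lit 5) (nat_lit 12) L7645 (by decide +kernel)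
theorem L7647 : W_25 (nat_lit 7) (nat_lit 0x5000280004001000080000000000000000000000000000000) (nat_lit 0x0) (nat_lit 0x14000e0007000200044003a000600020000000000000000000000000000000) := Q_25 (nat_lit 209) (C_25 L7514 (C_25 L7469 (C_25 L7646 (C_25 L6838 N_25)))) (by decide +kernel)
theorem L7648 : W_25 (nat_lit 2) (nat_lit 0xf000280004001600080000000000000000000000000000000) (nat_lit 0x0) (nat_lit 0x30000000000008000000000000000000000000000000000000000) := D_25 (nat_lit 209) (nat_lit 159) (nat_lit 208) (nat_lit 6) (nat_lit 5) (nat_lit 12) (nat_lit 1) (nat_lit 8) (nat_lit 11) (by decide +kernel)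
theorem L7649 : W_25 (nat_lit 3) (nat_lit 0x7000280004001600080000000000000000000000000000000) (nat_lit 0x0) (nat_lit 0x30008000040008000000000000000000000000000000000000000) := T_25 (nat_lit 195) (nat_lit 174) (nat_lit 0) (nat_lit 8) (nat_lit 11) L7648 (by decide +kernel)
theorem L7650 : W_25 (nat_lit 4) (nat_lit 0x5000280004001600080000000000000000000000000000000) (nat_lit 0x0) (nat_lit 0x7000a000040008000000000000000000000000000000000000000) := T_25 (nat_lit 193) (nat_lit 210) (nat_lit 7) (nat_lit 5) (nat_lit 8) L7649 (by decide +kernel)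
theorem L7651 : W_25 (nat_lit 5) (nat_lit 0x5000280004001200080000000000000000000000000000000) (nat_lit 0x0) (nat_lit 0x7000a000040008000400020000000000000000000000000000000) := T_25 (nat_lit 142) (nat_lit 125) (nat_lit 6) (nat_lit 5) (nat_lit 11) L7650 (by decide +kernel)
theorem L7652 : W_25 (nat_lit 10) (nat_lit 0x5000280004001000080000000000000000000000000000000) (nat_lit 0x0) (nat_lit 0x4000200077001a001c40078000700078001000000000000000000000000000) := Q_25 (nat_lit 141) (C_25 L7528 (C_25 L7616 (C_25 L7630 (C_25 L7624 (C_25 L7651 N_25))))) (by decide +kernel)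
theorem L7653 : W_25 (nat_lit 13) (nat_lit 0x5000280000001000080000000000000000000000000000000) (nat_lit 0x0) (nat_lit 0x54003fc077c01a701c7007e00070007e001c000c0004000000000000000000) := Q_25 (nat_lit 158) (C_25 L7503 (C_25 L7570 (C_25 L7424 (C_25 L7578 (C_25 L7579 (C_25 L7594 (C_25 L7608 (C_25 L7641 (C_25 L7647 (C_25 L7652 N_25)))))))))) (by decide +kernel)
theorem L7654 : W_25 (nat_lit 14) (nat_lit 0x4000280000001000080000000000000000000000000000000) (nat_lit 0x0) (nat_lit 0x500038005c003fc077c01bf01c7007f8007c007e001c000c0004000000000000000000) := Q_25 (nat_lit 192) (C_25 L7450 (C_25 L7453 (C_25 L6960 (C_25 L7564 (C_25 L7653 N_25))))) (by decide +kernel)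
theorem L7655 : W_25 (nat_lit 2) (nat_lit 0x40003e0000001000080000000000000000000000000000000) (nat_lit 0x0) (nat_lit 0xe00000000000000000000000000000000000000000000000) := D_25 (nat_lit 190) (nat_lit 191) (nat_lit 189) (nat_lit 1) (nat_lit 7) (nat_lit 10) (nat_lit 1) (nat_lit 6) (nat_lit 10) (by decide +kernel)
theorem L7656 : W_25 (nat_lit 3) (nat_lit 0x40003c0000001000080000000000000000000000000000000) (nat_lit 0x0) (nat_lit 0x2e00020000000000000000000000000000000000000000000) := T_25 (nat_lit 173) (nat_lit 193) (nat_lit 3) (nat_lit 3) (nat_lit 10) L7655 (by decide +kernel)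
theorem L7657 : W_25 (nat_lit 5) (nat_lit 0x4000380000001000080000000000000000000000000000000) (nat_lit 0x0) (nat_lit 0x3e00460007800000000000000000000000000000000000000) := Q_25 (nat_lit 174) (C_25 L7417 (C_25 L7396 (C_25 L7656 N_25))) (by decide +kernel)
theorem L7662 : W_25 (nat_lit 6) (nat_lit 0x4000780000001000080000000000000000000000000000000) (nat_lit 0x0) (nat_lit 0x1b8038001c0000000000000000000000000000000000000000) := T_25 (nat_lit 195) (nat_lit 196) (nat_lit 3) (nat_lit 5) (nat_lit 10) L7661 (by decide +kernel)
theorem L7663 : W_25 (nat_lit 2) (nat_lit 0xc000f80004001000080000000000000000000000000000000) (nat_lit 0x0) (nat_lit 0x2003000000000000000000000000000000000000000000000) := D_25 (nat_lit 180) (nat_lit 193) (nat_lit 181) (nat_lit 1) (nat_lit 10) (nat_lit 10) (nat_lit 1) (nat_lit 11) (nat_lit 10) (by decide +kernel)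
theorem L7664 : W_25 (nat_lit 3) (nat_lit 0xc000780004001000080000000000000000000000000000000) (nat_lit 0x0) (nat_lit 0x2003800008000000000000000000000000000000000000000) := T_25 (nat_lit 179) (nat_lit 159) (nat_lit 0) (nat_lit 9) (nat_lit 10) L7663 (by decide +kernel)
theorem L7665 : W_25 (nat_lit 4) (nat_lit 0xc000780000001000080000000000000000000000000000000) (nat_lit 0x0) (nat_lit 0x200380000e000000000000000000000000000000000000000) := T_25 (nat_lit 158) (nat_lit 157) (nat_lit 0) (nat_lit 8) (nat_lit 10) L7664 (by decide +kernel)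
theorem L7666 : W_25 (nat_lit 5) (nat_lit 0x4000780000001000080000000000000000000000000000000) (nat_lit 0x0) (nat_lit 0x1a00380000e000000000000000000000000000000000000000) := T_25 (nat_lit 195) (nat_lit 196) (nat_lit 3) (nat_lit 5) (nat_lit 10) L7665 (by decide +kernel)
theorem L7669 : W_25 (nat_lit 4) (nat_lit 0x17000780004001600080000000000000000000000000000000) (nat_lit 0x0) (nat_lit 0x200000000000180001c0008000000000000000000000000000000) := T_25 (nat_lit 159) (nat_lit 209) (nat_lit 6) (nat_lit 5) (nat_lit 12) L7668 (by decide +kernel)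
theorem L7670 : W_25 (nat_lit 5) (nat_lit 0x17000780004001200080000000000000000000000000000000) (nat_lit 0x0) (nat_lit 0x200000000000180005c0028000000000000000000000000000000) := T_25 (nat_lit 142) (nat_lit 125) (nat_lit 6) (nat_lit 5) (nat_lit 11) L7669 (by decide +kernel)
theorem L7671 : W_25 (nat_lit 6) (nat_lit 0x17000780004001000080000000000000000000000000000000) (nat_lit 0x0) (nat_lit 0x200000000000180007c0038000000000000000000000000000000) := T_25 (nat_lit 141) (nat_lit 124) (nat_lit 7) (nat_lit 5) (nat_lit 7) L7670 (by decide +kernel)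
theorem L7672 : W_25 (nat_lit 7) (nat_lit 0x7000780004001000080000000000000000000000000000000) (nat_lit 0x0) (nat_lit 0x200180000000180007c0038000000000000000000000000000000) := T_25 (nat_lit 196) (nat_lit 195) (nat_lit 3) (nat_lit 5) (nat_lit 10) L7671 (by decide +kernel)
theorem L7673 : W_25 (nat_lit 8) (nat_lit 0x6000780004001000080000000000000000000000000000000) (nat_lit 0x0) (nat_lit 0x200198000000180007c0038000000000000000000000000000000) := T_25 (nat_lit 192) (nat_lit 191) (nat_lit 2) (nat_lit 4) (nat_lit 11) L7672 (by decide +kernel)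
theorem L7674 : W_25 (nat_lit 9) (nat_lit 0x6000780000001000080000000000000000000000000000000) (nat_lit 0x0) (nat_lit 0x2001980000001e0007c0038000000000000000000000000000000) := T_25 (nat_lit 158) (nat_lit 157) (nat_lit 0) (nat_lit 8) (nat_lit 10) L7673 (by decide +kernel)
theorem L7677 : W_25 (nat_lit 4) (nat_lit 0x6000780004001000080000000000000000000000000000000) (nat_lit 0x0) (nat_lit 0x800040001800000008000200010000000000000000000000000000000) := T_25 (nat_lit 191) (nat_lit 192) (nat_lit 2) (nat_lit 4) (nat_lit 11) L7676 (by decide +kernel)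
theorem L7678 : W_25 (nat_lit 5) (nat_lit 0x6000780000001000080000000000000000000000000000000) (nat_lit 0x0) (nat_lit 0x80004000180000000e000200010000000000000000000000000000000) := T_25 (nat_lit 158) (nat_lit 157) (nat_lit 0) (nat_lit 8) (nat_lit 10) L7677 (by decide +kernel)
theorem L7681 : W_25 (nat_lit 4) (nat_lit 0x6000780000001000080000000000000000000000000000000) (nat_lit 0x0) (nat_lit 0x800040001800000006000200000000000000000000000000000000000) := T_25 (nat_lit 192) (nat_lit 191) (nat_lit 2) (nat_lit 4) (nat_lit 11) L7680 (by decide +kernel)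
theorem L7682 : W_25 (nat_lit 2) (nat_lit 0x2000f000780004001000080000000000000000000000000000000) (nat_lit 0x0) (nat_lit 0x400000000000000008000400000000000000000000000000000000000) := D_25 (nat_lit 159) (nat_lit 142) (nat_lit 226) (nat_lit 6) (nat_lit 5) (nat_lit 12) (nat_lit 6) (nat_lit 5) (nat_lit 13) (by decide +kernel)
theorem L7683 : W_25 (nat_lit 3) (nat_lit 0xf000780004001000080000000000000000000000000000000) (nat_lit 0x0) (nat_lit 0x400030000000000008000400000000000000000000000000000000000) := T_25 (nat_lit 209) (nat_lit 208) (nat_lit 1) (nat_lit 8) (nat_lit 11) L7682 (by decide +kernel)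
theorem L7684 : W_25 (nat_lit 4) (nat_lit 0xf000780000001000080000000000000000000000000000000) (nat_lit 0x0) (nat_lit 0x40003000000000000e000400000000000000000000000000000000000) := T_25 (nat_lit 158) (nat_lit 157) (nat_lit 0) (nat_lit 8) (nat_lit 10) L7683 (by decide +kernel)
theorem L7685 : W_25 (nat_lit 5) (nat_lit 0xe000780000001000080000000000000000000000000000000) (nat_lit 0x0) (nat_lit 0x40003000180000000e000400000000000000000000000000000000000) := T_25 (nat_lit 192) (nat_lit 191) (nat_lit 2) (nat_lit 4) (nat_lit 11) L7684 (by decide +kernel)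
theorem L7686 : W_25 (nat_lit 6) (nat_lit 0x6000780000001000080000000000000000000000000000000) (nat_lit 0x0) (nat_lit 0x40003001980000000e000400000000000000000000000000000000000) := T_25 (nat_lit 195) (nat_lit 196) (nat_lit 3) (nat_lit 5) (nat_lit 10) L7685 (by decide +kernel)
theorem L7691 : W_25 (nat_lit 2) (nat_lit 0x10000f000780000001000080000000000000000000000000000000) (nat_lit 0x0) (nat_lit 0x40002000000000000000010000000000000000000000000000000000000000) := D_25 (nat_lit 229) (nat_lit 160) (nat_lit 246) (nat_lit 4) (nat_lit 8) (nat_lit 13) (nat_lit 4) (nat_lit 8) (nat_lit 14) (by decide +kernel)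
theorem L7692 : W_25 (nat_lit 3) (nat_lit 0xf000780000001000080000000000000000000000000000000) (nat_lit 0x0) (nat_lit 0x40002000300000000000010000000000000000000000000000000000000000) := T_25 (nat_lit 212) (nat_lit 213) (nat_lit 3) (nat_lit 5) (nat_lit 11) L7691 (by decide +kernel)
theorem L7693 : W_25 (nat_lit 4) (nat_lit 0xe000780000001000080000000000000000000000000000000) (nat_lit 0x0) (nat_lit 0x40002000300001800000010000000000000000000000000000000000000000) := T_25 (nat_lit 192) (nat_lit 191) (nat_lit 2) (nat_lit 4) (nat_lit 11) L7692 (by decide +kernel)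
theorem L7694 : W_25 (nat_lit 5) (nat_lit 0x6000780000001000080000000000000000000000000000000) (nat_lit 0x0) (nat_lit 0x40002000300019800000010000000000000000000000000000000000000000) := T_25 (nat_lit 195) (nat_lit 196) (nat_lit 3) (nat_lit 5) (nat_lit 10) L7693 (by decide +kernel)
theorem L7695 : W_25 (nat_lit 10) (nat_lit 0x4000780000001000080000000000000000000000000000000) (nat_lit 0x0) (nat_lit 0x40002c0037001b80000001e0007c0038000000000000000000000000000000) := Q_25 (nat_lit 193) (C_25 L7674 (C_25 L7678 (C_25 L7681 (C_25 L7686 (C_25 L7690 (C_25 L7694 N_25)))))) (by decide +kernel)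
theorem L7696 : W_25 (nat_lit 11) (nat_lit 0x4000380000001000080000000000000000000000000000000) (nat_lit 0x0) (nat_lit 0x40002c0037001b803c001de0007c0038000000000000000000000000000000) := Q_25 (nat_lit 178) (C_25 L7662 (C_25 L7403 (C_25 L7414 (C_25 L7666 (C_25 L7695 N_25))))) (by decide +kernel)
theorem L7697 : W_25 (nat_lit 4) (nat_lit 0x4000380000001000080000000000000000000000000000000) (nat_lit 0x0) (nat_lit 0xae00060000000000000000000000000000000000000000000) := T_25 (nat_lit 174) (nat_lit 195) (nat_lit 3) (nat_lit 4) (nat_lit 10) L7656 (by decide +kernel)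
theorem L7698 : W_25 (nat_lit 12) (nat_lit 0x4000280000001000080000000000000000000000000000000) (nat_lit 0x0) (nat_lit 0x40002c0037001be03d601df8007c0038000000000000000000000000000000) := Q_25 (nat_lit 176) (C_25 L7657 (C_25 L7397 (C_25 L7696 (C_25 L7418 (C_25 L7697 N_25))))) (by decide +kernel)
theorem L7699 : W_25 (nat_lit 2) (nat_lit 0x5000680000001000080000000000000000000000000000000) (nat_lit 0x0) (nat_lit 0x2800100000000000000000000000000000000000000000000) := D_25 (nat_lit 191) (nat_lit 193) (nat_lit 176) (nat_lit 2) (nat_lit 4) (nat_lit 11) (nat_lit 1) (nat_lit 8) (nat_lit 10) (by decide +kernel)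
theorem L7700 : W_25 (nat_lit 3) (nat_lit 0x5000280000001000080000000000000000000000000000000) (nat_lit 0x0) (nat_lit 0x2800500020000000000000000000000000000000000000000) := T_25 (nat_lit 178) (nat_lit 161) (nat_lit 5) (nat_lit 8) (nat_lit 7) L7699 (by decide +kernel)
theorem L7701 : W_25 (nat_lit 2) (nat_lit 0x50003c0021001000080000000000000000000000000000000) (nat_lit 0x0) (nat_lit 0x2000020000800000000000000000000000000000000000000) := D_25 (nat_lit 173) (nat_lit 155) (nat_lit 193) (nat_lit 0) (nat_lit 6) (nat_lit 10) (nat_lit 3) (nat_lit 3) (nat_lit 10) (by decide +kernel)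
theorem L7702 : W_25 (nat_lit 3) (nat_lit 0x50003c0020001000080000000000000000000000000000000) (nat_lit 0x0) (nat_lit 0x2000020003800000000000000000000000000000000000000) := T_25 (nat_lit 156) (nat_lit 157) (nat_lit 0) (nat_lit 7) (nat_lit 10) L7701 (by decide +kernel)
theorem L7703 : W_25 (nat_lit 4) (nat_lit 0x5000380020001000080000000000000000000000000000000) (nat_lit 0x0) (nat_lit 0x2000060013800000000000000000000000000000000000000) := T_25 (nat_lit 174) (nat_lit 160) (nat_lit 2) (nat_lit 4) (nat_lit 10) L7702 (by decide +kernel)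
theorem L7704 : W_25 (nat_lit 5) (nat_lit 0x5000380000001000080000000000000000000000000000000) (nat_lit 0x0) (nat_lit 0x2000460033800000000000000000000000000000000000000) := T_25 (nat_lit 161) (nat_lit 178) (nat_lit 5) (nat_lit 8) (nat_lit 7) L7703 (by decide +kernel)
theorem L7705 : W_25 (nat_lit 2) (nat_lit 0x200050003c0022001000080000000000000000000000000000000) (nat_lit 0x0) (nat_lit 0x4000100008000000000000000000000000000000) := D_25 (nat_lit 140) (nat_lit 123) (nat_lit 158) (nat_lit 7) (nat_lit 4) (nat_lit 7) (nat_lit 4) (nat_lit 5) (nat_lit 12) (by decide +kernel)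
theorem L7706 : W_25 (nat_lit 3) (nat_lit 0x50003c0022001000080000000000000000000000000000000) (nat_lit 0x0) (nat_lit 0x400020000000000004000100008000000000000000000000000000000) := T_25 (nat_lit 209) (nat_lit 226) (nat_lit 4) (nat_lit 5) (nat_lit 13) L7705 (by decide +kernel)
theorem L7707 : W_25 (nat_lit 4) (nat_lit 0x50003c0020001000080000000000000000000000000000000) (nat_lit 0x0) (nat_lit 0x400020000000000007000100008000000000000000000000000000000) := T_25 (nat_lit 157) (nat_lit 156) (nat_lit 0) (nat_lit 7) (nat_lit 10) L7706 (by decide +kernel)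
theorem L7708 : W_25 (nat_lit 5) (nat_lit 0x5000380020001000080000000000000000000000000000000) (nat_lit 0x0) (nat_lit 0x400020000000040017000100008000000000000000000000000000000) := T_25 (nat_lit 174) (nat_lit 160) (nat_lit 2) (nat_lit 4) (nat_lit 10) L7707 (by decide +kernel)
theorem L7709 : W_25 (nat_lit 6) (nat_lit 0x5000380000001000080000000000000000000000000000000) (nat_lit 0x0) (nat_lit 0x400020000000440037000100008000000000000000000000000000000) := T_25 (nat_lit 161) (nat_lit 178) (nat_lit 5) (nat_lit 8) (nat_lit 7) L7708 (by decide +kernel)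
theorem L7710 : W_25 (nat_lit 4) (nat_lit 0x5000380000001000080000000000000000000000000000000) (nat_lit 0x0) (nat_lit 0x2000c0002e000000000000000000000000000000000000000) := T_25 (nat_lit 178) (nat_lit 161) (nat_lit 5) (nat_lit 8) (nat_lit 7) L7413 (by decide +kernel)
theorem L7711 : W_25 (nat_lit 2) (nat_lit 0x50003e000a001000080000000000000000000000000000000) (nat_lit 0x0) (nat_lit 0x410004000000000000000000000000000000000000000) := D_25 (nat_lit 158) (nat_lit 172) (nat_lit 178) (nat_lit 2) (nat_lit 2) (nat_lit 10) (nat_lit 0) (nat_lit 8) (nat_lit 10) (by decide +kernel)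
theorem L7712 : W_25 (nat_lit 3) (nat_lit 0x50003e0002001000080000000000000000000000000000000) (nat_lit 0x0) (nat_lit 0x41001c000000000000000000000000000000000000000) := T_25 (nat_lit 159) (nat_lit 160) (nat_lit 2) (nat_lit 3) (nat_lit 10) L7711 (by decide +kernel)
theorem L7713 : W_25 (nat_lit 4) (nat_lit 0x50003c0002001000080000000000000000000000000000000) (nat_lit 0x0) (nat_lit 0x200043001c000000000000000000000000000000000000000) := T_25 (nat_lit 173) (nat_lit 193) (nat_lit 3) (nat_lit 3) (nat_lit 10) L7712 (by decide +kernel)
theorem L7714 : W_25 (nat_lit 5) (nat_lit 0x50003c0000001000080000000000000000000000000000000) (nat_lit 0x0) (nat_lit 0x200043001f000000000000000000000000000000000000000) := T_25 (nat_lit 157) (nat_lit 156) (nat_lit 0) (nat_lit 7) (nat_lit 10) L7713 (by decide +kernel)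
theorem L7724 : W_25 (nat_lit 6) (nat_lit 0x5000380000001000080000000000000000000000000000000) (nat_lit 0x0) (nat_lit 0x2000270047001f800100008000000000000000000000000000000) := Q_25 (nat_lit 174) (C_25 L7714 (C_25 L7716 (C_25 L7719 (C_25 L7723 N_25)))) (by decide +kernel)
theorem L7725 : W_25 (nat_lit 2) (nat_lit 0x54003e0012001100080000000000000000000000000000000) (nat_lit 0x0) (nat_lit 0x400020000000000004000000000000000000000000000000000000000) := D_25 (nat_lit 209) (nat_lit 226) (nat_lit 158) (nat_lit 4) (nat_lit 5) (nat_lit 13) (nat_lit 4) (nat_lit 5) (nat_lit 12) (by decide +kernel)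
theorem L7726 : W_25 (nat_lit 3) (nat_lit 0x54003e0012001000080000000000000000000000000000000) (nat_lit 0x0) (nat_lit 0x400020000000000004000100008000000000000000000000000000000) := T_25 (nat_lit 140) (nat_lit 123) (nat_lit 7) (nat_lit 4) (nat_lit 7) L7725 (by decide +kernel)
theorem L7727 : W_25 (nat_lit 4) (nat_lit 0x50003e0012001000080000000000000000000000000000000) (nat_lit 0x0) (nat_lit 0x400020000600000004000100008000000000000000000000000000000) := T_25 (nat_lit 190) (nat_lit 189) (nat_lit 1) (nat_lit 6) (nat_lit 10) L7726 (by decide +kernel)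
theorem L7728 : W_25 (nat_lit 5) (nat_lit 0x50003c0012001000080000000000000000000000000000000) (nat_lit 0x0) (nat_lit 0x40002000060002000c000100008000000000000000000000000000000) := T_25 (nat_lit 173) (nat_lit 159) (nat_lit 2) (nat_lit 3) (nat_lit 10) L7727 (by decide +kernel)
theorem L7729 : W_25 (nat_lit 6) (nat_lit 0x50003c0002001000080000000000000000000000000000000) (nat_lit 0x0) (nat_lit 0x40002000060002003c000100008000000000000000000000000000000) := T_25 (nat_lit 160) (nat_lit 161) (nat_lit 2) (nat_lit 4) (nat_lit 10) L7728 (by decide +kernel)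
theorem L7730 : W_25 (nat_lit 7) (nat_lit 0x50003c0000001000080000000000000000000000000000000) (nat_lit 0x0) (nat_lit 0x40002000060002003f000100008000000000000000000000000000000) := T_25 (nat_lit 157) (nat_lit 156) (nat_lit 0) (nat_lit 7) (nat_lit 10) L7729 (by decide +kernel)
theorem L7731 : W_25 (nat_lit 2) (nat_lit 0x200050003c0012001000080000000000000000000000000000000) (nat_lit 0x0) (nat_lit 0x4000100008000000000000000000000000000000) := D_25 (nat_lit 140) (nat_lit 123) (nat_lit 158) (nat_lit 7) (nat_lit 4) (nat_lit 7) (nat_lit 4) (nat_lit 5) (nat_lit 12) (by decide +kernel)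
theorem L7732 : W_25 (nat_lit 3) (nat_lit 0x50003c0012001000080000000000000000000000000000000) (nat_lit 0x0) (nat_lit 0x400020000000000004000100008000000000000000000000000000000) := T_25 (nat_lit 209) (nat_lit 226) (nat_lit 4) (nat_lit 5) (nat_lit 13) L7731 (by decide +kernel)
theorem L7733 : W_25 (nat_lit 4) (nat_lit 0x50003c0010001000080000000000000000000000000000000) (nat_lit 0x0) (nat_lit 0x400020000000000007000100008000000000000000000000000000000) := T_25 (nat_lit 157) (nat_lit 156) (nat_lit 0) (nat_lit 7) (nat_lit 10) L7732 (by decide +kernel)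
theorem L7734 : W_25 (nat_lit 5) (nat_lit 0x50003c0000001000080000000000000000000000000000000) (nat_lit 0x0) (nat_lit 0x400020000000000037000100008000000000000000000000000000000) := T_25 (nat_lit 160) (nat_lit 161) (nat_lit 2) (nat_lit 4) (nat_lit 10) L7733 (by decide +kernel)
theorem L7735 : W_25 (nat_lit 8) (nat_lit 0x5000380000001000080000000000000000000000000000000) (nat_lit 0x0) (nat_lit 0x40002000270007003f800100008000000000000000000000000000000) := Q_25 (nat_lit 174) (C_25 L7723 (C_25 L7716 (C_25 L7730 (C_25 L7734 N_25)))) (by decide +kernel)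
theorem L7736 : W_25 (nat_lit 2) (nat_lit 0x52003e0020801000080000000000000000000000000000000) (nat_lit 0x0) (nat_lit 0x100010000400000000000000000000000000000000000000) := D_25 (nat_lit 172) (nat_lit 188) (nat_lit 154) (nat_lit 1) (nat_lit 5) (nat_lit 10) (nat_lit 0) (nat_lit 5) (nat_lit 10) (by decide +kernel)
theorem L7737 : W_25 (nat_lit 3) (nat_lit 0x52003e0020001000080000000000000000000000000000000) (nat_lit 0x0) (nat_lit 0x100010001c00000000000000000000000000000000000000) := T_25 (nat_lit 155) (nat_lit 156) (nat_lit 0) (nat_lit 6) (nat_lit 10) L7736 (by decide +kernel)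
theorem L7738 : W_25 (nat_lit 4) (nat_lit 0x50003e0020001000080000000000000000000000000000000) (nat_lit 0x0) (nat_lit 0x700010001c00000000000000000000000000000000000000) := T_25 (nat_lit 189) (nat_lit 190) (nat_lit 1) (nat_lit 6) (nat_lit 10) L7737 (by decide +kernel)
theorem L7739 : W_25 (nat_lit 5) (nat_lit 0x50003c0020001000080000000000000000000000000000000) (nat_lit 0x0) (nat_lit 0x2700030001c00000000000000000000000000000000000000) := T_25 (nat_lit 173) (nat_lit 193) (nat_lit 3) (nat_lit 3) (nat_lit 10) L7738 (by decide +kernel)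
theorem L7740 : W_25 (nat_lit 6) (nat_lit 0x5000380020001000080000000000000000000000000000000) (nat_lit 0x0) (nat_lit 0x2700070011c00000000000000000000000000000000000000) := T_25 (nat_lit 174) (nat_lit 160) (nat_lit 2) (nat_lit 4) (nat_lit 10) L7739 (by decide +kernel)
theorem L7741 : W_25 (nat_lit 7) (nat_lit 0x5000380000001000080000000000000000000000000000000) (nat_lit 0x0) (nat_lit 0x2700470031c00000000000000000000000000000000000000) := T_25 (nat_lit 161) (nat_lit 178) (nat_lit 5) (nat_lit 8) (nat_lit 7) L7740 (by decide +kernel)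
theorem L7742 : W_25 (nat_lit 9) (nat_lit 0x5000280000001000080000000000000000000000000000000) (nat_lit 0x0) (nat_lit 0x400020002700d7003fc00100008000000000000000000000000000000) := Q_25 (nat_lit 176) (C_25 L7704 (C_25 L7709 (C_25 L7710 (C_25 L7724 (C_25 L7735 (C_25 L7741 N_25)))))) (by decide +kernel)
theorem L7743 : W_25 (nat_lit 14) (nat_lit 0x4000280000001000080000000000000000000000000000000) (nat_lit 0x0) (nat_lit 0x500038001c000f80078003f00d7003fc007c007e001c00040000000000000000000000) := Q_25 (nat_lit 192) (C_25 L7060 (C_25 L7564 (C_25 L7700 (C_25 L7742 N_25)))) (by decide +kernel)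
theorem L7744 : W_25 (nat_lit 7) (nat_lit 0x4000380000001000080000000000000000000000000000000) (nat_lit 0x0) (nat_lit 0x1b803c001e0000000000000000000000000000000000000000) := T_25 (nat_lit 178) (nat_lit 161) (nat_lit 5) (nat_lit 8) (nat_lit 7) L7662 (by decide +kernel)
theorem L7745 : W_25 (nat_lit 8) (nat_lit 0x4000280000001000080000000000000000000000000000000) (nat_lit 0x0) (nat_lit 0x1be03d601f7800000000000000000000000000000000000000) := Q_25 (nat_lit 176) (C_25 L7697 (C_25 L7406 (C_25 L7657 (C_25 L7744 N_25)))) (by decide +kernel)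
theorem L7746 : W_25 (nat_lit 5) (nat_lit 0x5000780004001000080000000000000000000000000000000) (nat_lit 0x0) (nat_lit 0x180038001c8000000000000000000000000000000000000000) := T_25 (nat_lit 195) (nat_lit 196) (nat_lit 3) (nat_lit 5) (nat_lit 10) L7400 (by decide +kernel)
theorem L7747 : W_25 (nat_lit 6) (nat_lit 0x5000780000001000080000000000000000000000000000000) (nat_lit 0x0) (nat_lit 0x180038001ce000000000000000000000000000000000000000) := T_25 (nat_lit 158) (nat_lit 157) (nat_lit 0) (nat_lit 8) (nat_lit 10) L7746 (by decide +kernel)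
theorem L7748 : W_25 (nat_lit 7) (nat_lit 0x5000680000001000080000000000000000000000000000000) (nat_lit 0x0) (nat_lit 0x188039001ce000000000000000000000000000000000000000) := T_25 (nat_lit 176) (nat_lit 191) (nat_lit 1) (nat_lit 8) (nat_lit 10) L7747 (by decide +kernel)
theorem L7749 : W_25 (nat_lit 8) (nat_lit 0x5000280000001000080000000000000000000000000000000) (nat_lit 0x0) (nat_lit 0x18803d001ee000000000000000000000000000000000000000) := T_25 (nat_lit 178) (nat_lit 161) (nat_lit 5) (nat_lit 8) (nat_lit 7) L7748 (by decide +kernel)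
theorem L7750 : W_25 (nat_lit 6) (nat_lit 0x5000680004001000080000000000000000000000000000000) (nat_lit 0x0) (nat_lit 0x180039001ca000000000000000000000000000000000000000) := T_25 (nat_lit 176) (nat_lit 157) (nat_lit 0) (nat_lit 8) (nat_lit 10) L7746 (by decide +kernel)
theorem L7751 : W_25 (nat_lit 7) (nat_lit 0x5000280004001000080000000000000000000000000000000) (nat_lit 0x0) (nat_lit 0x18003d001ea000000000000000000000000000000000000000) := T_25 (nat_lit 178) (nat_lit 161) (nat_lit 5) (nat_lit 8) (nat_lit 7) L7750 (by decide +kernel)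
theorem L7753 : W_25 (nat_lit 3) (nat_lit 0x5000780004001000080000000000000000000000000000000) (nat_lit 0x0) (nat_lit 0x3a000800000000000000000000000000000000000000000000) := T_25 (nat_lit 179) (nat_lit 193) (nat_lit 1) (nat_lit 9) (nat_lit 10) L7752 (by decide +kernel)
theorem L7754 : W_25 (nat_lit 4) (nat_lit 0x5000680004001000080000000000000000000000000000000) (nat_lit 0x0) (nat_lit 0x3a000900002000000000000000000000000000000000000000) := T_25 (nat_lit 176) (nat_lit 157) (nat_lit 0) (nat_lit 8) (nat_lit 10) L7753 (by decide +kernel)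
theorem L7755 : W_25 (nat_lit 5) (nat_lit 0x5000280004001000080000000000000000000000000000000) (nat_lit 0x0) (nat_lit 0x3a000d00022000000000000000000000000000000000000000) := T_25 (nat_lit 178) (nat_lit 161) (nat_lit 5) (nat_lit 8) (nat_lit 7) L7754 (by decide +kernel)
theorem L7756 : W_25 (nat_lit 2) (nat_lit 0x3400700038002c001200080000000000000000000000000000000) (nat_lit 0x0) (nat_lit 0x50000100000000000000000000000000000000000) := D_25 (nat_lit 160) (nat_lit 162) (nat_lit 140) (nat_lit 1) (nat_lit 9) (nat_lit 9) (nat_lit 0) (nat_lit 8) (nat_lit 9) (by decide +kernel)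
theorem L7757 : W_25 (nat_lit 3) (nat_lit 0x3400700038002c001000080000000000000000000000000000000) (nat_lit 0x0) (nat_lit 0x50000300010000000000000000000000000000000) := T_25 (nat_lit 141) (nat_lit 124) (nat_lit 7) (nat_lit 5) (nat_lit 7) L7756 (by decide +kernel)
theorem L7758 : W_25 (nat_lit 4) (nat_lit 0x3000700038002c001000080000000000000000000000000000000) (nat_lit 0x0) (nat_lit 0xc000000000050000300010000000000000000000000000000000) := T_25 (nat_lit 206) (nat_lit 207) (nat_lit 2) (nat_lit 2) (nat_lit 12) L7757 (by decide +kernel)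
theorem L7759 : W_25 (nat_lit 5) (nat_lit 0x3000700028002c001000080000000000000000000000000000000) (nat_lit 0x0) (nat_lit 0x40000c000000100050000300010000000000000000000000000000000) := T_25 (nat_lit 176) (nat_lit 226) (nat_lit 6) (nat_lit 5) (nat_lit 13) L7758 (by decide +kernel)
theorem L7760 : W_25 (nat_lit 6) (nat_lit 0x3000500028002c001000080000000000000000000000000000000) (nat_lit 0x0) (nat_lit 0x40000c00a000100050000300010000000000000000000000000000000) := T_25 (nat_lit 193) (nat_lit 195) (nat_lit 1) (nat_lit 8) (nat_lit 11) L7759 (by decide +kernel)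
theorem L7761 : W_25 (nat_lit 7) (nat_lit 0x2000500028002c001000080000000000000000000000000000000) (nat_lit 0x0) (nat_lit 0x60001c00a000100050000300010000000000000000000000000000000) := T_25 (nat_lit 208) (nat_lit 225) (nat_lit 5) (nat_lit 5) (nat_lit 9) L7760 (by decide +kernel)
theorem L7762 : W_25 (nat_lit 8) (nat_lit 0x20005000280024001000080000000000000000000000000000000) (nat_lit 0x0) (nat_lit 0x60001c00a000100058000700010000000000000000000000000000000) := T_25 (nat_lit 159) (nat_lit 142) (nat_lit 6) (nat_lit 5) (nat_lit 12) L7761 (by decide +kernel)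
theorem L7763 : W_25 (nat_lit 9) (nat_lit 0x20005000280004001000080000000000000000000000000000000) (nat_lit 0x0) (nat_lit 0x60001c00a000500078000700010000000000000000000000000000000) := T_25 (nat_lit 161) (nat_lit 178) (nat_lit 5) (nat_lit 8) (nat_lit 7) L7762 (by decide +kernel)
theorem L7764 : W_25 (nat_lit 10) (nat_lit 0x5000280004001000080000000000000000000000000000000) (nat_lit 0x0) (nat_lit 0x14000e0007c00a000500078000700030000000000000000000000000000000) := Q_25 (nat_lit 209) (C_25 L7763 (C_25 L7514 (C_25 L7469 (C_25 L6838 N_25)))) (by decide +kernel)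
theorem L7765 : W_25 (nat_lit 11) (nat_lit 0x5000280000001000080000000000000000000000000000000) (nat_lit 0x0) (nat_lit 0x14000e0007c03a003d001fe000700078001000000000000000000000000000) := Q_25 (nat_lit 158) (C_25 L7751 (C_25 L7579 (C_25 L7233 (C_25 L7755 (C_25 L7764 N_25))))) (by decide +kernel)
theorem L7766 : W_25 (nat_lit 13) (nat_lit 0x4000280000001000080000000000000000000000000000000) (nat_lit 0x0) (nat_lit 0x28001c000e0007c03bc03d301ff8007c0078001000000000000000000000000000) := Q_25 (nat_lit 192) (C_25 L7234 (C_25 L7453 (C_25 L7700 (C_25 L7749 (C_25 L7765 N_25))))) (by decide +kernel)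
theorem L7767 : W_25 (nat_lit 6) (nat_lit 0x4000380000001000080000000000000000000000000000000) (nat_lit 0x0) (nat_lit 0x1a003c0002e000000000000000000000000000000000000000) := T_25 (nat_lit 178) (nat_lit 161) (nat_lit 5) (nat_lit 8) (nat_lit 7) L7666 (by decide +kernel)
theorem L7768 : W_25 (nat_lit 7) (nat_lit 0x4000280000001000080000000000000000000000000000000) (nat_lit 0x0) (nat_lit 0x1ae03d6003f800000000000000000000000000000000000000) := Q_25 (nat_lit 176) (C_25 L7697 (C_25 L7410 (C_25 L7391 (C_25 L7767 N_25)))) (by decide +kernel)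
theorem L7769 : W_25 (nat_lit 3) (nat_lit 0x4000380000001000080000000000000000000000000000000) (nat_lit 0x0) (nat_lit 0x3a000040000000000000000000000000000000000000000000) := T_25 (nat_lit 195) (nat_lit 174) (nat_lit 3) (nat_lit 4) (nat_lit 10) L5315 (by decide +kernel)
theorem L7770 : W_25 (nat_lit 6) (nat_lit 0x4000280000001000080000000000000000000000000000000) (nat_lit 0x0) (nat_lit 0x3b800d4003e000000000000000000000000000000000000000) := Q_25 (nat_lit 176) (C_25 L7769 (C_25 L7406 (C_25 L7415 N_25))) (by decide +kernel)
theorem L7771 : W_25 (nat_lit 8) (nat_lit 0x4000280000001000080000000000000000000000000000000) (nat_lit 0x0) (nat_lit 0x3be03d601fb800000000000000000000000000000000000000) := Q_25 (nat_lit 176) (C_25 L7769 (C_25 L7410 (C_25 L7391 (C_25 L7744 N_25)))) (by decide +kernel)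
theorem L7772 : W_25 (nat_lit 2) (nat_lit 0x42003f0022001000080000000000000000000000000000000) (nat_lit 0x0) (nat_lit 0x800c000000000000000000000000000000000000000) := D_25 (nat_lit 158) (nat_lit 171) (nat_lit 159) (nat_lit 2) (nat_lit 1) (nat_lit 10) (nat_lit 2) (nat_lit 2) (nat_lit 10) (by decide +kernel)
theorem L7773 : W_25 (nat_lit 3) (nat_lit 0x42003e0022001000080000000000000000000000000000000) (nat_lit 0x0) (nat_lit 0x10001800c000000000000000000000000000000000000000) := T_25 (nat_lit 172) (nat_lit 188) (nat_lit 1) (nat_lit 5) (nat_lit 10) L7772 (by decide +kernel)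
theorem L7774 : W_25 (nat_lit 4) (nat_lit 0x40003e0022001000080000000000000000000000000000000) (nat_lit 0x0) (nat_lit 0x70001800c000000000000000000000000000000000000000) := T_25 (nat_lit 189) (nat_lit 190) (nat_lit 1) (nat_lit 6) (nat_lit 10) L7773 (by decide +kernel)
theorem L7775 : W_25 (nat_lit 5) (nat_lit 0x40003c0022001000080000000000000000000000000000000) (nat_lit 0x0) (nat_lit 0x270003800c000000000000000000000000000000000000000) := T_25 (nat_lit 173) (nat_lit 193) (nat_lit 3) (nat_lit 3) (nat_lit 10) L7774 (by decide +kernel)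
theorem L7776 : W_25 (nat_lit 6) (nat_lit 0x40003c0020001000080000000000000000000000000000000) (nat_lit 0x0) (nat_lit 0x270003800f000000000000000000000000000000000000000) := T_25 (nat_lit 157) (nat_lit 156) (nat_lit 0) (nat_lit 7) (nat_lit 10) L7775 (by decide +kernel)
theorem L7777 : W_25 (nat_lit 7) (nat_lit 0x4000380020001000080000000000000000000000000000000) (nat_lit 0x0) (nat_lit 0x270007801f000000000000000000000000000000000000000) := T_25 (nat_lit 174) (nat_lit 160) (nat_lit 2) (nat_lit 4) (nat_lit 10) L7776 (by decide +kernel)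
theorem L7778 : W_25 (nat_lit 8) (nat_lit 0x4000380000001000080000000000000000000000000000000) (nat_lit 0x0) (nat_lit 0x270047803f000000000000000000000000000000000000000) := T_25 (nat_lit 161) (nat_lit 178) (nat_lit 5) (nat_lit 8) (nat_lit 7) L7777 (by decide +kernel)
theorem L7779 : W_25 (nat_lit 9) (nat_lit 0x4000280000001000080000000000000000000000000000000) (nat_lit 0x0) (nat_lit 0x3a703d7803f000000000000000000000000000000000000000) := Q_25 (nat_lit 176) (C_25 L7769 (C_25 L7406 (C_25 L7778 (C_25 L7767 N_25)))) (by decide +kernel)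
theorem L7780 : W_25 (nat_lit 4) (nat_lit 0x4000380020001000080000000000000000000000000000000) (nat_lit 0x0) (nat_lit 0x2e00060010000000000000000000000000000000000000000) := T_25 (nat_lit 174) (nat_lit 160) (nat_lit 2) (nat_lit 4) (nat_lit 10) L7420 (by decide +kernel)
theorem L7781 : W_25 (nat_lit 5) (nat_lit 0x4000380000001000080000000000000000000000000000000) (nat_lit 0x0) (nat_lit 0x2e00460030000000000000000000000000000000000000000) := T_25 (nat_lit 161) (nat_lit 178) (nat_lit 5) (nat_lit 8) (nat_lit 7) L7780 (by decide +kernel)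
theorem L7782 : W_25 (nat_lit 8) (nat_lit 0x4000280000001000080000000000000000000000000000000) (nat_lit 0x0) (nat_lit 0x3be03d601f8000000000000000000000000000000000000000) := Q_25 (nat_lit 176) (C_25 L7769 (C_25 L7410 (C_25 L7781 (C_25 L7744 N_25)))) (by decide +kernel)
theorem L7783 : W_25 (nat_lit 16) (nat_lit 0x4000200000001000080000000000000000000000000000000) (nat_lit 0x0) (nat_lit 0x500038005c003fc077e03bf03df81ffc007e007e001e000e0004000000000000000000) := Q_25 (nat_lit 175) (C_25 L7386 (C_25 L7411 (C_25 L7423 (C_25 L7654 (C_25 L7698 (C_25 L7743 (C_25 L7745 (C_25 L7766 (C_25 L7768 (C_25 L7770 (C_25 L7771 (C_25 L7779 (C_25 L7782 N_25))))))))))))) (by decide +kernel)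
theorem L7784 : W_25 (nat_lit 15) (nat_lit 0x4000200000001000080000000000000000000000000000000) (nat_lit 0x0) (nat_lit 0x1b000d801efc07fc07be03de00ff000600000000000000000000000000000000000) := Q_25 (nat_lit 211) (C_25 L6133 (C_25 L6720 (C_25 L6777 (C_25 L6494 N_25)))) (by decide +kernel)
theorem L7785 : W_25 (nat_lit 13) (nat_lit 0x4000200000001000080000000000000000000000000000000) (nat_lit 0x0) (nat_lit 0x1c000e001fc00ff007f803a0005c003c000400000000000000000000000000000000000) := Q_25 (nat_lit 211) (C_25 L6778 (C_25 L6735 (C_25 L6817 (C_25 L6068 (C_25 L6720 N_25))))) (by decide +kernel)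
theorem L7786 : W_25 (nat_lit 13) (nat_lit 0x4000200000001000080000000000000000000000000000000) (nat_lit 0x0) (nat_lit 0x10000e001f000fe001f003b8005c003e000400000000000000000000000000000000000) := Q_25 (nat_lit 211) (C_25 L6778 (C_25 L6720 (C_25 L6817 (C_25 L6513 N_25)))) (by decide +kernel)
theorem L7787 : W_25 (nat_lit 13) (nat_lit 0x4000200000001000080000000000000000000000000000000) (nat_lit 0x0) (nat_lit 0xa001f000fe006f003b801dc003e000400000000000000000000000000000000000) := Q_25 (nat_lit 211) (C_25 L6778 (C_25 L6720 (C_25 L6541 N_25))) (by decide +kernel)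
theorem L7788 : W_25 (nat_lit 15) (nat_lit 0x4000200000001000080000000000000000000000000000000) (nat_lit 0x0) (nat_lit 0x14000e0007c003e007b003b801de007f000400000000000000000000000000000000000) := Q_25 (nat_lit 211) (C_25 L6153 (C_25 L6799 (C_25 L6594 (C_25 L6720 N_25)))) (by decide +kernel)
theorem L7789 : W_25 (nat_lit 13) (nat_lit 0x4000200000001000080000000000000000000000000000000) (nat_lit 0x0) (nat_lit 0x14000e00078003e007c003bc01de003e000400000000000000000000000000000000000) := Q_25 (nat_lit 211) (C_25 L6778 (C_25 L6720 (C_25 L6806 (C_25 L6668 N_25)))) (by decide +kernel)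
theorem L7790 : W_25 (nat_lit 13) (nat_lit 0x4000200000001000080000000000000000000000000000000) (nat_lit 0x0) (nat_lit 0x14000e000f000f0007f007b801dc007e000600010000000000000000000000000000000) := Q_25 (nat_lit 211) (C_25 L6153 (C_25 L6799 (C_25 L6636 (C_25 L6720 N_25)))) (by decide +kernel)
theorem L7791 : W_25 (nat_lit 13) (nat_lit 0x4000200000001000080000000000000000000000000000000) (nat_lit 0x0) (nat_lit 0x14000e00078001e007c003bc01de003e000400000000000000000000000000000000000) := Q_25 (nat_lit 211) (C_25 L6157 (C_25 L6806 (C_25 L6668 (C_25 L6720 N_25)))) (by decide +kernel)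
theorem L7792 : W_25 (nat_lit 13) (nat_lit 0x4000200000001000080000000000000000000000000000000) (nat_lit 0x0) (nat_lit 0x1c000f801e000f8007f007b801dc007e000600010000000000000000000000000000000) := Q_25 (nat_lit 211) (C_25 L6153 (C_25 L6815 (C_25 L6636 (C_25 L6720 N_25)))) (by decide +kernel)
theorem L7793 : W_25 (nat_lit 13) (nat_lit 0x4000200000001000080000000000000000000000000000000) (nat_lit 0x0) (nat_lit 0x4000600038003f807f803bc01de003e000400000000000000000000000000000000000) := Q_25 (nat_lit 211) (C_25 L6157 (C_25 L6816 (C_25 L6668 (C_25 L6720 N_25)))) (by decide +kernel)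
theorem L7794 : W_25 (nat_lit 13) (nat_lit 0x4000200000001000080000000000000000000000000000000) (nat_lit 0x0) (nat_lit 0x10000c000f000f8007f007b801dc007e000600010000000000000000000000000000000) := Q_25 (nat_lit 211) (C_25 L6157 (C_25 L6817 (C_25 L6636 (C_25 L6720 N_25)))) (by decide +kernel)
theorem L7795 : W_25 (nat_lit 17) (nat_lit 0x200000001000080000000000000000000000000000000) (nat_lit 0x0) (nat_lit 0x1d001f801fe01ffc0ffe07ff03df81ffc007e007e001e000e0004000000000000000000) := Q_25 (nat_lit 194) (C_25 L6158 (C_25 L6669 (C_25 L6721 (C_25 L6818 (C_25 L6819 (C_25 L6820 (C_25 L6821 (C_25 L7783 (C_25 L7784 (C_25 L7785 (C_25 L7786 (C_25 L7787 (C_25 L7788 (C_25 L7789 (C_25 L7790 (C_25 L7791 (C_25 L7792 (C_25 L7793 (C_25 L7794 N_25))))))))))))))))))) (by decide +kernel)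
theorem L17374 : W_25 (nat_lit 2) (nat_lit 0x1f00080004000300000001000080000000000000000000000000000000) (nat_lit 0x0) (nat_lit 0x7000000000000000000000000000000000000000000000000000000000000) := D_25 (nat_lit 241) (nat_lit 240) (nat_lit 242) (nat_lit 1) (nat_lit 6) (nat_lit 13) (nat_lit 1) (nat_lit 7) (nat_lit 13) (by decide +kernel)
theorem L17375 : W_25 (nat_lit 3) (nat_lit 0x1e00080004000300000001000080000000000000000000000000000000) (nat_lit 0x0) (nat_lit 0x7000100040000000000000000000000000000000000000000000000000000) := T_25 (nat_lit 224) (nat_lit 210) (nat_lit 2) (nat_lit 3) (nat_lit 13) L17374 (by decide +kernel)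
theorem L17376 : W_25 (nat_lit 4) (nat_lit 0x1c00080004000300000001000080000000000000000000000000000000) (nat_lit 0x0) (nat_lit 0x7000300140000000000000000000000000000000000000000000000000000) := T_25 (nat_lit 225) (nat_lit 212) (nat_lit 2) (nat_lit 4) (nat_lit 13) L17375 (by decide +kernel)
theorem L17377 : W_25 (nat_lit 5) (nat_lit 0x1c00080004000200000001000080000000000000000000000000000000) (nat_lit 0x0) (nat_lit 0x7000300140000000100008000000000000000000000000000000000000000) := T_25 (nat_lit 176) (nat_lit 159) (nat_lit 4) (nat_lit 7) (nat_lit 13) L17376 (by decide +kernel)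
theorem L17378 : W_25 (nat_lit 2) (nat_lit 0x3c00080004000200000001000080000000000000000000000000000000) (nat_lit 0x0) (nat_lit 0x200300000000000000000000000000000000000000000000000000000) := D_25 (nat_lit 212) (nat_lit 213) (nat_lit 225) (nat_lit 2) (nat_lit 5) (nat_lit 13) (nat_lit 2) (nat_lit 4) (nat_lit 13) (by decide +kernel)
theorem L17379 : W_25 (nat_lit 3) (nat_lit 0x1c00080004000200000001000080000000000000000000000000000000) (nat_lit 0x0) (nat_lit 0x40002200300000000000000000000000000000000000000000000000000000) := T_25 (nat_lit 229) (nat_lit 246) (nat_lit 7) (nat_lit 7) (nat_lit 10) L17378 (by decide +kernel)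
theorem L17380 : W_25 (nat_lit 2) (nat_lit 0x8003c000a0004000300000001000080000000000000000000000000000000) (nat_lit 0x0) (nat_lit 0x40003000000000000000000000000000000000000000000000000) := D_25 (nat_lit 193) (nat_lit 210) (nat_lit 192) (nat_lit 5) (nat_lit 6) (nat_lit 10) (nat_lit 6) (nat_lit 5) (nat_lit 14) (by decide +kernel)
theorem L17381 : W_25 (nat_lit 3) (nat_lit 0x8003c00080004000300000001000080000000000000000000000000000000) (nat_lit 0x0) (nat_lit 0x70003000000000000000000000000000000000000000000000000) := T_25 (nat_lit 209) (nat_lit 208) (nat_lit 0) (nat_lit 8) (nat_lit 13) L17380 (by decide +kernel)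
theorem L17382 : W_25 (nat_lit 4) (nat_lit 0x3c00080004000300000001000080000000000000000000000000000000) (nat_lit 0x0) (nat_lit 0xc000000070003000000000000000000000000000000000000000000000000) := T_25 (nat_lit 243) (nat_lit 242) (nat_lit 1) (nat_lit 8) (nat_lit 13) L17381 (by decide +kernel)
theorem L17383 : W_25 (nat_lit 5) (nat_lit 0x1c00080004000300000001000080000000000000000000000000000000) (nat_lit 0x0) (nat_lit 0x4c002000070003000000000000000000000000000000000000000000000000) := T_25 (nat_lit 229) (nat_lit 246) (nat_lit 7) (nat_lit 7) (nat_lit 10) L17382 (by decide +kernel)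
theorem L17384 : W_25 (nat_lit 6) (nat_lit 0x1c00080004000200000001000080000000000000000000000000000000) (nat_lit 0x0) (nat_lit 0x4c002000070003000100008000000000000000000000000000000000000000) := T_25 (nat_lit 176) (nat_lit 159) (nat_lit 4) (nat_lit 7) (nat_lit 13) L17383 (by decide +kernel)
theorem L17385 : W_25 (nat_lit 7) (nat_lit 0x1800080004000200000001000080000000000000000000000000000000) (nat_lit 0x0) (nat_lit 0x4f002700370003000100008000000000000000000000000000000000000000) := Q_25 (nat_lit 226) (C_25 L17377 (C_25 L17379 (C_25 L17384 N_25))) (by decide +kernel)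
theorem L17386 : W_25 (nat_lit 8) (nat_lit 0x1000080004000200000001000080000000000000000000000000000000) (nat_lit 0x0) (nat_lit 0x5f002f00370003000100008000000000000000000000000000000000000000) := T_25 (nat_lit 227) (nat_lit 244) (nat_lit 5) (nat_lit 7) (nat_lit 10) L17385 (by decide +kernel)
theorem L17390 : W_25 (nat_lit 6) (nat_lit 0x1000080004000300000001000080000000000000000000000000000000) (nat_lit 0x0) (nat_lit 0xc00060007000200010000a000000000000000000000000000000000000000000000000) := T_25 (nat_lit 229) (nat_lit 246) (nat_lit 7) (nat_lit 7) (nat_lit 10) L6051 (by decide +kernel)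
theorem L17391 : W_25 (nat_lit 7) (nat_lit 0x1000080004000200000001000080000000000000000000000000000000) (nat_lit 0x0) (nat_lit 0xc00060007000200010000a000100008000000000000000000000000000000000000000) := T_25 (nat_lit 176) (nat_lit 159) (nat_lit 4) (nat_lit 7) (nat_lit 13) L17390 (by decide +kernel)
theorem L17392 : W_25 (nat_lit 10) (nat_lit 0x80004000200000001000080000000000000000000000000000000) (nat_lit 0x0) (nat_lit 0x1c000e0007f003f0077000b000100008000000000000000000000000000000000000000) := Q_25 (nat_lit 228) (C_25 L17386 (C_25 L17389 (C_25 L6061 (C_25 L17391 (C_25 L6067 (C_25 L6064 N_25)))))) (by decide +kernel)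
theorem L17393 : W_25 (nat_lit 2) (nat_lit 0x1c00180004000600000001000080000000000000000000000000000000) (nat_lit 0x0) (nat_lit 0x640000000000000000000000000000000000000000000000000000) := D_25 (nat_lit 213) (nat_lit 214) (nat_lit 210) (nat_lit 1) (nat_lit 10) (nat_lit 12) (nat_lit 1) (nat_lit 9) (nat_lit 12) (by decide +kernel)
theorem L17394 : W_25 (nat_lit 3) (nat_lit 0x1800180004000600000001000080000000000000000000000000000000) (nat_lit 0x0) (nat_lit 0x600640000000000000000000000000000000000000000000000000000) := T_25 (nat_lit 226) (nat_lit 225) (nat_lit 2) (nat_lit 4) (nat_lit 13) L17393 (by decide +kernel)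
theorem L17395 : W_25 (nat_lit 4) (nat_lit 0x1000180004000600000001000080000000000000000000000000000000) (nat_lit 0x0) (nat_lit 0x10000e00640000000000000000000000000000000000000000000000000000) := T_25 (nat_lit 227) (nat_lit 244) (nat_lit 5) (nat_lit 7) (nat_lit 10) L17394 (by decide +kernel)
theorem L17396 : W_25 (nat_lit 5) (nat_lit 0x1000180004000200000001000080000000000000000000000000000000) (nat_lit 0x0) (nat_lit 0x10000e00640000000400020000000000000000000000000000000000000000) := T_25 (nat_lit 178) (nat_lit 161) (nat_lit 6) (nat_lit 7) (nat_lit 13) L17395 (by decide +kernel)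
theorem L17403 : W_25 (nat_lit 2) (nat_lit 0x1000180007000200020001000080000000000000000000000000000000) (nat_lit 0x0) (nat_lit 0x640000000000000000000000000000000000000000000000000000) := D_25 (nat_lit 213) (nat_lit 214) (nat_lit 210) (nat_lit 0) (nat_lit 10) (nat_lit 12) (nat_lit 0) (nat_lit 9) (nat_lit 12) (by decide +kernel)
theorem L17404 : W_25 (nat_lit 3) (nat_lit 0x1000180006000200020001000080000000000000000000000000000000) (nat_lit 0x0) (nat_lit 0x640001800000000000000000000000000000000000000000000000) := T_25 (nat_lit 192) (nat_lit 191) (nat_lit 3) (nat_lit 4) (nat_lit 11) L17403 (by decide +kernel)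
theorem L17405 : W_25 (nat_lit 4) (nat_lit 0x1000180006000200000001000080000000000000000000000000000000) (nat_lit 0x0) (nat_lit 0x640001800400020000000000000000000000000000000000000000) := T_25 (nat_lit 161) (nat_lit 178) (nat_lit 6) (nat_lit 7) (nat_lit 13) L17404 (by decide +kernel)
theorem L17409 : W_25 (nat_lit 4) (nat_lit 0x3000580006000e00000001000080000000000000000000000000000000) (nat_lit 0x0) (nat_lit 0x8000c000060008000000040000000000000000000000000000000000000000) := T_25 (nat_lit 195) (nat_lit 162) (nat_lit 6) (nat_lit 8) (nat_lit 13) L6258 (by decide +kernel)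
theorem L17410 : W_25 (nat_lit 5) (nat_lit 0x3000580006000600000001000080000000000000000000000000000000) (nat_lit 0x0) (nat_lit 0x8000c000060008001800040000000000000000000000000000000000000000) := T_25 (nat_lit 179) (nat_lit 180) (nat_lit 1) (nat_lit 10) (nat_lit 10) L17409 (by decide +kernel)
theorem L17411 : W_25 (nat_lit 6) (nat_lit 0x1000580006000600000001000080000000000000000000000000000000) (nat_lit 0x0) (nat_lit 0xc000e000060008001800040000000000000000000000000000000000000000) := T_25 (nat_lit 229) (nat_lit 246) (nat_lit 7) (nat_lit 7) (nat_lit 10) L17410 (by decide +kernel)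
theorem L17412 : W_25 (nat_lit 7) (nat_lit 0x1000580006000200000001000080000000000000000000000000000000) (nat_lit 0x0) (nat_lit 0xc000e000060008001c00060000000000000000000000000000000000000000) := T_25 (nat_lit 178) (nat_lit 161) (nat_lit 6) (nat_lit 7) (nat_lit 13) L17411 (by decide +kernel)
theorem L17413 : W_25 (nat_lit 8) (nat_lit 0x1000180006000200000001000080000000000000000000000000000000) (nat_lit 0x0) (nat_lit 0xc000e000660008001c00060000000000000000000000000000000000000000) := T_25 (nat_lit 214) (nat_lit 213) (nat_lit 0) (nat_lit 10) (nat_lit 12) L17412 (by decide +kernel)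
theorem L17414 : W_25 (nat_lit 2) (nat_lit 0x1000180007000200020001000080000000000000000000000000000000) (nat_lit 0x0) (nat_lit 0x600008000000000000000000000000000000000000000000000000) := D_25 (nat_lit 213) (nat_lit 214) (nat_lit 195) (nat_lit 0) (nat_lit 10) (nat_lit 12) (nat_lit 3) (nat_lit 5) (nat_lit 11) (by decide +kernel)
theorem L17415 : W_25 (nat_lit 3) (nat_lit 0x1000180006000200020001000080000000000000000000000000000000) (nat_lit 0x0) (nat_lit 0x600009800000000000000000000000000000000000000000000000) := T_25 (nat_lit 192) (nat_lit 191) (nat_lit 3) (nat_lit 4) (nat_lit 11) L17414 (by decide +kernel)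
theorem L17416 : W_25 (nat_lit 4) (nat_lit 0x1000180006000200000001000080000000000000000000000000000000) (nat_lit 0x0) (nat_lit 0x600009800400020000000000000000000000000000000000000000) := T_25 (nat_lit 161) (nat_lit 178) (nat_lit 6) (nat_lit 7) (nat_lit 13) L17415 (by decide +kernel)
theorem L17417 : W_25 (nat_lit 2) (nat_lit 0x1000180006000e00000001000080000000000000000000000000000000) (nat_lit 0x0) (nat_lit 0x9800000000000000000000000000000000000000000000000) := D_25 (nat_lit 192) (nat_lit 191) (nat_lit 195) (nat_lit 3) (nat_lit 4) (nat_lit 11) (nat_lit 2) (nat_lit 5) (nat_lit 11) (by decide +kernel)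
theorem L17418 : W_25 (nat_lit 3) (nat_lit 0x1000180006000600000001000080000000000000000000000000000000) (nat_lit 0x0) (nat_lit 0x9801800000000000000000000000000000000000000000000) := T_25 (nat_lit 179) (nat_lit 180) (nat_lit 1) (nat_lit 10) (nat_lit 10) L17417 (by decide +kernel)
theorem L17419 : W_25 (nat_lit 4) (nat_lit 0x1000180006000200000001000080000000000000000000000000000000) (nat_lit 0x0) (nat_lit 0x9801c00020000000000000000000000000000000000000000) := T_25 (nat_lit 178) (nat_lit 161) (nat_lit 6) (nat_lit 7) (nat_lit 13) L17418 (by decide +kernel)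
theorem L17420 : W_25 (nat_lit 9) (nat_lit 0x1000180004000200000001000080000000000000000000000000000000) (nat_lit 0x0) (nat_lit 0xc000e00066000b801c00060000000000000000000000000000000000000000) := Q_25 (nat_lit 193) (C_25 L17405 (C_25 L17408 (C_25 L17413 (C_25 L17416 (C_25 L17419 N_25))))) (by decide +kernel)
theorem L17421 : W_25 (nat_lit 10) (nat_lit 0x1000080004000200000001000080000000000000000000000000000000) (nat_lit 0x0) (nat_lit 0x1dc00ee0077000b801c00060000000000000000000000000000000000000000) := Q_25 (nat_lit 212) (C_25 L17396 (C_25 L6237 (C_25 L6234 (C_25 L17402 (C_25 L17420 N_25))))) (by decide +kernel)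
theorem L17428 : W_25 (nat_lit 8) (nat_lit 0x1000080004000600000001000080000000000000000000000000000000) (nat_lit 0x0) (nat_lit 0xc00060007000600017000a000000000000000000000000000000000000000000000000) := T_25 (nat_lit 229) (nat_lit 246) (nat_lit 7) (nat_lit 7) (nat_lit 10) L17427 (by decide +kernel)
theorem L17429 : W_25 (nat_lit 9) (nat_lit 0x1000080004000200000001000080000000000000000000000000000000) (nat_lit 0x0) (nat_lit 0xc00060007000600017000a000400020000000000000000000000000000000000000000) := T_25 (nat_lit 178) (nat_lit 161) (nat_lit 6) (nat_lit 7) (nat_lit 13) L17428 (by decide +kernel)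
theorem L17430 : W_25 (nat_lit 11) (nat_lit 0x80004000200000001000080000000000000000000000000000000) (nat_lit 0x0) (nat_lit 0xc000e001fc00fe0077000b801c00060000000000000000000000000000000000000000) := Q_25 (nat_lit 228) (C_25 L17389 (C_25 L6229 (C_25 L17421 (C_25 L17429 (C_25 L6226 N_25))))) (by decide +kernel)
theorem L17431 : W_25 (nat_lit 9) (nat_lit 0x80004000200000001000080000000000000000000000000000000) (nat_lit 0x0) (nat_lit 0xa0007f003f00370003000100008000000000000000000000000000000000000000) := Q_25 (nat_lit 228) (C_25 L6064 (C_25 L17389 (C_25 L6067 (C_25 L17386 N_25)))) (by decide +kernel)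
theorem L17432 : W_25 (nat_lit 2) (nat_lit 0x30000e0004000700000001000080000000000000000000000000000000) (nat_lit 0x0) (nat_lit 0xc000100000000000000000000000000000000000000000000000000000) := D_25 (nat_lit 230) (nat_lit 231) (nat_lit 212) (nat_lit 0) (nat_lit 10) (nat_lit 13) (nat_lit 3) (nat_lit 5) (nat_lit 12) (by decide +kernel)
theorem L17433 : W_25 (nat_lit 3) (nat_lit 0x30000c0004000700000001000080000000000000000000000000000000) (nat_lit 0x0) (nat_lit 0xc000130000000000000000000000000000000000000000000000000000) := T_25 (nat_lit 209) (nat_lit 208) (nat_lit 3) (nat_lit 4) (nat_lit 12) L17432 (by decide +kernel)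
theorem L17434 : W_25 (nat_lit 4) (nat_lit 0x10000c0004000700000001000080000000000000000000000000000000) (nat_lit 0x0) (nat_lit 0x4000e000130000000000000000000000000000000000000000000000000000) := T_25 (nat_lit 229) (nat_lit 246) (nat_lit 7) (nat_lit 7) (nat_lit 10) L17433 (by decide +kernel)
theorem L17435 : W_25 (nat_lit 5) (nat_lit 0x10000c0004000300000001000080000000000000000000000000000000) (nat_lit 0x0) (nat_lit 0x4000e000130000000400020000000000000000000000000000000000000000) := T_25 (nat_lit 178) (nat_lit 161) (nat_lit 6) (nat_lit 7) (nat_lit 13) L17434 (by decide +kernel)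
theorem L17436 : W_25 (nat_lit 2) (nat_lit 0x3000180004000f00040001000080000000000000000000000000000000) (nat_lit 0x0) (nat_lit 0x200030000000000000000000000000000000000000000000000000) := D_25 (nat_lit 196) (nat_lit 213) (nat_lit 197) (nat_lit 5) (nat_lit 9) (nat_lit 9) (nat_lit 3) (nat_lit 6) (nat_lit 10) (by decide +kernel)
theorem L17437 : W_25 (nat_lit 3) (nat_lit 0x3000080004000f00040001000080000000000000000000000000000000) (nat_lit 0x0) (nat_lit 0x300038000000000000000000000000000000000000000000000000) := T_25 (nat_lit 212) (nat_lit 195) (nat_lit 6) (nat_lit 8) (nat_lit 13) L17436 (by decide +kernel)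
theorem L17438 : W_25 (nat_lit 4) (nat_lit 0x1000080004000f00040001000080000000000000000000000000000000) (nat_lit 0x0) (nat_lit 0x40002000300038000000000000000000000000000000000000000000000000) := T_25 (nat_lit 229) (nat_lit 246) (nat_lit 7) (nat_lit 7) (nat_lit 10) L17437 (by decide +kernel)
theorem L17439 : W_25 (nat_lit 5) (nat_lit 0x1000080004000f00000001000080000000000000000000000000000000) (nat_lit 0x0) (nat_lit 0x400020003000380000000c0000000000000000000000000000000000000000) := T_25 (nat_lit 162) (nat_lit 163) (nat_lit 2) (nat_lit 6) (nat_lit 10) L17438 (by decide +kernel)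
theorem L17440 : W_25 (nat_lit 2) (nat_lit 0x88007c002a0014000700000001000080000000000000000000000000000000) (nat_lit 0x0) (nat_lit 0x20001800000000000000000000000000000000000000000000) := D_25 (nat_lit 197) (nat_lit 179) (nat_lit 180) (nat_lit 3) (nat_lit 6) (nat_lit 10) (nat_lit 6) (nat_lit 9) (nat_lit 14) (by decide +kernel)
theorem L17441 : W_25 (nat_lit 3) (nat_lit 0x88007c002a0004000700000001000080000000000000000000000000000000) (nat_lit 0x0) (nat_lit 0x38001800000000000000000000000000000000000000000000) := T_25 (nat_lit 196) (nat_lit 195) (nat_lit 4) (nat_lit 9) (nat_lit 14) L17440 (by decide +kernel)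
theorem L17442 : W_25 (nat_lit 4) (nat_lit 0x88007c000a0004000700000001000080000000000000000000000000000000) (nat_lit 0x0) (nat_lit 0x600038001800000000000000000000000000000000000000000000) := T_25 (nat_lit 213) (nat_lit 214) (nat_lit 2) (nat_lit 6) (nat_lit 13) L17441 (by decide +kernel)
theorem L17443 : W_25 (nat_lit 5) (nat_lit 0x8007c000a0004000700000001000080000000000000000000000000000000) (nat_lit 0x0) (nat_lit 0x180000000600038001800000000000000000000000000000000000000000000) := T_25 (nat_lit 247) (nat_lit 248) (nat_lit 3) (nat_lit 6) (nat_lit 13) L17442 (by decide +kernel)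
theorem L17444 : W_25 (nat_lit 6) (nat_lit 0x8003c000a0004000700000001000080000000000000000000000000000000) (nat_lit 0x0) (nat_lit 0x180004000640038001800000000000000000000000000000000000000000000) := T_25 (nat_lit 230) (nat_lit 210) (nat_lit 0) (nat_lit 9) (nat_lit 13) L17443 (by decide +kernel)
theorem L17445 : W_25 (nat_lit 7) (nat_lit 0x8003c00080004000700000001000080000000000000000000000000000000) (nat_lit 0x0) (nat_lit 0x180004000670038001800000000000000000000000000000000000000000000) := T_25 (nat_lit 209) (nat_lit 208) (nat_lit 0) (nat_lit 8) (nat_lit 13) L17444 (by decide +kernel)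
theorem L17446 : W_25 (nat_lit 8) (nat_lit 0x3c00080004000700000001000080000000000000000000000000000000) (nat_lit 0x0) (nat_lit 0x18c004000670038001800000000000000000000000000000000000000000000) := T_25 (nat_lit 243) (nat_lit 242) (nat_lit 1) (nat_lit 8) (nat_lit 13) L17445 (by decide +kernel)
theorem L17447 : W_25 (nat_lit 9) (nat_lit 0x1c00080004000700000001000080000000000000000000000000000000) (nat_lit 0x0) (nat_lit 0x1cc006000670038001800000000000000000000000000000000000000000000) := T_25 (nat_lit 229) (nat_lit 246) (nat_lit 7) (nat_lit 7) (nat_lit 10) L17446 (by decide +kernel)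
theorem L17448 : W_25 (nat_lit 10) (nat_lit 0x1c00080004000300000001000080000000000000000000000000000000) (nat_lit 0x0) (nat_lit 0x1cc006000670038001c00020000000000000000000000000000000000000000) := T_25 (nat_lit 178) (nat_lit 161) (nat_lit 6) (nat_lit 7) (nat_lit 13) L17447 (by decide +kernel)
theorem L17449 : W_25 (nat_lit 11) (nat_lit 0x1c00080004000200000001000080000000000000000000000000000000) (nat_lit 0x0) (nat_lit 0x1cc006000670038001d00028000000000000000000000000000000000000000) := T_25 (nat_lit 176) (nat_lit 159) (nat_lit 4) (nat_lit 7) (nat_lit 13) L17448 (by decide +kernel)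
theorem L17450 : W_25 (nat_lit 12) (nat_lit 0x1800080004000200000001000080000000000000000000000000000000) (nat_lit 0x0) (nat_lit 0x1cf006700770038001d00028000000000000000000000000000000000000000) := Q_25 (nat_lit 226) (C_25 L17377 (C_25 L17379 (C_25 L17449 N_25))) (by decide +kernel)
theorem L17451 : W_25 (nat_lit 13) (nat_lit 0x1000080004000200000001000080000000000000000000000000000000) (nat_lit 0x0) (nat_lit 0x1df006f00770038001d00028000000000000000000000000000000000000000) := T_25 (nat_lit 227) (nat_lit 244) (nat_lit 5) (nat_lit 7) (nat_lit 10) L17450 (by decide +kernel)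
theorem L17452 : W_25 (nat_lit 14) (nat_lit 0x80004000200000001000080000000000000000000000000000000) (nat_lit 0x0) (nat_lit 0xa001ff007f00770038001d00028000000000000000000000000000000000000000) := Q_25 (nat_lit 228) (C_25 L17389 (C_25 L6226 (C_25 L6229 (C_25 L17451 N_25)))) (by decide +kernel)
theorem L17453 : W_25 (nat_lit 2) (nat_lit 0x4001e000f000200000001000080000000000000000000000000000000) (nat_lit 0x0) (nat_lit 0x8000000000000000100008000000000000000000000000000000000000000) := D_25 (nat_lit 176) (nat_lit 159) (nat_lit 243) (nat_lit 5) (nat_lit 6) (nat_lit 9) (nat_lit 6) (nat_lit 5) (nat_lit 14) (by decide +kernel)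
theorem L17454 : W_25 (nat_lit 3) (nat_lit 0x1e000f000200000001000080000000000000000000000000000000) (nat_lit 0x0) (nat_lit 0x8000600000000000100008000000000000000000000000000000000000000) := T_25 (nat_lit 226) (nat_lit 225) (nat_lit 1) (nat_lit 8) (nat_lit 12) L17453 (by decide +kernel)
theorem L17455 : W_25 (nat_lit 4) (nat_lit 0x1a000f000200000001000080000000000000000000000000000000) (nat_lit 0x0) (nat_lit 0x8000600040010000100008000000000000000000000000000000000000000) := T_25 (nat_lit 210) (nat_lit 196) (nat_lit 2) (nat_lit 5) (nat_lit 12) L17454 (by decide +kernel)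
theorem L17456 : W_25 (nat_lit 5) (nat_lit 0xa000f000200000001000080000000000000000000000000000000) (nat_lit 0x0) (nat_lit 0x8000600340010000100008000000000000000000000000000000000000000) := T_25 (nat_lit 212) (nat_lit 213) (nat_lit 3) (nat_lit 5) (nat_lit 11) L17455 (by decide +kernel)
theorem L17457 : W_25 (nat_lit 6) (nat_lit 0x8000f000200000001000080000000000000000000000000000000) (nat_lit 0x0) (nat_lit 0x8000600370010000100008000000000000000000000000000000000000000) := T_25 (nat_lit 209) (nat_lit 208) (nat_lit 1) (nat_lit 8) (nat_lit 11) L17456 (by decide +kernel)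
theorem L17458 : W_25 (nat_lit 2) (nat_lit 0x24001e000f000200000001000080000000000000000000000000000000) (nat_lit 0x0) (nat_lit 0x8000000000000000100008000000000000000000000000000000000000000) := D_25 (nat_lit 176) (nat_lit 159) (nat_lit 243) (nat_lit 5) (nat_lit 6) (nat_lit 9) (nat_lit 6) (nat_lit 5) (nat_lit 14) (by decide +kernel)
theorem L17459 : W_25 (nat_lit 3) (nat_lit 0x20001e000f000200000001000080000000000000000000000000000000) (nat_lit 0x0) (nat_lit 0x8000600000000000100008000000000000000000000000000000000000000) := T_25 (nat_lit 226) (nat_lit 225) (nat_lit 1) (nat_lit 8) (nat_lit 12) L17458 (by decide +kernel)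
theorem L17460 : W_25 (nat_lit 4) (nat_lit 0x20001a000f000200000001000080000000000000000000000000000000) (nat_lit 0x0) (nat_lit 0x8004600040000000100008000000000000000000000000000000000000000) := T_25 (nat_lit 210) (nat_lit 230) (nat_lit 3) (nat_lit 5) (nat_lit 12) L17459 (by decide +kernel)
theorem L17461 : W_25 (nat_lit 5) (nat_lit 0x1a000f000200000001000080000000000000000000000000000000) (nat_lit 0x0) (nat_lit 0x48006600040000000100008000000000000000000000000000000000000000) := T_25 (nat_lit 229) (nat_lit 246) (nat_lit 4) (nat_lit 8) (nat_lit 14) L17460 (by decide +kernel)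
theorem L17462 : W_25 (nat_lit 6) (nat_lit 0xa000f000200000001000080000000000000000000000000000000) (nat_lit 0x0) (nat_lit 0x48006600340000000100008000000000000000000000000000000000000000) := T_25 (nat_lit 212) (nat_lit 213) (nat_lit 3) (nat_lit 5) (nat_lit 11) L17461 (by decide +kernel)
theorem L17463 : W_25 (nat_lit 7) (nat_lit 0x8000f000200000001000080000000000000000000000000000000) (nat_lit 0x0) (nat_lit 0x48006600370000000100008000000000000000000000000000000000000000) := T_25 (nat_lit 209) (nat_lit 208) (nat_lit 1) (nat_lit 8) (nat_lit 11) L17462 (by decide +kernel)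
theorem L17464 : W_25 (nat_lit 2) (nat_lit 0xa003f000200000001000080000000000000000000000000000000) (nat_lit 0x0) (nat_lit 0x3800000000000000000000000000000000000000000000) := D_25 (nat_lit 180) (nat_lit 179) (nat_lit 181) (nat_lit 2) (nat_lit 6) (nat_lit 11) (nat_lit 2) (nat_lit 7) (nat_lit 11) (by decide +kernel)
theorem L17465 : W_25 (nat_lit 3) (nat_lit 0xa001f000200000001000080000000000000000000000000000000) (nat_lit 0x0) (nat_lit 0x20003900000000000000000000000000000000000000000000) := T_25 (nat_lit 197) (nat_lit 176) (nat_lit 0) (nat_lit 10) (nat_lit 11) L17464 (by decide +kernel)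
theorem L17466 : W_25 (nat_lit 4) (nat_lit 0xa000f000200000001000080000000000000000000000000000000) (nat_lit 0x0) (nat_lit 0x40030003900000000000000000000000000000000000000000000) := T_25 (nat_lit 196) (nat_lit 210) (nat_lit 1) (nat_lit 9) (nat_lit 11) L17465 (by decide +kernel)
theorem L17467 : W_25 (nat_lit 5) (nat_lit 0x8000f000200000001000080000000000000000000000000000000) (nat_lit 0x0) (nat_lit 0x70030003900000000000000000000000000000000000000000000) := T_25 (nat_lit 209) (nat_lit 208) (nat_lit 1) (nat_lit 8) (nat_lit 11) L17466 (by decide +kernel)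
theorem L17468 : W_25 (nat_lit 2) (nat_lit 0x2a001f001200000001000080000000000000000000000000000000) (nat_lit 0x0) (nat_lit 0x20002100000000000000000000000000000000000000000000) := D_25 (nat_lit 197) (nat_lit 176) (nat_lit 181) (nat_lit 0) (nat_lit 10) (nat_lit 11) (nat_lit 2) (nat_lit 7) (nat_lit 11) (by decide +kernel)
theorem L17469 : W_25 (nat_lit 3) (nat_lit 0x2a001f000200000001000080000000000000000000000000000000) (nat_lit 0x0) (nat_lit 0x20003900000000000000000000000000000000000000000000) := T_25 (nat_lit 180) (nat_lit 179) (nat_lit 2) (nat_lit 6) (nat_lit 11) L17468 (by decide +kernel)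
theorem L17470 : W_25 (nat_lit 4) (nat_lit 0x2a000f000200000001000080000000000000000000000000000000) (nat_lit 0x0) (nat_lit 0x400030003900000000000000000000000000000000000000000000) := T_25 (nat_lit 196) (nat_lit 214) (nat_lit 3) (nat_lit 6) (nat_lit 11) L17469 (by decide +kernel)
theorem L17471 : W_25 (nat_lit 5) (nat_lit 0xa000f000200000001000080000000000000000000000000000000) (nat_lit 0x0) (nat_lit 0x700030003900000000000000000000000000000000000000000000) := T_25 (nat_lit 213) (nat_lit 212) (nat_lit 3) (nat_lit 5) (nat_lit 11) L17470 (by decide +kernel)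
theorem L17472 : W_25 (nat_lit 6) (nat_lit 0x8000f000200000001000080000000000000000000000000000000) (nat_lit 0x0) (nat_lit 0x730030003900000000000000000000000000000000000000000000) := T_25 (nat_lit 209) (nat_lit 208) (nat_lit 1) (nat_lit 8) (nat_lit 11) L17471 (by decide +kernel)
theorem L17473 : W_25 (nat_lit 2) (nat_lit 0x28001f000200000001000080000000000000000000000000000000) (nat_lit 0x0) (nat_lit 0x40020000100000000000000000000000000000000000000000000) := D_25 (nat_lit 197) (nat_lit 176) (nat_lit 210) (nat_lit 0) (nat_lit 10) (nat_lit 11) (nat_lit 1) (nat_lit 10) (nat_lit 11) (by decide +kernel)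
theorem L17474 : W_25 (nat_lit 3) (nat_lit 0x28000f000200000001000080000000000000000000000000000000) (nat_lit 0x0) (nat_lit 0x440030000100000000000000000000000000000000000000000000) := T_25 (nat_lit 196) (nat_lit 214) (nat_lit 3) (nat_lit 6) (nat_lit 11) L17473 (by decide +kernel)
theorem L17475 : W_25 (nat_lit 4) (nat_lit 0x8000f000200000001000080000000000000000000000000000000) (nat_lit 0x0) (nat_lit 0x740030000100000000000000000000000000000000000000000000) := T_25 (nat_lit 213) (nat_lit 212) (nat_lit 3) (nat_lit 5) (nat_lit 11) L17474 (by decide +kernel)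
theorem L17476 : W_25 (nat_lit 8) (nat_lit 0x80007000200000001000080000000000000000000000000000000) (nat_lit 0x0) (nat_lit 0x48006600770038003900008000000000000000000000000000000000000000) := Q_25 (nat_lit 195) (C_25 L6371 (C_25 L17457 (C_25 L17463 (C_25 L17467 (C_25 L17472 (C_25 L17475 N_25)))))) (by decide +kernel)
theorem L17478 : W_25 (nat_lit 3) (nat_lit 0x80007000200000001000080000000000000000000000000000000) (nat_lit 0x0) (nat_lit 0x140000c00100000000000000000000000000000000000000000000) := T_25 (nat_lit 191) (nat_lit 212) (nat_lit 3) (nat_lit 4) (nat_lit 11) L17477 (by decide +kernel)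
theorem L17482 : W_25 (nat_lit 2) (nat_lit 0xb0007800240000001000080000000000000000000000000000000) (nat_lit 0x0) (nat_lit 0x400000000000000002000100000000000000000000000000000000000) := D_25 (nat_lit 157) (nat_lit 226) (nat_lit 140) (nat_lit 7) (nat_lit 4) (nat_lit 9) (nat_lit 7) (nat_lit 4) (nat_lit 8) (by decide +kernel)
theorem L17483 : W_25 (nat_lit 3) (nat_lit 0x90007800240000001000080000000000000000000000000000000) (nat_lit 0x0) (nat_lit 0x400020008000000002000100000000000000000000000000000000000) := T_25 (nat_lit 209) (nat_lit 195) (nat_lit 1) (nat_lit 8) (nat_lit 11) L17482 (by decide +kernel)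
theorem L17484 : W_25 (nat_lit 4) (nat_lit 0x80007800240000001000080000000000000000000000000000000) (nat_lit 0x0) (nat_lit 0x400038008000000002000100000000000000000000000000000000000) := T_25 (nat_lit 208) (nat_lit 207) (nat_lit 1) (nat_lit 7) (nat_lit 11) L17483 (by decide +kernel)
theorem L17485 : W_25 (nat_lit 5) (nat_lit 0x80007800200000001000080000000000000000000000000000000) (nat_lit 0x0) (nat_lit 0x400038008000060002000100000000000000000000000000000000000) := T_25 (nat_lit 174) (nat_lit 173) (nat_lit 0) (nat_lit 7) (nat_lit 11) L17484 (by decide +kernel)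
theorem L17486 : W_25 (nat_lit 6) (nat_lit 0x80007000200000001000080000000000000000000000000000000) (nat_lit 0x0) (nat_lit 0x40007c008c00160002000100000000000000000000000000000000000) := Q_25 (nat_lit 191) (C_25 L17480 (C_25 L6458 (C_25 L17477 (C_25 L17485 N_25)))) (by decide +kernel)
theorem L17487 : W_25 (nat_lit 6) (nat_lit 0x80007000200000001000080000000000000000000000000000000) (nat_lit 0x0) (nat_lit 0x400138008800060002000100000000000000000000000000000000000) := T_25 (nat_lit 191) (nat_lit 212) (nat_lit 3) (nat_lit 4) (nat_lit 11) L17485 (by decide +kernel)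
theorem L17488 : W_25 (nat_lit 9) (nat_lit 0x80006000200000001000080000000000000000000000000000000) (nat_lit 0x0) (nat_lit 0x4800660077c039c0396000a000100000000000000000000000000000000000) := Q_25 (nat_lit 192) (C_25 L17476 (C_25 L17478 (C_25 L17481 (C_25 L17486 (C_25 L17487 N_25))))) (by decide +kernel)
theorem L17489 : W_25 (nat_lit 2) (nat_lit 0xa003f000200020001000080000000000000000000000000000000) (nat_lit 0x0) (nat_lit 0xe00000000000000000000000000000000000000000000000000000) := D_25 (nat_lit 214) (nat_lit 213) (nat_lit 215) (nat_lit 3) (nat_lit 6) (nat_lit 11) (nat_lit 3) (nat_lit 7) (nat_lit 11) (by decide +kernel)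
theorem L17490 : W_25 (nat_lit 3) (nat_lit 0xa001f000200020001000080000000000000000000000000000000) (nat_lit 0x0) (nat_lit 0xe00020000100000000000000000000000000000000000000000000) := T_25 (nat_lit 197) (nat_lit 176) (nat_lit 0) (nat_lit 10) (nat_lit 11) L17489 (by decide +kernel)
theorem L17491 : W_25 (nat_lit 4) (nat_lit 0xa000f000200020001000080000000000000000000000000000000) (nat_lit 0x0) (nat_lit 0xe40030000100000000000000000000000000000000000000000000) := T_25 (nat_lit 196) (nat_lit 210) (nat_lit 1) (nat_lit 9) (nat_lit 11) L17490 (by decide +kernel)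
theorem L17492 : W_25 (nat_lit 5) (nat_lit 0x8000f000200020001000080000000000000000000000000000000) (nat_lit 0x0) (nat_lit 0xe70030000100000000000000000000000000000000000000000000) := T_25 (nat_lit 209) (nat_lit 208) (nat_lit 1) (nat_lit 8) (nat_lit 11) L17491 (by decide +kernel)
theorem L17493 : W_25 (nat_lit 6) (nat_lit 0x8000f000200000001000080000000000000000000000000000000) (nat_lit 0x0) (nat_lit 0xe70030000500020000000000000000000000000000000000000000) := T_25 (nat_lit 161) (nat_lit 178) (nat_lit 5) (nat_lit 8) (nat_lit 7) L17492 (by decide +kernel)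
theorem L17494 : W_25 (nat_lit 2) (nat_lit 0x2a003f000200000001000080000000000000000000000000000000) (nat_lit 0x0) (nat_lit 0x40000400020000000000000000000000000000000000000000) := D_25 (nat_lit 178) (nat_lit 161) (nat_lit 198) (nat_lit 7) (nat_lit 8) (nat_lit 8) (nat_lit 0) (nat_lit 11) (nat_lit 11) (by decide +kernel)
theorem L17495 : W_25 (nat_lit 3) (nat_lit 0x2a001f000200000001000080000000000000000000000000000000) (nat_lit 0x0) (nat_lit 0x60000500020000000000000000000000000000000000000000) := T_25 (nat_lit 197) (nat_lit 176) (nat_lit 0) (nat_lit 10) (nat_lit 11) L17494 (by decide +kernel)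
theorem L17496 : W_25 (nat_lit 4) (nat_lit 0x2a000f000200000001000080000000000000000000000000000000) (nat_lit 0x0) (nat_lit 0x400070000500020000000000000000000000000000000000000000) := T_25 (nat_lit 196) (nat_lit 214) (nat_lit 3) (nat_lit 6) (nat_lit 11) L17495 (by decide +kernel)
theorem L17497 : W_25 (nat_lit 5) (nat_lit 0xa000f000200000001000080000000000000000000000000000000) (nat_lit 0x0) (nat_lit 0x700070000500020000000000000000000000000000000000000000) := T_25 (nat_lit 213) (nat_lit 212) (nat_lit 3) (nat_lit 5) (nat_lit 11) L17496 (by decide +kernel)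
theorem L17498 : W_25 (nat_lit 6) (nat_lit 0x8000f000200000001000080000000000000000000000000000000) (nat_lit 0x0) (nat_lit 0x730070000500020000000000000000000000000000000000000000) := T_25 (nat_lit 209) (nat_lit 208) (nat_lit 1) (nat_lit 8) (nat_lit 11) L17497 (by decide +kernel)
theorem L17499 : W_25 (nat_lit 2) (nat_lit 0xa007f000200020001000080000000000000000000000000000000) (nat_lit 0x0) (nat_lit 0x1c00000000000000000000000000000000000000000000000000000) := D_25 (nat_lit 215) (nat_lit 214) (nat_lit 216) (nat_lit 3) (nat_lit 7) (nat_lit 11) (nat_lit 3) (nat_lit 8) (nat_lit 11) (by decide +kernel)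
theorem L17500 : W_25 (nat_lit 3) (nat_lit 0xa003f000200020001000080000000000000000000000000000000) (nat_lit 0x0) (nat_lit 0x1d00040000000000000000000000000000000000000000000000000) := T_25 (nat_lit 198) (nat_lit 212) (nat_lit 1) (nat_lit 11) (nat_lit 11) L17499 (by decide +kernel)
theorem L17501 : W_25 (nat_lit 4) (nat_lit 0xa001f000200020001000080000000000000000000000000000000) (nat_lit 0x0) (nat_lit 0x1d00060000100000000000000000000000000000000000000000000) := T_25 (nat_lit 197) (nat_lit 176) (nat_lit 0) (nat_lit 10) (nat_lit 11) L17500 (by decide +kernel)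
theorem L17502 : W_25 (nat_lit 5) (nat_lit 0xa000f000200020001000080000000000000000000000000000000) (nat_lit 0x0) (nat_lit 0x1d40070000100000000000000000000000000000000000000000000) := T_25 (nat_lit 196) (nat_lit 210) (nat_lit 1) (nat_lit 9) (nat_lit 11) L17501 (by decide +kernel)
theorem L17503 : W_25 (nat_lit 6) (nat_lit 0xa000f000200000001000080000000000000000000000000000000) (nat_lit 0x0) (nat_lit 0x1d40070000500020000000000000000000000000000000000000000) := T_25 (nat_lit 161) (nat_lit 178) (nat_lit 5) (nat_lit 8) (nat_lit 7) L17502 (by decide +kernel)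
theorem L17504 : W_25 (nat_lit 7) (nat_lit 0x8000f000200000001000080000000000000000000000000000000) (nat_lit 0x0) (nat_lit 0x1d70070000500020000000000000000000000000000000000000000) := T_25 (nat_lit 209) (nat_lit 208) (nat_lit 1) (nat_lit 8) (nat_lit 11) L17503 (by decide +kernel)
theorem L17505 : W_25 (nat_lit 8) (nat_lit 0x80007000200000001000080000000000000000000000000000000) (nat_lit 0x0) (nat_lit 0x48006601f70078000500028000000000000000000000000000000000000000) := Q_25 (nat_lit 195) (C_25 L17475 (C_25 L6371 (C_25 L17463 (C_25 L17493 (C_25 L17498 (C_25 L17504 N_25)))))) (by decide +kernel)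
theorem L17506 : W_25 (nat_lit 9) (nat_lit 0x80006000200000001000080000000000000000000000000000000) (nat_lit 0x0) (nat_lit 0x48006601f7c079c0056002a000100000000000000000000000000000000000) := Q_25 (nat_lit 192) (C_25 L17487 (C_25 L17481 (C_25 L17486 (C_25 L17478 (C_25 L17505 N_25))))) (by decide +kernel)
theorem L17507 : W_25 (nat_lit 2) (nat_lit 0x80016000f00000001000080000000000000000000000000000000) (nat_lit 0x0) (nat_lit 0xc000400000000000000000000000000000000000) := D_25 (nat_lit 159) (nat_lit 158) (nat_lit 142) (nat_lit 0) (nat_lit 9) (nat_lit 10) (nat_lit 7) (nat_lit 6) (nat_lit 8) (by decide +kernel)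
theorem L17508 : W_25 (nat_lit 3) (nat_lit 0x80016000e00000001000080000000000000000000000000000000) (nat_lit 0x0) (nat_lit 0x2000010000c000400000000000000000000000000000000000) := T_25 (nat_lit 176) (nat_lit 197) (nat_lit 3) (nat_lit 6) (nat_lit 10) L17507 (by decide +kernel)
theorem L17509 : W_25 (nat_lit 4) (nat_lit 0x80016000600000001000080000000000000000000000000000000) (nat_lit 0x0) (nat_lit 0x2000190000c000400000000000000000000000000000000000) := T_25 (nat_lit 179) (nat_lit 180) (nat_lit 1) (nat_lit 10) (nat_lit 10) L17508 (by decide +kernel)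
theorem L17510 : W_25 (nat_lit 5) (nat_lit 0x80016000200000001000080000000000000000000000000000000) (nat_lit 0x0) (nat_lit 0x20001d0002c000400000000000000000000000000000000000) := T_25 (nat_lit 178) (nat_lit 161) (nat_lit 5) (nat_lit 8) (nat_lit 7) L17509 (by decide +kernel)
theorem L17511 : W_25 (nat_lit 2) (nat_lit 0x8001e000200000001000080000000000000000000000000000000) (nat_lit 0x0) (nat_lit 0x40020000100000000000000000000000000000000000000000000) := D_25 (nat_lit 197) (nat_lit 176) (nat_lit 210) (nat_lit 0) (nat_lit 10) (nat_lit 11) (nat_lit 1) (nat_lit 10) (nat_lit 11) (by decide +kernel)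
theorem L17512 : W_25 (nat_lit 2) (nat_lit 0x8001e000200000001000080000000000000000000000000000000) (nat_lit 0x0) (nat_lit 0x60020000000000000000000000000000000000000000000000000) := D_25 (nat_lit 210) (nat_lit 209) (nat_lit 197) (nat_lit 1) (nat_lit 9) (nat_lit 11) (nat_lit 1) (nat_lit 10) (nat_lit 11) (by decide +kernel)
theorem L17513 : W_25 (nat_lit 2) (nat_lit 0x28003e000a00040001000080000000000000000000000000000000) (nat_lit 0x0) (nat_lit 0x2000100040000000000000000000000000000000000000000000000000) := D_25 (nat_lit 212) (nat_lit 198) (nat_lit 229) (nat_lit 1) (nat_lit 11) (nat_lit 11) (nat_lit 5) (nat_lit 9) (nat_lit 9) (by decide +kernel)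
theorem L17514 : W_25 (nat_lit 3) (nat_lit 0x28003e000a00000001000080000000000000000000000000000000) (nat_lit 0x0) (nat_lit 0x2000100040000000060000000000000000000000000000000000000000) := T_25 (nat_lit 162) (nat_lit 161) (nat_lit 4) (nat_lit 9) (nat_lit 12) L17513 (by decide +kernel)
theorem L17515 : W_25 (nat_lit 4) (nat_lit 0x28001e000a00000001000080000000000000000000000000000000) (nat_lit 0x0) (nat_lit 0x2000100060000100060000000000000000000000000000000000000000) := T_25 (nat_lit 197) (nat_lit 176) (nat_lit 0) (nat_lit 10) (nat_lit 11) L17514 (by decide +kernel)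
theorem L17516 : W_25 (nat_lit 5) (nat_lit 0x28001e000200000001000080000000000000000000000000000000) (nat_lit 0x0) (nat_lit 0x2000100060001900060000000000000000000000000000000000000000) := T_25 (nat_lit 179) (nat_lit 180) (nat_lit 2) (nat_lit 6) (nat_lit 11) L17515 (by decide +kernel)
theorem L17517 : W_25 (nat_lit 6) (nat_lit 0x8001e000200000001000080000000000000000000000000000000) (nat_lit 0x0) (nat_lit 0x2000700060001900060000000000000000000000000000000000000000) := T_25 (nat_lit 213) (nat_lit 214) (nat_lit 3) (nat_lit 6) (nat_lit 11) L17516 (by decide +kernel)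
theorem L17518 : W_25 (nat_lit 2) (nat_lit 0x8003c001e000a00000001000080000000000000000000000000000000) (nat_lit 0x0) (nat_lit 0x2000000000000000060000000000000000000000000000000000000000) := D_25 (nat_lit 162) (nat_lit 161) (nat_lit 229) (nat_lit 4) (nat_lit 9) (nat_lit 12) (nat_lit 5) (nat_lit 9) (nat_lit 9) (by decide +kernel)
theorem L17519 : W_25 (nat_lit 3) (nat_lit 0x8002c001e000a00000001000080000000000000000000000000000000) (nat_lit 0x0) (nat_lit 0x2400100000000000060000000000000000000000000000000000000000) := T_25 (nat_lit 212) (nat_lit 226) (nat_lit 1) (nat_lit 9) (nat_lit 12) L17518 (by decide +kernel)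
theorem L17520 : W_25 (nat_lit 4) (nat_lit 0x8002c001e000200000001000080000000000000000000000000000000) (nat_lit 0x0) (nat_lit 0x2400100000001800060000000000000000000000000000000000000000) := T_25 (nat_lit 179) (nat_lit 180) (nat_lit 2) (nat_lit 6) (nat_lit 11) L17519 (by decide +kernel)
theorem L17521 : W_25 (nat_lit 5) (nat_lit 0x2c001e000200000001000080000000000000000000000000000000) (nat_lit 0x0) (nat_lit 0x10002c00100000001800060000000000000000000000000000000000000000) := T_25 (nat_lit 227) (nat_lit 244) (nat_lit 6) (nat_lit 6) (nat_lit 14) L17520 (by decide +kernel)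
theorem L17522 : W_25 (nat_lit 6) (nat_lit 0xc001e000200000001000080000000000000000000000000000000) (nat_lit 0x0) (nat_lit 0x10002c00700000001800060000000000000000000000000000000000000000) := T_25 (nat_lit 213) (nat_lit 214) (nat_lit 3) (nat_lit 6) (nat_lit 11) L17521 (by decide +kernel)
theorem L17523 : W_25 (nat_lit 7) (nat_lit 0x8001e000200000001000080000000000000000000000000000000) (nat_lit 0x0) (nat_lit 0x10002c00760000001800060000000000000000000000000000000000000000) := T_25 (nat_lit 210) (nat_lit 209) (nat_lit 1) (nat_lit 9) (nat_lit 11) L17522 (by decide +kernel)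
theorem L17524 : W_25 (nat_lit 8) (nat_lit 0x80016000200000001000080000000000000000000000000000000) (nat_lit 0x0) (nat_lit 0x10002c00760068001900060000000000000000000000000000000000000000) := Q_25 (nat_lit 195) (C_25 L17511 (C_25 L17512 (C_25 L17517 (C_25 L17523 N_25)))) (by decide +kernel)
theorem L17525 : W_25 (nat_lit 8) (nat_lit 0x80016000200000001000080000000000000000000000000000000) (nat_lit 0x0) (nat_lit 0x10002c00760028001c00060000000000000000000000000000000000000000) := Q_25 (nat_lit 195) (C_25 L17512 (C_25 L17523 (C_25 L9122 N_25))) (by decide +kernel)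
theorem L17526 : W_25 (nat_lit 2) (nat_lit 0x8003e000200000001000080000000000000000000000000000000) (nat_lit 0x0) (nat_lit 0x3800000000000000000000000000000000000000000000) := D_25 (nat_lit 180) (nat_lit 179) (nat_lit 181) (nat_lit 2) (nat_lit 6) (nat_lit 11) (nat_lit 2) (nat_lit 7) (nat_lit 11) (by decide +kernel)
theorem L17527 : W_25 (nat_lit 3) (nat_lit 0x8001e000200000001000080000000000000000000000000000000) (nat_lit 0x0) (nat_lit 0x20003900000000000000000000000000000000000000000000) := T_25 (nat_lit 197) (nat_lit 176) (nat_lit 0) (nat_lit 10) (nat_lit 11) L17526 (by decide +kernel)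
theorem L17531 : W_25 (nat_lit 5) (nat_lit 0xc001e000a00000001000080000000000000000000000000000000) (nat_lit 0x0) (nat_lit 0x50002c00700000000000040000000000000000000000000000000000000000) := T_25 (nat_lit 213) (nat_lit 214) (nat_lit 3) (nat_lit 6) (nat_lit 11) L17530 (by decide +kernel)
theorem L17532 : W_25 (nat_lit 6) (nat_lit 0x8001e000a00000001000080000000000000000000000000000000) (nat_lit 0x0) (nat_lit 0x50002c00760000000000040000000000000000000000000000000000000000) := T_25 (nat_lit 210) (nat_lit 209) (nat_lit 1) (nat_lit 9) (nat_lit 11) L17531 (by decide +kernel)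
theorem L17533 : W_25 (nat_lit 7) (nat_lit 0x8001e000200000001000080000000000000000000000000000000) (nat_lit 0x0) (nat_lit 0x50002c00760000001800040000000000000000000000000000000000000000) := T_25 (nat_lit 179) (nat_lit 180) (nat_lit 2) (nat_lit 6) (nat_lit 11) L17532 (by decide +kernel)
theorem L17534 : W_25 (nat_lit 8) (nat_lit 0x80016000200000001000080000000000000000000000000000000) (nat_lit 0x0) (nat_lit 0x50002c00760028003900040000000000000000000000000000000000000000) := Q_25 (nat_lit 195) (C_25 L17512 (C_25 L17527 (C_25 L17533 N_25))) (by decide +kernel)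
theorem L17535 : W_25 (nat_lit 2) (nat_lit 0x28007e000200020001000080000000000000000000000000000000) (nat_lit 0x0) (nat_lit 0x7000000000000000000000000000000000000000000000) := D_25 (nat_lit 181) (nat_lit 180) (nat_lit 182) (nat_lit 2) (nat_lit 7) (nat_lit 11) (nat_lit 2) (nat_lit 8) (nat_lit 11) (by decide +kernel)
theorem L17536 : W_25 (nat_lit 3) (nat_lit 0x28003e000200020001000080000000000000000000000000000000) (nat_lit 0x0) (nat_lit 0x100040007000000000000000000000000000000000000000000000) := T_25 (nat_lit 198) (nat_lit 212) (nat_lit 1) (nat_lit 11) (nat_lit 11) L17535 (by decide +kernel)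
theorem L17537 : W_25 (nat_lit 4) (nat_lit 0x28001e000200020001000080000000000000000000000000000000) (nat_lit 0x0) (nat_lit 0x100060007100000000000000000000000000000000000000000000) := T_25 (nat_lit 197) (nat_lit 176) (nat_lit 0) (nat_lit 10) (nat_lit 11) L17536 (by decide +kernel)
theorem L17538 : W_25 (nat_lit 5) (nat_lit 0x8001e000200020001000080000000000000000000000000000000) (nat_lit 0x0) (nat_lit 0x700060007100000000000000000000000000000000000000000000) := T_25 (nat_lit 213) (nat_lit 214) (nat_lit 3) (nat_lit 6) (nat_lit 11) L17537 (by decide +kernel)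
theorem L17539 : W_25 (nat_lit 6) (nat_lit 0x8001e000200000001000080000000000000000000000000000000) (nat_lit 0x0) (nat_lit 0x700060007500020000000000000000000000000000000000000000) := T_25 (nat_lit 161) (nat_lit 178) (nat_lit 5) (nat_lit 8) (nat_lit 7) L17538 (by decide +kernel)
theorem L17544 : W_25 (nat_lit 6) (nat_lit 0x8000c001e000200020001000080000000000000000000000000000000) (nat_lit 0x0) (nat_lit 0x18000c000e400700000000000000000000000000000000000000000000000000000) := T_25 (nat_lit 213) (nat_lit 214) (nat_lit 3) (nat_lit 6) (nat_lit 11) L17543 (by decide +kernel)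
theorem L17545 : W_25 (nat_lit 7) (nat_lit 0xc001e000200020001000080000000000000000000000000000000) (nat_lit 0x0) (nat_lit 0x18000d000ec00700000000000000000000000000000000000000000000000000000) := T_25 (nat_lit 227) (nat_lit 244) (nat_lit 6) (nat_lit 6) (nat_lit 14) L17544 (by decide +kernel)
theorem L17546 : W_25 (nat_lit 8) (nat_lit 0xc001e000200000001000080000000000000000000000000000000) (nat_lit 0x0) (nat_lit 0x18000d000ec00700000000400020000000000000000000000000000000000000000) := T_25 (nat_lit 161) (nat_lit 178) (nat_lit 5) (nat_lit 8) (nat_lit 7) L17545 (by decide +kernel)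
theorem L17547 : W_25 (nat_lit 9) (nat_lit 0x8001e000200000001000080000000000000000000000000000000) (nat_lit 0x0) (nat_lit 0x18000d000ec00760000000400020000000000000000000000000000000000000000) := T_25 (nat_lit 210) (nat_lit 209) (nat_lit 1) (nat_lit 9) (nat_lit 11) L17546 (by decide +kernel)
theorem L17548 : W_25 (nat_lit 10) (nat_lit 0x80016000200000001000080000000000000000000000000000000) (nat_lit 0x0) (nat_lit 0x18000d000ec00760068007500020000000000000000000000000000000000000000) := Q_25 (nat_lit 195) (C_25 L17512 (C_25 L17539 (C_25 L17547 N_25))) (by decide +kernel)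
theorem L17549 : W_25 (nat_lit 2) (nat_lit 0x128007e004a00020001000080000000000000000000000000000000) (nat_lit 0x0) (nat_lit 0x2000080008000000000000000000000000000000000000000000000) := D_25 (nat_lit 199) (nat_lit 217) (nat_lit 183) (nat_lit 3) (nat_lit 9) (nat_lit 11) (nat_lit 2) (nat_lit 9) (nat_lit 11) (by decide +kernel)
theorem L17550 : W_25 (nat_lit 3) (nat_lit 0x128007e000a00020001000080000000000000000000000000000000) (nat_lit 0x0) (nat_lit 0x200008000e000000000000000000000000000000000000000000000) := T_25 (nat_lit 182) (nat_lit 181) (nat_lit 2) (nat_lit 8) (nat_lit 11) L17549 (by decide +kernel)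
theorem L17551 : W_25 (nat_lit 4) (nat_lit 0x28007e000a00020001000080000000000000000000000000000000) (nat_lit 0x0) (nat_lit 0x380008000e000000000000000000000000000000000000000000000) := T_25 (nat_lit 216) (nat_lit 215) (nat_lit 3) (nat_lit 8) (nat_lit 11) L17550 (by decide +kernel)
theorem L17552 : W_25 (nat_lit 5) (nat_lit 0x28003e000a00020001000080000000000000000000000000000000) (nat_lit 0x0) (nat_lit 0x39000c000e000000000000000000000000000000000000000000000) := T_25 (nat_lit 198) (nat_lit 212) (nat_lit 1) (nat_lit 11) (nat_lit 11) L17551 (by decide +kernel)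
theorem L17553 : W_25 (nat_lit 6) (nat_lit 0x28001e000a00020001000080000000000000000000000000000000) (nat_lit 0x0) (nat_lit 0x39000e000e100000000000000000000000000000000000000000000) := T_25 (nat_lit 197) (nat_lit 176) (nat_lit 0) (nat_lit 10) (nat_lit 11) L17552 (by decide +kernel)
theorem L17554 : W_25 (nat_lit 7) (nat_lit 0x28001e000200020001000080000000000000000000000000000000) (nat_lit 0x0) (nat_lit 0x39000e000e900040000000000000000000000000000000000000000) := T_25 (nat_lit 179) (nat_lit 162) (nat_lit 4) (nat_lit 9) (nat_lit 12) L17553 (by decide +kernel)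
theorem L17555 : W_25 (nat_lit 8) (nat_lit 0x8001e000200020001000080000000000000000000000000000000) (nat_lit 0x0) (nat_lit 0x3f000e000e900040000000000000000000000000000000000000000) := T_25 (nat_lit 213) (nat_lit 214) (nat_lit 3) (nat_lit 6) (nat_lit 11) L17554 (by decide +kernel)
theorem L17556 : W_25 (nat_lit 9) (nat_lit 0x8001e000200000001000080000000000000000000000000000000) (nat_lit 0x0) (nat_lit 0x3f000e000ed00060000000000000000000000000000000000000000) := T_25 (nat_lit 161) (nat_lit 178) (nat_lit 5) (nat_lit 8) (nat_lit 7) L17555 (by decide +kernel)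
theorem L17557 : W_25 (nat_lit 10) (nat_lit 0x80016000200000001000080000000000000000000000000000000) (nat_lit 0x0) (nat_lit 0x18000d000ec03f600e800ed00060000000000000000000000000000000000000000) := Q_25 (nat_lit 195) (C_25 L17512 (C_25 L17547 (C_25 L17556 N_25))) (by decide +kernel)
theorem L17558 : W_25 (nat_lit 2) (nat_lit 0x80016000a00000001000080000000000000000000000000000000) (nat_lit 0x0) (nat_lit 0x1400020000000000000000000000000000000000000000) := D_25 (nat_lit 178) (nat_lit 161) (nat_lit 180) (nat_lit 7) (nat_lit 8) (nat_lit 7) (nat_lit 1) (nat_lit 10) (nat_lit 10) (by decide +kernel)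
theorem L17559 : W_25 (nat_lit 7) (nat_lit 0x80016000a00000001000080000000000000000000000000000000) (nat_lit 0x0) (nat_lit 0x50002c00760008001000040000000000000000000000000000000000000000) := T_25 (nat_lit 195) (nat_lit 180) (nat_lit 2) (nat_lit 6) (nat_lit 11) L17532 (by decide +kernel)
theorem L17560 : W_25 (nat_lit 2) (nat_lit 0x280016000a00020001000080000000000000000000000000000000) (nat_lit 0x0) (nat_lit 0x500008000000000000000000000000000000000000000000000000) := D_25 (nat_lit 214) (nat_lit 195) (nat_lit 212) (nat_lit 3) (nat_lit 6) (nat_lit 11) (nat_lit 0) (nat_lit 10) (nat_lit 12) (by decide +kernel)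
theorem L17561 : W_25 (nat_lit 3) (nat_lit 0x80016000a00020001000080000000000000000000000000000000) (nat_lit 0x0) (nat_lit 0x700008000000040000000000000000000000000000000000000000) := T_25 (nat_lit 213) (nat_lit 162) (nat_lit 4) (nat_lit 9) (nat_lit 12) L17560 (by decide +kernel)
theorem L17562 : W_25 (nat_lit 4) (nat_lit 0x80016000a00000001000080000000000000000000000000000000) (nat_lit 0x0) (nat_lit 0x700008000400060000000000000000000000000000000000000000) := T_25 (nat_lit 161) (nat_lit 178) (nat_lit 7) (nat_lit 8) (nat_lit 7) L17561 (by decide +kernel)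
theorem L17563 : W_25 (nat_lit 8) (nat_lit 0x80016000200000001000080000000000000000000000000000000) (nat_lit 0x0) (nat_lit 0x50002c00760008001c00060000000000000000000000000000000000000000) := Q_25 (nat_lit 179) (C_25 L17558 (C_25 L17559 (C_25 L17562 N_25))) (by decide +kernel)
theorem L17564 : W_25 (nat_lit 11) (nat_lit 0x80006000200000001000080000000000000000000000000000000) (nat_lit 0x0) (nat_lit 0x18000d000ec03f600f800fd0006c000400000000000000000000000000000000000) := Q_25 (nat_lit 196) (C_25 L17510 (C_25 L17524 (C_25 L17525 (C_25 L17534 (C_25 L17548 (C_25 L17557 (C_25 L17563 N_25))))))) (by decide +kernel)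
theorem L17565 : W_25 (nat_lit 12) (nat_lit 0x80004000200000001000080000000000000000000000000000000) (nat_lit 0x0) (nat_lit 0x18000d800ee03f7c0fbc0fd6006e000500000000000000000000000000000000000) := Q_25 (nat_lit 193) (C_25 L17488 (C_25 L6352 (C_25 L17506 (C_25 L6349 (C_25 L17564 N_25))))) (by decide +kernel)
theorem L17566 : W_25 (nat_lit 2) (nat_lit 0x30000e0004000200000001000080000000000000000000000000000000) (nat_lit 0x0) (nat_lit 0xc800000000000000000000000000000000000000000000000000000000) := D_25 (nat_lit 230) (nat_lit 231) (nat_lit 227) (nat_lit 0) (nat_lit 10) (nat_lit 13) (nat_lit 0) (nat_lit 9) (nat_lit 13) (by decide +kernel)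
theorem L17567 : W_25 (nat_lit 3) (nat_lit 0x30000c0004000200000001000080000000000000000000000000000000) (nat_lit 0x0) (nat_lit 0xc800030000000000000000000000000000000000000000000000000000) := T_25 (nat_lit 209) (nat_lit 208) (nat_lit 3) (nat_lit 4) (nat_lit 12) L17566 (by decide +kernel)
theorem L17568 : W_25 (nat_lit 4) (nat_lit 0x10000c0004000200000001000080000000000000000000000000000000) (nat_lit 0x0) (nat_lit 0x4000e800030000000000000000000000000000000000000000000000000000) := T_25 (nat_lit 229) (nat_lit 246) (nat_lit 7) (nat_lit 7) (nat_lit 10) L17567 (by decide +kernel)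
theorem L17569 : W_25 (nat_lit 2) (nat_lit 0x10000c0006000e00008001000080000000000000000000000000000000) (nat_lit 0x0) (nat_lit 0x9800000000000000000000000000000000000000000000000) := D_25 (nat_lit 192) (nat_lit 191) (nat_lit 195) (nat_lit 2) (nat_lit 4) (nat_lit 11) (nat_lit 2) (nat_lit 5) (nat_lit 11) (by decide +kernel)
theorem L17570 : W_25 (nat_lit 3) (nat_lit 0x10000c0006000600008001000080000000000000000000000000000000) (nat_lit 0x0) (nat_lit 0x9801800000000000000000000000000000000000000000000) := T_25 (nat_lit 179) (nat_lit 180) (nat_lit 1) (nat_lit 10) (nat_lit 10) L17569 (by decide +kernel)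
theorem L17571 : W_25 (nat_lit 4) (nat_lit 0x10000c0006000200008001000080000000000000000000000000000000) (nat_lit 0x0) (nat_lit 0x9801c00020000000000000000000000000000000000000000) := T_25 (nat_lit 178) (nat_lit 161) (nat_lit 6) (nat_lit 7) (nat_lit 13) L17570 (by decide +kernel)
theorem L17572 : W_25 (nat_lit 5) (nat_lit 0x10000c0006000200000001000080000000000000000000000000000000) (nat_lit 0x0) (nat_lit 0x9801d00028000000000000000000000000000000000000000) := T_25 (nat_lit 159) (nat_lit 176) (nat_lit 7) (nat_lit 6) (nat_lit 9) L17571 (by decide +kernel)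
theorem L17573 : W_25 (nat_lit 2) (nat_lit 0x4001e000f0006000300000001000080000000000000000000000000000000) (nat_lit 0x0) (nat_lit 0x1000080000000000000001000000000000000000000000000000000000000000000000) := D_25 (nat_lit 259) (nat_lit 192) (nat_lit 276) (nat_lit 6) (nat_lit 4) (nat_lit 15) (nat_lit 6) (nat_lit 4) (nat_lit 16) (by decide +kernel)
theorem L17574 : W_25 (nat_lit 3) (nat_lit 0x4001e000d0006000300000001000080000000000000000000000000000000) (nat_lit 0x0) (nat_lit 0x1000080000000000020009000000000000000000000000000000000000000000000000) := T_25 (nat_lit 209) (nat_lit 195) (nat_lit 2) (nat_lit 4) (nat_lit 12) L17573 (by decide +kernel)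
theorem L17575 : W_25 (nat_lit 4) (nat_lit 0x4001e000c0006000300000001000080000000000000000000000000000000) (nat_lit 0x0) (nat_lit 0x1000080000000000038009000000000000000000000000000000000000000000000000) := T_25 (nat_lit 208) (nat_lit 207) (nat_lit 0) (nat_lit 7) (nat_lit 13) L17574 (by decide +kernel)
theorem L17576 : W_25 (nat_lit 5) (nat_lit 0x1e000c0006000300000001000080000000000000000000000000000000) (nat_lit 0x0) (nat_lit 0x1000080006000000038009000000000000000000000000000000000000000000000000) := T_25 (nat_lit 242) (nat_lit 241) (nat_lit 1) (nat_lit 7) (nat_lit 13) L17575 (by decide +kernel)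
theorem L17577 : W_25 (nat_lit 6) (nat_lit 0x1c000c0006000300000001000080000000000000000000000000000000) (nat_lit 0x0) (nat_lit 0x1000080006000300038009000000000000000000000000000000000000000000000000) := T_25 (nat_lit 225) (nat_lit 224) (nat_lit 2) (nat_lit 3) (nat_lit 13) L17576 (by decide +kernel)
theorem L17578 : W_25 (nat_lit 7) (nat_lit 0x18000c0006000300000001000080000000000000000000000000000000) (nat_lit 0x0) (nat_lit 0x100008000e000700038009000000000000000000000000000000000000000000000000) := T_25 (nat_lit 226) (nat_lit 243) (nat_lit 5) (nat_lit 6) (nat_lit 10) L17577 (by decide +kernel)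
theorem L17579 : W_25 (nat_lit 8) (nat_lit 0x18000c0006000200000001000080000000000000000000000000000000) (nat_lit 0x0) (nat_lit 0x100008000e000700038009000100008000000000000000000000000000000000000000) := T_25 (nat_lit 176) (nat_lit 159) (nat_lit 7) (nat_lit 6) (nat_lit 9) L17578 (by decide +kernel)
theorem L17580 : W_25 (nat_lit 9) (nat_lit 0x10000c0006000200000001000080000000000000000000000000000000) (nat_lit 0x0) (nat_lit 0x100008001e000f00038009000100008000000000000000000000000000000000000000) := T_25 (nat_lit 227) (nat_lit 244) (nat_lit 6) (nat_lit 6) (nat_lit 14) L17579 (by decide +kernel)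
theorem L17581 : W_25 (nat_lit 2) (nat_lit 0x10000c0006000e00000001000080000000000000000000000000000000) (nat_lit 0x0) (nat_lit 0x9800000000000000000000000000000000000000000000000) := D_25 (nat_lit 192) (nat_lit 191) (nat_lit 195) (nat_lit 2) (nat_lit 4) (nat_lit 11) (nat_lit 2) (nat_lit 5) (nat_lit 11) (by decide +kernel)
theorem L17582 : W_25 (nat_lit 3) (nat_lit 0x10000c0006000600000001000080000000000000000000000000000000) (nat_lit 0x0) (nat_lit 0x9801800000000000000000000000000000000000000000000) := T_25 (nat_lit 179) (nat_lit 180) (nat_lit 1) (nat_lit 10) (nat_lit 10) L17581 (by decide +kernel)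
theorem L17583 : W_25 (nat_lit 4) (nat_lit 0x10000c0006000200000001000080000000000000000000000000000000) (nat_lit 0x0) (nat_lit 0x9801c00020000000000000000000000000000000000000000) := T_25 (nat_lit 178) (nat_lit 161) (nat_lit 6) (nat_lit 7) (nat_lit 13) L17582 (by decide +kernel)
theorem L17584 : W_25 (nat_lit 2) (nat_lit 0x18000c0006000700000001000080000000000000000000000000000000) (nat_lit 0x0) (nat_lit 0x1800800000000000000000000000000000000000000000000) := D_25 (nat_lit 192) (nat_lit 191) (nat_lit 179) (nat_lit 2) (nat_lit 4) (nat_lit 11) (nat_lit 1) (nat_lit 9) (nat_lit 10) (by decide +kernel)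
theorem L17585 : W_25 (nat_lit 3) (nat_lit 0x18000c0006000300000001000080000000000000000000000000000000) (nat_lit 0x0) (nat_lit 0x1800c00020000000000000000000000000000000000000000) := T_25 (nat_lit 178) (nat_lit 161) (nat_lit 6) (nat_lit 7) (nat_lit 13) L17584 (by decide +kernel)
theorem L17586 : W_25 (nat_lit 4) (nat_lit 0x18000c0006000200000001000080000000000000000000000000000000) (nat_lit 0x0) (nat_lit 0x1800d00028000000000000000000000000000000000000000) := T_25 (nat_lit 176) (nat_lit 159) (nat_lit 7) (nat_lit 6) (nat_lit 9) L17585 (by decide +kernel)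
theorem L17587 : W_25 (nat_lit 5) (nat_lit 0x10000c0006000200000001000080000000000000000000000000000000) (nat_lit 0x0) (nat_lit 0x10000800000001800d00028000000000000000000000000000000000000000) := T_25 (nat_lit 227) (nat_lit 244) (nat_lit 6) (nat_lit 6) (nat_lit 14) L17586 (by decide +kernel)
theorem L17588 : W_25 (nat_lit 2) (nat_lit 0x4001e000d001e000b00020001000080000000000000000000000000000000) (nat_lit 0x0) (nat_lit 0x600000000000040000000000000000000000000000000000000000) := D_25 (nat_lit 213) (nat_lit 214) (nat_lit 162) (nat_lit 3) (nat_lit 6) (nat_lit 11) (nat_lit 4) (nat_lit 9) (nat_lit 12) (by decide +kernel)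
theorem L17589 : W_25 (nat_lit 3) (nat_lit 0x4001e000d001e000300020001000080000000000000000000000000000000) (nat_lit 0x0) (nat_lit 0x600000001800040000000000000000000000000000000000000000) := T_25 (nat_lit 179) (nat_lit 180) (nat_lit 2) (nat_lit 6) (nat_lit 11) L17588 (by decide +kernel)
theorem L17590 : W_25 (nat_lit 4) (nat_lit 0x4001e000d000e000300020001000080000000000000000000000000000000) (nat_lit 0x0) (nat_lit 0x600030001800040000000000000000000000000000000000000000) := T_25 (nat_lit 196) (nat_lit 197) (nat_lit 1) (nat_lit 10) (nat_lit 11) L17589 (by decide +kernel)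
theorem L17591 : W_25 (nat_lit 5) (nat_lit 0x4001e000d0006000300020001000080000000000000000000000000000000) (nat_lit 0x0) (nat_lit 0x620038001800040000000000000000000000000000000000000000) := T_25 (nat_lit 195) (nat_lit 209) (nat_lit 2) (nat_lit 4) (nat_lit 12) L17590 (by decide +kernel)
theorem L17592 : W_25 (nat_lit 6) (nat_lit 0x1e000d0006000300020001000080000000000000000000000000000000) (nat_lit 0x0) (nat_lit 0x6000000620038001800040000000000000000000000000000000000000000) := T_25 (nat_lit 242) (nat_lit 241) (nat_lit 1) (nat_lit 7) (nat_lit 13) L17591 (by decide +kernel)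
theorem L17593 : W_25 (nat_lit 7) (nat_lit 0x1e000c0006000300020001000080000000000000000000000000000000) (nat_lit 0x0) (nat_lit 0x6000000638038001800040000000000000000000000000000000000000000) := T_25 (nat_lit 208) (nat_lit 207) (nat_lit 0) (nat_lit 7) (nat_lit 13) L17592 (by decide +kernel)
theorem L17594 : W_25 (nat_lit 8) (nat_lit 0x1e000c0006000300000001000080000000000000000000000000000000) (nat_lit 0x0) (nat_lit 0x6000000638038001c00060000000000000000000000000000000000000000) := T_25 (nat_lit 161) (nat_lit 178) (nat_lit 6) (nat_lit 7) (nat_lit 13) L17593 (by decide +kernel)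
theorem L17595 : W_25 (nat_lit 9) (nat_lit 0x1c000c0006000300000001000080000000000000000000000000000000) (nat_lit 0x0) (nat_lit 0x6000300638038001c00060000000000000000000000000000000000000000) := T_25 (nat_lit 225) (nat_lit 224) (nat_lit 2) (nat_lit 3) (nat_lit 13) L17594 (by decide +kernel)
theorem L17596 : W_25 (nat_lit 10) (nat_lit 0x18000c0006000300000001000080000000000000000000000000000000) (nat_lit 0x0) (nat_lit 0xe000700638038001c00060000000000000000000000000000000000000000) := T_25 (nat_lit 226) (nat_lit 243) (nat_lit 5) (nat_lit 6) (nat_lit 10) L17595 (by decide +kernel)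
theorem L17597 : W_25 (nat_lit 11) (nat_lit 0x10000c0006000300000001000080000000000000000000000000000000) (nat_lit 0x0) (nat_lit 0x1e000f00638038001c00060000000000000000000000000000000000000000) := T_25 (nat_lit 227) (nat_lit 244) (nat_lit 6) (nat_lit 6) (nat_lit 14) L17596 (by decide +kernel)
theorem L17598 : W_25 (nat_lit 12) (nat_lit 0x10000c0006000200000001000080000000000000000000000000000000) (nat_lit 0x0) (nat_lit 0x1e000f00638038001d00068000000000000000000000000000000000000000) := T_25 (nat_lit 176) (nat_lit 159) (nat_lit 7) (nat_lit 6) (nat_lit 9) L17597 (by decide +kernel)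
theorem L17599 : W_25 (nat_lit 13) (nat_lit 0x10000c0004000200000001000080000000000000000000000000000000) (nat_lit 0x0) (nat_lit 0x100008001e000f0063803b801d00068000000000000000000000000000000000000000) := Q_25 (nat_lit 193) (C_25 L17572 (C_25 L17580 (C_25 L17583 (C_25 L17587 (C_25 L17598 N_25))))) (by decide +kernel)
theorem L17600 : W_25 (nat_lit 2) (nat_lit 0x10000c0014000700000001000080000000000000000000000000000000) (nat_lit 0x0) (nat_lit 0x28000800000000000000000000000000000000000000000000) := D_25 (nat_lit 197) (nat_lit 179) (nat_lit 195) (nat_lit 3) (nat_lit 6) (nat_lit 10) (nat_lit 1) (nat_lit 10) (nat_lit 11) (by decide +kernel)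
theorem L17601 : W_25 (nat_lit 3) (nat_lit 0x10000c0014000600000001000080000000000000000000000000000000) (nat_lit 0x0) (nat_lit 0x28000900008000000000000000000000000000000000000000) := T_25 (nat_lit 176) (nat_lit 159) (nat_lit 4) (nat_lit 7) (nat_lit 13) L17600 (by decide +kernel)
theorem L17602 : W_25 (nat_lit 4) (nat_lit 0x10000c0014000200000001000080000000000000000000000000000000) (nat_lit 0x0) (nat_lit 0x28000d00028000000000000000000000000000000000000000) := T_25 (nat_lit 178) (nat_lit 161) (nat_lit 6) (nat_lit 7) (nat_lit 13) L17601 (by decide +kernel)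
theorem L17603 : W_25 (nat_lit 2) (nat_lit 0x10000c001c000300000001000080000000000000000000000000000000) (nat_lit 0x0) (nat_lit 0x30002000000000000000000000000000000000000000000000000) := D_25 (nat_lit 209) (nat_lit 193) (nat_lit 208) (nat_lit 1) (nat_lit 9) (nat_lit 11) (nat_lit 2) (nat_lit 4) (nat_lit 12) (by decide +kernel)
theorem L17604 : W_25 (nat_lit 3) (nat_lit 0x10000c0014000300000001000080000000000000000000000000000000) (nat_lit 0x0) (nat_lit 0x3002a000000000000000000000000000000000000000000000000) := T_25 (nat_lit 195) (nat_lit 197) (nat_lit 1) (nat_lit 10) (nat_lit 11) L17603 (by decide +kernel)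
theorem L17605 : W_25 (nat_lit 4) (nat_lit 0x10000c0014000200000001000080000000000000000000000000000000) (nat_lit 0x0) (nat_lit 0x3002a000100008000000000000000000000000000000000000000) := T_25 (nat_lit 176) (nat_lit 159) (nat_lit 4) (nat_lit 7) (nat_lit 13) L17604 (by decide +kernel)
theorem L17606 : W_25 (nat_lit 5) (nat_lit 0x70000d0014000600000001000080000000000000000000000000000000) (nat_lit 0x0) (nat_lit 0x8000000060002b001800000000000000000000000000000000000000000000) := T_25 (nat_lit 195) (nat_lit 197) (nat_lit 1) (nat_lit 10) (nat_lit 11) L6533 (by decide +kernel)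
theorem L17607 : W_25 (nat_lit 6) (nat_lit 0x70000d0014000200000001000080000000000000000000000000000000) (nat_lit 0x0) (nat_lit 0x8000000060002b001c00020000000000000000000000000000000000000000) := T_25 (nat_lit 178) (nat_lit 161) (nat_lit 6) (nat_lit 7) (nat_lit 13) L17606 (by decide +kernel)
theorem L17608 : W_25 (nat_lit 7) (nat_lit 0x30000d0014000200000001000080000000000000000000000000000000) (nat_lit 0x0) (nat_lit 0x8000c00060002b001c00020000000000000000000000000000000000000000) := T_25 (nat_lit 230) (nat_lit 231) (nat_lit 0) (nat_lit 10) (nat_lit 13) L17607 (by decide +kernel)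
theorem L17609 : W_25 (nat_lit 8) (nat_lit 0x30000c0014000200000001000080000000000000000000000000000000) (nat_lit 0x0) (nat_lit 0x8000c00063002b001c00020000000000000000000000000000000000000000) := T_25 (nat_lit 208) (nat_lit 209) (nat_lit 3) (nat_lit 4) (nat_lit 12) L17608 (by decide +kernel)
theorem L17610 : W_25 (nat_lit 9) (nat_lit 0x10000c0014000200000001000080000000000000000000000000000000) (nat_lit 0x0) (nat_lit 0xc000e00063002b001c00020000000000000000000000000000000000000000) := T_25 (nat_lit 229) (nat_lit 246) (nat_lit 7) (nat_lit 7) (nat_lit 10) L17609 (by decide +kernel)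
theorem L17611 : W_25 (nat_lit 2) (nat_lit 0xb0000d0014000f00000001000080000000000000000000000000000000) (nat_lit 0x0) (nat_lit 0x3001000000000000000000000000000000000000000000000) := D_25 (nat_lit 193) (nat_lit 192) (nat_lit 180) (nat_lit 1) (nat_lit 9) (nat_lit 10) (nat_lit 1) (nat_lit 10) (nat_lit 10) (by decide +kernel)
theorem L17612 : W_25 (nat_lit 3) (nat_lit 0xb0000d0014000700000001000080000000000000000000000000000000) (nat_lit 0x0) (nat_lit 0x23001800000000000000000000000000000000000000000000) := T_25 (nat_lit 179) (nat_lit 197) (nat_lit 3) (nat_lit 6) (nat_lit 10) L17611 (by decide +kernel)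
theorem L17613 : W_25 (nat_lit 4) (nat_lit 0xb0000d0014000300000001000080000000000000000000000000000000) (nat_lit 0x0) (nat_lit 0x23001c00020000000000000000000000000000000000000000) := T_25 (nat_lit 178) (nat_lit 161) (nat_lit 6) (nat_lit 7) (nat_lit 13) L17612 (by decide +kernel)
theorem L17614 : W_25 (nat_lit 5) (nat_lit 0x30000d0014000300000001000080000000000000000000000000000000) (nat_lit 0x0) (nat_lit 0xc000000023001c00020000000000000000000000000000000000000000) := T_25 (nat_lit 231) (nat_lit 230) (nat_lit 0) (nat_lit 10) (nat_lit 13) L17613 (by decide +kernel)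
theorem L17615 : W_25 (nat_lit 6) (nat_lit 0x30000c0014000300000001000080000000000000000000000000000000) (nat_lit 0x0) (nat_lit 0xc000030023001c00020000000000000000000000000000000000000000) := T_25 (nat_lit 208) (nat_lit 209) (nat_lit 3) (nat_lit 4) (nat_lit 12) L17614 (by decide +kernel)
theorem L17616 : W_25 (nat_lit 7) (nat_lit 0x10000c0014000300000001000080000000000000000000000000000000) (nat_lit 0x0) (nat_lit 0x4000e000030023001c00020000000000000000000000000000000000000000) := T_25 (nat_lit 229) (nat_lit 246) (nat_lit 7) (nat_lit 7) (nat_lit 10) L17615 (by decide +kernel)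
theorem L17617 : W_25 (nat_lit 8) (nat_lit 0x10000c0014000200000001000080000000000000000000000000000000) (nat_lit 0x0) (nat_lit 0x4000e000030023001d00028000000000000000000000000000000000000000) := T_25 (nat_lit 176) (nat_lit 159) (nat_lit 4) (nat_lit 7) (nat_lit 13) L17616 (by decide +kernel)
theorem L17618 : W_25 (nat_lit 2) (nat_lit 0xb0000e0016000700000001000080000000000000000000000000000000) (nat_lit 0x0) (nat_lit 0x1001800000000000000000000000000000000000000000000) := D_25 (nat_lit 179) (nat_lit 192) (nat_lit 180) (nat_lit 1) (nat_lit 9) (nat_lit 10) (nat_lit 1) (nat_lit 10) (nat_lit 10) (by decide +kernel)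
theorem L17619 : W_25 (nat_lit 3) (nat_lit 0xb0000e0016000600000001000080000000000000000000000000000000) (nat_lit 0x0) (nat_lit 0x1001900008000000000000000000000000000000000000000) := T_25 (nat_lit 176) (nat_lit 159) (nat_lit 7) (nat_lit 6) (nat_lit 9) L17618 (by decide +kernel)
theorem L17620 : W_25 (nat_lit 4) (nat_lit 0xb0000e0014000600000001000080000000000000000000000000000000) (nat_lit 0x0) (nat_lit 0xb001900008000000000000000000000000000000000000000) := T_25 (nat_lit 193) (nat_lit 195) (nat_lit 1) (nat_lit 9) (nat_lit 11) L17619 (by decide +kernel)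
theorem L17621 : W_25 (nat_lit 5) (nat_lit 0x30000e0014000600000001000080000000000000000000000000000000) (nat_lit 0x0) (nat_lit 0xc00000000b001900008000000000000000000000000000000000000000) := T_25 (nat_lit 231) (nat_lit 230) (nat_lit 0) (nat_lit 10) (nat_lit 13) L17620 (by decide +kernel)
theorem L17622 : W_25 (nat_lit 6) (nat_lit 0x30000c0014000600000001000080000000000000000000000000000000) (nat_lit 0x0) (nat_lit 0xc00003000b001900008000000000000000000000000000000000000000) := T_25 (nat_lit 209) (nat_lit 208) (nat_lit 3) (nat_lit 4) (nat_lit 12) L17621 (by decide +kernel)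
theorem L17623 : W_25 (nat_lit 7) (nat_lit 0x10000c0014000600000001000080000000000000000000000000000000) (nat_lit 0x0) (nat_lit 0x4000e00003000b001900008000000000000000000000000000000000000000) := T_25 (nat_lit 229) (nat_lit 246) (nat_lit 7) (nat_lit 7) (nat_lit 10) L17622 (by decide +kernel)
theorem L17624 : W_25 (nat_lit 8) (nat_lit 0x10000c0014000200000001000080000000000000000000000000000000) (nat_lit 0x0) (nat_lit 0x4000e00003000b001d00028000000000000000000000000000000000000000) := T_25 (nat_lit 178) (nat_lit 161) (nat_lit 6) (nat_lit 7) (nat_lit 13) L17623 (by decide +kernel)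
theorem L17625 : W_25 (nat_lit 10) (nat_lit 0x10000c0004000200000001000080000000000000000000000000000000) (nat_lit 0x0) (nat_lit 0xc000e00063003b001d00028000000000000000000000000000000000000000) := Q_25 (nat_lit 196) (C_25 L17602 (C_25 L17605 (C_25 L17610 (C_25 L17617 (C_25 L17624 N_25))))) (by decide +kernel)
theorem L17626 : W_25 (nat_lit 2) (nat_lit 0x800078002c0014000700000001000080000000000000000000000000000000) (nat_lit 0x0) (nat_lit 0x20001800000000000000000000000000000000000000000000) := D_25 (nat_lit 197) (nat_lit 179) (nat_lit 180) (nat_lit 3) (nat_lit 6) (nat_lit 10) (nat_lit 6) (nat_lit 9) (nat_lit 14) (by decide +kernel)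
theorem L17627 : W_25 (nat_lit 3) (nat_lit 0x800078002c0004000700000001000080000000000000000000000000000000) (nat_lit 0x0) (nat_lit 0x38001800000000000000000000000000000000000000000000) := T_25 (nat_lit 196) (nat_lit 195) (nat_lit 4) (nat_lit 9) (nat_lit 14) L17626 (by decide +kernel)
theorem L17628 : W_25 (nat_lit 4) (nat_lit 0x78002c0004000700000001000080000000000000000000000000000000) (nat_lit 0x0) (nat_lit 0x180000000000038001800000000000000000000000000000000000000000000) := T_25 (nat_lit 247) (nat_lit 248) (nat_lit 3) (nat_lit 6) (nat_lit 13) L17627 (by decide +kernel)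
theorem L17629 : W_25 (nat_lit 5) (nat_lit 0x78000c0004000700000001000080000000000000000000000000000000) (nat_lit 0x0) (nat_lit 0x180000000600038001800000000000000000000000000000000000000000000) := T_25 (nat_lit 213) (nat_lit 214) (nat_lit 2) (nat_lit 6) (nat_lit 13) L17628 (by decide +kernel)
theorem L17630 : W_25 (nat_lit 6) (nat_lit 0x38000c0004000700000001000080000000000000000000000000000000) (nat_lit 0x0) (nat_lit 0x18000c000600038001800000000000000000000000000000000000000000000) := T_25 (nat_lit 230) (nat_lit 231) (nat_lit 0) (nat_lit 10) (nat_lit 13) L17629 (by decide +kernel)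
theorem L17631 : W_25 (nat_lit 7) (nat_lit 0x18000c0004000700000001000080000000000000000000000000000000) (nat_lit 0x0) (nat_lit 0x1c000e000600038001800000000000000000000000000000000000000000000) := T_25 (nat_lit 229) (nat_lit 246) (nat_lit 7) (nat_lit 7) (nat_lit 10) L17630 (by decide +kernel)
theorem L17632 : W_25 (nat_lit 8) (nat_lit 0x18000c0004000300000001000080000000000000000000000000000000) (nat_lit 0x0) (nat_lit 0x1c000e000600038001c00020000000000000000000000000000000000000000) := T_25 (nat_lit 178) (nat_lit 161) (nat_lit 6) (nat_lit 7) (nat_lit 13) L17631 (by decide +kernel)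
theorem L17633 : W_25 (nat_lit 9) (nat_lit 0x10000c0004000300000001000080000000000000000000000000000000) (nat_lit 0x0) (nat_lit 0x1d000e800600038001c00020000000000000000000000000000000000000000) := T_25 (nat_lit 227) (nat_lit 244) (nat_lit 5) (nat_lit 7) (nat_lit 10) L17632 (by decide +kernel)
theorem L17634 : W_25 (nat_lit 10) (nat_lit 0x10000c0004000200000001000080000000000000000000000000000000) (nat_lit 0x0) (nat_lit 0x1d000e800600038001d00028000000000000000000000000000000000000000) := T_25 (nat_lit 176) (nat_lit 159) (nat_lit 4) (nat_lit 7) (nat_lit 13) L17633 (by decide +kernel)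
theorem L17635 : W_25 (nat_lit 14) (nat_lit 0x1000080004000200000001000080000000000000000000000000000000) (nat_lit 0x0) (nat_lit 0x10000801de00ef0067803b801d00068000000000000000000000000000000000000000) := Q_25 (nat_lit 210) (C_25 L17568 (C_25 L17599 (C_25 L17625 (C_25 L17634 N_25)))) (by decide +kernel)
theorem L17636 : W_25 (nat_lit 15) (nat_lit 0x80004000200000001000080000000000000000000000000000000) (nat_lit 0x0) (nat_lit 0x1000a801fe00ff0067803b801d00068000000000000000000000000000000000000000) := Q_25 (nat_lit 228) (C_25 L6064 (C_25 L6226 (C_25 L6229 (C_25 L17635 N_25)))) (by decide +kernel)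
theorem L17637 : W_25 (nat_lit 2) (nat_lit 0x3000380006000200000001000080000000000000000000000000000000) (nat_lit 0x0) (nat_lit 0x9800000000000000000000000000000000000000000000000) := D_25 (nat_lit 192) (nat_lit 191) (nat_lit 195) (nat_lit 3) (nat_lit 4) (nat_lit 11) (nat_lit 3) (nat_lit 5) (nat_lit 11) (by decide +kernel)
theorem L17638 : W_25 (nat_lit 3) (nat_lit 0x3000180006000200000001000080000000000000000000000000000000) (nat_lit 0x0) (nat_lit 0x600009800000000000000000000000000000000000000000000000) := T_25 (nat_lit 213) (nat_lit 214) (nat_lit 0) (nat_lit 10) (nat_lit 12) L17637 (by decide +kernel)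
theorem L17639 : W_25 (nat_lit 4) (nat_lit 0x1000180006000200000001000080000000000000000000000000000000) (nat_lit 0x0) (nat_lit 0x40002000600009800000000000000000000000000000000000000000000000) := T_25 (nat_lit 229) (nat_lit 246) (nat_lit 7) (nat_lit 7) (nat_lit 10) L17638 (by decide +kernel)
theorem L17640 : W_25 (nat_lit 2) (nat_lit 0x3000380006800300000001000080000000000000000000000000000000) (nat_lit 0x0) (nat_lit 0x10000c00000000000000000000000000000000000000000000000000000000) := D_25 (nat_lit 227) (nat_lit 244) (nat_lit 226) (nat_lit 5) (nat_lit 7) (nat_lit 10) (nat_lit 2) (nat_lit 5) (nat_lit 13) (by decide +kernel)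
theorem L17641 : W_25 (nat_lit 3) (nat_lit 0x3000180006800300000001000080000000000000000000000000000000) (nat_lit 0x0) (nat_lit 0x10000c00600000000000000000000000000000000000000000000000000000) := T_25 (nat_lit 213) (nat_lit 214) (nat_lit 0) (nat_lit 10) (nat_lit 12) L17640 (by decide +kernel)
theorem L17642 : W_25 (nat_lit 4) (nat_lit 0x3000180006000300000001000080000000000000000000000000000000) (nat_lit 0x0) (nat_lit 0x10000c00600001800000000000000000000000000000000000000000000000) := T_25 (nat_lit 191) (nat_lit 192) (nat_lit 3) (nat_lit 4) (nat_lit 11) L17641 (by decide +kernel)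
theorem L17643 : W_25 (nat_lit 5) (nat_lit 0x1000180006000300000001000080000000000000000000000000000000) (nat_lit 0x0) (nat_lit 0x50002c00600001800000000000000000000000000000000000000000000000) := T_25 (nat_lit 229) (nat_lit 246) (nat_lit 7) (nat_lit 7) (nat_lit 10) L17642 (by decide +kernel)
theorem L17644 : W_25 (nat_lit 6) (nat_lit 0x1000180006000200000001000080000000000000000000000000000000) (nat_lit 0x0) (nat_lit 0x50002c00600001800100008000000000000000000000000000000000000000) := T_25 (nat_lit 176) (nat_lit 159) (nat_lit 4) (nat_lit 7) (nat_lit 13) L17643 (by decide +kernel)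
theorem L17645 : W_25 (nat_lit 2) (nat_lit 0x3c001a0006000300000001000080000000000000000000000000000000) (nat_lit 0x0) (nat_lit 0xc000000000001000000000000000000000000000000000000000000000000) := D_25 (nat_lit 243) (nat_lit 242) (nat_lit 192) (nat_lit 1) (nat_lit 8) (nat_lit 13) (nat_lit 6) (nat_lit 5) (nat_lit 14) (by decide +kernel)
theorem L17646 : W_25 (nat_lit 3) (nat_lit 0x3c00180006000300000001000080000000000000000000000000000000) (nat_lit 0x0) (nat_lit 0xc000000030001000000000000000000000000000000000000000000000000) := T_25 (nat_lit 209) (nat_lit 208) (nat_lit 0) (nat_lit 8) (nat_lit 13) L17645 (by decide +kernel)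
theorem L17647 : W_25 (nat_lit 4) (nat_lit 0x3c00180006000200000001000080000000000000000000000000000000) (nat_lit 0x0) (nat_lit 0xc000000030001000100008000000000000000000000000000000000000000) := T_25 (nat_lit 176) (nat_lit 159) (nat_lit 4) (nat_lit 7) (nat_lit 13) L17646 (by decide +kernel)
theorem L17648 : W_25 (nat_lit 5) (nat_lit 0x3800180006000200000001000080000000000000000000000000000000) (nat_lit 0x0) (nat_lit 0xc000600030001000100008000000000000000000000000000000000000000) := T_25 (nat_lit 226) (nat_lit 225) (nat_lit 2) (nat_lit 4) (nat_lit 13) L17647 (by decide +kernel)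
theorem L17649 : W_25 (nat_lit 6) (nat_lit 0x3000180006000200000001000080000000000000000000000000000000) (nat_lit 0x0) (nat_lit 0x1c000e00030001000100008000000000000000000000000000000000000000) := T_25 (nat_lit 227) (nat_lit 244) (nat_lit 5) (nat_lit 7) (nat_lit 10) L17648 (by decide +kernel)
theorem L17650 : W_25 (nat_lit 7) (nat_lit 0x1000180006000200000001000080000000000000000000000000000000) (nat_lit 0x0) (nat_lit 0x5c002e00030001000100008000000000000000000000000000000000000000) := T_25 (nat_lit 229) (nat_lit 246) (nat_lit 7) (nat_lit 7) (nat_lit 10) L17649 (by decide +kernel)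
theorem L17651 : W_25 (nat_lit 8) (nat_lit 0x1000080006000200000001000080000000000000000000000000000000) (nat_lit 0x0) (nat_lit 0x5c002e00730009800100008000000000000000000000000000000000000000) := Q_25 (nat_lit 212) (C_25 L17639 (C_25 L6581 (C_25 L17644 (C_25 L6307 (C_25 L17650 N_25))))) (by decide +kernel)
theorem L17652 : W_25 (nat_lit 2) (nat_lit 0x3800080016000f00040001000080000000000000000000000000000000) (nat_lit 0x0) (nat_lit 0x300008000000000000000000000000000000000000000000000000) := D_25 (nat_lit 212) (nat_lit 195) (nat_lit 213) (nat_lit 6) (nat_lit 8) (nat_lit 13) (nat_lit 5) (nat_lit 9) (nat_lit 9) (by decide +kernel)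
theorem L17653 : W_25 (nat_lit 3) (nat_lit 0x1800080016000f00040001000080000000000000000000000000000000) (nat_lit 0x0) (nat_lit 0x40002000300008000000000000000000000000000000000000000000000000) := T_25 (nat_lit 229) (nat_lit 246) (nat_lit 7) (nat_lit 7) (nat_lit 10) L17652 (by decide +kernel)
theorem L17654 : W_25 (nat_lit 4) (nat_lit 0x1800080016000f00000001000080000000000000000000000000000000) (nat_lit 0x0) (nat_lit 0x400020003000080000000c0000000000000000000000000000000000000000) := T_25 (nat_lit 162) (nat_lit 163) (nat_lit 2) (nat_lit 6) (nat_lit 10) L17653 (by decide +kernel)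
theorem L17655 : W_25 (nat_lit 5) (nat_lit 0x1800080006000f00000001000080000000000000000000000000000000) (nat_lit 0x0) (nat_lit 0x400020003000380000000c0000000000000000000000000000000000000000) := T_25 (nat_lit 196) (nat_lit 197) (nat_lit 3) (nat_lit 6) (nat_lit 10) L17654 (by decide +kernel)
theorem L17656 : W_25 (nat_lit 6) (nat_lit 0x1000080006000f00000001000080000000000000000000000000000000) (nat_lit 0x0) (nat_lit 0x500028003000380000000c0000000000000000000000000000000000000000) := T_25 (nat_lit 227) (nat_lit 244) (nat_lit 5) (nat_lit 7) (nat_lit 10) L17655 (by decide +kernel)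
theorem L17657 : W_25 (nat_lit 7) (nat_lit 0x1000080006000700000001000080000000000000000000000000000000) (nat_lit 0x0) (nat_lit 0x500028003000380018000c0000000000000000000000000000000000000000) := T_25 (nat_lit 179) (nat_lit 180) (nat_lit 1) (nat_lit 10) (nat_lit 10) L17656 (by decide +kernel)
theorem L17658 : W_25 (nat_lit 8) (nat_lit 0x1000080006000300000001000080000000000000000000000000000000) (nat_lit 0x0) (nat_lit 0x50002800300038001c000e0000000000000000000000000000000000000000) := T_25 (nat_lit 178) (nat_lit 161) (nat_lit 6) (nat_lit 7) (nat_lit 13) L17657 (by decide +kernel)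
theorem L17659 : W_25 (nat_lit 9) (nat_lit 0x1000080006000200000001000080000000000000000000000000000000) (nat_lit 0x0) (nat_lit 0x50002800300038001d000e8000000000000000000000000000000000000000) := T_25 (nat_lit 176) (nat_lit 159) (nat_lit 4) (nat_lit 7) (nat_lit 13) L17658 (by decide +kernel)
theorem L17660 : W_25 (nat_lit 2) (nat_lit 0x3000080006000e00000001000080000000000000000000000000000000) (nat_lit 0x0) (nat_lit 0x9800000000000000000000000000000000000000000000000) := D_25 (nat_lit 192) (nat_lit 191) (nat_lit 195) (nat_lit 2) (nat_lit 4) (nat_lit 11) (nat_lit 2) (nat_lit 5) (nat_lit 11) (by decide +kernel)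
theorem L17661 : W_25 (nat_lit 3) (nat_lit 0x3000080006000600000001000080000000000000000000000000000000) (nat_lit 0x0) (nat_lit 0x9801800000000000000000000000000000000000000000000) := T_25 (nat_lit 179) (nat_lit 180) (nat_lit 1) (nat_lit 10) (nat_lit 10) L17660 (by decide +kernel)
theorem L17662 : W_25 (nat_lit 4) (nat_lit 0x3000080006000200000001000080000000000000000000000000000000) (nat_lit 0x0) (nat_lit 0x9801c00020000000000000000000000000000000000000000) := T_25 (nat_lit 178) (nat_lit 161) (nat_lit 6) (nat_lit 7) (nat_lit 13) L17661 (by decide +kernel)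
theorem L17663 : W_25 (nat_lit 5) (nat_lit 0x1000080006000200000001000080000000000000000000000000000000) (nat_lit 0x0) (nat_lit 0x40002000000009801c00020000000000000000000000000000000000000000) := T_25 (nat_lit 229) (nat_lit 246) (nat_lit 7) (nat_lit 7) (nat_lit 10) L17662 (by decide +kernel)
theorem L17664 : W_25 (nat_lit 2) (nat_lit 0x3800080006000700000001000080000000000000000000000000000000) (nat_lit 0x0) (nat_lit 0x1001800000000000000000000000000000000000000000000) := D_25 (nat_lit 179) (nat_lit 180) (nat_lit 192) (nat_lit 1) (nat_lit 10) (nat_lit 10) (nat_lit 1) (nat_lit 9) (nat_lit 10) (by decide +kernel)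
theorem L17665 : W_25 (nat_lit 3) (nat_lit 0x3800080006000300000001000080000000000000000000000000000000) (nat_lit 0x0) (nat_lit 0x1001c00020000000000000000000000000000000000000000) := T_25 (nat_lit 178) (nat_lit 161) (nat_lit 6) (nat_lit 7) (nat_lit 13) L17664 (by decide +kernel)
theorem L17666 : W_25 (nat_lit 4) (nat_lit 0x1800080006000300000001000080000000000000000000000000000000) (nat_lit 0x0) (nat_lit 0x40002000000001001c00020000000000000000000000000000000000000000) := T_25 (nat_lit 229) (nat_lit 246) (nat_lit 7) (nat_lit 7) (nat_lit 10) L17665 (by decide +kernel)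
theorem L17667 : W_25 (nat_lit 5) (nat_lit 0x1800080006000200000001000080000000000000000000000000000000) (nat_lit 0x0) (nat_lit 0x40002000000001001d00028000000000000000000000000000000000000000) := T_25 (nat_lit 176) (nat_lit 159) (nat_lit 4) (nat_lit 7) (nat_lit 13) L17666 (by decide +kernel)
theorem L17668 : W_25 (nat_lit 6) (nat_lit 0x1000080006000200000001000080000000000000000000000000000000) (nat_lit 0x0) (nat_lit 0x50002800000001001d00028000000000000000000000000000000000000000) := T_25 (nat_lit 227) (nat_lit 244) (nat_lit 5) (nat_lit 7) (nat_lit 10) L17667 (by decide +kernel)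
theorem L17669 : W_25 (nat_lit 10) (nat_lit 0x1000080004000200000001000080000000000000000000000000000000) (nat_lit 0x0) (nat_lit 0x5c002e0073003b801d000e8000000000000000000000000000000000000000) := Q_25 (nat_lit 193) (C_25 L17651 (C_25 L17659 (C_25 L17663 (C_25 L17668 (C_25 L6287 N_25))))) (by decide +kernel)
theorem L17670 : W_25 (nat_lit 11) (nat_lit 0x80004000200000001000080000000000000000000000000000000) (nat_lit 0x0) (nat_lit 0xa0007c003e0073003b801d000e8000000000000000000000000000000000000000) := Q_25 (nat_lit 228) (C_25 L6064 (C_25 L6226 (C_25 L6229 (C_25 L17669 N_25)))) (by decide +kernel)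
theorem L17671 : W_25 (nat_lit 2) (nat_lit 0x1000080006000200000001000080000000000000000000000000000000) (nat_lit 0x0) (nat_lit 0x20000000000000000100008000000000000000000000000000000000000000) := D_25 (nat_lit 176) (nat_lit 159) (nat_lit 245) (nat_lit 4) (nat_lit 7) (nat_lit 13) (nat_lit 4) (nat_lit 7) (nat_lit 14) (by decide +kernel)
theorem L17672 : W_25 (nat_lit 2) (nat_lit 0x400030001000080006000200000001000080000000000000000000000000000000) (nat_lit 0x0) (nat_lit 0x10000800040000000000000000000000000000000000000000000000000000000000000) := D_25 (nat_lit 263) (nat_lit 246) (nat_lit 280) (nat_lit 7) (nat_lit 7) (nat_lit 11) (nat_lit 7) (nat_lit 7) (nat_lit 12) (by decide +kernel)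
theorem L17673 : W_25 (nat_lit 3) (nat_lit 0x30001000080006000200000001000080000000000000000000000000000000) (nat_lit 0x0) (nat_lit 0x10000c00040000000040000000000000000000000000000000000000000000000000000) := T_25 (nat_lit 262) (nat_lit 210) (nat_lit 4) (nat_lit 7) (nat_lit 15) L17672 (by decide +kernel)
theorem L17674 : W_25 (nat_lit 4) (nat_lit 0x10001000080006000200000001000080000000000000000000000000000000) (nat_lit 0x0) (nat_lit 0x10000e00060000000040000000000000000000000000000000000000000000000000000) := T_25 (nat_lit 245) (nat_lit 261) (nat_lit 5) (nat_lit 7) (nat_lit 11) L17673 (by decide +kernel)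
theorem L17675 : W_25 (nat_lit 5) (nat_lit 0x1000080006000200000001000080000000000000000000000000000000) (nat_lit 0x0) (nat_lit 0x10000e00070000800040000000000000000000000000000000000000000000000000000) := T_25 (nat_lit 244) (nat_lit 227) (nat_lit 5) (nat_lit 7) (nat_lit 10) L17674 (by decide +kernel)
theorem L17680 : W_25 (nat_lit 2) (nat_lit 0x1800380006000300000001000080000000000000000000000000000000) (nat_lit 0x0) (nat_lit 0x600040000000000000000000000000000000000000000000000000000) := D_25 (nat_lit 226) (nat_lit 225) (nat_lit 210) (nat_lit 2) (nat_lit 4) (nat_lit 13) (nat_lit 1) (nat_lit 9) (nat_lit 12) (by decide +kernel)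
theorem L17681 : W_25 (nat_lit 3) (nat_lit 0x1000380006000300000001000080000000000000000000000000000000) (nat_lit 0x0) (nat_lit 0x10000e00040000000000000000000000000000000000000000000000000000) := T_25 (nat_lit 227) (nat_lit 244) (nat_lit 5) (nat_lit 7) (nat_lit 10) L17680 (by decide +kernel)
theorem L17682 : W_25 (nat_lit 4) (nat_lit 0x1000380006000200000001000080000000000000000000000000000000) (nat_lit 0x0) (nat_lit 0x10000e00040000000100008000000000000000000000000000000000000000) := T_25 (nat_lit 176) (nat_lit 159) (nat_lit 4) (nat_lit 7) (nat_lit 13) L17681 (by decide +kernel)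
theorem L17683 : W_25 (nat_lit 5) (nat_lit 0x1000180006000200000001000080000000000000000000000000000000) (nat_lit 0x0) (nat_lit 0x10000e00640000000100008000000000000000000000000000000000000000) := T_25 (nat_lit 213) (nat_lit 214) (nat_lit 0) (nat_lit 10) (nat_lit 12) L17682 (by decide +kernel)
theorem L17684 : W_25 (nat_lit 2) (nat_lit 0x1c00180007000300000001000080000000000000000000000000000000) (nat_lit 0x0) (nat_lit 0x8000000060000000000000000000000000000000000000000000000000000) := D_25 (nat_lit 243) (nat_lit 210) (nat_lit 209) (nat_lit 5) (nat_lit 6) (nat_lit 10) (nat_lit 6) (nat_lit 5) (nat_lit 14) (by decide +kernel)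
theorem L17685 : W_25 (nat_lit 3) (nat_lit 0x1c00180007000200000001000080000000000000000000000000000000) (nat_lit 0x0) (nat_lit 0x8000000060000000100008000000000000000000000000000000000000000) := T_25 (nat_lit 176) (nat_lit 159) (nat_lit 4) (nat_lit 7) (nat_lit 13) L17684 (by decide +kernel)
theorem L17686 : W_25 (nat_lit 4) (nat_lit 0x1c00180006000200000001000080000000000000000000000000000000) (nat_lit 0x0) (nat_lit 0x8000000060001800100008000000000000000000000000000000000000000) := T_25 (nat_lit 192) (nat_lit 191) (nat_lit 3) (nat_lit 4) (nat_lit 11) L17685 (by decide +kernel)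
theorem L17687 : W_25 (nat_lit 5) (nat_lit 0x1800180006000200000001000080000000000000000000000000000000) (nat_lit 0x0) (nat_lit 0x8000600060001800100008000000000000000000000000000000000000000) := T_25 (nat_lit 226) (nat_lit 225) (nat_lit 2) (nat_lit 4) (nat_lit 13) L17686 (by decide +kernel)
theorem L17688 : W_25 (nat_lit 6) (nat_lit 0x1000180006000200000001000080000000000000000000000000000000) (nat_lit 0x0) (nat_lit 0x18000e00060001800100008000000000000000000000000000000000000000) := T_25 (nat_lit 227) (nat_lit 244) (nat_lit 5) (nat_lit 7) (nat_lit 10) L17687 (by decide +kernel)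
theorem L17689 : W_25 (nat_lit 7) (nat_lit 0x1000080006000200000001000080000000000000000000000000000000) (nat_lit 0x0) (nat_lit 0x18000e00760009800100008000000000000000000000000000000000000000) := Q_25 (nat_lit 212) (C_25 L6581 (C_25 L17679 (C_25 L17683 (C_25 L17688 N_25)))) (by decide +kernel)
theorem L17690 : W_25 (nat_lit 8) (nat_lit 0x80006000200000001000080000000000000000000000000000000) (nat_lit 0x0) (nat_lit 0x10000e00078001e00760009800100008000000000000000000000000000000000000000) := Q_25 (nat_lit 228) (C_25 L17671 (C_25 L17675 (C_25 L17689 N_25))) (by decide +kernel)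
theorem L17692 : W_25 (nat_lit 3) (nat_lit 0x80006000700000001000080000000000000000000000000000000) (nat_lit 0x0) (nat_lit 0x180000c000400000000000000000000000000000000000) := T_25 (nat_lit 159) (nat_lit 142) (nat_lit 7) (nat_lit 6) (nat_lit 8) L6428 (by decide +kernel)
theorem L17693 : W_25 (nat_lit 4) (nat_lit 0x80006000300000001000080000000000000000000000000000000) (nat_lit 0x0) (nat_lit 0x1c0002c000400000000000000000000000000000000000) := T_25 (nat_lit 178) (nat_lit 161) (nat_lit 5) (nat_lit 8) (nat_lit 7) L17692 (by decide +kernel)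
theorem L17694 : W_25 (nat_lit 2) (nat_lit 0x200040002c001e000f00040001000080000000000000000000000000000000) (nat_lit 0x0) (nat_lit 0x100008000100000000000000000000000000000000000000000000000000000) := D_25 (nat_lit 231) (nat_lit 212) (nat_lit 248) (nat_lit 3) (nat_lit 6) (nat_lit 12) (nat_lit 7) (nat_lit 9) (nat_lit 10) (by decide +kernel)
theorem L17695 : W_25 (nat_lit 3) (nat_lit 0x200000002c001e000f00040001000080000000000000000000000000000000) (nat_lit 0x0) (nat_lit 0x18000c000100000000000000000000000000000000000000000000000000000) := T_25 (nat_lit 230) (nat_lit 247) (nat_lit 4) (nat_lit 9) (nat_lit 14) L17694 (by decide +kernel)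
theorem L17696 : W_25 (nat_lit 4) (nat_lit 0x200000000c001e000f00040001000080000000000000000000000000000000) (nat_lit 0x0) (nat_lit 0x18000c000700000000000000000000000000000000000000000000000000000) := T_25 (nat_lit 213) (nat_lit 214) (nat_lit 3) (nat_lit 6) (nat_lit 11) L17695 (by decide +kernel)
theorem L17697 : W_25 (nat_lit 5) (nat_lit 0x200000000c0016000f00040001000080000000000000000000000000000000) (nat_lit 0x0) (nat_lit 0x18000c000720008000000000000000000000000000000000000000000000000) := T_25 (nat_lit 195) (nat_lit 209) (nat_lit 1) (nat_lit 9) (nat_lit 11) L17696 (by decide +kernel)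
theorem L17698 : W_25 (nat_lit 6) (nat_lit 0x200000000c0006000f00040001000080000000000000000000000000000000) (nat_lit 0x0) (nat_lit 0x18000c000720038000000000000000000000000000000000000000000000000) := T_25 (nat_lit 196) (nat_lit 197) (nat_lit 3) (nat_lit 6) (nat_lit 10) L17697 (by decide +kernel)
theorem L17699 : W_25 (nat_lit 7) (nat_lit 0x200000000c0006000f00000001000080000000000000000000000000000000) (nat_lit 0x0) (nat_lit 0x18000c0007200380000000c0000000000000000000000000000000000000000) := T_25 (nat_lit 162) (nat_lit 163) (nat_lit 2) (nat_lit 6) (nat_lit 10) L17698 (by decide +kernel)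
theorem L17700 : W_25 (nat_lit 8) (nat_lit 0x200000000c0006000700000001000080000000000000000000000000000000) (nat_lit 0x0) (nat_lit 0x18000c0007200380018000c0000000000000000000000000000000000000000) := T_25 (nat_lit 179) (nat_lit 180) (nat_lit 1) (nat_lit 10) (nat_lit 10) L17699 (by decide +kernel)
theorem L17701 : W_25 (nat_lit 9) (nat_lit 0xc0006000700000001000080000000000000000000000000000000) (nat_lit 0x0) (nat_lit 0x1a000d0007200380018000c0000000000000000000000000000000000000000) := T_25 (nat_lit 245) (nat_lit 228) (nat_lit 4) (nat_lit 7) (nat_lit 14) L17700 (by decide +kernel)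
theorem L17702 : W_25 (nat_lit 10) (nat_lit 0xc0006000300000001000080000000000000000000000000000000) (nat_lit 0x0) (nat_lit 0x1a000d000720038001c000e0000000000000000000000000000000000000000) := T_25 (nat_lit 178) (nat_lit 161) (nat_lit 5) (nat_lit 8) (nat_lit 7) L17701 (by decide +kernel)
theorem L17703 : W_25 (nat_lit 2) (nat_lit 0x20000e000c0006000300000001000080000000000000000000000000000000) (nat_lit 0x0) (nat_lit 0x320000000000000000000000000000000000000000000000000000) := D_25 (nat_lit 212) (nat_lit 213) (nat_lit 209) (nat_lit 1) (nat_lit 9) (nat_lit 12) (nat_lit 1) (nat_lit 8) (nat_lit 12) (by decide +kernel)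
theorem L17704 : W_25 (nat_lit 3) (nat_lit 0x20000c000c0006000300000001000080000000000000000000000000000000) (nat_lit 0x0) (nat_lit 0x300320000000000000000000000000000000000000000000000000000) := T_25 (nat_lit 225) (nat_lit 224) (nat_lit 2) (nat_lit 3) (nat_lit 13) L17703 (by decide +kernel)
theorem L17705 : W_25 (nat_lit 4) (nat_lit 0x200008000c0006000300000001000080000000000000000000000000000000) (nat_lit 0x0) (nat_lit 0x8000700320000000000000000000000000000000000000000000000000000) := T_25 (nat_lit 226) (nat_lit 243) (nat_lit 5) (nat_lit 6) (nat_lit 10) L17704 (by decide +kernel)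
theorem L17706 : W_25 (nat_lit 5) (nat_lit 0x8000c0006000300000001000080000000000000000000000000000000) (nat_lit 0x0) (nat_lit 0x28001700320000000000000000000000000000000000000000000000000000) := T_25 (nat_lit 245) (nat_lit 228) (nat_lit 7) (nat_lit 6) (nat_lit 10) L17705 (by decide +kernel)
theorem L17707 : W_25 (nat_lit 6) (nat_lit 0xc0006000300000001000080000000000000000000000000000000) (nat_lit 0x0) (nat_lit 0x38001f00320000000000000000000000000000000000000000000000000000) := T_25 (nat_lit 227) (nat_lit 244) (nat_lit 6) (nat_lit 6) (nat_lit 14) L17706 (by decide +kernel)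
theorem L17708 : W_25 (nat_lit 2) (nat_lit 0x100040002c001e000f00040001000080000000000000000000000000000000) (nat_lit 0x0) (nat_lit 0x100008000100000000000000000000000000000000000000000000000000000) := D_25 (nat_lit 231) (nat_lit 212) (nat_lit 248) (nat_lit 3) (nat_lit 6) (nat_lit 12) (nat_lit 7) (nat_lit 9) (nat_lit 10) (by decide +kernel)
theorem L17709 : W_25 (nat_lit 3) (nat_lit 0x100000002c001e000f00040001000080000000000000000000000000000000) (nat_lit 0x0) (nat_lit 0x18000c000100000000000000000000000000000000000000000000000000000) := T_25 (nat_lit 230) (nat_lit 247) (nat_lit 4) (nat_lit 9) (nat_lit 14) L17708 (by decide +kernel)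
theorem L17710 : W_25 (nat_lit 4) (nat_lit 0x100000000c001e000f00040001000080000000000000000000000000000000) (nat_lit 0x0) (nat_lit 0x18000c000700000000000000000000000000000000000000000000000000000) := T_25 (nat_lit 213) (nat_lit 214) (nat_lit 3) (nat_lit 6) (nat_lit 11) L17709 (by decide +kernel)
theorem L17711 : W_25 (nat_lit 5) (nat_lit 0x100000000c0016000f00040001000080000000000000000000000000000000) (nat_lit 0x0) (nat_lit 0x18000c000720008000000000000000000000000000000000000000000000000) := T_25 (nat_lit 195) (nat_lit 209) (nat_lit 1) (nat_lit 9) (nat_lit 11) L17710 (by decide +kernel)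
theorem L17712 : W_25 (nat_lit 6) (nat_lit 0x100000000c0006000f00040001000080000000000000000000000000000000) (nat_lit 0x0) (nat_lit 0x18000c000720038000000000000000000000000000000000000000000000000) := T_25 (nat_lit 196) (nat_lit 197) (nat_lit 3) (nat_lit 6) (nat_lit 10) L17711 (by decide +kernel)
theorem L17713 : W_25 (nat_lit 7) (nat_lit 0x100000000c0006000f00000001000080000000000000000000000000000000) (nat_lit 0x0) (nat_lit 0x18000c0007200380000000c0000000000000000000000000000000000000000) := T_25 (nat_lit 162) (nat_lit 163) (nat_lit 2) (nat_lit 6) (nat_lit 10) L17712 (by decide +kernel)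
theorem L17714 : W_25 (nat_lit 8) (nat_lit 0x100000000c0006000700000001000080000000000000000000000000000000) (nat_lit 0x0) (nat_lit 0x18000c0007200380018000c0000000000000000000000000000000000000000) := T_25 (nat_lit 179) (nat_lit 180) (nat_lit 1) (nat_lit 10) (nat_lit 10) L17713 (by decide +kernel)
theorem L17715 : W_25 (nat_lit 9) (nat_lit 0x100000000c0006000300000001000080000000000000000000000000000000) (nat_lit 0x0) (nat_lit 0x18000c000720038001c000e0000000000000000000000000000000000000000) := T_25 (nat_lit 178) (nat_lit 161) (nat_lit 5) (nat_lit 8) (nat_lit 7) L17714 (by decide +kernel)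
theorem L17716 : W_25 (nat_lit 10) (nat_lit 0xc0006000300000001000080000000000000000000000000000000) (nat_lit 0x0) (nat_lit 0x19000c800720038001c000e0000000000000000000000000000000000000000) := T_25 (nat_lit 244) (nat_lit 227) (nat_lit 6) (nat_lit 6) (nat_lit 14) L17715 (by decide +kernel)
theorem L17717 : W_25 (nat_lit 8) (nat_lit 0x1c000c0006000300020001000080000000000000000000000000000000) (nat_lit 0x0) (nat_lit 0x6000300638038001800040000000000000000000000000000000000000000) := T_25 (nat_lit 225) (nat_lit 224) (nat_lit 2) (nat_lit 3) (nat_lit 13) L17593 (by decide +kernel)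
theorem L17718 : W_25 (nat_lit 9) (nat_lit 0x18000c0006000300020001000080000000000000000000000000000000) (nat_lit 0x0) (nat_lit 0xe000700638038001800040000000000000000000000000000000000000000) := T_25 (nat_lit 226) (nat_lit 243) (nat_lit 5) (nat_lit 6) (nat_lit 10) L17717 (by decide +kernel)
theorem L17719 : W_25 (nat_lit 10) (nat_lit 0x10000c0006000300020001000080000000000000000000000000000000) (nat_lit 0x0) (nat_lit 0x1e000f00638038001800040000000000000000000000000000000000000000) := T_25 (nat_lit 227) (nat_lit 244) (nat_lit 6) (nat_lit 6) (nat_lit 14) L17718 (by decide +kernel)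
theorem L17720 : W_25 (nat_lit 11) (nat_lit 0xc0006000300020001000080000000000000000000000000000000) (nat_lit 0x0) (nat_lit 0x3e001f00638038001800040000000000000000000000000000000000000000) := T_25 (nat_lit 228) (nat_lit 245) (nat_lit 4) (nat_lit 7) (nat_lit 14) L17719 (by decide +kernel)
theorem L17721 : W_25 (nat_lit 12) (nat_lit 0xc0006000300000001000080000000000000000000000000000000) (nat_lit 0x0) (nat_lit 0x3e001f00638038001c00060000000000000000000000000000000000000000) := T_25 (nat_lit 161) (nat_lit 178) (nat_lit 5) (nat_lit 8) (nat_lit 7) L17720 (by decide +kernel)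
theorem L17722 : W_25 (nat_lit 2) (nat_lit 0x300006000f0016800f00040001000080000000000000000000000000000000) (nat_lit 0x0) (nat_lit 0x100048000000000000000000000000000000000000000000000000000000000000) := D_25 (nat_lit 243) (nat_lit 246) (nat_lit 260) (nat_lit 0) (nat_lit 8) (nat_lit 14) (nat_lit 6) (nat_lit 5) (nat_lit 15) (by decide +kernel)
theorem L17723 : W_25 (nat_lit 3) (nat_lit 0x300002000f0016800f00040001000080000000000000000000000000000000) (nat_lit 0x0) (nat_lit 0x100048000400100000000000000000000000000000000000000000000000000000) := T_25 (nat_lit 226) (nat_lit 212) (nat_lit 1) (nat_lit 8) (nat_lit 12) L17722 (by decide +kernel)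
theorem L17724 : W_25 (nat_lit 4) (nat_lit 0x300002000f0016000f00040001000080000000000000000000000000000000) (nat_lit 0x0) (nat_lit 0x100048000400100000c00000000000000000000000000000000000000000000000) := T_25 (nat_lit 191) (nat_lit 190) (nat_lit 0) (nat_lit 7) (nat_lit 12) L17723 (by decide +kernel)
theorem L17725 : W_25 (nat_lit 5) (nat_lit 0x300000000f0016000f00040001000080000000000000000000000000000000) (nat_lit 0x0) (nat_lit 0x100048000700100000c00000000000000000000000000000000000000000000000) := T_25 (nat_lit 225) (nat_lit 224) (nat_lit 1) (nat_lit 7) (nat_lit 12) L17724 (by decide +kernel)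
theorem L17726 : W_25 (nat_lit 6) (nat_lit 0x300000000e0016000f00040001000080000000000000000000000000000000) (nat_lit 0x0) (nat_lit 0x100048000700118000c00000000000000000000000000000000000000000000000) := T_25 (nat_lit 208) (nat_lit 207) (nat_lit 2) (nat_lit 3) (nat_lit 12) L17725 (by decide +kernel)
theorem L17727 : W_25 (nat_lit 7) (nat_lit 0x300000000c0016000f00040001000080000000000000000000000000000000) (nat_lit 0x0) (nat_lit 0x100048000700138008c00000000000000000000000000000000000000000000000) := T_25 (nat_lit 209) (nat_lit 195) (nat_lit 1) (nat_lit 9) (nat_lit 11) L17726 (by decide +kernel)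
theorem L17728 : W_25 (nat_lit 8) (nat_lit 0x300000000c0006000f00040001000080000000000000000000000000000000) (nat_lit 0x0) (nat_lit 0x100048000700138038c00000000000000000000000000000000000000000000000) := T_25 (nat_lit 196) (nat_lit 197) (nat_lit 3) (nat_lit 6) (nat_lit 10) L17727 (by decide +kernel)
theorem L17729 : W_25 (nat_lit 9) (nat_lit 0x300000000c0006000f00000001000080000000000000000000000000000000) (nat_lit 0x0) (nat_lit 0x100048000700138038c000000c0000000000000000000000000000000000000000) := T_25 (nat_lit 162) (nat_lit 163) (nat_lit 2) (nat_lit 6) (nat_lit 10) L17728 (by decide +kernel)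
theorem L17730 : W_25 (nat_lit 10) (nat_lit 0x300000000c0006000700000001000080000000000000000000000000000000) (nat_lit 0x0) (nat_lit 0x100048000700138038c018000c0000000000000000000000000000000000000000) := T_25 (nat_lit 179) (nat_lit 180) (nat_lit 1) (nat_lit 10) (nat_lit 10) L17729 (by decide +kernel)
theorem L17731 : W_25 (nat_lit 11) (nat_lit 0x100000000c0006000700000001000080000000000000000000000000000000) (nat_lit 0x0) (nat_lit 0x100068001700138038c018000c0000000000000000000000000000000000000000) := T_25 (nat_lit 245) (nat_lit 228) (nat_lit 4) (nat_lit 7) (nat_lit 14) L17730 (by decide +kernel)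
theorem L17732 : W_25 (nat_lit 12) (nat_lit 0x100000000c0006000300000001000080000000000000000000000000000000) (nat_lit 0x0) (nat_lit 0x100068001700138038c01c000e0000000000000000000000000000000000000000) := T_25 (nat_lit 178) (nat_lit 161) (nat_lit 5) (nat_lit 8) (nat_lit 7) L17731 (by decide +kernel)
theorem L17733 : W_25 (nat_lit 13) (nat_lit 0xc0006000300000001000080000000000000000000000000000000) (nat_lit 0x0) (nat_lit 0x100078001f00138038c01c000e0000000000000000000000000000000000000000) := T_25 (nat_lit 244) (nat_lit 227) (nat_lit 6) (nat_lit 6) (nat_lit 14) L17732 (by decide +kernel)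
theorem L17734 : W_25 (nat_lit 2) (nat_lit 0x1c000c0006000300020001000080000000000000000000000000000000) (nat_lit 0x0) (nat_lit 0x300100000000000000000000000000000000000000000000000000000) := D_25 (nat_lit 225) (nat_lit 212) (nat_lit 224) (nat_lit 2) (nat_lit 4) (nat_lit 13) (nat_lit 2) (nat_lit 3) (nat_lit 13) (by decide +kernel)
theorem L17735 : W_25 (nat_lit 3) (nat_lit 0x18000c0006000300020001000080000000000000000000000000000000) (nat_lit 0x0) (nat_lit 0x8000700100000000000000000000000000000000000000000000000000000) := T_25 (nat_lit 226) (nat_lit 243) (nat_lit 5) (nat_lit 6) (nat_lit 10) L17734 (by decide +kernel)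
theorem L17736 : W_25 (nat_lit 4) (nat_lit 0x8000c0006000300020001000080000000000000000000000000000000) (nat_lit 0x0) (nat_lit 0x28001700100000000000000000000000000000000000000000000000000000) := T_25 (nat_lit 228) (nat_lit 245) (nat_lit 7) (nat_lit 6) (nat_lit 10) L17735 (by decide +kernel)
theorem L17737 : W_25 (nat_lit 5) (nat_lit 0xc0006000300020001000080000000000000000000000000000000) (nat_lit 0x0) (nat_lit 0x38001f00100000000000000000000000000000000000000000000000000000) := T_25 (nat_lit 227) (nat_lit 244) (nat_lit 6) (nat_lit 6) (nat_lit 14) L17736 (by decide +kernel)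
theorem L17738 : W_25 (nat_lit 6) (nat_lit 0xc0006000300000001000080000000000000000000000000000000) (nat_lit 0x0) (nat_lit 0x38001f00100000000400020000000000000000000000000000000000000000) := T_25 (nat_lit 161) (nat_lit 178) (nat_lit 5) (nat_lit 8) (nat_lit 7) L17737 (by decide +kernel)
theorem L17739 : W_25 (nat_lit 14) (nat_lit 0x80006000300000001000080000000000000000000000000000000) (nat_lit 0x0) (nat_lit 0x1001fe00df00778038c01c000e0000000000000000000000000000000000000000) := Q_25 (nat_lit 210) (C_25 L17702 (C_25 L17707 (C_25 L17716 (C_25 L17721 (C_25 L17733 (C_25 L17738 N_25)))))) (by decide +kernel)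
theorem L17740 : W_25 (nat_lit 15) (nat_lit 0x80006000200000001000080000000000000000000000000000000) (nat_lit 0x0) (nat_lit 0x1001fe00df00778038c01d000ec000400000000000000000000000000000000000) := Q_25 (nat_lit 176) (C_25 L17691 (C_25 L15287 (C_25 L17693 (C_25 L17739 N_25)))) (by decide +kernel)
theorem L17741 : W_25 (nat_lit 16) (nat_lit 0x80004000200000001000080000000000000000000000000000000) (nat_lit 0x0) (nat_lit 0x10000f001fe00df0077803bc01d000ec000400000000000000000000000000000000000) := Q_25 (nat_lit 193) (C_25 L17690 (C_25 L6349 (C_25 L6352 (C_25 L17740 (C_25 L6453 N_25))))) (by decide +kernel)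
theorem L17742 : W_25 (nat_lit 2) (nat_lit 0x1c000c0006001700000001000080000000000000000000000000000000) (nat_lit 0x0) (nat_lit 0x300100000000000000000000000000000000000000000000000000000) := D_25 (nat_lit 225) (nat_lit 212) (nat_lit 224) (nat_lit 2) (nat_lit 4) (nat_lit 13) (nat_lit 2) (nat_lit 3) (nat_lit 13) (by decide +kernel)
theorem L17743 : W_25 (nat_lit 3) (nat_lit 0x18000c0006001700000001000080000000000000000000000000000000) (nat_lit 0x0) (nat_lit 0x8000700100000000000000000000000000000000000000000000000000000) := T_25 (nat_lit 226) (nat_lit 243) (nat_lit 5) (nat_lit 6) (nat_lit 10) L17742 (by decide +kernel)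
theorem L17744 : W_25 (nat_lit 4) (nat_lit 0x18000c0006001600000001000080000000000000000000000000000000) (nat_lit 0x0) (nat_lit 0x8000700100000000100008000000000000000000000000000000000000000) := T_25 (nat_lit 176) (nat_lit 159) (nat_lit 7) (nat_lit 6) (nat_lit 9) L17743 (by decide +kernel)
theorem L17745 : W_25 (nat_lit 5) (nat_lit 0x18000c0006000600000001000080000000000000000000000000000000) (nat_lit 0x0) (nat_lit 0x8000700100000001900008000000000000000000000000000000000000000) := T_25 (nat_lit 180) (nat_lit 179) (nat_lit 1) (nat_lit 10) (nat_lit 10) L17744 (by decide +kernel)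
theorem L17746 : W_25 (nat_lit 6) (nat_lit 0x18000c0006000200000001000080000000000000000000000000000000) (nat_lit 0x0) (nat_lit 0x8000700100000001d00028000000000000000000000000000000000000000) := T_25 (nat_lit 178) (nat_lit 161) (nat_lit 6) (nat_lit 7) (nat_lit 13) L17745 (by decide +kernel)
theorem L17747 : W_25 (nat_lit 7) (nat_lit 0x10000c0006000200000001000080000000000000000000000000000000) (nat_lit 0x0) (nat_lit 0x18000f00100000001d00028000000000000000000000000000000000000000) := T_25 (nat_lit 227) (nat_lit 244) (nat_lit 6) (nat_lit 6) (nat_lit 14) L17746 (by decide +kernel)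
theorem L17748 : W_25 (nat_lit 10) (nat_lit 0x10000c0004000200000001000080000000000000000000000000000000) (nat_lit 0x0) (nat_lit 0x100008001e000f0013800b801d00028000000000000000000000000000000000000000) := Q_25 (nat_lit 193) (C_25 L17583 (C_25 L17587 (C_25 L17580 (C_25 L17747 N_25)))) (by decide +kernel)
theorem L17749 : W_25 (nat_lit 6) (nat_lit 0x10000c0004000200000001000080000000000000000000000000000000) (nat_lit 0x0) (nat_lit 0x4000e000130000000500028000000000000000000000000000000000000000) := T_25 (nat_lit 176) (nat_lit 159) (nat_lit 4) (nat_lit 7) (nat_lit 13) L17435 (by decide +kernel)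
theorem L17750 : W_25 (nat_lit 2) (nat_lit 0x20000000080007c001c0004000700000001000080000000000000000000000000000000) (nat_lit 0x0) (nat_lit 0xc000000000002000000000000000000000000000000000000000000000000) := D_25 (nat_lit 243) (nat_lit 193) (nat_lit 242) (nat_lit 5) (nat_lit 6) (nat_lit 10) (nat_lit 1) (nat_lit 8) (nat_lit 13) (by decide +kernel)
theorem L17751 : W_25 (nat_lit 3) (nat_lit 0x200000000800078001c0004000700000001000080000000000000000000000000000000) (nat_lit 0x0) (nat_lit 0xc000600000002000000000000000000000000000000000000000000000000) := T_25 (nat_lit 226) (nat_lit 225) (nat_lit 2) (nat_lit 4) (nat_lit 13) L17750 (by decide +kernel)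
theorem L17752 : W_25 (nat_lit 4) (nat_lit 0x800078001c0004000700000001000080000000000000000000000000000000) (nat_lit 0x0) (nat_lit 0x2000100000c000600000002000000000000000000000000000000000000000000000000) := T_25 (nat_lit 281) (nat_lit 264) (nat_lit 4) (nat_lit 9) (nat_lit 16) L17751 (by decide +kernel)
theorem L17753 : W_25 (nat_lit 5) (nat_lit 0x800078000c0004000700000001000080000000000000000000000000000000) (nat_lit 0x0) (nat_lit 0x2000100000c00060010000a000000000000000000000000000000000000000000000000) := T_25 (nat_lit 212) (nat_lit 195) (nat_lit 7) (nat_lit 8) (nat_lit 10) L17752 (by decide +kernel)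
theorem L17754 : W_25 (nat_lit 6) (nat_lit 0x78000c0004000700000001000080000000000000000000000000000000) (nat_lit 0x0) (nat_lit 0x2000100018c00060010000a000000000000000000000000000000000000000000000000) := T_25 (nat_lit 247) (nat_lit 248) (nat_lit 3) (nat_lit 6) (nat_lit 13) L17753 (by decide +kernel)
theorem L17755 : W_25 (nat_lit 7) (nat_lit 0x38000c0004000700000001000080000000000000000000000000000000) (nat_lit 0x0) (nat_lit 0x2000100018c00c60010000a000000000000000000000000000000000000000000000000) := T_25 (nat_lit 230) (nat_lit 231) (nat_lit 0) (nat_lit 10) (nat_lit 13) L17754 (by decide +kernel)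
theorem L17756 : W_25 (nat_lit 8) (nat_lit 0x18000c0004000700000001000080000000000000000000000000000000) (nat_lit 0x0) (nat_lit 0x200010001cc00e60010000a000000000000000000000000000000000000000000000000) := T_25 (nat_lit 229) (nat_lit 246) (nat_lit 7) (nat_lit 7) (nat_lit 10) L17755 (by decide +kernel)
theorem L17757 : W_25 (nat_lit 9) (nat_lit 0x10000c0004000700000001000080000000000000000000000000000000) (nat_lit 0x0) (nat_lit 0x200010001dc00ee0010000a000000000000000000000000000000000000000000000000) := T_25 (nat_lit 227) (nat_lit 244) (nat_lit 5) (nat_lit 7) (nat_lit 10) L17756 (by decide +kernel)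
theorem L17758 : W_25 (nat_lit 10) (nat_lit 0x10000c0004000600000001000080000000000000000000000000000000) (nat_lit 0x0) (nat_lit 0x200010001dc00ee0010000a000100008000000000000000000000000000000000000000) := T_25 (nat_lit 176) (nat_lit 159) (nat_lit 4) (nat_lit 7) (nat_lit 13) L17757 (by decide +kernel)
theorem L17759 : W_25 (nat_lit 11) (nat_lit 0x10000c0004000200000001000080000000000000000000000000000000) (nat_lit 0x0) (nat_lit 0x200010001dc00ee0010000a000500028000000000000000000000000000000000000000) := T_25 (nat_lit 178) (nat_lit 161) (nat_lit 6) (nat_lit 7) (nat_lit 13) L17758 (by decide +kernel)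
theorem L17760 : W_25 (nat_lit 12) (nat_lit 0x1000080004000200000001000080000000000000000000000000000000) (nat_lit 0x0) (nat_lit 0x210010801de00ef0017800b801d00028000000000000000000000000000000000000000) := Q_25 (nat_lit 210) (C_25 L17568 (C_25 L17748 (C_25 L17749 (C_25 L17759 N_25)))) (by decide +kernel)
theorem L17761 : W_25 (nat_lit 13) (nat_lit 0x80004000200000001000080000000000000000000000000000000) (nat_lit 0x0) (nat_lit 0x21001a801fe00ff0017800b801d00028000000000000000000000000000000000000000) := Q_25 (nat_lit 228) (C_25 L6064 (C_25 L17760 (C_25 L6226 (C_25 L6229 N_25)))) (by decide +kernel)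
theorem L17762 : W_25 (nat_lit 2) (nat_lit 0x1000080004001f00000001000080000000000000000000000000000000) (nat_lit 0x0) (nat_lit 0x70000000000000000000000000000000000000000000000000) := D_25 (nat_lit 197) (nat_lit 196) (nat_lit 198) (nat_lit 3) (nat_lit 6) (nat_lit 10) (nat_lit 3) (nat_lit 7) (nat_lit 10) (by decide +kernel)
theorem L17763 : W_25 (nat_lit 3) (nat_lit 0x1000080004001e00000001000080000000000000000000000000000000) (nat_lit 0x0) (nat_lit 0x70000100008000000000000000000000000000000000000000) := T_25 (nat_lit 176) (nat_lit 159) (nat_lit 4) (nat_lit 7) (nat_lit 13) L17762 (by decide +kernel)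
theorem L17764 : W_25 (nat_lit 4) (nat_lit 0x1000080004000e00000001000080000000000000000000000000000000) (nat_lit 0x0) (nat_lit 0x72001100008000000000000000000000000000000000000000) := T_25 (nat_lit 180) (nat_lit 193) (nat_lit 1) (nat_lit 10) (nat_lit 10) L17763 (by decide +kernel)
theorem L17765 : W_25 (nat_lit 2) (nat_lit 0x3000080004003e00000001000080000000000000000000000000000000) (nat_lit 0x0) (nat_lit 0xe0000000000000000000000000000000000000000000000000) := D_25 (nat_lit 198) (nat_lit 197) (nat_lit 199) (nat_lit 3) (nat_lit 7) (nat_lit 10) (nat_lit 3) (nat_lit 8) (nat_lit 10) (by decide +kernel)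
theorem L17766 : W_25 (nat_lit 3) (nat_lit 0x3000080004001e00000001000080000000000000000000000000000000) (nat_lit 0x0) (nat_lit 0xe8002000000000000000000000000000000000000000000000) := T_25 (nat_lit 181) (nat_lit 195) (nat_lit 1) (nat_lit 11) (nat_lit 10) L17765 (by decide +kernel)
theorem L17767 : W_25 (nat_lit 4) (nat_lit 0x3000080004000e00000001000080000000000000000000000000000000) (nat_lit 0x0) (nat_lit 0xea003000000000000000000000000000000000000000000000) := T_25 (nat_lit 180) (nat_lit 193) (nat_lit 1) (nat_lit 10) (nat_lit 10) L17766 (by decide +kernel)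
theorem L17768 : W_25 (nat_lit 5) (nat_lit 0x1000080004000e00000001000080000000000000000000000000000000) (nat_lit 0x0) (nat_lit 0x400020000000ea003000000000000000000000000000000000000000000000) := T_25 (nat_lit 229) (nat_lit 246) (nat_lit 7) (nat_lit 7) (nat_lit 10) L17767 (by decide +kernel)
theorem L17769 : W_25 (nat_lit 6) (nat_lit 0x1000080004000e00000001000080000000000000000000000000000000) (nat_lit 0x0) (nat_lit 0x400020003000380001000c8000000000000000000000000000000000000000) := T_25 (nat_lit 176) (nat_lit 159) (nat_lit 4) (nat_lit 7) (nat_lit 13) L17439 (by decide +kernel)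
theorem L17770 : W_25 (nat_lit 2) (nat_lit 0x3000080004001f00000001000080000000000000000000000000000000) (nat_lit 0x0) (nat_lit 0x1c0000000000000000000000000000000000000000) := D_25 (nat_lit 163) (nat_lit 162) (nat_lit 164) (nat_lit 2) (nat_lit 6) (nat_lit 10) (nat_lit 2) (nat_lit 7) (nat_lit 10) (by decide +kernel)
theorem L17771 : W_25 (nat_lit 3) (nat_lit 0x3000080004001e00000001000080000000000000000000000000000000) (nat_lit 0x0) (nat_lit 0x1001c8000000000000000000000000000000000000000) := T_25 (nat_lit 176) (nat_lit 159) (nat_lit 4) (nat_lit 7) (nat_lit 13) L17770 (by decide +kernel)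
theorem L17772 : W_25 (nat_lit 4) (nat_lit 0x3000080004000e00000001000080000000000000000000000000000000) (nat_lit 0x0) (nat_lit 0x20011001c8000000000000000000000000000000000000000) := T_25 (nat_lit 180) (nat_lit 193) (nat_lit 1) (nat_lit 10) (nat_lit 10) L17771 (by decide +kernel)
theorem L17773 : W_25 (nat_lit 5) (nat_lit 0x1000080004000e00000001000080000000000000000000000000000000) (nat_lit 0x0) (nat_lit 0x400020000000020011001c8000000000000000000000000000000000000000) := T_25 (nat_lit 229) (nat_lit 246) (nat_lit 7) (nat_lit 7) (nat_lit 10) L17772 (by decide +kernel)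
theorem L17774 : W_25 (nat_lit 7) (nat_lit 0x1000080004000600000001000080000000000000000000000000000000) (nat_lit 0x0) (nat_lit 0x400020003000fa0039001c8000000000000000000000000000000000000000) := Q_25 (nat_lit 179) (C_25 L17764 (C_25 L17768 (C_25 L17769 (C_25 L17773 N_25)))) (by decide +kernel)
theorem L17775 : W_25 (nat_lit 8) (nat_lit 0x1000080004000200000001000080000000000000000000000000000000) (nat_lit 0x0) (nat_lit 0x400020003000fa003d001e8000000000000000000000000000000000000000) := T_25 (nat_lit 178) (nat_lit 161) (nat_lit 6) (nat_lit 7) (nat_lit 13) L17774 (by decide +kernel)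
theorem L17776 : W_25 (nat_lit 2) (nat_lit 0x20001000080004000600000001000080000000000000000000000000000000) (nat_lit 0x0) (nat_lit 0x2000100008000000000000000000000000000000000000000) := D_25 (nat_lit 176) (nat_lit 159) (nat_lit 193) (nat_lit 4) (nat_lit 7) (nat_lit 13) (nat_lit 4) (nat_lit 7) (nat_lit 14) (by decide +kernel)
theorem L17777 : W_25 (nat_lit 3) (nat_lit 0x1000080004000600000001000080000000000000000000000000000000) (nat_lit 0x0) (nat_lit 0x2000000000000a000100008000000000000000000000000000000000000000) := T_25 (nat_lit 245) (nat_lit 195) (nat_lit 6) (nat_lit 7) (nat_lit 14) L17776 (by decide +kernel)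
theorem L17778 : W_25 (nat_lit 4) (nat_lit 0x1000080004000200000001000080000000000000000000000000000000) (nat_lit 0x0) (nat_lit 0x2000000000000a000500028000000000000000000000000000000000000000) := T_25 (nat_lit 178) (nat_lit 161) (nat_lit 6) (nat_lit 7) (nat_lit 13) L17777 (by decide +kernel)
theorem L17779 : W_25 (nat_lit 9) (nat_lit 0x80004000200000001000080000000000000000000000000000000) (nat_lit 0x0) (nat_lit 0x8000600030003000fa003d001e8000000000000000000000000000000000000000) := Q_25 (nat_lit 228) (C_25 L6064 (C_25 L17775 (C_25 L6226 (C_25 L17778 N_25)))) (by decide +kernel)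
theorem L17780 : W_25 (nat_lit 2) (nat_lit 0x1000380016000f00000001000080000000000000000000000000000000) (nat_lit 0x0) (nat_lit 0x20000000000000000c0000000000000000000000000000000000000000) := D_25 (nat_lit 162) (nat_lit 229) (nat_lit 163) (nat_lit 5) (nat_lit 9) (nat_lit 9) (nat_lit 2) (nat_lit 6) (nat_lit 10) (by decide +kernel)
theorem L17781 : W_25 (nat_lit 3) (nat_lit 0x1000380006000f00000001000080000000000000000000000000000000) (nat_lit 0x0) (nat_lit 0x20000000300000000c0000000000000000000000000000000000000000) := T_25 (nat_lit 196) (nat_lit 197) (nat_lit 3) (nat_lit 6) (nat_lit 10) L17780 (by decide +kernel)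
theorem L17782 : W_25 (nat_lit 4) (nat_lit 0x1000180006000f00000001000080000000000000000000000000000000) (nat_lit 0x0) (nat_lit 0x20006000300000000c0000000000000000000000000000000000000000) := T_25 (nat_lit 213) (nat_lit 214) (nat_lit 0) (nat_lit 10) (nat_lit 12) L17781 (by decide +kernel)
theorem L17783 : W_25 (nat_lit 5) (nat_lit 0x1000180006000700000001000080000000000000000000000000000000) (nat_lit 0x0) (nat_lit 0x20006000300018000c0000000000000000000000000000000000000000) := T_25 (nat_lit 179) (nat_lit 180) (nat_lit 1) (nat_lit 10) (nat_lit 10) L17782 (by decide +kernel)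
theorem L17784 : W_25 (nat_lit 6) (nat_lit 0x1000180006000600000001000080000000000000000000000000000000) (nat_lit 0x0) (nat_lit 0x20006000300019000c8000000000000000000000000000000000000000) := T_25 (nat_lit 176) (nat_lit 159) (nat_lit 4) (nat_lit 7) (nat_lit 13) L17783 (by decide +kernel)
theorem L17785 : W_25 (nat_lit 7) (nat_lit 0x1000180006000200000001000080000000000000000000000000000000) (nat_lit 0x0) (nat_lit 0x2000600030001d000e8000000000000000000000000000000000000000) := T_25 (nat_lit 178) (nat_lit 161) (nat_lit 6) (nat_lit 7) (nat_lit 13) L17784 (by decide +kernel)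
theorem L17786 : W_25 (nat_lit 2) (nat_lit 0x1c001e0016000f00000001000080000000000000000000000000000000) (nat_lit 0x0) (nat_lit 0x6000010000000000000000000000000000000000000000000000000000) := D_25 (nat_lit 229) (nat_lit 230) (nat_lit 208) (nat_lit 3) (nat_lit 5) (nat_lit 12) (nat_lit 3) (nat_lit 4) (nat_lit 12) (by decide +kernel)
theorem L17787 : W_25 (nat_lit 3) (nat_lit 0x1c001c0016000f00000001000080000000000000000000000000000000) (nat_lit 0x0) (nat_lit 0x6000030008000000000000000000000000000000000000000000000000) := T_25 (nat_lit 209) (nat_lit 195) (nat_lit 2) (nat_lit 5) (nat_lit 12) L17786 (by decide +kernel)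
theorem L17788 : W_25 (nat_lit 4) (nat_lit 0x1c001c0006000f00000001000080000000000000000000000000000000) (nat_lit 0x0) (nat_lit 0x6000030038000000000000000000000000000000000000000000000000) := T_25 (nat_lit 196) (nat_lit 197) (nat_lit 3) (nat_lit 6) (nat_lit 10) L17787 (by decide +kernel)
theorem L17789 : W_25 (nat_lit 5) (nat_lit 0x1c00180006000f00000001000080000000000000000000000000000000) (nat_lit 0x0) (nat_lit 0x8006000070038000000000000000000000000000000000000000000000000) := T_25 (nat_lit 210) (nat_lit 243) (nat_lit 5) (nat_lit 6) (nat_lit 10) L17788 (by decide +kernel)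
theorem L17790 : W_25 (nat_lit 6) (nat_lit 0x1c00180006000700000001000080000000000000000000000000000000) (nat_lit 0x0) (nat_lit 0x8006000070038001800000000000000000000000000000000000000000000) := T_25 (nat_lit 179) (nat_lit 180) (nat_lit 1) (nat_lit 10) (nat_lit 10) L17789 (by decide +kernel)
theorem L17791 : W_25 (nat_lit 7) (nat_lit 0x1800180006000700000001000080000000000000000000000000000000) (nat_lit 0x0) (nat_lit 0x8006600070038001800000000000000000000000000000000000000000000) := T_25 (nat_lit 226) (nat_lit 225) (nat_lit 2) (nat_lit 4) (nat_lit 13) L17790 (by decide +kernel)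
theorem L17792 : W_25 (nat_lit 8) (nat_lit 0x1000180006000700000001000080000000000000000000000000000000) (nat_lit 0x0) (nat_lit 0x18006e00070038001800000000000000000000000000000000000000000000) := T_25 (nat_lit 227) (nat_lit 244) (nat_lit 5) (nat_lit 7) (nat_lit 10) L17791 (by decide +kernel)
theorem L17793 : W_25 (nat_lit 9) (nat_lit 0x1000180006000300000001000080000000000000000000000000000000) (nat_lit 0x0) (nat_lit 0x18006e00070038001c00020000000000000000000000000000000000000000) := T_25 (nat_lit 178) (nat_lit 161) (nat_lit 6) (nat_lit 7) (nat_lit 13) L17792 (by decide +kernel)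
theorem L17794 : W_25 (nat_lit 10) (nat_lit 0x1000180006000200000001000080000000000000000000000000000000) (nat_lit 0x0) (nat_lit 0x18006e00070038001d00028000000000000000000000000000000000000000) := T_25 (nat_lit 176) (nat_lit 159) (nat_lit 4) (nat_lit 7) (nat_lit 13) L17793 (by decide +kernel)
theorem L17795 : W_25 (nat_lit 11) (nat_lit 0x1000080006000200000001000080000000000000000000000000000000) (nat_lit 0x0) (nat_lit 0x18006e00770038001d000e8000000000000000000000000000000000000000) := Q_25 (nat_lit 212) (C_25 L17785 (C_25 L17683 (C_25 L6307 (C_25 L17794 N_25)))) (by decide +kernel)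
theorem L17796 : W_25 (nat_lit 12) (nat_lit 0x1000080004000200000001000080000000000000000000000000000000) (nat_lit 0x0) (nat_lit 0x18006e0077003b801d000e8000000000000000000000000000000000000000) := Q_25 (nat_lit 193) (C_25 L17689 (C_25 L6640 (C_25 L6287 (C_25 L17795 N_25)))) (by decide +kernel)
theorem L17797 : W_25 (nat_lit 13) (nat_lit 0x80004000200000001000080000000000000000000000000000000) (nat_lit 0x0) (nat_lit 0x200038007e0077003b801d000e8000000000000000000000000000000000000000) := Q_25 (nat_lit 228) (C_25 L6067 (C_25 L17796 (C_25 L6229 (C_25 L17778 N_25)))) (by decide +kernel)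
theorem L17798 : W_25 (nat_lit 17) (nat_lit 0x4000200000001000080000000000000000000000000000000) (nat_lit 0x0) (nat_lit 0x3d001f801ff00ff03ffc0fbc0fd601ee000500000000000000000000000000000000000) := Q_25 (nat_lit 211) (C_25 L17392 (C_25 L17430 (C_25 L17431 (C_25 L17452 (C_25 L17565 (C_25 L17636 (C_25 L17670 (C_25 L17741 (C_25 L17761 (C_25 L17779 (C_25 L17797 N_25))))))))))) (by decide +kernel)
theorem L17800 : W_25 (nat_lit 2) (nat_lit 0x44001e0005000200000001000080000000000000000000000000000000) (nat_lit 0x0) (nat_lit 0x8800200000000000000000000000000000000000000000000000000000) := D_25 (nat_lit 213) (nat_lit 231) (nat_lit 227) (nat_lit 3) (nat_lit 6) (nat_lit 12) (nat_lit 1) (nat_lit 9) (nat_lit 12) (by decide +kernel)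
theorem L17801 : W_25 (nat_lit 3) (nat_lit 0x40001e0005000200000001000080000000000000000000000000000000) (nat_lit 0x0) (nat_lit 0x8e00200000000000000000000000000000000000000000000000000000) := T_25 (nat_lit 226) (nat_lit 225) (nat_lit 1) (nat_lit 8) (nat_lit 12) L17800 (by decide +kernel)
theorem L17802 : W_25 (nat_lit 4) (nat_lit 0x1e0005000200000001000080000000000000000000000000000000) (nat_lit 0x0) (nat_lit 0xee00200000000000000000000000000000000000000000000000000000) := T_25 (nat_lit 230) (nat_lit 229) (nat_lit 3) (nat_lit 5) (nat_lit 12) L17801 (by decide +kernel)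
theorem L17803 : W_25 (nat_lit 5) (nat_lit 0x1e0004000200000001000080000000000000000000000000000000) (nat_lit 0x0) (nat_lit 0xee00200001800000000000000000000000000000000000000000000000) := T_25 (nat_lit 192) (nat_lit 191) (nat_lit 0) (nat_lit 8) (nat_lit 12) L17802 (by decide +kernel)
theorem L17804 : W_25 (nat_lit 2) (nat_lit 0x8000000024007e0004000200000001000080000000000000000000000000000000) (nat_lit 0x0) (nat_lit 0x70000000000000000000000000000000000000000000000000) := D_25 (nat_lit 197) (nat_lit 196) (nat_lit 198) (nat_lit 2) (nat_lit 6) (nat_lit 12) (nat_lit 2) (nat_lit 7) (nat_lit 12) (by decide +kernel)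
theorem L17805 : W_25 (nat_lit 3) (nat_lit 0x8000000024003e0004000200000001000080000000000000000000000000000000) (nat_lit 0x0) (nat_lit 0x400072000000000000000000000000000000000000000000000000) := T_25 (nat_lit 214) (nat_lit 193) (nat_lit 0) (nat_lit 10) (nat_lit 12) L17804 (by decide +kernel)
theorem L17806 : W_25 (nat_lit 4) (nat_lit 0x8000000024001e0004000200000001000080000000000000000000000000000000) (nat_lit 0x0) (nat_lit 0x800600072000000000000000000000000000000000000000000000000) := T_25 (nat_lit 213) (nat_lit 227) (nat_lit 1) (nat_lit 9) (nat_lit 12) L17805 (by decide +kernel)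
theorem L17807 : W_25 (nat_lit 5) (nat_lit 0x24001e0004000200000001000080000000000000000000000000000000) (nat_lit 0x0) (nat_lit 0x800040000800600072000000000000000000000000000000000000000000000000) := T_25 (nat_lit 263) (nat_lit 246) (nat_lit 4) (nat_lit 8) (nat_lit 15) L17806 (by decide +kernel)
theorem L17808 : W_25 (nat_lit 6) (nat_lit 0x20001e0004000200000001000080000000000000000000000000000000) (nat_lit 0x0) (nat_lit 0x800040000e00600072000000000000000000000000000000000000000000000000) := T_25 (nat_lit 226) (nat_lit 225) (nat_lit 1) (nat_lit 8) (nat_lit 12) L17807 (by decide +kernel)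
theorem L17809 : W_25 (nat_lit 7) (nat_lit 0x1e0004000200000001000080000000000000000000000000000000) (nat_lit 0x0) (nat_lit 0x800040006e00600072000000000000000000000000000000000000000000000000) := T_25 (nat_lit 229) (nat_lit 230) (nat_lit 3) (nat_lit 5) (nat_lit 12) L17808 (by decide +kernel)
theorem L17810 : W_25 (nat_lit 12) (nat_lit 0xe0004000200000001000080000000000000000000000000000000) (nat_lit 0x0) (nat_lit 0x90004800efc071c073c0014000a000000000000000000000000000000000000000) := Q_25 (nat_lit 212) (C_25 L6107 (C_25 L6102 (C_25 L17803 (C_25 L17809 (C_25 L6099 (C_25 L6110 N_25)))))) (by decide +kernel)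
theorem L17811 : W_25 (nat_lit 8) (nat_lit 0xe0004000200000001000080000000000000000000000000000000) (nat_lit 0x0) (nat_lit 0x80004000ee0070007b800000000000000000000000000000000000000000000000) := Q_25 (nat_lit 212) (C_25 L6110 (C_25 L6102 (C_25 L17803 (C_25 L17809 (C_25 L6120 N_25))))) (by decide +kernel)
theorem L17812 : W_25 (nat_lit 13) (nat_lit 0xc0004000200000001000080000000000000000000000000000000) (nat_lit 0x0) (nat_lit 0x90004800efc073c07be0014000a000000000000000000000000000000000000000) := Q_25 (nat_lit 209) (C_25 L17810 (C_25 L6114 (C_25 L6118 (C_25 L17811 (C_25 L6124 N_25))))) (by decide +kernel)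
theorem L17813 : W_25 (nat_lit 2) (nat_lit 0xc0004000200000001000080000000000000000000000000000000) (nat_lit 0x0) (nat_lit 0x800000000000000010000800000000000000000000000000000000000) := D_25 (nat_lit 160) (nat_lit 227) (nat_lit 143) (nat_lit 5) (nat_lit 7) (nat_lit 9) (nat_lit 6) (nat_lit 7) (nat_lit 11) (by decide +kernel)
theorem L17816 : W_25 (nat_lit 5) (nat_lit 0x1c0004000200000001000080000000000000000000000000000000) (nat_lit 0x0) (nat_lit 0xe00023001b800000000000000000000000000000000000000000000000) := Q_25 (nat_lit 209) (C_25 L17815 (C_25 L6110 N_25)) (by decide +kernel)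
theorem L17817 : W_25 (nat_lit 2) (nat_lit 0x1f0004000200018001000080000000000000000000000000000000) (nat_lit 0x0) (nat_lit 0x1c00000000000000000000000000000000000000000000000) := D_25 (nat_lit 191) (nat_lit 192) (nat_lit 190) (nat_lit 0) (nat_lit 8) (nat_lit 12) (nat_lit 0) (nat_lit 7) (nat_lit 12) (by decide +kernel)
theorem L17818 : W_25 (nat_lit 3) (nat_lit 0x1e0004000200018001000080000000000000000000000000000000) (nat_lit 0x0) (nat_lit 0x10009c00000000000000000000000000000000000000000000000) := T_25 (nat_lit 208) (nat_lit 195) (nat_lit 2) (nat_lit 4) (nat_lit 12) L17817 (by decide +kernel)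
theorem L17819 : W_25 (nat_lit 4) (nat_lit 0x1e0004000200010001000080000000000000000000000000000000) (nat_lit 0x0) (nat_lit 0x10009c00000008000400000000000000000000000000000000000) := T_25 (nat_lit 159) (nat_lit 142) (nat_lit 4) (nat_lit 7) (nat_lit 12) L17818 (by decide +kernel)
theorem L17820 : W_25 (nat_lit 5) (nat_lit 0x1e0004000200000001000080000000000000000000000000000000) (nat_lit 0x0) (nat_lit 0x10009c00000018000c00000000000000000000000000000000000) := T_25 (nat_lit 160) (nat_lit 143) (nat_lit 6) (nat_lit 7) (nat_lit 11) L17819 (by decide +kernel)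
theorem L17821 : W_25 (nat_lit 2) (nat_lit 0x4001e0005000200018001000080000000000000000000000000000000) (nat_lit 0x0) (nat_lit 0x200002000100000000000000000000000000000000000000000000) := D_25 (nat_lit 193) (nat_lit 176) (nat_lit 213) (nat_lit 5) (nat_lit 6) (nat_lit 9) (nat_lit 0) (nat_lit 9) (nat_lit 12) (by decide +kernel)
theorem L17822 : W_25 (nat_lit 3) (nat_lit 0x4001e0004000200018001000080000000000000000000000000000000) (nat_lit 0x0) (nat_lit 0x200003800100000000000000000000000000000000000000000000) := T_25 (nat_lit 192) (nat_lit 191) (nat_lit 0) (nat_lit 8) (nat_lit 12) L17821 (by decide +kernel)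
theorem L17823 : W_25 (nat_lit 4) (nat_lit 0x4001e0004000200010001000080000000000000000000000000000000) (nat_lit 0x0) (nat_lit 0x200003800100008000400000000000000000000000000000000000) := T_25 (nat_lit 159) (nat_lit 142) (nat_lit 4) (nat_lit 7) (nat_lit 12) L17822 (by decide +kernel)
theorem L17824 : W_25 (nat_lit 5) (nat_lit 0x4001e0004000200000001000080000000000000000000000000000000) (nat_lit 0x0) (nat_lit 0x200003800100018000c00000000000000000000000000000000000) := T_25 (nat_lit 160) (nat_lit 143) (nat_lit 6) (nat_lit 7) (nat_lit 11) L17823 (by decide +kernel)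
theorem L17825 : W_25 (nat_lit 6) (nat_lit 0x1e0004000200000001000080000000000000000000000000000000) (nat_lit 0x0) (nat_lit 0x600200003800100018000c00000000000000000000000000000000000) := T_25 (nat_lit 226) (nat_lit 225) (nat_lit 1) (nat_lit 8) (nat_lit 12) L17824 (by decide +kernel)
theorem L17826 : W_25 (nat_lit 7) (nat_lit 0x1c0004000200000001000080000000000000000000000000000000) (nat_lit 0x0) (nat_lit 0x60023001bc00100018000c00000000000000000000000000000000000) := Q_25 (nat_lit 209) (C_25 L17815 (C_25 L17820 (C_25 L17825 N_25))) (by decide +kernel)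
theorem L17827 : W_25 (nat_lit 8) (nat_lit 0xc0004000200000001000080000000000000000000000000000000) (nat_lit 0x0) (nat_lit 0x80004000e60033001bc00100018000c00000000000000000000000000000000000) := Q_25 (nat_lit 212) (C_25 L17814 (C_25 L6749 (C_25 L17816 (C_25 L17826 N_25)))) (by decide +kernel)
theorem L17828 : W_25 (nat_lit 14) (nat_lit 0x80004000200000001000080000000000000000000000000000000) (nat_lit 0x0) (nat_lit 0x90004800efc077c07be0014001a000c00000000000000000000000000000000000) := Q_25 (nat_lit 210) (C_25 L17812 (C_25 L17813 (C_25 L17827 N_25))) (by decide +kernel)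
theorem L17829 : W_25 (nat_lit 2) (nat_lit 0x2000600010000d002c000200018001000080000000000000000000000000000000) (nat_lit 0x0) (nat_lit 0x4000400000000000000002000000000000000000000000000000000000000000000000) := D_25 (nat_lit 262) (nat_lit 193) (nat_lit 278) (nat_lit 4) (nat_lit 7) (nat_lit 15) (nat_lit 5) (nat_lit 7) (nat_lit 12) (by decide +kernel)
theorem L17830 : W_25 (nat_lit 3) (nat_lit 0x600010000d002c000200018001000080000000000000000000000000000000) (nat_lit 0x0) (nat_lit 0x4000600010000000000002000000000000000000000000000000000000000000000000) := T_25 (nat_lit 261) (nat_lit 244) (nat_lit 5) (nat_lit 7) (nat_lit 11) L17829 (by decide +kernel)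
theorem L17831 : W_25 (nat_lit 4) (nat_lit 0x600010000d000c000200018001000080000000000000000000000000000000) (nat_lit 0x0) (nat_lit 0x4000600010000000000032000000000000000000000000000000000000000000000000) := T_25 (nat_lit 197) (nat_lit 196) (nat_lit 1) (nat_lit 10) (nat_lit 11) L17830 (by decide +kernel)
theorem L17832 : W_25 (nat_lit 5) (nat_lit 0x600010000c000c000200018001000080000000000000000000000000000000) (nat_lit 0x0) (nat_lit 0x4000600010000000030032000000000000000000000000000000000000000000000000) := T_25 (nat_lit 208) (nat_lit 209) (nat_lit 2) (nat_lit 4) (nat_lit 12) L17831 (by decide +kernel)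
theorem L17833 : W_25 (nat_lit 6) (nat_lit 0x600010000c0004000200018001000080000000000000000000000000000000) (nat_lit 0x0) (nat_lit 0x400060001000000003003a000400000000000000000000000000000000000000000000) := T_25 (nat_lit 195) (nat_lit 178) (nat_lit 6) (nat_lit 7) (nat_lit 14) L17832 (by decide +kernel)
theorem L17834 : W_25 (nat_lit 7) (nat_lit 0x400010000c0004000200018001000080000000000000000000000000000000) (nat_lit 0x0) (nat_lit 0x4000e0003000000003003a000400000000000000000000000000000000000000000000) := T_25 (nat_lit 245) (nat_lit 263) (nat_lit 7) (nat_lit 7) (nat_lit 11) L17833 (by decide +kernel)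
theorem L17835 : W_25 (nat_lit 8) (nat_lit 0x10000c0004000200018001000080000000000000000000000000000000) (nat_lit 0x0) (nat_lit 0x4000e0007000200003003a000400000000000000000000000000000000000000000000) := T_25 (nat_lit 246) (nat_lit 229) (nat_lit 7) (nat_lit 7) (nat_lit 10) L17834 (by decide +kernel)
theorem L17836 : W_25 (nat_lit 9) (nat_lit 0xc0004000200018001000080000000000000000000000000000000) (nat_lit 0x0) (nat_lit 0x4000e0007000300003003a000500000000000000000000000000000000000000000000) := T_25 (nat_lit 228) (nat_lit 176) (nat_lit 4) (nat_lit 7) (nat_lit 13) L17835 (by decide +kernel)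
theorem L17837 : W_25 (nat_lit 10) (nat_lit 0xc0004000200010001000080000000000000000000000000000000) (nat_lit 0x0) (nat_lit 0x4000e0007000300003003a000500008000400000000000000000000000000000000000) := T_25 (nat_lit 159) (nat_lit 142) (nat_lit 4) (nat_lit 7) (nat_lit 12) L17836 (by decide +kernel)
theorem L17838 : W_25 (nat_lit 11) (nat_lit 0x80004000200010001000080000000000000000000000000000000) (nat_lit 0x0) (nat_lit 0x4000e0007000380007003a000500008000400000000000000000000000000000000000) := T_25 (nat_lit 210) (nat_lit 227) (nat_lit 5) (nat_lit 7) (nat_lit 9) L17837 (by decide +kernel)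
theorem L17839 : W_25 (nat_lit 12) (nat_lit 0x80004000200000001000080000000000000000000000000000000) (nat_lit 0x0) (nat_lit 0x4000e0007000380007003a000500018000c00000000000000000000000000000000000) := T_25 (nat_lit 160) (nat_lit 143) (nat_lit 6) (nat_lit 7) (nat_lit 11) L17838 (by decide +kernel)
theorem L17843 : W_25 (nat_lit 5) (nat_lit 0x180004000200018001000080000000000000000000000000000000) (nat_lit 0x0) (nat_lit 0x600030001800000008000500000000000000000000000000000000000000000000) := T_25 (nat_lit 228) (nat_lit 176) (nat_lit 4) (nat_lit 7) (nat_lit 13) L17842 (by decide +kernel)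
theorem L17844 : W_25 (nat_lit 6) (nat_lit 0x80004000200018001000080000000000000000000000000000000) (nat_lit 0x0) (nat_lit 0x600030003800100008000500000000000000000000000000000000000000000000) := T_25 (nat_lit 212) (nat_lit 229) (nat_lit 7) (nat_lit 7) (nat_lit 9) L17843 (by decide +kernel)
theorem L17845 : W_25 (nat_lit 7) (nat_lit 0x80004000200010001000080000000000000000000000000000000) (nat_lit 0x0) (nat_lit 0x600030003800100008000500008000400000000000000000000000000000000000) := T_25 (nat_lit 159) (nat_lit 142) (nat_lit 4) (nat_lit 7) (nat_lit 12) L17844 (by decide +kernel)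
theorem L17846 : W_25 (nat_lit 8) (nat_lit 0x80004000200000001000080000000000000000000000000000000) (nat_lit 0x0) (nat_lit 0x600030003800100008000500018000c00000000000000000000000000000000000) := T_25 (nat_lit 160) (nat_lit 143) (nat_lit 6) (nat_lit 7) (nat_lit 11) L17845 (by decide +kernel)
theorem L17849 : W_25 (nat_lit 15) (nat_lit 0x4000200000001000080000000000000000000000000000000) (nat_lit 0x0) (nat_lit 0x4000f0007f00ffc07fc07be0054001a000c00000000000000000000000000000000000) := Q_25 (nat_lit 211) (C_25 L17431 (C_25 L17799 (C_25 L17828 (C_25 L17839 (C_25 L17846 (C_25 L17847 (C_25 L17848 N_25))))))) (by decide +kernel)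
theorem L17850 : W_25 (nat_lit 5) (nat_lit 0x4000200010001000080000000000000000000000000000000) (nat_lit 0x0) (nat_lit 0x40003000180000000100028000400000000000000000000000000000000000) := T_25 (nat_lit 211) (nat_lit 161) (nat_lit 6) (nat_lit 7) (nat_lit 12) L6152 (by decide +kernel)
theorem L17851 : W_25 (nat_lit 6) (nat_lit 0x4000200000001000080000000000000000000000000000000) (nat_lit 0x0) (nat_lit 0x40003000180000000100038000c00000000000000000000000000000000000) := T_25 (nat_lit 160) (nat_lit 143) (nat_lit 6) (nat_lit 7) (nat_lit 11) L17850 (by decide +kernel)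
theorem L17852 : W_25 (nat_lit 2) (nat_lit 0x3e001200010001000080000000000000000000000000000000) (nat_lit 0x0) (nat_lit 0xe00000000000000000000000000000000000000000000000000000) := D_25 (nat_lit 214) (nat_lit 215) (nat_lit 213) (nat_lit 3) (nat_lit 7) (nat_lit 11) (nat_lit 3) (nat_lit 6) (nat_lit 11) (by decide +kernel)
theorem L17853 : W_25 (nat_lit 3) (nat_lit 0x3c001200010001000080000000000000000000000000000000) (nat_lit 0x0) (nat_lit 0xe00002000800000000000000000000000000000000000000000000) := T_25 (nat_lit 193) (nat_lit 179) (nat_lit 2) (nat_lit 6) (nat_lit 11) L17852 (by decide +kernel)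
theorem L17854 : W_25 (nat_lit 4) (nat_lit 0x3c000200010001000080000000000000000000000000000000) (nat_lit 0x0) (nat_lit 0xe00002003800000000000000000000000000000000000000000000) := T_25 (nat_lit 180) (nat_lit 181) (nat_lit 2) (nat_lit 7) (nat_lit 11) L17853 (by decide +kernel)
theorem L17855 : W_25 (nat_lit 5) (nat_lit 0x1c000200010001000080000000000000000000000000000000) (nat_lit 0x0) (nat_lit 0xe00022003900000000000000000000000000000000000000000000) := T_25 (nat_lit 197) (nat_lit 176) (nat_lit 0) (nat_lit 10) (nat_lit 11) L17854 (by decide +kernel)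
theorem L17856 : W_25 (nat_lit 6) (nat_lit 0x1c000200000001000080000000000000000000000000000000) (nat_lit 0x0) (nat_lit 0xe00022003900010000800000000000000000000000000000000000) := T_25 (nat_lit 160) (nat_lit 143) (nat_lit 6) (nat_lit 7) (nat_lit 11) L17855 (by decide +kernel)
theorem L17857 : W_25 (nat_lit 4) (nat_lit 0x1c001200010001000080000000000000000000000000000000) (nat_lit 0x0) (nat_lit 0xe00022002800000000000000000000000000000000000000000000) := T_25 (nat_lit 197) (nat_lit 181) (nat_lit 2) (nat_lit 7) (nat_lit 11) L17853 (by decide +kernel)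
theorem L17858 : W_25 (nat_lit 5) (nat_lit 0x1c001200000001000080000000000000000000000000000000) (nat_lit 0x0) (nat_lit 0xe00022002800010000800000000000000000000000000000000000) := T_25 (nat_lit 160) (nat_lit 143) (nat_lit 6) (nat_lit 7) (nat_lit 11) L17857 (by decide +kernel)
theorem L17859 : W_25 (nat_lit 2) (nat_lit 0x44001e001200000001000080000000000000000000000000000000) (nat_lit 0x0) (nat_lit 0x800020002000000000000000000000000000000000000000000000) := D_25 (nat_lit 197) (nat_lit 181) (nat_lit 215) (nat_lit 2) (nat_lit 7) (nat_lit 11) (nat_lit 3) (nat_lit 7) (nat_lit 11) (by decide +kernel)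
theorem L17860 : W_25 (nat_lit 3) (nat_lit 0x4001e001200000001000080000000000000000000000000000000) (nat_lit 0x0) (nat_lit 0xe00020002000000000000000000000000000000000000000000000) := T_25 (nat_lit 214) (nat_lit 213) (nat_lit 3) (nat_lit 6) (nat_lit 11) L17859 (by decide +kernel)
theorem L17861 : W_25 (nat_lit 4) (nat_lit 0x1e001200000001000080000000000000000000000000000000) (nat_lit 0x0) (nat_lit 0xe60020002000000000000000000000000000000000000000000000) := T_25 (nat_lit 210) (nat_lit 209) (nat_lit 1) (nat_lit 9) (nat_lit 11) L17860 (by decide +kernel)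
theorem L17862 : W_25 (nat_lit 5) (nat_lit 0x1c001200000001000080000000000000000000000000000000) (nat_lit 0x0) (nat_lit 0xe60022002800000000000000000000000000000000000000000000) := T_25 (nat_lit 193) (nat_lit 179) (nat_lit 2) (nat_lit 6) (nat_lit 11) L17861 (by decide +kernel)
theorem L17865 : W_25 (nat_lit 4) (nat_lit 0x3c001200010001000080000000000000000000000000000000) (nat_lit 0x0) (nat_lit 0x4000e00002000000080004000000000000000000000000000000000000) := T_25 (nat_lit 214) (nat_lit 215) (nat_lit 3) (nat_lit 7) (nat_lit 11) L17864 (by decide +kernel)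
theorem L17866 : W_25 (nat_lit 5) (nat_lit 0x1c001200010001000080000000000000000000000000000000) (nat_lit 0x0) (nat_lit 0x4000e00022002000080004000000000000000000000000000000000000) := T_25 (nat_lit 197) (nat_lit 181) (nat_lit 2) (nat_lit 7) (nat_lit 11) L17865 (by decide +kernel)
theorem L17867 : W_25 (nat_lit 6) (nat_lit 0x1c001200000001000080000000000000000000000000000000) (nat_lit 0x0) (nat_lit 0x4000e00022002000090004800000000000000000000000000000000000) := T_25 (nat_lit 160) (nat_lit 143) (nat_lit 6) (nat_lit 7) (nat_lit 11) L17866 (by decide +kernel)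
theorem L17868 : W_25 (nat_lit 2) (nat_lit 0x40003c001200000001800380000000000000000000000000000000) (nat_lit 0x0) (nat_lit 0x600040000000000000000000000000000000) := D_25 (nat_lit 142) (nat_lit 126) (nat_lit 141) (nat_lit 1) (nat_lit 10) (nat_lit 7) (nat_lit 2) (nat_lit 5) (nat_lit 8) (by decide +kernel)
theorem L17869 : W_25 (nat_lit 3) (nat_lit 0x40003c001200000001800280000000000000000000000000000000) (nat_lit 0x0) (nat_lit 0x600540000000000000000000000000000000) := T_25 (nat_lit 128) (nat_lit 130) (nat_lit 1) (nat_lit 11) (nat_lit 7) L17868 (by decide +kernel)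
theorem L17870 : W_25 (nat_lit 4) (nat_lit 0x3c001200000001800280000000000000000000000000000000) (nat_lit 0x0) (nat_lit 0xc00000000000000000600540000000000000000000000000000000) := T_25 (nat_lit 214) (nat_lit 215) (nat_lit 3) (nat_lit 7) (nat_lit 11) L17869 (by decide +kernel)
theorem L17871 : W_25 (nat_lit 5) (nat_lit 0x3c001200000001000280000000000000000000000000000000) (nat_lit 0x0) (nat_lit 0xc00000000000010000e00540000000000000000000000000000000) := T_25 (nat_lit 143) (nat_lit 160) (nat_lit 6) (nat_lit 7) (nat_lit 11) L17870 (by decide +kernel)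
theorem L17872 : W_25 (nat_lit 6) (nat_lit 0x1c001200000001000280000000000000000000000000000000) (nat_lit 0x0) (nat_lit 0xc00020002000010000e00540000000000000000000000000000000) := T_25 (nat_lit 197) (nat_lit 181) (nat_lit 2) (nat_lit 7) (nat_lit 11) L17871 (by decide +kernel)
theorem L17873 : W_25 (nat_lit 2) (nat_lit 0x30001c003a000d0001000280000000000000000000000000000000) (nat_lit 0x0) (nat_lit 0x8000c00000000000000000000000000000000000000000000000000000) := D_25 (nat_lit 214) (nat_lit 215) (nat_lit 231) (nat_lit 0) (nat_lit 11) (nat_lit 12) (nat_lit 7) (nat_lit 9) (nat_lit 9) (by decide +kernel)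
theorem L17874 : W_25 (nat_lit 3) (nat_lit 0x20001c003a000d0001000280000000000000000000000000000000) (nat_lit 0x0) (nat_lit 0xa000d00000000000000000000000000000000000000000000000000000) := T_25 (nat_lit 212) (nat_lit 229) (nat_lit 5) (nat_lit 9) (nat_lit 9) L17873 (by decide +kernel)
theorem L17875 : W_25 (nat_lit 4) (nat_lit 0x1c003a000d0001000280000000000000000000000000000000) (nat_lit 0x0) (nat_lit 0xe000f00000000000000000000000000000000000000000000000000000) := T_25 (nat_lit 213) (nat_lit 230) (nat_lit 6) (nat_lit 9) (nat_lit 13) L17874 (by decide +kernel)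
theorem L17876 : W_25 (nat_lit 5) (nat_lit 0x1c003a00090001000280000000000000000000000000000000) (nat_lit 0x0) (nat_lit 0xe000f00000000000060000000000000000000000000000000000000000) := T_25 (nat_lit 162) (nat_lit 161) (nat_lit 3) (nat_lit 7) (nat_lit 9) L17875 (by decide +kernel)
theorem L17877 : W_25 (nat_lit 6) (nat_lit 0x1c003a00010001000280000000000000000000000000000000) (nat_lit 0x0) (nat_lit 0xe000f000000000000e0004000000000000000000000000000000000000) := T_25 (nat_lit 163) (nat_lit 146) (nat_lit 5) (nat_lit 10) (nat_lit 7) L17876 (by decide +kernel)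
theorem L17878 : W_25 (nat_lit 7) (nat_lit 0x1c003200010001000280000000000000000000000000000000) (nat_lit 0x0) (nat_lit 0xe000f000000048000e0004000000000000000000000000000000000000) := T_25 (nat_lit 179) (nat_lit 182) (nat_lit 1) (nat_lit 12) (nat_lit 10) L17877 (by decide +kernel)
theorem L17879 : W_25 (nat_lit 8) (nat_lit 0x1c001200010001000280000000000000000000000000000000) (nat_lit 0x0) (nat_lit 0xe000f000200068000e0004000000000000000000000000000000000000) := T_25 (nat_lit 181) (nat_lit 197) (nat_lit 2) (nat_lit 7) (nat_lit 11) L17878 (by decide +kernel)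
theorem L17880 : W_25 (nat_lit 9) (nat_lit 0x1c001200000001000280000000000000000000000000000000) (nat_lit 0x0) (nat_lit 0xe000f000200068000f0004800000000000000000000000000000000000) := T_25 (nat_lit 160) (nat_lit 143) (nat_lit 6) (nat_lit 7) (nat_lit 11) L17879 (by decide +kernel)
theorem L17881 : W_25 (nat_lit 2) (nat_lit 0x60001c003a000c0001000280000000000000000000000000000000) (nat_lit 0x0) (nat_lit 0x1900000000000000000000000000000000000000000000000000000) := D_25 (nat_lit 215) (nat_lit 216) (nat_lit 212) (nat_lit 0) (nat_lit 12) (nat_lit 12) (nat_lit 0) (nat_lit 11) (nat_lit 12) (by decide +kernel)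
theorem L17882 : W_25 (nat_lit 3) (nat_lit 0x20001c003a000c0001000280000000000000000000000000000000) (nat_lit 0x0) (nat_lit 0x8001d00000000000000000000000000000000000000000000000000000) := T_25 (nat_lit 214) (nat_lit 231) (nat_lit 7) (nat_lit 9) (nat_lit 9) L17881 (by decide +kernel)
theorem L17883 : W_25 (nat_lit 4) (nat_lit 0x20001c003a00080001000280000000000000000000000000000000) (nat_lit 0x0) (nat_lit 0x8001d00000000000060000000000000000000000000000000000000000) := T_25 (nat_lit 162) (nat_lit 161) (nat_lit 4) (nat_lit 9) (nat_lit 12) L17882 (by decide +kernel)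
theorem L17884 : W_25 (nat_lit 5) (nat_lit 0x1c003a00080001000280000000000000000000000000000000) (nat_lit 0x0) (nat_lit 0xc001f00000000000060000000000000000000000000000000000000000) := T_25 (nat_lit 213) (nat_lit 230) (nat_lit 6) (nat_lit 9) (nat_lit 13) L17883 (by decide +kernel)
theorem L17885 : W_25 (nat_lit 6) (nat_lit 0x1c003a00000001000280000000000000000000000000000000) (nat_lit 0x0) (nat_lit 0xc001f000000000000e0004000000000000000000000000000000000000) := T_25 (nat_lit 163) (nat_lit 146) (nat_lit 5) (nat_lit 10) (nat_lit 7) L17884 (by decide +kernel)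
theorem L17886 : W_25 (nat_lit 7) (nat_lit 0x1c003200000001000280000000000000000000000000000000) (nat_lit 0x0) (nat_lit 0xc001f000000048000e0004000000000000000000000000000000000000) := T_25 (nat_lit 179) (nat_lit 182) (nat_lit 1) (nat_lit 12) (nat_lit 10) L17885 (by decide +kernel)
theorem L17887 : W_25 (nat_lit 8) (nat_lit 0x1c001200000001000280000000000000000000000000000000) (nat_lit 0x0) (nat_lit 0xc001f000200068000e0004000000000000000000000000000000000000) := T_25 (nat_lit 181) (nat_lit 197) (nat_lit 2) (nat_lit 7) (nat_lit 11) L17886 (by decide +kernel)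
theorem L17888 : W_25 (nat_lit 2) (nat_lit 0x1c001200000001800380000000000000000000000000000000) (nat_lit 0x0) (nat_lit 0x600040000000000000000000000000000000) := D_25 (nat_lit 142) (nat_lit 126) (nat_lit 141) (nat_lit 1) (nat_lit 10) (nat_lit 7) (nat_lit 2) (nat_lit 5) (nat_lit 8) (by decide +kernel)
theorem L17889 : W_25 (nat_lit 3) (nat_lit 0x1c001200000001800280000000000000000000000000000000) (nat_lit 0x0) (nat_lit 0x600540000000000000000000000000000000) := T_25 (nat_lit 128) (nat_lit 130) (nat_lit 1) (nat_lit 11) (nat_lit 7) L17888 (by decide +kernel)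
theorem L17890 : W_25 (nat_lit 4) (nat_lit 0x1c001200000001000280000000000000000000000000000000) (nat_lit 0x0) (nat_lit 0x10000e00540000000000000000000000000000000) := T_25 (nat_lit 143) (nat_lit 160) (nat_lit 6) (nat_lit 7) (nat_lit 11) L17889 (by decide +kernel)
theorem L17891 : W_25 (nat_lit 10) (nat_lit 0x1c001200000001000080000000000000000000000000000000) (nat_lit 0x0) (nat_lit 0xe001f000200068000f0004e00740000000000000000000000000000000) := Q_25 (nat_lit 129) (C_25 L17872 (C_25 L17880 (C_25 L17887 (C_25 L17890 N_25)))) (by decide +kernel)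
theorem L17892 : W_25 (nat_lit 2) (nat_lit 0x22001e001200010001000080000000000000000000000000000000) (nat_lit 0x0) (nat_lit 0x110001000000000000000000000000000000000000000000000000) := D_25 (nat_lit 192) (nat_lit 212) (nat_lit 208) (nat_lit 3) (nat_lit 5) (nat_lit 11) (nat_lit 1) (nat_lit 8) (nat_lit 11) (by decide +kernel)
theorem L17893 : W_25 (nat_lit 3) (nat_lit 0x2001e001200010001000080000000000000000000000000000000) (nat_lit 0x0) (nat_lit 0x710001000000000000000000000000000000000000000000000000) := T_25 (nat_lit 213) (nat_lit 214) (nat_lit 3) (nat_lit 6) (nat_lit 11) L17892 (by decide +kernel)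
theorem L17894 : W_25 (nat_lit 4) (nat_lit 0x1e001200010001000080000000000000000000000000000000) (nat_lit 0x0) (nat_lit 0x770001000000000000000000000000000000000000000000000000) := T_25 (nat_lit 209) (nat_lit 210) (nat_lit 1) (nat_lit 9) (nat_lit 11) L17893 (by decide +kernel)
theorem L17895 : W_25 (nat_lit 5) (nat_lit 0x1c001200010001000080000000000000000000000000000000) (nat_lit 0x0) (nat_lit 0x770003000800000000000000000000000000000000000000000000) := T_25 (nat_lit 193) (nat_lit 179) (nat_lit 2) (nat_lit 6) (nat_lit 11) L17894 (by decide +kernel)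
theorem L17896 : W_25 (nat_lit 6) (nat_lit 0x1c001200000001000080000000000000000000000000000000) (nat_lit 0x0) (nat_lit 0x770003000800010000800000000000000000000000000000000000) := T_25 (nat_lit 160) (nat_lit 143) (nat_lit 6) (nat_lit 7) (nat_lit 11) L17895 (by decide +kernel)
theorem L17897 : W_25 (nat_lit 2) (nat_lit 0x1c001a00000001000080000000000000000000000000000000) (nat_lit 0x0) (nat_lit 0x20006000000000000000000000000000000000000000000000) := D_25 (nat_lit 181) (nat_lit 197) (nat_lit 182) (nat_lit 2) (nat_lit 7) (nat_lit 11) (nat_lit 1) (nat_lit 12) (nat_lit 10) (by decide +kernel)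
theorem L17898 : W_25 (nat_lit 3) (nat_lit 0x1c001200000001000080000000000000000000000000000000) (nat_lit 0x0) (nat_lit 0x22006800000000000000000000000000000000000000000000) := T_25 (nat_lit 179) (nat_lit 193) (nat_lit 2) (nat_lit 6) (nat_lit 11) L17897 (by decide +kernel)
theorem L17899 : W_25 (nat_lit 11) (nat_lit 0x1c000200000001000080000000000000000000000000000000) (nat_lit 0x0) (nat_lit 0xe001f700230078000f0004e00740000000000000000000000000000000) := Q_25 (nat_lit 180) (C_25 L17858 (C_25 L17862 (C_25 L17867 (C_25 L17891 (C_25 L17896 (C_25 L17898 N_25)))))) (by decide +kernel)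
theorem L17900 : W_25 (nat_lit 3) (nat_lit 0x60003c000200010001000080000000000000000000000000000000) (nat_lit 0x0) (nat_lit 0x4000000000003000080004000000000000000000000000000000000000) := T_25 (nat_lit 180) (nat_lit 181) (nat_lit 2) (nat_lit 7) (nat_lit 11) L17863 (by decide +kernel)
theorem L17901 : W_25 (nat_lit 4) (nat_lit 0x40003c000200010001000080000000000000000000000000000000) (nat_lit 0x0) (nat_lit 0x4000200002003000080004000000000000000000000000000000000000) := T_25 (nat_lit 213) (nat_lit 193) (nat_lit 3) (nat_lit 6) (nat_lit 11) L17900 (by decide +kernel)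
theorem L17902 : W_25 (nat_lit 5) (nat_lit 0x3c000200010001000080000000000000000000000000000000) (nat_lit 0x0) (nat_lit 0x4000e00002003000080004000000000000000000000000000000000000) := T_25 (nat_lit 214) (nat_lit 215) (nat_lit 3) (nat_lit 7) (nat_lit 11) L17901 (by decide +kernel)
theorem L17903 : W_25 (nat_lit 6) (nat_lit 0x3c000200000001000080000000000000000000000000000000) (nat_lit 0x0) (nat_lit 0x4000e00002003000090004800000000000000000000000000000000000) := T_25 (nat_lit 160) (nat_lit 143) (nat_lit 6) (nat_lit 7) (nat_lit 11) L17902 (by decide +kernel)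
theorem L17904 : W_25 (nat_lit 7) (nat_lit 0x1c000200000001000080000000000000000000000000000000) (nat_lit 0x0) (nat_lit 0x4000e00022003100090004800000000000000000000000000000000000) := T_25 (nat_lit 197) (nat_lit 176) (nat_lit 0) (nat_lit 10) (nat_lit 11) L17903 (by decide +kernel)
theorem L17905 : W_25 (nat_lit 2) (nat_lit 0x80003c002200010001000080000000000000000000000000000000) (nat_lit 0x0) (nat_lit 0x1000040004000000000000000000000000000000000000000000000) := D_25 (nat_lit 198) (nat_lit 216) (nat_lit 182) (nat_lit 3) (nat_lit 8) (nat_lit 11) (nat_lit 2) (nat_lit 8) (nat_lit 11) (by decide +kernel)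
theorem L17906 : W_25 (nat_lit 3) (nat_lit 0x80003c000200010001000080000000000000000000000000000000) (nat_lit 0x0) (nat_lit 0x1000040007000000000000000000000000000000000000000000000) := T_25 (nat_lit 181) (nat_lit 180) (nat_lit 2) (nat_lit 7) (nat_lit 11) L17905 (by decide +kernel)
theorem L17907 : W_25 (nat_lit 4) (nat_lit 0x3c000200010001000080000000000000000000000000000000) (nat_lit 0x0) (nat_lit 0x1c00040007000000000000000000000000000000000000000000000) := T_25 (nat_lit 215) (nat_lit 214) (nat_lit 3) (nat_lit 7) (nat_lit 11) L17906 (by decide +kernel)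
theorem L17908 : W_25 (nat_lit 5) (nat_lit 0x3c000200000001000080000000000000000000000000000000) (nat_lit 0x0) (nat_lit 0x1c00040007000010000800000000000000000000000000000000000) := T_25 (nat_lit 160) (nat_lit 143) (nat_lit 6) (nat_lit 7) (nat_lit 11) L17907 (by decide +kernel)
theorem L17909 : W_25 (nat_lit 6) (nat_lit 0x1c000200000001000080000000000000000000000000000000) (nat_lit 0x0) (nat_lit 0x1c00060007100010000800000000000000000000000000000000000) := T_25 (nat_lit 197) (nat_lit 176) (nat_lit 0) (nat_lit 10) (nat_lit 11) L17908 (by decide +kernel)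
theorem L17910 : W_25 (nat_lit 2) (nat_lit 0x20001f000200010001000080000000000000000000000000000000) (nat_lit 0x0) (nat_lit 0x70000000000000000000000000000000000000000000000000000) := D_25 (nat_lit 209) (nat_lit 208) (nat_lit 210) (nat_lit 1) (nat_lit 8) (nat_lit 11) (nat_lit 1) (nat_lit 9) (nat_lit 11) (by decide +kernel)
theorem L17911 : W_25 (nat_lit 3) (nat_lit 0x20001e000200010001000080000000000000000000000000000000) (nat_lit 0x0) (nat_lit 0x170001000000000000000000000000000000000000000000000000) := T_25 (nat_lit 192) (nat_lit 212) (nat_lit 3) (nat_lit 5) (nat_lit 11) L17910 (by decide +kernel)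
theorem L17912 : W_25 (nat_lit 4) (nat_lit 0x1e000200010001000080000000000000000000000000000000) (nat_lit 0x0) (nat_lit 0x770001000000000000000000000000000000000000000000000000) := T_25 (nat_lit 213) (nat_lit 214) (nat_lit 3) (nat_lit 6) (nat_lit 11) L17911 (by decide +kernel)
theorem L17913 : W_25 (nat_lit 5) (nat_lit 0x1e000200000001000080000000000000000000000000000000) (nat_lit 0x0) (nat_lit 0x770001000000010000800000000000000000000000000000000000) := T_25 (nat_lit 160) (nat_lit 143) (nat_lit 6) (nat_lit 7) (nat_lit 11) L17912 (by decide +kernel)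
theorem L17914 : W_25 (nat_lit 2) (nat_lit 0x80024001f000200000001000080000000000000000000000000000000) (nat_lit 0x0) (nat_lit 0x20000100010000000000000000000000000000000000000000) := D_25 (nat_lit 176) (nat_lit 197) (nat_lit 160) (nat_lit 0) (nat_lit 10) (nat_lit 11) (nat_lit 6) (nat_lit 6) (nat_lit 13) (by decide +kernel)
theorem L17915 : W_25 (nat_lit 3) (nat_lit 0x24001f000200000001000080000000000000000000000000000000) (nat_lit 0x0) (nat_lit 0x10000800000020000100010000000000000000000000000000000000000000) := T_25 (nat_lit 227) (nat_lit 244) (nat_lit 6) (nat_lit 6) (nat_lit 14) L17914 (by decide +kernel)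
theorem L17916 : W_25 (nat_lit 4) (nat_lit 0x24001e000200000001000080000000000000000000000000000000) (nat_lit 0x0) (nat_lit 0x10000800100021000100010000000000000000000000000000000000000000) := T_25 (nat_lit 192) (nat_lit 212) (nat_lit 3) (nat_lit 5) (nat_lit 11) L17915 (by decide +kernel)
theorem L17917 : W_25 (nat_lit 5) (nat_lit 0x4001e000200000001000080000000000000000000000000000000) (nat_lit 0x0) (nat_lit 0x10000800700021000100010000000000000000000000000000000000000000) := T_25 (nat_lit 213) (nat_lit 214) (nat_lit 3) (nat_lit 6) (nat_lit 11) L17916 (by decide +kernel)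
theorem L17918 : W_25 (nat_lit 6) (nat_lit 0x1e000200000001000080000000000000000000000000000000) (nat_lit 0x0) (nat_lit 0x10000800760021000100010000000000000000000000000000000000000000) := T_25 (nat_lit 210) (nat_lit 209) (nat_lit 1) (nat_lit 9) (nat_lit 11) L17917 (by decide +kernel)
theorem L17921 : W_25 (nat_lit 3) (nat_lit 0x1e000200010001000080000000000000000000000000000000) (nat_lit 0x0) (nat_lit 0x800060020000100000000000000000000000000000000000000000000) := T_25 (nat_lit 176) (nat_lit 197) (nat_lit 0) (nat_lit 10) (nat_lit 11) L11227 (by decide +kernel)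
theorem L17922 : W_25 (nat_lit 4) (nat_lit 0x1e000200000001000080000000000000000000000000000000) (nat_lit 0x0) (nat_lit 0x800060020000100010000800000000000000000000000000000000000) := T_25 (nat_lit 160) (nat_lit 143) (nat_lit 6) (nat_lit 7) (nat_lit 11) L17921 (by decide +kernel)
theorem L17923 : W_25 (nat_lit 7) (nat_lit 0x1c000200000001000080000000000000000000000000000000) (nat_lit 0x0) (nat_lit 0x10000800f70023000100010000800000000000000000000000000000000000) := Q_25 (nat_lit 193) (C_25 L17913 (C_25 L17918 (C_25 L17920 (C_25 L17922 N_25)))) (by decide +kernel)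
theorem L17924 : W_25 (nat_lit 2) (nat_lit 0x24001e000a00010001000080000000000000000000000000000000) (nat_lit 0x0) (nat_lit 0x10000800000000000100000000000000000000000000000000000000000000) := D_25 (nat_lit 227) (nat_lit 176) (nat_lit 244) (nat_lit 6) (nat_lit 6) (nat_lit 13) (nat_lit 6) (nat_lit 6) (nat_lit 14) (by decide +kernel)
theorem L17925 : W_25 (nat_lit 3) (nat_lit 0x20001e000a00010001000080000000000000000000000000000000) (nat_lit 0x0) (nat_lit 0x10000800060000000100000000000000000000000000000000000000000000) := T_25 (nat_lit 210) (nat_lit 209) (nat_lit 1) (nat_lit 9) (nat_lit 11) L17924 (by decide +kernel)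
theorem L17926 : W_25 (nat_lit 4) (nat_lit 0x1e000a00010001000080000000000000000000000000000000) (nat_lit 0x0) (nat_lit 0x10000800660000000100000000000000000000000000000000000000000000) := T_25 (nat_lit 213) (nat_lit 214) (nat_lit 3) (nat_lit 6) (nat_lit 11) L17925 (by decide +kernel)
theorem L17927 : W_25 (nat_lit 5) (nat_lit 0x1e000a00000001000080000000000000000000000000000000) (nat_lit 0x0) (nat_lit 0x10000800660000000100010000800000000000000000000000000000000000) := T_25 (nat_lit 160) (nat_lit 143) (nat_lit 6) (nat_lit 7) (nat_lit 11) L17926 (by decide +kernel)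
theorem L17928 : W_25 (nat_lit 6) (nat_lit 0x1e000200000001000080000000000000000000000000000000) (nat_lit 0x0) (nat_lit 0x10000800660000001900010000800000000000000000000000000000000000) := T_25 (nat_lit 179) (nat_lit 180) (nat_lit 2) (nat_lit 6) (nat_lit 11) L17927 (by decide +kernel)
theorem L17929 : W_25 (nat_lit 2) (nat_lit 0x21001f800220010001000080000000000000000000000000000000) (nat_lit 0x0) (nat_lit 0x400110000000000000000000000000000000000000000000) := D_25 (nat_lit 190) (nat_lit 176) (nat_lit 172) (nat_lit 2) (nat_lit 3) (nat_lit 11) (nat_lit 0) (nat_lit 6) (nat_lit 11) (by decide +kernel)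
theorem L17930 : W_25 (nat_lit 3) (nat_lit 0x21001f800200010001000080000000000000000000000000000000) (nat_lit 0x0) (nat_lit 0x400170000000000000000000000000000000000000000000) := T_25 (nat_lit 173) (nat_lit 174) (nat_lit 0) (nat_lit 7) (nat_lit 11) L17929 (by decide +kernel)
theorem L17931 : W_25 (nat_lit 4) (nat_lit 0x21001f000200010001000080000000000000000000000000000000) (nat_lit 0x0) (nat_lit 0x8000c00170000000000000000000000000000000000000000000) := T_25 (nat_lit 191) (nat_lit 207) (nat_lit 1) (nat_lit 7) (nat_lit 11) L17930 (by decide +kernel)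
theorem L17932 : W_25 (nat_lit 5) (nat_lit 0x21001f000200000001000080000000000000000000000000000000) (nat_lit 0x0) (nat_lit 0x8000c00170010000800000000000000000000000000000000000) := T_25 (nat_lit 160) (nat_lit 143) (nat_lit 6) (nat_lit 7) (nat_lit 11) L17931 (by decide +kernel)
theorem L17933 : W_25 (nat_lit 6) (nat_lit 0x20001f000200000001000080000000000000000000000000000000) (nat_lit 0x0) (nat_lit 0x38000c00170010000800000000000000000000000000000000000) := T_25 (nat_lit 208) (nat_lit 209) (nat_lit 1) (nat_lit 8) (nat_lit 11) L17932 (by decide +kernel)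
theorem L17934 : W_25 (nat_lit 7) (nat_lit 0x20001e000200000001000080000000000000000000000000000000) (nat_lit 0x0) (nat_lit 0x138001c00170010000800000000000000000000000000000000000) := T_25 (nat_lit 192) (nat_lit 212) (nat_lit 3) (nat_lit 5) (nat_lit 11) L17933 (by decide +kernel)
theorem L17935 : W_25 (nat_lit 8) (nat_lit 0x1e000200000001000080000000000000000000000000000000) (nat_lit 0x0) (nat_lit 0x738001c00170010000800000000000000000000000000000000000) := T_25 (nat_lit 213) (nat_lit 214) (nat_lit 3) (nat_lit 6) (nat_lit 11) L17934 (by decide +kernel)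
theorem L17936 : W_25 (nat_lit 2) (nat_lit 0x4001e000200010001000080000000000000000000000000000000) (nat_lit 0x0) (nat_lit 0x10000800000000000100000000000000000000000000000000000000000000) := D_25 (nat_lit 227) (nat_lit 176) (nat_lit 244) (nat_lit 6) (nat_lit 6) (nat_lit 13) (nat_lit 6) (nat_lit 6) (nat_lit 14) (by decide +kernel)
theorem L17937 : W_25 (nat_lit 3) (nat_lit 0x1e000200010001000080000000000000000000000000000000) (nat_lit 0x0) (nat_lit 0x10000800060000000100000000000000000000000000000000000000000000) := T_25 (nat_lit 210) (nat_lit 209) (nat_lit 1) (nat_lit 9) (nat_lit 11) L17936 (by decide +kernel)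
theorem L17938 : W_25 (nat_lit 4) (nat_lit 0x1e000200000001000080000000000000000000000000000000) (nat_lit 0x0) (nat_lit 0x10000800060000000100010000800000000000000000000000000000000000) := T_25 (nat_lit 160) (nat_lit 143) (nat_lit 6) (nat_lit 7) (nat_lit 11) L17937 (by decide +kernel)
theorem L17939 : W_25 (nat_lit 2) (nat_lit 0x30001e000a00010001000080000000000000000000000000000000) (nat_lit 0x0) (nat_lit 0x2000000000000000060000000000000000000000000000000000000000) := D_25 (nat_lit 162) (nat_lit 161) (nat_lit 229) (nat_lit 4) (nat_lit 9) (nat_lit 12) (nat_lit 5) (nat_lit 9) (nat_lit 9) (by decide +kernel)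
theorem L17940 : W_25 (nat_lit 3) (nat_lit 0x20001e000a00010001000080000000000000000000000000000000) (nat_lit 0x0) (nat_lit 0x2000100001000000060000000000000000000000000000000000000000) := T_25 (nat_lit 212) (nat_lit 192) (nat_lit 3) (nat_lit 5) (nat_lit 11) L17939 (by decide +kernel)
theorem L17941 : W_25 (nat_lit 4) (nat_lit 0x1e000a00010001000080000000000000000000000000000000) (nat_lit 0x0) (nat_lit 0x2000700001000000060000000000000000000000000000000000000000) := T_25 (nat_lit 213) (nat_lit 214) (nat_lit 3) (nat_lit 6) (nat_lit 11) L17940 (by decide +kernel)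
theorem L17942 : W_25 (nat_lit 5) (nat_lit 0x1e000a00000001000080000000000000000000000000000000) (nat_lit 0x0) (nat_lit 0x2000700001000000070000800000000000000000000000000000000000) := T_25 (nat_lit 160) (nat_lit 143) (nat_lit 6) (nat_lit 7) (nat_lit 11) L17941 (by decide +kernel)
theorem L17943 : W_25 (nat_lit 6) (nat_lit 0x1e000200000001000080000000000000000000000000000000) (nat_lit 0x0) (nat_lit 0x2000700001001800070000800000000000000000000000000000000000) := T_25 (nat_lit 179) (nat_lit 180) (nat_lit 2) (nat_lit 6) (nat_lit 11) L17942 (by decide +kernel)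
theorem L17944 : W_25 (nat_lit 9) (nat_lit 0x1c000200000001000080000000000000000000000000000000) (nat_lit 0x0) (nat_lit 0x10002800778003c01970070000800000000000000000000000000000000000) := Q_25 (nat_lit 193) (C_25 L17913 (C_25 L7805 (C_25 L17928 (C_25 L17935 (C_25 L17938 (C_25 L17943 N_25)))))) (by decide +kernel)
theorem L17945 : W_25 (nat_lit 2) (nat_lit 0x1c001200000001000080000000000000000000000000000000) (nat_lit 0x0) (nat_lit 0x20002100000000000000000000000000000000000000000000) := D_25 (nat_lit 197) (nat_lit 181) (nat_lit 176) (nat_lit 2) (nat_lit 7) (nat_lit 11) (nat_lit 0) (nat_lit 10) (nat_lit 11) (by decide +kernel)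
theorem L17946 : W_25 (nat_lit 2) (nat_lit 0x4001e001200010001000080000000000000000000000000000000) (nat_lit 0x0) (nat_lit 0x10000800000000000100000000000000000000000000000000000000000000) := D_25 (nat_lit 227) (nat_lit 176) (nat_lit 244) (nat_lit 6) (nat_lit 6) (nat_lit 13) (nat_lit 6) (nat_lit 6) (nat_lit 14) (by decide +kernel)
theorem L17947 : W_25 (nat_lit 3) (nat_lit 0x1e001200010001000080000000000000000000000000000000) (nat_lit 0x0) (nat_lit 0x10000800060000000100000000000000000000000000000000000000000000) := T_25 (nat_lit 210) (nat_lit 209) (nat_lit 1) (nat_lit 9) (nat_lit 11) L17946 (by decide +kernel)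
theorem L17948 : W_25 (nat_lit 4) (nat_lit 0x1c001200010001000080000000000000000000000000000000) (nat_lit 0x0) (nat_lit 0x10000800060002000900000000000000000000000000000000000000000000) := T_25 (nat_lit 193) (nat_lit 179) (nat_lit 2) (nat_lit 6) (nat_lit 11) L17947 (by decide +kernel)
theorem L17949 : W_25 (nat_lit 5) (nat_lit 0x1c001200000001000080000000000000000000000000000000) (nat_lit 0x0) (nat_lit 0x10000800060002000900010000800000000000000000000000000000000000) := T_25 (nat_lit 160) (nat_lit 143) (nat_lit 6) (nat_lit 7) (nat_lit 11) L17948 (by decide +kernel)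
theorem L17950 : W_25 (nat_lit 6) (nat_lit 0x1c000200000001000080000000000000000000000000000000) (nat_lit 0x0) (nat_lit 0x10000800060022007900010000800000000000000000000000000000000000) := Q_25 (nat_lit 180) (C_25 L17898 (C_25 L17945 (C_25 L17949 N_25))) (by decide +kernel)
theorem L17951 : W_25 (nat_lit 12) (nat_lit 0x14000200000001000080000000000000000000000000000000) (nat_lit 0x0) (nat_lit 0x1000e801f7806bc079700f0004e00740000000000000000000000000000000) := Q_25 (nat_lit 195) (C_25 L17856 (C_25 L17899 (C_25 L5062 (C_25 L17904 (C_25 L17909 (C_25 L17923 (C_25 L17944 (C_25 L17950 N_25)))))))) (by decide +kernel)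
theorem L17953 : W_25 (nat_lit 3) (nat_lit 0x40003c001200020001000080000000000000000000000000000000) (nat_lit 0x0) (nat_lit 0x4000200002000000080004000000000000000000000000000000000000) := T_25 (nat_lit 213) (nat_lit 193) (nat_lit 3) (nat_lit 6) (nat_lit 11) L17952 (by decide +kernel)
theorem L17954 : W_25 (nat_lit 4) (nat_lit 0x3c001200020001000080000000000000000000000000000000) (nat_lit 0x0) (nat_lit 0x4000e00002000000080004000000000000000000000000000000000000) := T_25 (nat_lit 214) (nat_lit 215) (nat_lit 3) (nat_lit 7) (nat_lit 11) L17953 (by decide +kernel)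
theorem L17955 : W_25 (nat_lit 5) (nat_lit 0x3c000200020001000080000000000000000000000000000000) (nat_lit 0x0) (nat_lit 0x4000e00002003000080004000000000000000000000000000000000000) := T_25 (nat_lit 180) (nat_lit 181) (nat_lit 2) (nat_lit 7) (nat_lit 11) L17954 (by decide +kernel)
theorem L17956 : W_25 (nat_lit 6) (nat_lit 0x1c000200020001000080000000000000000000000000000000) (nat_lit 0x0) (nat_lit 0x4000e00022003100080004000000000000000000000000000000000000) := T_25 (nat_lit 197) (nat_lit 176) (nat_lit 0) (nat_lit 10) (nat_lit 11) L17955 (by decide +kernel)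
theorem L17957 : W_25 (nat_lit 7) (nat_lit 0x1c000200000001000080000000000000000000000000000000) (nat_lit 0x0) (nat_lit 0x4000e000220035000a0004000000000000000000000000000000000000) := T_25 (nat_lit 161) (nat_lit 178) (nat_lit 5) (nat_lit 8) (nat_lit 7) L17956 (by decide +kernel)
theorem L17958 : W_25 (nat_lit 5) (nat_lit 0x1c000200000001000080000000000000000000000000000000) (nat_lit 0x0) (nat_lit 0x770003001c00060000000000000000000000000000000000000000) := Q_25 (nat_lit 193) (C_25 L7805 (C_25 L5094 (C_25 L7899 N_25))) (by decide +kernel)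
theorem L17959 : W_25 (nat_lit 8) (nat_lit 0x14000200000001000080000000000000000000000000000000) (nat_lit 0x0) (nat_lit 0x4000f7006b003d000e0004000000000000000000000000000000000000) := Q_25 (nat_lit 195) (C_25 L5062 (C_25 L5085 (C_25 L17957 (C_25 L5194 (C_25 L17958 N_25))))) (by decide +kernel)
theorem L17960 : W_25 (nat_lit 2) (nat_lit 0x20001f000a00010001000080000000000000000000000000000000) (nat_lit 0x0) (nat_lit 0x70000000000000000000000000000000000000000000000000000) := D_25 (nat_lit 209) (nat_lit 208) (nat_lit 210) (nat_lit 1) (nat_lit 8) (nat_lit 11) (nat_lit 1) (nat_lit 9) (nat_lit 11) (by decide +kernel)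
theorem L17961 : W_25 (nat_lit 3) (nat_lit 0x20001e000a00010001000080000000000000000000000000000000) (nat_lit 0x0) (nat_lit 0x70001000400000000000000000000000000000000000000000000) := T_25 (nat_lit 192) (nat_lit 178) (nat_lit 2) (nat_lit 5) (nat_lit 11) L17960 (by decide +kernel)
theorem L17962 : W_25 (nat_lit 4) (nat_lit 0x20001e000200010001000080000000000000000000000000000000) (nat_lit 0x0) (nat_lit 0x70001001c00000000000000000000000000000000000000000000) := T_25 (nat_lit 179) (nat_lit 180) (nat_lit 2) (nat_lit 6) (nat_lit 11) L17961 (by decide +kernel)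
theorem L17963 : W_25 (nat_lit 5) (nat_lit 0x1e000200010001000080000000000000000000000000000000) (nat_lit 0x0) (nat_lit 0x670001001c00000000000000000000000000000000000000000000) := T_25 (nat_lit 213) (nat_lit 214) (nat_lit 3) (nat_lit 6) (nat_lit 11) L17962 (by decide +kernel)
theorem L17964 : W_25 (nat_lit 6) (nat_lit 0x1e000200000001000080000000000000000000000000000000) (nat_lit 0x0) (nat_lit 0x670001001c00010000800000000000000000000000000000000000) := T_25 (nat_lit 160) (nat_lit 143) (nat_lit 6) (nat_lit 7) (nat_lit 11) L17963 (by decide +kernel)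
theorem L17965 : W_25 (nat_lit 2) (nat_lit 0x1f000a00000001000080000000000000000000000000000000) (nat_lit 0x0) (nat_lit 0x700000000000000000000000000000000000000000000000000000) := D_25 (nat_lit 213) (nat_lit 212) (nat_lit 214) (nat_lit 3) (nat_lit 5) (nat_lit 11) (nat_lit 3) (nat_lit 6) (nat_lit 11) (by decide +kernel)
theorem L17966 : W_25 (nat_lit 3) (nat_lit 0x1e000a00000001000080000000000000000000000000000000) (nat_lit 0x0) (nat_lit 0x700001000400000000000000000000000000000000000000000000) := T_25 (nat_lit 192) (nat_lit 178) (nat_lit 2) (nat_lit 5) (nat_lit 11) L17965 (by decide +kernel)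
theorem L17967 : W_25 (nat_lit 4) (nat_lit 0x1e000200000001000080000000000000000000000000000000) (nat_lit 0x0) (nat_lit 0x700001001c00000000000000000000000000000000000000000000) := T_25 (nat_lit 179) (nat_lit 180) (nat_lit 2) (nat_lit 6) (nat_lit 11) L17966 (by decide +kernel)
theorem L17968 : W_25 (nat_lit 12) (nat_lit 0x1c000200000001000080000000000000000000000000000000) (nat_lit 0x0) (nat_lit 0x90004803f700e3003c00010000800000000000000000000000000000000000) := Q_25 (nat_lit 193) (C_25 L7805 (C_25 L17964 (C_25 L17224 (C_25 L17967 (C_25 L5463 N_25))))) (by decide +kernel)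
theorem L17969 : W_25 (nat_lit 4) (nat_lit 0x200000003c001600010001000080000000000000000000000000000000) (nat_lit 0x0) (nat_lit 0x100008000c00000000800048000000000000000000000000000000000000000) := T_25 (nat_lit 179) (nat_lit 159) (nat_lit 0) (nat_lit 10) (nat_lit 10) L11219 (by decide +kernel)
theorem L17970 : W_25 (nat_lit 5) (nat_lit 0x200000003c000600010001000080000000000000000000000000000000) (nat_lit 0x0) (nat_lit 0x100008000c00000003800048000000000000000000000000000000000000000) := T_25 (nat_lit 180) (nat_lit 181) (nat_lit 2) (nat_lit 7) (nat_lit 11) L17969 (by decide +kernel)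
theorem L17971 : W_25 (nat_lit 6) (nat_lit 0x200000001c000600010001000080000000000000000000000000000000) (nat_lit 0x0) (nat_lit 0x100008000c00060003800048000000000000000000000000000000000000000) := T_25 (nat_lit 197) (nat_lit 198) (nat_lit 0) (nat_lit 11) (nat_lit 11) L17970 (by decide +kernel)
theorem L17972 : W_25 (nat_lit 7) (nat_lit 0x1c000600010001000080000000000000000000000000000000) (nat_lit 0x0) (nat_lit 0x10000a000d00060003800048000000000000000000000000000000000000000) := T_25 (nat_lit 229) (nat_lit 212) (nat_lit 4) (nat_lit 8) (nat_lit 13) L17971 (by decide +kernel)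
theorem L17973 : W_25 (nat_lit 8) (nat_lit 0x1c000600000001000080000000000000000000000000000000) (nat_lit 0x0) (nat_lit 0x10000a000d00060003800058000800000000000000000000000000000000000) := T_25 (nat_lit 160) (nat_lit 143) (nat_lit 6) (nat_lit 7) (nat_lit 11) L17972 (by decide +kernel)
theorem L17974 : W_25 (nat_lit 9) (nat_lit 0x1c000200000001000080000000000000000000000000000000) (nat_lit 0x0) (nat_lit 0x10000a000d00060003c00078000800000000000000000000000000000000000) := T_25 (nat_lit 178) (nat_lit 161) (nat_lit 5) (nat_lit 8) (nat_lit 7) L17973 (by decide +kernel)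
theorem L17975 : W_25 (nat_lit 2) (nat_lit 0x200040003e000600010001000080000000000000000000000000000000) (nat_lit 0x0) (nat_lit 0x1800800000000000000000000000000000000000000000000) := D_25 (nat_lit 192) (nat_lit 179) (nat_lit 191) (nat_lit 2) (nat_lit 5) (nat_lit 11) (nat_lit 2) (nat_lit 4) (nat_lit 11) (by decide +kernel)
theorem L17976 : W_25 (nat_lit 3) (nat_lit 0x200040003c000600010001000080000000000000000000000000000000) (nat_lit 0x0) (nat_lit 0x200003800800000000000000000000000000000000000000000000) := T_25 (nat_lit 193) (nat_lit 213) (nat_lit 3) (nat_lit 6) (nat_lit 11) L17975 (by decide +kernel)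
theorem L17977 : W_25 (nat_lit 4) (nat_lit 0x200000003c000600010001000080000000000000000000000000000000) (nat_lit 0x0) (nat_lit 0xe00003800800000000000000000000000000000000000000000000) := T_25 (nat_lit 214) (nat_lit 215) (nat_lit 3) (nat_lit 7) (nat_lit 11) L17976 (by decide +kernel)
theorem L17978 : W_25 (nat_lit 5) (nat_lit 0x200000001c000600010001000080000000000000000000000000000000) (nat_lit 0x0) (nat_lit 0xe00063800800000000000000000000000000000000000000000000) := T_25 (nat_lit 197) (nat_lit 198) (nat_lit 0) (nat_lit 11) (nat_lit 11) L17977 (by decide +kernel)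
theorem L17979 : W_25 (nat_lit 6) (nat_lit 0x1c000600010001000080000000000000000000000000000000) (nat_lit 0x0) (nat_lit 0x2000f00063800800000000000000000000000000000000000000000000) := T_25 (nat_lit 229) (nat_lit 212) (nat_lit 4) (nat_lit 8) (nat_lit 13) L17978 (by decide +kernel)
theorem L17980 : W_25 (nat_lit 7) (nat_lit 0x1c000600000001000080000000000000000000000000000000) (nat_lit 0x0) (nat_lit 0x2000f00063800800010000800000000000000000000000000000000000) := T_25 (nat_lit 160) (nat_lit 143) (nat_lit 6) (nat_lit 7) (nat_lit 11) L17979 (by decide +kernel)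
theorem L17981 : W_25 (nat_lit 8) (nat_lit 0x1c000200000001000080000000000000000000000000000000) (nat_lit 0x0) (nat_lit 0x2000f00063800c00030000800000000000000000000000000000000000) := T_25 (nat_lit 178) (nat_lit 161) (nat_lit 5) (nat_lit 8) (nat_lit 7) L17980 (by decide +kernel)
theorem L17982 : W_25 (nat_lit 2) (nat_lit 0x200000003c001600010001000080000000000000000000000000000000) (nat_lit 0x0) (nat_lit 0x2000800008000000000000000000000000000000000000000) := D_25 (nat_lit 179) (nat_lit 193) (nat_lit 159) (nat_lit 2) (nat_lit 6) (nat_lit 11) (nat_lit 0) (nat_lit 10) (nat_lit 10) (by decide +kernel)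
theorem L17983 : W_25 (nat_lit 3) (nat_lit 0x200000003c000600010001000080000000000000000000000000000000) (nat_lit 0x0) (nat_lit 0x2003800008000000000000000000000000000000000000000) := T_25 (nat_lit 180) (nat_lit 181) (nat_lit 2) (nat_lit 7) (nat_lit 11) L17982 (by decide +kernel)
theorem L17984 : W_25 (nat_lit 4) (nat_lit 0x200000001c000600010001000080000000000000000000000000000000) (nat_lit 0x0) (nat_lit 0x62003800008000000000000000000000000000000000000000) := T_25 (nat_lit 197) (nat_lit 198) (nat_lit 0) (nat_lit 11) (nat_lit 11) L17983 (by decide +kernel)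
theorem L17985 : W_25 (nat_lit 5) (nat_lit 0x1c000600010001000080000000000000000000000000000000) (nat_lit 0x0) (nat_lit 0x2000100062003800008000000000000000000000000000000000000000) := T_25 (nat_lit 229) (nat_lit 212) (nat_lit 4) (nat_lit 8) (nat_lit 13) L17984 (by decide +kernel)
theorem L17986 : W_25 (nat_lit 6) (nat_lit 0x1c000600000001000080000000000000000000000000000000) (nat_lit 0x0) (nat_lit 0x2000100062003800018000800000000000000000000000000000000000) := T_25 (nat_lit 160) (nat_lit 143) (nat_lit 6) (nat_lit 7) (nat_lit 11) L17985 (by decide +kernel)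
theorem L17987 : W_25 (nat_lit 7) (nat_lit 0x1c000200000001000080000000000000000000000000000000) (nat_lit 0x0) (nat_lit 0x2000100062003c00038000800000000000000000000000000000000000) := T_25 (nat_lit 178) (nat_lit 161) (nat_lit 5) (nat_lit 8) (nat_lit 7) L17986 (by decide +kernel)
theorem L17988 : W_25 (nat_lit 13) (nat_lit 0x14000200000001000080000000000000000000000000000000) (nat_lit 0x0) (nat_lit 0x19000e803f700eb807c000f8004e00740000000000000000000000000000000) := Q_25 (nat_lit 195) (C_25 L17899 (C_25 L17958 (C_25 L17968 (C_25 L11240 (C_25 L17974 (C_25 L17981 (C_25 L5085 (C_25 L17987 N_25)))))))) (by decide +kernel)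
theorem L17989 : W_25 (nat_lit 6) (nat_lit 0x1c000200000001000080000000000000000000000000000000) (nat_lit 0x0) (nat_lit 0x10000800770003001d00010000800000000000000000000000000000000000) := Q_25 (nat_lit 193) (C_25 L5463 (C_25 L17938 (C_25 L17967 N_25))) (by decide +kernel)
theorem L17990 : W_25 (nat_lit 13) (nat_lit 0x14000200000001000080000000000000000000000000000000) (nat_lit 0x0) (nat_lit 0x90004803f700eb007d00010000800000000000000000000000000000000000) := Q_25 (nat_lit 195) (C_25 L17950 (C_25 L17968 (C_25 L5062 (C_25 L17923 (C_25 L17909 (C_25 L17989 N_25)))))) (by decide +kernel)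
theorem L17991 : W_25 (nat_lit 2) (nat_lit 0x20001e000600000001000080000000000000000000000000000000) (nat_lit 0x0) (nat_lit 0x100001800000000000000000000000000000000000000000000000) := D_25 (nat_lit 192) (nat_lit 212) (nat_lit 191) (nat_lit 3) (nat_lit 5) (nat_lit 11) (nat_lit 2) (nat_lit 4) (nat_lit 11) (by decide +kernel)
theorem L17992 : W_25 (nat_lit 3) (nat_lit 0x1e000600000001000080000000000000000000000000000000) (nat_lit 0x0) (nat_lit 0x700001800000000000000000000000000000000000000000000000) := T_25 (nat_lit 213) (nat_lit 214) (nat_lit 3) (nat_lit 6) (nat_lit 11) L17991 (by decide +kernel)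
theorem L17993 : W_25 (nat_lit 4) (nat_lit 0x1e000200000001000080000000000000000000000000000000) (nat_lit 0x0) (nat_lit 0x700001800400020000000000000000000000000000000000000000) := T_25 (nat_lit 178) (nat_lit 161) (nat_lit 5) (nat_lit 8) (nat_lit 7) L17992 (by decide +kernel)
theorem L17994 : W_25 (nat_lit 9) (nat_lit 0x1c000200000001000080000000000000000000000000000000) (nat_lit 0x0) (nat_lit 0x10000800778003c00570030000800000000000000000000000000000000000) := Q_25 (nat_lit 193) (C_25 L7805 (C_25 L17938 (C_25 L17935 (C_25 L17993 N_25)))) (by decide +kernel)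
theorem L17995 : W_25 (nat_lit 11) (nat_lit 0x14000200000001000080000000000000000000000000000000) (nat_lit 0x0) (nat_lit 0x10002800f7806bc03570030000800000000000000000000000000000000000) := Q_25 (nat_lit 195) (C_25 L17923 (C_25 L11240 (C_25 L5194 (C_25 L17994 N_25)))) (by decide +kernel)
theorem L17996 : W_25 (nat_lit 2) (nat_lit 0x14000200000001f00080000000000000000000000000000000) (nat_lit 0x0) (nat_lit 0x7000000000000000000000000000000000000000) := D_25 (nat_lit 157) (nat_lit 156) (nat_lit 158) (nat_lit 1) (nat_lit 7) (nat_lit 8) (nat_lit 1) (nat_lit 8) (nat_lit 8) (by decide +kernel)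
theorem L17997 : W_25 (nat_lit 3) (nat_lit 0x14000200000001e00080000000000000000000000000000000) (nat_lit 0x0) (nat_lit 0x7000100040000000000000000000000000000000) := T_25 (nat_lit 140) (nat_lit 126) (nat_lit 2) (nat_lit 4) (nat_lit 8) L17996 (by decide +kernel)
theorem L17998 : W_25 (nat_lit 4) (nat_lit 0x14000200000001c00080000000000000000000000000000000) (nat_lit 0x0) (nat_lit 0x7000300140000000000000000000000000000000) := T_25 (nat_lit 141) (nat_lit 128) (nat_lit 2) (nat_lit 5) (nat_lit 8) L17997 (by decide +kernel)
theorem L17999 : W_25 (nat_lit 5) (nat_lit 0x14000200000001400080000000000000000000000000000000) (nat_lit 0x0) (nat_lit 0x17000b00140000000000000000000000000000000) := T_25 (nat_lit 143) (nat_lit 160) (nat_lit 6) (nat_lit 7) (nat_lit 11) L17998 (by decide +kernel)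
theorem L18000 : W_25 (nat_lit 2) (nat_lit 0x14000200020001f00080000000000000000000000000000000) (nat_lit 0x0) (nat_lit 0x7000000000000000000000000000000000000000) := D_25 (nat_lit 157) (nat_lit 156) (nat_lit 158) (nat_lit 1) (nat_lit 7) (nat_lit 8) (nat_lit 1) (nat_lit 8) (nat_lit 8) (by decide +kernel)
theorem L18001 : W_25 (nat_lit 3) (nat_lit 0x14000200020001e00080000000000000000000000000000000) (nat_lit 0x0) (nat_lit 0x7000100040000000000000000000000000000000) := T_25 (nat_lit 140) (nat_lit 126) (nat_lit 2) (nat_lit 4) (nat_lit 8) L18000 (by decide +kernel)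
theorem L18002 : W_25 (nat_lit 4) (nat_lit 0x14000200020001c00080000000000000000000000000000000) (nat_lit 0x0) (nat_lit 0x47000300040000000000000000000000000000000) := T_25 (nat_lit 141) (nat_lit 162) (nat_lit 3) (nat_lit 5) (nat_lit 8) L18001 (by decide +kernel)
theorem L18003 : W_25 (nat_lit 5) (nat_lit 0x14000200000001c00080000000000000000000000000000000) (nat_lit 0x0) (nat_lit 0x400067000300040000000000000000000000000000000) := T_25 (nat_lit 161) (nat_lit 178) (nat_lit 5) (nat_lit 8) (nat_lit 7) L18002 (by decide +kernel)
theorem L18004 : W_25 (nat_lit 6) (nat_lit 0x14000200000001400080000000000000000000000000000000) (nat_lit 0x0) (nat_lit 0x400077000b00040000000000000000000000000000000) := T_25 (nat_lit 143) (nat_lit 160) (nat_lit 6) (nat_lit 7) (nat_lit 11) L18003 (by decide +kernel)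
theorem L18005 : W_25 (nat_lit 2) (nat_lit 0x14001e00000001400080000000000000000000000000000000) (nat_lit 0x0) (nat_lit 0x60000100000000000000000000000000000000000000000000) := D_25 (nat_lit 197) (nat_lit 176) (nat_lit 198) (nat_lit 3) (nat_lit 6) (nat_lit 10) (nat_lit 3) (nat_lit 7) (nat_lit 10) (by decide +kernel)
theorem L18006 : W_25 (nat_lit 3) (nat_lit 0x14000e00000001400080000000000000000000000000000000) (nat_lit 0x0) (nat_lit 0x62001100000000000000000000000000000000000000000000) := T_25 (nat_lit 180) (nat_lit 193) (nat_lit 1) (nat_lit 10) (nat_lit 10) L18005 (by decide +kernel)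
theorem L18007 : W_25 (nat_lit 2) (nat_lit 0x34001e00090001400080000000000000000000000000000000) (nat_lit 0x0) (nat_lit 0x200000000000000004000200000000000000000000000000000000) := D_25 (nat_lit 146) (nat_lit 129) (nat_lit 213) (nat_lit 5) (nat_lit 10) (nat_lit 7) (nat_lit 5) (nat_lit 10) (nat_lit 8) (by decide +kernel)
theorem L18008 : W_25 (nat_lit 3) (nat_lit 0x34001e00010001400080000000000000000000000000000000) (nat_lit 0x0) (nat_lit 0x200000000000180004000200000000000000000000000000000000) := T_25 (nat_lit 163) (nat_lit 164) (nat_lit 2) (nat_lit 7) (nat_lit 10) L18007 (by decide +kernel)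
theorem L18009 : W_25 (nat_lit 4) (nat_lit 0x14001e00010001400080000000000000000000000000000000) (nat_lit 0x0) (nat_lit 0x200060000000180004000200000000000000000000000000000000) := T_25 (nat_lit 197) (nat_lit 198) (nat_lit 3) (nat_lit 7) (nat_lit 10) L18008 (by decide +kernel)
theorem L18010 : W_25 (nat_lit 5) (nat_lit 0x14001e00000001400080000000000000000000000000000000) (nat_lit 0x0) (nat_lit 0x200060000000198004000200000000000000000000000000000000) := T_25 (nat_lit 160) (nat_lit 159) (nat_lit 0) (nat_lit 10) (nat_lit 10) L18009 (by decide +kernel)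
theorem L18011 : W_25 (nat_lit 6) (nat_lit 0x14000e00000001400080000000000000000000000000000000) (nat_lit 0x0) (nat_lit 0x200062001000198004000200000000000000000000000000000000) := T_25 (nat_lit 180) (nat_lit 193) (nat_lit 1) (nat_lit 10) (nat_lit 10) L18010 (by decide +kernel)
theorem L18012 : W_25 (nat_lit 2) (nat_lit 0x14000f00000001400080000000000000000000000000000000) (nat_lit 0x0) (nat_lit 0xc000000020000000000000000000000000000000) := D_25 (nat_lit 159) (nat_lit 158) (nat_lit 125) (nat_lit 0) (nat_lit 9) (nat_lit 10) (nat_lit 7) (nat_lit 6) (nat_lit 7) (by decide +kernel)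
theorem L18013 : W_25 (nat_lit 3) (nat_lit 0x14000e00000001400080000000000000000000000000000000) (nat_lit 0x0) (nat_lit 0x2000010000c000000020000000000000000000000000000000) := T_25 (nat_lit 176) (nat_lit 197) (nat_lit 3) (nat_lit 6) (nat_lit 10) L18012 (by decide +kernel)
theorem L18014 : W_25 (nat_lit 2) (nat_lit 0x14001e000d0001400080000000000000000000000000000000) (nat_lit 0x0) (nat_lit 0x4000200000000000000004000000000000000000000000000000000000) := D_25 (nat_lit 213) (nat_lit 230) (nat_lit 146) (nat_lit 6) (nat_lit 9) (nat_lit 13) (nat_lit 6) (nat_lit 9) (nat_lit 12) (by decide +kernel)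
theorem L18015 : W_25 (nat_lit 3) (nat_lit 0x14001e00090001400080000000000000000000000000000000) (nat_lit 0x0) (nat_lit 0x4000200000000100040004000000000000000000000000000000000000) := T_25 (nat_lit 162) (nat_lit 176) (nat_lit 2) (nat_lit 6) (nat_lit 10) L18014 (by decide +kernel)
theorem L18016 : W_25 (nat_lit 4) (nat_lit 0x14001e00010001400080000000000000000000000000000000) (nat_lit 0x0) (nat_lit 0x40002000000001001c0004000000000000000000000000000000000000) := T_25 (nat_lit 163) (nat_lit 164) (nat_lit 2) (nat_lit 7) (nat_lit 10) L18015 (by decide +kernel)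
theorem L18017 : W_25 (nat_lit 5) (nat_lit 0x14001e00000001400080000000000000000000000000000000) (nat_lit 0x0) (nat_lit 0x40002000000001001d8004000000000000000000000000000000000000) := T_25 (nat_lit 160) (nat_lit 159) (nat_lit 0) (nat_lit 10) (nat_lit 10) L18016 (by decide +kernel)
theorem L18018 : W_25 (nat_lit 6) (nat_lit 0x14000e00000001400080000000000000000000000000000000) (nat_lit 0x0) (nat_lit 0x40002000020011001d8004000000000000000000000000000000000000) := T_25 (nat_lit 180) (nat_lit 193) (nat_lit 1) (nat_lit 10) (nat_lit 10) L18017 (by decide +kernel)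
theorem L18019 : W_25 (nat_lit 7) (nat_lit 0x14000600000001400080000000000000000000000000000000) (nat_lit 0x0) (nat_lit 0x40002000620019001dc004000220000000000000000000000000000000) := Q_25 (nat_lit 179) (C_25 L18006 (C_25 L18011 (C_25 L18013 (C_25 L18018 N_25)))) (by decide +kernel)
theorem L18020 : W_25 (nat_lit 8) (nat_lit 0x14000200000001400080000000000000000000000000000000) (nat_lit 0x0) (nat_lit 0x4000200062001d001fc004000220000000000000000000000000000000) := T_25 (nat_lit 178) (nat_lit 161) (nat_lit 5) (nat_lit 8) (nat_lit 7) L18019 (by decide +kernel)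
theorem L18021 : W_25 (nat_lit 2) (nat_lit 0x14000200020001600080000000000000000000000000000000) (nat_lit 0x0) (nat_lit 0x40000800100000000000000000000000000000000) := D_25 (nat_lit 143) (nat_lit 162) (nat_lit 128) (nat_lit 3) (nat_lit 5) (nat_lit 8) (nat_lit 2) (nat_lit 5) (nat_lit 8) (by decide +kernel)
theorem L18022 : W_25 (nat_lit 3) (nat_lit 0x14000200000001600080000000000000000000000000000000) (nat_lit 0x0) (nat_lit 0x400060000800100000000000000000000000000000000) := T_25 (nat_lit 161) (nat_lit 178) (nat_lit 5) (nat_lit 8) (nat_lit 7) L18021 (by decide +kernel)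
theorem L18023 : W_25 (nat_lit 4) (nat_lit 0x14000200000001600080000000000000000000000000000000) (nat_lit 0x0) (nat_lit 0x7000900140000000000000000000000000000000) := T_25 (nat_lit 143) (nat_lit 128) (nat_lit 2) (nat_lit 5) (nat_lit 8) L17997 (by decide +kernel)
theorem L18024 : W_25 (nat_lit 4) (nat_lit 0x14000200020001600080000000000000000000000000000000) (nat_lit 0x0) (nat_lit 0x47000900040000000000000000000000000000000) := T_25 (nat_lit 143) (nat_lit 162) (nat_lit 3) (nat_lit 5) (nat_lit 8) L18001 (by decide +kernel)
theorem L18025 : W_25 (nat_lit 5) (nat_lit 0x14000200000001600080000000000000000000000000000000) (nat_lit 0x0) (nat_lit 0x400067000900040000000000000000000000000000000) := T_25 (nat_lit 161) (nat_lit 178) (nat_lit 5) (nat_lit 8) (nat_lit 7) L18024 (by decide +kernel)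
theorem L18026 : W_25 (nat_lit 2) (nat_lit 0x140002000280016000e0000000000000000000000000000000) (nat_lit 0x0) (nat_lit 0x180010000000000000000000000000000000) := D_25 (nat_lit 140) (nat_lit 124) (nat_lit 139) (nat_lit 1) (nat_lit 8) (nat_lit 7) (nat_lit 2) (nat_lit 3) (nat_lit 8) (by decide +kernel)
theorem L18027 : W_25 (nat_lit 3) (nat_lit 0x140002000280016000a0000000000000000000000000000000) (nat_lit 0x0) (nat_lit 0x180150000000000000000000000000000000) := T_25 (nat_lit 126) (nat_lit 128) (nat_lit 1) (nat_lit 9) (nat_lit 7) L18026 (by decide +kernel)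
theorem L18028 : W_25 (nat_lit 4) (nat_lit 0x140002000200016000a0000000000000000000000000000000) (nat_lit 0x0) (nat_lit 0x100008000180150000000000000000000000000000000) := T_25 (nat_lit 159) (nat_lit 176) (nat_lit 7) (nat_lit 6) (nat_lit 7) L18027 (by decide +kernel)
theorem L18029 : W_25 (nat_lit 5) (nat_lit 0x140002000000016000a0000000000000000000000000000000) (nat_lit 0x0) (nat_lit 0x500028000180150000000000000000000000000000000) := T_25 (nat_lit 161) (nat_lit 178) (nat_lit 5) (nat_lit 8) (nat_lit 7) L18028 (by decide +kernel)
theorem L18030 : W_25 (nat_lit 2) (nat_lit 0x140002000000016000e0000000000000000000000000000000) (nat_lit 0x0) (nat_lit 0x180010000000000000000000000000000000) := D_25 (nat_lit 140) (nat_lit 124) (nat_lit 139) (nat_lit 1) (nat_lit 8) (nat_lit 7) (nat_lit 2) (nat_lit 3) (nat_lit 8) (by decide +kernel)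
theorem L18031 : W_25 (nat_lit 3) (nat_lit 0x140002000000016000a0000000000000000000000000000000) (nat_lit 0x0) (nat_lit 0x180150000000000000000000000000000000) := T_25 (nat_lit 126) (nat_lit 128) (nat_lit 1) (nat_lit 9) (nat_lit 7) L18030 (by decide +kernel)
theorem L18032 : W_25 (nat_lit 2) (nat_lit 0x14000f000000016000a0000000000000000000000000000000) (nat_lit 0x0) (nat_lit 0x3001000000000000000000000000000000000000000000000) := D_25 (nat_lit 193) (nat_lit 192) (nat_lit 180) (nat_lit 1) (nat_lit 9) (nat_lit 10) (nat_lit 1) (nat_lit 10) (nat_lit 10) (by decide +kernel)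
theorem L18033 : W_25 (nat_lit 3) (nat_lit 0x140007000000016000a0000000000000000000000000000000) (nat_lit 0x0) (nat_lit 0x23001800000000000000000000000000000000000000000000) := T_25 (nat_lit 179) (nat_lit 197) (nat_lit 3) (nat_lit 6) (nat_lit 10) L18032 (by decide +kernel)
theorem L18034 : W_25 (nat_lit 4) (nat_lit 0x140003000000016000a0000000000000000000000000000000) (nat_lit 0x0) (nat_lit 0x23001c00020000000000000000000000000000000000000000) := T_25 (nat_lit 178) (nat_lit 161) (nat_lit 5) (nat_lit 8) (nat_lit 7) L18033 (by decide +kernel)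
theorem L18035 : W_25 (nat_lit 5) (nat_lit 0x140002000000016000a0000000000000000000000000000000) (nat_lit 0x0) (nat_lit 0x23001d00028000000000000000000000000000000000000000) := T_25 (nat_lit 176) (nat_lit 159) (nat_lit 7) (nat_lit 6) (nat_lit 7) L18034 (by decide +kernel)
theorem L18036 : W_25 (nat_lit 6) (nat_lit 0x14000200000001600080000000000000000000000000000000) (nat_lit 0x0) (nat_lit 0x23001d00028000180170000000000000000000000000000000) := Q_25 (nat_lit 125) (C_25 L18029 (C_25 L18031 (C_25 L18035 N_25))) (by decide +kernel)
theorem L18037 : W_25 (nat_lit 7) (nat_lit 0x14000200000001400080000000000000000000000000000000) (nat_lit 0x0) (nat_lit 0x23001d0006f000b80170000000000000000000000000000000) := Q_25 (nat_lit 141) (C_25 L18022 (C_25 L18023 (C_25 L18025 (C_25 L18036 N_25)))) (by decide +kernel)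
theorem L18038 : W_25 (nat_lit 2) (nat_lit 0x14000200020001c00080000000000000000000000000000000) (nat_lit 0x0) (nat_lit 0x40000200100000000000000000000000000000000) := D_25 (nat_lit 141) (nat_lit 162) (nat_lit 128) (nat_lit 3) (nat_lit 5) (nat_lit 8) (nat_lit 2) (nat_lit 5) (nat_lit 8) (by decide +kernel)
theorem L18039 : W_25 (nat_lit 3) (nat_lit 0x14000200020001400080000000000000000000000000000000) (nat_lit 0x0) (nat_lit 0x50000a00100000000000000000000000000000000) := T_25 (nat_lit 143) (nat_lit 160) (nat_lit 6) (nat_lit 7) (nat_lit 11) L18038 (by decide +kernel)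
theorem L18040 : W_25 (nat_lit 4) (nat_lit 0x14000200000001400080000000000000000000000000000000) (nat_lit 0x0) (nat_lit 0x400070000a00100000000000000000000000000000000) := T_25 (nat_lit 161) (nat_lit 178) (nat_lit 5) (nat_lit 8) (nat_lit 7) L18039 (by decide +kernel)
theorem L18041 : W_25 (nat_lit 9) (nat_lit 0x14000200000001000080000000000000000000000000000000) (nat_lit 0x0) (nat_lit 0x4000200063001d001ff004f80370000000000000000000000000000000) := Q_25 (nat_lit 142) (C_25 L17999 (C_25 L18004 (C_25 L18020 (C_25 L18037 (C_25 L18040 N_25))))) (by decide +kernel)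
theorem L18042 : W_25 (nat_lit 5) (nat_lit 0x34000200010001000080000000000000000000000000000000) (nat_lit 0x0) (nat_lit 0x1c00048007100000000000000000000000000000000000000000000) := T_25 (nat_lit 195) (nat_lit 176) (nat_lit 0) (nat_lit 10) (nat_lit 11) L17907 (by decide +kernel)
theorem L18043 : W_25 (nat_lit 6) (nat_lit 0x34000200000001000080000000000000000000000000000000) (nat_lit 0x0) (nat_lit 0x1c00048007100010000800000000000000000000000000000000000) := T_25 (nat_lit 160) (nat_lit 143) (nat_lit 6) (nat_lit 7) (nat_lit 11) L18042 (by decide +kernel)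
theorem L18044 : W_25 (nat_lit 2) (nat_lit 0x74000600010001000080000000000000000000000000000000) (nat_lit 0x0) (nat_lit 0x80001800000000000000000000000000000000000000000000) := D_25 (nat_lit 179) (nat_lit 199) (nat_lit 180) (nat_lit 0) (nat_lit 12) (nat_lit 11) (nat_lit 3) (nat_lit 7) (nat_lit 10) (by decide +kernel)
theorem L18045 : W_25 (nat_lit 3) (nat_lit 0x34000600010001000080000000000000000000000000000000) (nat_lit 0x0) (nat_lit 0xc8001800000000000000000000000000000000000000000000) := T_25 (nat_lit 198) (nat_lit 195) (nat_lit 0) (nat_lit 11) (nat_lit 11) L18044 (by decide +kernel)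
theorem L18046 : W_25 (nat_lit 4) (nat_lit 0x34000600000001000080000000000000000000000000000000) (nat_lit 0x0) (nat_lit 0xc8001800010000800000000000000000000000000000000000) := T_25 (nat_lit 160) (nat_lit 143) (nat_lit 6) (nat_lit 7) (nat_lit 11) L18045 (by decide +kernel)
theorem L18047 : W_25 (nat_lit 5) (nat_lit 0x34000200000001000080000000000000000000000000000000) (nat_lit 0x0) (nat_lit 0xc8001c00030000800000000000000000000000000000000000) := T_25 (nat_lit 178) (nat_lit 161) (nat_lit 5) (nat_lit 8) (nat_lit 7) L18046 (by decide +kernel)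
theorem L18048 : W_25 (nat_lit 2) (nat_lit 0x80003c002200020001000080000000000000000000000000000000) (nat_lit 0x0) (nat_lit 0x1000040004000000000000000000000000000000000000000000000) := D_25 (nat_lit 198) (nat_lit 182) (nat_lit 216) (nat_lit 2) (nat_lit 8) (nat_lit 11) (nat_lit 3) (nat_lit 8) (nat_lit 11) (by decide +kernel)
theorem L18049 : W_25 (nat_lit 3) (nat_lit 0x3c002200020001000080000000000000000000000000000000) (nat_lit 0x0) (nat_lit 0x1c00040004000000000000000000000000000000000000000000000) := T_25 (nat_lit 215) (nat_lit 214) (nat_lit 3) (nat_lit 7) (nat_lit 11) L18048 (by decide +kernel)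
theorem L18050 : W_25 (nat_lit 4) (nat_lit 0x3c000200020001000080000000000000000000000000000000) (nat_lit 0x0) (nat_lit 0x1c00040007000000000000000000000000000000000000000000000) := T_25 (nat_lit 181) (nat_lit 180) (nat_lit 2) (nat_lit 7) (nat_lit 11) L18049 (by decide +kernel)
theorem L18051 : W_25 (nat_lit 5) (nat_lit 0x34000200020001000080000000000000000000000000000000) (nat_lit 0x0) (nat_lit 0x1c00048007100000000000000000000000000000000000000000000) := T_25 (nat_lit 195) (nat_lit 176) (nat_lit 0) (nat_lit 10) (nat_lit 11) L18050 (by decide +kernel)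
theorem L18052 : W_25 (nat_lit 6) (nat_lit 0x34000200000001000080000000000000000000000000000000) (nat_lit 0x0) (nat_lit 0x1c00048007500020000000000000000000000000000000000000000) := T_25 (nat_lit 161) (nat_lit 178) (nat_lit 5) (nat_lit 8) (nat_lit 7) L18051 (by decide +kernel)
theorem L18053 : W_25 (nat_lit 2) (nat_lit 0x34000e00010001000080000000000000000000000000000000) (nat_lit 0x0) (nat_lit 0xc0001000000000000000000000000000000000000000000000) := D_25 (nat_lit 198) (nat_lit 199) (nat_lit 180) (nat_lit 0) (nat_lit 12) (nat_lit 11) (nat_lit 3) (nat_lit 7) (nat_lit 10) (by decide +kernel)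
theorem L18054 : W_25 (nat_lit 3) (nat_lit 0x34000600010001000080000000000000000000000000000000) (nat_lit 0x0) (nat_lit 0xc0001900000000000000000000000000000000000000000000) := T_25 (nat_lit 179) (nat_lit 176) (nat_lit 3) (nat_lit 6) (nat_lit 10) L18053 (by decide +kernel)
theorem L18055 : W_25 (nat_lit 4) (nat_lit 0x34000200010001000080000000000000000000000000000000) (nat_lit 0x0) (nat_lit 0xc0001d00020000000000000000000000000000000000000000) := T_25 (nat_lit 178) (nat_lit 161) (nat_lit 5) (nat_lit 8) (nat_lit 7) L18054 (by decide +kernel)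
theorem L18056 : W_25 (nat_lit 5) (nat_lit 0x34000200000001000080000000000000000000000000000000) (nat_lit 0x0) (nat_lit 0xc0001d00030000800000000000000000000000000000000000) := T_25 (nat_lit 160) (nat_lit 143) (nat_lit 6) (nat_lit 7) (nat_lit 11) L18055 (by decide +kernel)
theorem L18057 : W_25 (nat_lit 2) (nat_lit 0x34000600000001000080000000000000000000000000000000) (nat_lit 0x0) (nat_lit 0x48000100000000000000000000000000000000000000000000) := D_25 (nat_lit 195) (nat_lit 176) (nat_lit 198) (nat_lit 0) (nat_lit 10) (nat_lit 11) (nat_lit 0) (nat_lit 11) (nat_lit 11) (by decide +kernel)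
theorem L18058 : W_25 (nat_lit 3) (nat_lit 0x34000200000001000080000000000000000000000000000000) (nat_lit 0x0) (nat_lit 0x48000500020000000000000000000000000000000000000000) := T_25 (nat_lit 178) (nat_lit 161) (nat_lit 5) (nat_lit 8) (nat_lit 7) L18057 (by decide +kernel)
theorem L18059 : W_25 (nat_lit 6) (nat_lit 0x3c000600010001000080000000000000000000000000000000) (nat_lit 0x0) (nat_lit 0x10000a000d00000003800048000000000000000000000000000000000000000) := T_25 (nat_lit 229) (nat_lit 212) (nat_lit 4) (nat_lit 8) (nat_lit 13) L17970 (by decide +kernel)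
theorem L18060 : W_25 (nat_lit 7) (nat_lit 0x3c000600000001000080000000000000000000000000000000) (nat_lit 0x0) (nat_lit 0x10000a000d00000003800058000800000000000000000000000000000000000) := T_25 (nat_lit 160) (nat_lit 143) (nat_lit 6) (nat_lit 7) (nat_lit 11) L18059 (by decide +kernel)
theorem L18061 : W_25 (nat_lit 8) (nat_lit 0x3c000200000001000080000000000000000000000000000000) (nat_lit 0x0) (nat_lit 0x10000a000d00000003c00078000800000000000000000000000000000000000) := T_25 (nat_lit 178) (nat_lit 161) (nat_lit 5) (nat_lit 8) (nat_lit 7) L18060 (by decide +kernel)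
theorem L18062 : W_25 (nat_lit 9) (nat_lit 0x34000200000001000080000000000000000000000000000000) (nat_lit 0x0) (nat_lit 0x10000a000d00008003d00078000800000000000000000000000000000000000) := T_25 (nat_lit 195) (nat_lit 176) (nat_lit 0) (nat_lit 10) (nat_lit 11) L18061 (by decide +kernel)
theorem L18063 : W_25 (nat_lit 10) (nat_lit 0x14000200000001000080000000000000000000000000000000) (nat_lit 0x0) (nat_lit 0x10000a001d000e8007d00078000800000000000000000000000000000000000) := Q_25 (nat_lit 197) (C_25 L18043 (C_25 L18047 (C_25 L18052 (C_25 L18056 (C_25 L18058 (C_25 L18062 N_25)))))) (by decide +kernel)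
theorem L18064 : W_25 (nat_lit 10) (nat_lit 0x14000200000001000080000000000000000000000000000000) (nat_lit 0x0) (nat_lit 0x10002800f7806bc00d70030000800000000000000000000000000000000000) := Q_25 (nat_lit 195) (C_25 L17994 (C_25 L17923 (C_25 L17981 (C_25 L5194 N_25)))) (by decide +kernel)
theorem L18065 : W_25 (nat_lit 7) (nat_lit 0x16000200000001000080000000000000000000000000000000) (nat_lit 0x0) (nat_lit 0x10002800770009001900070000800000000000000000000000000000000000) := Q_25 (nat_lit 195) (C_25 L17943 (C_25 L7805 (C_25 L17938 N_25))) (by decide +kernel)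
theorem L18066 : W_25 (nat_lit 2) (nat_lit 0x17000600010001000080000000000000000000000000000000) (nat_lit 0x0) (nat_lit 0x8001800000000000000000000000000000000000000000000) := D_25 (nat_lit 179) (nat_lit 180) (nat_lit 195) (nat_lit 1) (nat_lit 10) (nat_lit 10) (nat_lit 2) (nat_lit 5) (nat_lit 11) (by decide +kernel)
theorem L18067 : W_25 (nat_lit 3) (nat_lit 0x16000600010001000080000000000000000000000000000000) (nat_lit 0x0) (nat_lit 0x9801800000000000000000000000000000000000000000000) := T_25 (nat_lit 192) (nat_lit 191) (nat_lit 2) (nat_lit 4) (nat_lit 11) L18066 (by decide +kernel)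
theorem L18068 : W_25 (nat_lit 4) (nat_lit 0x16000200010001000080000000000000000000000000000000) (nat_lit 0x0) (nat_lit 0x9801c00020000000000000000000000000000000000000000) := T_25 (nat_lit 178) (nat_lit 161) (nat_lit 5) (nat_lit 8) (nat_lit 7) L18067 (by decide +kernel)
theorem L18069 : W_25 (nat_lit 5) (nat_lit 0x16000200000001000080000000000000000000000000000000) (nat_lit 0x0) (nat_lit 0x9801c00030000800000000000000000000000000000000000) := T_25 (nat_lit 160) (nat_lit 143) (nat_lit 6) (nat_lit 7) (nat_lit 11) L18068 (by decide +kernel)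
theorem L18070 : W_25 (nat_lit 6) (nat_lit 0x16000200000001000080000000000000000000000000000000) (nat_lit 0x0) (nat_lit 0x10000800770009001d00010000800000000000000000000000000000000000) := Q_25 (nat_lit 195) (C_25 L5463 (C_25 L17938 (C_25 L17967 N_25))) (by decide +kernel)
theorem L18071 : W_25 (nat_lit 2) (nat_lit 0x1000000024001e000600010001000080000000000000000000000000000000) (nat_lit 0x0) (nat_lit 0x100001800000000000000000000000000000000000000000000000) := D_25 (nat_lit 192) (nat_lit 212) (nat_lit 191) (nat_lit 3) (nat_lit 5) (nat_lit 11) (nat_lit 2) (nat_lit 4) (nat_lit 11) (by decide +kernel)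
theorem L18072 : W_25 (nat_lit 3) (nat_lit 0x1000000004001e000600010001000080000000000000000000000000000000) (nat_lit 0x0) (nat_lit 0x700001800000000000000000000000000000000000000000000000) := T_25 (nat_lit 213) (nat_lit 214) (nat_lit 3) (nat_lit 6) (nat_lit 11) L18071 (by decide +kernel)
theorem L18073 : W_25 (nat_lit 4) (nat_lit 0x1000000004001e000200010001000080000000000000000000000000000000) (nat_lit 0x0) (nat_lit 0x700001800400020000000000000000000000000000000000000000) := T_25 (nat_lit 178) (nat_lit 161) (nat_lit 5) (nat_lit 8) (nat_lit 7) L18072 (by decide +kernel)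
theorem L18074 : W_25 (nat_lit 5) (nat_lit 0x10000000040016000200010001000080000000000000000000000000000000) (nat_lit 0x0) (nat_lit 0x720009800400020000000000000000000000000000000000000000) := T_25 (nat_lit 195) (nat_lit 209) (nat_lit 1) (nat_lit 9) (nat_lit 11) L18073 (by decide +kernel)
theorem L18075 : W_25 (nat_lit 6) (nat_lit 0x40016000200010001000080000000000000000000000000000000) (nat_lit 0x0) (nat_lit 0x10000800720009800400020000000000000000000000000000000000000000) := T_25 (nat_lit 244) (nat_lit 227) (nat_lit 6) (nat_lit 6) (nat_lit 14) L18074 (by decide +kernel)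
theorem L18076 : W_25 (nat_lit 7) (nat_lit 0x40016000200000001000080000000000000000000000000000000) (nat_lit 0x0) (nat_lit 0x10000800720009800400030000800000000000000000000000000000000000) := T_25 (nat_lit 160) (nat_lit 143) (nat_lit 6) (nat_lit 7) (nat_lit 11) L18075 (by decide +kernel)
theorem L18077 : W_25 (nat_lit 3) (nat_lit 0x4001e000200000001000080000000000000000000000000000000) (nat_lit 0x0) (nat_lit 0x10000800000000000100010000800000000000000000000000000000000000) := T_25 (nat_lit 160) (nat_lit 143) (nat_lit 6) (nat_lit 7) (nat_lit 11) L17936 (by decide +kernel)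
theorem L18078 : W_25 (nat_lit 4) (nat_lit 0x40016000200000001000080000000000000000000000000000000) (nat_lit 0x0) (nat_lit 0x10000800020008000100010000800000000000000000000000000000000000) := T_25 (nat_lit 195) (nat_lit 209) (nat_lit 1) (nat_lit 9) (nat_lit 11) L18077 (by decide +kernel)
theorem L18079 : W_25 (nat_lit 2) (nat_lit 0x280034001e000300020001000080000000000000000000000000000000) (nat_lit 0x0) (nat_lit 0x8001400000000000000000000000000000000000000000000000000000000) := D_25 (nat_lit 226) (nat_lit 243) (nat_lit 228) (nat_lit 5) (nat_lit 6) (nat_lit 10) (nat_lit 2) (nat_lit 5) (nat_lit 13) (by decide +kernel)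
theorem L18080 : W_25 (nat_lit 3) (nat_lit 0x280034001e000200020001000080000000000000000000000000000000) (nat_lit 0x0) (nat_lit 0x8001400000000000100010000000000000000000000000000000000000000) := T_25 (nat_lit 176) (nat_lit 160) (nat_lit 6) (nat_lit 6) (nat_lit 13) L18079 (by decide +kernel)
theorem L18081 : W_25 (nat_lit 4) (nat_lit 0x80034001e000200020001000080000000000000000000000000000000) (nat_lit 0x0) (nat_lit 0x48003400000000000100010000000000000000000000000000000000000000) := T_25 (nat_lit 229) (nat_lit 246) (nat_lit 4) (nat_lit 8) (nat_lit 14) L18080 (by decide +kernel)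
theorem L18082 : W_25 (nat_lit 5) (nat_lit 0x34001e000200020001000080000000000000000000000000000000) (nat_lit 0x0) (nat_lit 0x58003c00000000000100010000000000000000000000000000000000000000) := T_25 (nat_lit 227) (nat_lit 244) (nat_lit 6) (nat_lit 6) (nat_lit 14) L18081 (by decide +kernel)
theorem L18083 : W_25 (nat_lit 6) (nat_lit 0x24001e000200020001000080000000000000000000000000000000) (nat_lit 0x0) (nat_lit 0x58003c00100001000100010000000000000000000000000000000000000000) := T_25 (nat_lit 212) (nat_lit 192) (nat_lit 3) (nat_lit 5) (nat_lit 11) L18082 (by decide +kernel)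
theorem L18084 : W_25 (nat_lit 7) (nat_lit 0x4001e000200020001000080000000000000000000000000000000) (nat_lit 0x0) (nat_lit 0x58003c00700001000100010000000000000000000000000000000000000000) := T_25 (nat_lit 213) (nat_lit 214) (nat_lit 3) (nat_lit 6) (nat_lit 11) L18083 (by decide +kernel)
theorem L18085 : W_25 (nat_lit 8) (nat_lit 0x4001e000200000001000080000000000000000000000000000000) (nat_lit 0x0) (nat_lit 0x58003c00700001000500030000000000000000000000000000000000000000) := T_25 (nat_lit 161) (nat_lit 178) (nat_lit 5) (nat_lit 8) (nat_lit 7) L18084 (by decide +kernel)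
theorem L18086 : W_25 (nat_lit 9) (nat_lit 0x40016000200000001000080000000000000000000000000000000) (nat_lit 0x0) (nat_lit 0x58003c00720009000500030000000000000000000000000000000000000000) := T_25 (nat_lit 195) (nat_lit 209) (nat_lit 1) (nat_lit 9) (nat_lit 11) L18085 (by decide +kernel)
theorem L18087 : W_25 (nat_lit 2) (nat_lit 0x1000000004001f000600000001000080000000000000000000000000000000) (nat_lit 0x0) (nat_lit 0x700000000000000000000000000000000000000000000000000000) := D_25 (nat_lit 213) (nat_lit 214) (nat_lit 212) (nat_lit 3) (nat_lit 6) (nat_lit 11) (nat_lit 3) (nat_lit 5) (nat_lit 11) (by decide +kernel)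
theorem L18088 : W_25 (nat_lit 3) (nat_lit 0x1000000004001e000600000001000080000000000000000000000000000000) (nat_lit 0x0) (nat_lit 0x700001800000000000000000000000000000000000000000000000) := T_25 (nat_lit 192) (nat_lit 191) (nat_lit 2) (nat_lit 4) (nat_lit 11) L18087 (by decide +kernel)
theorem L18089 : W_25 (nat_lit 4) (nat_lit 0x10000000040016000600000001000080000000000000000000000000000000) (nat_lit 0x0) (nat_lit 0x720009800000000000000000000000000000000000000000000000) := T_25 (nat_lit 195) (nat_lit 209) (nat_lit 1) (nat_lit 9) (nat_lit 11) L18088 (by decide +kernel)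
theorem L18090 : W_25 (nat_lit 5) (nat_lit 0x10000000040016000200000001000080000000000000000000000000000000) (nat_lit 0x0) (nat_lit 0x720009800400020000000000000000000000000000000000000000) := T_25 (nat_lit 178) (nat_lit 161) (nat_lit 5) (nat_lit 8) (nat_lit 7) L18089 (by decide +kernel)
theorem L18091 : W_25 (nat_lit 6) (nat_lit 0x40016000200000001000080000000000000000000000000000000) (nat_lit 0x0) (nat_lit 0x10000800720009800400020000000000000000000000000000000000000000) := T_25 (nat_lit 244) (nat_lit 227) (nat_lit 6) (nat_lit 6) (nat_lit 14) L18090 (by decide +kernel)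
theorem L18092 : W_25 (nat_lit 2) (nat_lit 0x40016000200010001000080000000000000000000000000000000) (nat_lit 0x0) (nat_lit 0x10000800000000000100000000000000000000000000000000000000000000) := D_25 (nat_lit 227) (nat_lit 244) (nat_lit 176) (nat_lit 6) (nat_lit 6) (nat_lit 14) (nat_lit 6) (nat_lit 6) (nat_lit 13) (by decide +kernel)
theorem L18093 : W_25 (nat_lit 3) (nat_lit 0x40016000200000001000080000000000000000000000000000000) (nat_lit 0x0) (nat_lit 0x10000800000000000100010000800000000000000000000000000000000000) := T_25 (nat_lit 160) (nat_lit 143) (nat_lit 6) (nat_lit 7) (nat_lit 11) L18092 (by decide +kernel)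
theorem L18094 : W_25 (nat_lit 2) (nat_lit 0x24001f000200000001800080000000000000000000000000000000) (nat_lit 0x0) (nat_lit 0x800400020000000000000000000000000000000000000000) := D_25 (nat_lit 178) (nat_lit 191) (nat_lit 161) (nat_lit 2) (nat_lit 4) (nat_lit 11) (nat_lit 7) (nat_lit 8) (nat_lit 8) (by decide +kernel)
theorem L18095 : W_25 (nat_lit 3) (nat_lit 0x24001e000200000001800080000000000000000000000000000000) (nat_lit 0x0) (nat_lit 0x100001800400020000000000000000000000000000000000000000) := T_25 (nat_lit 192) (nat_lit 212) (nat_lit 3) (nat_lit 5) (nat_lit 11) L18094 (by decide +kernel)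
theorem L18096 : W_25 (nat_lit 4) (nat_lit 0x4001e000200000001800080000000000000000000000000000000) (nat_lit 0x0) (nat_lit 0x700001800400020000000000000000000000000000000000000000) := T_25 (nat_lit 213) (nat_lit 214) (nat_lit 3) (nat_lit 6) (nat_lit 11) L18095 (by decide +kernel)
theorem L18097 : W_25 (nat_lit 5) (nat_lit 0x4001e000200000001000080000000000000000000000000000000) (nat_lit 0x0) (nat_lit 0x700001800400030000800000000000000000000000000000000000) := T_25 (nat_lit 143) (nat_lit 160) (nat_lit 6) (nat_lit 7) (nat_lit 11) L18096 (by decide +kernel)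
theorem L18098 : W_25 (nat_lit 6) (nat_lit 0x40016000200000001000080000000000000000000000000000000) (nat_lit 0x0) (nat_lit 0x720009800400030000800000000000000000000000000000000000) := T_25 (nat_lit 195) (nat_lit 209) (nat_lit 1) (nat_lit 9) (nat_lit 11) L18097 (by decide +kernel)
theorem L18099 : W_25 (nat_lit 10) (nat_lit 0x16000200000001000080000000000000000000000000000000) (nat_lit 0x0) (nat_lit 0x58003c00760009800500030000800000000000000000000000000000000000) := Q_25 (nat_lit 210) (C_25 L18076 (C_25 L18078 (C_25 L18086 (C_25 L18091 (C_25 L18093 (C_25 L18098 N_25)))))) (by decide +kernel)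
theorem L18100 : W_25 (nat_lit 5) (nat_lit 0x16000200000001000080000000000000000000000000000000) (nat_lit 0x0) (nat_lit 0x10000800660008001d00070000800000000000000000000000000000000000) := Q_25 (nat_lit 195) (C_25 L5094 (C_25 L17938 N_25)) (by decide +kernel)
theorem L18101 : W_25 (nat_lit 11) (nat_lit 0x14000200000001000080000000000000000000000000000000) (nat_lit 0x0) (nat_lit 0x58003c0077000b801d00070000800000000000000000000000000000000000) := Q_25 (nat_lit 193) (C_25 L18065 (C_25 L18069 (C_25 L5204 (C_25 L18070 (C_25 L18099 (C_25 L18100 N_25)))))) (by decide +kernel)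
theorem L18102 : W_25 (nat_lit 14) (nat_lit 0x4000200000001000080000000000000000000000000000000) (nat_lit 0x0) (nat_lit 0x1d800fc03f780fbc07d701ff004f80770000000000000000000000000000000) := Q_25 (nat_lit 196) (C_25 L17951 (C_25 L17959 (C_25 L17988 (C_25 L17990 (C_25 L17995 (C_25 L18041 (C_25 L18063 (C_25 L18064 (C_25 L18101 N_25))))))))) (by decide +kernel)
theorem L18103 : W_25 (nat_lit 18) (nat_lit 0x200000001000080000000000000000000000000000000) (nat_lit 0x0) (nat_lit 0x3d001f801ff00ffc3ffc0ffe0fd701ff004f80770000000000000000000000000000000) := Q_25 (nat_lit 194) (C_25 L17798 (C_25 L17849 (C_25 L17851 (C_25 L5483 (C_25 L18102 N_25))))) (by decide +kernel)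
theorem L71599 : W_25 (nat_lit 2) (nat_lit 0x2000000008003c001600190009c000000000000000000000000000000) (nat_lit 0x0) (nat_lit 0x400060000000000000000000000000000000) := D_25 (nat_lit 125) (nat_lit 142) (nat_lit 126) (nat_lit 3) (nat_lit 3) (nat_lit 7) (nat_lit 3) (nat_lit 4) (nat_lit 7) (by decide +kernel)
theorem L71600 : W_25 (nat_lit 3) (nat_lit 0x2000000008003c001600110009c000000000000000000000000000000) (nat_lit 0x0) (nat_lit 0x8000c00060000000000000000000000000000000) := T_25 (nat_lit 143) (nat_lit 159) (nat_lit 2) (nat_lit 4) (nat_lit 9) L71599 (by decide +kernel)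
theorem L71601 : W_25 (nat_lit 4) (nat_lit 0x8003c001600110009c000000000000000000000000000000) (nat_lit 0x0) (nat_lit 0x200010000000000008000c00060000000000000000000000000000000) := T_25 (nat_lit 225) (nat_lit 208) (nat_lit 6) (nat_lit 4) (nat_lit 13) L71600 (by decide +kernel)
theorem L71602 : W_25 (nat_lit 5) (nat_lit 0x8003c001200110009c000000000000000000000000000000) (nat_lit 0x0) (nat_lit 0x20001000000000000c000c00060000400000000000000000000000000) := T_25 (nat_lit 158) (nat_lit 106) (nat_lit 7) (nat_lit 4) (nat_lit 6) L71601 (by decide +kernel)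
theorem L71603 : W_25 (nat_lit 6) (nat_lit 0x8003c001200110008c000000000000000000000000000000) (nat_lit 0x0) (nat_lit 0x20001000000000000c000c00070000c00000000000000000000000000) := T_25 (nat_lit 124) (nat_lit 107) (nat_lit 6) (nat_lit 4) (nat_lit 10) L71602 (by decide +kernel)
theorem L71604 : W_25 (nat_lit 7) (nat_lit 0x8003c0012001100084000000000000000000000000000000) (nat_lit 0x0) (nat_lit 0x20001000000000000c000c00078000e00000000000000000000000000) := T_25 (nat_lit 123) (nat_lit 105) (nat_lit 4) (nat_lit 4) (nat_lit 10) L71603 (by decide +kernel)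
theorem L71605 : W_25 (nat_lit 8) (nat_lit 0x8003c0012001100080000000000000000000000000000000) (nat_lit 0x0) (nat_lit 0x20001000000000000c000c8007c000e00000000000000000000000000) := T_25 (nat_lit 122) (nat_lit 139) (nat_lit 4) (nat_lit 4) (nat_lit 11) L71604 (by decide +kernel)
theorem L71606 : W_25 (nat_lit 9) (nat_lit 0x8003c0002001100080000000000000000000000000000000) (nat_lit 0x0) (nat_lit 0x20001000000000003c000c8007c000e00000000000000000000000000) := T_25 (nat_lit 160) (nat_lit 161) (nat_lit 2) (nat_lit 4) (nat_lit 10) L71605 (by decide +kernel)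
theorem L71607 : W_25 (nat_lit 10) (nat_lit 0x3c0002001100080000000000000000000000000000000) (nat_lit 0x0) (nat_lit 0x200010000c0000003c000c8007c000e00000000000000000000000000) := T_25 (nat_lit 191) (nat_lit 190) (nat_lit 1) (nat_lit 7) (nat_lit 10) L71606 (by decide +kernel)
theorem L71608 : W_25 (nat_lit 2) (nat_lit 0x8003c0002001100080000000000000000000000000000000) (nat_lit 0x0) (nat_lit 0x20001000000000000000008000000000000000000000000000000) := D_25 (nat_lit 192) (nat_lit 123) (nat_lit 209) (nat_lit 7) (nat_lit 4) (nat_lit 7) (nat_lit 7) (nat_lit 4) (nat_lit 8) (by decide +kernel)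
theorem L71609 : W_25 (nat_lit 3) (nat_lit 0x3c0002001100080000000000000000000000000000000) (nat_lit 0x0) (nat_lit 0x20001c00000000000000008000000000000000000000000000000) := T_25 (nat_lit 191) (nat_lit 190) (nat_lit 1) (nat_lit 7) (nat_lit 10) L71608 (by decide +kernel)
theorem L71610 : W_25 (nat_lit 2) (nat_lit 0x3c0002001100088000400000000000000000000000000) (nat_lit 0x0) (nat_lit 0x10000800040000000000000000000000) := D_25 (nat_lit 107) (nat_lit 90) (nat_lit 124) (nat_lit 6) (nat_lit 4) (nat_lit 9) (nat_lit 6) (nat_lit 4) (nat_lit 10) (by decide +kernel)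
theorem L71611 : W_25 (nat_lit 3) (nat_lit 0x3c0002001100088000000000000000000000000000000) (nat_lit 0x0) (nat_lit 0x4000000010000c00040000000000000000000000) := T_25 (nat_lit 106) (nat_lit 158) (nat_lit 7) (nat_lit 4) (nat_lit 6) L71610 (by decide +kernel)
theorem L71612 : W_25 (nat_lit 4) (nat_lit 0x3c0002001100080000000000000000000000000000000) (nat_lit 0x0) (nat_lit 0x1000000004000000018000c00040000000000000000000000) := T_25 (nat_lit 123) (nat_lit 192) (nat_lit 7) (nat_lit 4) (nat_lit 7) L71611 (by decide +kernel)
theorem L71613 : W_25 (nat_lit 2) (nat_lit 0x3400700008003c001a001180080000000000000000000000000000000) (nat_lit 0x0) (nat_lit 0x800000002000000000000800000000000000000000000000000000000) := D_25 (nat_lit 193) (nat_lit 143) (nat_lit 227) (nat_lit 6) (nat_lit 6) (nat_lit 12) (nat_lit 6) (nat_lit 6) (nat_lit 13) (by decide +kernel)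
theorem L71614 : W_25 (nat_lit 3) (nat_lit 0x3400300008003c001a001180080000000000000000000000000000000) (nat_lit 0x0) (nat_lit 0x8000c0002000000000000800000000000000000000000000000000000) := T_25 (nat_lit 210) (nat_lit 211) (nat_lit 1) (nat_lit 7) (nat_lit 12) L71613 (by decide +kernel)
theorem L71615 : W_25 (nat_lit 4) (nat_lit 0x3000300008003c001a001180080000000000000000000000000000000) (nat_lit 0x0) (nat_lit 0x8c00c0002000000000000800000000000000000000000000000000000) := T_25 (nat_lit 222) (nat_lit 223) (nat_lit 2) (nat_lit 1) (nat_lit 13) L71614 (by decide +kernel)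
theorem L71616 : W_25 (nat_lit 5) (nat_lit 0x1000300008003c001a001180080000000000000000000000000000000) (nat_lit 0x0) (nat_lit 0x2000ac00c0002000000000000800000000000000000000000000000000000) := T_25 (nat_lit 225) (nat_lit 241) (nat_lit 5) (nat_lit 4) (nat_lit 10) L71615 (by decide +kernel)
theorem L71617 : W_25 (nat_lit 6) (nat_lit 0x300008003c001a001180080000000000000000000000000000000) (nat_lit 0x0) (nat_lit 0x2000bc00c8002000000000000800000000000000000000000000000000000) := T_25 (nat_lit 224) (nat_lit 207) (nat_lit 5) (nat_lit 4) (nat_lit 9) L71616 (by decide +kernel)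
theorem L71618 : W_25 (nat_lit 7) (nat_lit 0x200008003c001a001180080000000000000000000000000000000) (nat_lit 0x0) (nat_lit 0x2000fc00d8002000000000000800000000000000000000000000000000000) := T_25 (nat_lit 208) (nat_lit 226) (nat_lit 7) (nat_lit 4) (nat_lit 9) L71617 (by decide +kernel)
theorem L71619 : W_25 (nat_lit 8) (nat_lit 0x8003c001a001180080000000000000000000000000000000) (nat_lit 0x0) (nat_lit 0x2000fc00f8003000000000000800000000000000000000000000000000000) := T_25 (nat_lit 209) (nat_lit 192) (nat_lit 7) (nat_lit 4) (nat_lit 8) L71618 (by decide +kernel)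
theorem L71620 : W_25 (nat_lit 9) (nat_lit 0x8003c0012001180080000000000000000000000000000000) (nat_lit 0x0) (nat_lit 0x2000fc00f800300000000c000800000000000000000000000000000000000) := T_25 (nat_lit 159) (nat_lit 158) (nat_lit 0) (nat_lit 7) (nat_lit 9) L71619 (by decide +kernel)
theorem L71621 : W_25 (nat_lit 10) (nat_lit 0x8003c0012001100080000000000000000000000000000000) (nat_lit 0x0) (nat_lit 0x2000fc00f800300000000c000880004000000000000000000000000000000) := T_25 (nat_lit 139) (nat_lit 122) (nat_lit 4) (nat_lit 4) (nat_lit 11) L71620 (by decide +kernel)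
theorem L71622 : W_25 (nat_lit 11) (nat_lit 0x3c0012001100080000000000000000000000000000000) (nat_lit 0x0) (nat_lit 0x2000fc00f8003c0000000c000880004000000000000000000000000000000) := T_25 (nat_lit 191) (nat_lit 190) (nat_lit 1) (nat_lit 7) (nat_lit 10) L71621 (by decide +kernel)
theorem L71623 : W_25 (nat_lit 12) (nat_lit 0x3c0002001100080000000000000000000000000000000) (nat_lit 0x0) (nat_lit 0x2000fc00f8003c0000003c000880004000000000000000000000000000000) := T_25 (nat_lit 160) (nat_lit 161) (nat_lit 2) (nat_lit 4) (nat_lit 10) L71622 (by decide +kernel)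
theorem L71624 : W_25 (nat_lit 13) (nat_lit 0x3c0002001000080000000000000000000000000000000) (nat_lit 0x0) (nat_lit 0x2000fc00f8003c0000003c000d8007c000e00040000000000000000000000) := Q_25 (nat_lit 140) (C_25 L71607 (C_25 L71609 (C_25 L71612 (C_25 L71623 N_25)))) (by decide +kernel)
theorem L71625 : W_25 (nat_lit 14) (nat_lit 0x3c0000001000080000000000000000000000000000000) (nat_lit 0x0) (nat_lit 0x2000fc00f8003c0000003f000d8007c000e00040000000000000000000000) := T_25 (nat_lit 157) (nat_lit 156) (nat_lit 0) (nat_lit 7) (nat_lit 10) L71624 (by decide +kernel)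
theorem L71626 : W_25 (nat_lit 4) (nat_lit 0x8003c001a001000080000000000000000000000000000000) (nat_lit 0x0) (nat_lit 0x20001000000004000980008000000000000000000000000000000) := T_25 (nat_lit 158) (nat_lit 143) (nat_lit 2) (nat_lit 4) (nat_lit 9) L64430 (by decide +kernel)
theorem L71627 : W_25 (nat_lit 5) (nat_lit 0x8003c0012001000080000000000000000000000000000000) (nat_lit 0x0) (nat_lit 0x2000100002000c000980008000000000000000000000000000000) := T_25 (nat_lit 159) (nat_lit 173) (nat_lit 2) (nat_lit 3) (nat_lit 10) L71626 (by decide +kernel)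
theorem L71628 : W_25 (nat_lit 6) (nat_lit 0x8003c0002001000080000000000000000000000000000000) (nat_lit 0x0) (nat_lit 0x2000100002003c000980008000000000000000000000000000000) := T_25 (nat_lit 160) (nat_lit 161) (nat_lit 2) (nat_lit 4) (nat_lit 10) L71627 (by decide +kernel)
theorem L71629 : W_25 (nat_lit 7) (nat_lit 0x8003c0000001000080000000000000000000000000000000) (nat_lit 0x0) (nat_lit 0x2000100002003f000980008000000000000000000000000000000) := T_25 (nat_lit 157) (nat_lit 156) (nat_lit 0) (nat_lit 7) (nat_lit 10) L71628 (by decide +kernel)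
theorem L71630 : W_25 (nat_lit 8) (nat_lit 0x3c0000001000080000000000000000000000000000000) (nat_lit 0x0) (nat_lit 0x20001c0002003f000980008000000000000000000000000000000) := T_25 (nat_lit 191) (nat_lit 190) (nat_lit 1) (nat_lit 7) (nat_lit 10) L71629 (by decide +kernel)
theorem L71649 : W_25 (nat_lit 15) (nat_lit 0x380000001000080000000000000000000000000000000) (nat_lit 0x0) (nat_lit 0x2000fc00f8003f0007803fc00d8007c000e00040000000000000000000000) := Q_25 (nat_lit 174) (C_25 L71625 (C_25 L71630 (C_25 L71633 (C_25 L71636 (C_25 L71645 (C_25 L71648 N_25)))))) (by decide +kernel)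
theorem L71650 : W_25 (nat_lit 2) (nat_lit 0x1000380004001600080000000000000000000000000000000) (nat_lit 0x0) (nat_lit 0x2000800100000000000000000000000000000000) := D_25 (nat_lit 143) (nat_lit 128) (nat_lit 157) (nat_lit 2) (nat_lit 5) (nat_lit 8) (nat_lit 1) (nat_lit 8) (nat_lit 8) (by decide +kernel)
theorem L71651 : W_25 (nat_lit 3) (nat_lit 0x1000380004001200080000000000000000000000000000000) (nat_lit 0x0) (nat_lit 0x2000c00120000000000000000000000000000000) := T_25 (nat_lit 142) (nat_lit 125) (nat_lit 6) (nat_lit 5) (nat_lit 11) L71650 (by decide +kernel)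
theorem L71652 : W_25 (nat_lit 5) (nat_lit 0x380004001200080000000000000000000000000000000) (nat_lit 0x0) (nat_lit 0x50003c00000002000d00128000000000000000000000000000000) := Q_25 (nat_lit 192) (C_25 L38699 (C_25 L38701 (C_25 L71651 N_25))) (by decide +kernel)
theorem L71653 : W_25 (nat_lit 2) (nat_lit 0x380004001e00090000000000000000000000000000000) (nat_lit 0x0) (nat_lit 0x1000000000000000020001000000000000000000000000000) := D_25 (nat_lit 125) (nat_lit 192) (nat_lit 108) (nat_lit 6) (nat_lit 5) (nat_lit 11) (nat_lit 6) (nat_lit 5) (nat_lit 10) (by decide +kernel)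
theorem L71654 : W_25 (nat_lit 3) (nat_lit 0x380004001e00080000000000000000000000000000000) (nat_lit 0x0) (nat_lit 0x1000000000000000038001000000000000000000000000000) := T_25 (nat_lit 124) (nat_lit 123) (nat_lit 0) (nat_lit 8) (nat_lit 8) L71653 (by decide +kernel)
theorem L71655 : W_25 (nat_lit 4) (nat_lit 0x380004001600080000000000000000000000000000000) (nat_lit 0x0) (nat_lit 0x1000000002000800038001000000000000000000000000000) := T_25 (nat_lit 143) (nat_lit 157) (nat_lit 1) (nat_lit 8) (nat_lit 8) L71654 (by decide +kernel)
theorem L71656 : W_25 (nat_lit 2) (nat_lit 0x1a00380004001700080000000000000000000000000000000) (nat_lit 0x0) (nat_lit 0x800140000000000000000000000000000000) := D_25 (nat_lit 143) (nat_lit 126) (nat_lit 128) (nat_lit 2) (nat_lit 4) (nat_lit 8) (nat_lit 2) (nat_lit 5) (nat_lit 8) (by decide +kernel)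
theorem L71657 : W_25 (nat_lit 3) (nat_lit 0x1a00380004001600080000000000000000000000000000000) (nat_lit 0x0) (nat_lit 0x900148000000000000000000000000000000) := T_25 (nat_lit 140) (nat_lit 123) (nat_lit 4) (nat_lit 5) (nat_lit 11) L71656 (by decide +kernel)
theorem L71658 : W_25 (nat_lit 4) (nat_lit 0x1800380004001600080000000000000000000000000000000) (nat_lit 0x0) (nat_lit 0x600000000000900148000000000000000000000000000000) := T_25 (nat_lit 189) (nat_lit 190) (nat_lit 2) (nat_lit 2) (nat_lit 11) L71657 (by decide +kernel)
theorem L71659 : W_25 (nat_lit 5) (nat_lit 0x1000380004001600080000000000000000000000000000000) (nat_lit 0x0) (nat_lit 0x10000e00000000000900148000000000000000000000000000000) := T_25 (nat_lit 191) (nat_lit 208) (nat_lit 5) (nat_lit 5) (nat_lit 8) L71658 (by decide +kernel)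
theorem L71660 : W_25 (nat_lit 6) (nat_lit 0x380004001600080000000000000000000000000000000) (nat_lit 0x0) (nat_lit 0x10001e00000000000900168000000000000000000000000000000) := T_25 (nat_lit 192) (nat_lit 125) (nat_lit 6) (nat_lit 5) (nat_lit 11) L71659 (by decide +kernel)
theorem L71661 : W_25 (nat_lit 7) (nat_lit 0x380004001200080000000000000000000000000000000) (nat_lit 0x0) (nat_lit 0x200030001e00000002000d00178001000000000000000000000000000) := Q_25 (nat_lit 142) (C_25 L39083 (C_25 L71655 (C_25 L39082 (C_25 L71660 N_25)))) (by decide +kernel)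
theorem L71662 : W_25 (nat_lit 8) (nat_lit 0x380000001200080000000000000000000000000000000) (nat_lit 0x0) (nat_lit 0xa00070003e00000006000d00178001c00000000000000000000000000) := Q_25 (nat_lit 158) (C_25 L13766 (C_25 L39078 (C_25 L71652 (C_25 L71661 N_25)))) (by decide +kernel)
theorem L71663 : W_25 (nat_lit 2) (nat_lit 0x8800000022003f0011001a00090000000000000000000000000000000) (nat_lit 0x0) (nat_lit 0x400108000000000000000000000000000000) := D_25 (nat_lit 142) (nat_lit 128) (nat_lit 123) (nat_lit 2) (nat_lit 5) (nat_lit 8) (nat_lit 0) (nat_lit 8) (nat_lit 8) (by decide +kernel)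
theorem L71664 : W_25 (nat_lit 3) (nat_lit 0x8800000022003f0011001200090000000000000000000000000000000) (nat_lit 0x0) (nat_lit 0xc00148000000000000000000000000000000) := T_25 (nat_lit 143) (nat_lit 126) (nat_lit 5) (nat_lit 7) (nat_lit 7) L71663 (by decide +kernel)
theorem L71665 : W_25 (nat_lit 4) (nat_lit 0x800000022003f0011001200090000000000000000000000000000000) (nat_lit 0x0) (nat_lit 0x800040000000000000000c00148000000000000000000000000000000) := T_25 (nat_lit 227) (nat_lit 210) (nat_lit 6) (nat_lit 6) (nat_lit 13) L71664 (by decide +kernel)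
theorem L71666 : W_25 (nat_lit 5) (nat_lit 0x800000022003f0011001200080000000000000000000000000000000) (nat_lit 0x0) (nat_lit 0x800040000000000004000c00158000000000000000000000000000000) := T_25 (nat_lit 124) (nat_lit 158) (nat_lit 7) (nat_lit 5) (nat_lit 7) L71665 (by decide +kernel)
theorem L71667 : W_25 (nat_lit 6) (nat_lit 0x22003f0011001200080000000000000000000000000000000) (nat_lit 0x0) (nat_lit 0x880044000000000004000c00158000000000000000000000000000000) := T_25 (nat_lit 223) (nat_lit 206) (nat_lit 6) (nat_lit 2) (nat_lit 13) L71666 (by decide +kernel)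
theorem L71668 : W_25 (nat_lit 7) (nat_lit 0x2003f0011001200080000000000000000000000000000000) (nat_lit 0x0) (nat_lit 0x880044003000000004000c00158000000000000000000000000000000) := T_25 (nat_lit 193) (nat_lit 192) (nat_lit 3) (nat_lit 2) (nat_lit 10) L71667 (by decide +kernel)
theorem L71669 : W_25 (nat_lit 8) (nat_lit 0x2003e0011001200080000000000000000000000000000000) (nat_lit 0x0) (nat_lit 0x880044003100010004000c00158000000000000000000000000000000) := T_25 (nat_lit 172) (nat_lit 188) (nat_lit 1) (nat_lit 5) (nat_lit 10) L71668 (by decide +kernel)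
theorem L71670 : W_25 (nat_lit 9) (nat_lit 0x3e0011001200080000000000000000000000000000000) (nat_lit 0x0) (nat_lit 0x880044003700010004000c00158000000000000000000000000000000) := T_25 (nat_lit 189) (nat_lit 190) (nat_lit 1) (nat_lit 6) (nat_lit 10) L71669 (by decide +kernel)
theorem L71671 : W_25 (nat_lit 10) (nat_lit 0x3c0011001200080000000000000000000000000000000) (nat_lit 0x0) (nat_lit 0x880044003700030004800c00158000000000000000000000000000000) := T_25 (nat_lit 173) (nat_lit 155) (nat_lit 0) (nat_lit 6) (nat_lit 10) L71670 (by decide +kernel)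
theorem L71672 : W_25 (nat_lit 11) (nat_lit 0x3c0001001200080000000000000000000000000000000) (nat_lit 0x0) (nat_lit 0x880044003700030034800c00158000000000000000000000000000000) := T_25 (nat_lit 160) (nat_lit 161) (nat_lit 2) (nat_lit 4) (nat_lit 10) L71671 (by decide +kernel)
theorem L71673 : W_25 (nat_lit 12) (nat_lit 0x3c0000001200080000000000000000000000000000000) (nat_lit 0x0) (nat_lit 0x880044003700030037800c00158000000000000000000000000000000) := T_25 (nat_lit 156) (nat_lit 157) (nat_lit 0) (nat_lit 7) (nat_lit 10) L71672 (by decide +kernel)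
theorem L71674 : W_25 (nat_lit 4) (nat_lit 0x8003c0010001200080000000000000000000000000000000) (nat_lit 0x0) (nat_lit 0x20001000000003000100018000000000000000000000000000000) := T_25 (nat_lit 157) (nat_lit 156) (nat_lit 0) (nat_lit 7) (nat_lit 10) L39021 (by decide +kernel)
theorem L71675 : W_25 (nat_lit 5) (nat_lit 0x8003c0000001200080000000000000000000000000000000) (nat_lit 0x0) (nat_lit 0x20001000000033000100018000000000000000000000000000000) := T_25 (nat_lit 160) (nat_lit 161) (nat_lit 2) (nat_lit 4) (nat_lit 10) L71674 (by decide +kernel)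
theorem L71676 : W_25 (nat_lit 6) (nat_lit 0x3c0000001200080000000000000000000000000000000) (nat_lit 0x0) (nat_lit 0x20001c00000033000100018000000000000000000000000000000) := T_25 (nat_lit 191) (nat_lit 190) (nat_lit 1) (nat_lit 7) (nat_lit 10) L71675 (by decide +kernel)
theorem L71677 : W_25 (nat_lit 2) (nat_lit 0x8003c0014001200080000000000000000000000000000000) (nat_lit 0x0) (nat_lit 0x10001000000002000000000000000000000000000000000000000) := D_25 (nat_lit 208) (nat_lit 192) (nat_lit 157) (nat_lit 5) (nat_lit 5) (nat_lit 8) (nat_lit 6) (nat_lit 4) (nat_lit 12) (by decide +kernel)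
theorem L71678 : W_25 (nat_lit 3) (nat_lit 0x8003c0010001200080000000000000000000000000000000) (nat_lit 0x0) (nat_lit 0x10001000000006000000010000000000000000000000000000000) := T_25 (nat_lit 158) (nat_lit 124) (nat_lit 5) (nat_lit 5) (nat_lit 7) L71677 (by decide +kernel)
theorem L71679 : W_25 (nat_lit 4) (nat_lit 0x8003c0000001200080000000000000000000000000000000) (nat_lit 0x0) (nat_lit 0x10001000000036000000010000000000000000000000000000000) := T_25 (nat_lit 160) (nat_lit 161) (nat_lit 2) (nat_lit 4) (nat_lit 10) L71678 (by decide +kernel)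
theorem L71680 : W_25 (nat_lit 5) (nat_lit 0x3c0000001200080000000000000000000000000000000) (nat_lit 0x0) (nat_lit 0x10001c00000036000000010000000000000000000000000000000) := T_25 (nat_lit 191) (nat_lit 190) (nat_lit 1) (nat_lit 7) (nat_lit 10) L71679 (by decide +kernel)
theorem L71681 : W_25 (nat_lit 7) (nat_lit 0x8003c0002001200080000000000000000000000000000000) (nat_lit 0x0) (nat_lit 0x50003e003000000034000100000000000000000000000000000000000) := T_25 (nat_lit 160) (nat_lit 161) (nat_lit 2) (nat_lit 4) (nat_lit 10) L39030 (by decide +kernel)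
theorem L71682 : W_25 (nat_lit 8) (nat_lit 0x8003c0000001200080000000000000000000000000000000) (nat_lit 0x0) (nat_lit 0x50003e003000000037000100000000000000000000000000000000000) := T_25 (nat_lit 157) (nat_lit 156) (nat_lit 0) (nat_lit 7) (nat_lit 10) L71681 (by decide +kernel)
theorem L71683 : W_25 (nat_lit 9) (nat_lit 0x3c0000001200080000000000000000000000000000000) (nat_lit 0x0) (nat_lit 0x50003e003c00000037000100000000000000000000000000000000000) := T_25 (nat_lit 191) (nat_lit 190) (nat_lit 1) (nat_lit 7) (nat_lit 10) L71682 (by decide +kernel)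
theorem L71684 : W_25 (nat_lit 4) (nat_lit 0x8003c0000001200080000000000000000000000000000000) (nat_lit 0x0) (nat_lit 0x200010001000000034000000010000000000000000000000000000000) := T_25 (nat_lit 160) (nat_lit 161) (nat_lit 2) (nat_lit 4) (nat_lit 10) L39045 (by decide +kernel)
theorem L71685 : W_25 (nat_lit 5) (nat_lit 0x3c0000001200080000000000000000000000000000000) (nat_lit 0x0) (nat_lit 0x200010001c00000034000000010000000000000000000000000000000) := T_25 (nat_lit 191) (nat_lit 190) (nat_lit 1) (nat_lit 7) (nat_lit 10) L71684 (by decide +kernel)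
theorem L71686 : W_25 (nat_lit 2) (nat_lit 0x3c0012001300090000000000000000000000000000000) (nat_lit 0x0) (nat_lit 0x1000000000000000008000800000000000000000000000000) := D_25 (nat_lit 123) (nat_lit 107) (nat_lit 192) (nat_lit 6) (nat_lit 4) (nat_lit 10) (nat_lit 7) (nat_lit 4) (nat_lit 7) (by decide +kernel)
theorem L71687 : W_25 (nat_lit 3) (nat_lit 0x3c0012001200090000000000000000000000000000000) (nat_lit 0x0) (nat_lit 0x1800000000000100008000800000000000000000000000000) := T_25 (nat_lit 140) (nat_lit 191) (nat_lit 6) (nat_lit 4) (nat_lit 11) L71686 (by decide +kernel)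
theorem L71688 : W_25 (nat_lit 4) (nat_lit 0x3c0002001200090000000000000000000000000000000) (nat_lit 0x0) (nat_lit 0x1800000030000100008000800000000000000000000000000) := T_25 (nat_lit 160) (nat_lit 161) (nat_lit 2) (nat_lit 4) (nat_lit 10) L71687 (by decide +kernel)
theorem L71689 : W_25 (nat_lit 5) (nat_lit 0x3c0000001200090000000000000000000000000000000) (nat_lit 0x0) (nat_lit 0x1800000033000100008000800000000000000000000000000) := T_25 (nat_lit 157) (nat_lit 156) (nat_lit 0) (nat_lit 7) (nat_lit 10) L71688 (by decide +kernel)
theorem L71690 : W_25 (nat_lit 6) (nat_lit 0x3c0000001200080000000000000000000000000000000) (nat_lit 0x0) (nat_lit 0x3800000037000100018000800000000000000000000000000) := Q_25 (nat_lit 124) (C_25 L38856 (C_25 L71689 (C_25 L38863 N_25))) (by decide +kernel)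
theorem L71691 : W_25 (nat_lit 13) (nat_lit 0x380000001200080000000000000000000000000000000) (nat_lit 0x0) (nat_lit 0xf8007e003f00070037800d00158000800000000000000000000000000) := Q_25 (nat_lit 174) (C_25 L71673 (C_25 L38742 (C_25 L71676 (C_25 L71680 (C_25 L71683 (C_25 L71685 (C_25 L71690 N_25))))))) (by decide +kernel)
theorem L71692 : W_25 (nat_lit 7) (nat_lit 0x3c0000001200080000000000000000000000000000000) (nat_lit 0x0) (nat_lit 0x400020003000000037000d00038001c00000000000000000000000000) := Q_25 (nat_lit 158) (C_25 L13209 (C_25 L39056 (C_25 L39052 N_25))) (by decide +kernel)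
theorem L71693 : W_25 (nat_lit 10) (nat_lit 0x380000001200080000000000000000000000000000000) (nat_lit 0x0) (nat_lit 0x70003e003c00040037000d00038001c00000000000000000000000000) := Q_25 (nat_lit 174) (C_25 L71692 (C_25 L38742 (C_25 L71676 (C_25 L71685 (C_25 L71683 N_25))))) (by decide +kernel)
theorem L71694 : W_25 (nat_lit 2) (nat_lit 0x22003f00110012000f4001800000000000000000000000000) (nat_lit 0x0) (nat_lit 0xa002000000000000000000000000000) := D_25 (nat_lit 123) (nat_lit 121) (nat_lit 109) (nat_lit 2) (nat_lit 2) (nat_lit 7) (nat_lit 2) (nat_lit 3) (nat_lit 7) (by decide +kernel)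
theorem L71695 : W_25 (nat_lit 3) (nat_lit 0x22003f00110012000f4000800000000000000000000000000) (nat_lit 0x0) (nat_lit 0x10a003000000000000000000000000000) := T_25 (nat_lit 108) (nat_lit 128) (nat_lit 0) (nat_lit 9) (nat_lit 7) L71694 (by decide +kernel)
theorem L71696 : W_25 (nat_lit 4) (nat_lit 0x22003f00110012000f4000000000000000000000000000000) (nat_lit 0x0) (nat_lit 0x10a003c00000000000000000000000000) := T_25 (nat_lit 107) (nat_lit 106) (nat_lit 0) (nat_lit 8) (nat_lit 7) L71695 (by decide +kernel)
theorem L71697 : W_25 (nat_lit 5) (nat_lit 0x22003f00110012000d4000000000000000000000000000000) (nat_lit 0x0) (nat_lit 0x10012a003c00000000000000000000000000) := T_25 (nat_lit 125) (nat_lit 140) (nat_lit 1) (nat_lit 8) (nat_lit 7) L71696 (by decide +kernel)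
theorem L71698 : W_25 (nat_lit 6) (nat_lit 0x22003f0011001200094000000000000000000000000000000) (nat_lit 0x0) (nat_lit 0x90016a003c00000000000000000000000000) := T_25 (nat_lit 126) (nat_lit 143) (nat_lit 5) (nat_lit 7) (nat_lit 7) L71697 (by decide +kernel)
theorem L71699 : W_25 (nat_lit 7) (nat_lit 0x22003f0011001200084000000000000000000000000000000) (nat_lit 0x0) (nat_lit 0x400090017a003c00000000000000000000000000) := T_25 (nat_lit 124) (nat_lit 158) (nat_lit 7) (nat_lit 5) (nat_lit 7) L71698 (by decide +kernel)
theorem L71700 : W_25 (nat_lit 8) (nat_lit 0x22003f0011001200080000000000000000000000000000000) (nat_lit 0x0) (nat_lit 0x400098017e003c00000000000000000000000000) := T_25 (nat_lit 122) (nat_lit 139) (nat_lit 5) (nat_lit 3) (nat_lit 7) L71699 (by decide +kernel)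
theorem L71701 : W_25 (nat_lit 9) (nat_lit 0x2003f0011001200080000000000000000000000000000000) (nat_lit 0x0) (nat_lit 0x300000000400098017e003c00000000000000000000000000) := T_25 (nat_lit 193) (nat_lit 192) (nat_lit 3) (nat_lit 2) (nat_lit 10) L71700 (by decide +kernel)
theorem L71702 : W_25 (nat_lit 10) (nat_lit 0x2003e0011001200080000000000000000000000000000000) (nat_lit 0x0) (nat_lit 0x310001000400098017e003c00000000000000000000000000) := T_25 (nat_lit 172) (nat_lit 188) (nat_lit 1) (nat_lit 5) (nat_lit 10) L71701 (by decide +kernel)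
theorem L71703 : W_25 (nat_lit 11) (nat_lit 0x3e0011001200080000000000000000000000000000000) (nat_lit 0x0) (nat_lit 0x370001000400098017e003c00000000000000000000000000) := T_25 (nat_lit 189) (nat_lit 190) (nat_lit 1) (nat_lit 6) (nat_lit 10) L71702 (by decide +kernel)
theorem L71704 : W_25 (nat_lit 12) (nat_lit 0x3c0011001200080000000000000000000000000000000) (nat_lit 0x0) (nat_lit 0x370003000480098017e003c00000000000000000000000000) := T_25 (nat_lit 173) (nat_lit 155) (nat_lit 0) (nat_lit 6) (nat_lit 10) L71703 (by decide +kernel)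
theorem L71705 : W_25 (nat_lit 13) (nat_lit 0x3c0001001200080000000000000000000000000000000) (nat_lit 0x0) (nat_lit 0x370003003480098017e003c00000000000000000000000000) := T_25 (nat_lit 160) (nat_lit 161) (nat_lit 2) (nat_lit 4) (nat_lit 10) L71704 (by decide +kernel)
theorem L71706 : W_25 (nat_lit 14) (nat_lit 0x3c0000001200080000000000000000000000000000000) (nat_lit 0x0) (nat_lit 0x370003003780098017e003c00000000000000000000000000) := T_25 (nat_lit 156) (nat_lit 157) (nat_lit 0) (nat_lit 7) (nat_lit 10) L71705 (by decide +kernel)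
theorem L71707 : W_25 (nat_lit 15) (nat_lit 0x380000001200080000000000000000000000000000000) (nat_lit 0x0) (nat_lit 0x70003e003f0007003780098017e003c00000000000000000000000000) := Q_25 (nat_lit 174) (C_25 L71706 (C_25 L38742 (C_25 L71676 (C_25 L71685 (C_25 L71683 (C_25 L71690 N_25)))))) (by decide +kernel)
theorem L71708 : W_25 (nat_lit 2) (nat_lit 0x3e0000001200080000000000000000000000000000000) (nat_lit 0x0) (nat_lit 0x3800000000000000000000000000000000000000) := D_25 (nat_lit 156) (nat_lit 157) (nat_lit 155) (nat_lit 0) (nat_lit 7) (nat_lit 10) (nat_lit 0) (nat_lit 6) (nat_lit 10) (by decide +kernel)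
theorem L71709 : W_25 (nat_lit 2) (nat_lit 0x12003f80144013000a1000000000000000000000000000000) (nat_lit 0x0) (nat_lit 0x50001000000000000000000000000000) := D_25 (nat_lit 124) (nat_lit 126) (nat_lit 108) (nat_lit 1) (nat_lit 8) (nat_lit 7) (nat_lit 6) (nat_lit 5) (nat_lit 10) (by decide +kernel)
theorem L71710 : W_25 (nat_lit 3) (nat_lit 0x12003f80144012000a1000000000000000000000000000000) (nat_lit 0x0) (nat_lit 0x100058001000000000000000000000000000) := T_25 (nat_lit 140) (nat_lit 123) (nat_lit 4) (nat_lit 5) (nat_lit 11) L71709 (by decide +kernel)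
theorem L71711 : W_25 (nat_lit 4) (nat_lit 0x12003f8014401200081000000000000000000000000000000) (nat_lit 0x0) (nat_lit 0x500078001000000000000000000000000000) := T_25 (nat_lit 125) (nat_lit 142) (nat_lit 6) (nat_lit 5) (nat_lit 11) L71710 (by decide +kernel)
theorem L71712 : W_25 (nat_lit 5) (nat_lit 0x12003f8014401200080000000000000000000000000000000) (nat_lit 0x0) (nat_lit 0x520079001000000000000000000000000000) := T_25 (nat_lit 120) (nat_lit 137) (nat_lit 7) (nat_lit 1) (nat_lit 7) L71711 (by decide +kernel)
theorem L71713 : W_25 (nat_lit 6) (nat_lit 0x12003f8010401200080000000000000000000000000000000) (nat_lit 0x0) (nat_lit 0x6000520079001000000000000000000000000000) := T_25 (nat_lit 158) (nat_lit 157) (nat_lit 2) (nat_lit 1) (nat_lit 10) L71712 (by decide +kernel)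
theorem L71714 : W_25 (nat_lit 7) (nat_lit 0x12003f0010401200080000000000000000000000000000000) (nat_lit 0x0) (nat_lit 0x8006200520079001000000000000000000000000000) := T_25 (nat_lit 171) (nat_lit 153) (nat_lit 0) (nat_lit 4) (nat_lit 10) L71713 (by decide +kernel)
theorem L71715 : W_25 (nat_lit 8) (nat_lit 0x2003f0010401200080000000000000000000000000000000) (nat_lit 0x0) (nat_lit 0x3000008006200520079001000000000000000000000000000) := T_25 (nat_lit 192) (nat_lit 193) (nat_lit 3) (nat_lit 2) (nat_lit 10) L71714 (by decide +kernel)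
theorem L71716 : W_25 (nat_lit 9) (nat_lit 0x2003f0010001200080000000000000000000000000000000) (nat_lit 0x0) (nat_lit 0x3000008006e00520079001000000000000000000000000000) := T_25 (nat_lit 154) (nat_lit 155) (nat_lit 0) (nat_lit 5) (nat_lit 10) L71715 (by decide +kernel)
theorem L71717 : W_25 (nat_lit 10) (nat_lit 0x2003e0010001200080000000000000000000000000000000) (nat_lit 0x0) (nat_lit 0x3100018006e00520079001000000000000000000000000000) := T_25 (nat_lit 172) (nat_lit 188) (nat_lit 1) (nat_lit 5) (nat_lit 10) L71716 (by decide +kernel)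
theorem L71718 : W_25 (nat_lit 11) (nat_lit 0x2003e0000001200080000000000000000000000000000000) (nat_lit 0x0) (nat_lit 0x3100018036e00520079001000000000000000000000000000) := T_25 (nat_lit 160) (nat_lit 161) (nat_lit 2) (nat_lit 4) (nat_lit 10) L71717 (by decide +kernel)
theorem L71719 : W_25 (nat_lit 12) (nat_lit 0x3e0000001200080000000000000000000000000000000) (nat_lit 0x0) (nat_lit 0x3700018036e00520079001000000000000000000000000000) := T_25 (nat_lit 189) (nat_lit 190) (nat_lit 1) (nat_lit 6) (nat_lit 10) L71718 (by decide +kernel)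
theorem L71720 : W_25 (nat_lit 2) (nat_lit 0x2003e0010801200080000000000000000000000000000000) (nat_lit 0x0) (nat_lit 0x100010000400000000000000000000000000000000000000) := D_25 (nat_lit 172) (nat_lit 154) (nat_lit 188) (nat_lit 0) (nat_lit 5) (nat_lit 10) (nat_lit 1) (nat_lit 5) (nat_lit 10) (by decide +kernel)
theorem L71721 : W_25 (nat_lit 3) (nat_lit 0x3e0010801200080000000000000000000000000000000) (nat_lit 0x0) (nat_lit 0x700010000400000000000000000000000000000000000000) := T_25 (nat_lit 189) (nat_lit 190) (nat_lit 1) (nat_lit 6) (nat_lit 10) L71720 (by decide +kernel)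
theorem L71722 : W_25 (nat_lit 4) (nat_lit 0x3e0010001200080000000000000000000000000000000) (nat_lit 0x0) (nat_lit 0x700010001c00000000000000000000000000000000000000) := T_25 (nat_lit 155) (nat_lit 156) (nat_lit 0) (nat_lit 6) (nat_lit 10) L71721 (by decide +kernel)
theorem L71723 : W_25 (nat_lit 5) (nat_lit 0x3e0000001200080000000000000000000000000000000) (nat_lit 0x0) (nat_lit 0x700010031c00000000000000000000000000000000000000) := T_25 (nat_lit 160) (nat_lit 161) (nat_lit 2) (nat_lit 4) (nat_lit 10) L71722 (by decide +kernel)
theorem L71724 : W_25 (nat_lit 2) (nat_lit 0x12003f0016001200080000000000000000000000000000000) (nat_lit 0x0) (nat_lit 0x20000000000000000100008000000000000000000000000000000) := D_25 (nat_lit 140) (nat_lit 123) (nat_lit 209) (nat_lit 7) (nat_lit 4) (nat_lit 7) (nat_lit 4) (nat_lit 5) (nat_lit 12) (by decide +kernel)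
theorem L71725 : W_25 (nat_lit 3) (nat_lit 0x12003f0012001200080000000000000000000000000000000) (nat_lit 0x0) (nat_lit 0x20000000008004000100008000000000000000000000000000000) := T_25 (nat_lit 158) (nat_lit 171) (nat_lit 2) (nat_lit 1) (nat_lit 10) L71724 (by decide +kernel)
theorem L71726 : W_25 (nat_lit 4) (nat_lit 0x2003f0012001200080000000000000000000000000000000) (nat_lit 0x0) (nat_lit 0x20003000008004000100008000000000000000000000000000000) := T_25 (nat_lit 192) (nat_lit 193) (nat_lit 3) (nat_lit 2) (nat_lit 10) L71725 (by decide +kernel)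
theorem L71727 : W_25 (nat_lit 5) (nat_lit 0x2003f0010001200080000000000000000000000000000000) (nat_lit 0x0) (nat_lit 0x20003000008007000100008000000000000000000000000000000) := T_25 (nat_lit 157) (nat_lit 156) (nat_lit 0) (nat_lit 7) (nat_lit 10) L71726 (by decide +kernel)
theorem L71728 : W_25 (nat_lit 6) (nat_lit 0x2003e0010001200080000000000000000000000000000000) (nat_lit 0x0) (nat_lit 0x20003100018007000100008000000000000000000000000000000) := T_25 (nat_lit 172) (nat_lit 188) (nat_lit 1) (nat_lit 5) (nat_lit 10) L71727 (by decide +kernel)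
theorem L71729 : W_25 (nat_lit 7) (nat_lit 0x2003e0000001200080000000000000000000000000000000) (nat_lit 0x0) (nat_lit 0x20003100018037000100008000000000000000000000000000000) := T_25 (nat_lit 160) (nat_lit 161) (nat_lit 2) (nat_lit 4) (nat_lit 10) L71728 (by decide +kernel)
theorem L71730 : W_25 (nat_lit 8) (nat_lit 0x3e0000001200080000000000000000000000000000000) (nat_lit 0x0) (nat_lit 0x20003700018037000100008000000000000000000000000000000) := T_25 (nat_lit 189) (nat_lit 190) (nat_lit 1) (nat_lit 6) (nat_lit 10) L71729 (by decide +kernel)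
theorem L71731 : W_25 (nat_lit 13) (nat_lit 0x3c0000001200080000000000000000000000000000000) (nat_lit 0x0) (nat_lit 0x20003700038037e00520079001000000000000000000000000000) := Q_25 (nat_lit 173) (C_25 L71708 (C_25 L71719 (C_25 L71723 (C_25 L71730 N_25)))) (by decide +kernel)
theorem L71732 : W_25 (nat_lit 14) (nat_lit 0x380000001200080000000000000000000000000000000) (nat_lit 0x0) (nat_lit 0x70003e003f00078037e00520079001800000000000000000000000000) := Q_25 (nat_lit 174) (C_25 L71731 (C_25 L38742 (C_25 L71676 (C_25 L71685 (C_25 L71683 (C_25 L71690 N_25)))))) (by decide +kernel)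
theorem L71733 : W_25 (nat_lit 2) (nat_lit 0x8800000022003f0011001e00084000000000000000000000000000000) (nat_lit 0x0) (nat_lit 0x100018000000000000000000000000000000) := D_25 (nat_lit 123) (nat_lit 124) (nat_lit 140) (nat_lit 0) (nat_lit 8) (nat_lit 8) (nat_lit 0) (nat_lit 7) (nat_lit 8) (by decide +kernel)
theorem L71734 : W_25 (nat_lit 3) (nat_lit 0x8800000022003f0011001a00084000000000000000000000000000000) (nat_lit 0x0) (nat_lit 0x500118000000000000000000000000000000) := T_25 (nat_lit 142) (nat_lit 128) (nat_lit 2) (nat_lit 5) (nat_lit 8) L71733 (by decide +kernel)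
theorem L71735 : W_25 (nat_lit 4) (nat_lit 0x8800000022003f0011001a00080000000000000000000000000000000) (nat_lit 0x0) (nat_lit 0x58011c000000000000000000000000000000) := T_25 (nat_lit 122) (nat_lit 139) (nat_lit 5) (nat_lit 3) (nat_lit 7) L71734 (by decide +kernel)
theorem L71736 : W_25 (nat_lit 5) (nat_lit 0x8800000022003f0011001200080000000000000000000000000000000) (nat_lit 0x0) (nat_lit 0xd8015c000000000000000000000000000000) := T_25 (nat_lit 143) (nat_lit 126) (nat_lit 5) (nat_lit 7) (nat_lit 7) L71735 (by decide +kernel)
theorem L71737 : W_25 (nat_lit 6) (nat_lit 0x800000022003f0011001200080000000000000000000000000000000) (nat_lit 0x0) (nat_lit 0x800040000000000000000d8015c000000000000000000000000000000) := T_25 (nat_lit 227) (nat_lit 210) (nat_lit 6) (nat_lit 6) (nat_lit 13) L71736 (by decide +kernel)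
theorem L71738 : W_25 (nat_lit 7) (nat_lit 0x22003f0011001200080000000000000000000000000000000) (nat_lit 0x0) (nat_lit 0x880044000000000000000d8015c000000000000000000000000000000) := T_25 (nat_lit 223) (nat_lit 206) (nat_lit 6) (nat_lit 2) (nat_lit 13) L71737 (by decide +kernel)
theorem L71739 : W_25 (nat_lit 8) (nat_lit 0x2003f0011001200080000000000000000000000000000000) (nat_lit 0x0) (nat_lit 0x880044003000000000000d8015c000000000000000000000000000000) := T_25 (nat_lit 193) (nat_lit 192) (nat_lit 3) (nat_lit 2) (nat_lit 10) L71738 (by decide +kernel)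
theorem L71740 : W_25 (nat_lit 9) (nat_lit 0x2003e0011001200080000000000000000000000000000000) (nat_lit 0x0) (nat_lit 0x880044003100010000000d8015c000000000000000000000000000000) := T_25 (nat_lit 172) (nat_lit 188) (nat_lit 1) (nat_lit 5) (nat_lit 10) L71739 (by decide +kernel)
theorem L71741 : W_25 (nat_lit 10) (nat_lit 0x3e0011001200080000000000000000000000000000000) (nat_lit 0x0) (nat_lit 0x880044003700010000000d8015c000000000000000000000000000000) := T_25 (nat_lit 189) (nat_lit 190) (nat_lit 1) (nat_lit 6) (nat_lit 10) L71740 (by decide +kernel)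
theorem L71742 : W_25 (nat_lit 11) (nat_lit 0x3c0011001200080000000000000000000000000000000) (nat_lit 0x0) (nat_lit 0x880044003700030000800d8015c000000000000000000000000000000) := T_25 (nat_lit 173) (nat_lit 155) (nat_lit 0) (nat_lit 6) (nat_lit 10) L71741 (by decide +kernel)
theorem L71743 : W_25 (nat_lit 12) (nat_lit 0x3c0001001200080000000000000000000000000000000) (nat_lit 0x0) (nat_lit 0x880044003700030030800d8015c000000000000000000000000000000) := T_25 (nat_lit 160) (nat_lit 161) (nat_lit 2) (nat_lit 4) (nat_lit 10) L71742 (by decide +kernel)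
theorem L71744 : W_25 (nat_lit 13) (nat_lit 0x3c0000001200080000000000000000000000000000000) (nat_lit 0x0) (nat_lit 0x880044003700030033800d8015c000000000000000000000000000000) := T_25 (nat_lit 156) (nat_lit 157) (nat_lit 0) (nat_lit 7) (nat_lit 10) L71743 (by decide +kernel)
theorem L71745 : W_25 (nat_lit 4) (nat_lit 0x8003c0000001200080000000000000000000000000000000) (nat_lit 0x0) (nat_lit 0x20001000000003000100018000000000000000000000000000000) := T_25 (nat_lit 157) (nat_lit 156) (nat_lit 0) (nat_lit 7) (nat_lit 10) L33479 (by decide +kernel)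
theorem L71746 : W_25 (nat_lit 5) (nat_lit 0x3c0000001200080000000000000000000000000000000) (nat_lit 0x0) (nat_lit 0x20001c00000003000100018000000000000000000000000000000) := T_25 (nat_lit 191) (nat_lit 190) (nat_lit 1) (nat_lit 7) (nat_lit 10) L71745 (by decide +kernel)
theorem L71747 : W_25 (nat_lit 2) (nat_lit 0x3e0011001200080000000000000000000000000000000) (nat_lit 0x0) (nat_lit 0xe00000000000000000000000000000000000000000000000) := D_25 (nat_lit 190) (nat_lit 191) (nat_lit 189) (nat_lit 1) (nat_lit 7) (nat_lit 10) (nat_lit 1) (nat_lit 6) (nat_lit 10) (by decide +kernel)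
theorem L71748 : W_25 (nat_lit 3) (nat_lit 0x3c0011001200080000000000000000000000000000000) (nat_lit 0x0) (nat_lit 0xe00020000800000000000000000000000000000000000000) := T_25 (nat_lit 173) (nat_lit 155) (nat_lit 0) (nat_lit 6) (nat_lit 10) L71747 (by decide +kernel)
theorem L71749 : W_25 (nat_lit 4) (nat_lit 0x3c0001001200080000000000000000000000000000000) (nat_lit 0x0) (nat_lit 0xe00020030800000000000000000000000000000000000000) := T_25 (nat_lit 160) (nat_lit 161) (nat_lit 2) (nat_lit 4) (nat_lit 10) L71748 (by decide +kernel)
theorem L71750 : W_25 (nat_lit 5) (nat_lit 0x3c0000001200080000000000000000000000000000000) (nat_lit 0x0) (nat_lit 0xe00020033800000000000000000000000000000000000000) := T_25 (nat_lit 156) (nat_lit 157) (nat_lit 0) (nat_lit 7) (nat_lit 10) L71749 (by decide +kernel)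
theorem L71751 : W_25 (nat_lit 2) (nat_lit 0x8003c0000001e00080000000000000000000000000000000) (nat_lit 0x0) (nat_lit 0x70000000000000000000000000000000000000000) := D_25 (nat_lit 161) (nat_lit 160) (nat_lit 162) (nat_lit 2) (nat_lit 4) (nat_lit 10) (nat_lit 3) (nat_lit 5) (nat_lit 8) (by decide +kernel)
theorem L71752 : W_25 (nat_lit 3) (nat_lit 0x8003c0000001a00080000000000000000000000000000000) (nat_lit 0x0) (nat_lit 0x70000400100000000000000000000000000000000) := T_25 (nat_lit 142) (nat_lit 128) (nat_lit 2) (nat_lit 5) (nat_lit 8) L71751 (by decide +kernel)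
theorem L71753 : W_25 (nat_lit 4) (nat_lit 0x3c0000001a00080000000000000000000000000000000) (nat_lit 0x0) (nat_lit 0xc00000070000400100000000000000000000000000000000) := T_25 (nat_lit 191) (nat_lit 190) (nat_lit 1) (nat_lit 7) (nat_lit 10) L71752 (by decide +kernel)
theorem L71754 : W_25 (nat_lit 2) (nat_lit 0x8003c0010001a000e0000000000000000000000000000000) (nat_lit 0x0) (nat_lit 0x100018000000000000000000000000000000) := D_25 (nat_lit 124) (nat_lit 123) (nat_lit 140) (nat_lit 3) (nat_lit 4) (nat_lit 7) (nat_lit 1) (nat_lit 8) (nat_lit 7) (by decide +kernel)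
theorem L71755 : W_25 (nat_lit 3) (nat_lit 0x8003c0010001a000c0000000000000000000000000000000) (nat_lit 0x0) (nat_lit 0x100038001000000000000000000000000000) := T_25 (nat_lit 125) (nat_lit 108) (nat_lit 4) (nat_lit 7) (nat_lit 10) L71754 (by decide +kernel)
theorem L71756 : W_25 (nat_lit 4) (nat_lit 0x8003c0010001a00080000000000000000000000000000000) (nat_lit 0x0) (nat_lit 0x2000000000000100078001000000000000000000000000000) := T_25 (nat_lit 126) (nat_lit 193) (nat_lit 5) (nat_lit 7) (nat_lit 7) L71755 (by decide +kernel)
theorem L71757 : W_25 (nat_lit 5) (nat_lit 0x3c0010001a00080000000000000000000000000000000) (nat_lit 0x0) (nat_lit 0x2c00000000000100078001000000000000000000000000000) := T_25 (nat_lit 191) (nat_lit 190) (nat_lit 1) (nat_lit 7) (nat_lit 10) L71756 (by decide +kernel)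
theorem L71758 : W_25 (nat_lit 6) (nat_lit 0x3c0000001a00080000000000000000000000000000000) (nat_lit 0x0) (nat_lit 0x2c00000030000100078001000000000000000000000000000) := T_25 (nat_lit 160) (nat_lit 161) (nat_lit 2) (nat_lit 4) (nat_lit 10) L71757 (by decide +kernel)
theorem L71759 : W_25 (nat_lit 7) (nat_lit 0x3c0000001200080000000000000000000000000000000) (nat_lit 0x0) (nat_lit 0x2c00000070000d0017c001000000000000000000000000000) := Q_25 (nat_lit 143) (C_25 L71753 (C_25 L14723 (C_25 L71758 N_25))) (by decide +kernel)
theorem L71760 : W_25 (nat_lit 2) (nat_lit 0x3c0012001e00088000000000000000000000000000000) (nat_lit 0x0) (nat_lit 0x1000000000000100004000000000000000000000000000000) := D_25 (nat_lit 140) (nat_lit 122) (nat_lit 192) (nat_lit 0) (nat_lit 7) (nat_lit 8) (nat_lit 7) (nat_lit 4) (nat_lit 7) (by decide +kernel)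
theorem L71761 : W_25 (nat_lit 3) (nat_lit 0x3c0010001e00088000000000000000000000000000000) (nat_lit 0x0) (nat_lit 0x1000000003000100004000000000000000000000000000000) := T_25 (nat_lit 157) (nat_lit 156) (nat_lit 0) (nat_lit 7) (nat_lit 10) L71760 (by decide +kernel)
theorem L71762 : W_25 (nat_lit 4) (nat_lit 0x3c0010001e00080000000000000000000000000000000) (nat_lit 0x0) (nat_lit 0x100000000300010001c000000000000000000000000000000) := T_25 (nat_lit 123) (nat_lit 124) (nat_lit 0) (nat_lit 8) (nat_lit 8) L71761 (by decide +kernel)
theorem L71763 : W_25 (nat_lit 5) (nat_lit 0x3c0010001a00080000000000000000000000000000000) (nat_lit 0x0) (nat_lit 0x100000000300050011c000000000000000000000000000000) := T_25 (nat_lit 142) (nat_lit 128) (nat_lit 2) (nat_lit 5) (nat_lit 8) L71762 (by decide +kernel)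
theorem L71764 : W_25 (nat_lit 6) (nat_lit 0x3c0000001a00080000000000000000000000000000000) (nat_lit 0x0) (nat_lit 0x100000003300050011c000000000000000000000000000000) := T_25 (nat_lit 160) (nat_lit 161) (nat_lit 2) (nat_lit 4) (nat_lit 10) L71763 (by decide +kernel)
theorem L71765 : W_25 (nat_lit 2) (nat_lit 0x3c0012001a000e0000000000000000000000000000000) (nat_lit 0x0) (nat_lit 0x100018000000000000000000000000000000) := D_25 (nat_lit 124) (nat_lit 123) (nat_lit 140) (nat_lit 3) (nat_lit 4) (nat_lit 7) (nat_lit 1) (nat_lit 8) (nat_lit 7) (by decide +kernel)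
theorem L71766 : W_25 (nat_lit 3) (nat_lit 0x3c0012001a000c0000000000000000000000000000000) (nat_lit 0x0) (nat_lit 0x100038001000000000000000000000000000) := T_25 (nat_lit 125) (nat_lit 108) (nat_lit 4) (nat_lit 7) (nat_lit 10) L71765 (by decide +kernel)
theorem L71767 : W_25 (nat_lit 4) (nat_lit 0x3c0012001a00080000000000000000000000000000000) (nat_lit 0x0) (nat_lit 0x2000000000000100078001000000000000000000000000000) := T_25 (nat_lit 126) (nat_lit 193) (nat_lit 5) (nat_lit 7) (nat_lit 7) L71766 (by decide +kernel)
theorem L71768 : W_25 (nat_lit 5) (nat_lit 0x3c0002001a00080000000000000000000000000000000) (nat_lit 0x0) (nat_lit 0x2000000030000100078001000000000000000000000000000) := T_25 (nat_lit 160) (nat_lit 161) (nat_lit 2) (nat_lit 4) (nat_lit 10) L71767 (by decide +kernel)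
theorem L71769 : W_25 (nat_lit 6) (nat_lit 0x3c0000001a00080000000000000000000000000000000) (nat_lit 0x0) (nat_lit 0x2000000033000100078001000000000000000000000000000) := T_25 (nat_lit 157) (nat_lit 156) (nat_lit 0) (nat_lit 7) (nat_lit 10) L71768 (by decide +kernel)
theorem L71770 : W_25 (nat_lit 2) (nat_lit 0x3c0012001a003c0000000000000000000000000000000) (nat_lit 0x0) (nat_lit 0x20003000000000000000000000000000) := D_25 (nat_lit 108) (nat_lit 125) (nat_lit 109) (nat_lit 4) (nat_lit 7) (nat_lit 10) (nat_lit 0) (nat_lit 10) (nat_lit 7) (by decide +kernel)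
theorem L71771 : W_25 (nat_lit 3) (nat_lit 0x3c0012001a00380000000000000000000000000000000) (nat_lit 0x0) (nat_lit 0x2000000000000000060003000000000000000000000000000) := T_25 (nat_lit 126) (nat_lit 193) (nat_lit 5) (nat_lit 7) (nat_lit 7) L71770 (by decide +kernel)
theorem L71772 : W_25 (nat_lit 4) (nat_lit 0x3c0012001a00180000000000000000000000000000000) (nat_lit 0x0) (nat_lit 0x2000000000000000660003000000000000000000000000000) := T_25 (nat_lit 129) (nat_lit 130) (nat_lit 1) (nat_lit 11) (nat_lit 7) L71771 (by decide +kernel)
theorem L71773 : W_25 (nat_lit 5) (nat_lit 0x3c0010001a00180000000000000000000000000000000) (nat_lit 0x0) (nat_lit 0x2000000003000000660003000000000000000000000000000) := T_25 (nat_lit 157) (nat_lit 156) (nat_lit 0) (nat_lit 7) (nat_lit 10) L71772 (by decide +kernel)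
theorem L71774 : W_25 (nat_lit 6) (nat_lit 0x3c0010001a00080000000000000000000000000000000) (nat_lit 0x0) (nat_lit 0x2000000003000400760003000000000000000000000000000) := T_25 (nat_lit 128) (nat_lit 142) (nat_lit 2) (nat_lit 5) (nat_lit 8) L71773 (by decide +kernel)
theorem L71775 : W_25 (nat_lit 7) (nat_lit 0x3c0000001a00080000000000000000000000000000000) (nat_lit 0x0) (nat_lit 0x2000000033000400760003000000000000000000000000000) := T_25 (nat_lit 160) (nat_lit 161) (nat_lit 2) (nat_lit 4) (nat_lit 10) L71774 (by decide +kernel)
theorem L71776 : W_25 (nat_lit 8) (nat_lit 0x3c0000001200080000000000000000000000000000000) (nat_lit 0x0) (nat_lit 0x3000000033000d0077c003000000000000000000000000000) := Q_25 (nat_lit 143) (C_25 L14723 (C_25 L71764 (C_25 L71769 (C_25 L71775 N_25)))) (by decide +kernel)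
theorem L71777 : W_25 (nat_lit 14) (nat_lit 0x380000001200080000000000000000000000000000000) (nat_lit 0x0) (nat_lit 0x880064003f00070073800d8077c003000000000000000000000000000) := Q_25 (nat_lit 174) (C_25 L71744 (C_25 L71746 (C_25 L71750 (C_25 L71759 (C_25 L71776 N_25))))) (by decide +kernel)
theorem L71778 : W_25 (nat_lit 2) (nat_lit 0x100020003c0016001a00080000000000000000000000000000000) (nat_lit 0x0) (nat_lit 0x800040001000000000000000000000000000000000000000000000000) := D_25 (nat_lit 210) (nat_lit 227) (nat_lit 192) (nat_lit 6) (nat_lit 6) (nat_lit 13) (nat_lit 7) (nat_lit 5) (nat_lit 8) (by decide +kernel)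
theorem L71779 : W_25 (nat_lit 3) (nat_lit 0x100000003c0016001a00080000000000000000000000000000000) (nat_lit 0x0) (nat_lit 0x800040003000000000000000040000000000000000000000000000000) := T_25 (nat_lit 193) (nat_lit 126) (nat_lit 5) (nat_lit 7) (nat_lit 7) L71778 (by decide +kernel)
theorem L71780 : W_25 (nat_lit 4) (nat_lit 0x100000003c0016001200080000000000000000000000000000000) (nat_lit 0x0) (nat_lit 0x800040003000000000000c00040000000000000000000000000000000) := T_25 (nat_lit 143) (nat_lit 142) (nat_lit 1) (nat_lit 8) (nat_lit 8) L71779 (by decide +kernel)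
theorem L71781 : W_25 (nat_lit 5) (nat_lit 0x3c0016001200080000000000000000000000000000000) (nat_lit 0x0) (nat_lit 0x800050003800000000000c00040000000000000000000000000000000) := T_25 (nat_lit 208) (nat_lit 191) (nat_lit 6) (nat_lit 4) (nat_lit 12) L71780 (by decide +kernel)
theorem L71782 : W_25 (nat_lit 6) (nat_lit 0x3c0006001200080000000000000000000000000000000) (nat_lit 0x0) (nat_lit 0x800050003800000030000c00040000000000000000000000000000000) := T_25 (nat_lit 160) (nat_lit 161) (nat_lit 2) (nat_lit 4) (nat_lit 10) L71781 (by decide +kernel)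
theorem L71783 : W_25 (nat_lit 7) (nat_lit 0x3c0004001200080000000000000000000000000000000) (nat_lit 0x0) (nat_lit 0x800050003800000033000c00040000000000000000000000000000000) := T_25 (nat_lit 157) (nat_lit 156) (nat_lit 0) (nat_lit 7) (nat_lit 10) L71782 (by decide +kernel)
theorem L71784 : W_25 (nat_lit 2) (nat_lit 0x3c0006001200080000000000000000000000000000000) (nat_lit 0x0) (nat_lit 0x800000000000000010000800000000000000000000000000) := D_25 (nat_lit 124) (nat_lit 191) (nat_lit 107) (nat_lit 5) (nat_lit 5) (nat_lit 7) (nat_lit 5) (nat_lit 5) (nat_lit 6) (by decide +kernel)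
theorem L71785 : W_25 (nat_lit 3) (nat_lit 0x3c0004001200080000000000000000000000000000000) (nat_lit 0x0) (nat_lit 0x800000003000000010000800000000000000000000000000) := T_25 (nat_lit 157) (nat_lit 156) (nat_lit 0) (nat_lit 7) (nat_lit 10) L71784 (by decide +kernel)
theorem L71786 : W_25 (nat_lit 8) (nat_lit 0x3c0000001200080000000000000000000000000000000) (nat_lit 0x0) (nat_lit 0x800050003800000037000c00078001c00000000000000000000000000) := Q_25 (nat_lit 158) (C_25 L13209 (C_25 L39056 (C_25 L71783 (C_25 L71785 N_25)))) (by decide +kernel)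
theorem L71787 : W_25 (nat_lit 13) (nat_lit 0x380000001200080000000000000000000000000000000) (nat_lit 0x0) (nat_lit 0xa80054003f00070037800c00178001c00000000000000000000000000) := Q_25 (nat_lit 174) (C_25 L71673 (C_25 L39456 (C_25 L71750 (C_25 L71685 (C_25 L71786 N_25))))) (by decide +kernel)
theorem L71788 : W_25 (nat_lit 2) (nat_lit 0x2003f80144012000f1000000000000000000000000000000) (nat_lit 0x0) (nat_lit 0x8000c00000000000000000000000000) := D_25 (nat_lit 106) (nat_lit 107) (nat_lit 123) (nat_lit 0) (nat_lit 8) (nat_lit 7) (nat_lit 4) (nat_lit 5) (nat_lit 10) (by decide +kernel)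
theorem L71789 : W_25 (nat_lit 3) (nat_lit 0x2003f80144012000b1000000000000000000000000000000) (nat_lit 0x0) (nat_lit 0x100048000c00000000000000000000000000) := T_25 (nat_lit 126) (nat_lit 140) (nat_lit 1) (nat_lit 8) (nat_lit 7) L71788 (by decide +kernel)
theorem L71790 : W_25 (nat_lit 4) (nat_lit 0x2003f8014401200091000000000000000000000000000000) (nat_lit 0x0) (nat_lit 0x100068001c00000000000000000000000000) := T_25 (nat_lit 125) (nat_lit 108) (nat_lit 6) (nat_lit 5) (nat_lit 10) L71789 (by decide +kernel)
theorem L71791 : W_25 (nat_lit 5) (nat_lit 0x2003f8014401200081000000000000000000000000000000) (nat_lit 0x0) (nat_lit 0x2000000000000100078001c00000000000000000000000000) := T_25 (nat_lit 124) (nat_lit 193) (nat_lit 7) (nat_lit 5) (nat_lit 7) L71790 (by decide +kernel)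
theorem L71792 : W_25 (nat_lit 6) (nat_lit 0x2003f8014401200080000000000000000000000000000000) (nat_lit 0x0) (nat_lit 0x2000000000000120079001c00000000000000000000000000) := T_25 (nat_lit 120) (nat_lit 137) (nat_lit 7) (nat_lit 1) (nat_lit 7) L71791 (by decide +kernel)
theorem L71793 : W_25 (nat_lit 7) (nat_lit 0x2003f8010401200080000000000000000000000000000000) (nat_lit 0x0) (nat_lit 0x2000000006000120079001c00000000000000000000000000) := T_25 (nat_lit 158) (nat_lit 157) (nat_lit 2) (nat_lit 1) (nat_lit 10) L71792 (by decide +kernel)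
theorem L71794 : W_25 (nat_lit 8) (nat_lit 0x2003f0010401200080000000000000000000000000000000) (nat_lit 0x0) (nat_lit 0x2000008006200120079001c00000000000000000000000000) := T_25 (nat_lit 171) (nat_lit 153) (nat_lit 0) (nat_lit 4) (nat_lit 10) L71793 (by decide +kernel)
theorem L71795 : W_25 (nat_lit 9) (nat_lit 0x2003f0010001200080000000000000000000000000000000) (nat_lit 0x0) (nat_lit 0x2000008006e00120079001c00000000000000000000000000) := T_25 (nat_lit 154) (nat_lit 155) (nat_lit 0) (nat_lit 5) (nat_lit 10) L71794 (by decide +kernel)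
theorem L71796 : W_25 (nat_lit 10) (nat_lit 0x2003e0010001200080000000000000000000000000000000) (nat_lit 0x0) (nat_lit 0x2100018006e00120079001c00000000000000000000000000) := T_25 (nat_lit 172) (nat_lit 188) (nat_lit 1) (nat_lit 5) (nat_lit 10) L71795 (by decide +kernel)
theorem L71797 : W_25 (nat_lit 11) (nat_lit 0x3e0010001200080000000000000000000000000000000) (nat_lit 0x0) (nat_lit 0x2700018006e00120079001c00000000000000000000000000) := T_25 (nat_lit 189) (nat_lit 190) (nat_lit 1) (nat_lit 6) (nat_lit 10) L71796 (by decide +kernel)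
theorem L71798 : W_25 (nat_lit 12) (nat_lit 0x3e0000001200080000000000000000000000000000000) (nat_lit 0x0) (nat_lit 0x2700018036e00120079001c00000000000000000000000000) := T_25 (nat_lit 160) (nat_lit 161) (nat_lit 2) (nat_lit 4) (nat_lit 10) L71797 (by decide +kernel)
theorem L71799 : W_25 (nat_lit 2) (nat_lit 0x2003f0016001200080000000000000000000000000000000) (nat_lit 0x0) (nat_lit 0x2000000000000000010000800000000000000000000000000) := D_25 (nat_lit 124) (nat_lit 107) (nat_lit 193) (nat_lit 5) (nat_lit 5) (nat_lit 6) (nat_lit 7) (nat_lit 5) (nat_lit 7) (by decide +kernel)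
theorem L71800 : W_25 (nat_lit 3) (nat_lit 0x2003f0012001200080000000000000000000000000000000) (nat_lit 0x0) (nat_lit 0x2000008004000000010000800000000000000000000000000) := T_25 (nat_lit 158) (nat_lit 171) (nat_lit 2) (nat_lit 1) (nat_lit 10) L71799 (by decide +kernel)
theorem L71801 : W_25 (nat_lit 4) (nat_lit 0x2003f0002001200080000000000000000000000000000000) (nat_lit 0x0) (nat_lit 0x2000008034000000010000800000000000000000000000000) := T_25 (nat_lit 160) (nat_lit 161) (nat_lit 2) (nat_lit 4) (nat_lit 10) L71800 (by decide +kernel)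
theorem L71802 : W_25 (nat_lit 5) (nat_lit 0x2003e0002001200080000000000000000000000000000000) (nat_lit 0x0) (nat_lit 0x2100018034000000010000800000000000000000000000000) := T_25 (nat_lit 172) (nat_lit 188) (nat_lit 1) (nat_lit 5) (nat_lit 10) L71801 (by decide +kernel)
theorem L71803 : W_25 (nat_lit 6) (nat_lit 0x2003e0000001200080000000000000000000000000000000) (nat_lit 0x0) (nat_lit 0x2100018037000000010000800000000000000000000000000) := T_25 (nat_lit 157) (nat_lit 156) (nat_lit 0) (nat_lit 7) (nat_lit 10) L71802 (by decide +kernel)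
theorem L71804 : W_25 (nat_lit 7) (nat_lit 0x3e0000001200080000000000000000000000000000000) (nat_lit 0x0) (nat_lit 0x2700018037000000010000800000000000000000000000000) := T_25 (nat_lit 189) (nat_lit 190) (nat_lit 1) (nat_lit 6) (nat_lit 10) L71803 (by decide +kernel)
theorem L71805 : W_25 (nat_lit 13) (nat_lit 0x3c0000001200080000000000000000000000000000000) (nat_lit 0x0) (nat_lit 0x2700038037e00120079001c00000000000000000000000000) := Q_25 (nat_lit 173) (C_25 L71708 (C_25 L71723 (C_25 L71798 (C_25 L71804 N_25)))) (by decide +kernel)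
theorem L71806 : W_25 (nat_lit 2) (nat_lit 0x3c0012001300090000000000000000000000000000000) (nat_lit 0x0) (nat_lit 0x8000800040000000000000000000000) := D_25 (nat_lit 107) (nat_lit 123) (nat_lit 90) (nat_lit 6) (nat_lit 4) (nat_lit 10) (nat_lit 5) (nat_lit 5) (nat_lit 5) (by decide +kernel)
theorem L71807 : W_25 (nat_lit 3) (nat_lit 0x3c0012001200090000000000000000000000000000000) (nat_lit 0x0) (nat_lit 0x800000000000100008000800040000000000000000000000) := T_25 (nat_lit 140) (nat_lit 191) (nat_lit 6) (nat_lit 4) (nat_lit 11) L71806 (by decide +kernel)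
theorem L71808 : W_25 (nat_lit 4) (nat_lit 0x3c0002001200090000000000000000000000000000000) (nat_lit 0x0) (nat_lit 0x800000030000100008000800040000000000000000000000) := T_25 (nat_lit 160) (nat_lit 161) (nat_lit 2) (nat_lit 4) (nat_lit 10) L71807 (by decide +kernel)
theorem L71809 : W_25 (nat_lit 5) (nat_lit 0x3c0000001200090000000000000000000000000000000) (nat_lit 0x0) (nat_lit 0x800000033000100008000800040000000000000000000000) := T_25 (nat_lit 157) (nat_lit 156) (nat_lit 0) (nat_lit 7) (nat_lit 10) L71808 (by decide +kernel)
theorem L71810 : W_25 (nat_lit 6) (nat_lit 0x3c0000001200080000000000000000000000000000000) (nat_lit 0x0) (nat_lit 0x2800000037000100018000800040000000000000000000000) := Q_25 (nat_lit 124) (C_25 L38863 (C_25 L71809 (C_25 L38856 N_25))) (by decide +kernel)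
theorem L71811 : W_25 (nat_lit 14) (nat_lit 0x380000001200080000000000000000000000000000000) (nat_lit 0x0) (nat_lit 0x10002f00078077e00d2017d001c00040000000000000000000000) := Q_25 (nat_lit 174) (C_25 L71805 (C_25 L39456 (C_25 L71759 (C_25 L71750 (C_25 L71810 N_25))))) (by decide +kernel)
theorem L71812 : W_25 (nat_lit 2) (nat_lit 0x1000380004001e00080000000000000000000000000000000) (nat_lit 0x0) (nat_lit 0x100048000000000000000000000000000000) := D_25 (nat_lit 140) (nat_lit 123) (nat_lit 126) (nat_lit 4) (nat_lit 5) (nat_lit 11) (nat_lit 2) (nat_lit 4) (nat_lit 8) (by decide +kernel)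
theorem L71813 : W_25 (nat_lit 3) (nat_lit 0x380004001e00080000000000000000000000000000000) (nat_lit 0x0) (nat_lit 0x1000000000000100068000000000000000000000000000000) := T_25 (nat_lit 192) (nat_lit 125) (nat_lit 6) (nat_lit 5) (nat_lit 11) L71812 (by decide +kernel)
theorem L71814 : W_25 (nat_lit 4) (nat_lit 0x380004001600080000000000000000000000000000000) (nat_lit 0x0) (nat_lit 0x1000000002000900068000000000000000000000000000000) := T_25 (nat_lit 143) (nat_lit 157) (nat_lit 1) (nat_lit 8) (nat_lit 8) L71813 (by decide +kernel)
theorem L71815 : W_25 (nat_lit 2) (nat_lit 0x200020003000380004001700080000000000000000000000000000000) (nat_lit 0x0) (nat_lit 0xc000400000000000000000000000000000000000000000000000000000000) := D_25 (nat_lit 226) (nat_lit 243) (nat_lit 242) (nat_lit 6) (nat_lit 5) (nat_lit 14) (nat_lit 5) (nat_lit 5) (nat_lit 10) (by decide +kernel)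
theorem L71816 : W_25 (nat_lit 3) (nat_lit 0x20003000380004001700080000000000000000000000000000000) (nat_lit 0x0) (nat_lit 0xc000600010000000000000000000000000000000000000000000000000000) := T_25 (nat_lit 225) (nat_lit 208) (nat_lit 5) (nat_lit 5) (nat_lit 9) L71815 (by decide +kernel)
theorem L71817 : W_25 (nat_lit 4) (nat_lit 0x3000380004001700080000000000000000000000000000000) (nat_lit 0x0) (nat_lit 0xc000600030000000000002000000000000000000000000000000000000000) := T_25 (nat_lit 209) (nat_lit 157) (nat_lit 4) (nat_lit 5) (nat_lit 12) L71816 (by decide +kernel)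
theorem L71818 : W_25 (nat_lit 5) (nat_lit 0x1000380004001700080000000000000000000000000000000) (nat_lit 0x0) (nat_lit 0xc000600070002000000002000000000000000000000000000000000000000) := T_25 (nat_lit 193) (nat_lit 210) (nat_lit 7) (nat_lit 5) (nat_lit 8) L71817 (by decide +kernel)
theorem L71819 : W_25 (nat_lit 6) (nat_lit 0x1000380004001600080000000000000000000000000000000) (nat_lit 0x0) (nat_lit 0xc000600070002000000002000100008000000000000000000000000000000) := T_25 (nat_lit 140) (nat_lit 123) (nat_lit 4) (nat_lit 5) (nat_lit 11) L71818 (by decide +kernel)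
theorem L71820 : W_25 (nat_lit 7) (nat_lit 0x380004001600080000000000000000000000000000000) (nat_lit 0x0) (nat_lit 0xc000600070003000000002000100028000000000000000000000000000000) := T_25 (nat_lit 192) (nat_lit 125) (nat_lit 6) (nat_lit 5) (nat_lit 11) L71819 (by decide +kernel)
theorem L71821 : W_25 (nat_lit 2) (nat_lit 0x1000380004001700080000000000000000000000000000000) (nat_lit 0x0) (nat_lit 0x800140000000000000000000000000000000) := D_25 (nat_lit 143) (nat_lit 126) (nat_lit 128) (nat_lit 2) (nat_lit 4) (nat_lit 8) (nat_lit 2) (nat_lit 5) (nat_lit 8) (by decide +kernel)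
theorem L71822 : W_25 (nat_lit 3) (nat_lit 0x1000380004001600080000000000000000000000000000000) (nat_lit 0x0) (nat_lit 0x900148000000000000000000000000000000) := T_25 (nat_lit 140) (nat_lit 123) (nat_lit 4) (nat_lit 5) (nat_lit 11) L71821 (by decide +kernel)
theorem L71823 : W_25 (nat_lit 4) (nat_lit 0x380004001600080000000000000000000000000000000) (nat_lit 0x0) (nat_lit 0x1000000000000900168000000000000000000000000000000) := T_25 (nat_lit 192) (nat_lit 125) (nat_lit 6) (nat_lit 5) (nat_lit 11) L71822 (by decide +kernel)
theorem L71824 : W_25 (nat_lit 8) (nat_lit 0x380004001200080000000000000000000000000000000) (nat_lit 0x0) (nat_lit 0xc000600070003000000002000d00168000000000000000000000000000000) := Q_25 (nat_lit 142) (C_25 L39083 (C_25 L71814 (C_25 L71820 (C_25 L71823 N_25)))) (by decide +kernel)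
theorem L71825 : W_25 (nat_lit 2) (nat_lit 0xa00020001000380004001700080000000000000000000000000000000) (nat_lit 0x0) (nat_lit 0x14000400000000000000000000000000000000000000000000000000000000) := D_25 (nat_lit 226) (nat_lit 242) (nat_lit 244) (nat_lit 5) (nat_lit 5) (nat_lit 10) (nat_lit 7) (nat_lit 5) (nat_lit 10) (by decide +kernel)
theorem L71826 : W_25 (nat_lit 3) (nat_lit 0x200020001000380004001700080000000000000000000000000000000) (nat_lit 0x0) (nat_lit 0x14000c00040000000000000000000000000000000000000000000000000000) := T_25 (nat_lit 227) (nat_lit 210) (nat_lit 7) (nat_lit 5) (nat_lit 9) L71825 (by decide +kernel)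
theorem L71827 : W_25 (nat_lit 4) (nat_lit 0x20001000380004001700080000000000000000000000000000000) (nat_lit 0x0) (nat_lit 0x14000e00050000000000000000000000000000000000000000000000000000) := T_25 (nat_lit 225) (nat_lit 208) (nat_lit 5) (nat_lit 5) (nat_lit 9) L71826 (by decide +kernel)
theorem L71828 : W_25 (nat_lit 5) (nat_lit 0x1000380004001700080000000000000000000000000000000) (nat_lit 0x0) (nat_lit 0x14000e00070000000000002000000000000000000000000000000000000000) := T_25 (nat_lit 209) (nat_lit 157) (nat_lit 4) (nat_lit 5) (nat_lit 12) L71827 (by decide +kernel)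
theorem L71829 : W_25 (nat_lit 6) (nat_lit 0x1000380004001600080000000000000000000000000000000) (nat_lit 0x0) (nat_lit 0x14000e00070000000000002000100008000000000000000000000000000000) := T_25 (nat_lit 140) (nat_lit 123) (nat_lit 4) (nat_lit 5) (nat_lit 11) L71828 (by decide +kernel)
theorem L71830 : W_25 (nat_lit 7) (nat_lit 0x380004001600080000000000000000000000000000000) (nat_lit 0x0) (nat_lit 0x14000e00070001000000002000100028000000000000000000000000000000) := T_25 (nat_lit 192) (nat_lit 125) (nat_lit 6) (nat_lit 5) (nat_lit 11) L71829 (by decide +kernel)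
theorem L71831 : W_25 (nat_lit 8) (nat_lit 0x380004001200080000000000000000000000000000000) (nat_lit 0x0) (nat_lit 0x14000e00070001000000002000d00168000000000000000000000000000000) := Q_25 (nat_lit 142) (C_25 L39083 (C_25 L71823 (C_25 L71814 (C_25 L71830 N_25)))) (by decide +kernel)
theorem L71832 : W_25 (nat_lit 9) (nat_lit 0x380000001200080000000000000000000000000000000) (nat_lit 0x0) (nat_lit 0x1c000e00070003000000006000d00178001c00000000000000000000000000) := Q_25 (nat_lit 158) (C_25 L39078 (C_25 L13766 (C_25 L71824 (C_25 L71831 N_25)))) (by decide +kernel)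
theorem L71833 : W_25 (nat_lit 2) (nat_lit 0x12003f8014401e00081000000000000000000000000000000) (nat_lit 0x0) (nat_lit 0x100048000000000000000000000000000000) := D_25 (nat_lit 140) (nat_lit 126) (nat_lit 123) (nat_lit 2) (nat_lit 4) (nat_lit 8) (nat_lit 4) (nat_lit 5) (nat_lit 11) (by decide +kernel)
theorem L71834 : W_25 (nat_lit 3) (nat_lit 0x12003f8014401600081000000000000000000000000000000) (nat_lit 0x0) (nat_lit 0x900148000000000000000000000000000000) := T_25 (nat_lit 143) (nat_lit 128) (nat_lit 2) (nat_lit 5) (nat_lit 8) L71833 (by decide +kernel)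
theorem L71835 : W_25 (nat_lit 4) (nat_lit 0x12003f8014401200081000000000000000000000000000000) (nat_lit 0x0) (nat_lit 0xd00168000000000000000000000000000000) := T_25 (nat_lit 142) (nat_lit 125) (nat_lit 6) (nat_lit 5) (nat_lit 11) L71834 (by decide +kernel)
theorem L71836 : W_25 (nat_lit 5) (nat_lit 0x12003f8014401200080000000000000000000000000000000) (nat_lit 0x0) (nat_lit 0xd20169000000000000000000000000000000) := T_25 (nat_lit 120) (nat_lit 137) (nat_lit 7) (nat_lit 1) (nat_lit 7) L71835 (by decide +kernel)
theorem L71837 : W_25 (nat_lit 6) (nat_lit 0x12003f8010401200080000000000000000000000000000000) (nat_lit 0x0) (nat_lit 0x6000d20169000000000000000000000000000000) := T_25 (nat_lit 158) (nat_lit 157) (nat_lit 2) (nat_lit 1) (nat_lit 10) L71836 (by decide +kernel)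
theorem L71838 : W_25 (nat_lit 7) (nat_lit 0x12003f0010401200080000000000000000000000000000000) (nat_lit 0x0) (nat_lit 0x8006200d20169000000000000000000000000000000) := T_25 (nat_lit 171) (nat_lit 153) (nat_lit 0) (nat_lit 4) (nat_lit 10) L71837 (by decide +kernel)
theorem L71839 : W_25 (nat_lit 8) (nat_lit 0x2003f0010401200080000000000000000000000000000000) (nat_lit 0x0) (nat_lit 0x3000008006200d20169000000000000000000000000000000) := T_25 (nat_lit 192) (nat_lit 193) (nat_lit 3) (nat_lit 2) (nat_lit 10) L71838 (by decide +kernel)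
theorem L71840 : W_25 (nat_lit 9) (nat_lit 0x2003f0010001200080000000000000000000000000000000) (nat_lit 0x0) (nat_lit 0x3000008006e00d20169000000000000000000000000000000) := T_25 (nat_lit 154) (nat_lit 155) (nat_lit 0) (nat_lit 5) (nat_lit 10) L71839 (by decide +kernel)
theorem L71841 : W_25 (nat_lit 10) (nat_lit 0x2003e0010001200080000000000000000000000000000000) (nat_lit 0x0) (nat_lit 0x3100018006e00d20169000000000000000000000000000000) := T_25 (nat_lit 172) (nat_lit 188) (nat_lit 1) (nat_lit 5) (nat_lit 10) L71840 (by decide +kernel)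
theorem L71842 : W_25 (nat_lit 11) (nat_lit 0x3e0010001200080000000000000000000000000000000) (nat_lit 0x0) (nat_lit 0x3700018006e00d20169000000000000000000000000000000) := T_25 (nat_lit 189) (nat_lit 190) (nat_lit 1) (nat_lit 6) (nat_lit 10) L71841 (by decide +kernel)
theorem L71843 : W_25 (nat_lit 12) (nat_lit 0x3e0000001200080000000000000000000000000000000) (nat_lit 0x0) (nat_lit 0x3700018036e00d20169000000000000000000000000000000) := T_25 (nat_lit 160) (nat_lit 161) (nat_lit 2) (nat_lit 4) (nat_lit 10) L71842 (by decide +kernel)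
theorem L71844 : W_25 (nat_lit 13) (nat_lit 0x3c0000001200080000000000000000000000000000000) (nat_lit 0x0) (nat_lit 0x20003700038037e00d20169000000000000000000000000000000) := Q_25 (nat_lit 173) (C_25 L71723 (C_25 L71708 (C_25 L71730 (C_25 L71843 N_25)))) (by decide +kernel)
theorem L71845 : W_25 (nat_lit 2) (nat_lit 0x380018003c0002001200080000000000000000000000000000000) (nat_lit 0x0) (nat_lit 0x6002000000000000000000000000000000000000000000000000) := D_25 (nat_lit 206) (nat_lit 205) (nat_lit 193) (nat_lit 2) (nat_lit 1) (nat_lit 12) (nat_lit 2) (nat_lit 2) (nat_lit 12) (by decide +kernel)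
theorem L71846 : W_25 (nat_lit 3) (nat_lit 0x380008003c0002001200080000000000000000000000000000000) (nat_lit 0x0) (nat_lit 0x6003000000000000100000000000000000000000000000000000) := T_25 (nat_lit 192) (nat_lit 140) (nat_lit 7) (nat_lit 4) (nat_lit 8) L71845 (by decide +kernel)
theorem L71847 : W_25 (nat_lit 4) (nat_lit 0x180008003c0002001200080000000000000000000000000000000) (nat_lit 0x0) (nat_lit 0x400026003000000000000100000000000000000000000000000000000) := T_25 (nat_lit 209) (nat_lit 226) (nat_lit 7) (nat_lit 4) (nat_lit 9) L71846 (by decide +kernel)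
theorem L71848 : W_25 (nat_lit 5) (nat_lit 0x100008003c0002001200080000000000000000000000000000000) (nat_lit 0x0) (nat_lit 0x50002e003000000000000100000000000000000000000000000000000) := T_25 (nat_lit 207) (nat_lit 224) (nat_lit 5) (nat_lit 4) (nat_lit 9) L71847 (by decide +kernel)
theorem L71849 : W_25 (nat_lit 6) (nat_lit 0x8003c0002001200080000000000000000000000000000000) (nat_lit 0x0) (nat_lit 0x50003e003000000004000100000000000000000000000000000000000) := T_25 (nat_lit 208) (nat_lit 158) (nat_lit 6) (nat_lit 4) (nat_lit 12) L71848 (by decide +kernel)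
theorem L71850 : W_25 (nat_lit 7) (nat_lit 0x3c0002001200080000000000000000000000000000000) (nat_lit 0x0) (nat_lit 0x50003e003c00000004000100000000000000000000000000000000000) := T_25 (nat_lit 191) (nat_lit 190) (nat_lit 1) (nat_lit 7) (nat_lit 10) L71849 (by decide +kernel)
theorem L71851 : W_25 (nat_lit 8) (nat_lit 0x3c0000001200080000000000000000000000000000000) (nat_lit 0x0) (nat_lit 0x50003e003c00000007000100000000000000000000000000000000000) := T_25 (nat_lit 157) (nat_lit 156) (nat_lit 0) (nat_lit 7) (nat_lit 10) L71850 (by decide +kernel)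
theorem L71852 : W_25 (nat_lit 2) (nat_lit 0x8003c0000001f00088000000000000000000000000000000) (nat_lit 0x0) (nat_lit 0x1000000006000000000000000000000000000000000000000) := D_25 (nat_lit 158) (nat_lit 157) (nat_lit 192) (nat_lit 1) (nat_lit 8) (nat_lit 8) (nat_lit 4) (nat_lit 5) (nat_lit 11) (by decide +kernel)
theorem L71853 : W_25 (nat_lit 3) (nat_lit 0x8003c0000001f00080000000000000000000000000000000) (nat_lit 0x0) (nat_lit 0x100000000600000000c000000000000000000000000000000) := T_25 (nat_lit 123) (nat_lit 122) (nat_lit 0) (nat_lit 7) (nat_lit 8) L71852 (by decide +kernel)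
theorem L71854 : W_25 (nat_lit 4) (nat_lit 0x8003c0000001e00080000000000000000000000000000000) (nat_lit 0x0) (nat_lit 0x100000000600010004c000000000000000000000000000000) := T_25 (nat_lit 140) (nat_lit 126) (nat_lit 2) (nat_lit 4) (nat_lit 8) L71853 (by decide +kernel)
theorem L71855 : W_25 (nat_lit 5) (nat_lit 0x8003c0000001a00080000000000000000000000000000000) (nat_lit 0x0) (nat_lit 0x100000000600050014c000000000000000000000000000000) := T_25 (nat_lit 142) (nat_lit 128) (nat_lit 2) (nat_lit 5) (nat_lit 8) L71854 (by decide +kernel)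
theorem L71856 : W_25 (nat_lit 6) (nat_lit 0x3c0000001a00080000000000000000000000000000000) (nat_lit 0x0) (nat_lit 0x1c0000000600050014c000000000000000000000000000000) := T_25 (nat_lit 191) (nat_lit 190) (nat_lit 1) (nat_lit 7) (nat_lit 10) L71855 (by decide +kernel)
theorem L71857 : W_25 (nat_lit 2) (nat_lit 0x8003c0010001e000e0000000000000000000000000000000) (nat_lit 0x0) (nat_lit 0x1000000006000000000000000000000000000000000000000) := D_25 (nat_lit 158) (nat_lit 192) (nat_lit 157) (nat_lit 6) (nat_lit 5) (nat_lit 11) (nat_lit 1) (nat_lit 8) (nat_lit 8) (by decide +kernel)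
theorem L71858 : W_25 (nat_lit 3) (nat_lit 0x8003c0010001a000e0000000000000000000000000000000) (nat_lit 0x0) (nat_lit 0x1000000006000500000000000000000000000000000000000) := T_25 (nat_lit 142) (nat_lit 140) (nat_lit 2) (nat_lit 4) (nat_lit 8) L71857 (by decide +kernel)
theorem L71859 : W_25 (nat_lit 4) (nat_lit 0x8003c0010001a000c0000000000000000000000000000000) (nat_lit 0x0) (nat_lit 0x1000000006000500020001000000000000000000000000000) := T_25 (nat_lit 125) (nat_lit 108) (nat_lit 4) (nat_lit 7) (nat_lit 10) L71858 (by decide +kernel)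
theorem L71860 : W_25 (nat_lit 5) (nat_lit 0x8003c0010001a00080000000000000000000000000000000) (nat_lit 0x0) (nat_lit 0x3000000006000500060001000000000000000000000000000) := T_25 (nat_lit 126) (nat_lit 193) (nat_lit 5) (nat_lit 7) (nat_lit 7) L71859 (by decide +kernel)
theorem L71861 : W_25 (nat_lit 6) (nat_lit 0x3c0010001a00080000000000000000000000000000000) (nat_lit 0x0) (nat_lit 0x3c00000006000500060001000000000000000000000000000) := T_25 (nat_lit 191) (nat_lit 190) (nat_lit 1) (nat_lit 7) (nat_lit 10) L71860 (by decide +kernel)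
theorem L71862 : W_25 (nat_lit 7) (nat_lit 0x3c0000001a00080000000000000000000000000000000) (nat_lit 0x0) (nat_lit 0x3c00000036000500060001000000000000000000000000000) := T_25 (nat_lit 160) (nat_lit 161) (nat_lit 2) (nat_lit 4) (nat_lit 10) L71861 (by decide +kernel)
theorem L71863 : W_25 (nat_lit 2) (nat_lit 0x400028003c0014001a00080000000000000000000000000000000) (nat_lit 0x0) (nat_lit 0x200010000000000002000000000000000000000000000000000000000) := D_25 (nat_lit 208) (nat_lit 225) (nat_lit 157) (nat_lit 6) (nat_lit 4) (nat_lit 13) (nat_lit 6) (nat_lit 4) (nat_lit 12) (by decide +kernel)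
theorem L71864 : W_25 (nat_lit 3) (nat_lit 0x400028003c0010001a00080000000000000000000000000000000) (nat_lit 0x0) (nat_lit 0x200010001000000006000000000000000000000000000000000000000) := T_25 (nat_lit 158) (nat_lit 192) (nat_lit 7) (nat_lit 5) (nat_lit 8) L71863 (by decide +kernel)
theorem L71865 : W_25 (nat_lit 4) (nat_lit 0x28003c0010001a00080000000000000000000000000000000) (nat_lit 0x0) (nat_lit 0xa00050001000000006000000000000000000000000000000000000000) := T_25 (nat_lit 210) (nat_lit 227) (nat_lit 6) (nat_lit 6) (nat_lit 13) L71864 (by decide +kernel)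
theorem L71866 : W_25 (nat_lit 5) (nat_lit 0x8003c0010001a00080000000000000000000000000000000) (nat_lit 0x0) (nat_lit 0xa00050003000000006000000040000000000000000000000000000000) := T_25 (nat_lit 193) (nat_lit 126) (nat_lit 5) (nat_lit 7) (nat_lit 7) L71865 (by decide +kernel)
theorem L71867 : W_25 (nat_lit 6) (nat_lit 0x3c0010001a00080000000000000000000000000000000) (nat_lit 0x0) (nat_lit 0xa00050003c00000006000000040000000000000000000000000000000) := T_25 (nat_lit 191) (nat_lit 190) (nat_lit 1) (nat_lit 7) (nat_lit 10) L71866 (by decide +kernel)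
theorem L71868 : W_25 (nat_lit 7) (nat_lit 0x3c0000001a00080000000000000000000000000000000) (nat_lit 0x0) (nat_lit 0xa00050003c00000036000000040000000000000000000000000000000) := T_25 (nat_lit 160) (nat_lit 161) (nat_lit 2) (nat_lit 4) (nat_lit 10) L71867 (by decide +kernel)
theorem L71869 : W_25 (nat_lit 2) (nat_lit 0x3c0010001e00080000000000000000000000000000000) (nat_lit 0x0) (nat_lit 0x2000000000000100040000000000000000000000000000000) := D_25 (nat_lit 126) (nat_lit 140) (nat_lit 193) (nat_lit 2) (nat_lit 4) (nat_lit 8) (nat_lit 5) (nat_lit 7) (nat_lit 7) (by decide +kernel)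
theorem L71870 : W_25 (nat_lit 3) (nat_lit 0x3c0010001a00080000000000000000000000000000000) (nat_lit 0x0) (nat_lit 0x2000000000000500140000000000000000000000000000000) := T_25 (nat_lit 142) (nat_lit 128) (nat_lit 2) (nat_lit 5) (nat_lit 8) L71869 (by decide +kernel)
theorem L71871 : W_25 (nat_lit 4) (nat_lit 0x3c0000001a00080000000000000000000000000000000) (nat_lit 0x0) (nat_lit 0x2000000030000500140000000000000000000000000000000) := T_25 (nat_lit 160) (nat_lit 161) (nat_lit 2) (nat_lit 4) (nat_lit 10) L71870 (by decide +kernel)
theorem L71872 : W_25 (nat_lit 8) (nat_lit 0x3c0000001200080000000000000000000000000000000) (nat_lit 0x0) (nat_lit 0xa00050003c00000076000d0016c001000000000000000000000000000) := Q_25 (nat_lit 143) (C_25 L71753 (C_25 L71856 (C_25 L71862 (C_25 L71868 (C_25 L71871 N_25))))) (by decide +kernel)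
theorem L71873 : W_25 (nat_lit 2) (nat_lit 0x3e0000001200080000000000000000000000000000000) (nat_lit 0x0) (nat_lit 0xe00000000000000000000000000000000000000000000000) := D_25 (nat_lit 190) (nat_lit 189) (nat_lit 191) (nat_lit 1) (nat_lit 6) (nat_lit 10) (nat_lit 1) (nat_lit 7) (nat_lit 10) (by decide +kernel)
theorem L71874 : W_25 (nat_lit 2) (nat_lit 0x1a003f0014801700080000000000000000000000000000000) (nat_lit 0x0) (nat_lit 0x800140000000000000000000000000000000) := D_25 (nat_lit 143) (nat_lit 128) (nat_lit 126) (nat_lit 2) (nat_lit 5) (nat_lit 8) (nat_lit 2) (nat_lit 4) (nat_lit 8) (by decide +kernel)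
theorem L71875 : W_25 (nat_lit 3) (nat_lit 0x1a003f0014801300080000000000000000000000000000000) (nat_lit 0x0) (nat_lit 0xc00160000000000000000000000000000000) := T_25 (nat_lit 142) (nat_lit 125) (nat_lit 6) (nat_lit 5) (nat_lit 11) L71874 (by decide +kernel)
theorem L71876 : W_25 (nat_lit 4) (nat_lit 0x1a003f0014801200080000000000000000000000000000000) (nat_lit 0x0) (nat_lit 0xd00168000000000000000000000000000000) := T_25 (nat_lit 140) (nat_lit 123) (nat_lit 4) (nat_lit 5) (nat_lit 11) L71875 (by decide +kernel)
theorem L71877 : W_25 (nat_lit 5) (nat_lit 0x1a003f0010801200080000000000000000000000000000000) (nat_lit 0x0) (nat_lit 0x10000000000004000d00168000000000000000000000000000000) := T_25 (nat_lit 158) (nat_lit 208) (nat_lit 5) (nat_lit 5) (nat_lit 8) L71876 (by decide +kernel)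
theorem L71878 : W_25 (nat_lit 6) (nat_lit 0x12003f0010801200080000000000000000000000000000000) (nat_lit 0x0) (nat_lit 0x10000800008004000d00168000000000000000000000000000000) := T_25 (nat_lit 191) (nat_lit 171) (nat_lit 3) (nat_lit 1) (nat_lit 10) L71877 (by decide +kernel)
theorem L71879 : W_25 (nat_lit 7) (nat_lit 0x2003f0010801200080000000000000000000000000000000) (nat_lit 0x0) (nat_lit 0x10003800008004000d00168000000000000000000000000000000) := T_25 (nat_lit 192) (nat_lit 193) (nat_lit 3) (nat_lit 2) (nat_lit 10) L71878 (by decide +kernel)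
theorem L71880 : W_25 (nat_lit 8) (nat_lit 0x3f0010801200080000000000000000000000000000000) (nat_lit 0x0) (nat_lit 0x10003b00008004000d00168000000000000000000000000000000) := T_25 (nat_lit 189) (nat_lit 188) (nat_lit 1) (nat_lit 5) (nat_lit 10) L71879 (by decide +kernel)
theorem L71881 : W_25 (nat_lit 9) (nat_lit 0x3e0010801200080000000000000000000000000000000) (nat_lit 0x0) (nat_lit 0x10003b00018004400d00168000000000000000000000000000000) := T_25 (nat_lit 172) (nat_lit 154) (nat_lit 0) (nat_lit 5) (nat_lit 10) L71880 (by decide +kernel)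
theorem L71882 : W_25 (nat_lit 10) (nat_lit 0x3e0010001200080000000000000000000000000000000) (nat_lit 0x0) (nat_lit 0x10003b00018005c00d00168000000000000000000000000000000) := T_25 (nat_lit 155) (nat_lit 156) (nat_lit 0) (nat_lit 6) (nat_lit 10) L71881 (by decide +kernel)
theorem L71883 : W_25 (nat_lit 11) (nat_lit 0x3e0000001200080000000000000000000000000000000) (nat_lit 0x0) (nat_lit 0x10003b00018035c00d00168000000000000000000000000000000) := T_25 (nat_lit 160) (nat_lit 161) (nat_lit 2) (nat_lit 4) (nat_lit 10) L71882 (by decide +kernel)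
theorem L71884 : W_25 (nat_lit 2) (nat_lit 0x100018003e0011001200084000000000000000000000000000000) (nat_lit 0x0) (nat_lit 0x2000018000000000000000000000000000000000000000000) := D_25 (nat_lit 172) (nat_lit 193) (nat_lit 171) (nat_lit 3) (nat_lit 2) (nat_lit 10) (nat_lit 3) (nat_lit 1) (nat_lit 10) (by decide +kernel)
theorem L71885 : W_25 (nat_lit 3) (nat_lit 0x100008003e0011001200084000000000000000000000000000000) (nat_lit 0x0) (nat_lit 0x3000018004000000000000000000000000000000000000000) := T_25 (nat_lit 192) (nat_lit 158) (nat_lit 5) (nat_lit 5) (nat_lit 8) L71884 (by decide +kernel)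
theorem L71886 : W_25 (nat_lit 4) (nat_lit 0x8003e0011001200084000000000000000000000000000000) (nat_lit 0x0) (nat_lit 0x200010003000018004000000000000000000000000000000000000000) := T_25 (nat_lit 208) (nat_lit 225) (nat_lit 4) (nat_lit 4) (nat_lit 13) L71885 (by decide +kernel)
theorem L71887 : W_25 (nat_lit 5) (nat_lit 0x8003e0011001200080000000000000000000000000000000) (nat_lit 0x0) (nat_lit 0x200010003000018004000080004000000000000000000000000000000) := T_25 (nat_lit 122) (nat_lit 139) (nat_lit 7) (nat_lit 3) (nat_lit 7) L71886 (by decide +kernel)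
theorem L71888 : W_25 (nat_lit 6) (nat_lit 0x8003e0001001200080000000000000000000000000000000) (nat_lit 0x0) (nat_lit 0x200010003000018034000080004000000000000000000000000000000) := T_25 (nat_lit 160) (nat_lit 161) (nat_lit 2) (nat_lit 4) (nat_lit 10) L71887 (by decide +kernel)
theorem L71889 : W_25 (nat_lit 7) (nat_lit 0x3e0001001200080000000000000000000000000000000) (nat_lit 0x0) (nat_lit 0x200010003c00018034000080004000000000000000000000000000000) := T_25 (nat_lit 191) (nat_lit 190) (nat_lit 1) (nat_lit 7) (nat_lit 10) L71888 (by decide +kernel)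
theorem L71890 : W_25 (nat_lit 8) (nat_lit 0x3e0000001200080000000000000000000000000000000) (nat_lit 0x0) (nat_lit 0x200010003c00018035800080004000000000000000000000000000000) := T_25 (nat_lit 156) (nat_lit 155) (nat_lit 0) (nat_lit 6) (nat_lit 10) L71889 (by decide +kernel)
theorem L71891 : W_25 (nat_lit 12) (nat_lit 0x3c0000001200080000000000000000000000000000000) (nat_lit 0x0) (nat_lit 0x200010003f00038035c00d8016c000000000000000000000000000000) := Q_25 (nat_lit 173) (C_25 L71723 (C_25 L71873 (C_25 L71883 (C_25 L71890 N_25)))) (by decide +kernel)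
theorem L71892 : W_25 (nat_lit 2) (nat_lit 0x3c0012001a000c0000000000000000000000000000000) (nat_lit 0x0) (nat_lit 0x4000500000000000000000000000000000000000) := D_25 (nat_lit 142) (nat_lit 158) (nat_lit 140) (nat_lit 1) (nat_lit 8) (nat_lit 8) (nat_lit 2) (nat_lit 4) (nat_lit 8) (by decide +kernel)
theorem L71893 : W_25 (nat_lit 3) (nat_lit 0x3c0012001a00080000000000000000000000000000000) (nat_lit 0x0) (nat_lit 0x2000000004000500040000000000000000000000000000000) := T_25 (nat_lit 126) (nat_lit 193) (nat_lit 5) (nat_lit 7) (nat_lit 7) L71892 (by decide +kernel)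
theorem L71894 : W_25 (nat_lit 4) (nat_lit 0x3c0010001a00080000000000000000000000000000000) (nat_lit 0x0) (nat_lit 0x2000000007000500040000000000000000000000000000000) := T_25 (nat_lit 157) (nat_lit 156) (nat_lit 0) (nat_lit 7) (nat_lit 10) L71893 (by decide +kernel)
theorem L71895 : W_25 (nat_lit 5) (nat_lit 0x3c0000001a00080000000000000000000000000000000) (nat_lit 0x0) (nat_lit 0x2000000037000500040000000000000000000000000000000) := T_25 (nat_lit 160) (nat_lit 161) (nat_lit 2) (nat_lit 4) (nat_lit 10) L71894 (by decide +kernel)
theorem L71896 : W_25 (nat_lit 2) (nat_lit 0x400030003c0012001b00080000000000000000000000000000000) (nat_lit 0x0) (nat_lit 0x400020000800000000000000000000000000000000000000000000000) := D_25 (nat_lit 209) (nat_lit 226) (nat_lit 191) (nat_lit 4) (nat_lit 5) (nat_lit 13) (nat_lit 7) (nat_lit 4) (nat_lit 8) (by decide +kernel)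
theorem L71897 : W_25 (nat_lit 3) (nat_lit 0x400030003c0012001a00080000000000000000000000000000000) (nat_lit 0x0) (nat_lit 0x400020000800000000000100008000000000000000000000000000000) := T_25 (nat_lit 140) (nat_lit 123) (nat_lit 7) (nat_lit 4) (nat_lit 7) L71896 (by decide +kernel)
theorem L71898 : W_25 (nat_lit 4) (nat_lit 0x400020003c0012001a00080000000000000000000000000000000) (nat_lit 0x0) (nat_lit 0x400020001800000004000100008000000000000000000000000000000) := T_25 (nat_lit 192) (nat_lit 158) (nat_lit 7) (nat_lit 5) (nat_lit 8) L71897 (by decide +kernel)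
theorem L71899 : W_25 (nat_lit 5) (nat_lit 0x20003c0012001a00080000000000000000000000000000000) (nat_lit 0x0) (nat_lit 0xc00060001800000004000100008000000000000000000000000000000) := T_25 (nat_lit 210) (nat_lit 227) (nat_lit 6) (nat_lit 6) (nat_lit 13) L71898 (by decide +kernel)
theorem L71900 : W_25 (nat_lit 6) (nat_lit 0x3c0012001a00080000000000000000000000000000000) (nat_lit 0x0) (nat_lit 0xc00060003800000004000100048000000000000000000000000000000) := T_25 (nat_lit 193) (nat_lit 126) (nat_lit 5) (nat_lit 7) (nat_lit 7) L71899 (by decide +kernel)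
theorem L71901 : W_25 (nat_lit 7) (nat_lit 0x3c0002001a00080000000000000000000000000000000) (nat_lit 0x0) (nat_lit 0xc00060003800000034000100048000000000000000000000000000000) := T_25 (nat_lit 160) (nat_lit 161) (nat_lit 2) (nat_lit 4) (nat_lit 10) L71900 (by decide +kernel)
theorem L71902 : W_25 (nat_lit 8) (nat_lit 0x3c0000001a00080000000000000000000000000000000) (nat_lit 0x0) (nat_lit 0xc00060003800000037000100048000000000000000000000000000000) := T_25 (nat_lit 157) (nat_lit 156) (nat_lit 0) (nat_lit 7) (nat_lit 10) L71901 (by decide +kernel)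
theorem L71903 : W_25 (nat_lit 9) (nat_lit 0x3c0000001200080000000000000000000000000000000) (nat_lit 0x0) (nat_lit 0xc00060003800000037000d00148000000000000000000000000000000) := Q_25 (nat_lit 143) (C_25 L71871 (C_25 L12712 (C_25 L71895 (C_25 L71902 N_25)))) (by decide +kernel)
theorem L71904 : W_25 (nat_lit 14) (nat_lit 0x380000001200080000000000000000000000000000000) (nat_lit 0x0) (nat_lit 0xf0007e003f00078077e00da016d001000000000000000000000000000) := Q_25 (nat_lit 174) (C_25 L71844 (C_25 L71851 (C_25 L71750 (C_25 L71872 (C_25 L71891 (C_25 L71903 N_25)))))) (by decide +kernel)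
theorem L71905 : W_25 (nat_lit 2) (nat_lit 0x3c0004001200080000000000000000000000000000000) (nat_lit 0x0) (nat_lit 0xc00000000000000010000000000000000000000000000000) := D_25 (nat_lit 191) (nat_lit 190) (nat_lit 124) (nat_lit 1) (nat_lit 7) (nat_lit 10) (nat_lit 5) (nat_lit 5) (nat_lit 7) (by decide +kernel)
theorem L71906 : W_25 (nat_lit 2) (nat_lit 0x3c001600160009c000000000000000000000000000000) (nat_lit 0x0) (nat_lit 0x1000000000000100000000200000000000000000000000000) := D_25 (nat_lit 140) (nat_lit 192) (nat_lit 105) (nat_lit 7) (nat_lit 4) (nat_lit 7) (nat_lit 4) (nat_lit 4) (nat_lit 10) (by decide +kernel)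
theorem L71907 : W_25 (nat_lit 3) (nat_lit 0x3c0016001600098000000000000000000000000000000) (nat_lit 0x0) (nat_lit 0x1000000000000100006000200000000000000000000000000) := T_25 (nat_lit 122) (nat_lit 121) (nat_lit 3) (nat_lit 2) (nat_lit 7) L71906 (by decide +kernel)
theorem L71908 : W_25 (nat_lit 4) (nat_lit 0x3c0016001600090000000000000000000000000000000) (nat_lit 0x0) (nat_lit 0x100000000000010000e000600000000000000000000000000) := T_25 (nat_lit 123) (nat_lit 106) (nat_lit 4) (nat_lit 5) (nat_lit 10) L71907 (by decide +kernel)
theorem L71909 : W_25 (nat_lit 5) (nat_lit 0x3c0016001200090000000000000000000000000000000) (nat_lit 0x0) (nat_lit 0x1000000000000d0000e000600000000000000000000000000) := T_25 (nat_lit 142) (nat_lit 143) (nat_lit 1) (nat_lit 8) (nat_lit 8) L71908 (by decide +kernel)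
theorem L71910 : W_25 (nat_lit 6) (nat_lit 0x3c0016001200080000000000000000000000000000000) (nat_lit 0x0) (nat_lit 0x1000000000000d0001e000e00000000000000000000000000) := T_25 (nat_lit 124) (nat_lit 107) (nat_lit 5) (nat_lit 5) (nat_lit 6) L71909 (by decide +kernel)
theorem L71911 : W_25 (nat_lit 7) (nat_lit 0x3c0006001200080000000000000000000000000000000) (nat_lit 0x0) (nat_lit 0x1000000030000d0001e000e00000000000000000000000000) := T_25 (nat_lit 160) (nat_lit 161) (nat_lit 2) (nat_lit 4) (nat_lit 10) L71910 (by decide +kernel)
theorem L71912 : W_25 (nat_lit 8) (nat_lit 0x3c0004001200080000000000000000000000000000000) (nat_lit 0x0) (nat_lit 0x1000000033000d0001e000e00000000000000000000000000) := T_25 (nat_lit 157) (nat_lit 156) (nat_lit 0) (nat_lit 7) (nat_lit 10) L71911 (by decide +kernel)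
theorem L71913 : W_25 (nat_lit 2) (nat_lit 0x3c0006001200080000000000000000000000000000000) (nat_lit 0x0) (nat_lit 0x10000c00000000000000000000000000000000000000000000000) := D_25 (nat_lit 191) (nat_lit 190) (nat_lit 208) (nat_lit 1) (nat_lit 7) (nat_lit 10) (nat_lit 6) (nat_lit 4) (nat_lit 12) (by decide +kernel)
theorem L71914 : W_25 (nat_lit 3) (nat_lit 0x3c0004001200080000000000000000000000000000000) (nat_lit 0x0) (nat_lit 0x10000c00000003000000000000000000000000000000000000000) := T_25 (nat_lit 157) (nat_lit 156) (nat_lit 0) (nat_lit 7) (nat_lit 10) L71913 (by decide +kernel)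
theorem L71915 : W_25 (nat_lit 9) (nat_lit 0x380004001200080000000000000000000000000000000) (nat_lit 0x0) (nat_lit 0x10001c00040033000d0001e000e00000000000000000000000000) := Q_25 (nat_lit 174) (C_25 L71785 (C_25 L71905 (C_25 L71912 (C_25 L71914 N_25)))) (by decide +kernel)
theorem L71916 : W_25 (nat_lit 2) (nat_lit 0x3c00160012000b8000000000000000000000000000000) (nat_lit 0x0) (nat_lit 0x900040000000000000000000000000000000) := D_25 (nat_lit 126) (nat_lit 143) (nat_lit 140) (nat_lit 3) (nat_lit 4) (nat_lit 7) (nat_lit 1) (nat_lit 8) (nat_lit 7) (by decide +kernel)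
theorem L71917 : W_25 (nat_lit 3) (nat_lit 0x3c0016001200098000000000000000000000000000000) (nat_lit 0x0) (nat_lit 0x900060001000000000000000000000000000) := T_25 (nat_lit 125) (nat_lit 108) (nat_lit 6) (nat_lit 5) (nat_lit 10) L71916 (by decide +kernel)
theorem L71918 : W_25 (nat_lit 4) (nat_lit 0x3c0016001200090000000000000000000000000000000) (nat_lit 0x0) (nat_lit 0x900068001400000000000000000000000000) := T_25 (nat_lit 123) (nat_lit 106) (nat_lit 4) (nat_lit 5) (nat_lit 10) L71917 (by decide +kernel)
theorem L71919 : W_25 (nat_lit 5) (nat_lit 0x3c0016001200080000000000000000000000000000000) (nat_lit 0x0) (nat_lit 0x900078001c00000000000000000000000000) := T_25 (nat_lit 124) (nat_lit 107) (nat_lit 5) (nat_lit 5) (nat_lit 6) L71918 (by decide +kernel)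
theorem L71920 : W_25 (nat_lit 6) (nat_lit 0x3c0006001200080000000000000000000000000000000) (nat_lit 0x0) (nat_lit 0x30000900078001c00000000000000000000000000) := T_25 (nat_lit 160) (nat_lit 161) (nat_lit 2) (nat_lit 4) (nat_lit 10) L71919 (by decide +kernel)
theorem L71921 : W_25 (nat_lit 7) (nat_lit 0x3c0004001200080000000000000000000000000000000) (nat_lit 0x0) (nat_lit 0x33000900078001c00000000000000000000000000) := T_25 (nat_lit 157) (nat_lit 156) (nat_lit 0) (nat_lit 7) (nat_lit 10) L71920 (by decide +kernel)
theorem L71922 : W_25 (nat_lit 8) (nat_lit 0x380004001200080000000000000000000000000000000) (nat_lit 0x0) (nat_lit 0x10000c00040033000900078001c00000000000000000000000000) := Q_25 (nat_lit 174) (C_25 L71914 (C_25 L71921 (C_25 L71905 N_25))) (by decide +kernel)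
theorem L71923 : W_25 (nat_lit 2) (nat_lit 0x3c00160012000b8000000000000000000000000000000) (nat_lit 0x0) (nat_lit 0x1000000000000100040000000000000000000000000000000) := D_25 (nat_lit 140) (nat_lit 126) (nat_lit 192) (nat_lit 1) (nat_lit 8) (nat_lit 7) (nat_lit 7) (nat_lit 4) (nat_lit 7) (by decide +kernel)
theorem L71924 : W_25 (nat_lit 3) (nat_lit 0x3c0016001200098000000000000000000000000000000) (nat_lit 0x0) (nat_lit 0x1000000000000100060001000000000000000000000000000) := T_25 (nat_lit 125) (nat_lit 108) (nat_lit 6) (nat_lit 5) (nat_lit 10) L71923 (by decide +kernel)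
theorem L71925 : W_25 (nat_lit 4) (nat_lit 0x3c0016001200090000000000000000000000000000000) (nat_lit 0x0) (nat_lit 0x1000000000000100068001400000000000000000000000000) := T_25 (nat_lit 123) (nat_lit 106) (nat_lit 4) (nat_lit 5) (nat_lit 10) L71924 (by decide +kernel)
theorem L71926 : W_25 (nat_lit 5) (nat_lit 0x3c0016001200080000000000000000000000000000000) (nat_lit 0x0) (nat_lit 0x1000000000000100078001c00000000000000000000000000) := T_25 (nat_lit 124) (nat_lit 107) (nat_lit 5) (nat_lit 5) (nat_lit 6) L71925 (by decide +kernel)
theorem L71927 : W_25 (nat_lit 6) (nat_lit 0x3c0006001200080000000000000000000000000000000) (nat_lit 0x0) (nat_lit 0x1000000030000100078001c00000000000000000000000000) := T_25 (nat_lit 160) (nat_lit 161) (nat_lit 2) (nat_lit 4) (nat_lit 10) L71926 (by decide +kernel)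
theorem L71928 : W_25 (nat_lit 7) (nat_lit 0x3c0004001200080000000000000000000000000000000) (nat_lit 0x0) (nat_lit 0x1000000033000100078001c00000000000000000000000000) := T_25 (nat_lit 157) (nat_lit 156) (nat_lit 0) (nat_lit 7) (nat_lit 10) L71927 (by decide +kernel)
theorem L71929 : W_25 (nat_lit 8) (nat_lit 0x380004001200080000000000000000000000000000000) (nat_lit 0x0) (nat_lit 0x10001c00040033000100078001c00000000000000000000000000) := Q_25 (nat_lit 174) (C_25 L71914 (C_25 L71928 (C_25 L71905 N_25))) (by decide +kernel)
theorem L71930 : W_25 (nat_lit 2) (nat_lit 0x3c00160016000e0001800000000000000000000000000) (nat_lit 0x0) (nat_lit 0x2600000000000000000000000000) := D_25 (nat_lit 106) (nat_lit 105) (nat_lit 109) (nat_lit 3) (nat_lit 3) (nat_lit 6) (nat_lit 3) (nat_lit 4) (nat_lit 6) (by decide +kernel)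
theorem L71931 : W_25 (nat_lit 3) (nat_lit 0x3c00160016000a0001800000000000000000000000000) (nat_lit 0x0) (nat_lit 0x140002600000000000000000000000000) := T_25 (nat_lit 126) (nat_lit 128) (nat_lit 1) (nat_lit 9) (nat_lit 7) L71930 (by decide +kernel)
theorem L71932 : W_25 (nat_lit 4) (nat_lit 0x3c00160016000a0000800000000000000000000000000) (nat_lit 0x0) (nat_lit 0x140003600080000000000000000000000) := T_25 (nat_lit 108) (nat_lit 91) (nat_lit 5) (nat_lit 6) (nat_lit 5) L71931 (by decide +kernel)
theorem L71933 : W_25 (nat_lit 5) (nat_lit 0x3c0016001600080000800000000000000000000000000) (nat_lit 0x0) (nat_lit 0x1000000000000000160003600080000000000000000000000) := T_25 (nat_lit 125) (nat_lit 192) (nat_lit 6) (nat_lit 5) (nat_lit 11) L71932 (by decide +kernel)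
theorem L71934 : W_25 (nat_lit 6) (nat_lit 0x3c0016001200080000800000000000000000000000000) (nat_lit 0x0) (nat_lit 0x1000000000000c00160003600080000000000000000000000) := T_25 (nat_lit 142) (nat_lit 143) (nat_lit 1) (nat_lit 8) (nat_lit 8) L71933 (by decide +kernel)
theorem L71935 : W_25 (nat_lit 7) (nat_lit 0x3c0016001200080000000000000000000000000000000) (nat_lit 0x0) (nat_lit 0x1000000000000c00170003e00080000000000000000000000) := T_25 (nat_lit 107) (nat_lit 124) (nat_lit 5) (nat_lit 5) (nat_lit 6) L71934 (by decide +kernel)
theorem L71936 : W_25 (nat_lit 8) (nat_lit 0x3c0006001200080000000000000000000000000000000) (nat_lit 0x0) (nat_lit 0x1000000030000c00170003e00080000000000000000000000) := T_25 (nat_lit 160) (nat_lit 161) (nat_lit 2) (nat_lit 4) (nat_lit 10) L71935 (by decide +kernel)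
theorem L71937 : W_25 (nat_lit 9) (nat_lit 0x3c0004001200080000000000000000000000000000000) (nat_lit 0x0) (nat_lit 0x1000000033000c00170003e00080000000000000000000000) := T_25 (nat_lit 157) (nat_lit 156) (nat_lit 0) (nat_lit 7) (nat_lit 10) L71936 (by decide +kernel)
theorem L71938 : W_25 (nat_lit 10) (nat_lit 0x380004001200080000000000000000000000000000000) (nat_lit 0x0) (nat_lit 0x10001c00040033000c00170003e00080000000000000000000000) := Q_25 (nat_lit 174) (C_25 L71914 (C_25 L71937 (C_25 L71905 N_25))) (by decide +kernel)
theorem L71939 : W_25 (nat_lit 4) (nat_lit 0x380004001200098000000000000000000000000000000) (nat_lit 0x0) (nat_lit 0x10001800040000000d00000000000000000000000000000000000) := T_25 (nat_lit 143) (nat_lit 142) (nat_lit 0) (nat_lit 8) (nat_lit 8) L32744 (by decide +kernel)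
theorem L71940 : W_25 (nat_lit 5) (nat_lit 0x380004001200090000000000000000000000000000000) (nat_lit 0x0) (nat_lit 0x10001800040000000d00008000400000000000000000000000000) := T_25 (nat_lit 123) (nat_lit 106) (nat_lit 4) (nat_lit 5) (nat_lit 10) L71939 (by decide +kernel)
theorem L71941 : W_25 (nat_lit 5) (nat_lit 0x380004001200090000000000000000000000000000000) (nat_lit 0x0) (nat_lit 0x1800040000000c00028001400000000000000000000000000) := T_25 (nat_lit 174) (nat_lit 191) (nat_lit 5) (nat_lit 5) (nat_lit 7) L39055 (by decide +kernel)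
theorem L71942 : W_25 (nat_lit 6) (nat_lit 0x380004001200080000000000000000000000000000000) (nat_lit 0x0) (nat_lit 0x10001800040000000d00178001c00000000000000000000000000) := Q_25 (nat_lit 124) (C_25 L13765 (C_25 L71940 (C_25 L71941 (C_25 L13775 N_25)))) (by decide +kernel)
theorem L71943 : W_25 (nat_lit 10) (nat_lit 0x380004001200080000000000000000000000000000000) (nat_lit 0x0) (nat_lit 0x400020001c00040033000d00178003e00080000000000000000000000) := Q_25 (nat_lit 174) (C_25 L71928 (C_25 L71937 (C_25 L71905 (C_25 L39052 N_25)))) (by decide +kernel)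
theorem L71944 : W_25 (nat_lit 11) (nat_lit 0x380000001200080000000000000000000000000000000) (nat_lit 0x0) (nat_lit 0x14000e00070001c00040037000d0017e003e00080000000000000000000000) := Q_25 (nat_lit 158) (C_25 L71831 (C_25 L71915 (C_25 L71922 (C_25 L71929 (C_25 L71938 (C_25 L71942 (C_25 L71943 N_25))))))) (by decide +kernel)
theorem L71945 : W_25 (nat_lit 3) (nat_lit 0x1000380004001300080000000000000000000000000000000) (nat_lit 0x0) (nat_lit 0xc00160000000000000000000000000000000) := T_25 (nat_lit 142) (nat_lit 125) (nat_lit 6) (nat_lit 5) (nat_lit 11) L71821 (by decide +kernel)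
theorem L71946 : W_25 (nat_lit 4) (nat_lit 0x1000380004001200080000000000000000000000000000000) (nat_lit 0x0) (nat_lit 0xd00168000000000000000000000000000000) := T_25 (nat_lit 140) (nat_lit 123) (nat_lit 4) (nat_lit 5) (nat_lit 11) L71945 (by decide +kernel)
theorem L71947 : W_25 (nat_lit 5) (nat_lit 0x380004001200080000000000000000000000000000000) (nat_lit 0x0) (nat_lit 0x50003c00000000000d00168000000000000000000000000000000) := Q_25 (nat_lit 192) (C_25 L38701 (C_25 L71946 N_25)) (by decide +kernel)
theorem L71948 : W_25 (nat_lit 7) (nat_lit 0x380000001200080000000000000000000000000000000) (nat_lit 0x0) (nat_lit 0x800050003c00040004000d00178001c00000000000000000000000000) := Q_25 (nat_lit 158) (C_25 L39078 (C_25 L71942 (C_25 L13766 (C_25 L71947 N_25)))) (by decide +kernel)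
theorem L71949 : W_25 (nat_lit 2) (nat_lit 0x8800000022003f00110012000f0000800000000000000000000000000) (nat_lit 0x0) (nat_lit 0x400100001000000000000000000000000000) := D_25 (nat_lit 128) (nat_lit 142) (nat_lit 108) (nat_lit 1) (nat_lit 9) (nat_lit 7) (nat_lit 0) (nat_lit 9) (nat_lit 7) (by decide +kernel)
theorem L71950 : W_25 (nat_lit 3) (nat_lit 0x8800000022003f00110012000f0000000000000000000000000000000) (nat_lit 0x0) (nat_lit 0x400100001c00000000000000000000000000) := T_25 (nat_lit 107) (nat_lit 106) (nat_lit 0) (nat_lit 8) (nat_lit 7) L71949 (by decide +kernel)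
theorem L71951 : W_25 (nat_lit 4) (nat_lit 0x8800000022003f00110012000d0000000000000000000000000000000) (nat_lit 0x0) (nat_lit 0x500120001c00000000000000000000000000) := T_25 (nat_lit 125) (nat_lit 140) (nat_lit 1) (nat_lit 8) (nat_lit 7) L71950 (by decide +kernel)
theorem L71952 : W_25 (nat_lit 5) (nat_lit 0x8800000022003f0011001200090000000000000000000000000000000) (nat_lit 0x0) (nat_lit 0xd00160001c00000000000000000000000000) := T_25 (nat_lit 126) (nat_lit 143) (nat_lit 5) (nat_lit 7) (nat_lit 7) L71951 (by decide +kernel)
theorem L71953 : W_25 (nat_lit 6) (nat_lit 0x800000022003f0011001200090000000000000000000000000000000) (nat_lit 0x0) (nat_lit 0x800040000000000000000d00160001c00000000000000000000000000) := T_25 (nat_lit 227) (nat_lit 210) (nat_lit 6) (nat_lit 6) (nat_lit 13) L71952 (by decide +kernel)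
theorem L71954 : W_25 (nat_lit 7) (nat_lit 0x800000022003f0011001200080000000000000000000000000000000) (nat_lit 0x0) (nat_lit 0x800040000000000004000d00170001c00000000000000000000000000) := T_25 (nat_lit 124) (nat_lit 158) (nat_lit 7) (nat_lit 5) (nat_lit 7) L71953 (by decide +kernel)
theorem L71955 : W_25 (nat_lit 8) (nat_lit 0x22003f0011001200080000000000000000000000000000000) (nat_lit 0x0) (nat_lit 0x880044000000000004000d00170001c00000000000000000000000000) := T_25 (nat_lit 223) (nat_lit 206) (nat_lit 6) (nat_lit 2) (nat_lit 13) L71954 (by decide +kernel)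
theorem L71956 : W_25 (nat_lit 9) (nat_lit 0x2003f0011001200080000000000000000000000000000000) (nat_lit 0x0) (nat_lit 0x880044003000000004000d00170001c00000000000000000000000000) := T_25 (nat_lit 193) (nat_lit 192) (nat_lit 3) (nat_lit 2) (nat_lit 10) L71955 (by decide +kernel)
theorem L71957 : W_25 (nat_lit 10) (nat_lit 0x2003e0011001200080000000000000000000000000000000) (nat_lit 0x0) (nat_lit 0x880044003100010004000d00170001c00000000000000000000000000) := T_25 (nat_lit 172) (nat_lit 188) (nat_lit 1) (nat_lit 5) (nat_lit 10) L71956 (by decide +kernel)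
theorem L71958 : W_25 (nat_lit 11) (nat_lit 0x3e0011001200080000000000000000000000000000000) (nat_lit 0x0) (nat_lit 0x880044003700010004000d00170001c00000000000000000000000000) := T_25 (nat_lit 189) (nat_lit 190) (nat_lit 1) (nat_lit 6) (nat_lit 10) L71957 (by decide +kernel)
theorem L71959 : W_25 (nat_lit 12) (nat_lit 0x3c0011001200080000000000000000000000000000000) (nat_lit 0x0) (nat_lit 0x880044003700030004800d00170001c00000000000000000000000000) := T_25 (nat_lit 173) (nat_lit 155) (nat_lit 0) (nat_lit 6) (nat_lit 10) L71958 (by decide +kernel)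
theorem L71960 : W_25 (nat_lit 13) (nat_lit 0x3c0001001200080000000000000000000000000000000) (nat_lit 0x0) (nat_lit 0x880044003700030034800d00170001c00000000000000000000000000) := T_25 (nat_lit 160) (nat_lit 161) (nat_lit 2) (nat_lit 4) (nat_lit 10) L71959 (by decide +kernel)
theorem L71961 : W_25 (nat_lit 14) (nat_lit 0x3c0000001200080000000000000000000000000000000) (nat_lit 0x0) (nat_lit 0x880044003700030037800d00170001c00000000000000000000000000) := T_25 (nat_lit 156) (nat_lit 157) (nat_lit 0) (nat_lit 7) (nat_lit 10) L71960 (by decide +kernel)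
theorem L71962 : W_25 (nat_lit 2) (nat_lit 0x3c0004001200080000000000000000000000000000000) (nat_lit 0x0) (nat_lit 0x2800000000000000010000000000000000000000000000000) := D_25 (nat_lit 124) (nat_lit 193) (nat_lit 191) (nat_lit 7) (nat_lit 5) (nat_lit 7) (nat_lit 5) (nat_lit 5) (nat_lit 7) (by decide +kernel)
theorem L71963 : W_25 (nat_lit 10) (nat_lit 0x3c0000001200080000000000000000000000000000000) (nat_lit 0x0) (nat_lit 0x800050003800000037000c00170003e00080000000000000000000000) := Q_25 (nat_lit 158) (C_25 L71785 (C_25 L71937 (C_25 L71783 (C_25 L71962 N_25)))) (by decide +kernel)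
theorem L71964 : W_25 (nat_lit 15) (nat_lit 0x380000001200080000000000000000000000000000000) (nat_lit 0x0) (nat_lit 0xf8007e003f00070037800d00170003e00080000000000000000000000) := Q_25 (nat_lit 174) (C_25 L71961 (C_25 L71851 (C_25 L71750 (C_25 L71685 (C_25 L71963 N_25))))) (by decide +kernel)
theorem L71965 : W_25 (nat_lit 16) (nat_lit 0x380000001000080000000000000000000000000000000) (nat_lit 0x0) (nat_lit 0x1c000f8007e003f00078077e00fa077f003e000c0000000000000000000000) := Q_25 (nat_lit 141) (C_25 L71662 (C_25 L71691 (C_25 L71693 (C_25 L71707 (C_25 L71732 (C_25 L71777 (C_25 L71787 (C_25 L71811 (C_25 L71832 (C_25 L71904 (C_25 L71944 (C_25 L71948 (C_25 L71964 N_25))))))))))))) (by decide +kernel)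
theorem L71966 : W_25 (nat_lit 2) (nat_lit 0x3e0000001000080000000000000000000000000000000) (nat_lit 0x0) (nat_lit 0xe00000000000000000000000000000000000000000000000) := D_25 (nat_lit 190) (nat_lit 189) (nat_lit 191) (nat_lit 1) (nat_lit 6) (nat_lit 10) (nat_lit 1) (nat_lit 7) (nat_lit 10) (by decide +kernel)
theorem L71967 : W_25 (nat_lit 8) (nat_lit 0x3c0000001000080000000000000000000000000000000) (nat_lit 0x0) (nat_lit 0x3f0003801ce00000000000000000000000000000000000000) := Q_25 (nat_lit 173) (C_25 L13248 (C_25 L71966 (C_25 L13254 (C_25 L13259 N_25)))) (by decide +kernel)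
theorem L71968 : W_25 (nat_lit 8) (nat_lit 0x3c0004001000080000000000000000000000000000000) (nat_lit 0x0) (nat_lit 0x80004000300000001b000e00078001c00000000000000000000000000) := Q_25 (nat_lit 141) (C_25 L13209 (C_25 L39056 (C_25 L13224 (C_25 L13215 N_25)))) (by decide +kernel)
theorem L71969 : W_25 (nat_lit 10) (nat_lit 0x3c0000001000080000000000000000000000000000000) (nat_lit 0x0) (nat_lit 0xf00078003c0000001f000f8007c001e00000000000000000000000000) := Q_25 (nat_lit 158) (C_25 L71968 (C_25 L13199 (C_25 L13207 (C_25 L13231 N_25)))) (by decide +kernel)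
theorem L71970 : W_25 (nat_lit 11) (nat_lit 0x380000001000080000000000000000000000000000000) (nat_lit 0x0) (nat_lit 0xf00078003f8007801fe00f8007c001e00000000000000000000000000) := Q_25 (nat_lit 174) (C_25 L71636 (C_25 L13197 (C_25 L71967 (C_25 L71969 (C_25 L13244 N_25))))) (by decide +kernel)
theorem L71971 : W_25 (nat_lit 9) (nat_lit 0x380004001000080000000000000000000000000000000) (nat_lit 0x0) (nat_lit 0x14000e00070003c00000002000f00178001c00000000000000000000000000) := Q_25 (nat_lit 141) (C_25 L71831 (C_25 L71947 (C_25 L39078 (C_25 L13766 N_25)))) (by decide +kernel)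
theorem L71972 : W_25 (nat_lit 2) (nat_lit 0x2003e0005001000080000000000000000000000000000000) (nat_lit 0x0) (nat_lit 0x100010008000000000000000000000000000000000000000) := D_25 (nat_lit 172) (nat_lit 159) (nat_lit 188) (nat_lit 2) (nat_lit 2) (nat_lit 10) (nat_lit 1) (nat_lit 5) (nat_lit 10) (by decide +kernel)
theorem L71973 : W_25 (nat_lit 3) (nat_lit 0x3e0005001000080000000000000000000000000000000) (nat_lit 0x0) (nat_lit 0x700010008000000000000000000000000000000000000000) := T_25 (nat_lit 189) (nat_lit 190) (nat_lit 1) (nat_lit 6) (nat_lit 10) L71972 (by decide +kernel)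
theorem L71974 : W_25 (nat_lit 4) (nat_lit 0x3c0005001000080000000000000000000000000000000) (nat_lit 0x0) (nat_lit 0x700030008800000000000000000000000000000000000000) := T_25 (nat_lit 173) (nat_lit 155) (nat_lit 0) (nat_lit 6) (nat_lit 10) L71973 (by decide +kernel)
theorem L71975 : W_25 (nat_lit 5) (nat_lit 0x3c0004001000080000000000000000000000000000000) (nat_lit 0x0) (nat_lit 0x70003000b800000000000000000000000000000000000000) := T_25 (nat_lit 156) (nat_lit 157) (nat_lit 0) (nat_lit 7) (nat_lit 10) L71974 (by decide +kernel)
theorem L71976 : W_25 (nat_lit 2) (nat_lit 0x1a003f0005001000080000000000000000000000000000000) (nat_lit 0x0) (nat_lit 0x200010000000000000000200000000000000000000000000000000000) := D_25 (nat_lit 208) (nat_lit 225) (nat_lit 141) (nat_lit 6) (nat_lit 4) (nat_lit 13) (nat_lit 5) (nat_lit 5) (nat_lit 8) (by decide +kernel)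
theorem L71977 : W_25 (nat_lit 3) (nat_lit 0x12003f0005001000080000000000000000000000000000000) (nat_lit 0x0) (nat_lit 0x200010000800008000000200000000000000000000000000000000000) := T_25 (nat_lit 191) (nat_lit 171) (nat_lit 3) (nat_lit 1) (nat_lit 10) L71976 (by decide +kernel)
theorem L71978 : W_25 (nat_lit 4) (nat_lit 0x2003f0005001000080000000000000000000000000000000) (nat_lit 0x0) (nat_lit 0x200010003800008000000200000000000000000000000000000000000) := T_25 (nat_lit 192) (nat_lit 193) (nat_lit 3) (nat_lit 2) (nat_lit 10) L71977 (by decide +kernel)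
theorem L71979 : W_25 (nat_lit 5) (nat_lit 0x3f0005001000080000000000000000000000000000000) (nat_lit 0x0) (nat_lit 0x200010003b00008000000200000000000000000000000000000000000) := T_25 (nat_lit 189) (nat_lit 188) (nat_lit 1) (nat_lit 5) (nat_lit 10) L71978 (by decide +kernel)
theorem L71980 : W_25 (nat_lit 6) (nat_lit 0x3e0005001000080000000000000000000000000000000) (nat_lit 0x0) (nat_lit 0x200010003b00018008000200000000000000000000000000000000000) := T_25 (nat_lit 172) (nat_lit 159) (nat_lit 2) (nat_lit 2) (nat_lit 10) L71979 (by decide +kernel)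
theorem L71981 : W_25 (nat_lit 7) (nat_lit 0x3c0005001000080000000000000000000000000000000) (nat_lit 0x0) (nat_lit 0x200010003b00038008800200000000000000000000000000000000000) := T_25 (nat_lit 173) (nat_lit 155) (nat_lit 0) (nat_lit 6) (nat_lit 10) L71980 (by decide +kernel)
theorem L71982 : W_25 (nat_lit 8) (nat_lit 0x3c0004001000080000000000000000000000000000000) (nat_lit 0x0) (nat_lit 0x200010003b0003800b800200000000000000000000000000000000000) := T_25 (nat_lit 156) (nat_lit 157) (nat_lit 0) (nat_lit 7) (nat_lit 10) L71981 (by decide +kernel)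
theorem L71983 : W_25 (nat_lit 9) (nat_lit 0x380004001000080000000000000000000000000000000) (nat_lit 0x0) (nat_lit 0x200010003f0007800b800200010000000000000000000000000000000) := Q_25 (nat_lit 174) (C_25 L13231 (C_25 L71975 (C_25 L71982 N_25))) (by decide +kernel)
theorem L71984 : W_25 (nat_lit 2) (nat_lit 0x4003e0004801000080000000000000000000000000000000) (nat_lit 0x0) (nat_lit 0x10008400000000000000000000000000000000000000) := D_25 (nat_lit 172) (nat_lit 159) (nat_lit 154) (nat_lit 2) (nat_lit 2) (nat_lit 10) (nat_lit 0) (nat_lit 5) (nat_lit 10) (by decide +kernel)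
theorem L71985 : W_25 (nat_lit 3) (nat_lit 0x4003e0004001000080000000000000000000000000000000) (nat_lit 0x0) (nat_lit 0x10009c00000000000000000000000000000000000000) := T_25 (nat_lit 155) (nat_lit 156) (nat_lit 0) (nat_lit 6) (nat_lit 10) L71984 (by decide +kernel)
theorem L71986 : W_25 (nat_lit 4) (nat_lit 0x4003c0004001000080000000000000000000000000000000) (nat_lit 0x0) (nat_lit 0x200030009c00000000000000000000000000000000000000) := T_25 (nat_lit 173) (nat_lit 189) (nat_lit 1) (nat_lit 6) (nat_lit 10) L71985 (by decide +kernel)
theorem L71987 : W_25 (nat_lit 5) (nat_lit 0x3c0004001000080000000000000000000000000000000) (nat_lit 0x0) (nat_lit 0xe00030009c00000000000000000000000000000000000000) := T_25 (nat_lit 190) (nat_lit 191) (nat_lit 1) (nat_lit 7) (nat_lit 10) L71986 (by decide +kernel)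
theorem L71988 : W_25 (nat_lit 2) (nat_lit 0x4003f8004001000080000000000000000000000000000000) (nat_lit 0x0) (nat_lit 0xe00000000000000000000000000000000000000) := D_25 (nat_lit 154) (nat_lit 155) (nat_lit 153) (nat_lit 0) (nat_lit 5) (nat_lit 10) (nat_lit 0) (nat_lit 4) (nat_lit 10) (by decide +kernel)
theorem L71989 : W_25 (nat_lit 3) (nat_lit 0x4003f0004001000080000000000000000000000000000000) (nat_lit 0x0) (nat_lit 0x8002e00000000000000000000000000000000000000) := T_25 (nat_lit 171) (nat_lit 157) (nat_lit 2) (nat_lit 1) (nat_lit 10) L71988 (by decide +kernel)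
theorem L71990 : W_25 (nat_lit 4) (nat_lit 0x4003e0004001000080000000000000000000000000000000) (nat_lit 0x0) (nat_lit 0x1800ae00000000000000000000000000000000000000) := T_25 (nat_lit 172) (nat_lit 159) (nat_lit 2) (nat_lit 2) (nat_lit 10) L71989 (by decide +kernel)
theorem L71991 : W_25 (nat_lit 5) (nat_lit 0x4003c0004001000080000000000000000000000000000000) (nat_lit 0x0) (nat_lit 0x20003800ae00000000000000000000000000000000000000) := T_25 (nat_lit 173) (nat_lit 189) (nat_lit 1) (nat_lit 6) (nat_lit 10) L71990 (by decide +kernel)
theorem L71992 : W_25 (nat_lit 6) (nat_lit 0x3c0004001000080000000000000000000000000000000) (nat_lit 0x0) (nat_lit 0xe0003800ae00000000000000000000000000000000000000) := T_25 (nat_lit 190) (nat_lit 191) (nat_lit 1) (nat_lit 7) (nat_lit 10) L71991 (by decide +kernel)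
theorem L71993 : W_25 (nat_lit 2) (nat_lit 0x11003f0005001000080000000000000000000000000000000) (nat_lit 0x0) (nat_lit 0x880008000000000000000000000000000000000000000000) := D_25 (nat_lit 171) (nat_lit 191) (nat_lit 187) (nat_lit 3) (nat_lit 1) (nat_lit 10) (nat_lit 1) (nat_lit 4) (nat_lit 10) (by decide +kernel)
theorem L71994 : W_25 (nat_lit 3) (nat_lit 0x1003f0005001000080000000000000000000000000000000) (nat_lit 0x0) (nat_lit 0x3880008000000000000000000000000000000000000000000) := T_25 (nat_lit 192) (nat_lit 193) (nat_lit 3) (nat_lit 2) (nat_lit 10) L71993 (by decide +kernel)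
theorem L71995 : W_25 (nat_lit 4) (nat_lit 0x3f0005001000080000000000000000000000000000000) (nat_lit 0x0) (nat_lit 0x3b80008000000000000000000000000000000000000000000) := T_25 (nat_lit 188) (nat_lit 189) (nat_lit 1) (nat_lit 5) (nat_lit 10) L71994 (by decide +kernel)
theorem L71996 : W_25 (nat_lit 5) (nat_lit 0x3e0005001000080000000000000000000000000000000) (nat_lit 0x0) (nat_lit 0x3b80018008000000000000000000000000000000000000000) := T_25 (nat_lit 172) (nat_lit 159) (nat_lit 2) (nat_lit 2) (nat_lit 10) L71995 (by decide +kernel)
theorem L71997 : W_25 (nat_lit 6) (nat_lit 0x3c0005001000080000000000000000000000000000000) (nat_lit 0x0) (nat_lit 0x3b80038008800000000000000000000000000000000000000) := T_25 (nat_lit 173) (nat_lit 155) (nat_lit 0) (nat_lit 6) (nat_lit 10) L71996 (by decide +kernel)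
theorem L71998 : W_25 (nat_lit 7) (nat_lit 0x3c0004001000080000000000000000000000000000000) (nat_lit 0x0) (nat_lit 0x3b8003800b800000000000000000000000000000000000000) := T_25 (nat_lit 156) (nat_lit 157) (nat_lit 0) (nat_lit 7) (nat_lit 10) L71997 (by decide +kernel)
theorem L71999 : W_25 (nat_lit 10) (nat_lit 0x380004001000080000000000000000000000000000000) (nat_lit 0x0) (nat_lit 0x700038003f8007800be0018000c000600000000000000000000000000) := Q_25 (nat_lit 174) (C_25 L71987 (C_25 L71992 (C_25 L13207 (C_25 L71975 (C_25 L71998 N_25))))) (by decide +kernel)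
theorem L72000 : W_25 (nat_lit 2) (nat_lit 0x3f8004001000080000000000000000000000000000000) (nat_lit 0x0) (nat_lit 0x380000000000000000000000000000000000000000000000) := D_25 (nat_lit 188) (nat_lit 187) (nat_lit 189) (nat_lit 1) (nat_lit 4) (nat_lit 10) (nat_lit 1) (nat_lit 5) (nat_lit 10) (by decide +kernel)
theorem L72001 : W_25 (nat_lit 3) (nat_lit 0x3f0004001000080000000000000000000000000000000) (nat_lit 0x0) (nat_lit 0x380008002000000000000000000000000000000000000000) := T_25 (nat_lit 171) (nat_lit 157) (nat_lit 2) (nat_lit 1) (nat_lit 10) L72000 (by decide +kernel)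
theorem L72002 : W_25 (nat_lit 4) (nat_lit 0x3e0004001000080000000000000000000000000000000) (nat_lit 0x0) (nat_lit 0x38001800a000000000000000000000000000000000000000) := T_25 (nat_lit 172) (nat_lit 159) (nat_lit 2) (nat_lit 2) (nat_lit 10) L72001 (by decide +kernel)
theorem L72003 : W_25 (nat_lit 2) (nat_lit 0x3e0004001000080000000000000000000000000000000) (nat_lit 0x0) (nat_lit 0x3800000000000000000000000000000000000000) := D_25 (nat_lit 156) (nat_lit 157) (nat_lit 155) (nat_lit 0) (nat_lit 7) (nat_lit 10) (nat_lit 0) (nat_lit 6) (nat_lit 10) (by decide +kernel)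
theorem L72004 : W_25 (nat_lit 2) (nat_lit 0x3f0004001000080000000000000000000000000000000) (nat_lit 0x0) (nat_lit 0x1c00000000000000000000000000000000000000) := D_25 (nat_lit 155) (nat_lit 156) (nat_lit 154) (nat_lit 0) (nat_lit 6) (nat_lit 10) (nat_lit 0) (nat_lit 5) (nat_lit 10) (by decide +kernel)
theorem L72005 : W_25 (nat_lit 3) (nat_lit 0x3e0004001000080000000000000000000000000000000) (nat_lit 0x0) (nat_lit 0x10009c00000000000000000000000000000000000000) := T_25 (nat_lit 172) (nat_lit 159) (nat_lit 2) (nat_lit 2) (nat_lit 10) L72004 (by decide +kernel)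
theorem L72006 : W_25 (nat_lit 5) (nat_lit 0x3c0004001000080000000000000000000000000000000) (nat_lit 0x0) (nat_lit 0x38003800bc00000000000000000000000000000000000000) := Q_25 (nat_lit 173) (C_25 L72002 (C_25 L72003 (C_25 L72005 N_25))) (by decide +kernel)
theorem L72007 : W_25 (nat_lit 7) (nat_lit 0x380004001000080000000000000000000000000000000) (nat_lit 0x0) (nat_lit 0x10000f8007800be00200010000000000000000000000000000000) := Q_25 (nat_lit 174) (C_25 L71987 (C_25 L71992 (C_25 L13199 (C_25 L71975 (C_25 L72006 N_25))))) (by decide +kernel)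
theorem L72008 : W_25 (nat_lit 2) (nat_lit 0x3800060012000b0000000000000000000000000000000) (nat_lit 0x0) (nat_lit 0x1000000000000c00000000000000000000000000000000000) := D_25 (nat_lit 142) (nat_lit 143) (nat_lit 192) (nat_lit 1) (nat_lit 8) (nat_lit 8) (nat_lit 6) (nat_lit 5) (nat_lit 11) (by decide +kernel)
theorem L72009 : W_25 (nat_lit 3) (nat_lit 0x380006001200090000000000000000000000000000000) (nat_lit 0x0) (nat_lit 0x1000000000000c00020001000000000000000000000000000) := T_25 (nat_lit 125) (nat_lit 108) (nat_lit 6) (nat_lit 5) (nat_lit 10) L72008 (by decide +kernel)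
theorem L72010 : W_25 (nat_lit 4) (nat_lit 0x380006001200080000000000000000000000000000000) (nat_lit 0x0) (nat_lit 0x3000000000000c00030001000000000000000000000000000) := T_25 (nat_lit 124) (nat_lit 193) (nat_lit 7) (nat_lit 5) (nat_lit 7) L72009 (by decide +kernel)
theorem L72011 : W_25 (nat_lit 2) (nat_lit 0x1000380006001600080000000000000000000000000000000) (nat_lit 0x0) (nat_lit 0x20000000000000000100008000000000000000000000000000000) := D_25 (nat_lit 140) (nat_lit 123) (nat_lit 209) (nat_lit 4) (nat_lit 5) (nat_lit 11) (nat_lit 4) (nat_lit 5) (nat_lit 12) (by decide +kernel)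
theorem L72012 : W_25 (nat_lit 3) (nat_lit 0x380006001600080000000000000000000000000000000) (nat_lit 0x0) (nat_lit 0x20001000000000000100028000000000000000000000000000000) := T_25 (nat_lit 192) (nat_lit 125) (nat_lit 6) (nat_lit 5) (nat_lit 11) L72011 (by decide +kernel)
theorem L72013 : W_25 (nat_lit 4) (nat_lit 0x380006001200080000000000000000000000000000000) (nat_lit 0x0) (nat_lit 0x20001000000000000d00028000000000000000000000000000000) := T_25 (nat_lit 142) (nat_lit 143) (nat_lit 1) (nat_lit 8) (nat_lit 8) L72012 (by decide +kernel)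
theorem L72014 : W_25 (nat_lit 5) (nat_lit 0x380006001000080000000000000000000000000000000) (nat_lit 0x0) (nat_lit 0x20003000040008000f00038001800000000000000000000000000) := Q_25 (nat_lit 141) (C_25 L13742 (C_25 L72010 (C_25 L13753 (C_25 L72013 N_25)))) (by decide +kernel)
theorem L72015 : W_25 (nat_lit 6) (nat_lit 0x380004001000080000000000000000000000000000000) (nat_lit 0x0) (nat_lit 0x2000300004000b800f00038001800000000000000000000000000) := Q_25 (nat_lit 157) (C_25 L72014 (C_25 L13739 (C_25 L13737 N_25))) (by decide +kernel)
theorem L72016 : W_25 (nat_lit 7) (nat_lit 0x380004001000080000000000000000000000000000000) (nat_lit 0x0) (nat_lit 0x800050003c00040000000f00178001c00000000000000000000000000) := Q_25 (nat_lit 141) (C_25 L71947 (C_25 L39078 (C_25 L13766 (C_25 L71942 N_25)))) (by decide +kernel)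
theorem L72017 : W_25 (nat_lit 11) (nat_lit 0x380000001000080000000000000000000000000000000) (nat_lit 0x0) (nat_lit 0x14000f00078003f8007800fe00f8017c001e00000000000000000000000000) := Q_25 (nat_lit 158) (C_25 L71971 (C_25 L71983 (C_25 L71999 (C_25 L72007 (C_25 L72015 (C_25 L72016 N_25)))))) (by decide +kernel)
theorem L72021 : W_25 (nat_lit 5) (nat_lit 0x3c0014001000080000000000000000000000000000000) (nat_lit 0x0) (nat_lit 0x2000100000000b000980008000000000000000000000000000000) := T_25 (nat_lit 157) (nat_lit 156) (nat_lit 0) (nat_lit 7) (nat_lit 10) L72020 (by decide +kernel)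
theorem L72022 : W_25 (nat_lit 6) (nat_lit 0x3c0004001000080000000000000000000000000000000) (nat_lit 0x0) (nat_lit 0x2000100000003b000980008000000000000000000000000000000) := T_25 (nat_lit 160) (nat_lit 161) (nat_lit 2) (nat_lit 4) (nat_lit 10) L72021 (by decide +kernel)
theorem L72023 : W_25 (nat_lit 10) (nat_lit 0x3c0000001000080000000000000000000000000000000) (nat_lit 0x0) (nat_lit 0x700038001c0000003f000b8001c000600000000000000000000000000) := Q_25 (nat_lit 158) (C_25 L13231 (C_25 L13207 (C_25 L13199 (C_25 L72022 N_25)))) (by decide +kernel)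
theorem L72024 : W_25 (nat_lit 11) (nat_lit 0x380000001000080000000000000000000000000000000) (nat_lit 0x0) (nat_lit 0x700038003f8007803fe00b8001c000600000000000000000000000000) := Q_25 (nat_lit 174) (C_25 L71967 (C_25 L13244 (C_25 L71636 (C_25 L13197 (C_25 L72023 N_25))))) (by decide +kernel)
theorem L72025 : W_25 (nat_lit 2) (nat_lit 0x5000100008003c0012001300080000000000000000000000000000000) (nat_lit 0x0) (nat_lit 0xa000200000000000000000000000000000000000000000000000000000000) := D_25 (nat_lit 225) (nat_lit 241) (nat_lit 243) (nat_lit 5) (nat_lit 4) (nat_lit 10) (nat_lit 7) (nat_lit 4) (nat_lit 10) (by decide +kernel)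
theorem L72026 : W_25 (nat_lit 3) (nat_lit 0x1000100008003c0012001300080000000000000000000000000000000) (nat_lit 0x0) (nat_lit 0xa000600020000000000000000000000000000000000000000000000000000) := T_25 (nat_lit 226) (nat_lit 209) (nat_lit 7) (nat_lit 4) (nat_lit 9) L72025 (by decide +kernel)
theorem L72027 : W_25 (nat_lit 4) (nat_lit 0x100008003c0012001300080000000000000000000000000000000) (nat_lit 0x0) (nat_lit 0xa000700028000000000000000000000000000000000000000000000000000) := T_25 (nat_lit 224) (nat_lit 207) (nat_lit 5) (nat_lit 4) (nat_lit 9) L72026 (by decide +kernel)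
theorem L72028 : W_25 (nat_lit 5) (nat_lit 0x8003c0012001300080000000000000000000000000000000) (nat_lit 0x0) (nat_lit 0xa000700038000000000004000000000000000000000000000000000000000) := T_25 (nat_lit 208) (nat_lit 158) (nat_lit 6) (nat_lit 4) (nat_lit 12) L72027 (by decide +kernel)
theorem L72029 : W_25 (nat_lit 6) (nat_lit 0x8003c0012001100080000000000000000000000000000000) (nat_lit 0x0) (nat_lit 0xa000700038000000000004000200010000000000000000000000000000000) := T_25 (nat_lit 141) (nat_lit 124) (nat_lit 6) (nat_lit 4) (nat_lit 11) L72028 (by decide +kernel)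
theorem L72030 : W_25 (nat_lit 7) (nat_lit 0x8003c0002001100080000000000000000000000000000000) (nat_lit 0x0) (nat_lit 0xa000700038000000000034000200010000000000000000000000000000000) := T_25 (nat_lit 160) (nat_lit 161) (nat_lit 2) (nat_lit 4) (nat_lit 10) L72029 (by decide +kernel)
theorem L72031 : W_25 (nat_lit 8) (nat_lit 0x3c0002001100080000000000000000000000000000000) (nat_lit 0x0) (nat_lit 0xa000700038000c00000034000200010000000000000000000000000000000) := T_25 (nat_lit 191) (nat_lit 190) (nat_lit 1) (nat_lit 7) (nat_lit 10) L72030 (by decide +kernel)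
theorem L72032 : W_25 (nat_lit 9) (nat_lit 0x3c0002001000080000000000000000000000000000000) (nat_lit 0x0) (nat_lit 0xa000700038001c00000034000300018000c00040000000000000000000000) := Q_25 (nat_lit 140) (C_25 L71612 (C_25 L71609 (C_25 L72031 N_25))) (by decide +kernel)
theorem L72033 : W_25 (nat_lit 10) (nat_lit 0x3c0000001000080000000000000000000000000000000) (nat_lit 0x0) (nat_lit 0xa000700038001c00000037000300018000c00040000000000000000000000) := T_25 (nat_lit 157) (nat_lit 156) (nat_lit 0) (nat_lit 7) (nat_lit 10) L72032 (by decide +kernel)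
theorem L72034 : W_25 (nat_lit 11) (nat_lit 0x380000001000080000000000000000000000000000000) (nat_lit 0x0) (nat_lit 0xa000700038003f8007803fe00300018000c00040000000000000000000000) := Q_25 (nat_lit 174) (C_25 L71967 (C_25 L13244 (C_25 L71636 (C_25 L13197 (C_25 L72033 N_25))))) (by decide +kernel)
theorem L72035 : W_25 (nat_lit 2) (nat_lit 0x8003c0002001b00080000000000000000000000000000000) (nat_lit 0x0) (nat_lit 0x20001000000000000000008000000000000000000000000000000) := D_25 (nat_lit 192) (nat_lit 123) (nat_lit 209) (nat_lit 7) (nat_lit 4) (nat_lit 7) (nat_lit 7) (nat_lit 4) (nat_lit 8) (by decide +kernel)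
theorem L72036 : W_25 (nat_lit 3) (nat_lit 0x8003c0002001a00080000000000000000000000000000000) (nat_lit 0x0) (nat_lit 0x20001000000000000100018000000000000000000000000000000) := T_25 (nat_lit 140) (nat_lit 124) (nat_lit 6) (nat_lit 4) (nat_lit 11) L72035 (by decide +kernel)
theorem L72037 : W_25 (nat_lit 4) (nat_lit 0x3c0002001a00080000000000000000000000000000000) (nat_lit 0x0) (nat_lit 0x20001c00000000000100018000000000000000000000000000000) := T_25 (nat_lit 191) (nat_lit 190) (nat_lit 1) (nat_lit 7) (nat_lit 10) L72036 (by decide +kernel)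
theorem L72038 : W_25 (nat_lit 5) (nat_lit 0x3c0000001a00080000000000000000000000000000000) (nat_lit 0x0) (nat_lit 0x20001c00000003000100018000000000000000000000000000000) := T_25 (nat_lit 157) (nat_lit 156) (nat_lit 0) (nat_lit 7) (nat_lit 10) L72037 (by decide +kernel)
theorem L72039 : W_25 (nat_lit 2) (nat_lit 0x8003c0028001e00090000000000000000000000000000000) (nat_lit 0x0) (nat_lit 0x1000000000000000020000800000000000000000000000000) := D_25 (nat_lit 125) (nat_lit 107) (nat_lit 192) (nat_lit 4) (nat_lit 6) (nat_lit 10) (nat_lit 5) (nat_lit 6) (nat_lit 7) (by decide +kernel)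
theorem L72040 : W_25 (nat_lit 3) (nat_lit 0x8003c0020001e00090000000000000000000000000000000) (nat_lit 0x0) (nat_lit 0x3000000008000000020000800000000000000000000000000) := T_25 (nat_lit 159) (nat_lit 193) (nat_lit 4) (nat_lit 6) (nat_lit 11) L72039 (by decide +kernel)
theorem L72041 : W_25 (nat_lit 4) (nat_lit 0x8003c0000001e00090000000000000000000000000000000) (nat_lit 0x0) (nat_lit 0x3000000068000000020000800000000000000000000000000) := T_25 (nat_lit 161) (nat_lit 162) (nat_lit 3) (nat_lit 5) (nat_lit 8) L72040 (by decide +kernel)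
theorem L72042 : W_25 (nat_lit 5) (nat_lit 0x8003c0000001e00080000000000000000000000000000000) (nat_lit 0x0) (nat_lit 0x3000000068000000038000800000000000000000000000000) := T_25 (nat_lit 124) (nat_lit 123) (nat_lit 0) (nat_lit 8) (nat_lit 8) L72041 (by decide +kernel)
theorem L72043 : W_25 (nat_lit 6) (nat_lit 0x8003c0000001a00080000000000000000000000000000000) (nat_lit 0x0) (nat_lit 0x3000000068000400138000800000000000000000000000000) := T_25 (nat_lit 142) (nat_lit 128) (nat_lit 2) (nat_lit 5) (nat_lit 8) L72042 (by decide +kernel)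
theorem L72044 : W_25 (nat_lit 7) (nat_lit 0x3c0000001a00080000000000000000000000000000000) (nat_lit 0x0) (nat_lit 0x3c00000068000400138000800000000000000000000000000) := T_25 (nat_lit 191) (nat_lit 190) (nat_lit 1) (nat_lit 7) (nat_lit 10) L72043 (by decide +kernel)
theorem L72045 : W_25 (nat_lit 2) (nat_lit 0x8003c0002001f00080000000000000000000000000000000) (nat_lit 0x0) (nat_lit 0x100000000000000000c000000000000000000000000000000) := D_25 (nat_lit 123) (nat_lit 122) (nat_lit 192) (nat_lit 0) (nat_lit 7) (nat_lit 8) (nat_lit 7) (nat_lit 4) (nat_lit 7) (by decide +kernel)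
theorem L72046 : W_25 (nat_lit 3) (nat_lit 0x8003c0002001e00080000000000000000000000000000000) (nat_lit 0x0) (nat_lit 0x100000000000010004c000000000000000000000000000000) := T_25 (nat_lit 140) (nat_lit 126) (nat_lit 2) (nat_lit 4) (nat_lit 8) L72045 (by decide +kernel)
theorem L72047 : W_25 (nat_lit 4) (nat_lit 0x8003c0002001a00080000000000000000000000000000000) (nat_lit 0x0) (nat_lit 0x100000000000050014c000000000000000000000000000000) := T_25 (nat_lit 142) (nat_lit 128) (nat_lit 2) (nat_lit 5) (nat_lit 8) L72046 (by decide +kernel)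
theorem L72048 : W_25 (nat_lit 5) (nat_lit 0x3c0002001a00080000000000000000000000000000000) (nat_lit 0x0) (nat_lit 0x1c0000000000050014c000000000000000000000000000000) := T_25 (nat_lit 191) (nat_lit 190) (nat_lit 1) (nat_lit 7) (nat_lit 10) L72047 (by decide +kernel)
theorem L72049 : W_25 (nat_lit 6) (nat_lit 0x3c0000001a00080000000000000000000000000000000) (nat_lit 0x0) (nat_lit 0x1c0000000300050014c000000000000000000000000000000) := T_25 (nat_lit 157) (nat_lit 156) (nat_lit 0) (nat_lit 7) (nat_lit 10) L72048 (by decide +kernel)
theorem L72050 : W_25 (nat_lit 2) (nat_lit 0x3c0002001f00080000000000000000000000000000000) (nat_lit 0x0) (nat_lit 0xc00000000000000010000000000000000000000000000000) := D_25 (nat_lit 191) (nat_lit 190) (nat_lit 124) (nat_lit 1) (nat_lit 7) (nat_lit 10) (nat_lit 6) (nat_lit 4) (nat_lit 11) (by decide +kernel)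
theorem L72051 : W_25 (nat_lit 3) (nat_lit 0x3c0000001f00080000000000000000000000000000000) (nat_lit 0x0) (nat_lit 0xc00000003000000010000000000000000000000000000000) := T_25 (nat_lit 157) (nat_lit 156) (nat_lit 1) (nat_lit 7) (nat_lit 8) L72050 (by decide +kernel)
theorem L72052 : W_25 (nat_lit 4) (nat_lit 0x3c0000001e00080000000000000000000000000000000) (nat_lit 0x0) (nat_lit 0xc00000003000100050000000000000000000000000000000) := T_25 (nat_lit 140) (nat_lit 126) (nat_lit 2) (nat_lit 4) (nat_lit 8) L72051 (by decide +kernel)
theorem L72053 : W_25 (nat_lit 5) (nat_lit 0x3c0000001a00080000000000000000000000000000000) (nat_lit 0x0) (nat_lit 0xc00000003000500150000000000000000000000000000000) := T_25 (nat_lit 142) (nat_lit 128) (nat_lit 2) (nat_lit 5) (nat_lit 8) L72052 (by decide +kernel)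
theorem L72054 : W_25 (nat_lit 8) (nat_lit 0x3c0000001800080000000000000000000000000000000) (nat_lit 0x0) (nat_lit 0x20003c0000006b00070017c000800000000000000000000000000) := Q_25 (nat_lit 141) (C_25 L14723 (C_25 L72038 (C_25 L72044 (C_25 L72049 (C_25 L72053 N_25))))) (by decide +kernel)
theorem L72055 : W_25 (nat_lit 2) (nat_lit 0x3c00120018000c0002000000000000000000000000000) (nat_lit 0x0) (nat_lit 0x20001000080000000000000000000000) := D_25 (nat_lit 108) (nat_lit 91) (nat_lit 125) (nat_lit 4) (nat_lit 7) (nat_lit 9) (nat_lit 4) (nat_lit 7) (nat_lit 10) (by decide +kernel)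
theorem L72056 : W_25 (nat_lit 3) (nat_lit 0x3c00120018000c0000000000000000000000000000000) (nat_lit 0x0) (nat_lit 0x8000000020003000080000000000000000000000) := T_25 (nat_lit 109) (nat_lit 159) (nat_lit 5) (nat_lit 7) (nat_lit 6) L72055 (by decide +kernel)
theorem L72057 : W_25 (nat_lit 4) (nat_lit 0x3c0012001800080000000000000000000000000000000) (nat_lit 0x0) (nat_lit 0x2000000008000000060003000080000000000000000000000) := T_25 (nat_lit 126) (nat_lit 193) (nat_lit 5) (nat_lit 7) (nat_lit 7) L72056 (by decide +kernel)
theorem L72058 : W_25 (nat_lit 5) (nat_lit 0x3c0002001800080000000000000000000000000000000) (nat_lit 0x0) (nat_lit 0x2000000038000000060003000080000000000000000000000) := T_25 (nat_lit 160) (nat_lit 161) (nat_lit 2) (nat_lit 4) (nat_lit 10) L72057 (by decide +kernel)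
theorem L72059 : W_25 (nat_lit 6) (nat_lit 0x3c0000001800080000000000000000000000000000000) (nat_lit 0x0) (nat_lit 0x200000003b000000060003000080000000000000000000000) := T_25 (nat_lit 157) (nat_lit 156) (nat_lit 0) (nat_lit 7) (nat_lit 10) L72058 (by decide +kernel)
theorem L72060 : W_25 (nat_lit 2) (nat_lit 0x8003c0012001b001c0003400000008000000000000000000) (nat_lit 0x0) (nat_lit 0x20001000000000000000008000000000000000000000000000000) := D_25 (nat_lit 192) (nat_lit 123) (nat_lit 209) (nat_lit 7) (nat_lit 4) (nat_lit 7) (nat_lit 7) (nat_lit 4) (nat_lit 8) (by decide +kernel)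
theorem L72061 : W_25 (nat_lit 3) (nat_lit 0x8003c0012001a001c0003400000008000000000000000000) (nat_lit 0x0) (nat_lit 0x20001000000000000100018000000000000000000000000000000) := T_25 (nat_lit 140) (nat_lit 124) (nat_lit 6) (nat_lit 4) (nat_lit 11) L72060 (by decide +kernel)
theorem L72062 : W_25 (nat_lit 4) (nat_lit 0x8003c0010001a001c0003400000008000000000000000000) (nat_lit 0x0) (nat_lit 0x20001000000003000100018000000000000000000000000000000) := T_25 (nat_lit 157) (nat_lit 156) (nat_lit 0) (nat_lit 7) (nat_lit 10) L72061 (by decide +kernel)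
theorem L72063 : W_25 (nat_lit 5) (nat_lit 0x8003c00100018001c0003400000008000000000000000000) (nat_lit 0x0) (nat_lit 0x20001000000003000700018000000000000000000000000000000) := T_25 (nat_lit 141) (nat_lit 142) (nat_lit 2) (nat_lit 5) (nat_lit 8) L72062 (by decide +kernel)
theorem L72064 : W_25 (nat_lit 6) (nat_lit 0x8003c00100018001c0003400000000000000000000000000) (nat_lit 0x0) (nat_lit 0x20001000000003000700018000000100008000000000000000000) := T_25 (nat_lit 75) (nat_lit 92) (nat_lit 7) (nat_lit 7) (nat_lit 4) L72063 (by decide +kernel)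
theorem L72065 : W_25 (nat_lit 7) (nat_lit 0x8003c00100018000c0003400000000000000000000000000) (nat_lit 0x0) (nat_lit 0x20001000000003000700318000000100008000000000000000000) := T_25 (nat_lit 128) (nat_lit 129) (nat_lit 0) (nat_lit 10) (nat_lit 7) L72064 (by decide +kernel)
theorem L72066 : W_25 (nat_lit 8) (nat_lit 0x8003c00100018000c0003000000000000000000000000000) (nat_lit 0x0) (nat_lit 0x20001000000003000700318000c00100008000000000000000000) := T_25 (nat_lit 106) (nat_lit 107) (nat_lit 3) (nat_lit 4) (nat_lit 6) L72065 (by decide +kernel)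
theorem L72067 : W_25 (nat_lit 9) (nat_lit 0x8003c00100018000c0002000000000000000000000000000) (nat_lit 0x0) (nat_lit 0x20001000000003000700318001c00180008000000000000000000) := T_25 (nat_lit 108) (nat_lit 91) (nat_lit 4) (nat_lit 7) (nat_lit 9) L72066 (by decide +kernel)
theorem L72068 : W_25 (nat_lit 10) (nat_lit 0x8003c00100018000c0000000000000000000000000000000) (nat_lit 0x0) (nat_lit 0x2000100000000b000700318003c00180008000000000000000000) := T_25 (nat_lit 109) (nat_lit 159) (nat_lit 5) (nat_lit 7) (nat_lit 6) L72067 (by decide +kernel)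
theorem L72069 : W_25 (nat_lit 11) (nat_lit 0x8003c0010001800080000000000000000000000000000000) (nat_lit 0x0) (nat_lit 0x2000300000000b000700358003c00180008000000000000000000) := T_25 (nat_lit 126) (nat_lit 193) (nat_lit 5) (nat_lit 7) (nat_lit 7) L72068 (by decide +kernel)
theorem L72070 : W_25 (nat_lit 12) (nat_lit 0x3c0010001800080000000000000000000000000000000) (nat_lit 0x0) (nat_lit 0x20003c0000000b000700358003c00180008000000000000000000) := T_25 (nat_lit 191) (nat_lit 190) (nat_lit 1) (nat_lit 7) (nat_lit 10) L72069 (by decide +kernel)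
theorem L72071 : W_25 (nat_lit 13) (nat_lit 0x3c0000001800080000000000000000000000000000000) (nat_lit 0x0) (nat_lit 0x20003c0000003b000700358003c00180008000000000000000000) := T_25 (nat_lit 160) (nat_lit 161) (nat_lit 2) (nat_lit 4) (nat_lit 10) L72070 (by decide +kernel)
theorem L72072 : W_25 (nat_lit 8) (nat_lit 0x3c0000001800080000000000000000000000000000000) (nat_lit 0x0) (nat_lit 0x20003c0000007b00070013c000800000000000000000000000000) := Q_25 (nat_lit 141) (C_25 L72044 (C_25 L72038 (C_25 L71753 (C_25 L71764 N_25)))) (by decide +kernel)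
theorem L72073 : W_25 (nat_lit 2) (nat_lit 0x8003c00120019000e8000000000000000000000000000000) (nat_lit 0x0) (nat_lit 0x80004000200000000000000000000000000) := D_25 (nat_lit 122) (nat_lit 139) (nat_lit 105) (nat_lit 4) (nat_lit 4) (nat_lit 11) (nat_lit 4) (nat_lit 4) (nat_lit 10) (by decide +kernel)
theorem L72074 : W_25 (nat_lit 3) (nat_lit 0x8003c00120018000e8000000000000000000000000000000) (nat_lit 0x0) (nat_lit 0x1000000000000180004000200000000000000000000000000) := T_25 (nat_lit 140) (nat_lit 192) (nat_lit 7) (nat_lit 4) (nat_lit 7) L72073 (by decide +kernel)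
theorem L72075 : W_25 (nat_lit 4) (nat_lit 0x8003c00100018000e8000000000000000000000000000000) (nat_lit 0x0) (nat_lit 0x1000000003000180004000200000000000000000000000000) := T_25 (nat_lit 157) (nat_lit 156) (nat_lit 0) (nat_lit 7) (nat_lit 10) L72074 (by decide +kernel)
theorem L72076 : W_25 (nat_lit 5) (nat_lit 0x8003c00100018000e0000000000000000000000000000000) (nat_lit 0x0) (nat_lit 0x100000000300018001c000200000000000000000000000000) := T_25 (nat_lit 123) (nat_lit 124) (nat_lit 3) (nat_lit 4) (nat_lit 7) L72075 (by decide +kernel)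
theorem L72077 : W_25 (nat_lit 6) (nat_lit 0x8003c00100018000c0000000000000000000000000000000) (nat_lit 0x0) (nat_lit 0x100000000300018003c001200000000000000000000000000) := T_25 (nat_lit 125) (nat_lit 108) (nat_lit 4) (nat_lit 7) (nat_lit 10) L72076 (by decide +kernel)
theorem L72078 : W_25 (nat_lit 7) (nat_lit 0x8003c0010001800080000000000000000000000000000000) (nat_lit 0x0) (nat_lit 0x300000000300018007c001200000000000000000000000000) := T_25 (nat_lit 126) (nat_lit 193) (nat_lit 5) (nat_lit 7) (nat_lit 7) L72077 (by decide +kernel)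
theorem L72079 : W_25 (nat_lit 8) (nat_lit 0x3c0010001800080000000000000000000000000000000) (nat_lit 0x0) (nat_lit 0x3c0000000300018007c001200000000000000000000000000) := T_25 (nat_lit 191) (nat_lit 190) (nat_lit 1) (nat_lit 7) (nat_lit 10) L72078 (by decide +kernel)
theorem L72080 : W_25 (nat_lit 9) (nat_lit 0x3c0000001800080000000000000000000000000000000) (nat_lit 0x0) (nat_lit 0x3c0000003300018007c001200000000000000000000000000) := T_25 (nat_lit 160) (nat_lit 161) (nat_lit 2) (nat_lit 4) (nat_lit 10) L72079 (by decide +kernel)
theorem L72081 : W_25 (nat_lit 2) (nat_lit 0x8003c000a001e00090000000000000000000000000000000) (nat_lit 0x0) (nat_lit 0x1000000000000000020000800000000000000000000000000) := D_25 (nat_lit 125) (nat_lit 107) (nat_lit 192) (nat_lit 4) (nat_lit 6) (nat_lit 10) (nat_lit 5) (nat_lit 6) (nat_lit 7) (by decide +kernel)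
theorem L72082 : W_25 (nat_lit 3) (nat_lit 0x8003c0002001e00090000000000000000000000000000000) (nat_lit 0x0) (nat_lit 0x3000000008000000020000800000000000000000000000000) := T_25 (nat_lit 159) (nat_lit 193) (nat_lit 4) (nat_lit 6) (nat_lit 11) L72081 (by decide +kernel)
theorem L72083 : W_25 (nat_lit 4) (nat_lit 0x3c0002001e00090000000000000000000000000000000) (nat_lit 0x0) (nat_lit 0x3c00000008000000020000800000000000000000000000000) := T_25 (nat_lit 191) (nat_lit 190) (nat_lit 1) (nat_lit 7) (nat_lit 10) L72082 (by decide +kernel)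
theorem L72084 : W_25 (nat_lit 5) (nat_lit 0x3c0002001e00080000000000000000000000000000000) (nat_lit 0x0) (nat_lit 0x3c00000008000000038000800000000000000000000000000) := T_25 (nat_lit 124) (nat_lit 123) (nat_lit 0) (nat_lit 8) (nat_lit 8) L72083 (by decide +kernel)
theorem L72085 : W_25 (nat_lit 6) (nat_lit 0x3c0002001a00080000000000000000000000000000000) (nat_lit 0x0) (nat_lit 0x3c00000008000400138000800000000000000000000000000) := T_25 (nat_lit 142) (nat_lit 128) (nat_lit 2) (nat_lit 5) (nat_lit 8) L72084 (by decide +kernel)
theorem L72086 : W_25 (nat_lit 7) (nat_lit 0x3c0000001a00080000000000000000000000000000000) (nat_lit 0x0) (nat_lit 0x3c0000000b000400138000800000000000000000000000000) := T_25 (nat_lit 157) (nat_lit 156) (nat_lit 0) (nat_lit 7) (nat_lit 10) L72085 (by decide +kernel)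
theorem L72087 : W_25 (nat_lit 8) (nat_lit 0x3c0000001800080000000000000000000000000000000) (nat_lit 0x0) (nat_lit 0x20003c0000000b00070017c000800000000000000000000000000) := Q_25 (nat_lit 141) (C_25 L72086 (C_25 L72053 (C_25 L72038 (C_25 L14723 (C_25 L72049 N_25))))) (by decide +kernel)
theorem L72088 : W_25 (nat_lit 2) (nat_lit 0x8003c00100018000c0002000000000000000000000000000) (nat_lit 0x0) (nat_lit 0x20001000080000000000000000000000) := D_25 (nat_lit 108) (nat_lit 91) (nat_lit 125) (nat_lit 4) (nat_lit 7) (nat_lit 9) (nat_lit 4) (nat_lit 7) (nat_lit 10) (by decide +kernel)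
theorem L72089 : W_25 (nat_lit 3) (nat_lit 0x8003c00100018000c0000000000000000000000000000000) (nat_lit 0x0) (nat_lit 0x8000000020003000080000000000000000000000) := T_25 (nat_lit 109) (nat_lit 159) (nat_lit 5) (nat_lit 7) (nat_lit 6) L72088 (by decide +kernel)
theorem L72090 : W_25 (nat_lit 4) (nat_lit 0x8003c0010001800080000000000000000000000000000000) (nat_lit 0x0) (nat_lit 0x2000000008000000060003000080000000000000000000000) := T_25 (nat_lit 126) (nat_lit 193) (nat_lit 5) (nat_lit 7) (nat_lit 7) L72089 (by decide +kernel)
theorem L72091 : W_25 (nat_lit 5) (nat_lit 0x8003c0000001800080000000000000000000000000000000) (nat_lit 0x0) (nat_lit 0x2000000038000000060003000080000000000000000000000) := T_25 (nat_lit 160) (nat_lit 161) (nat_lit 2) (nat_lit 4) (nat_lit 10) L72090 (by decide +kernel)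
theorem L72092 : W_25 (nat_lit 6) (nat_lit 0x3c0000001800080000000000000000000000000000000) (nat_lit 0x0) (nat_lit 0x2c00000038000000060003000080000000000000000000000) := T_25 (nat_lit 191) (nat_lit 190) (nat_lit 1) (nat_lit 7) (nat_lit 10) L72091 (by decide +kernel)
theorem L72093 : W_25 (nat_lit 7) (nat_lit 0x3c0000001800080000000000000000000000000000000) (nat_lit 0x0) (nat_lit 0x20001c0000007300070015c000000000000000000000000000000) := Q_25 (nat_lit 141) (C_25 L72053 (C_25 L72038 (C_25 L71753 (C_25 L71764 N_25)))) (by decide +kernel)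
theorem L72094 : W_25 (nat_lit 14) (nat_lit 0x3c0000001000080000000000000000000000000000000) (nat_lit 0x0) (nat_lit 0x20003c0000007b000f8037c003e00180008000000000000000000) := Q_25 (nat_lit 143) (C_25 L72054 (C_25 L72059 (C_25 L72071 (C_25 L72072 (C_25 L72080 (C_25 L72087 (C_25 L72092 (C_25 L72093 N_25)))))))) (by decide +kernel)
theorem L72095 : W_25 (nat_lit 15) (nat_lit 0x380000001000080000000000000000000000000000000) (nat_lit 0x0) (nat_lit 0x20003e0006007b800f8037c003e00180008000000000000000000) := Q_25 (nat_lit 174) (C_25 L71633 (C_25 L71648 (C_25 L71636 (C_25 L72094 N_25)))) (by decide +kernel)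
theorem L72096 : W_25 (nat_lit 2) (nat_lit 0x380018003c001e001000080000000000000000000000000000000) (nat_lit 0x0) (nat_lit 0x6002000000000000000000000000000000000000000000000000) := D_25 (nat_lit 206) (nat_lit 205) (nat_lit 193) (nat_lit 2) (nat_lit 1) (nat_lit 12) (nat_lit 2) (nat_lit 2) (nat_lit 12) (by decide +kernel)
theorem L72097 : W_25 (nat_lit 3) (nat_lit 0x380008003c001e001000080000000000000000000000000000000) (nat_lit 0x0) (nat_lit 0x6003000000000000400000000000000000000000000000000000) := T_25 (nat_lit 192) (nat_lit 142) (nat_lit 6) (nat_lit 5) (nat_lit 12) L72096 (by decide +kernel)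
theorem L72098 : W_25 (nat_lit 4) (nat_lit 0x180008003c001e001000080000000000000000000000000000000) (nat_lit 0x0) (nat_lit 0x400026003000000000000400000000000000000000000000000000000) := T_25 (nat_lit 209) (nat_lit 226) (nat_lit 7) (nat_lit 4) (nat_lit 9) L72097 (by decide +kernel)
theorem L72099 : W_25 (nat_lit 5) (nat_lit 0x100008003c001e001000080000000000000000000000000000000) (nat_lit 0x0) (nat_lit 0x50002e003000000000000400000000000000000000000000000000000) := T_25 (nat_lit 207) (nat_lit 224) (nat_lit 5) (nat_lit 4) (nat_lit 9) L72098 (by decide +kernel)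
theorem L72100 : W_25 (nat_lit 6) (nat_lit 0x8003c001e001000080000000000000000000000000000000) (nat_lit 0x0) (nat_lit 0x70003e003000000000000400000000000000000000000000000000000) := T_25 (nat_lit 208) (nat_lit 225) (nat_lit 6) (nat_lit 4) (nat_lit 13) L72099 (by decide +kernel)
theorem L72101 : W_25 (nat_lit 7) (nat_lit 0x8003c0016001000080000000000000000000000000000000) (nat_lit 0x0) (nat_lit 0x70003e003000000008000c00000000000000000000000000000000000) := T_25 (nat_lit 159) (nat_lit 143) (nat_lit 2) (nat_lit 4) (nat_lit 9) L72100 (by decide +kernel)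
theorem L72102 : W_25 (nat_lit 8) (nat_lit 0x8003c0006001000080000000000000000000000000000000) (nat_lit 0x0) (nat_lit 0x70003e003000000038000c00000000000000000000000000000000000) := T_25 (nat_lit 160) (nat_lit 161) (nat_lit 2) (nat_lit 4) (nat_lit 10) L72101 (by decide +kernel)
theorem L72103 : W_25 (nat_lit 9) (nat_lit 0x3c0006001000080000000000000000000000000000000) (nat_lit 0x0) (nat_lit 0x70003e003c00000038000c00000000000000000000000000000000000) := T_25 (nat_lit 191) (nat_lit 190) (nat_lit 1) (nat_lit 7) (nat_lit 10) L72102 (by decide +kernel)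
theorem L72104 : W_25 (nat_lit 10) (nat_lit 0x3c0004001000080000000000000000000000000000000) (nat_lit 0x0) (nat_lit 0x70003e003c0000003b000c00000000000000000000000000000000000) := T_25 (nat_lit 157) (nat_lit 156) (nat_lit 0) (nat_lit 7) (nat_lit 10) L72103 (by decide +kernel)
theorem L72105 : W_25 (nat_lit 11) (nat_lit 0x3c0000001000080000000000000000000000000000000) (nat_lit 0x0) (nat_lit 0xf0007e003c0000003f000e00078001c00000000000000000000000000) := Q_25 (nat_lit 158) (C_25 L13231 (C_25 L71968 (C_25 L72104 (C_25 L13199 N_25)))) (by decide +kernel)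
theorem L72106 : W_25 (nat_lit 12) (nat_lit 0x380000001000080000000000000000000000000000000) (nat_lit 0x0) (nat_lit 0xf0007e003f8007803fe00e00078001c00000000000000000000000000) := Q_25 (nat_lit 174) (C_25 L71967 (C_25 L13244 (C_25 L71636 (C_25 L13197 (C_25 L72105 N_25))))) (by decide +kernel)
theorem L72107 : W_25 (nat_lit 2) (nat_lit 0x20003000380004001300080000000000000000000000000000000) (nat_lit 0x0) (nat_lit 0x400000000000000008000400000000000000000000000000000000000) := D_25 (nat_lit 159) (nat_lit 142) (nat_lit 226) (nat_lit 6) (nat_lit 5) (nat_lit 12) (nat_lit 6) (nat_lit 5) (nat_lit 13) (by decide +kernel)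
theorem L72108 : W_25 (nat_lit 3) (nat_lit 0x3000380004001300080000000000000000000000000000000) (nat_lit 0x0) (nat_lit 0x40002000000000000a000400000000000000000000000000000000000) := T_25 (nat_lit 209) (nat_lit 157) (nat_lit 4) (nat_lit 5) (nat_lit 12) L72107 (by decide +kernel)
theorem L72109 : W_25 (nat_lit 4) (nat_lit 0x1000380004001300080000000000000000000000000000000) (nat_lit 0x0) (nat_lit 0x40006000200000000a000400000000000000000000000000000000000) := T_25 (nat_lit 193) (nat_lit 210) (nat_lit 7) (nat_lit 5) (nat_lit 8) L72108 (by decide +kernel)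
theorem L72110 : W_25 (nat_lit 5) (nat_lit 0x1000380004001200080000000000000000000000000000000) (nat_lit 0x0) (nat_lit 0x40006000200000000a000500008000000000000000000000000000000) := T_25 (nat_lit 140) (nat_lit 123) (nat_lit 4) (nat_lit 5) (nat_lit 11) L72109 (by decide +kernel)
theorem L72111 : W_25 (nat_lit 2) (nat_lit 0x20001a00380004001300080000000000000000000000000000000) (nat_lit 0x0) (nat_lit 0x400000000000000008000400000000000000000000000000000000000) := D_25 (nat_lit 159) (nat_lit 142) (nat_lit 226) (nat_lit 6) (nat_lit 5) (nat_lit 12) (nat_lit 6) (nat_lit 5) (nat_lit 13) (by decide +kernel)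
theorem L72112 : W_25 (nat_lit 3) (nat_lit 0x1a00380004001300080000000000000000000000000000000) (nat_lit 0x0) (nat_lit 0x40002000000000000a000400000000000000000000000000000000000) := T_25 (nat_lit 209) (nat_lit 157) (nat_lit 4) (nat_lit 5) (nat_lit 12) L72111 (by decide +kernel)
theorem L72113 : W_25 (nat_lit 4) (nat_lit 0x1800380004001300080000000000000000000000000000000) (nat_lit 0x0) (nat_lit 0x40002000060000000a000400000000000000000000000000000000000) := T_25 (nat_lit 189) (nat_lit 190) (nat_lit 2) (nat_lit 2) (nat_lit 11) L72112 (by decide +kernel)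
theorem L72114 : W_25 (nat_lit 5) (nat_lit 0x1000380004001300080000000000000000000000000000000) (nat_lit 0x0) (nat_lit 0x400030000e0000000a000400000000000000000000000000000000000) := T_25 (nat_lit 191) (nat_lit 208) (nat_lit 5) (nat_lit 5) (nat_lit 8) L72113 (by decide +kernel)
theorem L72115 : W_25 (nat_lit 6) (nat_lit 0x1000380004001200080000000000000000000000000000000) (nat_lit 0x0) (nat_lit 0x400030000e0000000a000500008000000000000000000000000000000) := T_25 (nat_lit 140) (nat_lit 123) (nat_lit 4) (nat_lit 5) (nat_lit 11) L72114 (by decide +kernel)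
theorem L72116 : W_25 (nat_lit 7) (nat_lit 0x380004001200080000000000000000000000000000000) (nat_lit 0x0) (nat_lit 0x400070003e0000000a000500008000000000000000000000000000000) := Q_25 (nat_lit 192) (C_25 L38701 (C_25 L72110 (C_25 L72115 N_25))) (by decide +kernel)
theorem L72117 : W_25 (nat_lit 2) (nat_lit 0x1000100038000d001a00098000000000000000000000000000000) (nat_lit 0x0) (nat_lit 0x600020000000000000000000000000000000000000000000000000000) := D_25 (nat_lit 209) (nat_lit 226) (nat_lit 225) (nat_lit 6) (nat_lit 5) (nat_lit 13) (nat_lit 5) (nat_lit 5) (nat_lit 9) (by decide +kernel)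
theorem L72118 : W_25 (nat_lit 3) (nat_lit 0x100038000d001a00098000000000000000000000000000000) (nat_lit 0x0) (nat_lit 0x600030000800000000000000000000000000000000000000000000000) := T_25 (nat_lit 208) (nat_lit 191) (nat_lit 5) (nat_lit 5) (nat_lit 8) L72117 (by decide +kernel)
theorem L72119 : W_25 (nat_lit 4) (nat_lit 0x38000d001a00098000000000000000000000000000000) (nat_lit 0x0) (nat_lit 0x600030001800000000000100000000000000000000000000000000000) := T_25 (nat_lit 192) (nat_lit 140) (nat_lit 4) (nat_lit 5) (nat_lit 11) L72118 (by decide +kernel)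
theorem L72120 : W_25 (nat_lit 5) (nat_lit 0x38000d001200098000000000000000000000000000000) (nat_lit 0x0) (nat_lit 0x600030001800000000000d00000000000000000000000000000000000) := T_25 (nat_lit 143) (nat_lit 142) (nat_lit 0) (nat_lit 8) (nat_lit 8) L72119 (by decide +kernel)
theorem L72121 : W_25 (nat_lit 6) (nat_lit 0x38000d001200090000000000000000000000000000000) (nat_lit 0x0) (nat_lit 0x600030001800000000000d00008000400000000000000000000000000) := T_25 (nat_lit 123) (nat_lit 106) (nat_lit 4) (nat_lit 5) (nat_lit 10) L72120 (by decide +kernel)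
theorem L72122 : W_25 (nat_lit 7) (nat_lit 0x38000d001200080000000000000000000000000000000) (nat_lit 0x0) (nat_lit 0x600030001800000000000d00018000c00000000000000000000000000) := T_25 (nat_lit 124) (nat_lit 107) (nat_lit 7) (nat_lit 5) (nat_lit 6) L72121 (by decide +kernel)
theorem L72123 : W_25 (nat_lit 8) (nat_lit 0x38000c001200080000000000000000000000000000000) (nat_lit 0x0) (nat_lit 0x600030001800000003000d00018000c00000000000000000000000000) := T_25 (nat_lit 156) (nat_lit 157) (nat_lit 3) (nat_lit 3) (nat_lit 9) L72122 (by decide +kernel)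
theorem L72124 : W_25 (nat_lit 2) (nat_lit 0x38001e001200080000800000000000000000000000000) (nat_lit 0x0) (nat_lit 0x60000100000000000000000000000000000000000) := D_25 (nat_lit 161) (nat_lit 162) (nat_lit 140) (nat_lit 1) (nat_lit 9) (nat_lit 9) (nat_lit 0) (nat_lit 8) (nat_lit 9) (by decide +kernel)
theorem L72125 : W_25 (nat_lit 3) (nat_lit 0x38000e001200080000800000000000000000000000000) (nat_lit 0x0) (nat_lit 0x70000900000000000000000000000000000000000) := T_25 (nat_lit 160) (nat_lit 143) (nat_lit 2) (nat_lit 4) (nat_lit 9) L72124 (by decide +kernel)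
theorem L72126 : W_25 (nat_lit 4) (nat_lit 0x38000c001200080000800000000000000000000000000) (nat_lit 0x0) (nat_lit 0x73000900000000000000000000000000000000000) := T_25 (nat_lit 157) (nat_lit 156) (nat_lit 3) (nat_lit 3) (nat_lit 9) L72125 (by decide +kernel)
theorem L72127 : W_25 (nat_lit 5) (nat_lit 0x38000c001200080000000000000000000000000000000) (nat_lit 0x0) (nat_lit 0x73000900010000800000000000000000000000000) := T_25 (nat_lit 107) (nat_lit 124) (nat_lit 7) (nat_lit 5) (nat_lit 6) L72126 (by decide +kernel)
theorem L72128 : W_25 (nat_lit 2) (nat_lit 0x100038000d001200098000000000000000000000000000000) (nat_lit 0x0) (nat_lit 0x400020000000000000000400000000000000000000000000000000000) := D_25 (nat_lit 209) (nat_lit 142) (nat_lit 226) (nat_lit 6) (nat_lit 5) (nat_lit 12) (nat_lit 6) (nat_lit 5) (nat_lit 13) (by decide +kernel)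
theorem L72129 : W_25 (nat_lit 3) (nat_lit 0x38000d001200098000000000000000000000000000000) (nat_lit 0x0) (nat_lit 0x400020001000000000000500000000000000000000000000000000000) := T_25 (nat_lit 192) (nat_lit 140) (nat_lit 4) (nat_lit 5) (nat_lit 11) L72128 (by decide +kernel)
theorem L72130 : W_25 (nat_lit 4) (nat_lit 0x38000d001200090000000000000000000000000000000) (nat_lit 0x0) (nat_lit 0x400020001000000000000500008000400000000000000000000000000) := T_25 (nat_lit 123) (nat_lit 106) (nat_lit 4) (nat_lit 5) (nat_lit 10) L72129 (by decide +kernel)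
theorem L72131 : W_25 (nat_lit 5) (nat_lit 0x38000d001200080000000000000000000000000000000) (nat_lit 0x0) (nat_lit 0x400020001000000000000500018000c00000000000000000000000000) := T_25 (nat_lit 124) (nat_lit 107) (nat_lit 7) (nat_lit 5) (nat_lit 6) L72130 (by decide +kernel)
theorem L72132 : W_25 (nat_lit 6) (nat_lit 0x38000c001200080000000000000000000000000000000) (nat_lit 0x0) (nat_lit 0x400020001000000003000500018000c00000000000000000000000000) := T_25 (nat_lit 156) (nat_lit 157) (nat_lit 3) (nat_lit 3) (nat_lit 9) L72131 (by decide +kernel)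
theorem L72133 : W_25 (nat_lit 2) (nat_lit 0x38000e001200080000000000000000000000000000000) (nat_lit 0x0) (nat_lit 0x10000c00000000000000000000000000000000000) := D_25 (nat_lit 143) (nat_lit 160) (nat_lit 142) (nat_lit 2) (nat_lit 4) (nat_lit 9) (nat_lit 1) (nat_lit 8) (nat_lit 8) (by decide +kernel)
theorem L72134 : W_25 (nat_lit 3) (nat_lit 0x38000c001200080000000000000000000000000000000) (nat_lit 0x0) (nat_lit 0x13000c00000000000000000000000000000000000) := T_25 (nat_lit 157) (nat_lit 156) (nat_lit 3) (nat_lit 3) (nat_lit 9) L72133 (by decide +kernel)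
theorem L72135 : W_25 (nat_lit 2) (nat_lit 0x2000100038000e001a00098000000000000000000000000000000) (nat_lit 0x0) (nat_lit 0x200010000800000000000000000000000000000000000000000000000) := D_25 (nat_lit 208) (nat_lit 191) (nat_lit 225) (nat_lit 5) (nat_lit 5) (nat_lit 8) (nat_lit 5) (nat_lit 5) (nat_lit 9) (by decide +kernel)
theorem L72136 : W_25 (nat_lit 3) (nat_lit 0x100038000e001a00098000000000000000000000000000000) (nat_lit 0x0) (nat_lit 0x600030000800000000000000000000000000000000000000000000000) := T_25 (nat_lit 209) (nat_lit 226) (nat_lit 6) (nat_lit 5) (nat_lit 13) L72135 (by decide +kernel)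
theorem L72137 : W_25 (nat_lit 4) (nat_lit 0x100038000c001a00098000000000000000000000000000000) (nat_lit 0x0) (nat_lit 0x600030000800000012000000000000000000000000000000000000000) := T_25 (nat_lit 157) (nat_lit 160) (nat_lit 2) (nat_lit 4) (nat_lit 9) L72136 (by decide +kernel)
theorem L72138 : W_25 (nat_lit 5) (nat_lit 0x38000c001a00098000000000000000000000000000000) (nat_lit 0x0) (nat_lit 0x600030001800000012000100000000000000000000000000000000000) := T_25 (nat_lit 192) (nat_lit 140) (nat_lit 4) (nat_lit 5) (nat_lit 11) L72137 (by decide +kernel)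
theorem L72139 : W_25 (nat_lit 6) (nat_lit 0x38000c001200098000000000000000000000000000000) (nat_lit 0x0) (nat_lit 0x600030001800000012000d00000000000000000000000000000000000) := T_25 (nat_lit 143) (nat_lit 142) (nat_lit 0) (nat_lit 8) (nat_lit 8) L72138 (by decide +kernel)
theorem L72140 : W_25 (nat_lit 7) (nat_lit 0x38000c001200090000000000000000000000000000000) (nat_lit 0x0) (nat_lit 0x600030001800000012000d00008000400000000000000000000000000) := T_25 (nat_lit 123) (nat_lit 106) (nat_lit 4) (nat_lit 5) (nat_lit 10) L72139 (by decide +kernel)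
theorem L72141 : W_25 (nat_lit 8) (nat_lit 0x38000c001200080000000000000000000000000000000) (nat_lit 0x0) (nat_lit 0x600030001800000012000d00018000c00000000000000000000000000) := T_25 (nat_lit 124) (nat_lit 107) (nat_lit 7) (nat_lit 5) (nat_lit 6) L72140 (by decide +kernel)
theorem L72142 : W_25 (nat_lit 2) (nat_lit 0x1000100038000c001a00098000000000000000000000000000000) (nat_lit 0x0) (nat_lit 0x600020000000000000000000000000000000000000000000000000000) := D_25 (nat_lit 209) (nat_lit 226) (nat_lit 225) (nat_lit 6) (nat_lit 5) (nat_lit 13) (nat_lit 5) (nat_lit 5) (nat_lit 9) (by decide +kernel)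
theorem L72143 : W_25 (nat_lit 3) (nat_lit 0x100038000c001a00098000000000000000000000000000000) (nat_lit 0x0) (nat_lit 0x600030000800000000000000000000000000000000000000000000000) := T_25 (nat_lit 208) (nat_lit 191) (nat_lit 5) (nat_lit 5) (nat_lit 8) L72142 (by decide +kernel)
theorem L72144 : W_25 (nat_lit 4) (nat_lit 0x38000c001a00098000000000000000000000000000000) (nat_lit 0x0) (nat_lit 0x600030001800000000000100000000000000000000000000000000000) := T_25 (nat_lit 192) (nat_lit 140) (nat_lit 4) (nat_lit 5) (nat_lit 11) L72143 (by decide +kernel)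
theorem L72145 : W_25 (nat_lit 5) (nat_lit 0x38000c001200098000000000000000000000000000000) (nat_lit 0x0) (nat_lit 0x600030001800000000000d00000000000000000000000000000000000) := T_25 (nat_lit 143) (nat_lit 142) (nat_lit 0) (nat_lit 8) (nat_lit 8) L72144 (by decide +kernel)
theorem L72146 : W_25 (nat_lit 6) (nat_lit 0x38000c001200090000000000000000000000000000000) (nat_lit 0x0) (nat_lit 0x600030001800000000000d00008000400000000000000000000000000) := T_25 (nat_lit 123) (nat_lit 106) (nat_lit 4) (nat_lit 5) (nat_lit 10) L72145 (by decide +kernel)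
theorem L72147 : W_25 (nat_lit 7) (nat_lit 0x38000c001200080000000000000000000000000000000) (nat_lit 0x0) (nat_lit 0x600030001800000000000d00018000c00000000000000000000000000) := T_25 (nat_lit 124) (nat_lit 107) (nat_lit 7) (nat_lit 5) (nat_lit 6) L72146 (by decide +kernel)
theorem L72148 : W_25 (nat_lit 9) (nat_lit 0x380004001200080000000000000000000000000000000) (nat_lit 0x0) (nat_lit 0x60003000180000007b000d00018000c00000000000000000000000000) := Q_25 (nat_lit 159) (C_25 L72123 (C_25 L72127 (C_25 L72132 (C_25 L72134 (C_25 L72141 (C_25 L72147 N_25)))))) (by decide +kernel)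
theorem L72149 : W_25 (nat_lit 10) (nat_lit 0x380000001200080000000000000000000000000000000) (nat_lit 0x0) (nat_lit 0xe00070003e0000007f000d00018000c00020000000000000000000000) := Q_25 (nat_lit 158) (C_25 L39078 (C_25 L38710 (C_25 L72116 (C_25 L72148 N_25)))) (by decide +kernel)
theorem L72150 : W_25 (nat_lit 5) (nat_lit 0x1800380004001300080000000000000000000000000000000) (nat_lit 0x0) (nat_lit 0x10000c0006000060000000a000000000000000000000000000000000000000) := T_25 (nat_lit 189) (nat_lit 190) (nat_lit 2) (nat_lit 2) (nat_lit 11) L38717 (by decide +kernel)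
theorem L72151 : W_25 (nat_lit 6) (nat_lit 0x1000380004001300080000000000000000000000000000000) (nat_lit 0x0) (nat_lit 0x10000c00070000e0000000a000000000000000000000000000000000000000) := T_25 (nat_lit 191) (nat_lit 208) (nat_lit 5) (nat_lit 5) (nat_lit 8) L72150 (by decide +kernel)
theorem L72152 : W_25 (nat_lit 7) (nat_lit 0x1000380004001200080000000000000000000000000000000) (nat_lit 0x0) (nat_lit 0x10000c00070000e0000000a000100008000000000000000000000000000000) := T_25 (nat_lit 140) (nat_lit 123) (nat_lit 4) (nat_lit 5) (nat_lit 11) L72151 (by decide +kernel)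
theorem L72153 : W_25 (nat_lit 8) (nat_lit 0x380004001200080000000000000000000000000000000) (nat_lit 0x0) (nat_lit 0x18000c00070003e0000000a000100008000000000000000000000000000000) := Q_25 (nat_lit 192) (C_25 L38701 (C_25 L39242 (C_25 L72152 (C_25 L39245 N_25)))) (by decide +kernel)
theorem L72154 : W_25 (nat_lit 2) (nat_lit 0x3800040012000b8000000000000000000000000000000) (nat_lit 0x0) (nat_lit 0x900040000000000000000000000000000000) := D_25 (nat_lit 126) (nat_lit 143) (nat_lit 140) (nat_lit 3) (nat_lit 4) (nat_lit 7) (nat_lit 1) (nat_lit 8) (nat_lit 7) (by decide +kernel)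
theorem L72155 : W_25 (nat_lit 3) (nat_lit 0x380004001200098000000000000000000000000000000) (nat_lit 0x0) (nat_lit 0x900060001000000000000000000000000000) := T_25 (nat_lit 125) (nat_lit 108) (nat_lit 6) (nat_lit 5) (nat_lit 10) L72154 (by decide +kernel)
theorem L72156 : W_25 (nat_lit 4) (nat_lit 0x380004001200090000000000000000000000000000000) (nat_lit 0x0) (nat_lit 0x900068001400000000000000000000000000) := T_25 (nat_lit 123) (nat_lit 106) (nat_lit 4) (nat_lit 5) (nat_lit 10) L72155 (by decide +kernel)
theorem L72157 : W_25 (nat_lit 5) (nat_lit 0x380004001200080000000000000000000000000000000) (nat_lit 0x0) (nat_lit 0x8000900078001c000a0000000000000000000000) := Q_25 (nat_lit 124) (C_25 L13765 (C_25 L33376 (C_25 L72156 (C_25 L13761 N_25)))) (by decide +kernel)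
theorem L72158 : W_25 (nat_lit 9) (nat_lit 0x380000001200080000000000000000000000000000000) (nat_lit 0x0) (nat_lit 0x18000c00070003e0000000e000900078001c000a0000000000000000000000) := Q_25 (nat_lit 158) (C_25 L38710 (C_25 L39078 (C_25 L72153 (C_25 L72157 N_25)))) (by decide +kernel)
theorem L72159 : W_25 (nat_lit 6) (nat_lit 0x1000380004001300080000000000000000000000000000000) (nat_lit 0x0) (nat_lit 0x14000e00070000000000002000400020000000000000000000000000000000) := T_25 (nat_lit 142) (nat_lit 125) (nat_lit 6) (nat_lit 5) (nat_lit 11) L71828 (by decide +kernel)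
theorem L72160 : W_25 (nat_lit 7) (nat_lit 0x1000380004001200080000000000000000000000000000000) (nat_lit 0x0) (nat_lit 0x14000e00070000000000002000500028000000000000000000000000000000) := T_25 (nat_lit 140) (nat_lit 123) (nat_lit 4) (nat_lit 5) (nat_lit 11) L72159 (by decide +kernel)
theorem L72161 : W_25 (nat_lit 2) (nat_lit 0x10003800040013000a0000000000000000000000000000000) (nat_lit 0x0) (nat_lit 0x50001000000000000000000000000000) := D_25 (nat_lit 124) (nat_lit 126) (nat_lit 108) (nat_lit 1) (nat_lit 8) (nat_lit 7) (nat_lit 6) (nat_lit 5) (nat_lit 10) (by decide +kernel)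
theorem L72162 : W_25 (nat_lit 3) (nat_lit 0x10003800040012000a0000000000000000000000000000000) (nat_lit 0x0) (nat_lit 0x100058001000000000000000000000000000) := T_25 (nat_lit 140) (nat_lit 123) (nat_lit 4) (nat_lit 5) (nat_lit 11) L72161 (by decide +kernel)
theorem L72163 : W_25 (nat_lit 4) (nat_lit 0x1000380004001200080000000000000000000000000000000) (nat_lit 0x0) (nat_lit 0x500078001000000000000000000000000000) := T_25 (nat_lit 125) (nat_lit 142) (nat_lit 6) (nat_lit 5) (nat_lit 11) L72162 (by decide +kernel)
theorem L72164 : W_25 (nat_lit 8) (nat_lit 0x380004001200080000000000000000000000000000000) (nat_lit 0x0) (nat_lit 0x14000e00070001e0000000a000500078001000000000000000000000000000) := Q_25 (nat_lit 192) (C_25 L72160 (C_25 L72152 (C_25 L38704 (C_25 L72163 N_25)))) (by decide +kernel)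
theorem L72165 : W_25 (nat_lit 9) (nat_lit 0x380000001200080000000000000000000000000000000) (nat_lit 0x0) (nat_lit 0x1c000e00070003e0000000e000500078001c00020000000000000000000000) := Q_25 (nat_lit 158) (C_25 L72153 (C_25 L38710 (C_25 L39078 (C_25 L72164 N_25)))) (by decide +kernel)
theorem L72166 : W_25 (nat_lit 4) (nat_lit 0x380000001600080000000000000000000000000000000) (nat_lit 0x0) (nat_lit 0x90015c000000000000000000000000000000) := T_25 (nat_lit 143) (nat_lit 128) (nat_lit 2) (nat_lit 5) (nat_lit 8) L14622 (by decide +kernel)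
theorem L72167 : W_25 (nat_lit 2) (nat_lit 0x38002a001f00090000000000000000000000000000000) (nat_lit 0x0) (nat_lit 0x20000800040000000000000000000000) := D_25 (nat_lit 107) (nat_lit 90) (nat_lit 125) (nat_lit 7) (nat_lit 5) (nat_lit 5) (nat_lit 4) (nat_lit 6) (nat_lit 10) (by decide +kernel)
theorem L72168 : W_25 (nat_lit 3) (nat_lit 0x380022001f00090000000000000000000000000000000) (nat_lit 0x0) (nat_lit 0x2000000008000000020000800040000000000000000000000) := T_25 (nat_lit 159) (nat_lit 193) (nat_lit 4) (nat_lit 6) (nat_lit 11) L72167 (by decide +kernel)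
theorem L72169 : W_25 (nat_lit 4) (nat_lit 0x380020001f00090000000000000000000000000000000) (nat_lit 0x0) (nat_lit 0x200000000b000000020000800040000000000000000000000) := T_25 (nat_lit 157) (nat_lit 156) (nat_lit 1) (nat_lit 7) (nat_lit 8) L72168 (by decide +kernel)
theorem L72170 : W_25 (nat_lit 5) (nat_lit 0x380020001e00090000000000000000000000000000000) (nat_lit 0x0) (nat_lit 0x200000001b000100020000800040000000000000000000000) := T_25 (nat_lit 140) (nat_lit 160) (nat_lit 3) (nat_lit 4) (nat_lit 8) L72169 (by decide +kernel)
theorem L72171 : W_25 (nat_lit 6) (nat_lit 0x380000001e00090000000000000000000000000000000) (nat_lit 0x0) (nat_lit 0x200000007b000100020000800040000000000000000000000) := T_25 (nat_lit 161) (nat_lit 162) (nat_lit 3) (nat_lit 5) (nat_lit 8) L72170 (by decide +kernel)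
theorem L72172 : W_25 (nat_lit 7) (nat_lit 0x380000001e00080000000000000000000000000000000) (nat_lit 0x0) (nat_lit 0x200000007b000100038000800040000000000000000000000) := T_25 (nat_lit 124) (nat_lit 123) (nat_lit 0) (nat_lit 8) (nat_lit 8) L72171 (by decide +kernel)
theorem L72173 : W_25 (nat_lit 8) (nat_lit 0x380000001600080000000000000000000000000000000) (nat_lit 0x0) (nat_lit 0x200000007b000900138000800040000000000000000000000) := T_25 (nat_lit 143) (nat_lit 128) (nat_lit 2) (nat_lit 5) (nat_lit 8) L72172 (by decide +kernel)
theorem L72174 : W_25 (nat_lit 2) (nat_lit 0x3400380028001e00080000000000000000000000000000000) (nat_lit 0x0) (nat_lit 0x40000000000010000100000000000000000000000000000000000) := D_25 (nat_lit 160) (nat_lit 140) (nat_lit 210) (nat_lit 3) (nat_lit 4) (nat_lit 8) (nat_lit 6) (nat_lit 6) (nat_lit 12) (by decide +kernel)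
theorem L72175 : W_25 (nat_lit 3) (nat_lit 0x3400380008001e00080000000000000000000000000000000) (nat_lit 0x0) (nat_lit 0x40000000000070000100000000000000000000000000000000000) := T_25 (nat_lit 161) (nat_lit 162) (nat_lit 3) (nat_lit 5) (nat_lit 8) L72174 (by decide +kernel)
theorem L72176 : W_25 (nat_lit 4) (nat_lit 0x3400380008001600080000000000000000000000000000000) (nat_lit 0x0) (nat_lit 0x40000000000070000900040000000000000000000000000000000) := T_25 (nat_lit 143) (nat_lit 126) (nat_lit 6) (nat_lit 6) (nat_lit 11) L72175 (by decide +kernel)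
theorem L72177 : W_25 (nat_lit 5) (nat_lit 0x3000380008001600080000000000000000000000000000000) (nat_lit 0x0) (nat_lit 0x40000c00000070000900040000000000000000000000000000000) := T_25 (nat_lit 190) (nat_lit 191) (nat_lit 2) (nat_lit 3) (nat_lit 11) L72176 (by decide +kernel)
theorem L72178 : W_25 (nat_lit 6) (nat_lit 0x2000380008001600080000000000000000000000000000000) (nat_lit 0x0) (nat_lit 0x60001c00000070000900040000000000000000000000000000000) := T_25 (nat_lit 192) (nat_lit 209) (nat_lit 5) (nat_lit 6) (nat_lit 8) L72177 (by decide +kernel)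
theorem L72179 : W_25 (nat_lit 7) (nat_lit 0x380008001600080000000000000000000000000000000) (nat_lit 0x0) (nat_lit 0x60003c00000070000900050000000000000000000000000000000) := T_25 (nat_lit 193) (nat_lit 124) (nat_lit 4) (nat_lit 6) (nat_lit 11) L72178 (by decide +kernel)
theorem L72180 : W_25 (nat_lit 2) (nat_lit 0x2000380028001e00080000000000000000000000000000000) (nat_lit 0x0) (nat_lit 0x40000000000010000100000000000000000000000000000000000) := D_25 (nat_lit 160) (nat_lit 140) (nat_lit 210) (nat_lit 3) (nat_lit 4) (nat_lit 8) (nat_lit 6) (nat_lit 6) (nat_lit 12) (by decide +kernel)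
theorem L72181 : W_25 (nat_lit 3) (nat_lit 0x2000380008001e00080000000000000000000000000000000) (nat_lit 0x0) (nat_lit 0x40000000000070000100000000000000000000000000000000000) := T_25 (nat_lit 161) (nat_lit 162) (nat_lit 3) (nat_lit 5) (nat_lit 8) L72180 (by decide +kernel)
theorem L72182 : W_25 (nat_lit 4) (nat_lit 0x2000380008001600080000000000000000000000000000000) (nat_lit 0x0) (nat_lit 0x40000000000070000900040000000000000000000000000000000) := T_25 (nat_lit 143) (nat_lit 126) (nat_lit 6) (nat_lit 6) (nat_lit 11) L72181 (by decide +kernel)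
theorem L72183 : W_25 (nat_lit 5) (nat_lit 0x380008001600080000000000000000000000000000000) (nat_lit 0x0) (nat_lit 0x40002000000070000900050000000000000000000000000000000) := T_25 (nat_lit 193) (nat_lit 124) (nat_lit 4) (nat_lit 6) (nat_lit 11) L72182 (by decide +kernel)
theorem L72184 : W_25 (nat_lit 2) (nat_lit 0x3800080016000e0000000000000000000000000000000) (nat_lit 0x0) (nat_lit 0x980000000000000000000000000000000000) := D_25 (nat_lit 140) (nat_lit 143) (nat_lit 139) (nat_lit 2) (nat_lit 4) (nat_lit 8) (nat_lit 2) (nat_lit 3) (nat_lit 8) (by decide +kernel)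
theorem L72185 : W_25 (nat_lit 3) (nat_lit 0x3800080016000a0000000000000000000000000000000) (nat_lit 0x0) (nat_lit 0x980040002000000000000000000000000000) := T_25 (nat_lit 126) (nat_lit 109) (nat_lit 6) (nat_lit 6) (nat_lit 10) L72184 (by decide +kernel)
theorem L72186 : W_25 (nat_lit 4) (nat_lit 0x380008001600080000000000000000000000000000000) (nat_lit 0x0) (nat_lit 0x1000000000000980060002000000000000000000000000000) := T_25 (nat_lit 125) (nat_lit 192) (nat_lit 5) (nat_lit 6) (nat_lit 7) L72185 (by decide +kernel)
theorem L72187 : W_25 (nat_lit 8) (nat_lit 0x380000001600080000000000000000000000000000000) (nat_lit 0x0) (nat_lit 0x60003c00000078000980070002000000000000000000000000000) := Q_25 (nat_lit 159) (C_25 L38796 (C_25 L72179 (C_25 L72183 (C_25 L72186 N_25)))) (by decide +kernel)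
theorem L72188 : W_25 (nat_lit 2) (nat_lit 0x800060002000380008001600080000000000000000000000000000000) (nat_lit 0x0) (nat_lit 0x20001000080000000000000000000000000000000000000000000000000000) := D_25 (nat_lit 228) (nat_lit 211) (nat_lit 245) (nat_lit 7) (nat_lit 6) (nat_lit 9) (nat_lit 7) (nat_lit 6) (nat_lit 10) (by decide +kernel)
theorem L72189 : W_25 (nat_lit 3) (nat_lit 0x60002000380008001600080000000000000000000000000000000) (nat_lit 0x0) (nat_lit 0x20001800080000000000010000000000000000000000000000000000000000) := T_25 (nat_lit 227) (nat_lit 160) (nat_lit 6) (nat_lit 6) (nat_lit 13) L72188 (by decide +kernel)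
theorem L72190 : W_25 (nat_lit 4) (nat_lit 0x20002000380008001600080000000000000000000000000000000) (nat_lit 0x0) (nat_lit 0x20001c000c0000000000010000000000000000000000000000000000000000) := T_25 (nat_lit 210) (nat_lit 226) (nat_lit 5) (nat_lit 6) (nat_lit 9) L72189 (by decide +kernel)
theorem L72191 : W_25 (nat_lit 5) (nat_lit 0x2000380008001600080000000000000000000000000000000) (nat_lit 0x0) (nat_lit 0x20001c000e0001000000010000000000000000000000000000000000000000) := T_25 (nat_lit 209) (nat_lit 192) (nat_lit 5) (nat_lit 6) (nat_lit 8) L72190 (by decide +kernel)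
theorem L72192 : W_25 (nat_lit 6) (nat_lit 0x380008001600080000000000000000000000000000000) (nat_lit 0x0) (nat_lit 0x20001c000e0003000000010000000010000000000000000000000000000000) := T_25 (nat_lit 193) (nat_lit 124) (nat_lit 4) (nat_lit 6) (nat_lit 11) L72191 (by decide +kernel)
theorem L72193 : W_25 (nat_lit 2) (nat_lit 0x380008001600090000000000000000000000000000000) (nat_lit 0x0) (nat_lit 0x20000800040000000000000000000000) := D_25 (nat_lit 107) (nat_lit 125) (nat_lit 90) (nat_lit 4) (nat_lit 6) (nat_lit 10) (nat_lit 7) (nat_lit 5) (nat_lit 5) (by decide +kernel)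
theorem L72194 : W_25 (nat_lit 3) (nat_lit 0x380008001600080000000000000000000000000000000) (nat_lit 0x0) (nat_lit 0x2000000000000000030000800040000000000000000000000) := T_25 (nat_lit 124) (nat_lit 193) (nat_lit 4) (nat_lit 6) (nat_lit 11) L72193 (by decide +kernel)
theorem L72195 : W_25 (nat_lit 2) (nat_lit 0x3800080016000a0000000000000000000000000000000) (nat_lit 0x0) (nat_lit 0x140002000000000000000000000000000) := D_25 (nat_lit 126) (nat_lit 128) (nat_lit 109) (nat_lit 1) (nat_lit 9) (nat_lit 7) (nat_lit 6) (nat_lit 6) (nat_lit 10) (by decide +kernel)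
theorem L72196 : W_25 (nat_lit 3) (nat_lit 0x380008001600080000000000000000000000000000000) (nat_lit 0x0) (nat_lit 0x1000000000000000160002000000000000000000000000000) := T_25 (nat_lit 125) (nat_lit 192) (nat_lit 5) (nat_lit 6) (nat_lit 7) L72195 (by decide +kernel)
theorem L72197 : W_25 (nat_lit 7) (nat_lit 0x380000001600080000000000000000000000000000000) (nat_lit 0x0) (nat_lit 0x20001c000e0003000000018000000170002800040000000000000000000000) := Q_25 (nat_lit 159) (C_25 L38796 (C_25 L72192 (C_25 L72194 (C_25 L72196 N_25)))) (by decide +kernel)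
theorem L72198 : W_25 (nat_lit 2) (nat_lit 0x380000001f00080000000000000000000000000000000) (nat_lit 0x0) (nat_lit 0x70000000000000000000000000000000000000000) := D_25 (nat_lit 161) (nat_lit 162) (nat_lit 160) (nat_lit 3) (nat_lit 5) (nat_lit 8) (nat_lit 3) (nat_lit 4) (nat_lit 8) (by decide +kernel)
theorem L72199 : W_25 (nat_lit 3) (nat_lit 0x380000001e00080000000000000000000000000000000) (nat_lit 0x0) (nat_lit 0x70000100040000000000000000000000000000000) := T_25 (nat_lit 140) (nat_lit 126) (nat_lit 2) (nat_lit 4) (nat_lit 8) L72198 (by decide +kernel)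
theorem L72200 : W_25 (nat_lit 4) (nat_lit 0x380000001600080000000000000000000000000000000) (nat_lit 0x0) (nat_lit 0x70000900140000000000000000000000000000000) := T_25 (nat_lit 143) (nat_lit 128) (nat_lit 2) (nat_lit 5) (nat_lit 8) L72199 (by decide +kernel)
theorem L72201 : W_25 (nat_lit 9) (nat_lit 0x380000001200080000000000000000000000000000000) (nat_lit 0x0) (nat_lit 0x20001c000e0003c0000007b000d8017c002800040000000000000000000000) := Q_25 (nat_lit 142) (C_25 L72166 (C_25 L72173 (C_25 L72187 (C_25 L72197 (C_25 L72200 N_25))))) (by decide +kernel)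
theorem L72202 : W_25 (nat_lit 5) (nat_lit 0x380004001200080000000000000000000000000000000) (nat_lit 0x0) (nat_lit 0x2000000000000900078001400000000000000000000000000) := T_25 (nat_lit 124) (nat_lit 193) (nat_lit 7) (nat_lit 5) (nat_lit 7) L72156 (by decide +kernel)
theorem L72203 : W_25 (nat_lit 9) (nat_lit 0x380000001200080000000000000000000000000000000) (nat_lit 0x0) (nat_lit 0x1c000e00070003e0000000e000d00178001400000000000000000000000000) := Q_25 (nat_lit 158) (C_25 L72164 (C_25 L71831 (C_25 L72153 (C_25 L39078 (C_25 L72202 N_25))))) (by decide +kernel)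
theorem L72204 : W_25 (nat_lit 5) (nat_lit 0x380004001200080000000000000000000000000000000) (nat_lit 0x0) (nat_lit 0x200070003c0000000a000c00120000000000000000000000000000000) := Q_25 (nat_lit 192) (C_25 L71651 (C_25 L38704 (C_25 L38701 N_25))) (by decide +kernel)
theorem L72205 : W_25 (nat_lit 4) (nat_lit 0x380004001600080000000000000000000000000000000) (nat_lit 0x0) (nat_lit 0x200030001800000008000000020000000000000000000000000000000) := T_25 (nat_lit 192) (nat_lit 125) (nat_lit 6) (nat_lit 5) (nat_lit 11) L38703 (by decide +kernel)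
theorem L72206 : W_25 (nat_lit 5) (nat_lit 0x380004001200080000000000000000000000000000000) (nat_lit 0x0) (nat_lit 0x20003000180000000a000c00138001000000000000000000000000000) := Q_25 (nat_lit 142) (C_25 L71655 (C_25 L39083 (C_25 L72205 N_25))) (by decide +kernel)
theorem L72207 : W_25 (nat_lit 6) (nat_lit 0x380000001200080000000000000000000000000000000) (nat_lit 0x0) (nat_lit 0xa00070003c0000000e000c00138001c00020000000000000000000000) := Q_25 (nat_lit 158) (C_25 L38710 (C_25 L39078 (C_25 L72204 (C_25 L72206 N_25)))) (by decide +kernel)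
theorem L72208 : W_25 (nat_lit 4) (nat_lit 0x380000001200090000000000000000000000000000000) (nat_lit 0x0) (nat_lit 0x200000000c000000020001800080000000000000000000000) := T_25 (nat_lit 158) (nat_lit 193) (nat_lit 7) (nat_lit 5) (nat_lit 7) L13761 (by decide +kernel)
theorem L72209 : W_25 (nat_lit 4) (nat_lit 0x380000001200090000000000000000000000000000000) (nat_lit 0x0) (nat_lit 0x200000000c000000008000c00020000000000000000000000) := T_25 (nat_lit 158) (nat_lit 193) (nat_lit 7) (nat_lit 5) (nat_lit 7) L33376 (by decide +kernel)
theorem L72210 : W_25 (nat_lit 5) (nat_lit 0x380000001200090000000000000000000000000000000) (nat_lit 0x0) (nat_lit 0x2000000004000900068001400000000000000000000000000) := T_25 (nat_lit 158) (nat_lit 193) (nat_lit 7) (nat_lit 5) (nat_lit 7) L72156 (by decide +kernel)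
theorem L72211 : W_25 (nat_lit 2) (nat_lit 0x380000001600090000000000000000000000000000000) (nat_lit 0x0) (nat_lit 0x800108000000000000000000000000000000) := D_25 (nat_lit 143) (nat_lit 123) (nat_lit 128) (nat_lit 0) (nat_lit 8) (nat_lit 8) (nat_lit 2) (nat_lit 5) (nat_lit 8) (by decide +kernel)
theorem L72212 : W_25 (nat_lit 7) (nat_lit 0x380000001600090000000000000000000000000000000) (nat_lit 0x0) (nat_lit 0x200000007b000900028000800040000000000000000000000) := T_25 (nat_lit 143) (nat_lit 123) (nat_lit 0) (nat_lit 8) (nat_lit 8) L72171 (by decide +kernel)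
theorem L72213 : W_25 (nat_lit 3) (nat_lit 0x380000001600090000000000000000000000000000000) (nat_lit 0x0) (nat_lit 0x2000000008000000020000800040000000000000000000000) := T_25 (nat_lit 159) (nat_lit 193) (nat_lit 4) (nat_lit 6) (nat_lit 11) L72193 (by decide +kernel)
theorem L72214 : W_25 (nat_lit 8) (nat_lit 0x380000001200090000000000000000000000000000000) (nat_lit 0x0) (nat_lit 0x200000007b000d00128000800040000000000000000000000) := Q_25 (nat_lit 142) (C_25 L72211 (C_25 L72212 (C_25 L72213 N_25))) (by decide +kernel)
theorem L72215 : W_25 (nat_lit 5) (nat_lit 0x380000001200090000000000000000000000000000000) (nat_lit 0x0) (nat_lit 0xc000900068001c000a0000000000000000000000) := Q_25 (nat_lit 158) (C_25 L72156 (C_25 L13761 (C_25 L33376 N_25))) (by decide +kernel)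
theorem L72216 : W_25 (nat_lit 9) (nat_lit 0x380000001200080000000000000000000000000000000) (nat_lit 0x0) (nat_lit 0x200000007f000d00178001c000e0000000000000000000000) := Q_25 (nat_lit 124) (C_25 L72208 (C_25 L72209 (C_25 L72210 (C_25 L72214 (C_25 L72215 N_25))))) (by decide +kernel)
theorem L72217 : W_25 (nat_lit 8) (nat_lit 0x1000380000001200080000000000000000000000000000000) (nat_lit 0x0) (nat_lit 0x18000c00070002e0000000e000100008000000000000000000000000000000) := Q_25 (nat_lit 158) (C_25 L39245 (C_25 L38701 (C_25 L39242 (C_25 L72152 N_25)))) (by decide +kernel)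
theorem L72218 : W_25 (nat_lit 8) (nat_lit 0x1000380000001200080000000000000000000000000000000) (nat_lit 0x0) (nat_lit 0x14000e00070002e00000006000d00128000000000000000000000000000000) := Q_25 (nat_lit 158) (C_25 L72160 (C_25 L39245 (C_25 L71651 N_25))) (by decide +kernel)
theorem L72219 : W_25 (nat_lit 2) (nat_lit 0x1000380000001f00080000000000000000000000000000000) (nat_lit 0x0) (nat_lit 0x70000000000000000000000000000000000000000) := D_25 (nat_lit 161) (nat_lit 162) (nat_lit 160) (nat_lit 3) (nat_lit 5) (nat_lit 8) (nat_lit 3) (nat_lit 4) (nat_lit 8) (by decide +kernel)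
theorem L72220 : W_25 (nat_lit 3) (nat_lit 0x1000380000001e00080000000000000000000000000000000) (nat_lit 0x0) (nat_lit 0x70000100040000000000000000000000000000000) := T_25 (nat_lit 140) (nat_lit 126) (nat_lit 2) (nat_lit 4) (nat_lit 8) L72219 (by decide +kernel)
theorem L72221 : W_25 (nat_lit 4) (nat_lit 0x1000380000001600080000000000000000000000000000000) (nat_lit 0x0) (nat_lit 0x70000900140000000000000000000000000000000) := T_25 (nat_lit 143) (nat_lit 128) (nat_lit 2) (nat_lit 5) (nat_lit 8) L72220 (by decide +kernel)
theorem L72222 : W_25 (nat_lit 2) (nat_lit 0x100038002a001f00088000000000000000000000000000000) (nat_lit 0x0) (nat_lit 0x400020002000000000000000000000000000000000000000000000000) := D_25 (nat_lit 209) (nat_lit 193) (nat_lit 226) (nat_lit 5) (nat_lit 6) (nat_lit 8) (nat_lit 6) (nat_lit 5) (nat_lit 13) (by decide +kernel)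
theorem L72223 : W_25 (nat_lit 3) (nat_lit 0x1000380022001f00088000000000000000000000000000000) (nat_lit 0x0) (nat_lit 0x400020002000000008000000020000000000000000000000000000000) := T_25 (nat_lit 159) (nat_lit 125) (nat_lit 5) (nat_lit 6) (nat_lit 7) L72222 (by decide +kernel)
theorem L72224 : W_25 (nat_lit 4) (nat_lit 0x1000380002001f00088000000000000000000000000000000) (nat_lit 0x0) (nat_lit 0x400020002000000068000000020000000000000000000000000000000) := T_25 (nat_lit 161) (nat_lit 162) (nat_lit 3) (nat_lit 5) (nat_lit 8) L72223 (by decide +kernel)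
theorem L72225 : W_25 (nat_lit 5) (nat_lit 0x1000380002001f00080000000000000000000000000000000) (nat_lit 0x0) (nat_lit 0x40002000200000006800000002c000000000000000000000000000000) := T_25 (nat_lit 123) (nat_lit 122) (nat_lit 0) (nat_lit 7) (nat_lit 8) L72224 (by decide +kernel)
theorem L72226 : W_25 (nat_lit 6) (nat_lit 0x1000380000001f00080000000000000000000000000000000) (nat_lit 0x0) (nat_lit 0x40002000200000006b00000002c000000000000000000000000000000) := T_25 (nat_lit 157) (nat_lit 156) (nat_lit 1) (nat_lit 7) (nat_lit 8) L72225 (by decide +kernel)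
theorem L72227 : W_25 (nat_lit 7) (nat_lit 0x1000380000001e00080000000000000000000000000000000) (nat_lit 0x0) (nat_lit 0x40002000200000006b00010006c000000000000000000000000000000) := T_25 (nat_lit 140) (nat_lit 126) (nat_lit 2) (nat_lit 4) (nat_lit 8) L72226 (by decide +kernel)
theorem L72228 : W_25 (nat_lit 8) (nat_lit 0x1000380000001600080000000000000000000000000000000) (nat_lit 0x0) (nat_lit 0x40002000200000006b00090016c000000000000000000000000000000) := T_25 (nat_lit 143) (nat_lit 128) (nat_lit 2) (nat_lit 5) (nat_lit 8) L72227 (by decide +kernel)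
theorem L72229 : W_25 (nat_lit 2) (nat_lit 0x1400380021001f800a8000000020000000000000000000000) (nat_lit 0x0) (nat_lit 0x2a00000000000000000000000000000000000000000000000) := D_25 (nat_lit 191) (nat_lit 193) (nat_lit 189) (nat_lit 2) (nat_lit 3) (nat_lit 11) (nat_lit 2) (nat_lit 2) (nat_lit 11) (by decide +kernel)
theorem L72230 : W_25 (nat_lit 3) (nat_lit 0x1000380021001f800a8000000020000000000000000000000) (nat_lit 0x0) (nat_lit 0x2e00020000000000000000000000000000000000000000000) := T_25 (nat_lit 190) (nat_lit 173) (nat_lit 6) (nat_lit 3) (nat_lit 11) L72229 (by decide +kernel)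
theorem L72231 : W_25 (nat_lit 4) (nat_lit 0x1000380021001f800a8000000000000000000000000000000) (nat_lit 0x0) (nat_lit 0x2e00020000000000000000400020000000000000000000000) := T_25 (nat_lit 89) (nat_lit 106) (nat_lit 5) (nat_lit 4) (nat_lit 5) L72230 (by decide +kernel)
theorem L72232 : W_25 (nat_lit 5) (nat_lit 0x1000380021001f000a8000000000000000000000000000000) (nat_lit 0x0) (nat_lit 0x2e00020000800080000000400020000000000000000000000) := T_25 (nat_lit 139) (nat_lit 155) (nat_lit 1) (nat_lit 6) (nat_lit 8) L72231 (by decide +kernel)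
theorem L72233 : W_25 (nat_lit 6) (nat_lit 0x1000380021001f000a0000000000000000000000000000000) (nat_lit 0x0) (nat_lit 0x2e0002000080008000c000400020000000000000000000000) := T_25 (nat_lit 123) (nat_lit 122) (nat_lit 0) (nat_lit 7) (nat_lit 8) L72232 (by decide +kernel)
theorem L72234 : W_25 (nat_lit 7) (nat_lit 0x1000380020001f000a0000000000000000000000000000000) (nat_lit 0x0) (nat_lit 0x2e0002000380008000c000400020000000000000000000000) := T_25 (nat_lit 156) (nat_lit 157) (nat_lit 1) (nat_lit 7) (nat_lit 8) L72233 (by decide +kernel)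
theorem L72235 : W_25 (nat_lit 8) (nat_lit 0x1000380020001e000a0000000000000000000000000000000) (nat_lit 0x0) (nat_lit 0x2e0002001380018000c000400020000000000000000000000) := T_25 (nat_lit 140) (nat_lit 160) (nat_lit 3) (nat_lit 4) (nat_lit 8) L72234 (by decide +kernel)
theorem L72236 : W_25 (nat_lit 9) (nat_lit 0x1000380000001e000a0000000000000000000000000000000) (nat_lit 0x0) (nat_lit 0x2e0002007380018000c000400020000000000000000000000) := T_25 (nat_lit 161) (nat_lit 162) (nat_lit 3) (nat_lit 5) (nat_lit 8) L72235 (by decide +kernel)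
theorem L72237 : W_25 (nat_lit 10) (nat_lit 0x10003800000016000a0000000000000000000000000000000) (nat_lit 0x0) (nat_lit 0x2e0002007380098010c000400020000000000000000000000) := T_25 (nat_lit 143) (nat_lit 128) (nat_lit 2) (nat_lit 5) (nat_lit 8) L72236 (by decide +kernel)
theorem L72238 : W_25 (nat_lit 11) (nat_lit 0x1000380000001600080000000000000000000000000000000) (nat_lit 0x0) (nat_lit 0x2e0002007b80098012c000400020000000000000000000000) := T_25 (nat_lit 125) (nat_lit 159) (nat_lit 5) (nat_lit 6) (nat_lit 7) L72237 (by decide +kernel)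
theorem L72239 : W_25 (nat_lit 2) (nat_lit 0x1000380008001600080000000000000000000000000000000) (nat_lit 0x0) (nat_lit 0x400020002000000000000000000000000000000000000000000000000) := D_25 (nat_lit 209) (nat_lit 193) (nat_lit 226) (nat_lit 5) (nat_lit 6) (nat_lit 8) (nat_lit 6) (nat_lit 5) (nat_lit 13) (by decide +kernel)
theorem L72240 : W_25 (nat_lit 3) (nat_lit 0x1000380000001600080000000000000000000000000000000) (nat_lit 0x0) (nat_lit 0x400020002000000008000000020000000000000000000000000000000) := T_25 (nat_lit 159) (nat_lit 125) (nat_lit 5) (nat_lit 6) (nat_lit 7) L72239 (by decide +kernel)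
theorem L72241 : W_25 (nat_lit 12) (nat_lit 0x1000380000001200080000000000000000000000000000000) (nat_lit 0x0) (nat_lit 0x400020002e0002007b800d8016c000400020000000000000000000000) := Q_25 (nat_lit 142) (C_25 L72221 (C_25 L72228 (C_25 L72238 (C_25 L72240 N_25)))) (by decide +kernel)
theorem L72242 : W_25 (nat_lit 5) (nat_lit 0x1000380000001200080000000000000000000000000000000) (nat_lit 0x0) (nat_lit 0x200070002c0000000e000c00120000000000000000000000000000000) := Q_25 (nat_lit 158) (C_25 L71651 (C_25 L38704 (C_25 L38701 N_25))) (by decide +kernel)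
theorem L72243 : W_25 (nat_lit 5) (nat_lit 0x1000380000001200080000000000000000000000000000000) (nat_lit 0x0) (nat_lit 0x400020002000000078000d00160000000000000000000000000000000) := Q_25 (nat_lit 142) (C_25 L72221 (C_25 L72240 N_25)) (by decide +kernel)
theorem L72244 : W_25 (nat_lit 2) (nat_lit 0x1000380000001600080000000000000000000000000000000) (nat_lit 0x0) (nat_lit 0xc000000020000000000000000000000000000000) := D_25 (nat_lit 125) (nat_lit 158) (nat_lit 159) (nat_lit 6) (nat_lit 5) (nat_lit 11) (nat_lit 5) (nat_lit 6) (nat_lit 7) (by decide +kernel)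
theorem L72245 : W_25 (nat_lit 5) (nat_lit 0x1000380000001200080000000000000000000000000000000) (nat_lit 0x0) (nat_lit 0x7c000d00160000000000000000000000000000000) := Q_25 (nat_lit 142) (C_25 L72221 (C_25 L72244 N_25)) (by decide +kernel)
theorem L72246 : W_25 (nat_lit 13) (nat_lit 0x380000001200080000000000000000000000000000000) (nat_lit 0x0) (nat_lit 0x1c000e00070003e0002007f800d8016c000400020000000000000000000000) := Q_25 (nat_lit 192) (C_25 L72217 (C_25 L72218 (C_25 L72241 (C_25 L72242 (C_25 L72243 (C_25 L72245 N_25)))))) (by decide +kernel)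
theorem L72247 : W_25 (nat_lit 4) (nat_lit 0x380000001e00080000000000000000000000000000000) (nat_lit 0x0) (nat_lit 0x1000000006000000038001000000000000000000000000000) := T_25 (nat_lit 158) (nat_lit 157) (nat_lit 1) (nat_lit 8) (nat_lit 8) L71654 (by decide +kernel)
theorem L72248 : W_25 (nat_lit 5) (nat_lit 0x380000001600080000000000000000000000000000000) (nat_lit 0x0) (nat_lit 0x1000000006000800138001000000000000000000000000000) := T_25 (nat_lit 143) (nat_lit 128) (nat_lit 2) (nat_lit 5) (nat_lit 8) L72247 (by decide +kernel)
theorem L72249 : W_25 (nat_lit 2) (nat_lit 0x380024001e00090000000000000000000000000000000) (nat_lit 0x0) (nat_lit 0x10000100040000000000000000000000000000000) := D_25 (nat_lit 140) (nat_lit 160) (nat_lit 126) (nat_lit 3) (nat_lit 4) (nat_lit 8) (nat_lit 2) (nat_lit 4) (nat_lit 8) (by decide +kernel)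
theorem L72250 : W_25 (nat_lit 3) (nat_lit 0x380004001e00090000000000000000000000000000000) (nat_lit 0x0) (nat_lit 0x70000100040000000000000000000000000000000) := T_25 (nat_lit 161) (nat_lit 162) (nat_lit 3) (nat_lit 5) (nat_lit 8) L72249 (by decide +kernel)
theorem L72251 : W_25 (nat_lit 4) (nat_lit 0x380004001e00080000000000000000000000000000000) (nat_lit 0x0) (nat_lit 0x70000100058000000000000000000000000000000) := T_25 (nat_lit 124) (nat_lit 123) (nat_lit 0) (nat_lit 8) (nat_lit 8) L72250 (by decide +kernel)
theorem L72252 : W_25 (nat_lit 5) (nat_lit 0x380004001600080000000000000000000000000000000) (nat_lit 0x0) (nat_lit 0x72000900058000000000000000000000000000000) := T_25 (nat_lit 143) (nat_lit 157) (nat_lit 1) (nat_lit 8) (nat_lit 8) L72251 (by decide +kernel)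
theorem L72253 : W_25 (nat_lit 8) (nat_lit 0x380000001600080000000000000000000000000000000) (nat_lit 0x0) (nat_lit 0x14000e0007000180000007e000900078000000000000000000000000000000) := Q_25 (nat_lit 158) (C_25 L71830 (C_25 L72205 (C_25 L72252 N_25))) (by decide +kernel)
theorem L72254 : W_25 (nat_lit 2) (nat_lit 0x3800040016001a0000000000000000000000000000000) (nat_lit 0x0) (nat_lit 0x10001000080000000000000000000000) := D_25 (nat_lit 108) (nat_lit 124) (nat_lit 91) (nat_lit 6) (nat_lit 5) (nat_lit 10) (nat_lit 5) (nat_lit 6) (nat_lit 5) (by decide +kernel)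
theorem L72255 : W_25 (nat_lit 3) (nat_lit 0x3800000016001a0000000000000000000000000000000) (nat_lit 0x0) (nat_lit 0x1000000004000000010001000080000000000000000000000) := T_25 (nat_lit 158) (nat_lit 192) (nat_lit 6) (nat_lit 5) (nat_lit 11) L72254 (by decide +kernel)
theorem L72256 : W_25 (nat_lit 4) (nat_lit 0x3800000016000a0000000000000000000000000000000) (nat_lit 0x0) (nat_lit 0x1000000004000000150001000080000000000000000000000) := T_25 (nat_lit 128) (nat_lit 126) (nat_lit 1) (nat_lit 9) (nat_lit 7) L72255 (by decide +kernel)
theorem L72257 : W_25 (nat_lit 2) (nat_lit 0x3800000016000a0000000000000000000000000000000) (nat_lit 0x0) (nat_lit 0x100000000c000000000000000000000000000000000000000) := D_25 (nat_lit 192) (nat_lit 158) (nat_lit 159) (nat_lit 6) (nat_lit 5) (nat_lit 11) (nat_lit 5) (nat_lit 6) (nat_lit 7) (by decide +kernel)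
theorem L72258 : W_25 (nat_lit 2) (nat_lit 0x3800080016001b0001000100000000000000000000000) (nat_lit 0x0) (nat_lit 0x8000c000000000000000000) := D_25 (nat_lit 91) (nat_lit 74) (nat_lit 75) (nat_lit 5) (nat_lit 6) (nat_lit 4) (nat_lit 6) (nat_lit 6) (nat_lit 8) (by decide +kernel)
theorem L72259 : W_25 (nat_lit 3) (nat_lit 0x3800080016001b0001000000000000000000000000000) (nat_lit 0x0) (nat_lit 0x200018000c000000000000000000) := T_25 (nat_lit 92) (nat_lit 109) (nat_lit 6) (nat_lit 6) (nat_lit 9) L72258 (by decide +kernel)
theorem L72260 : W_25 (nat_lit 4) (nat_lit 0x3800080016001b0000000000000000000000000000000) (nat_lit 0x0) (nat_lit 0x1000000000000300018000c000000000000000000) := T_25 (nat_lit 108) (nat_lit 160) (nat_lit 7) (nat_lit 6) (nat_lit 6) L72259 (by decide +kernel)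
theorem L72261 : W_25 (nat_lit 5) (nat_lit 0x3800080016001a0000000000000000000000000000000) (nat_lit 0x0) (nat_lit 0x1000000001000380018000c000000000000000000) := T_25 (nat_lit 124) (nat_lit 107) (nat_lit 4) (nat_lit 6) (nat_lit 10) L72260 (by decide +kernel)
theorem L72262 : W_25 (nat_lit 6) (nat_lit 0x3800000016001a0000000000000000000000000000000) (nat_lit 0x0) (nat_lit 0x100000001800000001000380018000c000000000000000000) := T_25 (nat_lit 159) (nat_lit 192) (nat_lit 5) (nat_lit 6) (nat_lit 7) L72261 (by decide +kernel)
theorem L72263 : W_25 (nat_lit 7) (nat_lit 0x3800000016000a0000000000000000000000000000000) (nat_lit 0x0) (nat_lit 0x100000001800000015000380018000c000000000000000000) := T_25 (nat_lit 128) (nat_lit 126) (nat_lit 1) (nat_lit 9) (nat_lit 7) L72262 (by decide +kernel)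
theorem L72264 : W_25 (nat_lit 2) (nat_lit 0x3800000016000e0000000000000000000000000000000) (nat_lit 0x0) (nat_lit 0x180010000000000000000000000000000000) := D_25 (nat_lit 140) (nat_lit 124) (nat_lit 139) (nat_lit 1) (nat_lit 8) (nat_lit 7) (nat_lit 2) (nat_lit 3) (nat_lit 8) (by decide +kernel)
theorem L72265 : W_25 (nat_lit 3) (nat_lit 0x3800000016000a0000000000000000000000000000000) (nat_lit 0x0) (nat_lit 0x180150000000000000000000000000000000) := T_25 (nat_lit 126) (nat_lit 128) (nat_lit 1) (nat_lit 9) (nat_lit 7) L72264 (by decide +kernel)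
theorem L72266 : W_25 (nat_lit 8) (nat_lit 0x380000001600080000000000000000000000000000000) (nat_lit 0x0) (nat_lit 0x100000001c00018017000380018000c000000000000000000) := Q_25 (nat_lit 125) (C_25 L72256 (C_25 L72257 (C_25 L72263 (C_25 L72265 N_25)))) (by decide +kernel)
theorem L72267 : W_25 (nat_lit 9) (nat_lit 0x380000001200080000000000000000000000000000000) (nat_lit 0x0) (nat_lit 0x14000e0007000180000007e000d8017c00380018000c000000000000000000) := Q_25 (nat_lit 142) (C_25 L72200 (C_25 L72166 (C_25 L72248 (C_25 L72253 (C_25 L72266 N_25))))) (by decide +kernel)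
theorem L72268 : W_25 (nat_lit 2) (nat_lit 0x380000001e00090000000000000000000000000000000) (nat_lit 0x0) (nat_lit 0x200000000c000000000000000000000000000000000000000) := D_25 (nat_lit 193) (nat_lit 159) (nat_lit 158) (nat_lit 4) (nat_lit 6) (nat_lit 11) (nat_lit 7) (nat_lit 5) (nat_lit 7) (by decide +kernel)
theorem L72269 : W_25 (nat_lit 3) (nat_lit 0x380000001e00080000000000000000000000000000000) (nat_lit 0x0) (nat_lit 0x200000000c000000018000000000000000000000000000000) := T_25 (nat_lit 124) (nat_lit 123) (nat_lit 0) (nat_lit 8) (nat_lit 8) L72268 (by decide +kernel)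
theorem L72270 : W_25 (nat_lit 4) (nat_lit 0x380000001600080000000000000000000000000000000) (nat_lit 0x0) (nat_lit 0x200000000c000800118000000000000000000000000000000) := T_25 (nat_lit 143) (nat_lit 128) (nat_lit 2) (nat_lit 5) (nat_lit 8) L72269 (by decide +kernel)
theorem L72271 : W_25 (nat_lit 9) (nat_lit 0x380000001200080000000000000000000000000000000) (nat_lit 0x0) (nat_lit 0x60003c0000007c000d8017c00380018000c000000000000000000) := Q_25 (nat_lit 142) (C_25 L72200 (C_25 L72266 (C_25 L72166 (C_25 L72270 (C_25 L72187 N_25))))) (by decide +kernel)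
theorem L72272 : W_25 (nat_lit 5) (nat_lit 0x380004001200080000000000000000000000000000000) (nat_lit 0x0) (nat_lit 0x20003000180000000a000c00120000000000000000000000000000000) := Q_25 (nat_lit 142) (C_25 L39083 (C_25 L72205 N_25)) (by decide +kernel)
theorem L72273 : W_25 (nat_lit 6) (nat_lit 0x380000001200080000000000000000000000000000000) (nat_lit 0x0) (nat_lit 0xa00070003c0000000e000c00130001800080000000000000000000000) := Q_25 (nat_lit 158) (C_25 L13762 (C_25 L39078 (C_25 L72204 (C_25 L72272 N_25)))) (by decide +kernel)
theorem L72274 : W_25 (nat_lit 14) (nat_lit 0x380000001000080000000000000000000000000000000) (nat_lit 0x0) (nat_lit 0x3c001e000f0003e0002007f800f8017c003c001e000c000000000000000000) := Q_25 (nat_lit 141) (C_25 L71832 (C_25 L72149 (C_25 L72158 (C_25 L72165 (C_25 L72201 (C_25 L72203 (C_25 L72207 (C_25 L72216 (C_25 L72246 (C_25 L72267 (C_25 L72271 (C_25 L72273 N_25)))))))))))) (by decide +kernel)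
theorem L72275 : W_25 (nat_lit 11) (nat_lit 0x3c0000001000080000000000000000000000000000000) (nat_lit 0x0) (nat_lit 0x70003e003c0000003f000f80018000000000000000000000000000000) := Q_25 (nat_lit 158) (C_25 L72022 (C_25 L13199 (C_25 L72104 (C_25 L13231 N_25)))) (by decide +kernel)
theorem L72276 : W_25 (nat_lit 12) (nat_lit 0x380000001000080000000000000000000000000000000) (nat_lit 0x0) (nat_lit 0x70003e003f8007803fe00f80018000000000000000000000000000000) := Q_25 (nat_lit 174) (C_25 L13244 (C_25 L71967 (C_25 L71636 (C_25 L13197 (C_25 L72275 N_25))))) (by decide +kernel)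
theorem L72277 : W_25 (nat_lit 2) (nat_lit 0x2000000008003c00160019000e8000000000000000000000000000000) (nat_lit 0x0) (nat_lit 0x80004000200000000000000000000000000) := D_25 (nat_lit 122) (nat_lit 139) (nat_lit 105) (nat_lit 4) (nat_lit 4) (nat_lit 11) (nat_lit 4) (nat_lit 4) (nat_lit 10) (by decide +kernel)
theorem L72278 : W_25 (nat_lit 3) (nat_lit 0x2000000008003c00160018000e8000000000000000000000000000000) (nat_lit 0x0) (nat_lit 0x180004000600000000000000000000000000) := T_25 (nat_lit 140) (nat_lit 106) (nat_lit 7) (nat_lit 4) (nat_lit 6) L72277 (by decide +kernel)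
theorem L72279 : W_25 (nat_lit 4) (nat_lit 0x8003c00160018000e8000000000000000000000000000000) (nat_lit 0x0) (nat_lit 0x200010000000000000000180004000600000000000000000000000000) := T_25 (nat_lit 225) (nat_lit 208) (nat_lit 6) (nat_lit 4) (nat_lit 13) L72278 (by decide +kernel)
theorem L72280 : W_25 (nat_lit 5) (nat_lit 0x8003c00160018000e0000000000000000000000000000000) (nat_lit 0x0) (nat_lit 0x20001000000000000000018001c000600000000000000000000000000) := T_25 (nat_lit 123) (nat_lit 124) (nat_lit 3) (nat_lit 4) (nat_lit 7) L72279 (by decide +kernel)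
theorem L72281 : W_25 (nat_lit 6) (nat_lit 0x8003c00160018000c0000000000000000000000000000000) (nat_lit 0x0) (nat_lit 0x20001000000000000000018003c001600000000000000000000000000) := T_25 (nat_lit 125) (nat_lit 108) (nat_lit 4) (nat_lit 7) (nat_lit 10) L72280 (by decide +kernel)
theorem L72282 : W_25 (nat_lit 7) (nat_lit 0x8003c0016001800080000000000000000000000000000000) (nat_lit 0x0) (nat_lit 0x20001000200000000000018007c001600000000000000000000000000) := T_25 (nat_lit 126) (nat_lit 193) (nat_lit 5) (nat_lit 7) (nat_lit 7) L72281 (by decide +kernel)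
theorem L72283 : W_25 (nat_lit 8) (nat_lit 0x3c0016001800080000000000000000000000000000000) (nat_lit 0x0) (nat_lit 0x200010002c0000000000018007c001600000000000000000000000000) := T_25 (nat_lit 191) (nat_lit 190) (nat_lit 1) (nat_lit 7) (nat_lit 10) L72282 (by decide +kernel)
theorem L72284 : W_25 (nat_lit 9) (nat_lit 0x3c0016001000080000000000000000000000000000000) (nat_lit 0x0) (nat_lit 0x200010002c0000000800098007c001600000000000000000000000000) := T_25 (nat_lit 143) (nat_lit 159) (nat_lit 2) (nat_lit 4) (nat_lit 9) L72283 (by decide +kernel)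
theorem L72285 : W_25 (nat_lit 10) (nat_lit 0x3c0006001000080000000000000000000000000000000) (nat_lit 0x0) (nat_lit 0x200010002c0000003800098007c001600000000000000000000000000) := T_25 (nat_lit 160) (nat_lit 161) (nat_lit 2) (nat_lit 4) (nat_lit 10) L72284 (by decide +kernel)
theorem L72286 : W_25 (nat_lit 11) (nat_lit 0x3c0004001000080000000000000000000000000000000) (nat_lit 0x0) (nat_lit 0x200010002c0000003b00098007c001600000000000000000000000000) := T_25 (nat_lit 157) (nat_lit 156) (nat_lit 0) (nat_lit 7) (nat_lit 10) L72285 (by decide +kernel)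
theorem L72287 : W_25 (nat_lit 2) (nat_lit 0x3c001e001300098000000000000000000000000000000) (nat_lit 0x0) (nat_lit 0x60001000000000000000000000000000) := D_25 (nat_lit 125) (nat_lit 108) (nat_lit 126) (nat_lit 6) (nat_lit 5) (nat_lit 10) (nat_lit 1) (nat_lit 8) (nat_lit 7) (by decide +kernel)
theorem L72288 : W_25 (nat_lit 3) (nat_lit 0x3c001e001100098000000000000000000000000000000) (nat_lit 0x0) (nat_lit 0x2000000000000200060001000000000000000000000000000) := T_25 (nat_lit 141) (nat_lit 193) (nat_lit 7) (nat_lit 5) (nat_lit 7) L72287 (by decide +kernel)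
theorem L72289 : W_25 (nat_lit 4) (nat_lit 0x3c001e001100088000000000000000000000000000000) (nat_lit 0x0) (nat_lit 0x2000000000000200070001800000000000000000000000000) := T_25 (nat_lit 124) (nat_lit 107) (nat_lit 6) (nat_lit 4) (nat_lit 10) L72288 (by decide +kernel)
theorem L72290 : W_25 (nat_lit 5) (nat_lit 0x3c001e001100080000000000000000000000000000000) (nat_lit 0x0) (nat_lit 0x2000000000000200078001c00000000000000000000000000) := T_25 (nat_lit 123) (nat_lit 106) (nat_lit 7) (nat_lit 4) (nat_lit 6) L72289 (by decide +kernel)
theorem L72291 : W_25 (nat_lit 6) (nat_lit 0x3c001e001000080000000000000000000000000000000) (nat_lit 0x0) (nat_lit 0x2000000000000380078001c00000000000000000000000000) := T_25 (nat_lit 140) (nat_lit 139) (nat_lit 0) (nat_lit 7) (nat_lit 9) L72290 (by decide +kernel)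
theorem L72292 : W_25 (nat_lit 7) (nat_lit 0x3c0016001000080000000000000000000000000000000) (nat_lit 0x0) (nat_lit 0x2000000008000b80078001c00000000000000000000000000) := T_25 (nat_lit 159) (nat_lit 143) (nat_lit 2) (nat_lit 4) (nat_lit 9) L72291 (by decide +kernel)
theorem L72293 : W_25 (nat_lit 8) (nat_lit 0x3c0006001000080000000000000000000000000000000) (nat_lit 0x0) (nat_lit 0x2000000038000b80078001c00000000000000000000000000) := T_25 (nat_lit 160) (nat_lit 161) (nat_lit 2) (nat_lit 4) (nat_lit 10) L72292 (by decide +kernel)
theorem L72294 : W_25 (nat_lit 9) (nat_lit 0x3c0004001000080000000000000000000000000000000) (nat_lit 0x0) (nat_lit 0x200000003b000b80078001c00000000000000000000000000) := T_25 (nat_lit 157) (nat_lit 156) (nat_lit 0) (nat_lit 7) (nat_lit 10) L72293 (by decide +kernel)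
theorem L72295 : W_25 (nat_lit 2) (nat_lit 0x8003c0014001200080000000000000000000000000000000) (nat_lit 0x0) (nat_lit 0x200010000000000002000000000000000000000000000000000000000) := D_25 (nat_lit 208) (nat_lit 225) (nat_lit 157) (nat_lit 6) (nat_lit 4) (nat_lit 13) (nat_lit 6) (nat_lit 4) (nat_lit 12) (by decide +kernel)
theorem L72296 : W_25 (nat_lit 3) (nat_lit 0x8003c0014001000080000000000000000000000000000000) (nat_lit 0x0) (nat_lit 0x200010000000000002000200010000000000000000000000000000000) := T_25 (nat_lit 141) (nat_lit 124) (nat_lit 5) (nat_lit 5) (nat_lit 7) L72295 (by decide +kernel)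
theorem L72297 : W_25 (nat_lit 4) (nat_lit 0x3c0014001000080000000000000000000000000000000) (nat_lit 0x0) (nat_lit 0x200010000c00000002000200010000000000000000000000000000000) := T_25 (nat_lit 191) (nat_lit 190) (nat_lit 1) (nat_lit 7) (nat_lit 10) L72296 (by decide +kernel)
theorem L72298 : W_25 (nat_lit 5) (nat_lit 0x3c0004001000080000000000000000000000000000000) (nat_lit 0x0) (nat_lit 0x200010000c00000032000200010000000000000000000000000000000) := T_25 (nat_lit 160) (nat_lit 161) (nat_lit 2) (nat_lit 4) (nat_lit 10) L72297 (by decide +kernel)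
theorem L72302 : W_25 (nat_lit 2) (nat_lit 0x2000000008003c00140018000e0000000000000000000000000000000) (nat_lit 0x0) (nat_lit 0x200018000000000000000000000000000000) := D_25 (nat_lit 124) (nat_lit 123) (nat_lit 141) (nat_lit 3) (nat_lit 4) (nat_lit 7) (nat_lit 5) (nat_lit 5) (nat_lit 7) (by decide +kernel)
theorem L72303 : W_25 (nat_lit 3) (nat_lit 0x2000000008003c00140018000c0000000000000000000000000000000) (nat_lit 0x0) (nat_lit 0x200038001000000000000000000000000000) := T_25 (nat_lit 125) (nat_lit 108) (nat_lit 4) (nat_lit 7) (nat_lit 10) L72302 (by decide +kernel)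
theorem L72304 : W_25 (nat_lit 4) (nat_lit 0x2000000008003c0014001800080000000000000000000000000000000) (nat_lit 0x0) (nat_lit 0x2000000000000200078001000000000000000000000000000) := T_25 (nat_lit 126) (nat_lit 193) (nat_lit 5) (nat_lit 7) (nat_lit 7) L72303 (by decide +kernel)
theorem L72305 : W_25 (nat_lit 5) (nat_lit 0x8003c0014001800080000000000000000000000000000000) (nat_lit 0x0) (nat_lit 0x200010002000000000000200078001000000000000000000000000000) := T_25 (nat_lit 225) (nat_lit 208) (nat_lit 6) (nat_lit 4) (nat_lit 13) L72304 (by decide +kernel)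
theorem L72306 : W_25 (nat_lit 6) (nat_lit 0x8003c0004001800080000000000000000000000000000000) (nat_lit 0x0) (nat_lit 0x200010002000000030000200078001000000000000000000000000000) := T_25 (nat_lit 160) (nat_lit 161) (nat_lit 2) (nat_lit 4) (nat_lit 10) L72305 (by decide +kernel)
theorem L72307 : W_25 (nat_lit 7) (nat_lit 0x3c0004001800080000000000000000000000000000000) (nat_lit 0x0) (nat_lit 0x200010002c00000030000200078001000000000000000000000000000) := T_25 (nat_lit 191) (nat_lit 190) (nat_lit 1) (nat_lit 7) (nat_lit 10) L72306 (by decide +kernel)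
theorem L72308 : W_25 (nat_lit 2) (nat_lit 0x2000000008003c0024801f80084000000000000000000000000000000) (nat_lit 0x0) (nat_lit 0x8400040000000000000000000000000000000000) := D_25 (nat_lit 138) (nat_lit 159) (nat_lit 154) (nat_lit 3) (nat_lit 2) (nat_lit 8) (nat_lit 1) (nat_lit 5) (nat_lit 8) (by decide +kernel)
theorem L72309 : W_25 (nat_lit 3) (nat_lit 0x2000000008003c0024001f80084000000000000000000000000000000) (nat_lit 0x0) (nat_lit 0x9c00040000000000000000000000000000000000) := T_25 (nat_lit 155) (nat_lit 156) (nat_lit 1) (nat_lit 6) (nat_lit 8) L72308 (by decide +kernel)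
theorem L72310 : W_25 (nat_lit 4) (nat_lit 0x2000000008003c0024001f00084000000000000000000000000000000) (nat_lit 0x0) (nat_lit 0x9c000c0002000000000000000000000000000000) := T_25 (nat_lit 139) (nat_lit 121) (nat_lit 0) (nat_lit 6) (nat_lit 8) L72309 (by decide +kernel)
theorem L72311 : W_25 (nat_lit 5) (nat_lit 0x2000000008003c0004001f00084000000000000000000000000000000) (nat_lit 0x0) (nat_lit 0x69c000c0002000000000000000000000000000000) := T_25 (nat_lit 161) (nat_lit 162) (nat_lit 3) (nat_lit 5) (nat_lit 8) L72310 (by decide +kernel)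
theorem L72312 : W_25 (nat_lit 6) (nat_lit 0x2000000008003c0004001f00080000000000000000000000000000000) (nat_lit 0x0) (nat_lit 0x69c000c000e000000000000000000000000000000) := T_25 (nat_lit 122) (nat_lit 123) (nat_lit 0) (nat_lit 7) (nat_lit 8) L72311 (by decide +kernel)
theorem L72313 : W_25 (nat_lit 7) (nat_lit 0x2000000008003c0004001e00080000000000000000000000000000000) (nat_lit 0x0) (nat_lit 0x69c001c004e000000000000000000000000000000) := T_25 (nat_lit 140) (nat_lit 126) (nat_lit 2) (nat_lit 4) (nat_lit 8) L72312 (by decide +kernel)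
theorem L72314 : W_25 (nat_lit 8) (nat_lit 0x2000000008003c0004001a00080000000000000000000000000000000) (nat_lit 0x0) (nat_lit 0x69c005c014e000000000000000000000000000000) := T_25 (nat_lit 142) (nat_lit 128) (nat_lit 2) (nat_lit 5) (nat_lit 8) L72313 (by decide +kernel)
theorem L72315 : W_25 (nat_lit 9) (nat_lit 0x8003c0004001a00080000000000000000000000000000000) (nat_lit 0x0) (nat_lit 0x200010000000000069c005c014e000000000000000000000000000000) := T_25 (nat_lit 225) (nat_lit 208) (nat_lit 6) (nat_lit 4) (nat_lit 13) L72314 (by decide +kernel)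
theorem L72316 : W_25 (nat_lit 10) (nat_lit 0x8003c0004001800080000000000000000000000000000000) (nat_lit 0x0) (nat_lit 0x200010000000000069c007c015e000000000000000000000000000000) := T_25 (nat_lit 141) (nat_lit 124) (nat_lit 5) (nat_lit 5) (nat_lit 7) L72315 (by decide +kernel)
theorem L72317 : W_25 (nat_lit 11) (nat_lit 0x3c0004001800080000000000000000000000000000000) (nat_lit 0x0) (nat_lit 0x200010000c00000069c007c015e000000000000000000000000000000) := T_25 (nat_lit 191) (nat_lit 190) (nat_lit 1) (nat_lit 7) (nat_lit 10) L72316 (by decide +kernel)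
theorem L72318 : W_25 (nat_lit 2) (nat_lit 0x2000000008003c0024001a00080000000000000000000000000000000) (nat_lit 0x0) (nat_lit 0x40000400100000000000000000000000000000000) := D_25 (nat_lit 142) (nat_lit 162) (nat_lit 128) (nat_lit 3) (nat_lit 5) (nat_lit 8) (nat_lit 2) (nat_lit 5) (nat_lit 8) (by decide +kernel)
theorem L72319 : W_25 (nat_lit 3) (nat_lit 0x2000000008003c0024001800080000000000000000000000000000000) (nat_lit 0x0) (nat_lit 0x40000600110000000000000000000000000000000) := T_25 (nat_lit 141) (nat_lit 124) (nat_lit 5) (nat_lit 5) (nat_lit 7) L72318 (by decide +kernel)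
theorem L72320 : W_25 (nat_lit 4) (nat_lit 0x8003c0024001800080000000000000000000000000000000) (nat_lit 0x0) (nat_lit 0x200010000000000040000600110000000000000000000000000000000) := T_25 (nat_lit 225) (nat_lit 208) (nat_lit 6) (nat_lit 4) (nat_lit 13) L72319 (by decide +kernel)
theorem L72321 : W_25 (nat_lit 5) (nat_lit 0x8003c0004001800080000000000000000000000000000000) (nat_lit 0x0) (nat_lit 0x200010000000000070000600110000000000000000000000000000000) := T_25 (nat_lit 161) (nat_lit 160) (nat_lit 2) (nat_lit 4) (nat_lit 10) L72320 (by decide +kernel)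
theorem L72322 : W_25 (nat_lit 6) (nat_lit 0x3c0004001800080000000000000000000000000000000) (nat_lit 0x0) (nat_lit 0x200010000c00000070000600110000000000000000000000000000000) := T_25 (nat_lit 191) (nat_lit 190) (nat_lit 1) (nat_lit 7) (nat_lit 10) L72321 (by decide +kernel)
theorem L72323 : W_25 (nat_lit 2) (nat_lit 0x8003c00140018000c0002000000000000000000000000000) (nat_lit 0x0) (nat_lit 0x20001000080000000000000000000000) := D_25 (nat_lit 108) (nat_lit 91) (nat_lit 125) (nat_lit 4) (nat_lit 7) (nat_lit 9) (nat_lit 4) (nat_lit 7) (nat_lit 10) (by decide +kernel)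
theorem L72324 : W_25 (nat_lit 3) (nat_lit 0x8003c00140018000c0000000000000000000000000000000) (nat_lit 0x0) (nat_lit 0x8000000020003000080000000000000000000000) := T_25 (nat_lit 109) (nat_lit 159) (nat_lit 5) (nat_lit 7) (nat_lit 6) L72323 (by decide +kernel)
theorem L72325 : W_25 (nat_lit 4) (nat_lit 0x8003c0014001800080000000000000000000000000000000) (nat_lit 0x0) (nat_lit 0x2000000008000000060003000080000000000000000000000) := T_25 (nat_lit 126) (nat_lit 193) (nat_lit 5) (nat_lit 7) (nat_lit 7) L72324 (by decide +kernel)
theorem L72326 : W_25 (nat_lit 5) (nat_lit 0x8003c0004001800080000000000000000000000000000000) (nat_lit 0x0) (nat_lit 0x2000000038000000060003000080000000000000000000000) := T_25 (nat_lit 160) (nat_lit 161) (nat_lit 2) (nat_lit 4) (nat_lit 10) L72325 (by decide +kernel)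
theorem L72327 : W_25 (nat_lit 6) (nat_lit 0x3c0004001800080000000000000000000000000000000) (nat_lit 0x0) (nat_lit 0x2c00000038000000060003000080000000000000000000000) := T_25 (nat_lit 191) (nat_lit 190) (nat_lit 1) (nat_lit 7) (nat_lit 10) L72326 (by decide +kernel)
theorem L72328 : W_25 (nat_lit 2) (nat_lit 0x2000000008003c0004001f80084000000000000000000000000000000) (nat_lit 0x0) (nat_lit 0x18000040000000000000000000000000000000000) := D_25 (nat_lit 159) (nat_lit 138) (nat_lit 160) (nat_lit 3) (nat_lit 2) (nat_lit 8) (nat_lit 3) (nat_lit 3) (nat_lit 8) (by decide +kernel)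
theorem L72329 : W_25 (nat_lit 3) (nat_lit 0x2000000008003c0004001f00084000000000000000000000000000000) (nat_lit 0x0) (nat_lit 0x180000c0002000000000000000000000000000000) := T_25 (nat_lit 139) (nat_lit 121) (nat_lit 0) (nat_lit 6) (nat_lit 8) L72328 (by decide +kernel)
theorem L72330 : W_25 (nat_lit 4) (nat_lit 0x2000000008003c0004001f00080000000000000000000000000000000) (nat_lit 0x0) (nat_lit 0x180000c000e000000000000000000000000000000) := T_25 (nat_lit 122) (nat_lit 123) (nat_lit 0) (nat_lit 7) (nat_lit 8) L72329 (by decide +kernel)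
theorem L72331 : W_25 (nat_lit 5) (nat_lit 0x2000000008003c0004001e00080000000000000000000000000000000) (nat_lit 0x0) (nat_lit 0x180001c004e000000000000000000000000000000) := T_25 (nat_lit 140) (nat_lit 126) (nat_lit 2) (nat_lit 4) (nat_lit 8) L72330 (by decide +kernel)
theorem L72332 : W_25 (nat_lit 6) (nat_lit 0x2000000008003c0004001a00080000000000000000000000000000000) (nat_lit 0x0) (nat_lit 0x180005c014e000000000000000000000000000000) := T_25 (nat_lit 142) (nat_lit 128) (nat_lit 2) (nat_lit 5) (nat_lit 8) L72331 (by decide +kernel)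
theorem L72333 : W_25 (nat_lit 7) (nat_lit 0x8003c0004001a00080000000000000000000000000000000) (nat_lit 0x0) (nat_lit 0x2000100000000000180005c014e000000000000000000000000000000) := T_25 (nat_lit 225) (nat_lit 208) (nat_lit 6) (nat_lit 4) (nat_lit 13) L72332 (by decide +kernel)
theorem L72334 : W_25 (nat_lit 8) (nat_lit 0x8003c0004001800080000000000000000000000000000000) (nat_lit 0x0) (nat_lit 0x2000100000000000180007c015e000000000000000000000000000000) := T_25 (nat_lit 141) (nat_lit 124) (nat_lit 5) (nat_lit 5) (nat_lit 7) L72333 (by decide +kernel)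
theorem L72335 : W_25 (nat_lit 9) (nat_lit 0x3c0004001800080000000000000000000000000000000) (nat_lit 0x0) (nat_lit 0x200010000c000000180007c015e000000000000000000000000000000) := T_25 (nat_lit 191) (nat_lit 190) (nat_lit 1) (nat_lit 7) (nat_lit 10) L72334 (by decide +kernel)
theorem L72336 : W_25 (nat_lit 2) (nat_lit 0x3c00140018000c0002000000000000000000000000000) (nat_lit 0x0) (nat_lit 0x20001000080000000000000000000000) := D_25 (nat_lit 108) (nat_lit 91) (nat_lit 125) (nat_lit 4) (nat_lit 7) (nat_lit 9) (nat_lit 4) (nat_lit 7) (nat_lit 10) (by decide +kernel)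
theorem L72337 : W_25 (nat_lit 3) (nat_lit 0x3c00140018000c0000000000000000000000000000000) (nat_lit 0x0) (nat_lit 0x8000000020003000080000000000000000000000) := T_25 (nat_lit 109) (nat_lit 159) (nat_lit 5) (nat_lit 7) (nat_lit 6) L72336 (by decide +kernel)
theorem L72338 : W_25 (nat_lit 4) (nat_lit 0x3c0014001800080000000000000000000000000000000) (nat_lit 0x0) (nat_lit 0x2000000008000000060003000080000000000000000000000) := T_25 (nat_lit 126) (nat_lit 193) (nat_lit 5) (nat_lit 7) (nat_lit 7) L72337 (by decide +kernel)
theorem L72339 : W_25 (nat_lit 5) (nat_lit 0x3c0004001800080000000000000000000000000000000) (nat_lit 0x0) (nat_lit 0x2000000038000000060003000080000000000000000000000) := T_25 (nat_lit 160) (nat_lit 161) (nat_lit 2) (nat_lit 4) (nat_lit 10) L72338 (by decide +kernel)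
theorem L72340 : W_25 (nat_lit 12) (nat_lit 0x3c0004001000080000000000000000000000000000000) (nat_lit 0x0) (nat_lit 0x200010002c00000079c00fc017e003000080000000000000000000000) := Q_25 (nat_lit 143) (C_25 L72307 (C_25 L72317 (C_25 L72322 (C_25 L72327 (C_25 L72335 (C_25 L72339 N_25)))))) (by decide +kernel)
theorem L72341 : W_25 (nat_lit 13) (nat_lit 0x3c0000001000080000000000000000000000000000000) (nat_lit 0x0) (nat_lit 0x200010002c0000007fc00fc017e003e00080000000000000000000000) := Q_25 (nat_lit 158) (C_25 L13199 (C_25 L72286 (C_25 L72294 (C_25 L72298 (C_25 L72301 (C_25 L72340 N_25)))))) (by decide +kernel)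
theorem L72342 : W_25 (nat_lit 14) (nat_lit 0x380000001000080000000000000000000000000000000) (nat_lit 0x0) (nat_lit 0x200010002f0007007fc00fc017e003e00080000000000000000000000) := Q_25 (nat_lit 174) (C_25 L13197 (C_25 L71633 (C_25 L71636 (C_25 L72341 (C_25 L71648 N_25))))) (by decide +kernel)
theorem L72343 : W_25 (nat_lit 2) (nat_lit 0x3c0008001000080000000000000000000000000000000) (nat_lit 0x0) (nat_lit 0x20030000000000000000000000000000000000000000) := D_25 (nat_lit 160) (nat_lit 173) (nat_lit 161) (nat_lit 2) (nat_lit 3) (nat_lit 10) (nat_lit 2) (nat_lit 4) (nat_lit 10) (by decide +kernel)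
theorem L72344 : W_25 (nat_lit 3) (nat_lit 0x3e0009001000080000000000000000000000000000000) (nat_lit 0x0) (nat_lit 0x700010004000000000000000000000000000000000000000) := T_25 (nat_lit 189) (nat_lit 190) (nat_lit 1) (nat_lit 6) (nat_lit 10) L13193 (by decide +kernel)
theorem L72345 : W_25 (nat_lit 4) (nat_lit 0x3c0009001000080000000000000000000000000000000) (nat_lit 0x0) (nat_lit 0x700030004800000000000000000000000000000000000000) := T_25 (nat_lit 173) (nat_lit 155) (nat_lit 0) (nat_lit 6) (nat_lit 10) L72344 (by decide +kernel)
theorem L72346 : W_25 (nat_lit 5) (nat_lit 0x3c0008001000080000000000000000000000000000000) (nat_lit 0x0) (nat_lit 0x700030007800000000000000000000000000000000000000) := T_25 (nat_lit 156) (nat_lit 157) (nat_lit 0) (nat_lit 7) (nat_lit 10) L72345 (by decide +kernel)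
theorem L72348 : W_25 (nat_lit 5) (nat_lit 0x3c000a001000080000000000000000000000000000000) (nat_lit 0x0) (nat_lit 0x20001000000034000980008000000000000000000000000000000) := T_25 (nat_lit 160) (nat_lit 161) (nat_lit 2) (nat_lit 4) (nat_lit 10) L72347 (by decide +kernel)
theorem L72349 : W_25 (nat_lit 6) (nat_lit 0x3c0008001000080000000000000000000000000000000) (nat_lit 0x0) (nat_lit 0x20001000000037000980008000000000000000000000000000000) := T_25 (nat_lit 157) (nat_lit 156) (nat_lit 0) (nat_lit 7) (nat_lit 10) L72348 (by decide +kernel)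
theorem L72350 : W_25 (nat_lit 7) (nat_lit 0x380008001000080000000000000000000000000000000) (nat_lit 0x0) (nat_lit 0x20001700070037800980008000000000000000000000000000000) := Q_25 (nat_lit 174) (C_25 L72343 (C_25 L72346 (C_25 L72349 N_25))) (by decide +kernel)
theorem L72351 : W_25 (nat_lit 2) (nat_lit 0x2000380008001600080000000000000000000000000000000) (nat_lit 0x0) (nat_lit 0x800140000000000000000000000000000000) := D_25 (nat_lit 143) (nat_lit 128) (nat_lit 126) (nat_lit 2) (nat_lit 5) (nat_lit 8) (nat_lit 6) (nat_lit 6) (nat_lit 11) (by decide +kernel)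
theorem L72352 : W_25 (nat_lit 3) (nat_lit 0x2000380008001400080000000000000000000000000000000) (nat_lit 0x0) (nat_lit 0xa00150000000000000000000000000000000) := T_25 (nat_lit 141) (nat_lit 124) (nat_lit 4) (nat_lit 6) (nat_lit 11) L72351 (by decide +kernel)
theorem L72353 : W_25 (nat_lit 3) (nat_lit 0x2000380008001600080000000000000000000000000000000) (nat_lit 0x0) (nat_lit 0x40000000000006000800100000000000000000000000000000000) := T_25 (nat_lit 143) (nat_lit 128) (nat_lit 2) (nat_lit 5) (nat_lit 8) L14615 (by decide +kernel)
theorem L72354 : W_25 (nat_lit 4) (nat_lit 0x2000380008001400080000000000000000000000000000000) (nat_lit 0x0) (nat_lit 0x40000000000006000a00110000000000000000000000000000000) := T_25 (nat_lit 141) (nat_lit 124) (nat_lit 4) (nat_lit 6) (nat_lit 11) L72353 (by decide +kernel)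
theorem L72355 : W_25 (nat_lit 3) (nat_lit 0x2000380008001600080000000000000000000000000000000) (nat_lit 0x0) (nat_lit 0x40000000000006000800040000000000000000000000000000000) := T_25 (nat_lit 143) (nat_lit 126) (nat_lit 6) (nat_lit 6) (nat_lit 11) L14615 (by decide +kernel)
theorem L72356 : W_25 (nat_lit 4) (nat_lit 0x2000380008001400080000000000000000000000000000000) (nat_lit 0x0) (nat_lit 0x40000000000006000a00050000000000000000000000000000000) := T_25 (nat_lit 141) (nat_lit 124) (nat_lit 4) (nat_lit 6) (nat_lit 11) L72355 (by decide +kernel)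
theorem L72357 : W_25 (nat_lit 2) (nat_lit 0x800060002000380008001c00080000000000000000000000000000000) (nat_lit 0x0) (nat_lit 0x20001000080000000000000000000000000000000000000000000000000000) := D_25 (nat_lit 228) (nat_lit 211) (nat_lit 245) (nat_lit 7) (nat_lit 6) (nat_lit 9) (nat_lit 7) (nat_lit 6) (nat_lit 10) (by decide +kernel)
theorem L72358 : W_25 (nat_lit 3) (nat_lit 0x60002000380008001c00080000000000000000000000000000000) (nat_lit 0x0) (nat_lit 0x20001800080000000000004000000000000000000000000000000000000000) := T_25 (nat_lit 227) (nat_lit 158) (nat_lit 4) (nat_lit 6) (nat_lit 13) L72357 (by decide +kernel)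
theorem L72359 : W_25 (nat_lit 4) (nat_lit 0x20002000380008001c00080000000000000000000000000000000) (nat_lit 0x0) (nat_lit 0x20001c000c0000000000004000000000000000000000000000000000000000) := T_25 (nat_lit 210) (nat_lit 226) (nat_lit 5) (nat_lit 6) (nat_lit 9) L72358 (by decide +kernel)
theorem L72360 : W_25 (nat_lit 5) (nat_lit 0x2000380008001c00080000000000000000000000000000000) (nat_lit 0x0) (nat_lit 0x20001c000e0001000000004000000000000000000000000000000000000000) := T_25 (nat_lit 209) (nat_lit 192) (nat_lit 5) (nat_lit 6) (nat_lit 8) L72359 (by decide +kernel)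
theorem L72361 : W_25 (nat_lit 6) (nat_lit 0x2000380008001400080000000000000000000000000000000) (nat_lit 0x0) (nat_lit 0x20001c000e0001000000004000800040000000000000000000000000000000) := T_25 (nat_lit 143) (nat_lit 126) (nat_lit 6) (nat_lit 6) (nat_lit 11) L72360 (by decide +kernel)
theorem L72362 : W_25 (nat_lit 2) (nat_lit 0x800040003000380008001600080000000000000000000000000000000) (nat_lit 0x0) (nat_lit 0x20001000080000000000000000000000000000000000000000000000000000) := D_25 (nat_lit 228) (nat_lit 211) (nat_lit 245) (nat_lit 7) (nat_lit 6) (nat_lit 9) (nat_lit 7) (nat_lit 6) (nat_lit 10) (by decide +kernel)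
theorem L72363 : W_25 (nat_lit 3) (nat_lit 0x40003000380008001600080000000000000000000000000000000) (nat_lit 0x0) (nat_lit 0x30001800080000000000000000000000000000000000000000000000000000) := T_25 (nat_lit 227) (nat_lit 244) (nat_lit 4) (nat_lit 6) (nat_lit 14) L72362 (by decide +kernel)
theorem L72364 : W_25 (nat_lit 4) (nat_lit 0x3000380008001600080000000000000000000000000000000) (nat_lit 0x0) (nat_lit 0x300018000c0000000000004000000000000000000000000000000000000000) := T_25 (nat_lit 210) (nat_lit 158) (nat_lit 7) (nat_lit 5) (nat_lit 8) L72363 (by decide +kernel)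
theorem L72365 : W_25 (nat_lit 5) (nat_lit 0x3000380008001400080000000000000000000000000000000) (nat_lit 0x0) (nat_lit 0x300018000c0000000000004000200010000000000000000000000000000000) := T_25 (nat_lit 141) (nat_lit 124) (nat_lit 4) (nat_lit 6) (nat_lit 11) L72364 (by decide +kernel)
theorem L72366 : W_25 (nat_lit 6) (nat_lit 0x2000380008001400080000000000000000000000000000000) (nat_lit 0x0) (nat_lit 0x300018000e0001000000004000200010000000000000000000000000000000) := T_25 (nat_lit 192) (nat_lit 209) (nat_lit 5) (nat_lit 6) (nat_lit 8) L72365 (by decide +kernel)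
theorem L72367 : W_25 (nat_lit 7) (nat_lit 0x380008001400080000000000000000000000000000000) (nat_lit 0x0) (nat_lit 0x30001c000e0003000000006000a00150000000000000000000000000000000) := Q_25 (nat_lit 193) (C_25 L72352 (C_25 L72354 (C_25 L72356 (C_25 L72361 (C_25 L72366 N_25))))) (by decide +kernel)
theorem L72370 : W_25 (nat_lit 4) (nat_lit 0x380008001400080000000000000000000000000000000) (nat_lit 0x0) (nat_lit 0x1000000004000000030001800040000000000000000000000) := T_25 (nat_lit 125) (nat_lit 192) (nat_lit 5) (nat_lit 6) (nat_lit 7) L72369 (by decide +kernel)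
theorem L72371 : W_25 (nat_lit 2) (nat_lit 0x3800080014000f0000000000000000000000000000000) (nat_lit 0x0) (nat_lit 0x2000000000000800008000000000000000000000000000000) := D_25 (nat_lit 143) (nat_lit 123) (nat_lit 193) (nat_lit 3) (nat_lit 4) (nat_lit 7) (nat_lit 6) (nat_lit 6) (nat_lit 11) (by decide +kernel)
theorem L72372 : W_25 (nat_lit 3) (nat_lit 0x3800080014000b0000000000000000000000000000000) (nat_lit 0x0) (nat_lit 0x2000000000000800048002000000000000000000000000000) := T_25 (nat_lit 126) (nat_lit 109) (nat_lit 6) (nat_lit 6) (nat_lit 10) L72371 (by decide +kernel)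
theorem L72373 : W_25 (nat_lit 4) (nat_lit 0x3800080014000a0000000000000000000000000000000) (nat_lit 0x0) (nat_lit 0x2000000000000800058002800000000000000000000000000) := T_25 (nat_lit 124) (nat_lit 107) (nat_lit 4) (nat_lit 6) (nat_lit 10) L72372 (by decide +kernel)
theorem L72374 : W_25 (nat_lit 5) (nat_lit 0x380008001400080000000000000000000000000000000) (nat_lit 0x0) (nat_lit 0x3000000000000800078002800000000000000000000000000) := T_25 (nat_lit 125) (nat_lit 192) (nat_lit 5) (nat_lit 6) (nat_lit 7) L72373 (by decide +kernel)
theorem L72375 : W_25 (nat_lit 2) (nat_lit 0x3800080014000e0001000000000000000000000000000) (nat_lit 0x0) (nat_lit 0x10000800040000000000000000000000) := D_25 (nat_lit 107) (nat_lit 90) (nat_lit 124) (nat_lit 4) (nat_lit 6) (nat_lit 9) (nat_lit 4) (nat_lit 6) (nat_lit 10) (by decide +kernel)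
theorem L72376 : W_25 (nat_lit 3) (nat_lit 0x3800080014000e0000000000000000000000000000000) (nat_lit 0x0) (nat_lit 0x4000000010001800040000000000000000000000) := T_25 (nat_lit 108) (nat_lit 158) (nat_lit 5) (nat_lit 6) (nat_lit 6) L72375 (by decide +kernel)
theorem L72377 : W_25 (nat_lit 4) (nat_lit 0x3800080014000c0000000000000000000000000000000) (nat_lit 0x0) (nat_lit 0x4000000030003800040000000000000000000000) := T_25 (nat_lit 125) (nat_lit 109) (nat_lit 6) (nat_lit 6) (nat_lit 10) L72376 (by decide +kernel)
theorem L72378 : W_25 (nat_lit 2) (nat_lit 0x14000400020003800080016000c0000000000000000000000000000000) (nat_lit 0x0) (nat_lit 0x28000800000000000000000000000000000000000000000000000000000000) := D_25 (nat_lit 227) (nat_lit 245) (nat_lit 243) (nat_lit 7) (nat_lit 6) (nat_lit 10) (nat_lit 5) (nat_lit 6) (nat_lit 10) (by decide +kernel)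
theorem L72379 : W_25 (nat_lit 3) (nat_lit 0x10000400020003800080016000c0000000000000000000000000000000) (nat_lit 0x0) (nat_lit 0x28000c00020000000000000000000000000000000000000000000000000000) := T_25 (nat_lit 226) (nat_lit 209) (nat_lit 5) (nat_lit 6) (nat_lit 9) L72378 (by decide +kernel)
theorem L72380 : W_25 (nat_lit 4) (nat_lit 0x400020003800080016000c0000000000000000000000000000000) (nat_lit 0x0) (nat_lit 0x28001c000a0000000000000000000000000000000000000000000000000000) := T_25 (nat_lit 228) (nat_lit 211) (nat_lit 7) (nat_lit 6) (nat_lit 9) L72379 (by decide +kernel)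
theorem L72381 : W_25 (nat_lit 5) (nat_lit 0x20003800080016000c0000000000000000000000000000000) (nat_lit 0x0) (nat_lit 0x28001c000e0000000000004000000000000000000000000000000000000000) := T_25 (nat_lit 210) (nat_lit 158) (nat_lit 4) (nat_lit 6) (nat_lit 12) L72380 (by decide +kernel)
theorem L72382 : W_25 (nat_lit 6) (nat_lit 0x20003800080014000c0000000000000000000000000000000) (nat_lit 0x0) (nat_lit 0x28001c000e0000000000004000200010000000000000000000000000000000) := T_25 (nat_lit 141) (nat_lit 124) (nat_lit 4) (nat_lit 6) (nat_lit 11) L72381 (by decide +kernel)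
theorem L72383 : W_25 (nat_lit 7) (nat_lit 0x3800080014000c0000000000000000000000000000000) (nat_lit 0x0) (nat_lit 0x28001c000e0002000000004000a00010000000000000000000000000000000) := T_25 (nat_lit 193) (nat_lit 143) (nat_lit 6) (nat_lit 6) (nat_lit 11) L72382 (by decide +kernel)
theorem L72384 : W_25 (nat_lit 2) (nat_lit 0x20003800080016000c0000000000000000000000000000000) (nat_lit 0x0) (nat_lit 0x120002000000000000000000000000000) := D_25 (nat_lit 125) (nat_lit 128) (nat_lit 109) (nat_lit 1) (nat_lit 9) (nat_lit 7) (nat_lit 6) (nat_lit 6) (nat_lit 10) (by decide +kernel)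
theorem L72385 : W_25 (nat_lit 3) (nat_lit 0x20003800080014000c0000000000000000000000000000000) (nat_lit 0x0) (nat_lit 0x200130002000000000000000000000000000) := T_25 (nat_lit 141) (nat_lit 124) (nat_lit 4) (nat_lit 6) (nat_lit 11) L72384 (by decide +kernel)
theorem L72386 : W_25 (nat_lit 4) (nat_lit 0x3800080014000c0000000000000000000000000000000) (nat_lit 0x0) (nat_lit 0x2000000000000a00130002000000000000000000000000000) := T_25 (nat_lit 193) (nat_lit 143) (nat_lit 6) (nat_lit 6) (nat_lit 11) L72385 (by decide +kernel)
theorem L72387 : W_25 (nat_lit 2) (nat_lit 0x3800080014000e0001000000000000000000000000000) (nat_lit 0x0) (nat_lit 0x100000800040000000000000000000000) := D_25 (nat_lit 107) (nat_lit 90) (nat_lit 128) (nat_lit 4) (nat_lit 6) (nat_lit 9) (nat_lit 0) (nat_lit 9) (nat_lit 7) (by decide +kernel)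
theorem L72388 : W_25 (nat_lit 3) (nat_lit 0x3800080014000e0000000000000000000000000000000) (nat_lit 0x0) (nat_lit 0x4000000100001800040000000000000000000000) := T_25 (nat_lit 108) (nat_lit 158) (nat_lit 5) (nat_lit 6) (nat_lit 6) L72387 (by decide +kernel)
theorem L72389 : W_25 (nat_lit 4) (nat_lit 0x3800080014000c0000000000000000000000000000000) (nat_lit 0x0) (nat_lit 0x4000000120003800040000000000000000000000) := T_25 (nat_lit 125) (nat_lit 109) (nat_lit 6) (nat_lit 6) (nat_lit 10) L72388 (by decide +kernel)
theorem L72390 : W_25 (nat_lit 8) (nat_lit 0x380008001400080000000000000000000000000000000) (nat_lit 0x0) (nat_lit 0x28001c000e0002000000004000a00170003800040000000000000000000000) := Q_25 (nat_lit 126) (C_25 L72377 (C_25 L72383 (C_25 L72386 (C_25 L72389 N_25)))) (by decide +kernel)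
theorem L72391 : W_25 (nat_lit 2) (nat_lit 0x3800080014000a0001000000000000000000000000000) (nat_lit 0x0) (nat_lit 0x40002000100000000000000000000000) := D_25 (nat_lit 109) (nat_lit 126) (nat_lit 92) (nat_lit 6) (nat_lit 6) (nat_lit 10) (nat_lit 6) (nat_lit 6) (nat_lit 9) (by decide +kernel)
theorem L72392 : W_25 (nat_lit 3) (nat_lit 0x3800080014000a0000000000000000000000000000000) (nat_lit 0x0) (nat_lit 0x4000000040003000100000000000000000000000) := T_25 (nat_lit 108) (nat_lit 158) (nat_lit 5) (nat_lit 6) (nat_lit 6) L72391 (by decide +kernel)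
theorem L72393 : W_25 (nat_lit 4) (nat_lit 0x380008001400080000000000000000000000000000000) (nat_lit 0x0) (nat_lit 0x1000000004000000060003000100000000000000000000000) := T_25 (nat_lit 125) (nat_lit 192) (nat_lit 5) (nat_lit 6) (nat_lit 7) L72392 (by decide +kernel)
theorem L72394 : W_25 (nat_lit 9) (nat_lit 0x380008001000080000000000000000000000000000000) (nat_lit 0x0) (nat_lit 0x38001c000e0003000000006000e00178003800140000000000000000000000) := Q_25 (nat_lit 142) (C_25 L72367 (C_25 L72370 (C_25 L72374 (C_25 L72390 (C_25 L72393 N_25))))) (by decide +kernel)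
theorem L72395 : W_25 (nat_lit 2) (nat_lit 0x200010003c000a0010000a0000000000000000000000000000000) (nat_lit 0x0) (nat_lit 0x4000100008000000000000000000000000000000) := D_25 (nat_lit 140) (nat_lit 123) (nat_lit 158) (nat_lit 7) (nat_lit 4) (nat_lit 7) (nat_lit 4) (nat_lit 5) (nat_lit 12) (by decide +kernel)
theorem L72396 : W_25 (nat_lit 3) (nat_lit 0x10003c000a0010000a0000000000000000000000000000000) (nat_lit 0x0) (nat_lit 0x400020000000000004000100008000000000000000000000000000000) := T_25 (nat_lit 209) (nat_lit 226) (nat_lit 6) (nat_lit 5) (nat_lit 13) L72395 (by decide +kernel)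
theorem L72397 : W_25 (nat_lit 4) (nat_lit 0x10003c000a001000080000000000000000000000000000000) (nat_lit 0x0) (nat_lit 0x400020000000000004000500028000000000000000000000000000000) := T_25 (nat_lit 125) (nat_lit 142) (nat_lit 5) (nat_lit 6) (nat_lit 7) L72396 (by decide +kernel)
theorem L72398 : W_25 (nat_lit 5) (nat_lit 0x10003c0008001000080000000000000000000000000000000) (nat_lit 0x0) (nat_lit 0x400020000000000007000500028000000000000000000000000000000) := T_25 (nat_lit 157) (nat_lit 156) (nat_lit 0) (nat_lit 7) (nat_lit 10) L72397 (by decide +kernel)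
theorem L72399 : W_25 (nat_lit 2) (nat_lit 0x200010003c0018001000080000000000000000000000000000000) (nat_lit 0x0) (nat_lit 0x2000000004000400000000000000000000000000000000000) := D_25 (nat_lit 142) (nat_lit 158) (nat_lit 193) (nat_lit 6) (nat_lit 5) (nat_lit 12) (nat_lit 5) (nat_lit 6) (nat_lit 8) (by decide +kernel)
theorem L72400 : W_25 (nat_lit 3) (nat_lit 0x10003c0018001000080000000000000000000000000000000) (nat_lit 0x0) (nat_lit 0x400020002000000004000400000000000000000000000000000000000) := T_25 (nat_lit 209) (nat_lit 226) (nat_lit 6) (nat_lit 5) (nat_lit 13) L72399 (by decide +kernel)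
theorem L72401 : W_25 (nat_lit 4) (nat_lit 0x10003c0008001000080000000000000000000000000000000) (nat_lit 0x0) (nat_lit 0x400020002000000034000400000000000000000000000000000000000) := T_25 (nat_lit 160) (nat_lit 161) (nat_lit 2) (nat_lit 4) (nat_lit 10) L72400 (by decide +kernel)
theorem L72402 : W_25 (nat_lit 2) (nat_lit 0x200010003c001a001000080000000000000000000000000000000) (nat_lit 0x0) (nat_lit 0x4000100008000000000000000000000000000000) := D_25 (nat_lit 140) (nat_lit 123) (nat_lit 158) (nat_lit 7) (nat_lit 4) (nat_lit 7) (nat_lit 4) (nat_lit 5) (nat_lit 12) (by decide +kernel)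
theorem L72403 : W_25 (nat_lit 3) (nat_lit 0x10003c001a001000080000000000000000000000000000000) (nat_lit 0x0) (nat_lit 0x400020000000000004000100008000000000000000000000000000000) := T_25 (nat_lit 209) (nat_lit 226) (nat_lit 6) (nat_lit 5) (nat_lit 13) L72402 (by decide +kernel)
theorem L72404 : W_25 (nat_lit 4) (nat_lit 0x10003c000a001000080000000000000000000000000000000) (nat_lit 0x0) (nat_lit 0x400020000000000034000100008000000000000000000000000000000) := T_25 (nat_lit 160) (nat_lit 161) (nat_lit 2) (nat_lit 4) (nat_lit 10) L72403 (by decide +kernel)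
theorem L72405 : W_25 (nat_lit 5) (nat_lit 0x10003c0008001000080000000000000000000000000000000) (nat_lit 0x0) (nat_lit 0x400020000000000037000100008000000000000000000000000000000) := T_25 (nat_lit 157) (nat_lit 156) (nat_lit 0) (nat_lit 7) (nat_lit 10) L72404 (by decide +kernel)
theorem L72406 : W_25 (nat_lit 2) (nat_lit 0x10003c0018001400080000000000000000000000000000000) (nat_lit 0x0) (nat_lit 0x400020002000000000000000000000000000000000000000000000000) := D_25 (nat_lit 209) (nat_lit 226) (nat_lit 193) (nat_lit 6) (nat_lit 5) (nat_lit 13) (nat_lit 5) (nat_lit 6) (nat_lit 8) (by decide +kernel)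
theorem L72407 : W_25 (nat_lit 3) (nat_lit 0x10003c0018001000080000000000000000000000000000000) (nat_lit 0x0) (nat_lit 0x400020002000000000000400020000000000000000000000000000000) := T_25 (nat_lit 142) (nat_lit 125) (nat_lit 5) (nat_lit 6) (nat_lit 7) L72406 (by decide +kernel)
theorem L72408 : W_25 (nat_lit 4) (nat_lit 0x10003c0008001000080000000000000000000000000000000) (nat_lit 0x0) (nat_lit 0x400020002000000030000400020000000000000000000000000000000) := T_25 (nat_lit 160) (nat_lit 161) (nat_lit 2) (nat_lit 4) (nat_lit 10) L72407 (by decide +kernel)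
theorem L72409 : W_25 (nat_lit 2) (nat_lit 0x10003c001a0011000a0000000000000000000000000000000) (nat_lit 0x0) (nat_lit 0x20000000000004000080000000000000000000000000000000000) := D_25 (nat_lit 158) (nat_lit 209) (nat_lit 139) (nat_lit 4) (nat_lit 5) (nat_lit 12) (nat_lit 0) (nat_lit 7) (nat_lit 9) (by decide +kernel)
theorem L72410 : W_25 (nat_lit 3) (nat_lit 0x10003c001a0010000a0000000000000000000000000000000) (nat_lit 0x0) (nat_lit 0x20000000000004000180008000000000000000000000000000000) := T_25 (nat_lit 140) (nat_lit 123) (nat_lit 7) (nat_lit 4) (nat_lit 7) L72409 (by decide +kernel)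
theorem L72411 : W_25 (nat_lit 4) (nat_lit 0x10003c00180010000a0000000000000000000000000000000) (nat_lit 0x0) (nat_lit 0x20000000000007000180008000000000000000000000000000000) := T_25 (nat_lit 157) (nat_lit 156) (nat_lit 0) (nat_lit 7) (nat_lit 10) L72410 (by decide +kernel)
theorem L72412 : W_25 (nat_lit 5) (nat_lit 0x10003c0018001000080000000000000000000000000000000) (nat_lit 0x0) (nat_lit 0x20000000000007000580028000000000000000000000000000000) := T_25 (nat_lit 125) (nat_lit 142) (nat_lit 5) (nat_lit 6) (nat_lit 7) L72411 (by decide +kernel)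
theorem L72413 : W_25 (nat_lit 6) (nat_lit 0x10003c0008001000080000000000000000000000000000000) (nat_lit 0x0) (nat_lit 0x20000000000037000580028000000000000000000000000000000) := T_25 (nat_lit 160) (nat_lit 161) (nat_lit 2) (nat_lit 4) (nat_lit 10) L72412 (by decide +kernel)
theorem L72414 : W_25 (nat_lit 2) (nat_lit 0x10003c001a001500080000000000000000000000000000000) (nat_lit 0x0) (nat_lit 0x4000280000000000000000000000000000000000) := D_25 (nat_lit 139) (nat_lit 158) (nat_lit 141) (nat_lit 0) (nat_lit 7) (nat_lit 9) (nat_lit 3) (nat_lit 3) (nat_lit 8) (by decide +kernel)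
theorem L72415 : W_25 (nat_lit 3) (nat_lit 0x10003c001a001100080000000000000000000000000000000) (nat_lit 0x0) (nat_lit 0x4000680020000000000000000000000000000000) := T_25 (nat_lit 142) (nat_lit 125) (nat_lit 5) (nat_lit 6) (nat_lit 7) L72414 (by decide +kernel)
theorem L72416 : W_25 (nat_lit 4) (nat_lit 0x10003c001a001000080000000000000000000000000000000) (nat_lit 0x0) (nat_lit 0x4000780028000000000000000000000000000000) := T_25 (nat_lit 140) (nat_lit 123) (nat_lit 7) (nat_lit 4) (nat_lit 7) L72415 (by decide +kernel)
theorem L72417 : W_25 (nat_lit 5) (nat_lit 0x10003c000a001000080000000000000000000000000000000) (nat_lit 0x0) (nat_lit 0x34000780028000000000000000000000000000000) := T_25 (nat_lit 160) (nat_lit 161) (nat_lit 2) (nat_lit 4) (nat_lit 10) L72416 (by decide +kernel)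
theorem L72418 : W_25 (nat_lit 6) (nat_lit 0x10003c0008001000080000000000000000000000000000000) (nat_lit 0x0) (nat_lit 0x37000780028000000000000000000000000000000) := T_25 (nat_lit 157) (nat_lit 156) (nat_lit 0) (nat_lit 7) (nat_lit 10) L72417 (by decide +kernel)
theorem L72419 : W_25 (nat_lit 7) (nat_lit 0x3c0008001000080000000000000000000000000000000) (nat_lit 0x0) (nat_lit 0x400020003000000037000780028000000000000000000000000000000) := Q_25 (nat_lit 192) (C_25 L72398 (C_25 L72401 (C_25 L72405 (C_25 L72408 (C_25 L72413 (C_25 L72418 N_25)))))) (by decide +kernel)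
theorem L72420 : W_25 (nat_lit 8) (nat_lit 0x380008001000080000000000000000000000000000000) (nat_lit 0x0) (nat_lit 0x400020003700070037800780028000000000000000000000000000000) := Q_25 (nat_lit 174) (C_25 L72346 (C_25 L72343 (C_25 L72419 N_25))) (by decide +kernel)
theorem L72421 : W_25 (nat_lit 2) (nat_lit 0x380008001e00080000000000000000000000000000000) (nat_lit 0x0) (nat_lit 0x2000000000000100040000000000000000000000000000000) := D_25 (nat_lit 126) (nat_lit 140) (nat_lit 193) (nat_lit 2) (nat_lit 4) (nat_lit 8) (nat_lit 6) (nat_lit 6) (nat_lit 11) (by decide +kernel)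
theorem L72422 : W_25 (nat_lit 3) (nat_lit 0x380008001c00080000000000000000000000000000000) (nat_lit 0x0) (nat_lit 0x2000000000000300140000000000000000000000000000000) := T_25 (nat_lit 141) (nat_lit 128) (nat_lit 2) (nat_lit 5) (nat_lit 8) L72421 (by decide +kernel)
theorem L72423 : W_25 (nat_lit 2) (nat_lit 0x380008001e00080000000000000000000000000000000) (nat_lit 0x0) (nat_lit 0x2000000000000000018000000000000000000000000000000) := D_25 (nat_lit 124) (nat_lit 123) (nat_lit 193) (nat_lit 0) (nat_lit 8) (nat_lit 8) (nat_lit 4) (nat_lit 6) (nat_lit 11) (by decide +kernel)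
theorem L72424 : W_25 (nat_lit 3) (nat_lit 0x380008001c00080000000000000000000000000000000) (nat_lit 0x0) (nat_lit 0x2000000000000200118000000000000000000000000000000) := T_25 (nat_lit 141) (nat_lit 128) (nat_lit 2) (nat_lit 5) (nat_lit 8) L72423 (by decide +kernel)
theorem L72425 : W_25 (nat_lit 2) (nat_lit 0x800040003000380008001c00080000000000000000000000000000000) (nat_lit 0x0) (nat_lit 0x20001000080000000000000000000000000000000000000000000000000000) := D_25 (nat_lit 228) (nat_lit 211) (nat_lit 245) (nat_lit 7) (nat_lit 6) (nat_lit 9) (nat_lit 7) (nat_lit 6) (nat_lit 10) (by decide +kernel)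
theorem L72426 : W_25 (nat_lit 3) (nat_lit 0x40003000380008001c00080000000000000000000000000000000) (nat_lit 0x0) (nat_lit 0x30001800080000000000000000000000000000000000000000000000000000) := T_25 (nat_lit 227) (nat_lit 244) (nat_lit 4) (nat_lit 6) (nat_lit 14) L72425 (by decide +kernel)
theorem L72427 : W_25 (nat_lit 4) (nat_lit 0x3000380008001c00080000000000000000000000000000000) (nat_lit 0x0) (nat_lit 0x300018000c0000000000010000000000000000000000000000000000000000) := T_25 (nat_lit 210) (nat_lit 160) (nat_lit 6) (nat_lit 6) (nat_lit 12) L72426 (by decide +kernel)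
theorem L72428 : W_25 (nat_lit 5) (nat_lit 0x2000380008001c00080000000000000000000000000000000) (nat_lit 0x0) (nat_lit 0x300018000e0001000000010000000000000000000000000000000000000000) := T_25 (nat_lit 192) (nat_lit 209) (nat_lit 5) (nat_lit 6) (nat_lit 8) L72427 (by decide +kernel)
theorem L72429 : W_25 (nat_lit 6) (nat_lit 0x380008001c00080000000000000000000000000000000) (nat_lit 0x0) (nat_lit 0x300018000e0003000000010000000040000000000000000000000000000000) := T_25 (nat_lit 193) (nat_lit 126) (nat_lit 6) (nat_lit 6) (nat_lit 11) L72428 (by decide +kernel)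
theorem L72430 : W_25 (nat_lit 2) (nat_lit 0x380008001f00080000000000000000000000000000000) (nat_lit 0x0) (nat_lit 0x1c000000000000000000000000000000) := D_25 (nat_lit 123) (nat_lit 124) (nat_lit 122) (nat_lit 0) (nat_lit 8) (nat_lit 8) (nat_lit 0) (nat_lit 7) (nat_lit 8) (by decide +kernel)
theorem L72431 : W_25 (nat_lit 3) (nat_lit 0x380008001e00080000000000000000000000000000000) (nat_lit 0x0) (nat_lit 0x10005c000000000000000000000000000000) := T_25 (nat_lit 140) (nat_lit 126) (nat_lit 2) (nat_lit 4) (nat_lit 8) L72430 (by decide +kernel)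
theorem L72432 : W_25 (nat_lit 4) (nat_lit 0x380008001c00080000000000000000000000000000000) (nat_lit 0x0) (nat_lit 0x30015c000000000000000000000000000000) := T_25 (nat_lit 141) (nat_lit 128) (nat_lit 2) (nat_lit 5) (nat_lit 8) L72431 (by decide +kernel)
theorem L72433 : W_25 (nat_lit 7) (nat_lit 0x380008001400080000000000000000000000000000000) (nat_lit 0x0) (nat_lit 0x300018000e0003000000010000b0015c000000000000000000000000000000) := Q_25 (nat_lit 143) (C_25 L72422 (C_25 L72424 (C_25 L72429 (C_25 L72432 N_25)))) (by decide +kernel)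
theorem L72434 : W_25 (nat_lit 2) (nat_lit 0x3800080014000b8003000000000000000000000000000) (nat_lit 0x0) (nat_lit 0x2000000000000a00000000000000000000000000000000000) := D_25 (nat_lit 141) (nat_lit 193) (nat_lit 143) (nat_lit 4) (nat_lit 6) (nat_lit 11) (nat_lit 0) (nat_lit 8) (nat_lit 8) (by decide +kernel)
theorem L72435 : W_25 (nat_lit 3) (nat_lit 0x3800080014000b0003000000000000000000000000000) (nat_lit 0x0) (nat_lit 0x2000000000000a0000c000000000000000000000000000000) := T_25 (nat_lit 123) (nat_lit 122) (nat_lit 2) (nat_lit 3) (nat_lit 7) L72434 (by decide +kernel)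
theorem L72436 : W_25 (nat_lit 4) (nat_lit 0x3800080014000b0001000000000000000000000000000) (nat_lit 0x0) (nat_lit 0x2000000000000a0000c002000100000000000000000000000) := T_25 (nat_lit 109) (nat_lit 92) (nat_lit 6) (nat_lit 6) (nat_lit 9) L72435 (by decide +kernel)
theorem L72437 : W_25 (nat_lit 5) (nat_lit 0x3800080014000b0000000000000000000000000000000) (nat_lit 0x0) (nat_lit 0x2000000010000a0000c003000100000000000000000000000) := T_25 (nat_lit 108) (nat_lit 160) (nat_lit 7) (nat_lit 6) (nat_lit 6) L72436 (by decide +kernel)
theorem L72438 : W_25 (nat_lit 6) (nat_lit 0x3800080014000a0000000000000000000000000000000) (nat_lit 0x0) (nat_lit 0x2000000010000a0001c003800100000000000000000000000) := T_25 (nat_lit 124) (nat_lit 107) (nat_lit 4) (nat_lit 6) (nat_lit 10) L72437 (by decide +kernel)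
theorem L72439 : W_25 (nat_lit 7) (nat_lit 0x380008001400080000000000000000000000000000000) (nat_lit 0x0) (nat_lit 0x3000000010000a0003c003800100000000000000000000000) := T_25 (nat_lit 125) (nat_lit 192) (nat_lit 5) (nat_lit 6) (nat_lit 7) L72438 (by decide +kernel)
theorem L72440 : W_25 (nat_lit 2) (nat_lit 0x3800080014000b0001000000000000000000000000000) (nat_lit 0x0) (nat_lit 0x40002000100000000000000000000000) := D_25 (nat_lit 109) (nat_lit 92) (nat_lit 126) (nat_lit 6) (nat_lit 6) (nat_lit 9) (nat_lit 6) (nat_lit 6) (nat_lit 10) (by decide +kernel)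
theorem L72441 : W_25 (nat_lit 3) (nat_lit 0x3800080014000b0000000000000000000000000000000) (nat_lit 0x0) (nat_lit 0x10000000040003000100000000000000000000000) := T_25 (nat_lit 108) (nat_lit 160) (nat_lit 7) (nat_lit 6) (nat_lit 6) L72440 (by decide +kernel)
theorem L72442 : W_25 (nat_lit 4) (nat_lit 0x3800080014000a0000000000000000000000000000000) (nat_lit 0x0) (nat_lit 0x10000000050003800100000000000000000000000) := T_25 (nat_lit 124) (nat_lit 107) (nat_lit 4) (nat_lit 6) (nat_lit 10) L72441 (by decide +kernel)
theorem L72443 : W_25 (nat_lit 5) (nat_lit 0x380008001400080000000000000000000000000000000) (nat_lit 0x0) (nat_lit 0x1000000010000000070003800100000000000000000000000) := T_25 (nat_lit 125) (nat_lit 192) (nat_lit 5) (nat_lit 6) (nat_lit 7) L72442 (by decide +kernel)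
theorem L72444 : W_25 (nat_lit 2) (nat_lit 0x380008001c000c0000000000000000000000000000000) (nat_lit 0x0) (nat_lit 0x10000000000002000100000000000000000000000) := D_25 (nat_lit 109) (nat_lit 160) (nat_lit 92) (nat_lit 5) (nat_lit 7) (nat_lit 6) (nat_lit 5) (nat_lit 7) (nat_lit 5) (by decide +kernel)
theorem L72445 : W_25 (nat_lit 3) (nat_lit 0x3800080014000c0000000000000000000000000000000) (nat_lit 0x0) (nat_lit 0x2000000010000800000002000100000000000000000000000) := T_25 (nat_lit 143) (nat_lit 193) (nat_lit 6) (nat_lit 6) (nat_lit 11) L72444 (by decide +kernel)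
theorem L72446 : W_25 (nat_lit 2) (nat_lit 0x20003800180016800e0000000000000000000000000000000) (nat_lit 0x0) (nat_lit 0x40060000000000000000000000000000000000000000) := D_25 (nat_lit 161) (nat_lit 162) (nat_lit 174) (nat_lit 1) (nat_lit 9) (nat_lit 9) (nat_lit 2) (nat_lit 4) (nat_lit 10) (by decide +kernel)
theorem L72447 : W_25 (nat_lit 3) (nat_lit 0x20003800080016800e0000000000000000000000000000000) (nat_lit 0x0) (nat_lit 0x40070000000000001000000000000000000000000000) := T_25 (nat_lit 160) (nat_lit 108) (nat_lit 7) (nat_lit 6) (nat_lit 6) L72446 (by decide +kernel)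
theorem L72448 : W_25 (nat_lit 4) (nat_lit 0x20003800080016000e0000000000000000000000000000000) (nat_lit 0x0) (nat_lit 0x40070000180000001000000000000000000000000000) := T_25 (nat_lit 139) (nat_lit 140) (nat_lit 2) (nat_lit 3) (nat_lit 8) L72447 (by decide +kernel)
theorem L72449 : W_25 (nat_lit 5) (nat_lit 0x20003800080016000c0000000000000000000000000000000) (nat_lit 0x0) (nat_lit 0x40070000180120001000000000000000000000000000) := T_25 (nat_lit 125) (nat_lit 128) (nat_lit 1) (nat_lit 9) (nat_lit 7) L72448 (by decide +kernel)
theorem L72450 : W_25 (nat_lit 6) (nat_lit 0x20003800080014000c0000000000000000000000000000000) (nat_lit 0x0) (nat_lit 0x40070000380130001000000000000000000000000000) := T_25 (nat_lit 141) (nat_lit 124) (nat_lit 4) (nat_lit 6) (nat_lit 11) L72449 (by decide +kernel)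
theorem L72451 : W_25 (nat_lit 7) (nat_lit 0x3800080014000c0000000000000000000000000000000) (nat_lit 0x0) (nat_lit 0x2000040070000b80130001000000000000000000000000000) := T_25 (nat_lit 193) (nat_lit 143) (nat_lit 6) (nat_lit 6) (nat_lit 11) L72450 (by decide +kernel)
theorem L72452 : W_25 (nat_lit 2) (nat_lit 0x3800080014000f0000000000000000000000000000000) (nat_lit 0x0) (nat_lit 0x300100000000000000000000000000000000) := D_25 (nat_lit 141) (nat_lit 140) (nat_lit 128) (nat_lit 1) (nat_lit 8) (nat_lit 7) (nat_lit 1) (nat_lit 9) (nat_lit 7) (by decide +kernel)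
theorem L72453 : W_25 (nat_lit 3) (nat_lit 0x3800080014000e0000000000000000000000000000000) (nat_lit 0x0) (nat_lit 0x300110000800000000000000000000000000) := T_25 (nat_lit 124) (nat_lit 107) (nat_lit 4) (nat_lit 6) (nat_lit 10) L72452 (by decide +kernel)
theorem L72454 : W_25 (nat_lit 4) (nat_lit 0x3800080014000c0000000000000000000000000000000) (nat_lit 0x0) (nat_lit 0x300130002800000000000000000000000000) := T_25 (nat_lit 125) (nat_lit 109) (nat_lit 6) (nat_lit 6) (nat_lit 10) L72453 (by decide +kernel)
theorem L72455 : W_25 (nat_lit 8) (nat_lit 0x380008001400080000000000000000000000000000000) (nat_lit 0x0) (nat_lit 0x2000040070000b80170003800100000000000000000000000) := Q_25 (nat_lit 126) (C_25 L72386 (C_25 L72445 (C_25 L72451 (C_25 L72454 N_25)))) (by decide +kernel)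
theorem L72456 : W_25 (nat_lit 2) (nat_lit 0x3800080014001e0000000000000000000000000000000) (nat_lit 0x0) (nat_lit 0x10000000000001800000000000000000000000000) := D_25 (nat_lit 108) (nat_lit 107) (nat_lit 160) (nat_lit 0) (nat_lit 9) (nat_lit 7) (nat_lit 7) (nat_lit 6) (nat_lit 6) (by decide +kernel)
theorem L72457 : W_25 (nat_lit 3) (nat_lit 0x3800080014000e0000000000000000000000000000000) (nat_lit 0x0) (nat_lit 0x10000200100001800000000000000000000000000) := T_25 (nat_lit 128) (nat_lit 141) (nat_lit 1) (nat_lit 9) (nat_lit 7) L72456 (by decide +kernel)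
theorem L72458 : W_25 (nat_lit 4) (nat_lit 0x3800080014000a0000000000000000000000000000000) (nat_lit 0x0) (nat_lit 0x10000200140003800000000000000000000000000) := T_25 (nat_lit 126) (nat_lit 109) (nat_lit 6) (nat_lit 6) (nat_lit 10) L72457 (by decide +kernel)
theorem L72459 : W_25 (nat_lit 5) (nat_lit 0x380008001400080000000000000000000000000000000) (nat_lit 0x0) (nat_lit 0x1000000010000200160003800000000000000000000000000) := T_25 (nat_lit 125) (nat_lit 192) (nat_lit 5) (nat_lit 6) (nat_lit 7) L72458 (by decide +kernel)
theorem L72460 : W_25 (nat_lit 9) (nat_lit 0x380008001000080000000000000000000000000000000) (nat_lit 0x0) (nat_lit 0x300018000e0003000040070000f8017c003800100000000000000000000000) := Q_25 (nat_lit 142) (C_25 L72433 (C_25 L72374 (C_25 L72439 (C_25 L72443 (C_25 L72455 (C_25 L72459 N_25)))))) (by decide +kernel)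
theorem L72462 : W_25 (nat_lit 2) (nat_lit 0x380018001800080000000000000000000000000000000) (nat_lit 0x0) (nat_lit 0x2000000000000000040002000000000000000000000000000) := D_25 (nat_lit 126) (nat_lit 109) (nat_lit 193) (nat_lit 5) (nat_lit 7) (nat_lit 6) (nat_lit 5) (nat_lit 7) (nat_lit 7) (by decide +kernel)
theorem L72463 : W_25 (nat_lit 2) (nat_lit 0x4000000038003c001e00080000000000000000000000000000000) (nat_lit 0x0) (nat_lit 0x18000800000000000000000000000000) := D_25 (nat_lit 124) (nat_lit 123) (nat_lit 107) (nat_lit 0) (nat_lit 8) (nat_lit 8) (nat_lit 7) (nat_lit 5) (nat_lit 6) (by decide +kernel)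
theorem L72464 : W_25 (nat_lit 3) (nat_lit 0x4000000038003c001a00080000000000000000000000000000000) (nat_lit 0x0) (nat_lit 0x400118000800000000000000000000000000) := T_25 (nat_lit 142) (nat_lit 128) (nat_lit 2) (nat_lit 5) (nat_lit 8) L72463 (by decide +kernel)
theorem L72465 : W_25 (nat_lit 4) (nat_lit 0x4000000038003c001800080000000000000000000000000000000) (nat_lit 0x0) (nat_lit 0x700118000800000000000000000000000000) := T_25 (nat_lit 141) (nat_lit 140) (nat_lit 0) (nat_lit 8) (nat_lit 9) L72464 (by decide +kernel)
theorem L72466 : W_25 (nat_lit 5) (nat_lit 0x40000000380038001800080000000000000000000000000000000) (nat_lit 0x0) (nat_lit 0x6000700118000800000000000000000000000000) := T_25 (nat_lit 158) (nat_lit 157) (nat_lit 2) (nat_lit 4) (nat_lit 9) L72465 (by decide +kernel)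
theorem L72467 : W_25 (nat_lit 6) (nat_lit 0x380038001800080000000000000000000000000000000) (nat_lit 0x0) (nat_lit 0x40002000000006000700118000800000000000000000000000000) := T_25 (nat_lit 210) (nat_lit 193) (nat_lit 6) (nat_lit 6) (nat_lit 12) L72466 (by decide +kernel)
theorem L72468 : W_25 (nat_lit 7) (nat_lit 0x380018001800080000000000000000000000000000000) (nat_lit 0x0) (nat_lit 0x40002000000066000700118000800000000000000000000000000) := T_25 (nat_lit 161) (nat_lit 162) (nat_lit 1) (nat_lit 9) (nat_lit 9) L72467 (by decide +kernel)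
theorem L72469 : W_25 (nat_lit 2) (nat_lit 0x38005a0018000f0000000000000000000000000000000) (nat_lit 0x0) (nat_lit 0x400000000c00000000000000000000000000) := D_25 (nat_lit 107) (nat_lit 106) (nat_lit 142) (nat_lit 0) (nat_lit 8) (nat_lit 7) (nat_lit 4) (nat_lit 6) (nat_lit 10) (by decide +kernel)
theorem L72470 : W_25 (nat_lit 3) (nat_lit 0x38005a0018000e0000000000000000000000000000000) (nat_lit 0x0) (nat_lit 0x400018000c00000000000000000000000000) := T_25 (nat_lit 124) (nat_lit 123) (nat_lit 3) (nat_lit 4) (nat_lit 7) L72469 (by decide +kernel)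
theorem L72471 : W_25 (nat_lit 4) (nat_lit 0x38005a0018000c0000000000000000000000000000000) (nat_lit 0x0) (nat_lit 0x400038001c00000000000000000000000000) := T_25 (nat_lit 125) (nat_lit 108) (nat_lit 4) (nat_lit 7) (nat_lit 10) L72470 (by decide +kernel)
theorem L72472 : W_25 (nat_lit 5) (nat_lit 0x38005a001800080000000000000000000000000000000) (nat_lit 0x0) (nat_lit 0x400078003c00000000000000000000000000) := T_25 (nat_lit 126) (nat_lit 109) (nat_lit 5) (nat_lit 7) (nat_lit 6) L72471 (by decide +kernel)
theorem L72473 : W_25 (nat_lit 6) (nat_lit 0x38001a001800080000000000000000000000000000000) (nat_lit 0x0) (nat_lit 0x60000400078003c00000000000000000000000000) := T_25 (nat_lit 162) (nat_lit 161) (nat_lit 1) (nat_lit 9) (nat_lit 9) L72472 (by decide +kernel)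
theorem L72474 : W_25 (nat_lit 7) (nat_lit 0x380018001800080000000000000000000000000000000) (nat_lit 0x0) (nat_lit 0x66000400078003c00000000000000000000000000) := T_25 (nat_lit 157) (nat_lit 158) (nat_lit 2) (nat_lit 4) (nat_lit 9) L72473 (by decide +kernel)
theorem L72475 : W_25 (nat_lit 8) (nat_lit 0x380018001000080000000000000000000000000000000) (nat_lit 0x0) (nat_lit 0x40002000000066000f00178003c00000000000000000000000000) := Q_25 (nat_lit 143) (C_25 L72462 (C_25 L72468 (C_25 L72474 N_25))) (by decide +kernel)
theorem L72476 : W_25 (nat_lit 7) (nat_lit 0x3c001a001000080000000000000000000000000000000) (nat_lit 0x0) (nat_lit 0x2000000004000b80078001c00000000000000000000000000) := T_25 (nat_lit 158) (nat_lit 143) (nat_lit 2) (nat_lit 4) (nat_lit 9) L72291 (by decide +kernel)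
theorem L72477 : W_25 (nat_lit 8) (nat_lit 0x3c0018001000080000000000000000000000000000000) (nat_lit 0x0) (nat_lit 0x2000000007000b80078001c00000000000000000000000000) := T_25 (nat_lit 157) (nat_lit 156) (nat_lit 0) (nat_lit 7) (nat_lit 10) L72476 (by decide +kernel)
theorem L72478 : W_25 (nat_lit 9) (nat_lit 0x380018001000080000000000000000000000000000000) (nat_lit 0x0) (nat_lit 0x2000060007000b80078001c00000000000000000000000000) := T_25 (nat_lit 174) (nat_lit 173) (nat_lit 2) (nat_lit 3) (nat_lit 10) L72477 (by decide +kernel)
theorem L72479 : W_25 (nat_lit 10) (nat_lit 0x380008001000080000000000000000000000000000000) (nat_lit 0x0) (nat_lit 0x40002000060077000f80178003c00000000000000000000000000) := Q_25 (nat_lit 160) (C_25 L72461 (C_25 L72475 (C_25 L72478 N_25))) (by decide +kernel)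
theorem L72486 : W_25 (nat_lit 2) (nat_lit 0x38005a001c000e0000000000000000000000000000000) (nat_lit 0x0) (nat_lit 0x200300000000000000000000000000000000) := D_25 (nat_lit 128) (nat_lit 141) (nat_lit 129) (nat_lit 2) (nat_lit 5) (nat_lit 8) (nat_lit 1) (nat_lit 10) (nat_lit 7) (by decide +kernel)
theorem L72487 : W_25 (nat_lit 3) (nat_lit 0x38005a0018000e0000000000000000000000000000000) (nat_lit 0x0) (nat_lit 0x1000000000000600300000000000000000000000000000000) := T_25 (nat_lit 142) (nat_lit 192) (nat_lit 5) (nat_lit 6) (nat_lit 7) L72486 (by decide +kernel)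
theorem L72488 : W_25 (nat_lit 4) (nat_lit 0x38005a0018000c0000000000000000000000000000000) (nat_lit 0x0) (nat_lit 0x1000000000000600320001000000000000000000000000000) := T_25 (nat_lit 125) (nat_lit 108) (nat_lit 4) (nat_lit 7) (nat_lit 10) L72487 (by decide +kernel)
theorem L72489 : W_25 (nat_lit 5) (nat_lit 0x38005a001800080000000000000000000000000000000) (nat_lit 0x0) (nat_lit 0x1000000000000600360003000000000000000000000000000) := T_25 (nat_lit 126) (nat_lit 109) (nat_lit 5) (nat_lit 7) (nat_lit 6) L72488 (by decide +kernel)
theorem L72490 : W_25 (nat_lit 6) (nat_lit 0x38001a001800080000000000000000000000000000000) (nat_lit 0x0) (nat_lit 0x1000000060000600360003000000000000000000000000000) := T_25 (nat_lit 162) (nat_lit 161) (nat_lit 1) (nat_lit 9) (nat_lit 9) L72489 (by decide +kernel)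
theorem L72491 : W_25 (nat_lit 7) (nat_lit 0x380018001800080000000000000000000000000000000) (nat_lit 0x0) (nat_lit 0x1000000066000600360003000000000000000000000000000) := T_25 (nat_lit 157) (nat_lit 158) (nat_lit 2) (nat_lit 4) (nat_lit 9) L72490 (by decide +kernel)
theorem L72492 : W_25 (nat_lit 8) (nat_lit 0x380018001000080000000000000000000000000000000) (nat_lit 0x0) (nat_lit 0x40003000000066000e00370003000000000000000000000000000) := Q_25 (nat_lit 143) (C_25 L72462 (C_25 L72485 (C_25 L72491 N_25))) (by decide +kernel)
theorem L72493 : W_25 (nat_lit 2) (nat_lit 0x3c001a001800080000000000000000000000000000000) (nat_lit 0x0) (nat_lit 0x2000000000000000040002000000000000000000000000000) := D_25 (nat_lit 126) (nat_lit 109) (nat_lit 193) (nat_lit 5) (nat_lit 7) (nat_lit 6) (nat_lit 5) (nat_lit 7) (nat_lit 7) (by decide +kernel)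
theorem L72494 : W_25 (nat_lit 3) (nat_lit 0x3c001a001000080000000000000000000000000000000) (nat_lit 0x0) (nat_lit 0x2000000004000800040002000000000000000000000000000) := T_25 (nat_lit 143) (nat_lit 158) (nat_lit 2) (nat_lit 4) (nat_lit 9) L72493 (by decide +kernel)
theorem L72495 : W_25 (nat_lit 4) (nat_lit 0x3c0018001000080000000000000000000000000000000) (nat_lit 0x0) (nat_lit 0x2000000007000800040002000000000000000000000000000) := T_25 (nat_lit 157) (nat_lit 156) (nat_lit 0) (nat_lit 7) (nat_lit 10) L72494 (by decide +kernel)
theorem L72496 : W_25 (nat_lit 5) (nat_lit 0x380018001000080000000000000000000000000000000) (nat_lit 0x0) (nat_lit 0x2000060007000800040002000000000000000000000000000) := T_25 (nat_lit 174) (nat_lit 173) (nat_lit 2) (nat_lit 3) (nat_lit 10) L72495 (by decide +kernel)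
theorem L72497 : W_25 (nat_lit 9) (nat_lit 0x380008001000080000000000000000000000000000000) (nat_lit 0x0) (nat_lit 0x40003000060077000e00370003000000000000000000000000000) := Q_25 (nat_lit 160) (C_25 L72461 (C_25 L72492 (C_25 L72496 N_25))) (by decide +kernel)
theorem L72498 : W_25 (nat_lit 11) (nat_lit 0x380000001000080000000000000000000000000000000) (nat_lit 0x0) (nat_lit 0x38001c000e000370007007f800f8037c003c00140000000000000000000000) := Q_25 (nat_lit 159) (C_25 L72350 (C_25 L72394 (C_25 L72420 (C_25 L72460 (C_25 L72479 (C_25 L72497 N_25)))))) (by decide +kernel)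
theorem L72499 : W_25 (nat_lit 2) (nat_lit 0x2003f001680160009c000000000000000000000000000000) (nat_lit 0x0) (nat_lit 0x1000000000000100000000200000000000000000000000000) := D_25 (nat_lit 140) (nat_lit 192) (nat_lit 105) (nat_lit 7) (nat_lit 4) (nat_lit 7) (nat_lit 4) (nat_lit 4) (nat_lit 10) (by decide +kernel)
theorem L72500 : W_25 (nat_lit 3) (nat_lit 0x2003f0016801600098000000000000000000000000000000) (nat_lit 0x0) (nat_lit 0x1000000000000100006000200000000000000000000000000) := T_25 (nat_lit 122) (nat_lit 121) (nat_lit 3) (nat_lit 2) (nat_lit 7) L72499 (by decide +kernel)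
theorem L72501 : W_25 (nat_lit 4) (nat_lit 0x2003f0016801600090000000000000000000000000000000) (nat_lit 0x0) (nat_lit 0x100000000000010000e000600000000000000000000000000) := T_25 (nat_lit 123) (nat_lit 106) (nat_lit 4) (nat_lit 5) (nat_lit 10) L72500 (by decide +kernel)
theorem L72502 : W_25 (nat_lit 5) (nat_lit 0x2003f0016801600080000000000000000000000000000000) (nat_lit 0x0) (nat_lit 0x100000000000010001e000e00000000000000000000000000) := T_25 (nat_lit 124) (nat_lit 107) (nat_lit 5) (nat_lit 5) (nat_lit 6) L72501 (by decide +kernel)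
theorem L72503 : W_25 (nat_lit 6) (nat_lit 0x2003f0016801200080000000000000000000000000000000) (nat_lit 0x0) (nat_lit 0x1000000000000d0001e000e00000000000000000000000000) := T_25 (nat_lit 142) (nat_lit 143) (nat_lit 1) (nat_lit 8) (nat_lit 8) L72502 (by decide +kernel)
theorem L72504 : W_25 (nat_lit 7) (nat_lit 0x2003f0014801200080000000000000000000000000000000) (nat_lit 0x0) (nat_lit 0x1000008002000d0001e000e00000000000000000000000000) := T_25 (nat_lit 157) (nat_lit 171) (nat_lit 2) (nat_lit 1) (nat_lit 10) L72503 (by decide +kernel)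
theorem L72505 : W_25 (nat_lit 8) (nat_lit 0x2003f0014001200080000000000000000000000000000000) (nat_lit 0x0) (nat_lit 0x1000008002c00d0001e000e00000000000000000000000000) := T_25 (nat_lit 155) (nat_lit 154) (nat_lit 0) (nat_lit 5) (nat_lit 10) L72504 (by decide +kernel)
theorem L72506 : W_25 (nat_lit 9) (nat_lit 0x2003e0014001200080000000000000000000000000000000) (nat_lit 0x0) (nat_lit 0x1100018002c00d0001e000e00000000000000000000000000) := T_25 (nat_lit 172) (nat_lit 188) (nat_lit 1) (nat_lit 5) (nat_lit 10) L72505 (by decide +kernel)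
theorem L72507 : W_25 (nat_lit 10) (nat_lit 0x3e0014001200080000000000000000000000000000000) (nat_lit 0x0) (nat_lit 0x1700018002c00d0001e000e00000000000000000000000000) := T_25 (nat_lit 189) (nat_lit 190) (nat_lit 1) (nat_lit 6) (nat_lit 10) L72506 (by decide +kernel)
theorem L72508 : W_25 (nat_lit 11) (nat_lit 0x3c0014001200080000000000000000000000000000000) (nat_lit 0x0) (nat_lit 0x170003800ac00d0001e000e00000000000000000000000000) := T_25 (nat_lit 173) (nat_lit 159) (nat_lit 2) (nat_lit 3) (nat_lit 10) L72507 (by decide +kernel)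
theorem L72509 : W_25 (nat_lit 12) (nat_lit 0x3c0004001200080000000000000000000000000000000) (nat_lit 0x0) (nat_lit 0x170003803ac00d0001e000e00000000000000000000000000) := T_25 (nat_lit 160) (nat_lit 161) (nat_lit 2) (nat_lit 4) (nat_lit 10) L72508 (by decide +kernel)
theorem L72510 : W_25 (nat_lit 4) (nat_lit 0x3c0004001200080000000000000000000000000000000) (nat_lit 0x0) (nat_lit 0xe00020038000000000000000000000000000000000000000) := T_25 (nat_lit 160) (nat_lit 161) (nat_lit 2) (nat_lit 4) (nat_lit 10) L62859 (by decide +kernel)
theorem L72511 : W_25 (nat_lit 2) (nat_lit 0x3c0004001200090000000000000000000000000000000) (nat_lit 0x0) (nat_lit 0xa000000000000800000000000000000000000000) := D_25 (nat_lit 107) (nat_lit 157) (nat_lit 159) (nat_lit 5) (nat_lit 5) (nat_lit 6) (nat_lit 7) (nat_lit 5) (nat_lit 6) (by decide +kernel)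
theorem L72512 : W_25 (nat_lit 3) (nat_lit 0x3c0004001200080000000000000000000000000000000) (nat_lit 0x0) (nat_lit 0x80000000a000000010000800000000000000000000000000) := T_25 (nat_lit 124) (nat_lit 191) (nat_lit 5) (nat_lit 5) (nat_lit 7) L72511 (by decide +kernel)
theorem L72513 : W_25 (nat_lit 13) (nat_lit 0x380004001200080000000000000000000000000000000) (nat_lit 0x0) (nat_lit 0x1f0007803ac00d0001e000e00000000000000000000000000) := Q_25 (nat_lit 174) (C_25 L71905 (C_25 L72509 (C_25 L72510 (C_25 L72512 N_25)))) (by decide +kernel)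
theorem L72514 : W_25 (nat_lit 14) (nat_lit 0x380000001200080000000000000000000000000000000) (nat_lit 0x0) (nat_lit 0x18000c00070003f0007803ec00d0001e000e00020000000000000000000000) := Q_25 (nat_lit 158) (C_25 L72153 (C_25 L39078 (C_25 L38710 (C_25 L72513 N_25)))) (by decide +kernel)
theorem L72515 : W_25 (nat_lit 2) (nat_lit 0x380020001e00090000000000000000000000000000000) (nat_lit 0x0) (nat_lit 0x40010000100000000000000000000000000000000000) := D_25 (nat_lit 160) (nat_lit 140) (nat_lit 174) (nat_lit 3) (nat_lit 4) (nat_lit 8) (nat_lit 2) (nat_lit 4) (nat_lit 10) (by decide +kernel)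
theorem L72516 : W_25 (nat_lit 3) (nat_lit 0x380000001e00090000000000000000000000000000000) (nat_lit 0x0) (nat_lit 0x40070000100000000000000000000000000000000000) := T_25 (nat_lit 161) (nat_lit 162) (nat_lit 3) (nat_lit 5) (nat_lit 8) L72515 (by decide +kernel)
theorem L72517 : W_25 (nat_lit 4) (nat_lit 0x380000001e00080000000000000000000000000000000) (nat_lit 0x0) (nat_lit 0x40070000100018000000000000000000000000000000) := T_25 (nat_lit 124) (nat_lit 123) (nat_lit 0) (nat_lit 8) (nat_lit 8) L72516 (by decide +kernel)
theorem L72518 : W_25 (nat_lit 5) (nat_lit 0x380000001600080000000000000000000000000000000) (nat_lit 0x0) (nat_lit 0x40070000900118000000000000000000000000000000) := T_25 (nat_lit 143) (nat_lit 128) (nat_lit 2) (nat_lit 5) (nat_lit 8) L72517 (by decide +kernel)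
theorem L72519 : W_25 (nat_lit 9) (nat_lit 0x380000001200080000000000000000000000000000000) (nat_lit 0x0) (nat_lit 0x20001c000e0003c00040078000d8017c002800040000000000000000000000) := Q_25 (nat_lit 142) (C_25 L72200 (C_25 L72166 (C_25 L72518 (C_25 L72187 (C_25 L72197 N_25))))) (by decide +kernel)
theorem L72520 : W_25 (nat_lit 4) (nat_lit 0x380000001200090000000000000000000000000000000) (nat_lit 0x0) (nat_lit 0x2000000008000c00128000800040000000000000000000000) := Q_25 (nat_lit 142) (C_25 L72213 (C_25 L72211 N_25)) (by decide +kernel)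
theorem L72521 : W_25 (nat_lit 6) (nat_lit 0x380000001200080000000000000000000000000000000) (nat_lit 0x0) (nat_lit 0x200000000c000d00178001c000e0000000000000000000000) := Q_25 (nat_lit 124) (C_25 L72209 (C_25 L72215 (C_25 L72210 (C_25 L72520 (C_25 L72208 N_25))))) (by decide +kernel)
theorem L72522 : W_25 (nat_lit 9) (nat_lit 0x380000001200080000000000000000000000000000000) (nat_lit 0x0) (nat_lit 0x1c000e00070003e0000007e000d00168000000000000000000000000000000) := Q_25 (nat_lit 192) (C_25 L72242 (C_25 L72217 (C_25 L72245 (C_25 L72218 (C_25 L72243 N_25))))) (by decide +kernel)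
theorem L72523 : W_25 (nat_lit 15) (nat_lit 0x380000001000080000000000000000000000000000000) (nat_lit 0x0) (nat_lit 0x3c001e000f0003f0007807ec00f8017e003e001e000c000000000000000000) := Q_25 (nat_lit 141) (C_25 L71948 (C_25 L72273 (C_25 L72514 (C_25 L72158 (C_25 L72165 (C_25 L72519 (C_25 L72203 (C_25 L72521 (C_25 L72522 (C_25 L72267 N_25)))))))))) (by decide +kernel)
theorem L72524 : W_25 (nat_lit 2) (nat_lit 0x100008003c0014001000080000000000000000000000000000000) (nat_lit 0x0) (nat_lit 0x1000000002000200000000000000000000000000000000000) := D_25 (nat_lit 141) (nat_lit 157) (nat_lit 192) (nat_lit 6) (nat_lit 4) (nat_lit 12) (nat_lit 5) (nat_lit 5) (nat_lit 8) (by decide +kernel)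
theorem L72525 : W_25 (nat_lit 3) (nat_lit 0x8003c0014001000080000000000000000000000000000000) (nat_lit 0x0) (nat_lit 0x200010001000000002000200000000000000000000000000000000000) := T_25 (nat_lit 208) (nat_lit 225) (nat_lit 6) (nat_lit 4) (nat_lit 13) L72524 (by decide +kernel)
theorem L72526 : W_25 (nat_lit 4) (nat_lit 0x8003c0004001000080000000000000000000000000000000) (nat_lit 0x0) (nat_lit 0x200010001000000032000200000000000000000000000000000000000) := T_25 (nat_lit 160) (nat_lit 161) (nat_lit 2) (nat_lit 4) (nat_lit 10) L72525 (by decide +kernel)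
theorem L72527 : W_25 (nat_lit 5) (nat_lit 0x3c0004001000080000000000000000000000000000000) (nat_lit 0x0) (nat_lit 0x200010001c00000032000200000000000000000000000000000000000) := T_25 (nat_lit 191) (nat_lit 190) (nat_lit 1) (nat_lit 7) (nat_lit 10) L72526 (by decide +kernel)
theorem L72528 : W_25 (nat_lit 2) (nat_lit 0x100008003c0024801f80084000000000000000000000000000000) (nat_lit 0x0) (nat_lit 0x8400040000000000000000000000000000000000) := D_25 (nat_lit 138) (nat_lit 159) (nat_lit 154) (nat_lit 3) (nat_lit 2) (nat_lit 8) (nat_lit 1) (nat_lit 5) (nat_lit 8) (by decide +kernel)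
theorem L72529 : W_25 (nat_lit 3) (nat_lit 0x100008003c0024001f80084000000000000000000000000000000) (nat_lit 0x0) (nat_lit 0x9c00040000000000000000000000000000000000) := T_25 (nat_lit 155) (nat_lit 156) (nat_lit 1) (nat_lit 6) (nat_lit 8) L72528 (by decide +kernel)
theorem L72530 : W_25 (nat_lit 4) (nat_lit 0x100008003c0024001f00084000000000000000000000000000000) (nat_lit 0x0) (nat_lit 0x9c000c0002000000000000000000000000000000) := T_25 (nat_lit 139) (nat_lit 121) (nat_lit 0) (nat_lit 6) (nat_lit 8) L72529 (by decide +kernel)
theorem L72531 : W_25 (nat_lit 5) (nat_lit 0x100008003c0004001f00084000000000000000000000000000000) (nat_lit 0x0) (nat_lit 0x69c000c0002000000000000000000000000000000) := T_25 (nat_lit 161) (nat_lit 162) (nat_lit 3) (nat_lit 5) (nat_lit 8) L72530 (by decide +kernel)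
theorem L72532 : W_25 (nat_lit 6) (nat_lit 0x100008003c0004001f00080000000000000000000000000000000) (nat_lit 0x0) (nat_lit 0x69c000c000e000000000000000000000000000000) := T_25 (nat_lit 122) (nat_lit 123) (nat_lit 0) (nat_lit 7) (nat_lit 8) L72531 (by decide +kernel)
theorem L72533 : W_25 (nat_lit 7) (nat_lit 0x100008003c0004001e00080000000000000000000000000000000) (nat_lit 0x0) (nat_lit 0x69c001c004e000000000000000000000000000000) := T_25 (nat_lit 140) (nat_lit 126) (nat_lit 2) (nat_lit 4) (nat_lit 8) L72532 (by decide +kernel)
theorem L72534 : W_25 (nat_lit 8) (nat_lit 0x100008003c0004001a00080000000000000000000000000000000) (nat_lit 0x0) (nat_lit 0x69c005c014e000000000000000000000000000000) := T_25 (nat_lit 142) (nat_lit 128) (nat_lit 2) (nat_lit 5) (nat_lit 8) L72533 (by decide +kernel)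
theorem L72535 : W_25 (nat_lit 9) (nat_lit 0x100008003c0004001800080000000000000000000000000000000) (nat_lit 0x0) (nat_lit 0x1000000069c007c014e000000000000000000000000000000) := T_25 (nat_lit 141) (nat_lit 192) (nat_lit 5) (nat_lit 5) (nat_lit 8) L72534 (by decide +kernel)
theorem L72536 : W_25 (nat_lit 10) (nat_lit 0x8003c0004001800080000000000000000000000000000000) (nat_lit 0x0) (nat_lit 0x200010001000000069c007c014e000000000000000000000000000000) := T_25 (nat_lit 208) (nat_lit 225) (nat_lit 6) (nat_lit 4) (nat_lit 13) L72535 (by decide +kernel)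
theorem L72537 : W_25 (nat_lit 11) (nat_lit 0x3c0004001800080000000000000000000000000000000) (nat_lit 0x0) (nat_lit 0x200010001c00000069c007c014e000000000000000000000000000000) := T_25 (nat_lit 191) (nat_lit 190) (nat_lit 1) (nat_lit 7) (nat_lit 10) L72536 (by decide +kernel)
theorem L72538 : W_25 (nat_lit 2) (nat_lit 0x100008003c0024001a00080000000000000000000000000000000) (nat_lit 0x0) (nat_lit 0x40000400100000000000000000000000000000000) := D_25 (nat_lit 142) (nat_lit 162) (nat_lit 128) (nat_lit 3) (nat_lit 5) (nat_lit 8) (nat_lit 2) (nat_lit 5) (nat_lit 8) (by decide +kernel)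
theorem L72539 : W_25 (nat_lit 3) (nat_lit 0x100008003c0024001800080000000000000000000000000000000) (nat_lit 0x0) (nat_lit 0x1000000040000600100000000000000000000000000000000) := T_25 (nat_lit 141) (nat_lit 192) (nat_lit 5) (nat_lit 5) (nat_lit 8) L72538 (by decide +kernel)
theorem L72540 : W_25 (nat_lit 4) (nat_lit 0x8003c0024001800080000000000000000000000000000000) (nat_lit 0x0) (nat_lit 0x200010001000000040000600100000000000000000000000000000000) := T_25 (nat_lit 208) (nat_lit 225) (nat_lit 6) (nat_lit 4) (nat_lit 13) L72539 (by decide +kernel)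
theorem L72541 : W_25 (nat_lit 5) (nat_lit 0x8003c0004001800080000000000000000000000000000000) (nat_lit 0x0) (nat_lit 0x200010001000000070000600100000000000000000000000000000000) := T_25 (nat_lit 161) (nat_lit 160) (nat_lit 2) (nat_lit 4) (nat_lit 10) L72540 (by decide +kernel)
theorem L72542 : W_25 (nat_lit 6) (nat_lit 0x3c0004001800080000000000000000000000000000000) (nat_lit 0x0) (nat_lit 0x200010001c00000070000600100000000000000000000000000000000) := T_25 (nat_lit 191) (nat_lit 190) (nat_lit 1) (nat_lit 7) (nat_lit 10) L72541 (by decide +kernel)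
theorem L72543 : W_25 (nat_lit 2) (nat_lit 0x100008003c0004001f80084000000000000000000000000000000) (nat_lit 0x0) (nat_lit 0x18000040000000000000000000000000000000000) := D_25 (nat_lit 159) (nat_lit 138) (nat_lit 160) (nat_lit 3) (nat_lit 2) (nat_lit 8) (nat_lit 3) (nat_lit 3) (nat_lit 8) (by decide +kernel)
theorem L72544 : W_25 (nat_lit 3) (nat_lit 0x100008003c0004001f00084000000000000000000000000000000) (nat_lit 0x0) (nat_lit 0x180000c0002000000000000000000000000000000) := T_25 (nat_lit 139) (nat_lit 121) (nat_lit 0) (nat_lit 6) (nat_lit 8) L72543 (by decide +kernel)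
theorem L72545 : W_25 (nat_lit 4) (nat_lit 0x100008003c0004001f00080000000000000000000000000000000) (nat_lit 0x0) (nat_lit 0x180000c000e000000000000000000000000000000) := T_25 (nat_lit 122) (nat_lit 123) (nat_lit 0) (nat_lit 7) (nat_lit 8) L72544 (by decide +kernel)
theorem L72546 : W_25 (nat_lit 5) (nat_lit 0x100008003c0004001e00080000000000000000000000000000000) (nat_lit 0x0) (nat_lit 0x180001c004e000000000000000000000000000000) := T_25 (nat_lit 140) (nat_lit 126) (nat_lit 2) (nat_lit 4) (nat_lit 8) L72545 (by decide +kernel)
theorem L72547 : W_25 (nat_lit 6) (nat_lit 0x100008003c0004001a00080000000000000000000000000000000) (nat_lit 0x0) (nat_lit 0x180005c014e000000000000000000000000000000) := T_25 (nat_lit 142) (nat_lit 128) (nat_lit 2) (nat_lit 5) (nat_lit 8) L72546 (by decide +kernel)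
theorem L72548 : W_25 (nat_lit 7) (nat_lit 0x100008003c0004001800080000000000000000000000000000000) (nat_lit 0x0) (nat_lit 0x10000000180007c014e000000000000000000000000000000) := T_25 (nat_lit 141) (nat_lit 192) (nat_lit 5) (nat_lit 5) (nat_lit 8) L72547 (by decide +kernel)
theorem L72549 : W_25 (nat_lit 8) (nat_lit 0x8003c0004001800080000000000000000000000000000000) (nat_lit 0x0) (nat_lit 0x2000100010000000180007c014e000000000000000000000000000000) := T_25 (nat_lit 208) (nat_lit 225) (nat_lit 6) (nat_lit 4) (nat_lit 13) L72548 (by decide +kernel)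
theorem L72550 : W_25 (nat_lit 9) (nat_lit 0x3c0004001800080000000000000000000000000000000) (nat_lit 0x0) (nat_lit 0x200010001c000000180007c014e000000000000000000000000000000) := T_25 (nat_lit 191) (nat_lit 190) (nat_lit 1) (nat_lit 7) (nat_lit 10) L72549 (by decide +kernel)
theorem L72551 : W_25 (nat_lit 12) (nat_lit 0x3c0004001000080000000000000000000000000000000) (nat_lit 0x0) (nat_lit 0x200010003c00000079c00fc016e003000080000000000000000000000) := Q_25 (nat_lit 143) (C_25 L72339 (C_25 L72537 (C_25 L72542 (C_25 L72550 N_25)))) (by decide +kernel)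
theorem L72552 : W_25 (nat_lit 13) (nat_lit 0x3c0000001000080000000000000000000000000000000) (nat_lit 0x0) (nat_lit 0x70003e003c0000007fc00fc016e003000080000000000000000000000) := Q_25 (nat_lit 158) (C_25 L72527 (C_25 L72301 (C_25 L72104 (C_25 L72022 (C_25 L72551 N_25))))) (by decide +kernel)
theorem L72553 : W_25 (nat_lit 14) (nat_lit 0x380000001000080000000000000000000000000000000) (nat_lit 0x0) (nat_lit 0x70003e003f8007807fe00fc016e003000080000000000000000000000) := Q_25 (nat_lit 174) (C_25 L13244 (C_25 L71636 (C_25 L13197 (C_25 L71967 (C_25 L72552 (C_25 L71633 N_25)))))) (by decide +kernel)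
theorem L72554 : W_25 (nat_lit 11) (nat_lit 0x380000001000080000000000000000000000000000000) (nat_lit 0x0) (nat_lit 0xa000700038001f0007003f800300018000c00040000000000000000000000) := Q_25 (nat_lit 174) (C_25 L13197 (C_25 L72033 (C_25 L71636 (C_25 L71633 (C_25 L71648 N_25))))) (by decide +kernel)
theorem L72555 : W_25 (nat_lit 2) (nat_lit 0x2003e0000801000080000000000000000000000000000000) (nat_lit 0x0) (nat_lit 0x100010000400000000000000000000000000000000000000) := D_25 (nat_lit 172) (nat_lit 154) (nat_lit 188) (nat_lit 0) (nat_lit 5) (nat_lit 10) (nat_lit 1) (nat_lit 5) (nat_lit 10) (by decide +kernel)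
theorem L72556 : W_25 (nat_lit 3) (nat_lit 0x3e0000801000080000000000000000000000000000000) (nat_lit 0x0) (nat_lit 0x700010000400000000000000000000000000000000000000) := T_25 (nat_lit 189) (nat_lit 190) (nat_lit 1) (nat_lit 6) (nat_lit 10) L72555 (by decide +kernel)
theorem L72557 : W_25 (nat_lit 4) (nat_lit 0x3e0000001000080000000000000000000000000000000) (nat_lit 0x0) (nat_lit 0x700010001c00000000000000000000000000000000000000) := T_25 (nat_lit 155) (nat_lit 156) (nat_lit 0) (nat_lit 6) (nat_lit 10) L72556 (by decide +kernel)
theorem L72558 : W_25 (nat_lit 2) (nat_lit 0x11003f0010801000080000000000000000000000000000000) (nat_lit 0x0) (nat_lit 0x880008000000000000000000000000000000000000000000) := D_25 (nat_lit 171) (nat_lit 191) (nat_lit 187) (nat_lit 3) (nat_lit 1) (nat_lit 10) (nat_lit 1) (nat_lit 4) (nat_lit 10) (by decide +kernel)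
theorem L72559 : W_25 (nat_lit 3) (nat_lit 0x1003f0010801000080000000000000000000000000000000) (nat_lit 0x0) (nat_lit 0x3880008000000000000000000000000000000000000000000) := T_25 (nat_lit 192) (nat_lit 193) (nat_lit 3) (nat_lit 2) (nat_lit 10) L72558 (by decide +kernel)
theorem L72560 : W_25 (nat_lit 4) (nat_lit 0x3f0010801000080000000000000000000000000000000) (nat_lit 0x0) (nat_lit 0x3b80008000000000000000000000000000000000000000000) := T_25 (nat_lit 188) (nat_lit 189) (nat_lit 1) (nat_lit 5) (nat_lit 10) L72559 (by decide +kernel)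
theorem L72561 : W_25 (nat_lit 5) (nat_lit 0x3e0010801000080000000000000000000000000000000) (nat_lit 0x0) (nat_lit 0x3b80018000400000000000000000000000000000000000000) := T_25 (nat_lit 172) (nat_lit 154) (nat_lit 0) (nat_lit 5) (nat_lit 10) L72560 (by decide +kernel)
theorem L72562 : W_25 (nat_lit 6) (nat_lit 0x3e0000801000080000000000000000000000000000000) (nat_lit 0x0) (nat_lit 0x3b80018030400000000000000000000000000000000000000) := T_25 (nat_lit 160) (nat_lit 161) (nat_lit 2) (nat_lit 4) (nat_lit 10) L72561 (by decide +kernel)
theorem L72563 : W_25 (nat_lit 7) (nat_lit 0x3e0000001000080000000000000000000000000000000) (nat_lit 0x0) (nat_lit 0x3b80018031c00000000000000000000000000000000000000) := T_25 (nat_lit 155) (nat_lit 156) (nat_lit 0) (nat_lit 6) (nat_lit 10) L72562 (by decide +kernel)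
theorem L72564 : W_25 (nat_lit 2) (nat_lit 0x8003f0010801000080000000000000000000000000000000) (nat_lit 0x0) (nat_lit 0x3000008000000000000000000000000000000000000000000) := D_25 (nat_lit 192) (nat_lit 171) (nat_lit 193) (nat_lit 3) (nat_lit 1) (nat_lit 10) (nat_lit 3) (nat_lit 2) (nat_lit 10) (by decide +kernel)
theorem L72565 : W_25 (nat_lit 3) (nat_lit 0x8003e0010801000080000000000000000000000000000000) (nat_lit 0x0) (nat_lit 0x3000018000400000000000000000000000000000000000000) := T_25 (nat_lit 172) (nat_lit 154) (nat_lit 0) (nat_lit 5) (nat_lit 10) L72564 (by decide +kernel)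
theorem L72566 : W_25 (nat_lit 4) (nat_lit 0x8003e0010001000080000000000000000000000000000000) (nat_lit 0x0) (nat_lit 0x3000018001c00000000000000000000000000000000000000) := T_25 (nat_lit 155) (nat_lit 156) (nat_lit 0) (nat_lit 6) (nat_lit 10) L72565 (by decide +kernel)
theorem L72567 : W_25 (nat_lit 5) (nat_lit 0x3e0010001000080000000000000000000000000000000) (nat_lit 0x0) (nat_lit 0x3c00018001c00000000000000000000000000000000000000) := T_25 (nat_lit 191) (nat_lit 190) (nat_lit 1) (nat_lit 7) (nat_lit 10) L72566 (by decide +kernel)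
theorem L72568 : W_25 (nat_lit 6) (nat_lit 0x3e0000001000080000000000000000000000000000000) (nat_lit 0x0) (nat_lit 0x3c00018031c00000000000000000000000000000000000000) := T_25 (nat_lit 160) (nat_lit 161) (nat_lit 2) (nat_lit 4) (nat_lit 10) L72567 (by decide +kernel)
theorem L72569 : W_25 (nat_lit 8) (nat_lit 0x3c0000001000080000000000000000000000000000000) (nat_lit 0x0) (nat_lit 0x3f80038031c00000000000000000000000000000000000000) := Q_25 (nat_lit 173) (C_25 L71966 (C_25 L72557 (C_25 L72563 (C_25 L72568 N_25)))) (by decide +kernel)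
theorem L72570 : W_25 (nat_lit 2) (nat_lit 0x1a003f0004801000080000000000000000000000000000000) (nat_lit 0x0) (nat_lit 0x10000000000000000200010000000000000000000000000000000) := D_25 (nat_lit 141) (nat_lit 124) (nat_lit 208) (nat_lit 5) (nat_lit 5) (nat_lit 7) (nat_lit 5) (nat_lit 5) (nat_lit 8) (by decide +kernel)
theorem L72571 : W_25 (nat_lit 3) (nat_lit 0x1a003f0000801000080000000000000000000000000000000) (nat_lit 0x0) (nat_lit 0x1000000000000c000200010000000000000000000000000000000) := T_25 (nat_lit 158) (nat_lit 159) (nat_lit 2) (nat_lit 2) (nat_lit 10) L72570 (by decide +kernel)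
theorem L72572 : W_25 (nat_lit 4) (nat_lit 0x12003f0000801000080000000000000000000000000000000) (nat_lit 0x0) (nat_lit 0x1000080000800c000200010000000000000000000000000000000) := T_25 (nat_lit 191) (nat_lit 171) (nat_lit 3) (nat_lit 1) (nat_lit 10) L72571 (by decide +kernel)
theorem L72573 : W_25 (nat_lit 5) (nat_lit 0x2003f0000801000080000000000000000000000000000000) (nat_lit 0x0) (nat_lit 0x1000380000800c000200010000000000000000000000000000000) := T_25 (nat_lit 192) (nat_lit 193) (nat_lit 3) (nat_lit 2) (nat_lit 10) L72572 (by decide +kernel)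
theorem L72574 : W_25 (nat_lit 6) (nat_lit 0x3f0000801000080000000000000000000000000000000) (nat_lit 0x0) (nat_lit 0x10003b0000800c000200010000000000000000000000000000000) := T_25 (nat_lit 189) (nat_lit 188) (nat_lit 1) (nat_lit 5) (nat_lit 10) L72573 (by decide +kernel)
theorem L72575 : W_25 (nat_lit 7) (nat_lit 0x3e0000801000080000000000000000000000000000000) (nat_lit 0x0) (nat_lit 0x10003b0001800c400200010000000000000000000000000000000) := T_25 (nat_lit 172) (nat_lit 154) (nat_lit 0) (nat_lit 5) (nat_lit 10) L72574 (by decide +kernel)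
theorem L72576 : W_25 (nat_lit 8) (nat_lit 0x3e0000001000080000000000000000000000000000000) (nat_lit 0x0) (nat_lit 0x10003b0001800dc00200010000000000000000000000000000000) := T_25 (nat_lit 155) (nat_lit 156) (nat_lit 0) (nat_lit 6) (nat_lit 10) L72575 (by decide +kernel)
theorem L72577 : W_25 (nat_lit 2) (nat_lit 0x8003f0000801000080000000000000000000000000000000) (nat_lit 0x0) (nat_lit 0x3000008000000000000000000000000000000000000000000) := D_25 (nat_lit 192) (nat_lit 171) (nat_lit 193) (nat_lit 3) (nat_lit 1) (nat_lit 10) (nat_lit 3) (nat_lit 2) (nat_lit 10) (by decide +kernel)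
theorem L72578 : W_25 (nat_lit 3) (nat_lit 0x8003e0000801000080000000000000000000000000000000) (nat_lit 0x0) (nat_lit 0x3000018000400000000000000000000000000000000000000) := T_25 (nat_lit 172) (nat_lit 154) (nat_lit 0) (nat_lit 5) (nat_lit 10) L72577 (by decide +kernel)
theorem L72579 : W_25 (nat_lit 4) (nat_lit 0x3e0000801000080000000000000000000000000000000) (nat_lit 0x0) (nat_lit 0x3c00018000400000000000000000000000000000000000000) := T_25 (nat_lit 191) (nat_lit 190) (nat_lit 1) (nat_lit 7) (nat_lit 10) L72578 (by decide +kernel)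
theorem L72580 : W_25 (nat_lit 5) (nat_lit 0x3e0000001000080000000000000000000000000000000) (nat_lit 0x0) (nat_lit 0x3c00018001c00000000000000000000000000000000000000) := T_25 (nat_lit 155) (nat_lit 156) (nat_lit 0) (nat_lit 6) (nat_lit 10) L72579 (by decide +kernel)
theorem L72581 : W_25 (nat_lit 9) (nat_lit 0x3c0000001000080000000000000000000000000000000) (nat_lit 0x0) (nat_lit 0x10003f0003800dc00200010000000000000000000000000000000) := Q_25 (nat_lit 173) (C_25 L71966 (C_25 L72557 (C_25 L72576 (C_25 L72580 N_25)))) (by decide +kernel)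
theorem L72582 : W_25 (nat_lit 2) (nat_lit 0x2003e0010801000080000000000000000000000000000000) (nat_lit 0x0) (nat_lit 0x100010000400000000000000000000000000000000000000) := D_25 (nat_lit 172) (nat_lit 188) (nat_lit 154) (nat_lit 1) (nat_lit 5) (nat_lit 10) (nat_lit 0) (nat_lit 5) (nat_lit 10) (by decide +kernel)
theorem L72583 : W_25 (nat_lit 3) (nat_lit 0x2003e0010001000080000000000000000000000000000000) (nat_lit 0x0) (nat_lit 0x100010001c00000000000000000000000000000000000000) := T_25 (nat_lit 155) (nat_lit 156) (nat_lit 0) (nat_lit 6) (nat_lit 10) L72582 (by decide +kernel)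
theorem L72584 : W_25 (nat_lit 4) (nat_lit 0x3e0010001000080000000000000000000000000000000) (nat_lit 0x0) (nat_lit 0x700010001c00000000000000000000000000000000000000) := T_25 (nat_lit 189) (nat_lit 190) (nat_lit 1) (nat_lit 6) (nat_lit 10) L72583 (by decide +kernel)
theorem L72585 : W_25 (nat_lit 5) (nat_lit 0x3c0010001000080000000000000000000000000000000) (nat_lit 0x0) (nat_lit 0x700030009c00000000000000000000000000000000000000) := T_25 (nat_lit 173) (nat_lit 159) (nat_lit 2) (nat_lit 3) (nat_lit 10) L72584 (by decide +kernel)
theorem L72586 : W_25 (nat_lit 6) (nat_lit 0x3c0000001000080000000000000000000000000000000) (nat_lit 0x0) (nat_lit 0x700030039c00000000000000000000000000000000000000) := T_25 (nat_lit 160) (nat_lit 161) (nat_lit 2) (nat_lit 4) (nat_lit 10) L72585 (by decide +kernel)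
theorem L72587 : W_25 (nat_lit 3) (nat_lit 0x8003c0000001200080000000000000000000000000000000) (nat_lit 0x0) (nat_lit 0x200010001000000004000000010000000000000000000000000000000) := T_25 (nat_lit 158) (nat_lit 124) (nat_lit 5) (nat_lit 5) (nat_lit 7) L13229 (by decide +kernel)
theorem L72588 : W_25 (nat_lit 4) (nat_lit 0x3c0000001200080000000000000000000000000000000) (nat_lit 0x0) (nat_lit 0x200010001c00000004000000010000000000000000000000000000000) := T_25 (nat_lit 191) (nat_lit 190) (nat_lit 1) (nat_lit 7) (nat_lit 10) L72587 (by decide +kernel)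
theorem L72589 : W_25 (nat_lit 2) (nat_lit 0x20003c0010001a00080000000000000000000000000000000) (nat_lit 0x0) (nat_lit 0x800040000000000008000000000000000000000000000000000000000) := D_25 (nat_lit 210) (nat_lit 227) (nat_lit 159) (nat_lit 6) (nat_lit 6) (nat_lit 13) (nat_lit 6) (nat_lit 6) (nat_lit 12) (by decide +kernel)
theorem L72590 : W_25 (nat_lit 3) (nat_lit 0x20003c0010001200080000000000000000000000000000000) (nat_lit 0x0) (nat_lit 0x800040000000000008000800040000000000000000000000000000000) := T_25 (nat_lit 143) (nat_lit 126) (nat_lit 5) (nat_lit 7) (nat_lit 7) L72589 (by decide +kernel)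
theorem L72591 : W_25 (nat_lit 4) (nat_lit 0x20003c0000001200080000000000000000000000000000000) (nat_lit 0x0) (nat_lit 0x800040000000000038000800040000000000000000000000000000000) := T_25 (nat_lit 160) (nat_lit 161) (nat_lit 2) (nat_lit 4) (nat_lit 10) L72590 (by decide +kernel)
theorem L72592 : W_25 (nat_lit 2) (nat_lit 0x20003c0000001600090000000000000000000000000000000) (nat_lit 0x0) (nat_lit 0x800108000000000000000000000000000000) := D_25 (nat_lit 143) (nat_lit 128) (nat_lit 123) (nat_lit 2) (nat_lit 5) (nat_lit 8) (nat_lit 0) (nat_lit 8) (nat_lit 8) (by decide +kernel)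
theorem L72593 : W_25 (nat_lit 3) (nat_lit 0x20003c0000001200090000000000000000000000000000000) (nat_lit 0x0) (nat_lit 0x8000c00108000000000000000000000000000000) := T_25 (nat_lit 142) (nat_lit 159) (nat_lit 4) (nat_lit 6) (nat_lit 11) L72592 (by decide +kernel)
theorem L72594 : W_25 (nat_lit 4) (nat_lit 0x20003c0000001200080000000000000000000000000000000) (nat_lit 0x0) (nat_lit 0xc000c00118000000000000000000000000000000) := T_25 (nat_lit 124) (nat_lit 158) (nat_lit 7) (nat_lit 5) (nat_lit 7) L72593 (by decide +kernel)
theorem L72595 : W_25 (nat_lit 2) (nat_lit 0x20003c00100012000f0000800000000000000000000000000) (nat_lit 0x0) (nat_lit 0x400100001000000000000000000000000000) := D_25 (nat_lit 128) (nat_lit 142) (nat_lit 108) (nat_lit 1) (nat_lit 9) (nat_lit 7) (nat_lit 0) (nat_lit 9) (nat_lit 7) (by decide +kernel)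
theorem L72596 : W_25 (nat_lit 3) (nat_lit 0x20003c00100012000f0000000000000000000000000000000) (nat_lit 0x0) (nat_lit 0x400100001c00000000000000000000000000) := T_25 (nat_lit 107) (nat_lit 106) (nat_lit 0) (nat_lit 8) (nat_lit 7) L72595 (by decide +kernel)
theorem L72597 : W_25 (nat_lit 4) (nat_lit 0x20003c00100012000d0000000000000000000000000000000) (nat_lit 0x0) (nat_lit 0x500120001c00000000000000000000000000) := T_25 (nat_lit 125) (nat_lit 140) (nat_lit 1) (nat_lit 8) (nat_lit 7) L72596 (by decide +kernel)
theorem L72598 : W_25 (nat_lit 5) (nat_lit 0x20003c0010001200090000000000000000000000000000000) (nat_lit 0x0) (nat_lit 0xd00160001c00000000000000000000000000) := T_25 (nat_lit 126) (nat_lit 143) (nat_lit 5) (nat_lit 7) (nat_lit 7) L72597 (by decide +kernel)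
theorem L72599 : W_25 (nat_lit 6) (nat_lit 0x20003c0000001200090000000000000000000000000000000) (nat_lit 0x0) (nat_lit 0x30000d00160001c00000000000000000000000000) := T_25 (nat_lit 160) (nat_lit 161) (nat_lit 2) (nat_lit 4) (nat_lit 10) L72598 (by decide +kernel)
theorem L72600 : W_25 (nat_lit 7) (nat_lit 0x20003c0000001200080000000000000000000000000000000) (nat_lit 0x0) (nat_lit 0x34000d00170001c00000000000000000000000000) := T_25 (nat_lit 124) (nat_lit 158) (nat_lit 7) (nat_lit 5) (nat_lit 7) L72599 (by decide +kernel)
theorem L72601 : W_25 (nat_lit 2) (nat_lit 0x20003c0014001200080000000000000000000000000000000) (nat_lit 0x0) (nat_lit 0x800040000000000008000000000000000000000000000000000000000) := D_25 (nat_lit 210) (nat_lit 227) (nat_lit 159) (nat_lit 6) (nat_lit 6) (nat_lit 13) (nat_lit 4) (nat_lit 6) (nat_lit 12) (by decide +kernel)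
theorem L72602 : W_25 (nat_lit 3) (nat_lit 0x20003c0010001200080000000000000000000000000000000) (nat_lit 0x0) (nat_lit 0x80004000000000000c000000010000000000000000000000000000000) := T_25 (nat_lit 158) (nat_lit 124) (nat_lit 7) (nat_lit 5) (nat_lit 7) L72601 (by decide +kernel)
theorem L72603 : W_25 (nat_lit 4) (nat_lit 0x20003c0000001200080000000000000000000000000000000) (nat_lit 0x0) (nat_lit 0x80004000000000003c000000010000000000000000000000000000000) := T_25 (nat_lit 160) (nat_lit 161) (nat_lit 2) (nat_lit 4) (nat_lit 10) L72602 (by decide +kernel)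
theorem L72604 : W_25 (nat_lit 8) (nat_lit 0x3c0000001200080000000000000000000000000000000) (nat_lit 0x0) (nat_lit 0x80004000200000003c000d00178001c00000000000000000000000000) := Q_25 (nat_lit 193) (C_25 L72591 (C_25 L72594 (C_25 L72600 (C_25 L72603 N_25)))) (by decide +kernel)
theorem L72605 : W_25 (nat_lit 2) (nat_lit 0x18003c0028001f00088000000000000000000000000000000) (nat_lit 0x0) (nat_lit 0x400020002000000000000000000000000000000000000000000000000) := D_25 (nat_lit 209) (nat_lit 193) (nat_lit 226) (nat_lit 5) (nat_lit 6) (nat_lit 8) (nat_lit 6) (nat_lit 5) (nat_lit 13) (by decide +kernel)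
theorem L72606 : W_25 (nat_lit 3) (nat_lit 0x18003c0020001f00088000000000000000000000000000000) (nat_lit 0x0) (nat_lit 0x400020002000000008000000020000000000000000000000000000000) := T_25 (nat_lit 159) (nat_lit 125) (nat_lit 5) (nat_lit 6) (nat_lit 7) L72605 (by decide +kernel)
theorem L72607 : W_25 (nat_lit 4) (nat_lit 0x10003c0020001f00088000000000000000000000000000000) (nat_lit 0x0) (nat_lit 0x400020002c00000008000000020000000000000000000000000000000) := T_25 (nat_lit 191) (nat_lit 190) (nat_lit 1) (nat_lit 7) (nat_lit 10) L72606 (by decide +kernel)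
theorem L72608 : W_25 (nat_lit 5) (nat_lit 0x3c0020001f00088000000000000000000000000000000) (nat_lit 0x0) (nat_lit 0x400020003c0000000c000000020000000000000000000000000000000) := T_25 (nat_lit 192) (nat_lit 158) (nat_lit 4) (nat_lit 5) (nat_lit 11) L72607 (by decide +kernel)
theorem L72609 : W_25 (nat_lit 6) (nat_lit 0x3c0000001f00088000000000000000000000000000000) (nat_lit 0x0) (nat_lit 0x400020003c0000006c000000020000000000000000000000000000000) := T_25 (nat_lit 161) (nat_lit 162) (nat_lit 3) (nat_lit 5) (nat_lit 8) L72608 (by decide +kernel)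
theorem L72610 : W_25 (nat_lit 7) (nat_lit 0x3c0000001f00080000000000000000000000000000000) (nat_lit 0x0) (nat_lit 0x400020003c0000006c00000002c000000000000000000000000000000) := T_25 (nat_lit 123) (nat_lit 122) (nat_lit 0) (nat_lit 7) (nat_lit 8) L72609 (by decide +kernel)
theorem L72611 : W_25 (nat_lit 8) (nat_lit 0x3c0000001e00080000000000000000000000000000000) (nat_lit 0x0) (nat_lit 0x400020003c0000006c00010006c000000000000000000000000000000) := T_25 (nat_lit 140) (nat_lit 126) (nat_lit 2) (nat_lit 4) (nat_lit 8) L72610 (by decide +kernel)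
theorem L72612 : W_25 (nat_lit 9) (nat_lit 0x3c0000001a00080000000000000000000000000000000) (nat_lit 0x0) (nat_lit 0x400020003c0000006c00050016c000000000000000000000000000000) := T_25 (nat_lit 142) (nat_lit 128) (nat_lit 2) (nat_lit 5) (nat_lit 8) L72611 (by decide +kernel)
theorem L72613 : W_25 (nat_lit 2) (nat_lit 0x8003c0010001a000c0002000000000000000000000000000) (nat_lit 0x0) (nat_lit 0x20001000080000000000000000000000) := D_25 (nat_lit 108) (nat_lit 91) (nat_lit 125) (nat_lit 4) (nat_lit 7) (nat_lit 9) (nat_lit 4) (nat_lit 7) (nat_lit 10) (by decide +kernel)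
theorem L72614 : W_25 (nat_lit 3) (nat_lit 0x8003c0010001a000c0000000000000000000000000000000) (nat_lit 0x0) (nat_lit 0x8000000020003000080000000000000000000000) := T_25 (nat_lit 109) (nat_lit 159) (nat_lit 5) (nat_lit 7) (nat_lit 6) L72613 (by decide +kernel)
theorem L72615 : W_25 (nat_lit 4) (nat_lit 0x8003c0010001a00080000000000000000000000000000000) (nat_lit 0x0) (nat_lit 0x2000000008000000060003000080000000000000000000000) := T_25 (nat_lit 126) (nat_lit 193) (nat_lit 5) (nat_lit 7) (nat_lit 7) L72614 (by decide +kernel)
theorem L72616 : W_25 (nat_lit 5) (nat_lit 0x3c0010001a00080000000000000000000000000000000) (nat_lit 0x0) (nat_lit 0x2c00000008000000060003000080000000000000000000000) := T_25 (nat_lit 191) (nat_lit 190) (nat_lit 1) (nat_lit 7) (nat_lit 10) L72615 (by decide +kernel)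
theorem L72617 : W_25 (nat_lit 6) (nat_lit 0x3c0000001a00080000000000000000000000000000000) (nat_lit 0x0) (nat_lit 0x2c00000038000000060003000080000000000000000000000) := T_25 (nat_lit 160) (nat_lit 161) (nat_lit 2) (nat_lit 4) (nat_lit 10) L72616 (by decide +kernel)
theorem L72618 : W_25 (nat_lit 2) (nat_lit 0x18003c0008001f00088000000000000000000000000000000) (nat_lit 0x0) (nat_lit 0x400020002000000000000000000000000000000000000000000000000) := D_25 (nat_lit 209) (nat_lit 193) (nat_lit 226) (nat_lit 5) (nat_lit 6) (nat_lit 8) (nat_lit 6) (nat_lit 5) (nat_lit 13) (by decide +kernel)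
theorem L72619 : W_25 (nat_lit 3) (nat_lit 0x18003c0000001f00088000000000000000000000000000000) (nat_lit 0x0) (nat_lit 0x400020002000000008000000020000000000000000000000000000000) := T_25 (nat_lit 159) (nat_lit 125) (nat_lit 5) (nat_lit 6) (nat_lit 7) L72618 (by decide +kernel)
theorem L72620 : W_25 (nat_lit 4) (nat_lit 0x8003c0000001f00088000000000000000000000000000000) (nat_lit 0x0) (nat_lit 0x40002000300000000c000000020000000000000000000000000000000) := T_25 (nat_lit 192) (nat_lit 158) (nat_lit 4) (nat_lit 5) (nat_lit 11) L72619 (by decide +kernel)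
theorem L72621 : W_25 (nat_lit 5) (nat_lit 0x3c0000001f00088000000000000000000000000000000) (nat_lit 0x0) (nat_lit 0x400020003c0000000c000000020000000000000000000000000000000) := T_25 (nat_lit 191) (nat_lit 190) (nat_lit 1) (nat_lit 7) (nat_lit 10) L72620 (by decide +kernel)
theorem L72622 : W_25 (nat_lit 6) (nat_lit 0x3c0000001f00080000000000000000000000000000000) (nat_lit 0x0) (nat_lit 0x400020003c0000000c00000002c000000000000000000000000000000) := T_25 (nat_lit 123) (nat_lit 122) (nat_lit 0) (nat_lit 7) (nat_lit 8) L72621 (by decide +kernel)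
theorem L72623 : W_25 (nat_lit 7) (nat_lit 0x3c0000001e00080000000000000000000000000000000) (nat_lit 0x0) (nat_lit 0x400020003c0000000c00010006c000000000000000000000000000000) := T_25 (nat_lit 140) (nat_lit 126) (nat_lit 2) (nat_lit 4) (nat_lit 8) L72622 (by decide +kernel)
theorem L72624 : W_25 (nat_lit 8) (nat_lit 0x3c0000001a00080000000000000000000000000000000) (nat_lit 0x0) (nat_lit 0x400020003c0000000c00050016c000000000000000000000000000000) := T_25 (nat_lit 142) (nat_lit 128) (nat_lit 2) (nat_lit 5) (nat_lit 8) L72623 (by decide +kernel)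
theorem L72625 : W_25 (nat_lit 10) (nat_lit 0x3c0000001200080000000000000000000000000000000) (nat_lit 0x0) (nat_lit 0x400020003c0000007c000d0016c003000080000000000000000000000) := Q_25 (nat_lit 143) (C_25 L71871 (C_25 L72612 (C_25 L71753 (C_25 L72617 (C_25 L72624 N_25))))) (by decide +kernel)
theorem L72626 : W_25 (nat_lit 11) (nat_lit 0x3c0000001000080000000000000000000000000000000) (nat_lit 0x0) (nat_lit 0xe00070003c0000007c000f0017c003c00080000000000000000000000) := Q_25 (nat_lit 141) (C_25 L72588 (C_25 L71759 (C_25 L72604 (C_25 L72625 N_25)))) (by decide +kernel)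
theorem L72627 : W_25 (nat_lit 6) (nat_lit 0x3e0010001000080000000000000000000000000000000) (nat_lit 0x0) (nat_lit 0x3b80018001c00000000000000000000000000000000000000) := T_25 (nat_lit 155) (nat_lit 156) (nat_lit 0) (nat_lit 6) (nat_lit 10) L72561 (by decide +kernel)
theorem L72628 : W_25 (nat_lit 7) (nat_lit 0x3c0010001000080000000000000000000000000000000) (nat_lit 0x0) (nat_lit 0x3b80038009c00000000000000000000000000000000000000) := T_25 (nat_lit 173) (nat_lit 159) (nat_lit 2) (nat_lit 3) (nat_lit 10) L72627 (by decide +kernel)
theorem L72629 : W_25 (nat_lit 8) (nat_lit 0x3c0000001000080000000000000000000000000000000) (nat_lit 0x0) (nat_lit 0x3b80038039c00000000000000000000000000000000000000) := T_25 (nat_lit 160) (nat_lit 161) (nat_lit 2) (nat_lit 4) (nat_lit 10) L72628 (by decide +kernel)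
theorem L72630 : W_25 (nat_lit 12) (nat_lit 0x380000001000080000000000000000000000000000000) (nat_lit 0x0) (nat_lit 0xe00070003f8007807de00f0017c003c00080000000000000000000000) := Q_25 (nat_lit 174) (C_25 L71967 (C_25 L72569 (C_25 L72581 (C_25 L71633 (C_25 L72586 (C_25 L72626 (C_25 L72629 N_25))))))) (by decide +kernel)
theorem L72631 : W_25 (nat_lit 2) (nat_lit 0x10003c0006001600080000000000000000000000000000000) (nat_lit 0x0) (nat_lit 0x20000000000000000100008000000000000000000000000000000) := D_25 (nat_lit 140) (nat_lit 123) (nat_lit 209) (nat_lit 7) (nat_lit 4) (nat_lit 7) (nat_lit 4) (nat_lit 5) (nat_lit 12) (by decide +kernel)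
theorem L72632 : W_25 (nat_lit 3) (nat_lit 0x3c0006001600080000000000000000000000000000000) (nat_lit 0x0) (nat_lit 0x20001000000000000100028000000000000000000000000000000) := T_25 (nat_lit 192) (nat_lit 125) (nat_lit 6) (nat_lit 5) (nat_lit 11) L72631 (by decide +kernel)
theorem L72633 : W_25 (nat_lit 4) (nat_lit 0x3c0006001200080000000000000000000000000000000) (nat_lit 0x0) (nat_lit 0x20001000000000000d00028000000000000000000000000000000) := T_25 (nat_lit 142) (nat_lit 143) (nat_lit 1) (nat_lit 8) (nat_lit 8) L72632 (by decide +kernel)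
theorem L72634 : W_25 (nat_lit 5) (nat_lit 0x3c0004001200080000000000000000000000000000000) (nat_lit 0x0) (nat_lit 0x20001000000003000d00028000000000000000000000000000000) := T_25 (nat_lit 157) (nat_lit 156) (nat_lit 0) (nat_lit 7) (nat_lit 10) L72633 (by decide +kernel)
theorem L72635 : W_25 (nat_lit 6) (nat_lit 0x3c0004001000080000000000000000000000000000000) (nat_lit 0x0) (nat_lit 0x20003000000003000f00038001c00000000000000000000000000) := Q_25 (nat_lit 141) (C_25 L13209 (C_25 L39056 (C_25 L72634 N_25))) (by decide +kernel)
theorem L72636 : W_25 (nat_lit 10) (nat_lit 0x3c0000001000080000000000000000000000000000000) (nat_lit 0x0) (nat_lit 0x700038003c00000007000f8003c001e00000000000000000000000000) := Q_25 (nat_lit 158) (C_25 L13207 (C_25 L72301 (C_25 L72635 (C_25 L13231 N_25)))) (by decide +kernel)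
theorem L72637 : W_25 (nat_lit 2) (nat_lit 0x10003c0012001500080000000000000000000000000000000) (nat_lit 0x0) (nat_lit 0x400020000000000004000000000000000000000000000000000000000) := D_25 (nat_lit 209) (nat_lit 226) (nat_lit 158) (nat_lit 4) (nat_lit 5) (nat_lit 13) (nat_lit 4) (nat_lit 5) (nat_lit 12) (by decide +kernel)
theorem L72638 : W_25 (nat_lit 3) (nat_lit 0x10003c0012001400080000000000000000000000000000000) (nat_lit 0x0) (nat_lit 0x400020000000000004000100008000000000000000000000000000000) := T_25 (nat_lit 140) (nat_lit 123) (nat_lit 7) (nat_lit 4) (nat_lit 7) L72637 (by decide +kernel)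
theorem L72639 : W_25 (nat_lit 4) (nat_lit 0x10003c0002001400080000000000000000000000000000000) (nat_lit 0x0) (nat_lit 0x400020000000000034000100008000000000000000000000000000000) := T_25 (nat_lit 160) (nat_lit 161) (nat_lit 2) (nat_lit 4) (nat_lit 10) L72638 (by decide +kernel)
theorem L72640 : W_25 (nat_lit 5) (nat_lit 0x10003c0000001400080000000000000000000000000000000) (nat_lit 0x0) (nat_lit 0x400020000000000037000100008000000000000000000000000000000) := T_25 (nat_lit 157) (nat_lit 156) (nat_lit 0) (nat_lit 7) (nat_lit 10) L72639 (by decide +kernel)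
theorem L72641 : W_25 (nat_lit 2) (nat_lit 0x10003c00020015000a0000000000000000000000000000000) (nat_lit 0x0) (nat_lit 0x20000000000004000200000000000000000000000000000000000) := D_25 (nat_lit 158) (nat_lit 141) (nat_lit 209) (nat_lit 6) (nat_lit 5) (nat_lit 11) (nat_lit 4) (nat_lit 5) (nat_lit 12) (by decide +kernel)
theorem L72642 : W_25 (nat_lit 3) (nat_lit 0x10003c00020014000a0000000000000000000000000000000) (nat_lit 0x0) (nat_lit 0x20000000000004000300008000000000000000000000000000000) := T_25 (nat_lit 140) (nat_lit 123) (nat_lit 7) (nat_lit 4) (nat_lit 7) L72641 (by decide +kernel)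
theorem L72643 : W_25 (nat_lit 4) (nat_lit 0x10003c0002001400080000000000000000000000000000000) (nat_lit 0x0) (nat_lit 0x2000000000000c000300028000000000000000000000000000000) := T_25 (nat_lit 125) (nat_lit 159) (nat_lit 5) (nat_lit 6) (nat_lit 7) L72642 (by decide +kernel)
theorem L72644 : W_25 (nat_lit 5) (nat_lit 0x10003c0000001400080000000000000000000000000000000) (nat_lit 0x0) (nat_lit 0x2000000000000f000300028000000000000000000000000000000) := T_25 (nat_lit 157) (nat_lit 156) (nat_lit 0) (nat_lit 7) (nat_lit 10) L72643 (by decide +kernel)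
theorem L72645 : W_25 (nat_lit 2) (nat_lit 0x10003c0008001400080000000000000000000000000000000) (nat_lit 0x0) (nat_lit 0x400020002000000000000000000000000000000000000000000000000) := D_25 (nat_lit 209) (nat_lit 193) (nat_lit 226) (nat_lit 5) (nat_lit 6) (nat_lit 8) (nat_lit 6) (nat_lit 5) (nat_lit 13) (by decide +kernel)
theorem L72646 : W_25 (nat_lit 3) (nat_lit 0x10003c0000001400080000000000000000000000000000000) (nat_lit 0x0) (nat_lit 0x400020002000000008000000020000000000000000000000000000000) := T_25 (nat_lit 159) (nat_lit 125) (nat_lit 5) (nat_lit 6) (nat_lit 7) L72645 (by decide +kernel)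
theorem L72647 : W_25 (nat_lit 2) (nat_lit 0x10003c00120017000a0000000000000000000000000000000) (nat_lit 0x0) (nat_lit 0x80140000000000000000000000000000000) := D_25 (nat_lit 126) (nat_lit 128) (nat_lit 139) (nat_lit 1) (nat_lit 9) (nat_lit 7) (nat_lit 2) (nat_lit 3) (nat_lit 8) (by decide +kernel)
theorem L72648 : W_25 (nat_lit 3) (nat_lit 0x10003c00120016000a0000000000000000000000000000000) (nat_lit 0x0) (nat_lit 0x180148000000000000000000000000000000) := T_25 (nat_lit 140) (nat_lit 123) (nat_lit 7) (nat_lit 4) (nat_lit 7) L72647 (by decide +kernel)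
theorem L72649 : W_25 (nat_lit 4) (nat_lit 0x10003c00120014000a0000000000000000000000000000000) (nat_lit 0x0) (nat_lit 0x4000380148000000000000000000000000000000) := T_25 (nat_lit 141) (nat_lit 158) (nat_lit 6) (nat_lit 5) (nat_lit 11) L72648 (by decide +kernel)
theorem L72650 : W_25 (nat_lit 5) (nat_lit 0x10003c00100014000a0000000000000000000000000000000) (nat_lit 0x0) (nat_lit 0x7000380148000000000000000000000000000000) := T_25 (nat_lit 157) (nat_lit 156) (nat_lit 0) (nat_lit 7) (nat_lit 10) L72649 (by decide +kernel)
theorem L72651 : W_25 (nat_lit 6) (nat_lit 0x10003c0010001400080000000000000000000000000000000) (nat_lit 0x0) (nat_lit 0xf000380168000000000000000000000000000000) := T_25 (nat_lit 125) (nat_lit 159) (nat_lit 5) (nat_lit 6) (nat_lit 7) L72650 (by decide +kernel)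
theorem L72652 : W_25 (nat_lit 7) (nat_lit 0x10003c0000001400080000000000000000000000000000000) (nat_lit 0x0) (nat_lit 0x3f000380168000000000000000000000000000000) := T_25 (nat_lit 160) (nat_lit 161) (nat_lit 2) (nat_lit 4) (nat_lit 10) L72651 (by decide +kernel)
theorem L72653 : W_25 (nat_lit 8) (nat_lit 0x3c0000001400080000000000000000000000000000000) (nat_lit 0x0) (nat_lit 0x40002000300000003f000380168000000000000000000000000000000) := Q_25 (nat_lit 192) (C_25 L72640 (C_25 L72644 (C_25 L72646 (C_25 L72652 N_25)))) (by decide +kernel)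
theorem L72654 : W_25 (nat_lit 2) (nat_lit 0x3c0002001e00080000000000000000000000000000000) (nat_lit 0x0) (nat_lit 0x70000000000000000000000000000000000000000) := D_25 (nat_lit 161) (nat_lit 160) (nat_lit 162) (nat_lit 2) (nat_lit 4) (nat_lit 10) (nat_lit 3) (nat_lit 5) (nat_lit 8) (by decide +kernel)
theorem L72655 : W_25 (nat_lit 3) (nat_lit 0x3c0002001c00080000000000000000000000000000000) (nat_lit 0x0) (nat_lit 0x70000200100000000000000000000000000000000) := T_25 (nat_lit 141) (nat_lit 128) (nat_lit 2) (nat_lit 5) (nat_lit 8) L72654 (by decide +kernel)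
theorem L72656 : W_25 (nat_lit 4) (nat_lit 0x3c0000001c00080000000000000000000000000000000) (nat_lit 0x0) (nat_lit 0x73000200100000000000000000000000000000000) := T_25 (nat_lit 157) (nat_lit 156) (nat_lit 0) (nat_lit 7) (nat_lit 10) L72655 (by decide +kernel)
theorem L72657 : W_25 (nat_lit 2) (nat_lit 0x3c0012001c000c0002000000000000000000000000000) (nat_lit 0x0) (nat_lit 0x20001000080000000000000000000000) := D_25 (nat_lit 108) (nat_lit 125) (nat_lit 91) (nat_lit 4) (nat_lit 7) (nat_lit 10) (nat_lit 4) (nat_lit 7) (nat_lit 9) (by decide +kernel)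
theorem L72658 : W_25 (nat_lit 3) (nat_lit 0x3c0012001c000c0000000000000000000000000000000) (nat_lit 0x0) (nat_lit 0x8000000020003000080000000000000000000000) := T_25 (nat_lit 109) (nat_lit 159) (nat_lit 5) (nat_lit 7) (nat_lit 6) L72657 (by decide +kernel)
theorem L72659 : W_25 (nat_lit 4) (nat_lit 0x3c0012001c00080000000000000000000000000000000) (nat_lit 0x0) (nat_lit 0x2000000008000000060003000080000000000000000000000) := T_25 (nat_lit 126) (nat_lit 193) (nat_lit 5) (nat_lit 7) (nat_lit 7) L72658 (by decide +kernel)
theorem L72660 : W_25 (nat_lit 5) (nat_lit 0x3c0010001c00080000000000000000000000000000000) (nat_lit 0x0) (nat_lit 0x200000000b000000060003000080000000000000000000000) := T_25 (nat_lit 157) (nat_lit 156) (nat_lit 0) (nat_lit 7) (nat_lit 10) L72659 (by decide +kernel)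
theorem L72661 : W_25 (nat_lit 6) (nat_lit 0x3c0000001c00080000000000000000000000000000000) (nat_lit 0x0) (nat_lit 0x200000003b000000060003000080000000000000000000000) := T_25 (nat_lit 160) (nat_lit 161) (nat_lit 2) (nat_lit 4) (nat_lit 10) L72660 (by decide +kernel)
theorem L72662 : W_25 (nat_lit 7) (nat_lit 0x3c0000001400080000000000000000000000000000000) (nat_lit 0x0) (nat_lit 0x200000007b000b0017c003000080000000000000000000000) := Q_25 (nat_lit 143) (C_25 L72656 (C_25 L13470 (C_25 L72661 N_25))) (by decide +kernel)
theorem L72663 : W_25 (nat_lit 2) (nat_lit 0x200010003c0002001400080000000000000000000000000000000) (nat_lit 0x0) (nat_lit 0x4000100008000000000000000000000000000000) := D_25 (nat_lit 140) (nat_lit 123) (nat_lit 158) (nat_lit 7) (nat_lit 4) (nat_lit 7) (nat_lit 4) (nat_lit 5) (nat_lit 12) (by decide +kernel)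
theorem L72664 : W_25 (nat_lit 3) (nat_lit 0x10003c0002001400080000000000000000000000000000000) (nat_lit 0x0) (nat_lit 0x400020000000000004000100008000000000000000000000000000000) := T_25 (nat_lit 209) (nat_lit 226) (nat_lit 4) (nat_lit 5) (nat_lit 13) L72663 (by decide +kernel)
theorem L72665 : W_25 (nat_lit 4) (nat_lit 0x10003c0000001400080000000000000000000000000000000) (nat_lit 0x0) (nat_lit 0x400020000000000007000100008000000000000000000000000000000) := T_25 (nat_lit 157) (nat_lit 156) (nat_lit 0) (nat_lit 7) (nat_lit 10) L72664 (by decide +kernel)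
theorem L72666 : W_25 (nat_lit 2) (nat_lit 0x10003c00020016000a8000000000000000000000000000000) (nat_lit 0x0) (nat_lit 0x800110000000000000000000000000000000) := D_25 (nat_lit 143) (nat_lit 128) (nat_lit 124) (nat_lit 2) (nat_lit 5) (nat_lit 8) (nat_lit 0) (nat_lit 8) (nat_lit 8) (by decide +kernel)
theorem L72667 : W_25 (nat_lit 3) (nat_lit 0x10003c00020014000a8000000000000000000000000000000) (nat_lit 0x0) (nat_lit 0x4000a00110000000000000000000000000000000) := T_25 (nat_lit 141) (nat_lit 158) (nat_lit 6) (nat_lit 5) (nat_lit 11) L72666 (by decide +kernel)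
theorem L72668 : W_25 (nat_lit 4) (nat_lit 0x10003c00020014000a0000000000000000000000000000000) (nat_lit 0x0) (nat_lit 0x4000b00118000000000000000000000000000000) := T_25 (nat_lit 123) (nat_lit 140) (nat_lit 7) (nat_lit 4) (nat_lit 7) L72667 (by decide +kernel)
theorem L72669 : W_25 (nat_lit 5) (nat_lit 0x10003c0002001400080000000000000000000000000000000) (nat_lit 0x0) (nat_lit 0xc000b00138000000000000000000000000000000) := T_25 (nat_lit 125) (nat_lit 159) (nat_lit 5) (nat_lit 6) (nat_lit 7) L72668 (by decide +kernel)
theorem L72670 : W_25 (nat_lit 6) (nat_lit 0x10003c0000001400080000000000000000000000000000000) (nat_lit 0x0) (nat_lit 0xf000b00138000000000000000000000000000000) := T_25 (nat_lit 157) (nat_lit 156) (nat_lit 0) (nat_lit 7) (nat_lit 10) L72669 (by decide +kernel)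
theorem L72671 : W_25 (nat_lit 7) (nat_lit 0x3c0000001400080000000000000000000000000000000) (nat_lit 0x0) (nat_lit 0x40002000300000000f000b00138000000000000000000000000000000) := Q_25 (nat_lit 192) (C_25 L72646 (C_25 L72665 (C_25 L72644 (C_25 L72670 N_25)))) (by decide +kernel)
theorem L72672 : W_25 (nat_lit 2) (nat_lit 0x3c001a001c00080000000000000000000000000000000) (nat_lit 0x0) (nat_lit 0x2000000000000000040002000000000000000000000000000) := D_25 (nat_lit 126) (nat_lit 193) (nat_lit 109) (nat_lit 6) (nat_lit 6) (nat_lit 11) (nat_lit 5) (nat_lit 7) (nat_lit 6) (by decide +kernel)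
theorem L72673 : W_25 (nat_lit 3) (nat_lit 0x3c0012001c00080000000000000000000000000000000) (nat_lit 0x0) (nat_lit 0x200000000c000000040002000000000000000000000000000) := T_25 (nat_lit 159) (nat_lit 158) (nat_lit 2) (nat_lit 4) (nat_lit 9) L72672 (by decide +kernel)
theorem L72674 : W_25 (nat_lit 4) (nat_lit 0x3c0002001c00080000000000000000000000000000000) (nat_lit 0x0) (nat_lit 0x200000003c000000040002000000000000000000000000000) := T_25 (nat_lit 160) (nat_lit 161) (nat_lit 2) (nat_lit 4) (nat_lit 10) L72673 (by decide +kernel)
theorem L72675 : W_25 (nat_lit 5) (nat_lit 0x3c0000001c00080000000000000000000000000000000) (nat_lit 0x0) (nat_lit 0x200000003f000000040002000000000000000000000000000) := T_25 (nat_lit 157) (nat_lit 156) (nat_lit 0) (nat_lit 7) (nat_lit 10) L72674 (by decide +kernel)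
theorem L72676 : W_25 (nat_lit 6) (nat_lit 0x3c0000001400080000000000000000000000000000000) (nat_lit 0x0) (nat_lit 0x200000007f000b0015c002000000000000000000000000000) := Q_25 (nat_lit 143) (C_25 L72675 (C_25 L13470 (C_25 L72656 N_25))) (by decide +kernel)
theorem L72677 : W_25 (nat_lit 2) (nat_lit 0x3c0018001400080000000000000000000000000000000) (nat_lit 0x0) (nat_lit 0x1000000000000000020001000000000000000000000000000) := D_25 (nat_lit 125) (nat_lit 108) (nat_lit 192) (nat_lit 7) (nat_lit 6) (nat_lit 6) (nat_lit 5) (nat_lit 6) (nat_lit 7) (by decide +kernel)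
theorem L72678 : W_25 (nat_lit 3) (nat_lit 0x3c0008001400080000000000000000000000000000000) (nat_lit 0x0) (nat_lit 0x1000000030000000020001000000000000000000000000000) := T_25 (nat_lit 160) (nat_lit 161) (nat_lit 2) (nat_lit 4) (nat_lit 10) L72677 (by decide +kernel)
theorem L72679 : W_25 (nat_lit 2) (nat_lit 0x3c00080014000a0001000000000000000000000000000) (nat_lit 0x0) (nat_lit 0x10000800040000000000000000000000) := D_25 (nat_lit 107) (nat_lit 90) (nat_lit 124) (nat_lit 4) (nat_lit 6) (nat_lit 9) (nat_lit 4) (nat_lit 6) (nat_lit 10) (by decide +kernel)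
theorem L72680 : W_25 (nat_lit 3) (nat_lit 0x3c00080014000a0000000000000000000000000000000) (nat_lit 0x0) (nat_lit 0x4000000010001800040000000000000000000000) := T_25 (nat_lit 108) (nat_lit 158) (nat_lit 5) (nat_lit 6) (nat_lit 6) L72679 (by decide +kernel)
theorem L72681 : W_25 (nat_lit 4) (nat_lit 0x3c0008001400080000000000000000000000000000000) (nat_lit 0x0) (nat_lit 0x1000000004000000030001800040000000000000000000000) := T_25 (nat_lit 125) (nat_lit 192) (nat_lit 5) (nat_lit 6) (nat_lit 7) L72680 (by decide +kernel)
theorem L72682 : W_25 (nat_lit 2) (nat_lit 0x200000003c001e001700098000000000000000000000000000000) (nat_lit 0x0) (nat_lit 0x6000200000000000000000000000000) := D_25 (nat_lit 122) (nat_lit 121) (nat_lit 105) (nat_lit 3) (nat_lit 2) (nat_lit 7) (nat_lit 4) (nat_lit 4) (nat_lit 10) (by decide +kernel)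
theorem L72683 : W_25 (nat_lit 3) (nat_lit 0x200000003c001e001500098000000000000000000000000000000) (nat_lit 0x0) (nat_lit 0x2000000000000200006000200000000000000000000000000) := T_25 (nat_lit 141) (nat_lit 193) (nat_lit 7) (nat_lit 5) (nat_lit 7) L72682 (by decide +kernel)
theorem L72684 : W_25 (nat_lit 4) (nat_lit 0x200000003c001e001500088000000000000000000000000000000) (nat_lit 0x0) (nat_lit 0x2000000000000200016000a00000000000000000000000000) := T_25 (nat_lit 124) (nat_lit 107) (nat_lit 6) (nat_lit 4) (nat_lit 10) L72683 (by decide +kernel)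
theorem L72685 : W_25 (nat_lit 5) (nat_lit 0x200000003c001e001500080000000000000000000000000000000) (nat_lit 0x0) (nat_lit 0x200000000000020001e000e00000000000000000000000000) := T_25 (nat_lit 123) (nat_lit 106) (nat_lit 7) (nat_lit 4) (nat_lit 6) L72684 (by decide +kernel)
theorem L72686 : W_25 (nat_lit 6) (nat_lit 0x200000003c001e001400080000000000000000000000000000000) (nat_lit 0x0) (nat_lit 0x200000000000038001e000e00000000000000000000000000) := T_25 (nat_lit 140) (nat_lit 139) (nat_lit 0) (nat_lit 7) (nat_lit 9) L72685 (by decide +kernel)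
theorem L72687 : W_25 (nat_lit 7) (nat_lit 0x3c001e001400080000000000000000000000000000000) (nat_lit 0x0) (nat_lit 0x2000300000000000038001e000e00000000000000000000000000) := T_25 (nat_lit 209) (nat_lit 192) (nat_lit 6) (nat_lit 5) (nat_lit 12) L72686 (by decide +kernel)
theorem L72688 : W_25 (nat_lit 8) (nat_lit 0x3c001a001400080000000000000000000000000000000) (nat_lit 0x0) (nat_lit 0x20003000000004000b8001e000e00000000000000000000000000) := T_25 (nat_lit 158) (nat_lit 143) (nat_lit 2) (nat_lit 4) (nat_lit 9) L72687 (by decide +kernel)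
theorem L72689 : W_25 (nat_lit 9) (nat_lit 0x3c0018001400080000000000000000000000000000000) (nat_lit 0x0) (nat_lit 0x20003000000007000b8001e000e00000000000000000000000000) := T_25 (nat_lit 157) (nat_lit 156) (nat_lit 0) (nat_lit 7) (nat_lit 10) L72688 (by decide +kernel)
theorem L72690 : W_25 (nat_lit 10) (nat_lit 0x3c0008001400080000000000000000000000000000000) (nat_lit 0x0) (nat_lit 0x20003000000037000b8001e000e00000000000000000000000000) := T_25 (nat_lit 160) (nat_lit 161) (nat_lit 2) (nat_lit 4) (nat_lit 10) L72689 (by decide +kernel)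
theorem L72691 : W_25 (nat_lit 2) (nat_lit 0x3c001e001700098001000000000000000000000000000) (nat_lit 0x0) (nat_lit 0x6000200000000000000000000000000) := D_25 (nat_lit 122) (nat_lit 121) (nat_lit 105) (nat_lit 3) (nat_lit 2) (nat_lit 7) (nat_lit 4) (nat_lit 4) (nat_lit 10) (by decide +kernel)
theorem L72692 : W_25 (nat_lit 3) (nat_lit 0x3c001e001500098001000000000000000000000000000) (nat_lit 0x0) (nat_lit 0x2000000000000200006000200000000000000000000000000) := T_25 (nat_lit 141) (nat_lit 193) (nat_lit 7) (nat_lit 5) (nat_lit 7) L72691 (by decide +kernel)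
theorem L72693 : W_25 (nat_lit 4) (nat_lit 0x3c001e001500088001000000000000000000000000000) (nat_lit 0x0) (nat_lit 0x2000000000000200016000a00000000000000000000000000) := T_25 (nat_lit 124) (nat_lit 107) (nat_lit 6) (nat_lit 4) (nat_lit 10) L72692 (by decide +kernel)
theorem L72694 : W_25 (nat_lit 5) (nat_lit 0x3c001e001500080001000000000000000000000000000) (nat_lit 0x0) (nat_lit 0x200000000000020001e000e00000000000000000000000000) := T_25 (nat_lit 123) (nat_lit 106) (nat_lit 7) (nat_lit 4) (nat_lit 6) L72693 (by decide +kernel)
theorem L72695 : W_25 (nat_lit 6) (nat_lit 0x3c001e001400080001000000000000000000000000000) (nat_lit 0x0) (nat_lit 0x200000000000038001e000e00000000000000000000000000) := T_25 (nat_lit 140) (nat_lit 139) (nat_lit 0) (nat_lit 7) (nat_lit 9) L72694 (by decide +kernel)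
theorem L72696 : W_25 (nat_lit 7) (nat_lit 0x3c001e001400080000000000000000000000000000000) (nat_lit 0x0) (nat_lit 0x200000000000038003e001e00000000000000000000000000) := T_25 (nat_lit 108) (nat_lit 125) (nat_lit 7) (nat_lit 6) (nat_lit 6) L72695 (by decide +kernel)
theorem L72697 : W_25 (nat_lit 8) (nat_lit 0x3c001a001400080000000000000000000000000000000) (nat_lit 0x0) (nat_lit 0x2000000004000b8003e001e00000000000000000000000000) := T_25 (nat_lit 158) (nat_lit 143) (nat_lit 2) (nat_lit 4) (nat_lit 9) L72696 (by decide +kernel)
theorem L72698 : W_25 (nat_lit 9) (nat_lit 0x3c000a001400080000000000000000000000000000000) (nat_lit 0x0) (nat_lit 0x2000000034000b8003e001e00000000000000000000000000) := T_25 (nat_lit 160) (nat_lit 161) (nat_lit 2) (nat_lit 4) (nat_lit 10) L72697 (by decide +kernel)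
theorem L72699 : W_25 (nat_lit 10) (nat_lit 0x3c0008001400080000000000000000000000000000000) (nat_lit 0x0) (nat_lit 0x2000000037000b8003e001e00000000000000000000000000) := T_25 (nat_lit 157) (nat_lit 156) (nat_lit 0) (nat_lit 7) (nat_lit 10) L72698 (by decide +kernel)
theorem L72700 : W_25 (nat_lit 11) (nat_lit 0x3c0000001400080000000000000000000000000000000) (nat_lit 0x0) (nat_lit 0x2000300000003f000b8003e001e00040000000000000000000000) := Q_25 (nat_lit 159) (C_25 L72678 (C_25 L72681 (C_25 L72690 (C_25 L72699 N_25)))) (by decide +kernel)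
theorem L72701 : W_25 (nat_lit 2) (nat_lit 0x3c0012001d000e8000400000000000000000000000000) (nat_lit 0x0) (nat_lit 0x4000200010000000000000000000000) := D_25 (nat_lit 105) (nat_lit 122) (nat_lit 88) (nat_lit 4) (nat_lit 4) (nat_lit 10) (nat_lit 4) (nat_lit 4) (nat_lit 9) (by decide +kernel)
theorem L72702 : W_25 (nat_lit 3) (nat_lit 0x3c0012001d000e8000000000000000000000000000000) (nat_lit 0x0) (nat_lit 0x4000000004000600010000000000000000000000) := T_25 (nat_lit 106) (nat_lit 158) (nat_lit 7) (nat_lit 4) (nat_lit 6) L72701 (by decide +kernel)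
theorem L72703 : W_25 (nat_lit 4) (nat_lit 0x3c0012001c000e8000000000000000000000000000000) (nat_lit 0x0) (nat_lit 0x1000000004000100004000600010000000000000000000000) := T_25 (nat_lit 140) (nat_lit 192) (nat_lit 7) (nat_lit 4) (nat_lit 7) L72702 (by decide +kernel)
theorem L72704 : W_25 (nat_lit 5) (nat_lit 0x3c0012001c000e0000000000000000000000000000000) (nat_lit 0x0) (nat_lit 0x100000000400010001c000600010000000000000000000000) := T_25 (nat_lit 123) (nat_lit 124) (nat_lit 3) (nat_lit 4) (nat_lit 7) L72703 (by decide +kernel)
theorem L72705 : W_25 (nat_lit 6) (nat_lit 0x3c0012001c000c0000000000000000000000000000000) (nat_lit 0x0) (nat_lit 0x100000000400010003c001600010000000000000000000000) := T_25 (nat_lit 125) (nat_lit 108) (nat_lit 4) (nat_lit 7) (nat_lit 10) L72704 (by decide +kernel)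
theorem L72706 : W_25 (nat_lit 7) (nat_lit 0x3c0012001c00080000000000000000000000000000000) (nat_lit 0x0) (nat_lit 0x300000000400010007c001600010000000000000000000000) := T_25 (nat_lit 126) (nat_lit 193) (nat_lit 5) (nat_lit 7) (nat_lit 7) L72705 (by decide +kernel)
theorem L72707 : W_25 (nat_lit 8) (nat_lit 0x3c0010001c00080000000000000000000000000000000) (nat_lit 0x0) (nat_lit 0x300000000700010007c001600010000000000000000000000) := T_25 (nat_lit 157) (nat_lit 156) (nat_lit 0) (nat_lit 7) (nat_lit 10) L72706 (by decide +kernel)
theorem L72708 : W_25 (nat_lit 9) (nat_lit 0x3c0000001c00080000000000000000000000000000000) (nat_lit 0x0) (nat_lit 0x300000003700010007c001600010000000000000000000000) := T_25 (nat_lit 160) (nat_lit 161) (nat_lit 2) (nat_lit 4) (nat_lit 10) L72707 (by decide +kernel)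
theorem L72709 : W_25 (nat_lit 10) (nat_lit 0x3c0000001400080000000000000000000000000000000) (nat_lit 0x0) (nat_lit 0x3000000077000b0017c001600010000000000000000000000) := Q_25 (nat_lit 143) (C_25 L72708 (C_25 L13470 (C_25 L72656 N_25))) (by decide +kernel)
theorem L72710 : W_25 (nat_lit 2) (nat_lit 0x3c001e001500080000000000000000000000000000000) (nat_lit 0x0) (nat_lit 0x20001000000000000000008000000000000000000000000000000) := D_25 (nat_lit 192) (nat_lit 209) (nat_lit 123) (nat_lit 6) (nat_lit 5) (nat_lit 12) (nat_lit 7) (nat_lit 4) (nat_lit 7) (by decide +kernel)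
theorem L72711 : W_25 (nat_lit 3) (nat_lit 0x3c001e001400080000000000000000000000000000000) (nat_lit 0x0) (nat_lit 0x20001000000000000180008000000000000000000000000000000) := T_25 (nat_lit 140) (nat_lit 139) (nat_lit 0) (nat_lit 7) (nat_lit 9) L72710 (by decide +kernel)
theorem L72712 : W_25 (nat_lit 4) (nat_lit 0x3c001a001400080000000000000000000000000000000) (nat_lit 0x0) (nat_lit 0x20001000000004000980008000000000000000000000000000000) := T_25 (nat_lit 158) (nat_lit 143) (nat_lit 2) (nat_lit 4) (nat_lit 9) L72711 (by decide +kernel)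
theorem L72713 : W_25 (nat_lit 5) (nat_lit 0x3c0018001400080000000000000000000000000000000) (nat_lit 0x0) (nat_lit 0x20001000000007000980008000000000000000000000000000000) := T_25 (nat_lit 157) (nat_lit 156) (nat_lit 0) (nat_lit 7) (nat_lit 10) L72712 (by decide +kernel)
theorem L72714 : W_25 (nat_lit 6) (nat_lit 0x3c0008001400080000000000000000000000000000000) (nat_lit 0x0) (nat_lit 0x20001000000037000980008000000000000000000000000000000) := T_25 (nat_lit 160) (nat_lit 161) (nat_lit 2) (nat_lit 4) (nat_lit 10) L72713 (by decide +kernel)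
theorem L72715 : W_25 (nat_lit 3) (nat_lit 0x3c001a001400080000000000000000000000000000000) (nat_lit 0x0) (nat_lit 0x2000000004000800040002000000000000000000000000000) := T_25 (nat_lit 143) (nat_lit 158) (nat_lit 2) (nat_lit 4) (nat_lit 9) L72672 (by decide +kernel)
theorem L72716 : W_25 (nat_lit 4) (nat_lit 0x3c000a001400080000000000000000000000000000000) (nat_lit 0x0) (nat_lit 0x2000000034000800040002000000000000000000000000000) := T_25 (nat_lit 160) (nat_lit 161) (nat_lit 2) (nat_lit 4) (nat_lit 10) L72715 (by decide +kernel)
theorem L72717 : W_25 (nat_lit 5) (nat_lit 0x3c0008001400080000000000000000000000000000000) (nat_lit 0x0) (nat_lit 0x2000000037000800040002000000000000000000000000000) := T_25 (nat_lit 157) (nat_lit 156) (nat_lit 0) (nat_lit 7) (nat_lit 10) L72716 (by decide +kernel)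
theorem L72718 : W_25 (nat_lit 7) (nat_lit 0x3c0000001400080000000000000000000000000000000) (nat_lit 0x0) (nat_lit 0x2000300000003f000980078003800040000000000000000000000) := Q_25 (nat_lit 159) (C_25 L72681 (C_25 L72714 (C_25 L72678 (C_25 L72717 N_25)))) (by decide +kernel)
theorem L72719 : W_25 (nat_lit 6) (nat_lit 0x3c0000001400080000000000000000000000000000000) (nat_lit 0x0) (nat_lit 0x300000003f000800070003800040000000000000000000000) := Q_25 (nat_lit 159) (C_25 L72681 (C_25 L72717 (C_25 L72678 N_25))) (by decide +kernel)
theorem L72720 : W_25 (nat_lit 2) (nat_lit 0x3c0010001c000c0002000000000000000000000000000) (nat_lit 0x0) (nat_lit 0x20001000080000000000000000000000) := D_25 (nat_lit 108) (nat_lit 125) (nat_lit 91) (nat_lit 4) (nat_lit 7) (nat_lit 10) (nat_lit 4) (nat_lit 7) (nat_lit 9) (by decide +kernel)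
theorem L72721 : W_25 (nat_lit 3) (nat_lit 0x3c0010001c000c0000000000000000000000000000000) (nat_lit 0x0) (nat_lit 0x8000000020003000080000000000000000000000) := T_25 (nat_lit 109) (nat_lit 159) (nat_lit 5) (nat_lit 7) (nat_lit 6) L72720 (by decide +kernel)
theorem L72722 : W_25 (nat_lit 4) (nat_lit 0x3c0010001c00080000000000000000000000000000000) (nat_lit 0x0) (nat_lit 0x2000000008000000060003000080000000000000000000000) := T_25 (nat_lit 126) (nat_lit 193) (nat_lit 5) (nat_lit 7) (nat_lit 7) L72721 (by decide +kernel)
theorem L72723 : W_25 (nat_lit 5) (nat_lit 0x3c0000001c00080000000000000000000000000000000) (nat_lit 0x0) (nat_lit 0x2000000038000000060003000080000000000000000000000) := T_25 (nat_lit 160) (nat_lit 161) (nat_lit 2) (nat_lit 4) (nat_lit 10) L72722 (by decide +kernel)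
theorem L72724 : W_25 (nat_lit 2) (nat_lit 0x3c0000001e00080000000000000000000000000000000) (nat_lit 0x0) (nat_lit 0x70000000000000000000000000000000000000000) := D_25 (nat_lit 161) (nat_lit 160) (nat_lit 162) (nat_lit 2) (nat_lit 4) (nat_lit 10) (nat_lit 3) (nat_lit 5) (nat_lit 8) (by decide +kernel)
theorem L72725 : W_25 (nat_lit 3) (nat_lit 0x3c0000001c00080000000000000000000000000000000) (nat_lit 0x0) (nat_lit 0x70000200100000000000000000000000000000000) := T_25 (nat_lit 141) (nat_lit 128) (nat_lit 2) (nat_lit 5) (nat_lit 8) L72724 (by decide +kernel)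
theorem L72726 : W_25 (nat_lit 6) (nat_lit 0x3c0000001400080000000000000000000000000000000) (nat_lit 0x0) (nat_lit 0x2000000078000b0017c003000080000000000000000000000) := Q_25 (nat_lit 143) (C_25 L72723 (C_25 L13470 (C_25 L72725 N_25))) (by decide +kernel)
theorem L72727 : W_25 (nat_lit 2) (nat_lit 0x3c001e00152009e001080000000000000000000000000) (nat_lit 0x0) (nat_lit 0x10001000040000000000000000000000000) := D_25 (nat_lit 120) (nat_lit 136) (nat_lit 102) (nat_lit 1) (nat_lit 4) (nat_lit 7) (nat_lit 0) (nat_lit 4) (nat_lit 7) (by decide +kernel)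
theorem L72728 : W_25 (nat_lit 3) (nat_lit 0x3c001e00152009e001000000000000000000000000000) (nat_lit 0x0) (nat_lit 0x100010001c0000000000000000000000000) := T_25 (nat_lit 103) (nat_lit 104) (nat_lit 0) (nat_lit 5) (nat_lit 7) L72727 (by decide +kernel)
theorem L72729 : W_25 (nat_lit 4) (nat_lit 0x3c001e00150009e001000000000000000000000000000) (nat_lit 0x0) (nat_lit 0x700010001c0000000000000000000000000) := T_25 (nat_lit 137) (nat_lit 138) (nat_lit 1) (nat_lit 5) (nat_lit 7) L72728 (by decide +kernel)
theorem L72730 : W_25 (nat_lit 5) (nat_lit 0x3c001e00150009c001000000000000000000000000000) (nat_lit 0x0) (nat_lit 0x2700030001c0000000000000000000000000) := T_25 (nat_lit 121) (nat_lit 141) (nat_lit 3) (nat_lit 2) (nat_lit 7) L72729 (by decide +kernel)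
theorem L72731 : W_25 (nat_lit 6) (nat_lit 0x3c001e001500098001000000000000000000000000000) (nat_lit 0x0) (nat_lit 0x2700070003c0000000000000000000000000) := T_25 (nat_lit 122) (nat_lit 105) (nat_lit 4) (nat_lit 4) (nat_lit 10) L72730 (by decide +kernel)
theorem L72732 : W_25 (nat_lit 7) (nat_lit 0x3c001e001500088001000000000000000000000000000) (nat_lit 0x0) (nat_lit 0x270017000bc0000000000000000000000000) := T_25 (nat_lit 124) (nat_lit 107) (nat_lit 6) (nat_lit 4) (nat_lit 10) L72731 (by decide +kernel)
theorem L72733 : W_25 (nat_lit 8) (nat_lit 0x3c001e001500080001000000000000000000000000000) (nat_lit 0x0) (nat_lit 0x27001f000fc0000000000000000000000000) := T_25 (nat_lit 123) (nat_lit 106) (nat_lit 7) (nat_lit 4) (nat_lit 6) L72732 (by decide +kernel)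
theorem L72734 : W_25 (nat_lit 9) (nat_lit 0x3c001e001400080001000000000000000000000000000) (nat_lit 0x0) (nat_lit 0x3f001f000fc0000000000000000000000000) := T_25 (nat_lit 140) (nat_lit 139) (nat_lit 0) (nat_lit 7) (nat_lit 9) L72733 (by decide +kernel)
theorem L72735 : W_25 (nat_lit 10) (nat_lit 0x3c001a001400080001000000000000000000000000000) (nat_lit 0x0) (nat_lit 0x4000bf001f000fc0000000000000000000000000) := T_25 (nat_lit 158) (nat_lit 143) (nat_lit 2) (nat_lit 4) (nat_lit 9) L72734 (by decide +kernel)
theorem L72736 : W_25 (nat_lit 11) (nat_lit 0x3c0018001400080001000000000000000000000000000) (nat_lit 0x0) (nat_lit 0x7000bf001f000fc0000000000000000000000000) := T_25 (nat_lit 157) (nat_lit 156) (nat_lit 0) (nat_lit 7) (nat_lit 10) L72735 (by decide +kernel)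
theorem L72737 : W_25 (nat_lit 12) (nat_lit 0x3c0018001400080000000000000000000000000000000) (nat_lit 0x0) (nat_lit 0x7000bf003f001fc0000000000000000000000000) := T_25 (nat_lit 108) (nat_lit 125) (nat_lit 7) (nat_lit 6) (nat_lit 6) L72736 (by decide +kernel)
theorem L72738 : W_25 (nat_lit 13) (nat_lit 0x3c0008001400080000000000000000000000000000000) (nat_lit 0x0) (nat_lit 0x37000bf003f001fc0000000000000000000000000) := T_25 (nat_lit 160) (nat_lit 161) (nat_lit 2) (nat_lit 4) (nat_lit 10) L72737 (by decide +kernel)
theorem L72739 : W_25 (nat_lit 14) (nat_lit 0x3c0000001400080000000000000000000000000000000) (nat_lit 0x0) (nat_lit 0x2000100000003f000bf003f001fc0040000000000000000000000) := Q_25 (nat_lit 159) (C_25 L72681 (C_25 L72714 (C_25 L72678 (C_25 L72738 N_25)))) (by decide +kernel)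
theorem L72740 : W_25 (nat_lit 15) (nat_lit 0x3c0000001000080000000000000000000000000000000) (nat_lit 0x0) (nat_lit 0x40002000300000007f000ff017f003fc00d0000000000000000000000) := Q_25 (nat_lit 142) (C_25 L72653 (C_25 L72662 (C_25 L72671 (C_25 L72676 (C_25 L72700 (C_25 L72709 (C_25 L72718 (C_25 L72719 (C_25 L72726 (C_25 L72739 N_25)))))))))) (by decide +kernel)
theorem L72741 : W_25 (nat_lit 4) (nat_lit 0x3c0016001800080000000000000000000000000000000) (nat_lit 0x0) (nat_lit 0x800040003000000000000600040000000000000000000000000000000) := T_25 (nat_lit 141) (nat_lit 142) (nat_lit 1) (nat_lit 8) (nat_lit 8) L13221 (by decide +kernel)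
theorem L72742 : W_25 (nat_lit 5) (nat_lit 0x3c0016001000080000000000000000000000000000000) (nat_lit 0x0) (nat_lit 0x800040003000000008000e00040000000000000000000000000000000) := T_25 (nat_lit 143) (nat_lit 159) (nat_lit 2) (nat_lit 4) (nat_lit 9) L72741 (by decide +kernel)
theorem L72743 : W_25 (nat_lit 6) (nat_lit 0x3c0014001000080000000000000000000000000000000) (nat_lit 0x0) (nat_lit 0x80004000300000000b000e00040000000000000000000000000000000) := T_25 (nat_lit 157) (nat_lit 156) (nat_lit 0) (nat_lit 7) (nat_lit 10) L72742 (by decide +kernel)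
theorem L72744 : W_25 (nat_lit 7) (nat_lit 0x3c0004001000080000000000000000000000000000000) (nat_lit 0x0) (nat_lit 0x80004000300000003b000e00040000000000000000000000000000000) := T_25 (nat_lit 160) (nat_lit 161) (nat_lit 2) (nat_lit 4) (nat_lit 10) L72743 (by decide +kernel)
theorem L72745 : W_25 (nat_lit 11) (nat_lit 0x3c0000001000080000000000000000000000000000000) (nat_lit 0x0) (nat_lit 0xf0007e003c0000003f000e00050000000000000000000000000000000) := Q_25 (nat_lit 158) (C_25 L72527 (C_25 L72301 (C_25 L72104 (C_25 L72744 (C_25 L13231 N_25))))) (by decide +kernel)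
theorem L72746 : W_25 (nat_lit 16) (nat_lit 0x380000001000080000000000000000000000000000000) (nat_lit 0x0) (nat_lit 0xa000fc00fe003c0004007fc00ff037f003fc01d0008000000000000000000) := Q_25 (nat_lit 174) (C_25 L71625 (C_25 L72033 (C_25 L72626 (C_25 L72636 (C_25 L72094 (C_25 L72552 (C_25 L72105 (C_25 L72341 (C_25 L72740 (C_25 L72745 N_25)))))))))) (by decide +kernel)
theorem L72747 : W_25 (nat_lit 12) (nat_lit 0x380000001000080000000000000000000000000000000) (nat_lit 0x0) (nat_lit 0xf0007e003f8007803fe00e00050000000000000000000000000000000) := Q_25 (nat_lit 174) (C_25 L72629 (C_25 L72569 (C_25 L72745 (C_25 L72581 (C_25 L72586 (C_25 L71967 N_25)))))) (by decide +kernel)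
theorem L72748 : W_25 (nat_lit 16) (nat_lit 0x380000001000080000000000000000000000000000000) (nat_lit 0x0) (nat_lit 0xf0007e003e0006007f000ff017f003fc00d0000000000000000000000) := Q_25 (nat_lit 174) (C_25 L71633 (C_25 L72636 (C_25 L72745 (C_25 L72740 N_25)))) (by decide +kernel)
theorem L72749 : W_25 (nat_lit 6) (nat_lit 0x3c0009001000080000000000000000000000000000000) (nat_lit 0x0) (nat_lit 0x3b80038004800000000000000000000000000000000000000) := T_25 (nat_lit 173) (nat_lit 155) (nat_lit 0) (nat_lit 6) (nat_lit 10) L13241 (by decide +kernel)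
theorem L72750 : W_25 (nat_lit 7) (nat_lit 0x3c0008001000080000000000000000000000000000000) (nat_lit 0x0) (nat_lit 0x3b80038007800000000000000000000000000000000000000) := T_25 (nat_lit 156) (nat_lit 157) (nat_lit 0) (nat_lit 7) (nat_lit 10) L72749 (by decide +kernel)
theorem L72751 : W_25 (nat_lit 8) (nat_lit 0x380008001000080000000000000000000000000000000) (nat_lit 0x0) (nat_lit 0x20003b80078037800980008000000000000000000000000000000) := Q_25 (nat_lit 174) (C_25 L72343 (C_25 L72349 (C_25 L72750 N_25))) (by decide +kernel)
theorem L72752 : W_25 (nat_lit 8) (nat_lit 0x380008001000080000000000000000000000000000000) (nat_lit 0x0) (nat_lit 0x400020003b80078037800780028000000000000000000000000000000) := Q_25 (nat_lit 174) (C_25 L72750 (C_25 L72343 (C_25 L72419 N_25))) (by decide +kernel)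
theorem L72753 : W_25 (nat_lit 2) (nat_lit 0x100038005e001100080000000000000000000000000000000) (nat_lit 0x0) (nat_lit 0x200008000400000000000000000000000000) := D_25 (nat_lit 123) (nat_lit 106) (nat_lit 141) (nat_lit 7) (nat_lit 4) (nat_lit 6) (nat_lit 4) (nat_lit 5) (nat_lit 11) (by decide +kernel)
theorem L72754 : W_25 (nat_lit 3) (nat_lit 0x38005e001100080000000000000000000000000000000) (nat_lit 0x0) (nat_lit 0x20001000000000000200008000400000000000000000000000000) := T_25 (nat_lit 192) (nat_lit 209) (nat_lit 4) (nat_lit 5) (nat_lit 12) L72753 (by decide +kernel)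
theorem L72755 : W_25 (nat_lit 4) (nat_lit 0x38005e001000080000000000000000000000000000000) (nat_lit 0x0) (nat_lit 0x20001000000000000380008000400000000000000000000000000) := T_25 (nat_lit 140) (nat_lit 139) (nat_lit 0) (nat_lit 7) (nat_lit 9) L72754 (by decide +kernel)
theorem L72756 : W_25 (nat_lit 5) (nat_lit 0x38005c001000080000000000000000000000000000000) (nat_lit 0x0) (nat_lit 0x20001000000003000380008000400000000000000000000000000) := T_25 (nat_lit 157) (nat_lit 156) (nat_lit 3) (nat_lit 3) (nat_lit 9) L72755 (by decide +kernel)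
theorem L72757 : W_25 (nat_lit 6) (nat_lit 0x38001c001000080000000000000000000000000000000) (nat_lit 0x0) (nat_lit 0x20001000000063000380008000400000000000000000000000000) := T_25 (nat_lit 162) (nat_lit 161) (nat_lit 1) (nat_lit 9) (nat_lit 9) L72756 (by decide +kernel)
theorem L72758 : W_25 (nat_lit 2) (nat_lit 0x38001c001000080000000000000000000000000000000) (nat_lit 0x0) (nat_lit 0x3000800000000000000000000000000000000000) := D_25 (nat_lit 157) (nat_lit 156) (nat_lit 143) (nat_lit 3) (nat_lit 3) (nat_lit 9) (nat_lit 2) (nat_lit 4) (nat_lit 9) (by decide +kernel)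
theorem L72759 : W_25 (nat_lit 2) (nat_lit 0x38001e001100080000000000000000000000000000000) (nat_lit 0x0) (nat_lit 0x60000200000000000000000000000000000000000) := D_25 (nat_lit 161) (nat_lit 162) (nat_lit 141) (nat_lit 1) (nat_lit 9) (nat_lit 9) (nat_lit 0) (nat_lit 8) (nat_lit 9) (by decide +kernel)
theorem L72760 : W_25 (nat_lit 3) (nat_lit 0x38001e001000080000000000000000000000000000000) (nat_lit 0x0) (nat_lit 0x60000380000000000000000000000000000000000) := T_25 (nat_lit 140) (nat_lit 139) (nat_lit 0) (nat_lit 7) (nat_lit 9) L72759 (by decide +kernel)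
theorem L72761 : W_25 (nat_lit 4) (nat_lit 0x38001c001000080000000000000000000000000000000) (nat_lit 0x0) (nat_lit 0x62000b80000000000000000000000000000000000) := T_25 (nat_lit 157) (nat_lit 143) (nat_lit 2) (nat_lit 4) (nat_lit 9) L72760 (by decide +kernel)
theorem L72762 : W_25 (nat_lit 2) (nat_lit 0x38003c0016000b0000000000000000000000000000000) (nat_lit 0x0) (nat_lit 0x800108000000000000000000000000000000) := D_25 (nat_lit 143) (nat_lit 128) (nat_lit 123) (nat_lit 2) (nat_lit 5) (nat_lit 8) (nat_lit 0) (nat_lit 8) (nat_lit 8) (by decide +kernel)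
theorem L72763 : W_25 (nat_lit 3) (nat_lit 0x38003c0012000b0000000000000000000000000000000) (nat_lit 0x0) (nat_lit 0x1000000000000c00108000000000000000000000000000000) := T_25 (nat_lit 142) (nat_lit 192) (nat_lit 6) (nat_lit 5) (nat_lit 11) L72762 (by decide +kernel)
theorem L72764 : W_25 (nat_lit 4) (nat_lit 0x38003c001200090000000000000000000000000000000) (nat_lit 0x0) (nat_lit 0x1000000000000c00128001000000000000000000000000000) := T_25 (nat_lit 125) (nat_lit 108) (nat_lit 6) (nat_lit 5) (nat_lit 10) L72763 (by decide +kernel)
theorem L72765 : W_25 (nat_lit 5) (nat_lit 0x38003c001200080000000000000000000000000000000) (nat_lit 0x0) (nat_lit 0x1000000000000c00138001800000000000000000000000000) := T_25 (nat_lit 124) (nat_lit 107) (nat_lit 7) (nat_lit 5) (nat_lit 6) L72764 (by decide +kernel)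
theorem L72766 : W_25 (nat_lit 6) (nat_lit 0x38003c001000080000000000000000000000000000000) (nat_lit 0x0) (nat_lit 0x1000000000000f00138001800000000000000000000000000) := T_25 (nat_lit 141) (nat_lit 140) (nat_lit 0) (nat_lit 8) (nat_lit 9) L72765 (by decide +kernel)
theorem L72767 : W_25 (nat_lit 7) (nat_lit 0x38001c001000080000000000000000000000000000000) (nat_lit 0x0) (nat_lit 0x1000000060000f00138001800000000000000000000000000) := T_25 (nat_lit 161) (nat_lit 162) (nat_lit 1) (nat_lit 9) (nat_lit 9) L72766 (by decide +kernel)
theorem L72768 : W_25 (nat_lit 8) (nat_lit 0x380018001000080000000000000000000000000000000) (nat_lit 0x0) (nat_lit 0x20001000000067000f80138001c00000000000000000000000000) := Q_25 (nat_lit 158) (C_25 L72757 (C_25 L72758 (C_25 L72761 (C_25 L72767 N_25)))) (by decide +kernel)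
theorem L72769 : W_25 (nat_lit 5) (nat_lit 0x3c0018001000080000000000000000000000000000000) (nat_lit 0x0) (nat_lit 0x20001000000007000980008000000000000000000000000000000) := T_25 (nat_lit 157) (nat_lit 156) (nat_lit 0) (nat_lit 7) (nat_lit 10) L72347 (by decide +kernel)
theorem L72770 : W_25 (nat_lit 6) (nat_lit 0x380018001000080000000000000000000000000000000) (nat_lit 0x0) (nat_lit 0x20001000060007000980008000000000000000000000000000000) := T_25 (nat_lit 174) (nat_lit 173) (nat_lit 2) (nat_lit 3) (nat_lit 10) L72769 (by decide +kernel)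
theorem L72771 : W_25 (nat_lit 9) (nat_lit 0x380008001000080000000000000000000000000000000) (nat_lit 0x0) (nat_lit 0x20001000060077000f80138001c00000000000000000000000000) := Q_25 (nat_lit 160) (C_25 L72768 (C_25 L72461 (C_25 L72770 N_25))) (by decide +kernel)
theorem L72772 : W_25 (nat_lit 11) (nat_lit 0x380000001000080000000000000000000000000000000) (nat_lit 0x0) (nat_lit 0x38001c000e0003b8007807f800f8037c003c00140000000000000000000000) := Q_25 (nat_lit 159) (C_25 L72751 (C_25 L72394 (C_25 L72752 (C_25 L72460 (C_25 L72479 (C_25 L72771 (C_25 L72497 N_25))))))) (by decide +kernel)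
theorem L72773 : W_25 (nat_lit 17) (nat_lit 0x300000001000080000000000000000000000000000000) (nat_lit 0x0) (nat_lit 0x3e001fc00fe003f800f807fe00ff077f003fc01f000c000000000000000000) := Q_25 (nat_lit 175) (C_25 L71649 (C_25 L71965 (C_25 L71970 (C_25 L72017 (C_25 L72024 (C_25 L72034 (C_25 L72095 (C_25 L72106 (C_25 L72274 (C_25 L72276 (C_25 L72342 (C_25 L72498 (C_25 L72523 (C_25 L72553 (C_25 L72554 (C_25 L72630 (C_25 L72746 (C_25 L72747 (C_25 L72748 (C_25 L72772 N_25)))))))))))))))))))) (by decide +kernel)
theorem L72774 : W_25 (nat_lit 2) (nat_lit 0x80007c0024001000080000000000000000000000000000000) (nat_lit 0x0) (nat_lit 0x1c00000000000000000000000000000000000000000000000) := D_25 (nat_lit 191) (nat_lit 190) (nat_lit 192) (nat_lit 1) (nat_lit 7) (nat_lit 10) (nat_lit 1) (nat_lit 8) (nat_lit 10) (by decide +kernel)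
theorem L72775 : W_25 (nat_lit 3) (nat_lit 0x8000780024001000080000000000000000000000000000000) (nat_lit 0x0) (nat_lit 0x1c00040010000000000000000000000000000000000000000) := T_25 (nat_lit 174) (nat_lit 160) (nat_lit 2) (nat_lit 4) (nat_lit 10) L72774 (by decide +kernel)
theorem L72776 : W_25 (nat_lit 4) (nat_lit 0x8000780004001000080000000000000000000000000000000) (nat_lit 0x0) (nat_lit 0x1c00040070000000000000000000000000000000000000000) := T_25 (nat_lit 161) (nat_lit 162) (nat_lit 2) (nat_lit 5) (nat_lit 10) L72775 (by decide +kernel)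
theorem L72777 : W_25 (nat_lit 5) (nat_lit 0x780004001000080000000000000000000000000000000) (nat_lit 0x0) (nat_lit 0x19c00040070000000000000000000000000000000000000000) := T_25 (nat_lit 195) (nat_lit 196) (nat_lit 3) (nat_lit 5) (nat_lit 10) L72776 (by decide +kernel)
theorem L72778 : W_25 (nat_lit 6) (nat_lit 0x780000001000080000000000000000000000000000000) (nat_lit 0x0) (nat_lit 0x19c00040076000000000000000000000000000000000000000) := T_25 (nat_lit 158) (nat_lit 157) (nat_lit 0) (nat_lit 8) (nat_lit 10) L72777 (by decide +kernel)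
theorem L72779 : W_25 (nat_lit 2) (nat_lit 0x780020001000080000000000000000000000000000000) (nat_lit 0x0) (nat_lit 0x18000800000000000000000000000000000000000000000000) := D_25 (nat_lit 196) (nat_lit 195) (nat_lit 179) (nat_lit 3) (nat_lit 5) (nat_lit 10) (nat_lit 7) (nat_lit 8) (nat_lit 7) (by decide +kernel)
theorem L72780 : W_25 (nat_lit 3) (nat_lit 0x780000001000080000000000000000000000000000000) (nat_lit 0x0) (nat_lit 0x18000800060000000000000000000000000000000000000000) := T_25 (nat_lit 161) (nat_lit 162) (nat_lit 2) (nat_lit 5) (nat_lit 10) L72779 (by decide +kernel)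
theorem L72781 : W_25 (nat_lit 2) (nat_lit 0xb000780004001000080000000000000000000000000000000) (nat_lit 0x0) (nat_lit 0x800040000000000000000200000000000000000000000000000000000) := D_25 (nat_lit 210) (nat_lit 227) (nat_lit 141) (nat_lit 4) (nat_lit 6) (nat_lit 13) (nat_lit 7) (nat_lit 5) (nat_lit 8) (by decide +kernel)
theorem L72782 : W_25 (nat_lit 3) (nat_lit 0x9000780004001000080000000000000000000000000000000) (nat_lit 0x0) (nat_lit 0x800040002000800000000200000000000000000000000000000000000) := T_25 (nat_lit 193) (nat_lit 179) (nat_lit 1) (nat_lit 9) (nat_lit 10) L72781 (by decide +kernel)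
theorem L72783 : W_25 (nat_lit 4) (nat_lit 0x8000780004001000080000000000000000000000000000000) (nat_lit 0x0) (nat_lit 0x800040003800800000000200000000000000000000000000000000000) := T_25 (nat_lit 192) (nat_lit 191) (nat_lit 1) (nat_lit 8) (nat_lit 10) L72782 (by decide +kernel)
theorem L72784 : W_25 (nat_lit 5) (nat_lit 0x780004001000080000000000000000000000000000000) (nat_lit 0x0) (nat_lit 0x80004001b800800000000200000000000000000000000000000000000) := T_25 (nat_lit 195) (nat_lit 196) (nat_lit 3) (nat_lit 5) (nat_lit 10) L72783 (by decide +kernel)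
theorem L72785 : W_25 (nat_lit 6) (nat_lit 0x780000001000080000000000000000000000000000000) (nat_lit 0x0) (nat_lit 0x80004001b800800006000200000000000000000000000000000000000) := T_25 (nat_lit 158) (nat_lit 157) (nat_lit 0) (nat_lit 8) (nat_lit 10) L72784 (by decide +kernel)
theorem L72786 : W_25 (nat_lit 2) (nat_lit 0x1000f80004001000080000000000000000000000000000000) (nat_lit 0x0) (nat_lit 0xe0000000000000000000000000000000000000000) := D_25 (nat_lit 162) (nat_lit 161) (nat_lit 163) (nat_lit 2) (nat_lit 5) (nat_lit 10) (nat_lit 2) (nat_lit 6) (nat_lit 10) (by decide +kernel)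
theorem L72787 : W_25 (nat_lit 3) (nat_lit 0x1000780004001000080000000000000000000000000000000) (nat_lit 0x0) (nat_lit 0x20008000e0000000000000000000000000000000000000000) := T_25 (nat_lit 179) (nat_lit 193) (nat_lit 1) (nat_lit 9) (nat_lit 10) L72786 (by decide +kernel)
theorem L72788 : W_25 (nat_lit 4) (nat_lit 0x1000780000001000080000000000000000000000000000000) (nat_lit 0x0) (nat_lit 0x20008000e6000000000000000000000000000000000000000) := T_25 (nat_lit 158) (nat_lit 157) (nat_lit 0) (nat_lit 8) (nat_lit 10) L72787 (by decide +kernel)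
theorem L72789 : W_25 (nat_lit 5) (nat_lit 0x780000001000080000000000000000000000000000000) (nat_lit 0x0) (nat_lit 0x38008000e6000000000000000000000000000000000000000) := T_25 (nat_lit 192) (nat_lit 191) (nat_lit 1) (nat_lit 8) (nat_lit 10) L72788 (by decide +kernel)
theorem L72790 : W_25 (nat_lit 7) (nat_lit 0x700000001000080000000000000000000000000000000) (nat_lit 0x0) (nat_lit 0x80004001bc008c00f6000200000000000000000000000000000000000) := Q_25 (nat_lit 175) (C_25 L72778 (C_25 L72780 (C_25 L72785 (C_25 L72789 N_25)))) (by decide +kernel)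
theorem L72795 : W_25 (nat_lit 2) (nat_lit 0x1e0012000f00058001000080000000000000000000000000000000) (nat_lit 0x0) (nat_lit 0x6000200000000000000000000000000000000000000000000000000000) := D_25 (nat_lit 229) (nat_lit 230) (nat_lit 213) (nat_lit 3) (nat_lit 5) (nat_lit 12) (nat_lit 5) (nat_lit 9) (nat_lit 9) (by decide +kernel)
theorem L72796 : W_25 (nat_lit 3) (nat_lit 0xe0012000f00058001000080000000000000000000000000000000) (nat_lit 0x0) (nat_lit 0x6000300008000000000000000000000000000000000000000000000000) := T_25 (nat_lit 212) (nat_lit 195) (nat_lit 2) (nat_lit 5) (nat_lit 12) L72795 (by decide +kernel)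
theorem L72797 : W_25 (nat_lit 4) (nat_lit 0x60012000f00058001000080000000000000000000000000000000) (nat_lit 0x0) (nat_lit 0x7000380008000000000000000000000000000000000000000000000000) := T_25 (nat_lit 211) (nat_lit 228) (nat_lit 7) (nat_lit 6) (nat_lit 9) L72796 (by decide +kernel)
theorem L72798 : W_25 (nat_lit 5) (nat_lit 0x40012000f00058001000080000000000000000000000000000000) (nat_lit 0x0) (nat_lit 0x74003a0008000000000000000000000000000000000000000000000000) := T_25 (nat_lit 209) (nat_lit 226) (nat_lit 5) (nat_lit 6) (nat_lit 9) L72797 (by decide +kernel)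
theorem L72799 : W_25 (nat_lit 6) (nat_lit 0x12000f00058001000080000000000000000000000000000000) (nat_lit 0x0) (nat_lit 0x7c003e0008000000000000000000000000000000000000000000000000) := T_25 (nat_lit 210) (nat_lit 227) (nat_lit 6) (nat_lit 6) (nat_lit 13) L72798 (by decide +kernel)
theorem L72800 : W_25 (nat_lit 7) (nat_lit 0x12000f00048001000080000000000000000000000000000000) (nat_lit 0x0) (nat_lit 0x7c003e0008001000010000000000000000000000000000000000000000) := T_25 (nat_lit 160) (nat_lit 180) (nat_lit 0) (nat_lit 10) (nat_lit 10) L72799 (by decide +kernel)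
theorem L72801 : W_25 (nat_lit 8) (nat_lit 0x12000f00040001000080000000000000000000000000000000) (nat_lit 0x0) (nat_lit 0x7c003e000800100001c000000000000000000000000000000000000000) := T_25 (nat_lit 159) (nat_lit 158) (nat_lit 0) (nat_lit 9) (nat_lit 10) L72800 (by decide +kernel)
theorem L72802 : W_25 (nat_lit 9) (nat_lit 0x12000f00000001000080000000000000000000000000000000) (nat_lit 0x0) (nat_lit 0x7c003e00080010000dc000000000000000000000000000000000000000) := T_25 (nat_lit 162) (nat_lit 163) (nat_lit 2) (nat_lit 6) (nat_lit 10) L72801 (by decide +kernel)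
theorem L72803 : W_25 (nat_lit 10) (nat_lit 0x2000f00000001000080000000000000000000000000000000) (nat_lit 0x0) (nat_lit 0x7c003e00380010000dc000000000000000000000000000000000000000) := T_25 (nat_lit 196) (nat_lit 197) (nat_lit 3) (nat_lit 6) (nat_lit 10) L72802 (by decide +kernel)
theorem L72804 : W_25 (nat_lit 11) (nat_lit 0xf00000001000080000000000000000000000000000000) (nat_lit 0x0) (nat_lit 0x7c003e003b0010000dc000000000000000000000000000000000000000) := T_25 (nat_lit 193) (nat_lit 192) (nat_lit 1) (nat_lit 9) (nat_lit 10) L72803 (by decide +kernel)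
theorem L72805 : W_25 (nat_lit 2) (nat_lit 0x10001f80008001000080000000000000000000000000000000) (nat_lit 0x0) (nat_lit 0x1c0000000000000000000000000000000000000000) := D_25 (nat_lit 163) (nat_lit 162) (nat_lit 164) (nat_lit 2) (nat_lit 6) (nat_lit 10) (nat_lit 2) (nat_lit 7) (nat_lit 10) (by decide +kernel)
theorem L72806 : W_25 (nat_lit 3) (nat_lit 0x10000f80008001000080000000000000000000000000000000) (nat_lit 0x0) (nat_lit 0x10001d0000000000000000000000000000000000000000) := T_25 (nat_lit 180) (nat_lit 160) (nat_lit 0) (nat_lit 10) (nat_lit 10) L72805 (by decide +kernel)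
theorem L72807 : W_25 (nat_lit 4) (nat_lit 0x10000f00008001000080000000000000000000000000000000) (nat_lit 0x0) (nat_lit 0x80010801d0000000000000000000000000000000000000000) := T_25 (nat_lit 175) (nat_lit 195) (nat_lit 3) (nat_lit 5) (nat_lit 10) L72806 (by decide +kernel)
theorem L72808 : W_25 (nat_lit 5) (nat_lit 0xf00008001000080000000000000000000000000000000) (nat_lit 0x0) (nat_lit 0x380010801d0000000000000000000000000000000000000000) := T_25 (nat_lit 196) (nat_lit 197) (nat_lit 3) (nat_lit 6) (nat_lit 10) L72807 (by decide +kernel)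
theorem L72809 : W_25 (nat_lit 6) (nat_lit 0xf00000001000080000000000000000000000000000000) (nat_lit 0x0) (nat_lit 0x380010801dc000000000000000000000000000000000000000) := T_25 (nat_lit 159) (nat_lit 158) (nat_lit 0) (nat_lit 9) (nat_lit 10) L72808 (by decide +kernel)
theorem L72810 : W_25 (nat_lit 12) (nat_lit 0x700000001000080000000000000000000000000000000) (nat_lit 0x0) (nat_lit 0x7c003e003b8018801de000000000000000000000000000000000000000) := Q_25 (nat_lit 179) (C_25 L72794 (C_25 L4774 (C_25 L11381 (C_25 L72804 (C_25 L72809 N_25))))) (by decide +kernel)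
theorem L72812 : W_25 (nat_lit 6) (nat_lit 0x700000001000080000000000000000000000000000000) (nat_lit 0x0) (nat_lit 0x3b8008800ee000000000000000000000000000000000000000) := Q_25 (nat_lit 179) (C_25 L11381 (C_25 L4774 (C_25 L72811 N_25))) (by decide +kernel)
theorem L72816 : W_25 (nat_lit 2) (nat_lit 0x80007c0020001000080000000000000000000000000000000) (nat_lit 0x0) (nat_lit 0x1c00000000000000000000000000000000000000000000000) := D_25 (nat_lit 191) (nat_lit 190) (nat_lit 192) (nat_lit 1) (nat_lit 7) (nat_lit 10) (nat_lit 1) (nat_lit 8) (nat_lit 10) (by decide +kernel)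
theorem L72817 : W_25 (nat_lit 3) (nat_lit 0x8000780020001000080000000000000000000000000000000) (nat_lit 0x0) (nat_lit 0x1c00040010000000000000000000000000000000000000000) := T_25 (nat_lit 174) (nat_lit 160) (nat_lit 2) (nat_lit 4) (nat_lit 10) L72816 (by decide +kernel)
theorem L72818 : W_25 (nat_lit 4) (nat_lit 0x8000780000001000080000000000000000000000000000000) (nat_lit 0x0) (nat_lit 0x1c00040070000000000000000000000000000000000000000) := T_25 (nat_lit 161) (nat_lit 162) (nat_lit 2) (nat_lit 5) (nat_lit 10) L72817 (by decide +kernel)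
theorem L72819 : W_25 (nat_lit 5) (nat_lit 0x780000001000080000000000000000000000000000000) (nat_lit 0x0) (nat_lit 0x19c00040070000000000000000000000000000000000000000) := T_25 (nat_lit 195) (nat_lit 196) (nat_lit 3) (nat_lit 5) (nat_lit 10) L72818 (by decide +kernel)
theorem L72824 : W_25 (nat_lit 6) (nat_lit 0x780000001200080000000000000000000000000000000) (nat_lit 0x0) (nat_lit 0x1a00000000e000000030001800080000000000000000000000) := T_25 (nat_lit 158) (nat_lit 157) (nat_lit 0) (nat_lit 8) (nat_lit 10) L72823 (by decide +kernel)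
theorem L72825 : W_25 (nat_lit 2) (nat_lit 0x80007800200012001f0000000000000000000000000000000) (nat_lit 0x0) (nat_lit 0x1c00000000000000000000000000) := D_25 (nat_lit 107) (nat_lit 106) (nat_lit 108) (nat_lit 0) (nat_lit 8) (nat_lit 7) (nat_lit 0) (nat_lit 9) (nat_lit 7) (by decide +kernel)
theorem L72826 : W_25 (nat_lit 3) (nat_lit 0x80007800200012001e0000000000000000000000000000000) (nat_lit 0x0) (nat_lit 0x100010001c00000000000000000000000000) := T_25 (nat_lit 124) (nat_lit 140) (nat_lit 1) (nat_lit 8) (nat_lit 7) L72825 (by decide +kernel)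
theorem L72827 : W_25 (nat_lit 4) (nat_lit 0x80007800200012001c0000000000000000000000000000000) (nat_lit 0x0) (nat_lit 0x500030001c00000000000000000000000000) := T_25 (nat_lit 125) (nat_lit 142) (nat_lit 1) (nat_lit 9) (nat_lit 7) L72826 (by decide +kernel)
theorem L72828 : W_25 (nat_lit 5) (nat_lit 0x8000780020001200180000000000000000000000000000000) (nat_lit 0x0) (nat_lit 0x500070003c00000000000000000000000000) := T_25 (nat_lit 126) (nat_lit 109) (nat_lit 4) (nat_lit 8) (nat_lit 10) L72827 (by decide +kernel)
theorem L72829 : W_25 (nat_lit 6) (nat_lit 0x8000780020001200080000000000000000000000000000000) (nat_lit 0x0) (nat_lit 0x50017000bc00000000000000000000000000) := T_25 (nat_lit 128) (nat_lit 111) (nat_lit 6) (nat_lit 8) (nat_lit 10) L72828 (by decide +kernel)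
theorem L72830 : W_25 (nat_lit 7) (nat_lit 0x780020001200080000000000000000000000000000000) (nat_lit 0x0) (nat_lit 0x1800000000000050017000bc00000000000000000000000000) := T_25 (nat_lit 195) (nat_lit 196) (nat_lit 3) (nat_lit 5) (nat_lit 10) L72829 (by decide +kernel)
theorem L72831 : W_25 (nat_lit 8) (nat_lit 0x780000001200080000000000000000000000000000000) (nat_lit 0x0) (nat_lit 0x1800000006000050017000bc00000000000000000000000000) := T_25 (nat_lit 161) (nat_lit 162) (nat_lit 2) (nat_lit 5) (nat_lit 10) L72830 (by decide +kernel)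
theorem L72832 : W_25 (nat_lit 3) (nat_lit 0x1000780000001200080000000000000000000000000000000) (nat_lit 0x0) (nat_lit 0x40002000000006000000010000000000000000000000000000000) := T_25 (nat_lit 158) (nat_lit 157) (nat_lit 0) (nat_lit 8) (nat_lit 10) L12878 (by decide +kernel)
theorem L72833 : W_25 (nat_lit 4) (nat_lit 0x780000001200080000000000000000000000000000000) (nat_lit 0x0) (nat_lit 0x40003800000006000000010000000000000000000000000000000) := T_25 (nat_lit 192) (nat_lit 191) (nat_lit 1) (nat_lit 8) (nat_lit 10) L72832 (by decide +kernel)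
theorem L72834 : W_25 (nat_lit 2) (nat_lit 0xb00078002c0016001c0000000000000000000000000000000) (nat_lit 0x0) (nat_lit 0x10000100008000000000000000000000000000000) := D_25 (nat_lit 140) (nat_lit 160) (nat_lit 123) (nat_lit 0) (nat_lit 8) (nat_lit 9) (nat_lit 4) (nat_lit 5) (nat_lit 11) (by decide +kernel)
theorem L72835 : W_25 (nat_lit 3) (nat_lit 0xb0007800240016001c0000000000000000000000000000000) (nat_lit 0x0) (nat_lit 0x20000000000018000100008000000000000000000000000000000) := T_25 (nat_lit 159) (nat_lit 209) (nat_lit 6) (nat_lit 5) (nat_lit 12) L72834 (by decide +kernel)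
theorem L72836 : W_25 (nat_lit 4) (nat_lit 0xb0007800240012001c0000000000000000000000000000000) (nat_lit 0x0) (nat_lit 0x20000000000018000500028000000000000000000000000000000) := T_25 (nat_lit 142) (nat_lit 125) (nat_lit 1) (nat_lit 9) (nat_lit 7) L72835 (by decide +kernel)
theorem L72837 : W_25 (nat_lit 5) (nat_lit 0xb000780024001200180000000000000000000000000000000) (nat_lit 0x0) (nat_lit 0x20000000000018000500068002000000000000000000000000000) := T_25 (nat_lit 126) (nat_lit 109) (nat_lit 4) (nat_lit 8) (nat_lit 10) L72836 (by decide +kernel)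
theorem L72838 : W_25 (nat_lit 6) (nat_lit 0xb000780024001200080000000000000000000000000000000) (nat_lit 0x0) (nat_lit 0x2000000000001800050016800a000000000000000000000000000) := T_25 (nat_lit 128) (nat_lit 111) (nat_lit 6) (nat_lit 8) (nat_lit 10) L72837 (by decide +kernel)
theorem L72839 : W_25 (nat_lit 7) (nat_lit 0x9000780024001200080000000000000000000000000000000) (nat_lit 0x0) (nat_lit 0x6000200000001800050016800a000000000000000000000000000) := T_25 (nat_lit 193) (nat_lit 210) (nat_lit 7) (nat_lit 5) (nat_lit 8) L72838 (by decide +kernel)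
theorem L72840 : W_25 (nat_lit 8) (nat_lit 0x9000780004001200080000000000000000000000000000000) (nat_lit 0x0) (nat_lit 0x6000200000007800050016800a000000000000000000000000000) := T_25 (nat_lit 161) (nat_lit 162) (nat_lit 2) (nat_lit 5) (nat_lit 10) L72839 (by decide +kernel)
theorem L72841 : W_25 (nat_lit 9) (nat_lit 0x9000780000001200080000000000000000000000000000000) (nat_lit 0x0) (nat_lit 0x6000200000007e00050016800a000000000000000000000000000) := T_25 (nat_lit 158) (nat_lit 157) (nat_lit 0) (nat_lit 8) (nat_lit 10) L72840 (by decide +kernel)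
theorem L72842 : W_25 (nat_lit 10) (nat_lit 0x8000780000001200080000000000000000000000000000000) (nat_lit 0x0) (nat_lit 0x6000380000007e00050016800a000000000000000000000000000) := T_25 (nat_lit 192) (nat_lit 191) (nat_lit 1) (nat_lit 8) (nat_lit 10) L72841 (by decide +kernel)
theorem L72843 : W_25 (nat_lit 11) (nat_lit 0x780000001200080000000000000000000000000000000) (nat_lit 0x0) (nat_lit 0x6001b80000007e00050016800a000000000000000000000000000) := T_25 (nat_lit 195) (nat_lit 196) (nat_lit 3) (nat_lit 5) (nat_lit 10) L72842 (by decide +kernel)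
theorem L72844 : W_25 (nat_lit 12) (nat_lit 0x780000001000080000000000000000000000000000000) (nat_lit 0x0) (nat_lit 0x6001b80000007e00070017800bc00080000000000000000000000) := Q_25 (nat_lit 141) (C_25 L72824 (C_25 L72831 (C_25 L72833 (C_25 L72843 N_25)))) (by decide +kernel)
theorem L72845 : W_25 (nat_lit 2) (nat_lit 0x7c0020001000080000000000000000000000000000000) (nat_lit 0x0) (nat_lit 0x7000000000000000000000000000000000000000) := D_25 (nat_lit 157) (nat_lit 158) (nat_lit 156) (nat_lit 0) (nat_lit 8) (nat_lit 10) (nat_lit 0) (nat_lit 7) (nat_lit 10) (by decide +kernel)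
theorem L72846 : W_25 (nat_lit 3) (nat_lit 0x780020001000080000000000000000000000000000000) (nat_lit 0x0) (nat_lit 0x40017000000000000000000000000000000000000000) := T_25 (nat_lit 174) (nat_lit 160) (nat_lit 2) (nat_lit 4) (nat_lit 10) L72845 (by decide +kernel)
theorem L72847 : W_25 (nat_lit 4) (nat_lit 0x780000001000080000000000000000000000000000000) (nat_lit 0x0) (nat_lit 0x40077000000000000000000000000000000000000000) := T_25 (nat_lit 161) (nat_lit 162) (nat_lit 2) (nat_lit 5) (nat_lit 10) L72846 (by decide +kernel)
theorem L72848 : W_25 (nat_lit 13) (nat_lit 0x700000001000080000000000000000000000000000000) (nat_lit 0x0) (nat_lit 0x6001bc000c007f00070017800bc00080000000000000000000000) := Q_25 (nat_lit 175) (C_25 L72778 (C_25 L72815 (C_25 L72819 (C_25 L72844 (C_25 L72847 N_25))))) (by decide +kernel)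
theorem L72849 : W_25 (nat_lit 2) (nat_lit 0x1f000280010001c0000000000000000000000000000000) (nat_lit 0x0) (nat_lit 0x1c0000000000000000000000000000000000000000) := D_25 (nat_lit 163) (nat_lit 162) (nat_lit 164) (nat_lit 2) (nat_lit 6) (nat_lit 10) (nat_lit 2) (nat_lit 7) (nat_lit 10) (by decide +kernel)
theorem L72850 : W_25 (nat_lit 3) (nat_lit 0xf000280010001c0000000000000000000000000000000) (nat_lit 0x0) (nat_lit 0x10001d0000000000000000000000000000000000000000) := T_25 (nat_lit 180) (nat_lit 160) (nat_lit 0) (nat_lit 10) (nat_lit 10) L72849 (by decide +kernel)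
theorem L72851 : W_25 (nat_lit 4) (nat_lit 0xf00028001000180000000000000000000000000000000) (nat_lit 0x0) (nat_lit 0x10001d0000000040002000000000000000000000000000) := T_25 (nat_lit 126) (nat_lit 109) (nat_lit 4) (nat_lit 8) (nat_lit 10) L72850 (by decide +kernel)
theorem L72852 : W_25 (nat_lit 5) (nat_lit 0xf00028001000080000000000000000000000000000000) (nat_lit 0x0) (nat_lit 0x10001d000000014000a000000000000000000000000000) := T_25 (nat_lit 128) (nat_lit 111) (nat_lit 6) (nat_lit 8) (nat_lit 10) L72851 (by decide +kernel)
theorem L72853 : W_25 (nat_lit 6) (nat_lit 0xf00008001000080000000000000000000000000000000) (nat_lit 0x0) (nat_lit 0x100010001f000000014000a000000000000000000000000000) := T_25 (nat_lit 161) (nat_lit 196) (nat_lit 7) (nat_lit 8) (nat_lit 7) L72852 (by decide +kernel)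
theorem L72854 : W_25 (nat_lit 7) (nat_lit 0xf00000001000080000000000000000000000000000000) (nat_lit 0x0) (nat_lit 0x100010001fc00000014000a000000000000000000000000000) := T_25 (nat_lit 159) (nat_lit 158) (nat_lit 0) (nat_lit 9) (nat_lit 10) L72853 (by decide +kernel)
theorem L72860 : W_25 (nat_lit 7) (nat_lit 0xf00048001000080000000000000000000000000000000) (nat_lit 0x0) (nat_lit 0xe3007000730000000000000000000000000000000000000000) := T_25 (nat_lit 193) (nat_lit 192) (nat_lit 1) (nat_lit 9) (nat_lit 10) L72859 (by decide +kernel)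
theorem L72861 : W_25 (nat_lit 8) (nat_lit 0xf00040001000080000000000000000000000000000000) (nat_lit 0x0) (nat_lit 0xe300700073c000000000000000000000000000000000000000) := T_25 (nat_lit 159) (nat_lit 158) (nat_lit 0) (nat_lit 9) (nat_lit 10) L72860 (by decide +kernel)
theorem L72862 : W_25 (nat_lit 9) (nat_lit 0xf00000001000080000000000000000000000000000000) (nat_lit 0x0) (nat_lit 0xe30070007fc000000000000000000000000000000000000000) := T_25 (nat_lit 162) (nat_lit 163) (nat_lit 2) (nat_lit 6) (nat_lit 10) L72861 (by decide +kernel)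
theorem L72863 : W_25 (nat_lit 12) (nat_lit 0x700000001000080000000000000000000000000000000) (nat_lit 0x0) (nat_lit 0x7c003e00fb0078007fc00000014000a000000000000000000000000000) := Q_25 (nat_lit 179) (C_25 L72811 (C_25 L72804 (C_25 L72854 (C_25 L72862 N_25)))) (by decide +kernel)
theorem L72864 : W_25 (nat_lit 2) (nat_lit 0x2000f00020001000080000000000000000000000000000000) (nat_lit 0x0) (nat_lit 0x800c0000000000000000000000000000000000000000) := D_25 (nat_lit 162) (nat_lit 163) (nat_lit 175) (nat_lit 2) (nat_lit 6) (nat_lit 10) (nat_lit 2) (nat_lit 5) (nat_lit 10) (by decide +kernel)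
theorem L72865 : W_25 (nat_lit 3) (nat_lit 0x2000f00000001000080000000000000000000000000000000) (nat_lit 0x0) (nat_lit 0x100000800e0000000000000000000000000000000000000000) := T_25 (nat_lit 161) (nat_lit 196) (nat_lit 7) (nat_lit 8) (nat_lit 7) L72864 (by decide +kernel)
theorem L72866 : W_25 (nat_lit 4) (nat_lit 0xf00000001000080000000000000000000000000000000) (nat_lit 0x0) (nat_lit 0x130000800e0000000000000000000000000000000000000000) := T_25 (nat_lit 193) (nat_lit 192) (nat_lit 1) (nat_lit 9) (nat_lit 10) L72865 (by decide +kernel)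
theorem L72867 : W_25 (nat_lit 2) (nat_lit 0xf80040001000080000000000000000000000000000000) (nat_lit 0x0) (nat_lit 0x3800000000000000000000000000000000000000000000000) := D_25 (nat_lit 192) (nat_lit 191) (nat_lit 193) (nat_lit 1) (nat_lit 8) (nat_lit 10) (nat_lit 1) (nat_lit 9) (nat_lit 10) (by decide +kernel)
theorem L72868 : W_25 (nat_lit 3) (nat_lit 0xf00040001000080000000000000000000000000000000) (nat_lit 0x0) (nat_lit 0x3800080020000000000000000000000000000000000000000) := T_25 (nat_lit 175) (nat_lit 161) (nat_lit 2) (nat_lit 5) (nat_lit 10) L72867 (by decide +kernel)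
theorem L72869 : W_25 (nat_lit 4) (nat_lit 0xf00000001000080000000000000000000000000000000) (nat_lit 0x0) (nat_lit 0x38000800e0000000000000000000000000000000000000000) := T_25 (nat_lit 162) (nat_lit 163) (nat_lit 2) (nat_lit 6) (nat_lit 10) L72868 (by decide +kernel)
theorem L72870 : W_25 (nat_lit 5) (nat_lit 0x700000001000080000000000000000000000000000000) (nat_lit 0x0) (nat_lit 0x3b8008800e0000000000000000000000000000000000000000) := Q_25 (nat_lit 179) (C_25 L72811 (C_25 L4774 (C_25 L72866 (C_25 L72869 N_25)))) (by decide +kernel)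
theorem L72872 : W_25 (nat_lit 6) (nat_lit 0x700000001000080000000000000000000000000000000) (nat_lit 0x0) (nat_lit 0x3c008c00f7000000000000000000000000000000000000000) := Q_25 (nat_lit 175) (C_25 L72847 (C_25 L72815 (C_25 L72871 (C_25 L72789 N_25)))) (by decide +kernel)
theorem L72873 : W_25 (nat_lit 2) (nat_lit 0x1000f000380010001c0000000000000000000000000000000) (nat_lit 0x0) (nat_lit 0x8000c0000000000000000000000000000000000000000000) := D_25 (nat_lit 175) (nat_lit 174) (nat_lit 191) (nat_lit 2) (nat_lit 4) (nat_lit 10) (nat_lit 1) (nat_lit 8) (nat_lit 10) (by decide +kernel)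
theorem L72874 : W_25 (nat_lit 3) (nat_lit 0xf000380010001c0000000000000000000000000000000) (nat_lit 0x0) (nat_lit 0x38000c0000000000000000000000000000000000000000000) := T_25 (nat_lit 192) (nat_lit 193) (nat_lit 1) (nat_lit 9) (nat_lit 10) L72873 (by decide +kernel)
theorem L72875 : W_25 (nat_lit 4) (nat_lit 0xf000280010001c0000000000000000000000000000000) (nat_lit 0x0) (nat_lit 0x38010c0010000000000000000000000000000000000000000) := T_25 (nat_lit 160) (nat_lit 180) (nat_lit 0) (nat_lit 10) (nat_lit 10) L72874 (by decide +kernel)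
theorem L72876 : W_25 (nat_lit 5) (nat_lit 0xf00028001000180000000000000000000000000000000) (nat_lit 0x0) (nat_lit 0x38010c0010000000040002000000000000000000000000000) := T_25 (nat_lit 126) (nat_lit 109) (nat_lit 4) (nat_lit 8) (nat_lit 10) L72875 (by decide +kernel)
theorem L72877 : W_25 (nat_lit 6) (nat_lit 0xf00028001000080000000000000000000000000000000) (nat_lit 0x0) (nat_lit 0x38010c001000000014000a000000000000000000000000000) := T_25 (nat_lit 128) (nat_lit 111) (nat_lit 6) (nat_lit 8) (nat_lit 10) L72876 (by decide +kernel)
theorem L72878 : W_25 (nat_lit 7) (nat_lit 0xf00008001000080000000000000000000000000000000) (nat_lit 0x0) (nat_lit 0x138010c003000000014000a000000000000000000000000000) := T_25 (nat_lit 161) (nat_lit 196) (nat_lit 7) (nat_lit 8) (nat_lit 7) L72877 (by decide +kernel)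
theorem L72879 : W_25 (nat_lit 8) (nat_lit 0xf00000001000080000000000000000000000000000000) (nat_lit 0x0) (nat_lit 0x138010c003c00000014000a000000000000000000000000000) := T_25 (nat_lit 159) (nat_lit 158) (nat_lit 0) (nat_lit 9) (nat_lit 10) L72878 (by decide +kernel)
theorem L72886 : W_25 (nat_lit 9) (nat_lit 0x700000001000080000000000000000000000000000000) (nat_lit 0x0) (nat_lit 0xfb8038c03bc00000014000a000000000000000000000000000) := Q_25 (nat_lit 179) (C_25 L72811 (C_25 L4774 (C_25 L72879 (C_25 L72885 N_25)))) (by decide +kernel)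
theorem L72887 : W_25 (nat_lit 2) (nat_lit 0x40001f000680010000c0000000000000000000000000000000) (nat_lit 0x0) (nat_lit 0x80006000000000000000000000000000000000000000000000) := D_25 (nat_lit 181) (nat_lit 182) (nat_lit 199) (nat_lit 0) (nat_lit 12) (nat_lit 10) (nat_lit 3) (nat_lit 8) (nat_lit 10) (by decide +kernel)
theorem L72888 : W_25 (nat_lit 3) (nat_lit 0x1f000680010000c0000000000000000000000000000000) (nat_lit 0x0) (nat_lit 0xe0006000000000000000000000000000000000000000000000) := T_25 (nat_lit 198) (nat_lit 197) (nat_lit 3) (nat_lit 7) (nat_lit 10) L72887 (by decide +kernel)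
theorem L72889 : W_25 (nat_lit 4) (nat_lit 0x1f00068001000080000000000000000000000000000000) (nat_lit 0x0) (nat_lit 0xe0006000000000000040002000000000000000000000000000) := T_25 (nat_lit 126) (nat_lit 109) (nat_lit 4) (nat_lit 8) (nat_lit 10) L72888 (by decide +kernel)
theorem L72890 : W_25 (nat_lit 5) (nat_lit 0xf00068001000080000000000000000000000000000000) (nat_lit 0x0) (nat_lit 0xe0007000010000000040002000000000000000000000000000) := T_25 (nat_lit 180) (nat_lit 160) (nat_lit 3) (nat_lit 6) (nat_lit 9) L72889 (by decide +kernel)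
theorem L72891 : W_25 (nat_lit 6) (nat_lit 0xf00048001000080000000000000000000000000000000) (nat_lit 0x0) (nat_lit 0xe0007080030000000040002000000000000000000000000000) := T_25 (nat_lit 161) (nat_lit 175) (nat_lit 2) (nat_lit 5) (nat_lit 10) L72890 (by decide +kernel)
theorem L72892 : W_25 (nat_lit 7) (nat_lit 0xf00008001000080000000000000000000000000000000) (nat_lit 0x0) (nat_lit 0xe00070800f0000000040002000000000000000000000000000) := T_25 (nat_lit 162) (nat_lit 163) (nat_lit 2) (nat_lit 6) (nat_lit 10) L72891 (by decide +kernel)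
theorem L72893 : W_25 (nat_lit 8) (nat_lit 0xf00000001000080000000000000000000000000000000) (nat_lit 0x0) (nat_lit 0xe00070800fc000000040002000000000000000000000000000) := T_25 (nat_lit 159) (nat_lit 158) (nat_lit 0) (nat_lit 9) (nat_lit 10) L72892 (by decide +kernel)
theorem L72894 : W_25 (nat_lit 9) (nat_lit 0x700000001000080000000000000000000000000000000) (nat_lit 0x0) (nat_lit 0xf80078801fc00000014000a000000000000000000000000000) := Q_25 (nat_lit 179) (C_25 L72854 (C_25 L72811 (C_25 L72809 (C_25 L72893 N_25)))) (by decide +kernel)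
theorem L72895 : W_25 (nat_lit 14) (nat_lit 0x300000001000080000000000000000000000000000000) (nat_lit 0x0) (nat_lit 0x7c003e00fbc07cc07ff00070017800bc00080000000000000000000000) := Q_25 (nat_lit 178) (C_25 L72790 (C_25 L72810 (C_25 L72812 (C_25 L72848 (C_25 L72863 (C_25 L72870 (C_25 L72872 (C_25 L72886 (C_25 L72894 N_25))))))))) (by decide +kernel)
theorem L72900 : W_25 (nat_lit 6) (nat_lit 0x700000001000080000000000000000000000000000000) (nat_lit 0x0) (nat_lit 0x7b8018801ce000000000000000000000000000000000000000) := Q_25 (nat_lit 179) (C_25 L11381 (C_25 L4774 (C_25 L72899 (C_25 L11432 N_25)))) (by decide +kernel)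
theorem L72901 : W_25 (nat_lit 2) (nat_lit 0x8000780020001000080000000000000000000000000000000) (nat_lit 0x0) (nat_lit 0x800040002000000000000000000000000000) := D_25 (nat_lit 126) (nat_lit 109) (nat_lit 143) (nat_lit 4) (nat_lit 8) (nat_lit 10) (nat_lit 4) (nat_lit 8) (nat_lit 11) (by decide +kernel)
theorem L72902 : W_25 (nat_lit 3) (nat_lit 0x8000780000001000080000000000000000000000000000000) (nat_lit 0x0) (nat_lit 0x60000800040002000000000000000000000000000) := T_25 (nat_lit 161) (nat_lit 162) (nat_lit 2) (nat_lit 5) (nat_lit 10) L72901 (by decide +kernel)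
theorem L72903 : W_25 (nat_lit 4) (nat_lit 0x780000001000080000000000000000000000000000000) (nat_lit 0x0) (nat_lit 0x18000000060000800040002000000000000000000000000000) := T_25 (nat_lit 195) (nat_lit 196) (nat_lit 3) (nat_lit 5) (nat_lit 10) L72902 (by decide +kernel)
theorem L72904 : W_25 (nat_lit 5) (nat_lit 0x700000001000080000000000000000000000000000000) (nat_lit 0x0) (nat_lit 0x19c000c0067000800040002000000000000000000000000000) := Q_25 (nat_lit 175) (C_25 L72815 (C_25 L72903 N_25)) (by decide +kernel)
theorem L72905 : W_25 (nat_lit 2) (nat_lit 0xf000680018001c0000000000000000000000000000000) (nat_lit 0x0) (nat_lit 0x3000000000000400000000000000000000000000000000000) := D_25 (nat_lit 193) (nat_lit 192) (nat_lit 142) (nat_lit 1) (nat_lit 9) (nat_lit 10) (nat_lit 6) (nat_lit 6) (nat_lit 11) (by decide +kernel)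
theorem L72906 : W_25 (nat_lit 3) (nat_lit 0xf000680010001c0000000000000000000000000000000) (nat_lit 0x0) (nat_lit 0xb000000000000c00000000000000000000000000000000000) := T_25 (nat_lit 143) (nat_lit 195) (nat_lit 4) (nat_lit 8) (nat_lit 11) L72905 (by decide +kernel)
theorem L72907 : W_25 (nat_lit 4) (nat_lit 0xf000280010001c0000000000000000000000000000000) (nat_lit 0x0) (nat_lit 0xb0000000c0000c00000000000000000000000000000000000) := T_25 (nat_lit 162) (nat_lit 163) (nat_lit 2) (nat_lit 6) (nat_lit 10) L72906 (by decide +kernel)
theorem L72908 : W_25 (nat_lit 5) (nat_lit 0xf00028001000180000000000000000000000000000000) (nat_lit 0x0) (nat_lit 0xb0000000c0000c00040002000000000000000000000000000) := T_25 (nat_lit 126) (nat_lit 109) (nat_lit 4) (nat_lit 8) (nat_lit 10) L72907 (by decide +kernel)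
theorem L72909 : W_25 (nat_lit 6) (nat_lit 0xf00028001000080000000000000000000000000000000) (nat_lit 0x0) (nat_lit 0xb0000000c0000c0014000a000000000000000000000000000) := T_25 (nat_lit 128) (nat_lit 111) (nat_lit 6) (nat_lit 8) (nat_lit 10) L72908 (by decide +kernel)
theorem L72910 : W_25 (nat_lit 7) (nat_lit 0xf00008001000080000000000000000000000000000000) (nat_lit 0x0) (nat_lit 0x1b0000000e0000c0014000a000000000000000000000000000) := T_25 (nat_lit 161) (nat_lit 196) (nat_lit 7) (nat_lit 8) (nat_lit 7) L72909 (by decide +kernel)
theorem L72911 : W_25 (nat_lit 8) (nat_lit 0xf00000001000080000000000000000000000000000000) (nat_lit 0x0) (nat_lit 0x1b0000000ec000c0014000a000000000000000000000000000) := T_25 (nat_lit 159) (nat_lit 158) (nat_lit 0) (nat_lit 9) (nat_lit 10) L72910 (by decide +kernel)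
theorem L72913 : W_25 (nat_lit 2) (nat_lit 0x42003f000680010000c0000000000000000000000000000000) (nat_lit 0x0) (nat_lit 0x8000000000000c00000000000000000000000000000000000) := D_25 (nat_lit 143) (nat_lit 195) (nat_lit 142) (nat_lit 4) (nat_lit 8) (nat_lit 11) (nat_lit 6) (nat_lit 6) (nat_lit 11) (by decide +kernel)
theorem L72914 : W_25 (nat_lit 3) (nat_lit 0x42003f00068001000080000000000000000000000000000000) (nat_lit 0x0) (nat_lit 0x8000000000000c00040002000000000000000000000000000) := T_25 (nat_lit 126) (nat_lit 109) (nat_lit 4) (nat_lit 8) (nat_lit 10) L72913 (by decide +kernel)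
theorem L72915 : W_25 (nat_lit 4) (nat_lit 0x42003f00048001000080000000000000000000000000000000) (nat_lit 0x0) (nat_lit 0x8004000020000c00040002000000000000000000000000000) := T_25 (nat_lit 161) (nat_lit 182) (nat_lit 0) (nat_lit 12) (nat_lit 10) L72914 (by decide +kernel)
theorem L72916 : W_25 (nat_lit 5) (nat_lit 0x42003f00008001000080000000000000000000000000000000) (nat_lit 0x0) (nat_lit 0x80040000e0000c00040002000000000000000000000000000) := T_25 (nat_lit 162) (nat_lit 163) (nat_lit 2) (nat_lit 6) (nat_lit 10) L72915 (by decide +kernel)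
theorem L72917 : W_25 (nat_lit 6) (nat_lit 0x42003f00000001000080000000000000000000000000000000) (nat_lit 0x0) (nat_lit 0x80040000ec000c00040002000000000000000000000000000) := T_25 (nat_lit 159) (nat_lit 158) (nat_lit 0) (nat_lit 9) (nat_lit 10) L72916 (by decide +kernel)
theorem L72918 : W_25 (nat_lit 7) (nat_lit 0x42001f00000001000080000000000000000000000000000000) (nat_lit 0x0) (nat_lit 0x880060000ec000c00040002000000000000000000000000000) := T_25 (nat_lit 181) (nat_lit 199) (nat_lit 3) (nat_lit 8) (nat_lit 10) L72917 (by decide +kernel)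
theorem L72919 : W_25 (nat_lit 8) (nat_lit 0x40001f00000001000080000000000000000000000000000000) (nat_lit 0x0) (nat_lit 0x8b0060000ec000c00040002000000000000000000000000000) := T_25 (nat_lit 193) (nat_lit 192) (nat_lit 1) (nat_lit 9) (nat_lit 10) L72918 (by decide +kernel)
theorem L72920 : W_25 (nat_lit 9) (nat_lit 0x1f00000001000080000000000000000000000000000000) (nat_lit 0x0) (nat_lit 0xeb0060000ec000c00040002000000000000000000000000000) := T_25 (nat_lit 198) (nat_lit 197) (nat_lit 3) (nat_lit 7) (nat_lit 10) L72919 (by decide +kernel)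
theorem L72921 : W_25 (nat_lit 2) (nat_lit 0x2003f00100001000080000000000000000000000000000000) (nat_lit 0x0) (nat_lit 0xe0000000000000000000000000000000000000000000000000) := D_25 (nat_lit 198) (nat_lit 197) (nat_lit 199) (nat_lit 3) (nat_lit 7) (nat_lit 10) (nat_lit 3) (nat_lit 8) (nat_lit 10) (by decide +kernel)
theorem L72922 : W_25 (nat_lit 3) (nat_lit 0x2001f00100001000080000000000000000000000000000000) (nat_lit 0x0) (nat_lit 0xe0002000200000000000000000000000000000000000000000) := T_25 (nat_lit 181) (nat_lit 165) (nat_lit 2) (nat_lit 8) (nat_lit 10) L72921 (by decide +kernel)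
theorem L72923 : W_25 (nat_lit 4) (nat_lit 0x1f00100001000080000000000000000000000000000000) (nat_lit 0x0) (nat_lit 0xe3002000200000000000000000000000000000000000000000) := T_25 (nat_lit 193) (nat_lit 192) (nat_lit 1) (nat_lit 9) (nat_lit 10) L72922 (by decide +kernel)
theorem L72924 : W_25 (nat_lit 5) (nat_lit 0x1f00000001000080000000000000000000000000000000) (nat_lit 0x0) (nat_lit 0xe3002000380000000000000000000000000000000000000000) := T_25 (nat_lit 164) (nat_lit 163) (nat_lit 2) (nat_lit 7) (nat_lit 10) L72923 (by decide +kernel)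
theorem L72925 : W_25 (nat_lit 2) (nat_lit 0x10000000042007f002280010001c0000000000000000000000000000000) (nat_lit 0x0) (nat_lit 0x8000000000000c00000000000000000000000000000000000) := D_25 (nat_lit 143) (nat_lit 195) (nat_lit 142) (nat_lit 4) (nat_lit 8) (nat_lit 11) (nat_lit 6) (nat_lit 6) (nat_lit 11) (by decide +kernel)
theorem L72926 : W_25 (nat_lit 3) (nat_lit 0x10000000042007f00228001000180000000000000000000000000000000) (nat_lit 0x0) (nat_lit 0x8000000000000c00040002000000000000000000000000000) := T_25 (nat_lit 126) (nat_lit 109) (nat_lit 4) (nat_lit 8) (nat_lit 10) L72925 (by decide +kernel)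
theorem L72927 : W_25 (nat_lit 4) (nat_lit 0x10000000042007f00228001000080000000000000000000000000000000) (nat_lit 0x0) (nat_lit 0x8000000000000c0014000a000000000000000000000000000) := T_25 (nat_lit 128) (nat_lit 111) (nat_lit 6) (nat_lit 8) (nat_lit 10) L72926 (by decide +kernel)
theorem L72928 : W_25 (nat_lit 5) (nat_lit 0x42007f00228001000080000000000000000000000000000000) (nat_lit 0x0) (nat_lit 0x10000800008000000000000c0014000a000000000000000000000000000) := T_25 (nat_lit 232) (nat_lit 215) (nat_lit 6) (nat_lit 11) (nat_lit 13) L72927 (by decide +kernel)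
theorem L72929 : W_25 (nat_lit 6) (nat_lit 0x42007f00208001000080000000000000000000000000000000) (nat_lit 0x0) (nat_lit 0x10000800008000000060000c0014000a000000000000000000000000000) := T_25 (nat_lit 161) (nat_lit 162) (nat_lit 0) (nat_lit 12) (nat_lit 10) L72928 (by decide +kernel)
theorem L72930 : W_25 (nat_lit 7) (nat_lit 0x42003f00208001000080000000000000000000000000000000) (nat_lit 0x0) (nat_lit 0x10000800008004000460000c0014000a000000000000000000000000000) := T_25 (nat_lit 182) (nat_lit 166) (nat_lit 2) (nat_lit 9) (nat_lit 10) L72929 (by decide +kernel)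
theorem L72931 : W_25 (nat_lit 8) (nat_lit 0x42003f00200001000080000000000000000000000000000000) (nat_lit 0x0) (nat_lit 0x1000080000800400046c000c0014000a000000000000000000000000000) := T_25 (nat_lit 159) (nat_lit 158) (nat_lit 0) (nat_lit 9) (nat_lit 10) L72930 (by decide +kernel)
theorem L72932 : W_25 (nat_lit 9) (nat_lit 0x42003f00000001000080000000000000000000000000000000) (nat_lit 0x0) (nat_lit 0x1000080000800400076c000c0014000a000000000000000000000000000) := T_25 (nat_lit 165) (nat_lit 164) (nat_lit 2) (nat_lit 8) (nat_lit 10) L72931 (by decide +kernel)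
theorem L72933 : W_25 (nat_lit 10) (nat_lit 0x42001f00000001000080000000000000000000000000000000) (nat_lit 0x0) (nat_lit 0x1000080008800600076c000c0014000a000000000000000000000000000) := T_25 (nat_lit 181) (nat_lit 199) (nat_lit 3) (nat_lit 8) (nat_lit 10) L72932 (by decide +kernel)
theorem L72934 : W_25 (nat_lit 11) (nat_lit 0x40001f00000001000080000000000000000000000000000000) (nat_lit 0x0) (nat_lit 0x1000080008b00600076c000c0014000a000000000000000000000000000) := T_25 (nat_lit 193) (nat_lit 192) (nat_lit 1) (nat_lit 9) (nat_lit 10) L72933 (by decide +kernel)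
theorem L72935 : W_25 (nat_lit 12) (nat_lit 0x1f00000001000080000000000000000000000000000000) (nat_lit 0x0) (nat_lit 0x100008000eb00600076c000c0014000a000000000000000000000000000) := T_25 (nat_lit 198) (nat_lit 197) (nat_lit 3) (nat_lit 7) (nat_lit 10) L72934 (by decide +kernel)
theorem L72936 : W_25 (nat_lit 13) (nat_lit 0xf00000001000080000000000000000000000000000000) (nat_lit 0x0) (nat_lit 0x100008000eb0070007ec000c0014000a000000000000000000000000000) := Q_25 (nat_lit 180) (C_25 L72912 (C_25 L72920 (C_25 L72924 (C_25 L72935 N_25)))) (by decide +kernel)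
theorem L72937 : W_25 (nat_lit 14) (nat_lit 0x700000001000080000000000000000000000000000000) (nat_lit 0x0) (nat_lit 0x100008000fb0078007ec000c0014000a000000000000000000000000000) := Q_25 (nat_lit 179) (C_25 L72899 (C_25 L72911 (C_25 L72936 (C_25 L72811 N_25)))) (by decide +kernel)
theorem L72948 : W_25 (nat_lit 5) (nat_lit 0x780024001000180000000000000000000000000000000) (nat_lit 0x0) (nat_lit 0x8000800008000e00240002000000000000000000000000000) := T_25 (nat_lit 179) (nat_lit 159) (nat_lit 0) (nat_lit 9) (nat_lit 10) L72947 (by decide +kernel)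
theorem L72949 : W_25 (nat_lit 6) (nat_lit 0x780024001000080000000000000000000000000000000) (nat_lit 0x0) (nat_lit 0x8000800008000e0034000a000000000000000000000000000) := T_25 (nat_lit 128) (nat_lit 111) (nat_lit 6) (nat_lit 8) (nat_lit 10) L72948 (by decide +kernel)
theorem L72950 : W_25 (nat_lit 7) (nat_lit 0x780020001000080000000000000000000000000000000) (nat_lit 0x0) (nat_lit 0x800080000e000e0034000a000000000000000000000000000) := T_25 (nat_lit 158) (nat_lit 157) (nat_lit 0) (nat_lit 8) (nat_lit 10) L72949 (by decide +kernel)
theorem L72951 : W_25 (nat_lit 8) (nat_lit 0x780000001000080000000000000000000000000000000) (nat_lit 0x0) (nat_lit 0x800080006e000e0034000a000000000000000000000000000) := T_25 (nat_lit 161) (nat_lit 162) (nat_lit 2) (nat_lit 5) (nat_lit 10) L72950 (by decide +kernel)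
theorem L72952 : W_25 (nat_lit 9) (nat_lit 0x700000001000080000000000000000000000000000000) (nat_lit 0x0) (nat_lit 0xbc008c006f000e0034000a000000000000000000000000000) := Q_25 (nat_lit 175) (C_25 L72815 (C_25 L72944 (C_25 L72951 N_25))) (by decide +kernel)
theorem L72953 : W_25 (nat_lit 2) (nat_lit 0x2000f000280010001c0000000000000000000000000000000) (nat_lit 0x0) (nat_lit 0x8000000000000c00000000000000000000000000000000000) := D_25 (nat_lit 143) (nat_lit 195) (nat_lit 142) (nat_lit 4) (nat_lit 8) (nat_lit 11) (nat_lit 6) (nat_lit 6) (nat_lit 11) (by decide +kernel)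
theorem L72954 : W_25 (nat_lit 3) (nat_lit 0xf000280010001c0000000000000000000000000000000) (nat_lit 0x0) (nat_lit 0xb000000000000c00000000000000000000000000000000000) := T_25 (nat_lit 193) (nat_lit 192) (nat_lit 1) (nat_lit 9) (nat_lit 10) L72953 (by decide +kernel)
theorem L72955 : W_25 (nat_lit 4) (nat_lit 0xf00028001000180000000000000000000000000000000) (nat_lit 0x0) (nat_lit 0xb000000000000c00040002000000000000000000000000000) := T_25 (nat_lit 126) (nat_lit 109) (nat_lit 4) (nat_lit 8) (nat_lit 10) L72954 (by decide +kernel)
theorem L72956 : W_25 (nat_lit 5) (nat_lit 0xf00028001000080000000000000000000000000000000) (nat_lit 0x0) (nat_lit 0xb000000000000c0014000a000000000000000000000000000) := T_25 (nat_lit 128) (nat_lit 111) (nat_lit 6) (nat_lit 8) (nat_lit 10) L72955 (by decide +kernel)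
theorem L72957 : W_25 (nat_lit 6) (nat_lit 0xf00008001000080000000000000000000000000000000) (nat_lit 0x0) (nat_lit 0x1b000000020000c0014000a000000000000000000000000000) := T_25 (nat_lit 161) (nat_lit 196) (nat_lit 7) (nat_lit 8) (nat_lit 7) L72956 (by decide +kernel)
theorem L72958 : W_25 (nat_lit 7) (nat_lit 0xf00000001000080000000000000000000000000000000) (nat_lit 0x0) (nat_lit 0x1b00000002c000c0014000a000000000000000000000000000) := T_25 (nat_lit 159) (nat_lit 158) (nat_lit 0) (nat_lit 9) (nat_lit 10) L72957 (by decide +kernel)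
theorem L72959 : W_25 (nat_lit 8) (nat_lit 0x700000001000080000000000000000000000000000000) (nat_lit 0x0) (nat_lit 0x3b80088002e000c0014000a000000000000000000000000000) := Q_25 (nat_lit 179) (C_25 L72811 (C_25 L4774 (C_25 L72958 (C_25 L17085 N_25)))) (by decide +kernel)
theorem L72960 : W_25 (nat_lit 3) (nat_lit 0x700020001000080000000000000000000000000000000) (nat_lit 0x0) (nat_lit 0x18000880040000000000000000000000000000000000000000) := T_25 (nat_lit 175) (nat_lit 162) (nat_lit 2) (nat_lit 5) (nat_lit 10) L72779 (by decide +kernel)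
theorem L72961 : W_25 (nat_lit 2) (nat_lit 0x8000780024001000080000000000000000000000000000000) (nat_lit 0x0) (nat_lit 0x800040002000000000000000000000000000) := D_25 (nat_lit 126) (nat_lit 109) (nat_lit 143) (nat_lit 4) (nat_lit 8) (nat_lit 10) (nat_lit 4) (nat_lit 8) (nat_lit 11) (by decide +kernel)
theorem L72962 : W_25 (nat_lit 3) (nat_lit 0x780024001000080000000000000000000000000000000) (nat_lit 0x0) (nat_lit 0x18000000000000800040002000000000000000000000000000) := T_25 (nat_lit 195) (nat_lit 196) (nat_lit 3) (nat_lit 5) (nat_lit 10) L72961 (by decide +kernel)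
theorem L72963 : W_25 (nat_lit 4) (nat_lit 0x780020001000080000000000000000000000000000000) (nat_lit 0x0) (nat_lit 0x18000000006000800040002000000000000000000000000000) := T_25 (nat_lit 158) (nat_lit 157) (nat_lit 0) (nat_lit 8) (nat_lit 10) L72962 (by decide +kernel)
theorem L72964 : W_25 (nat_lit 5) (nat_lit 0x700020001000080000000000000000000000000000000) (nat_lit 0x0) (nat_lit 0x18000080046000800040002000000000000000000000000000) := T_25 (nat_lit 175) (nat_lit 162) (nat_lit 2) (nat_lit 5) (nat_lit 10) L72963 (by decide +kernel)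
theorem L72965 : W_25 (nat_lit 2) (nat_lit 0xf000680018001c0000000000000000000000000000000) (nat_lit 0x0) (nat_lit 0x600200000000000000000000000000000000) := D_25 (nat_lit 142) (nat_lit 141) (nat_lit 129) (nat_lit 3) (nat_lit 5) (nat_lit 8) (nat_lit 1) (nat_lit 10) (nat_lit 7) (by decide +kernel)
theorem L72966 : W_25 (nat_lit 3) (nat_lit 0xf000680010001c0000000000000000000000000000000) (nat_lit 0x0) (nat_lit 0x8000000000000e00200000000000000000000000000000000) := T_25 (nat_lit 143) (nat_lit 195) (nat_lit 4) (nat_lit 8) (nat_lit 11) L72965 (by decide +kernel)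
theorem L72967 : W_25 (nat_lit 4) (nat_lit 0xf00068001000180000000000000000000000000000000) (nat_lit 0x0) (nat_lit 0x8000000000000e00240002000000000000000000000000000) := T_25 (nat_lit 126) (nat_lit 109) (nat_lit 4) (nat_lit 8) (nat_lit 10) L72966 (by decide +kernel)
theorem L72968 : W_25 (nat_lit 5) (nat_lit 0xf00060001000180000000000000000000000000000000) (nat_lit 0x0) (nat_lit 0x800000000c000e00240002000000000000000000000000000) := T_25 (nat_lit 159) (nat_lit 158) (nat_lit 0) (nat_lit 9) (nat_lit 10) L72967 (by decide +kernel)
theorem L72969 : W_25 (nat_lit 6) (nat_lit 0xf00020001000180000000000000000000000000000000) (nat_lit 0x0) (nat_lit 0x80000000cc000e00240002000000000000000000000000000) := T_25 (nat_lit 162) (nat_lit 163) (nat_lit 2) (nat_lit 6) (nat_lit 10) L72968 (by decide +kernel)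
theorem L72970 : W_25 (nat_lit 7) (nat_lit 0x700020001000180000000000000000000000000000000) (nat_lit 0x0) (nat_lit 0x180008000cc000e00240002000000000000000000000000000) := T_25 (nat_lit 179) (nat_lit 196) (nat_lit 7) (nat_lit 8) (nat_lit 7) L72969 (by decide +kernel)
theorem L72971 : W_25 (nat_lit 8) (nat_lit 0x700020001000080000000000000000000000000000000) (nat_lit 0x0) (nat_lit 0x180008000cc000e0034000a000000000000000000000000000) := T_25 (nat_lit 128) (nat_lit 111) (nat_lit 6) (nat_lit 8) (nat_lit 10) L72970 (by decide +kernel)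
theorem L72972 : W_25 (nat_lit 2) (nat_lit 0x80007000600010001c0000000000000000000000000000000) (nat_lit 0x0) (nat_lit 0x800180000000000000000000000000000000000000000) := D_25 (nat_lit 163) (nat_lit 164) (nat_lit 179) (nat_lit 1) (nat_lit 11) (nat_lit 9) (nat_lit 2) (nat_lit 6) (nat_lit 10) (by decide +kernel)
theorem L72973 : W_25 (nat_lit 3) (nat_lit 0x80007000200010001c0000000000000000000000000000000) (nat_lit 0x0) (nat_lit 0x8801c0000000000000000000000000000000000000000) := T_25 (nat_lit 162) (nat_lit 175) (nat_lit 2) (nat_lit 5) (nat_lit 10) L72972 (by decide +kernel)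
theorem L72974 : W_25 (nat_lit 4) (nat_lit 0x7000200010001c0000000000000000000000000000000) (nat_lit 0x0) (nat_lit 0x80008801c0000800000000000000000000000000000000000) := T_25 (nat_lit 195) (nat_lit 143) (nat_lit 4) (nat_lit 8) (nat_lit 11) L72973 (by decide +kernel)
theorem L72975 : W_25 (nat_lit 5) (nat_lit 0x7000200010000c0000000000000000000000000000000) (nat_lit 0x0) (nat_lit 0x80008801c0000800100008000000000000000000000000000) := T_25 (nat_lit 128) (nat_lit 111) (nat_lit 6) (nat_lit 8) (nat_lit 10) L72974 (by decide +kernel)
theorem L72976 : W_25 (nat_lit 6) (nat_lit 0x700020001000080000000000000000000000000000000) (nat_lit 0x0) (nat_lit 0x80008801c000080014000a000000000000000000000000000) := T_25 (nat_lit 126) (nat_lit 109) (nat_lit 4) (nat_lit 8) (nat_lit 10) L72975 (by decide +kernel)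
theorem L72977 : W_25 (nat_lit 2) (nat_lit 0xf000280018001c0000000000000000000000000000000) (nat_lit 0x0) (nat_lit 0x600200000000000000000000000000000000) := D_25 (nat_lit 142) (nat_lit 141) (nat_lit 129) (nat_lit 2) (nat_lit 5) (nat_lit 8) (nat_lit 1) (nat_lit 10) (nat_lit 7) (by decide +kernel)
theorem L72978 : W_25 (nat_lit 3) (nat_lit 0xf000280010001c0000000000000000000000000000000) (nat_lit 0x0) (nat_lit 0x8000000000000e00200000000000000000000000000000000) := T_25 (nat_lit 143) (nat_lit 195) (nat_lit 4) (nat_lit 8) (nat_lit 11) L72977 (by decide +kernel)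
theorem L72979 : W_25 (nat_lit 4) (nat_lit 0xf00028001000180000000000000000000000000000000) (nat_lit 0x0) (nat_lit 0x8000000000000e00240002000000000000000000000000000) := T_25 (nat_lit 126) (nat_lit 109) (nat_lit 4) (nat_lit 8) (nat_lit 10) L72978 (by decide +kernel)
theorem L72980 : W_25 (nat_lit 5) (nat_lit 0xf00028001000080000000000000000000000000000000) (nat_lit 0x0) (nat_lit 0x8000000000000e0034000a000000000000000000000000000) := T_25 (nat_lit 128) (nat_lit 111) (nat_lit 6) (nat_lit 8) (nat_lit 10) L72979 (by decide +kernel)
theorem L72981 : W_25 (nat_lit 6) (nat_lit 0xf00020001000080000000000000000000000000000000) (nat_lit 0x0) (nat_lit 0x800000000c000e0034000a000000000000000000000000000) := T_25 (nat_lit 159) (nat_lit 158) (nat_lit 0) (nat_lit 9) (nat_lit 10) L72980 (by decide +kernel)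
theorem L72982 : W_25 (nat_lit 7) (nat_lit 0x700020001000080000000000000000000000000000000) (nat_lit 0x0) (nat_lit 0x1800080000c000e0034000a000000000000000000000000000) := T_25 (nat_lit 179) (nat_lit 196) (nat_lit 7) (nat_lit 8) (nat_lit 7) L72981 (by decide +kernel)
theorem L72983 : W_25 (nat_lit 2) (nat_lit 0x7800240010000c0000000000000000000000000000000) (nat_lit 0x0) (nat_lit 0x10000800008000000000000000000000000000000000000000) := D_25 (nat_lit 179) (nat_lit 196) (nat_lit 159) (nat_lit 7) (nat_lit 8) (nat_lit 7) (nat_lit 0) (nat_lit 9) (nat_lit 10) (by decide +kernel)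
theorem L72984 : W_25 (nat_lit 3) (nat_lit 0x7800200010000c0000000000000000000000000000000) (nat_lit 0x0) (nat_lit 0x1000080000e000000000000000000000000000000000000000) := T_25 (nat_lit 158) (nat_lit 157) (nat_lit 0) (nat_lit 8) (nat_lit 10) L72983 (by decide +kernel)
theorem L72985 : W_25 (nat_lit 4) (nat_lit 0x7000200010000c0000000000000000000000000000000) (nat_lit 0x0) (nat_lit 0x1000088004e000000000000000000000000000000000000000) := T_25 (nat_lit 175) (nat_lit 162) (nat_lit 2) (nat_lit 5) (nat_lit 10) L72984 (by decide +kernel)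
theorem L72986 : W_25 (nat_lit 5) (nat_lit 0x700020001000080000000000000000000000000000000) (nat_lit 0x0) (nat_lit 0x1000088004e000000040002000000000000000000000000000) := T_25 (nat_lit 126) (nat_lit 109) (nat_lit 4) (nat_lit 8) (nat_lit 10) L72985 (by decide +kernel)
theorem L72987 : W_25 (nat_lit 9) (nat_lit 0x700000001000080000000000000000000000000000000) (nat_lit 0x0) (nat_lit 0x180008801ee000e0034000a000000000000000000000000000) := Q_25 (nat_lit 161) (C_25 L72960 (C_25 L72964 (C_25 L72971 (C_25 L72976 (C_25 L72982 (C_25 L72986 N_25)))))) (by decide +kernel)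
theorem L72988 : W_25 (nat_lit 6) (nat_lit 0x700000001000080000000000000000000000000000000) (nat_lit 0x0) (nat_lit 0x738018801ee000000000000000000000000000000000000000) := Q_25 (nat_lit 179) (C_25 L17085 (C_25 L72899 (C_25 L72811 N_25))) (by decide +kernel)
theorem L72989 : W_25 (nat_lit 15) (nat_lit 0x300000001000080000000000000000000000000000000) (nat_lit 0x0) (nat_lit 0x100008000fbc07cc07ef000e0034000a000000000000000000000000000) := Q_25 (nat_lit 178) (C_25 L72870 (C_25 L72900 (C_25 L72904 (C_25 L72937 (C_25 L72952 (C_25 L72959 (C_25 L72987 (C_25 L72988 N_25)))))))) (by decide +kernel)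
theorem L72990 : W_25 (nat_lit 2) (nat_lit 0x78000c001200080000000000000000000000000000000) (nat_lit 0x0) (nat_lit 0x2000000000000000010000800000000000000000000000000) := D_25 (nat_lit 124) (nat_lit 193) (nat_lit 107) (nat_lit 7) (nat_lit 5) (nat_lit 7) (nat_lit 7) (nat_lit 5) (nat_lit 6) (by decide +kernel)
theorem L72991 : W_25 (nat_lit 3) (nat_lit 0x780008001200080000000000000000000000000000000) (nat_lit 0x0) (nat_lit 0x2000000006000000010000800000000000000000000000000) := T_25 (nat_lit 158) (nat_lit 157) (nat_lit 0) (nat_lit 8) (nat_lit 10) L72990 (by decide +kernel)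
theorem L72992 : W_25 (nat_lit 2) (nat_lit 0x8000780028001600190000000000000000000000000000000) (nat_lit 0x0) (nat_lit 0x20000800040000000000000000000000) := D_25 (nat_lit 107) (nat_lit 125) (nat_lit 90) (nat_lit 4) (nat_lit 6) (nat_lit 10) (nat_lit 7) (nat_lit 5) (nat_lit 5) (by decide +kernel)
theorem L72993 : W_25 (nat_lit 3) (nat_lit 0x8000780028001600180000000000000000000000000000000) (nat_lit 0x0) (nat_lit 0x2000000000000000030000800040000000000000000000000) := T_25 (nat_lit 124) (nat_lit 193) (nat_lit 4) (nat_lit 6) (nat_lit 11) L72992 (by decide +kernel)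
theorem L72994 : W_25 (nat_lit 4) (nat_lit 0x780028001600180000000000000000000000000000000) (nat_lit 0x0) (nat_lit 0x1a000000000000000030000800040000000000000000000000) := T_25 (nat_lit 195) (nat_lit 196) (nat_lit 3) (nat_lit 5) (nat_lit 10) L72993 (by decide +kernel)
theorem L72995 : W_25 (nat_lit 5) (nat_lit 0x780028001200180000000000000000000000000000000) (nat_lit 0x0) (nat_lit 0x1a000000000000c00030000800040000000000000000000000) := T_25 (nat_lit 142) (nat_lit 143) (nat_lit 2) (nat_lit 5) (nat_lit 8) L72994 (by decide +kernel)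
theorem L72996 : W_25 (nat_lit 6) (nat_lit 0x780028001200080000000000000000000000000000000) (nat_lit 0x0) (nat_lit 0x1a000000000000c00130008800040000000000000000000000) := T_25 (nat_lit 128) (nat_lit 111) (nat_lit 6) (nat_lit 8) (nat_lit 10) L72995 (by decide +kernel)
theorem L72997 : W_25 (nat_lit 7) (nat_lit 0x780008001200080000000000000000000000000000000) (nat_lit 0x0) (nat_lit 0x1a000000060000c00130008800040000000000000000000000) := T_25 (nat_lit 161) (nat_lit 162) (nat_lit 2) (nat_lit 5) (nat_lit 10) L72996 (by decide +kernel)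
theorem L72998 : W_25 (nat_lit 2) (nat_lit 0x800078000c001200080000000000000000000000000000000) (nat_lit 0x0) (nat_lit 0x40002000000000000000010000000000000000000000000000000) := D_25 (nat_lit 193) (nat_lit 124) (nat_lit 210) (nat_lit 7) (nat_lit 5) (nat_lit 7) (nat_lit 4) (nat_lit 6) (nat_lit 12) (by decide +kernel)
theorem L72999 : W_25 (nat_lit 3) (nat_lit 0x8000780008001200080000000000000000000000000000000) (nat_lit 0x0) (nat_lit 0x40002000000006000000010000000000000000000000000000000) := T_25 (nat_lit 158) (nat_lit 157) (nat_lit 0) (nat_lit 8) (nat_lit 10) L72998 (by decide +kernel)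
theorem L73000 : W_25 (nat_lit 4) (nat_lit 0x780008001200080000000000000000000000000000000) (nat_lit 0x0) (nat_lit 0x4001a000000006000000010000000000000000000000000000000) := T_25 (nat_lit 195) (nat_lit 196) (nat_lit 3) (nat_lit 5) (nat_lit 10) L72999 (by decide +kernel)
theorem L73001 : W_25 (nat_lit 2) (nat_lit 0x40001c000800078002c001a00580000000000000000000000000000000) (nat_lit 0x0) (nat_lit 0x80002000020000000000000000000000000000000000000000000000000000) := D_25 (nat_lit 229) (nat_lit 247) (nat_lit 209) (nat_lit 7) (nat_lit 8) (nat_lit 10) (nat_lit 3) (nat_lit 5) (nat_lit 12) (by decide +kernel)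
theorem L73002 : W_25 (nat_lit 3) (nat_lit 0x1c000800078002c001a00580000000000000000000000000000000) (nat_lit 0x0) (nat_lit 0x80006000220000000000000000000000000000000000000000000000000000) := T_25 (nat_lit 230) (nat_lit 213) (nat_lit 7) (nat_lit 8) (nat_lit 9) L73001 (by decide +kernel)
theorem L73003 : W_25 (nat_lit 4) (nat_lit 0x18000800078002c001a00580000000000000000000000000000000) (nat_lit 0x0) (nat_lit 0x80006000260002000000000000000000000000000000000000000000000000) := T_25 (nat_lit 210) (nat_lit 193) (nat_lit 4) (nat_lit 6) (nat_lit 12) L73002 (by decide +kernel)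
theorem L73004 : W_25 (nat_lit 5) (nat_lit 0x10000800078002c001a00580000000000000000000000000000000) (nat_lit 0x0) (nat_lit 0x800070002e0002000000000000000000000000000000000000000000000000) := T_25 (nat_lit 211) (nat_lit 228) (nat_lit 5) (nat_lit 8) (nat_lit 9) L73003 (by decide +kernel)
theorem L73005 : W_25 (nat_lit 6) (nat_lit 0x100008000780028001a00580000000000000000000000000000000) (nat_lit 0x0) (nat_lit 0x800070002e0002000000006000000000000000000000000000000000000000) := T_25 (nat_lit 158) (nat_lit 157) (nat_lit 0) (nat_lit 8) (nat_lit 10) L73004 (by decide +kernel)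
theorem L73006 : W_25 (nat_lit 7) (nat_lit 0x8000780028001a00580000000000000000000000000000000) (nat_lit 0x0) (nat_lit 0x800070003e0002000000016000000000000000000000000000000000000000) := T_25 (nat_lit 212) (nat_lit 160) (nat_lit 4) (nat_lit 8) (nat_lit 12) L73005 (by decide +kernel)
theorem L73007 : W_25 (nat_lit 8) (nat_lit 0x8000780028001a00180000000000000000000000000000000) (nat_lit 0x0) (nat_lit 0x800070003e0002000000016000000600000000000000000000000000000000) := T_25 (nat_lit 130) (nat_lit 129) (nat_lit 1) (nat_lit 11) (nat_lit 7) L73006 (by decide +kernel)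
theorem L73008 : W_25 (nat_lit 9) (nat_lit 0x780028001a00180000000000000000000000000000000) (nat_lit 0x0) (nat_lit 0x800070003e001a000000016000000600000000000000000000000000000000) := T_25 (nat_lit 195) (nat_lit 196) (nat_lit 3) (nat_lit 5) (nat_lit 10) L73007 (by decide +kernel)
theorem L73009 : W_25 (nat_lit 10) (nat_lit 0x780028001200180000000000000000000000000000000) (nat_lit 0x0) (nat_lit 0x800070003e001a000000016000c00600000000000000000000000000000000) := T_25 (nat_lit 143) (nat_lit 142) (nat_lit 2) (nat_lit 5) (nat_lit 8) L73008 (by decide +kernel)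
theorem L73010 : W_25 (nat_lit 11) (nat_lit 0x780028001200080000000000000000000000000000000) (nat_lit 0x0) (nat_lit 0x800070003e001a000000016000c00700008000000000000000000000000000) := T_25 (nat_lit 128) (nat_lit 111) (nat_lit 6) (nat_lit 8) (nat_lit 10) L73009 (by decide +kernel)
theorem L73011 : W_25 (nat_lit 12) (nat_lit 0x780008001200080000000000000000000000000000000) (nat_lit 0x0) (nat_lit 0x800070003e001a000000076000c00700008000000000000000000000000000) := T_25 (nat_lit 161) (nat_lit 162) (nat_lit 2) (nat_lit 5) (nat_lit 10) L73010 (by decide +kernel)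
theorem L73012 : W_25 (nat_lit 2) (nat_lit 0x800078002c001a00180000000000000000000000000000000) (nat_lit 0x0) (nat_lit 0x100000000000010000100000000000000000000000000000000000) := D_25 (nat_lit 160) (nat_lit 140) (nat_lit 212) (nat_lit 0) (nat_lit 8) (nat_lit 9) (nat_lit 4) (nat_lit 8) (nat_lit 12) (by decide +kernel)
theorem L73013 : W_25 (nat_lit 3) (nat_lit 0x8000780028001a00180000000000000000000000000000000) (nat_lit 0x0) (nat_lit 0x100000000000016000100000000000000000000000000000000000) := T_25 (nat_lit 158) (nat_lit 157) (nat_lit 0) (nat_lit 8) (nat_lit 10) L73012 (by decide +kernel)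
theorem L73014 : W_25 (nat_lit 4) (nat_lit 0x8000780028001200180000000000000000000000000000000) (nat_lit 0x0) (nat_lit 0x100000000000016000d00000000000000000000000000000000000) := T_25 (nat_lit 143) (nat_lit 142) (nat_lit 2) (nat_lit 5) (nat_lit 8) L73013 (by decide +kernel)
theorem L73015 : W_25 (nat_lit 5) (nat_lit 0x8000780028001200080000000000000000000000000000000) (nat_lit 0x0) (nat_lit 0x100000000000016000d00100008000000000000000000000000000) := T_25 (nat_lit 128) (nat_lit 111) (nat_lit 6) (nat_lit 8) (nat_lit 10) L73014 (by decide +kernel)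
theorem L73016 : W_25 (nat_lit 6) (nat_lit 0x8000780008001200080000000000000000000000000000000) (nat_lit 0x0) (nat_lit 0x100000000000076000d00100008000000000000000000000000000) := T_25 (nat_lit 161) (nat_lit 162) (nat_lit 2) (nat_lit 5) (nat_lit 10) L73015 (by decide +kernel)
theorem L73017 : W_25 (nat_lit 7) (nat_lit 0x780008001200080000000000000000000000000000000) (nat_lit 0x0) (nat_lit 0x100018000000076000d00100008000000000000000000000000000) := T_25 (nat_lit 195) (nat_lit 196) (nat_lit 3) (nat_lit 5) (nat_lit 10) L73016 (by decide +kernel)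
theorem L73018 : W_25 (nat_lit 13) (nat_lit 0x780008001000080000000000000000000000000000000) (nat_lit 0x0) (nat_lit 0x800070003e001a000000076000f00730008800040000000000000000000000) := Q_25 (nat_lit 141) (C_25 L72991 (C_25 L72997 (C_25 L73000 (C_25 L73011 (C_25 L73017 N_25))))) (by decide +kernel)
theorem L73019 : W_25 (nat_lit 2) (nat_lit 0x400380009000780028001c00580000000000000000000000000000000) (nat_lit 0x0) (nat_lit 0x800040002000000000000000000000000000000000000000000000000) := D_25 (nat_lit 210) (nat_lit 227) (nat_lit 193) (nat_lit 1) (nat_lit 9) (nat_lit 12) (nat_lit 0) (nat_lit 9) (nat_lit 12) (by decide +kernel)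
theorem L73020 : W_25 (nat_lit 3) (nat_lit 0x400300009000780028001c00580000000000000000000000000000000) (nat_lit 0x0) (nat_lit 0x18000c0002000000000000000000000000000000000000000000000000) := T_25 (nat_lit 211) (nat_lit 228) (nat_lit 5) (nat_lit 8) (nat_lit 9) L73019 (by decide +kernel)
theorem L73021 : W_25 (nat_lit 4) (nat_lit 0x400100009000780028001c00580000000000000000000000000000000) (nat_lit 0x0) (nat_lit 0x58002c0002000000000000000000000000000000000000000000000000) := T_25 (nat_lit 213) (nat_lit 230) (nat_lit 7) (nat_lit 8) (nat_lit 9) L73020 (by decide +kernel)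
theorem L73022 : W_25 (nat_lit 5) (nat_lit 0x400000009000780028001c00580000000000000000000000000000000) (nat_lit 0x0) (nat_lit 0x58003c0002000000010000000000000000000000000000000000000000) := T_25 (nat_lit 212) (nat_lit 160) (nat_lit 4) (nat_lit 8) (nat_lit 12) L73021 (by decide +kernel)
theorem L73023 : W_25 (nat_lit 6) (nat_lit 0x400000009000780028001c00180000000000000000000000000000000) (nat_lit 0x0) (nat_lit 0x58003c0002000000010000000600000000000000000000000000000000) := T_25 (nat_lit 130) (nat_lit 129) (nat_lit 1) (nat_lit 11) (nat_lit 7) L73022 (by decide +kernel)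
theorem L73024 : W_25 (nat_lit 7) (nat_lit 0x400000009000780028001400180000000000000000000000000000000) (nat_lit 0x0) (nat_lit 0x58003c0002000000010000a00600000000000000000000000000000000) := T_25 (nat_lit 143) (nat_lit 141) (nat_lit 2) (nat_lit 5) (nat_lit 8) L73023 (by decide +kernel)
theorem L73025 : W_25 (nat_lit 8) (nat_lit 0x400000009000780028001400080000000000000000000000000000000) (nat_lit 0x0) (nat_lit 0x58003c0002000000010000a00700008000000000000000000000000000) := T_25 (nat_lit 128) (nat_lit 111) (nat_lit 6) (nat_lit 8) (nat_lit 10) L73024 (by decide +kernel)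
theorem L73026 : W_25 (nat_lit 9) (nat_lit 0x400000009000780008001400080000000000000000000000000000000) (nat_lit 0x0) (nat_lit 0x58003c0002000000070000a00700008000000000000000000000000000) := T_25 (nat_lit 161) (nat_lit 162) (nat_lit 2) (nat_lit 5) (nat_lit 10) L73025 (by decide +kernel)
theorem L73027 : W_25 (nat_lit 10) (nat_lit 0x400000009000780008001000080000000000000000000000000000000) (nat_lit 0x0) (nat_lit 0x58003c0002000000070000e00720008000000000000000000000000000) := T_25 (nat_lit 142) (nat_lit 125) (nat_lit 5) (nat_lit 6) (nat_lit 7) L73026 (by decide +kernel)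
theorem L73028 : W_25 (nat_lit 11) (nat_lit 0x9000780008001000080000000000000000000000000000000) (nat_lit 0x0) (nat_lit 0x5c003e0002000000070000e00720008000000000000000000000000000) := T_25 (nat_lit 226) (nat_lit 209) (nat_lit 6) (nat_lit 5) (nat_lit 13) L73027 (by decide +kernel)
theorem L73029 : W_25 (nat_lit 12) (nat_lit 0x1000780008001000080000000000000000000000000000000) (nat_lit 0x0) (nat_lit 0x5c003e001a000000070000e00720008000000000000000000000000000) := T_25 (nat_lit 195) (nat_lit 196) (nat_lit 3) (nat_lit 5) (nat_lit 10) L73028 (by decide +kernel)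
theorem L73030 : W_25 (nat_lit 13) (nat_lit 0x780008001000080000000000000000000000000000000) (nat_lit 0x0) (nat_lit 0x5c003e001b800000070000e00720008000000000000000000000000000) := T_25 (nat_lit 192) (nat_lit 191) (nat_lit 1) (nat_lit 8) (nat_lit 10) L73029 (by decide +kernel)
theorem L73031 : W_25 (nat_lit 2) (nat_lit 0x900078002c001000180000000000000000000000000000000) (nat_lit 0x0) (nat_lit 0x20000000000000000400020000000000000000000000000000000) := D_25 (nat_lit 142) (nat_lit 125) (nat_lit 209) (nat_lit 5) (nat_lit 6) (nat_lit 7) (nat_lit 6) (nat_lit 5) (nat_lit 12) (by decide +kernel)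
theorem L73032 : W_25 (nat_lit 3) (nat_lit 0x800078002c001000180000000000000000000000000000000) (nat_lit 0x0) (nat_lit 0x20001800000000000400020000000000000000000000000000000) := T_25 (nat_lit 192) (nat_lit 191) (nat_lit 1) (nat_lit 8) (nat_lit 10) L73031 (by decide +kernel)
theorem L73033 : W_25 (nat_lit 4) (nat_lit 0x78002c001000180000000000000000000000000000000) (nat_lit 0x0) (nat_lit 0x20019800000000000400020000000000000000000000000000000) := T_25 (nat_lit 195) (nat_lit 196) (nat_lit 3) (nat_lit 5) (nat_lit 10) L73032 (by decide +kernel)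
theorem L73034 : W_25 (nat_lit 5) (nat_lit 0x78002c001000080000000000000000000000000000000) (nat_lit 0x0) (nat_lit 0x20019800000000000400120008000000000000000000000000000) := T_25 (nat_lit 128) (nat_lit 111) (nat_lit 6) (nat_lit 8) (nat_lit 10) L73033 (by decide +kernel)
theorem L73035 : W_25 (nat_lit 6) (nat_lit 0x780028001000080000000000000000000000000000000) (nat_lit 0x0) (nat_lit 0x20019800000006000400120008000000000000000000000000000) := T_25 (nat_lit 158) (nat_lit 157) (nat_lit 0) (nat_lit 8) (nat_lit 10) L73034 (by decide +kernel)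
theorem L73036 : W_25 (nat_lit 7) (nat_lit 0x780008001000080000000000000000000000000000000) (nat_lit 0x0) (nat_lit 0x20019800000066000400120008000000000000000000000000000) := T_25 (nat_lit 161) (nat_lit 162) (nat_lit 2) (nat_lit 5) (nat_lit 10) L73035 (by decide +kernel)
theorem L73037 : W_25 (nat_lit 2) (nat_lit 0x100078000c001000080000000000000000000000000000000) (nat_lit 0x0) (nat_lit 0x400020000000000000000400000000000000000000000000000000000) := D_25 (nat_lit 209) (nat_lit 226) (nat_lit 142) (nat_lit 6) (nat_lit 5) (nat_lit 13) (nat_lit 6) (nat_lit 5) (nat_lit 12) (by decide +kernel)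
theorem L73038 : W_25 (nat_lit 3) (nat_lit 0x1000780008001000080000000000000000000000000000000) (nat_lit 0x0) (nat_lit 0x400020000000000006000400000000000000000000000000000000000) := T_25 (nat_lit 158) (nat_lit 157) (nat_lit 0) (nat_lit 8) (nat_lit 10) L73037 (by decide +kernel)
theorem L73039 : W_25 (nat_lit 4) (nat_lit 0x780008001000080000000000000000000000000000000) (nat_lit 0x0) (nat_lit 0x400020001800000006000400000000000000000000000000000000000) := T_25 (nat_lit 192) (nat_lit 191) (nat_lit 1) (nat_lit 8) (nat_lit 10) L73038 (by decide +kernel)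
theorem L73040 : W_25 (nat_lit 2) (nat_lit 0x6000100078002c001200180000000000000000000000000000000) (nat_lit 0x0) (nat_lit 0x10000100008000000000000000000000000000000) := D_25 (nat_lit 140) (nat_lit 123) (nat_lit 160) (nat_lit 4) (nat_lit 5) (nat_lit 11) (nat_lit 0) (nat_lit 8) (nat_lit 9) (by decide +kernel)
theorem L73041 : W_25 (nat_lit 3) (nat_lit 0x6000100078002c001000180000000000000000000000000000000) (nat_lit 0x0) (nat_lit 0x2000000010000300008000000000000000000000000000000) := T_25 (nat_lit 141) (nat_lit 193) (nat_lit 7) (nat_lit 5) (nat_lit 8) L73040 (by decide +kernel)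
theorem L73042 : W_25 (nat_lit 4) (nat_lit 0x2000100078002c001000180000000000000000000000000000000) (nat_lit 0x0) (nat_lit 0x800040002000000010000300008000000000000000000000000000000) := T_25 (nat_lit 210) (nat_lit 227) (nat_lit 7) (nat_lit 5) (nat_lit 9) L73041 (by decide +kernel)
theorem L73043 : W_25 (nat_lit 5) (nat_lit 0x2000100078002c001000080000000000000000000000000000000) (nat_lit 0x0) (nat_lit 0x800040002000000010000300108008000000000000000000000000000) := T_25 (nat_lit 128) (nat_lit 111) (nat_lit 6) (nat_lit 8) (nat_lit 10) L73042 (by decide +kernel)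
theorem L73044 : W_25 (nat_lit 6) (nat_lit 0x2000100078000c001000080000000000000000000000000000000) (nat_lit 0x0) (nat_lit 0x800040002000000070000300108008000000000000000000000000000) := T_25 (nat_lit 161) (nat_lit 162) (nat_lit 2) (nat_lit 5) (nat_lit 10) L73043 (by decide +kernel)
theorem L73045 : W_25 (nat_lit 7) (nat_lit 0x100078000c001000080000000000000000000000000000000) (nat_lit 0x0) (nat_lit 0xc00060002000000070000300108008000000000000000000000000000) := T_25 (nat_lit 209) (nat_lit 226) (nat_lit 6) (nat_lit 5) (nat_lit 13) L73044 (by decide +kernel)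
theorem L73046 : W_25 (nat_lit 8) (nat_lit 0x1000780008001000080000000000000000000000000000000) (nat_lit 0x0) (nat_lit 0xc00060002000000076000300108008000000000000000000000000000) := T_25 (nat_lit 158) (nat_lit 157) (nat_lit 0) (nat_lit 8) (nat_lit 10) L73045 (by decide +kernel)
theorem L73047 : W_25 (nat_lit 9) (nat_lit 0x780008001000080000000000000000000000000000000) (nat_lit 0x0) (nat_lit 0xc00060003800000076000300108008000000000000000000000000000) := T_25 (nat_lit 192) (nat_lit 191) (nat_lit 1) (nat_lit 8) (nat_lit 10) L73046 (by decide +kernel)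
theorem L73048 : W_25 (nat_lit 2) (nat_lit 0x900078002c001600180000000000000000000000000000000) (nat_lit 0x0) (nat_lit 0x10000100008000000000000000000000000000000) := D_25 (nat_lit 140) (nat_lit 160) (nat_lit 123) (nat_lit 0) (nat_lit 8) (nat_lit 9) (nat_lit 4) (nat_lit 5) (nat_lit 11) (by decide +kernel)
theorem L73049 : W_25 (nat_lit 3) (nat_lit 0x900078002c001400180000000000000000000000000000000) (nat_lit 0x0) (nat_lit 0x10000b00008000000000000000000000000000000) := T_25 (nat_lit 141) (nat_lit 143) (nat_lit 2) (nat_lit 5) (nat_lit 8) L73048 (by decide +kernel)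
theorem L73050 : W_25 (nat_lit 4) (nat_lit 0x900078002c001000180000000000000000000000000000000) (nat_lit 0x0) (nat_lit 0x10000f00028000000000000000000000000000000) := T_25 (nat_lit 142) (nat_lit 125) (nat_lit 5) (nat_lit 6) (nat_lit 7) L73049 (by decide +kernel)
theorem L73051 : W_25 (nat_lit 5) (nat_lit 0x100078002c001000180000000000000000000000000000000) (nat_lit 0x0) (nat_lit 0x18000000010000f00028000000000000000000000000000000) := T_25 (nat_lit 195) (nat_lit 196) (nat_lit 3) (nat_lit 5) (nat_lit 10) L73050 (by decide +kernel)
theorem L73052 : W_25 (nat_lit 6) (nat_lit 0x78002c001000180000000000000000000000000000000) (nat_lit 0x0) (nat_lit 0x19800000010000f00028000000000000000000000000000000) := T_25 (nat_lit 192) (nat_lit 191) (nat_lit 1) (nat_lit 8) (nat_lit 10) L73051 (by decide +kernel)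
theorem L73053 : W_25 (nat_lit 7) (nat_lit 0x780028001000180000000000000000000000000000000) (nat_lit 0x0) (nat_lit 0x19800000016000f00028000000000000000000000000000000) := T_25 (nat_lit 158) (nat_lit 157) (nat_lit 0) (nat_lit 8) (nat_lit 10) L73052 (by decide +kernel)
theorem L73054 : W_25 (nat_lit 8) (nat_lit 0x780028001000080000000000000000000000000000000) (nat_lit 0x0) (nat_lit 0x19800000016000f00128008000000000000000000000000000) := T_25 (nat_lit 128) (nat_lit 111) (nat_lit 6) (nat_lit 8) (nat_lit 10) L73053 (by decide +kernel)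
theorem L73055 : W_25 (nat_lit 9) (nat_lit 0x780008001000080000000000000000000000000000000) (nat_lit 0x0) (nat_lit 0x19800000076000f00128008000000000000000000000000000) := T_25 (nat_lit 161) (nat_lit 162) (nat_lit 2) (nat_lit 5) (nat_lit 10) L73054 (by decide +kernel)
theorem L73056 : W_25 (nat_lit 14) (nat_lit 0x780000001000080000000000000000000000000000000) (nat_lit 0x0) (nat_lit 0x80007c003e001b80000007e000f00738008800040000000000000000000000) := Q_25 (nat_lit 159) (C_25 L73018 (C_25 L73030 (C_25 L73036 (C_25 L73039 (C_25 L73047 (C_25 L73055 N_25)))))) (by decide +kernel)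
theorem L73057 : W_25 (nat_lit 15) (nat_lit 0x700000001000080000000000000000000000000000000) (nat_lit 0x0) (nat_lit 0x80007c003e001bc000c007f000f00738008800040000000000000000000000) := Q_25 (nat_lit 175) (C_25 L72871 (C_25 L72815 (C_25 L73056 (C_25 L72847 N_25)))) (by decide +kernel)
theorem L73058 : W_25 (nat_lit 2) (nat_lit 0x1f00028001000180000000000000000000000000000000) (nat_lit 0x0) (nat_lit 0x1c0000000000000000000000000000000000000000) := D_25 (nat_lit 163) (nat_lit 162) (nat_lit 164) (nat_lit 2) (nat_lit 6) (nat_lit 10) (nat_lit 2) (nat_lit 7) (nat_lit 10) (by decide +kernel)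
theorem L73059 : W_25 (nat_lit 3) (nat_lit 0xf00028001000180000000000000000000000000000000) (nat_lit 0x0) (nat_lit 0x10001d0000000000000000000000000000000000000000) := T_25 (nat_lit 180) (nat_lit 160) (nat_lit 0) (nat_lit 10) (nat_lit 10) L73058 (by decide +kernel)
theorem L73060 : W_25 (nat_lit 4) (nat_lit 0xf00028001000080000000000000000000000000000000) (nat_lit 0x0) (nat_lit 0x10001d0000000100008000000000000000000000000000) := T_25 (nat_lit 128) (nat_lit 111) (nat_lit 6) (nat_lit 8) (nat_lit 10) L73059 (by decide +kernel)
theorem L73061 : W_25 (nat_lit 5) (nat_lit 0xf00008001000080000000000000000000000000000000) (nat_lit 0x0) (nat_lit 0x100010001f0000000100008000000000000000000000000000) := T_25 (nat_lit 161) (nat_lit 196) (nat_lit 7) (nat_lit 8) (nat_lit 7) L73060 (by decide +kernel)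
theorem L73062 : W_25 (nat_lit 6) (nat_lit 0xf00000001000080000000000000000000000000000000) (nat_lit 0x0) (nat_lit 0x100010001fc000000100008000000000000000000000000000) := T_25 (nat_lit 159) (nat_lit 158) (nat_lit 0) (nat_lit 9) (nat_lit 10) L73061 (by decide +kernel)
theorem L73063 : W_25 (nat_lit 8) (nat_lit 0x700000001000080000000000000000000000000000000) (nat_lit 0x0) (nat_lit 0xf30038003fc000000100008000000000000000000000000000) := Q_25 (nat_lit 179) (C_25 L72899 (C_25 L73062 (C_25 L72811 (C_25 L72885 N_25)))) (by decide +kernel)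
theorem L73064 : W_25 (nat_lit 5) (nat_lit 0x700000001000080000000000000000000000000000000) (nat_lit 0x0) (nat_lit 0x3380088002e000000000000000000000000000000000000000) := Q_25 (nat_lit 179) (C_25 L17085 (C_25 L72811 N_25)) (by decide +kernel)
theorem L73065 : W_25 (nat_lit 2) (nat_lit 0x3f00068001000080000000000000000000000000000000) (nat_lit 0x0) (nat_lit 0xe0000000000000000000000000000000000000000000000000) := D_25 (nat_lit 198) (nat_lit 197) (nat_lit 199) (nat_lit 3) (nat_lit 7) (nat_lit 10) (nat_lit 3) (nat_lit 8) (nat_lit 10) (by decide +kernel)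
theorem L73066 : W_25 (nat_lit 3) (nat_lit 0x1f00068001000080000000000000000000000000000000) (nat_lit 0x0) (nat_lit 0xe0006000000000000000000000000000000000000000000000) := T_25 (nat_lit 181) (nat_lit 182) (nat_lit 0) (nat_lit 12) (nat_lit 10) L73065 (by decide +kernel)
theorem L73067 : W_25 (nat_lit 4) (nat_lit 0xf00068001000080000000000000000000000000000000) (nat_lit 0x0) (nat_lit 0xe0007000010000000000000000000000000000000000000000) := T_25 (nat_lit 180) (nat_lit 160) (nat_lit 3) (nat_lit 6) (nat_lit 9) L73066 (by decide +kernel)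
theorem L73068 : W_25 (nat_lit 5) (nat_lit 0xf00048001000080000000000000000000000000000000) (nat_lit 0x0) (nat_lit 0xe0007080030000000000000000000000000000000000000000) := T_25 (nat_lit 161) (nat_lit 175) (nat_lit 2) (nat_lit 5) (nat_lit 10) L73067 (by decide +kernel)
theorem L73069 : W_25 (nat_lit 6) (nat_lit 0xf00008001000080000000000000000000000000000000) (nat_lit 0x0) (nat_lit 0xe00070800f0000000000000000000000000000000000000000) := T_25 (nat_lit 162) (nat_lit 163) (nat_lit 2) (nat_lit 6) (nat_lit 10) L73068 (by decide +kernel)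
theorem L73070 : W_25 (nat_lit 7) (nat_lit 0xf00000001000080000000000000000000000000000000) (nat_lit 0x0) (nat_lit 0xe00070800fc000000000000000000000000000000000000000) := T_25 (nat_lit 159) (nat_lit 158) (nat_lit 0) (nat_lit 9) (nat_lit 10) L73069 (by decide +kernel)
theorem L73071 : W_25 (nat_lit 8) (nat_lit 0x700000001000080000000000000000000000000000000) (nat_lit 0x0) (nat_lit 0xf80078801fe000000100008000000000000000000000000000) := Q_25 (nat_lit 179) (C_25 L73062 (C_25 L72811 (C_25 L11432 (C_25 L73070 N_25)))) (by decide +kernel)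
theorem L73072 : W_25 (nat_lit 16) (nat_lit 0x300000001000080000000000000000000000000000000) (nat_lit 0x0) (nat_lit 0x80007c003e00fbc07cc03ff000f00738008800040000000000000000000000) := Q_25 (nat_lit 178) (C_25 L72872 (C_25 L72900 (C_25 L72988 (C_25 L73057 (C_25 L73063 (C_25 L72870 (C_25 L73064 (C_25 L73071 N_25)))))))) (by decide +kernel)
theorem L73073 : W_25 (nat_lit 2) (nat_lit 0x1f000280010000c0000000000000000000000000000000) (nat_lit 0x0) (nat_lit 0x1c0000000000000000000000000000000000000000) := D_25 (nat_lit 163) (nat_lit 162) (nat_lit 164) (nat_lit 2) (nat_lit 6) (nat_lit 10) (nat_lit 2) (nat_lit 7) (nat_lit 10) (by decide +kernel)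
theorem L73074 : W_25 (nat_lit 3) (nat_lit 0xf000280010000c0000000000000000000000000000000) (nat_lit 0x0) (nat_lit 0x10001d0000000000000000000000000000000000000000) := T_25 (nat_lit 180) (nat_lit 160) (nat_lit 0) (nat_lit 10) (nat_lit 10) L73073 (by decide +kernel)
theorem L73075 : W_25 (nat_lit 4) (nat_lit 0xf00028001000080000000000000000000000000000000) (nat_lit 0x0) (nat_lit 0x10001d0000000040002000000000000000000000000000) := T_25 (nat_lit 126) (nat_lit 109) (nat_lit 4) (nat_lit 8) (nat_lit 10) L73074 (by decide +kernel)
theorem L73076 : W_25 (nat_lit 5) (nat_lit 0xf00008001000080000000000000000000000000000000) (nat_lit 0x0) (nat_lit 0x100010001f0000000040002000000000000000000000000000) := T_25 (nat_lit 161) (nat_lit 196) (nat_lit 7) (nat_lit 8) (nat_lit 7) L73075 (by decide +kernel)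
theorem L73077 : W_25 (nat_lit 6) (nat_lit 0xf00000001000080000000000000000000000000000000) (nat_lit 0x0) (nat_lit 0x100010001fc000000040002000000000000000000000000000) := T_25 (nat_lit 159) (nat_lit 158) (nat_lit 0) (nat_lit 9) (nat_lit 10) L73076 (by decide +kernel)
theorem L73078 : W_25 (nat_lit 8) (nat_lit 0x700000001000080000000000000000000000000000000) (nat_lit 0x0) (nat_lit 0xf30038003fc000000040002000000000000000000000000000) := Q_25 (nat_lit 179) (C_25 L72899 (C_25 L73077 (C_25 L72811 (C_25 L72885 N_25)))) (by decide +kernel)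
theorem L73079 : W_25 (nat_lit 8) (nat_lit 0x700000001000080000000000000000000000000000000) (nat_lit 0x0) (nat_lit 0xf80078801fe000000040002000000000000000000000000000) := Q_25 (nat_lit 179) (C_25 L73077 (C_25 L72811 (C_25 L11432 (C_25 L73070 N_25)))) (by decide +kernel)
theorem L73080 : W_25 (nat_lit 9) (nat_lit 0x300000001000080000000000000000000000000000000) (nat_lit 0x0) (nat_lit 0xfbc07cc03ff000800040002000000000000000000000000000) := Q_25 (nat_lit 178) (C_25 L72904 (C_25 L72900 (C_25 L73064 (C_25 L73078 (C_25 L72870 (C_25 L72872 (C_25 L73079 N_25))))))) (by decide +kernel)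
theorem L73083 : W_25 (nat_lit 4) (nat_lit 0x800380000001000080000000000000000000000000000000) (nat_lit 0x0) (nat_lit 0x1400440007000000000000000000000000000000000000000) := T_25 (nat_lit 174) (nat_lit 190) (nat_lit 1) (nat_lit 7) (nat_lit 10) L73082 (by decide +kernel)
theorem L73084 : W_25 (nat_lit 3) (nat_lit 0x800380000001000080000000000000000000000000000000) (nat_lit 0x0) (nat_lit 0x1600440000000000000000000000000000000000000000000) := T_25 (nat_lit 192) (nat_lit 178) (nat_lit 1) (nat_lit 8) (nat_lit 10) L14570 (by decide +kernel)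
theorem L73085 : W_25 (nat_lit 3) (nat_lit 0x8003c0002001000080000000000000000000000000000000) (nat_lit 0x0) (nat_lit 0x200010000000400004000200000000000000000000000000000000000) := T_25 (nat_lit 158) (nat_lit 178) (nat_lit 0) (nat_lit 8) (nat_lit 10) L72299 (by decide +kernel)
theorem L73086 : W_25 (nat_lit 4) (nat_lit 0x8003c0000001000080000000000000000000000000000000) (nat_lit 0x0) (nat_lit 0x200010000000400007000200000000000000000000000000000000000) := T_25 (nat_lit 157) (nat_lit 156) (nat_lit 0) (nat_lit 7) (nat_lit 10) L73085 (by decide +kernel)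
theorem L73087 : W_25 (nat_lit 5) (nat_lit 0x800380000001000080000000000000000000000000000000) (nat_lit 0x0) (nat_lit 0x200010000400440007000200000000000000000000000000000000000) := T_25 (nat_lit 174) (nat_lit 190) (nat_lit 1) (nat_lit 7) (nat_lit 10) L73086 (by decide +kernel)
theorem L73088 : W_25 (nat_lit 2) (nat_lit 0x800380004001000080000000000000000000000000000000) (nat_lit 0x0) (nat_lit 0x1000400002000000000000000000000000000000000000000) := D_25 (nat_lit 178) (nat_lit 157) (nat_lit 192) (nat_lit 0) (nat_lit 8) (nat_lit 10) (nat_lit 1) (nat_lit 8) (nat_lit 10) (by decide +kernel)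
theorem L73089 : W_25 (nat_lit 2) (nat_lit 0x8003800040012000b0000000000000000000000000000000) (nat_lit 0x0) (nat_lit 0x10001000000000000400000000000000000000000000000000000) := D_25 (nat_lit 192) (nat_lit 208) (nat_lit 142) (nat_lit 5) (nat_lit 5) (nat_lit 8) (nat_lit 6) (nat_lit 5) (nat_lit 11) (by decide +kernel)
theorem L73090 : W_25 (nat_lit 3) (nat_lit 0x800380004001200090000000000000000000000000000000) (nat_lit 0x0) (nat_lit 0x10001000000000000400020001000000000000000000000000000) := T_25 (nat_lit 125) (nat_lit 108) (nat_lit 6) (nat_lit 5) (nat_lit 10) L73089 (by decide +kernel)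
theorem L73091 : W_25 (nat_lit 4) (nat_lit 0x800380004001200080000000000000000000000000000000) (nat_lit 0x0) (nat_lit 0x10003000000000000400030001000000000000000000000000000) := T_25 (nat_lit 124) (nat_lit 193) (nat_lit 7) (nat_lit 5) (nat_lit 7) L73090 (by decide +kernel)
theorem L73092 : W_25 (nat_lit 2) (nat_lit 0x1800380004001700080000000000000000000000000000000) (nat_lit 0x0) (nat_lit 0x2000800100000000000000000000000000000000) := D_25 (nat_lit 143) (nat_lit 128) (nat_lit 157) (nat_lit 2) (nat_lit 5) (nat_lit 8) (nat_lit 1) (nat_lit 8) (nat_lit 8) (by decide +kernel)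
theorem L73093 : W_25 (nat_lit 3) (nat_lit 0x1800380004001300080000000000000000000000000000000) (nat_lit 0x0) (nat_lit 0x2000c00120000000000000000000000000000000) := T_25 (nat_lit 142) (nat_lit 125) (nat_lit 6) (nat_lit 5) (nat_lit 11) L73092 (by decide +kernel)
theorem L73094 : W_25 (nat_lit 4) (nat_lit 0x1800380004001200080000000000000000000000000000000) (nat_lit 0x0) (nat_lit 0x2000d00128000000000000000000000000000000) := T_25 (nat_lit 140) (nat_lit 123) (nat_lit 4) (nat_lit 5) (nat_lit 11) L73093 (by decide +kernel)
theorem L73095 : W_25 (nat_lit 5) (nat_lit 0x800380004001200080000000000000000000000000000000) (nat_lit 0x0) (nat_lit 0x10001000000002000d00128000000000000000000000000000000) := T_25 (nat_lit 192) (nat_lit 208) (nat_lit 5) (nat_lit 5) (nat_lit 8) L73094 (by decide +kernel)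
theorem L73096 : W_25 (nat_lit 8) (nat_lit 0x800380004001000080000000000000000000000000000000) (nat_lit 0x0) (nat_lit 0x70003000040002000f00178001000000000000000000000000000) := Q_25 (nat_lit 141) (C_25 L12665 (C_25 L73091 (C_25 L12675 (C_25 L73095 N_25)))) (by decide +kernel)
theorem L73097 : W_25 (nat_lit 9) (nat_lit 0x800380000001000080000000000000000000000000000000) (nat_lit 0x0) (nat_lit 0x70003000440007800f00178001000000000000000000000000000) := Q_25 (nat_lit 158) (C_25 L12678 (C_25 L73088 (C_25 L73096 (C_25 L12681 N_25)))) (by decide +kernel)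
theorem L73098 : W_25 (nat_lit 10) (nat_lit 0x380000001000080000000000000000000000000000000) (nat_lit 0x0) (nat_lit 0x200070003e00440007800f00178001000000000000000000000000000) := Q_25 (nat_lit 191) (C_25 L73083 (C_25 L73084 (C_25 L12663 (C_25 L12661 (C_25 L73087 (C_25 L73097 N_25)))))) (by decide +kernel)
theorem L73099 : W_25 (nat_lit 9) (nat_lit 0x380000001000080000000000000000000000000000000) (nat_lit 0x0) (nat_lit 0x1bc00c40077000e0034000a000000000000000000000000000) := Q_25 (nat_lit 178) (C_25 L72903 (C_25 L72944 (C_25 L72871 (C_25 L72815 N_25)))) (by decide +kernel)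
theorem L73100 : W_25 (nat_lit 6) (nat_lit 0x380000001000080000000000000000000000000000000) (nat_lit 0x0) (nat_lit 0x3c00c400f7000000000000000000000000000000000000000) := Q_25 (nat_lit 178) (C_25 L72847 (C_25 L72871 (C_25 L72815 (C_25 L72789 N_25)))) (by decide +kernel)
theorem L73101 : W_25 (nat_lit 9) (nat_lit 0x380000001000080000000000000000000000000000000) (nat_lit 0x0) (nat_lit 0x3bc00c40070000e0034000a000000000000000000000000000) := Q_25 (nat_lit 178) (C_25 L72903 (C_25 L72944 (C_25 L72871 (C_25 L13282 N_25)))) (by decide +kernel)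
theorem L73102 : W_25 (nat_lit 9) (nat_lit 0x380000001000080000000000000000000000000000000) (nat_lit 0x0) (nat_lit 0x3b800c000e6000e0034000a000000000000000000000000000) := Q_25 (nat_lit 178) (C_25 L72903 (C_25 L13282 (C_25 L72944 (C_25 L72789 N_25)))) (by decide +kernel)
theorem L73103 : W_25 (nat_lit 2) (nat_lit 0x3c0022001000080000000000000000000000000000000) (nat_lit 0x0) (nat_lit 0x400044000000000000000000000000000000000000000) := D_25 (nat_lit 178) (nat_lit 158) (nat_lit 162) (nat_lit 0) (nat_lit 8) (nat_lit 10) (nat_lit 2) (nat_lit 5) (nat_lit 10) (by decide +kernel)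
theorem L73104 : W_25 (nat_lit 3) (nat_lit 0x3c0002001000080000000000000000000000000000000) (nat_lit 0x0) (nat_lit 0x400074000000000000000000000000000000000000000) := T_25 (nat_lit 161) (nat_lit 160) (nat_lit 2) (nat_lit 4) (nat_lit 10) L73103 (by decide +kernel)
theorem L73105 : W_25 (nat_lit 4) (nat_lit 0x3c0000001000080000000000000000000000000000000) (nat_lit 0x0) (nat_lit 0x400077000000000000000000000000000000000000000) := T_25 (nat_lit 157) (nat_lit 156) (nat_lit 0) (nat_lit 7) (nat_lit 10) L73104 (by decide +kernel)
theorem L73106 : W_25 (nat_lit 2) (nat_lit 0x8007c0020001000080000000000000000000000000000000) (nat_lit 0x0) (nat_lit 0x18000800000000000000000000000000000000000000000000) := D_25 (nat_lit 196) (nat_lit 195) (nat_lit 179) (nat_lit 3) (nat_lit 5) (nat_lit 10) (nat_lit 7) (nat_lit 8) (nat_lit 7) (by decide +kernel)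
theorem L73107 : W_25 (nat_lit 3) (nat_lit 0x8003c0020001000080000000000000000000000000000000) (nat_lit 0x0) (nat_lit 0x18000c00040000000000000000000000000000000000000000) := T_25 (nat_lit 178) (nat_lit 162) (nat_lit 2) (nat_lit 5) (nat_lit 10) L73106 (by decide +kernel)
theorem L73108 : W_25 (nat_lit 4) (nat_lit 0x8003c0000001000080000000000000000000000000000000) (nat_lit 0x0) (nat_lit 0x18000c00070000000000000000000000000000000000000000) := T_25 (nat_lit 161) (nat_lit 160) (nat_lit 2) (nat_lit 4) (nat_lit 10) L73107 (by decide +kernel)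
theorem L73109 : W_25 (nat_lit 5) (nat_lit 0x3c0000001000080000000000000000000000000000000) (nat_lit 0x0) (nat_lit 0x18c00c00070000000000000000000000000000000000000000) := T_25 (nat_lit 191) (nat_lit 190) (nat_lit 1) (nat_lit 7) (nat_lit 10) L73108 (by decide +kernel)
theorem L73110 : W_25 (nat_lit 6) (nat_lit 0x380000001000080000000000000000000000000000000) (nat_lit 0x0) (nat_lit 0x18e00c60077800000000000000000000000000000000000000) := Q_25 (nat_lit 174) (C_25 L71636 (C_25 L73105 (C_25 L73109 N_25))) (by decide +kernel)
theorem L73111 : W_25 (nat_lit 2) (nat_lit 0x3800068012000f0000000000000000000000000000000) (nat_lit 0x0) (nat_lit 0x8000c00000000000000000000000000) := D_25 (nat_lit 106) (nat_lit 107) (nat_lit 123) (nat_lit 0) (nat_lit 8) (nat_lit 7) (nat_lit 4) (nat_lit 5) (nat_lit 10) (by decide +kernel)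
theorem L73112 : W_25 (nat_lit 3) (nat_lit 0x3800068012000b0000000000000000000000000000000) (nat_lit 0x0) (nat_lit 0x100048000c00000000000000000000000000) := T_25 (nat_lit 126) (nat_lit 140) (nat_lit 1) (nat_lit 8) (nat_lit 7) L73111 (by decide +kernel)
theorem L73113 : W_25 (nat_lit 4) (nat_lit 0x380006801200090000000000000000000000000000000) (nat_lit 0x0) (nat_lit 0x100068001c00000000000000000000000000) := T_25 (nat_lit 125) (nat_lit 108) (nat_lit 6) (nat_lit 5) (nat_lit 10) L73112 (by decide +kernel)
theorem L73114 : W_25 (nat_lit 5) (nat_lit 0x380006801200080000000000000000000000000000000) (nat_lit 0x0) (nat_lit 0x2000000000000100078001c00000000000000000000000000) := T_25 (nat_lit 124) (nat_lit 193) (nat_lit 7) (nat_lit 5) (nat_lit 7) L73113 (by decide +kernel)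
theorem L73115 : W_25 (nat_lit 6) (nat_lit 0x380006001200080000000000000000000000000000000) (nat_lit 0x0) (nat_lit 0x2000000001800100078001c00000000000000000000000000) := T_25 (nat_lit 155) (nat_lit 156) (nat_lit 3) (nat_lit 2) (nat_lit 9) L73114 (by decide +kernel)
theorem L73116 : W_25 (nat_lit 2) (nat_lit 0x380006801a00090000c00040000000000000000000000) (nat_lit 0x0) (nat_lit 0x1000080004000000000000000000) := D_25 (nat_lit 91) (nat_lit 108) (nat_lit 74) (nat_lit 6) (nat_lit 5) (nat_lit 9) (nat_lit 6) (nat_lit 5) (nat_lit 8) (by decide +kernel)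
theorem L73117 : W_25 (nat_lit 3) (nat_lit 0x380006801a00090000c00000000000000000000000000) (nat_lit 0x0) (nat_lit 0x1000000010000c0004000000000000000000) := T_25 (nat_lit 90) (nat_lit 140) (nat_lit 5) (nat_lit 5) (nat_lit 5) L73116 (by decide +kernel)
theorem L73118 : W_25 (nat_lit 4) (nat_lit 0x380006801a00090000400000000000000000000000000) (nat_lit 0x0) (nat_lit 0x1000000018000e0004000000000000000000) := T_25 (nat_lit 107) (nat_lit 89) (nat_lit 4) (nat_lit 5) (nat_lit 9) L73117 (by decide +kernel)
theorem L73119 : W_25 (nat_lit 5) (nat_lit 0x380006001a00090000400000000000000000000000000) (nat_lit 0x0) (nat_lit 0x18001000000018000e0004000000000000000000) := T_25 (nat_lit 155) (nat_lit 156) (nat_lit 3) (nat_lit 2) (nat_lit 9) L73118 (by decide +kernel)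
theorem L73120 : W_25 (nat_lit 6) (nat_lit 0x380006001200090000400000000000000000000000000) (nat_lit 0x0) (nat_lit 0x1800d000000018000e0004000000000000000000) := T_25 (nat_lit 143) (nat_lit 142) (nat_lit 1) (nat_lit 8) (nat_lit 8) L73119 (by decide +kernel)
theorem L73121 : W_25 (nat_lit 7) (nat_lit 0x380006001200090000000000000000000000000000000) (nat_lit 0x0) (nat_lit 0x1800d00008001c000e0004000000000000000000) := T_25 (nat_lit 106) (nat_lit 123) (nat_lit 4) (nat_lit 5) (nat_lit 10) L73120 (by decide +kernel)
theorem L73122 : W_25 (nat_lit 8) (nat_lit 0x380006001200080000000000000000000000000000000) (nat_lit 0x0) (nat_lit 0x2000000001800d00018001c000e0004000000000000000000) := T_25 (nat_lit 124) (nat_lit 193) (nat_lit 7) (nat_lit 5) (nat_lit 7) L73121 (by decide +kernel)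
theorem L73123 : W_25 (nat_lit 9) (nat_lit 0x380006001000080000000000000000000000000000000) (nat_lit 0x0) (nat_lit 0x20003000000001800f00078001c000e0004000000000000000000) := Q_25 (nat_lit 141) (C_25 L73115 (C_25 L73122 (C_25 L72013 (C_25 L72010 N_25)))) (by decide +kernel)
theorem L73124 : W_25 (nat_lit 2) (nat_lit 0x3800060012000f0000000000000000000000000000000) (nat_lit 0x0) (nat_lit 0x40000000000000000c00000000000000000000000000) := D_25 (nat_lit 107) (nat_lit 106) (nat_lit 174) (nat_lit 0) (nat_lit 8) (nat_lit 7) (nat_lit 5) (nat_lit 5) (nat_lit 6) (by decide +kernel)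
theorem L73125 : W_25 (nat_lit 3) (nat_lit 0x3800060012000b0000000000000000000000000000000) (nat_lit 0x0) (nat_lit 0x40000000100040000c00000000000000000000000000) := T_25 (nat_lit 126) (nat_lit 140) (nat_lit 1) (nat_lit 8) (nat_lit 7) L73124 (by decide +kernel)
theorem L73126 : W_25 (nat_lit 4) (nat_lit 0x380006001200090000000000000000000000000000000) (nat_lit 0x0) (nat_lit 0x40000000100060001c00000000000000000000000000) := T_25 (nat_lit 125) (nat_lit 108) (nat_lit 6) (nat_lit 5) (nat_lit 10) L73125 (by decide +kernel)
theorem L73127 : W_25 (nat_lit 5) (nat_lit 0x380006001200080000000000000000000000000000000) (nat_lit 0x0) (nat_lit 0x2000040000000100070001c00000000000000000000000000) := T_25 (nat_lit 124) (nat_lit 193) (nat_lit 7) (nat_lit 5) (nat_lit 7) L73126 (by decide +kernel)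
theorem L73128 : W_25 (nat_lit 2) (nat_lit 0x380006001200090000800000000000000000000000000) (nat_lit 0x0) (nat_lit 0x8000400020000000000000000000000) := D_25 (nat_lit 106) (nat_lit 123) (nat_lit 89) (nat_lit 4) (nat_lit 5) (nat_lit 10) (nat_lit 4) (nat_lit 5) (nat_lit 9) (by decide +kernel)
theorem L73129 : W_25 (nat_lit 3) (nat_lit 0x380006001200090000000000000000000000000000000) (nat_lit 0x0) (nat_lit 0x40000000000008000c00020000000000000000000000) := T_25 (nat_lit 107) (nat_lit 174) (nat_lit 5) (nat_lit 5) (nat_lit 6) L73128 (by decide +kernel)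
theorem L73130 : W_25 (nat_lit 4) (nat_lit 0x380006001200080000000000000000000000000000000) (nat_lit 0x0) (nat_lit 0x2000040000000000018000c00020000000000000000000000) := T_25 (nat_lit 124) (nat_lit 193) (nat_lit 7) (nat_lit 5) (nat_lit 7) L73129 (by decide +kernel)
theorem L73131 : W_25 (nat_lit 6) (nat_lit 0x380006001000080000000000000000000000000000000) (nat_lit 0x0) (nat_lit 0x20003000040000000f00078001c00020000000000000000000000) := Q_25 (nat_lit 141) (C_25 L73127 (C_25 L73130 (C_25 L72013 N_25))) (by decide +kernel)
theorem L73132 : W_25 (nat_lit 10) (nat_lit 0x380002001000080000000000000000000000000000000) (nat_lit 0x0) (nat_lit 0x20003000040005800f00078001c000e0004000000000000000000) := Q_25 (nat_lit 158) (C_25 L13737 (C_25 L73123 (C_25 L73131 N_25))) (by decide +kernel)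
theorem L73133 : W_25 (nat_lit 4) (nat_lit 0x380002001000080000000000000000000000000000000) (nat_lit 0x0) (nat_lit 0x440075000000000000000000000000000000000000000) := T_25 (nat_lit 174) (nat_lit 156) (nat_lit 0) (nat_lit 7) (nat_lit 10) L73104 (by decide +kernel)
theorem L73134 : W_25 (nat_lit 2) (nat_lit 0x7c0022001000080000000000000000000000000000000) (nat_lit 0x0) (nat_lit 0x18000800000000000000000000000000000000000000000000) := D_25 (nat_lit 196) (nat_lit 195) (nat_lit 179) (nat_lit 3) (nat_lit 5) (nat_lit 10) (nat_lit 7) (nat_lit 8) (nat_lit 7) (by decide +kernel)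
theorem L73135 : W_25 (nat_lit 3) (nat_lit 0x3c0022001000080000000000000000000000000000000) (nat_lit 0x0) (nat_lit 0x18000c00040000000000000000000000000000000000000000) := T_25 (nat_lit 178) (nat_lit 162) (nat_lit 2) (nat_lit 5) (nat_lit 10) L73134 (by decide +kernel)
theorem L73136 : W_25 (nat_lit 4) (nat_lit 0x3c0002001000080000000000000000000000000000000) (nat_lit 0x0) (nat_lit 0x18000c00070000000000000000000000000000000000000000) := T_25 (nat_lit 161) (nat_lit 160) (nat_lit 2) (nat_lit 4) (nat_lit 10) L73135 (by decide +kernel)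
theorem L73137 : W_25 (nat_lit 5) (nat_lit 0x380002001000080000000000000000000000000000000) (nat_lit 0x0) (nat_lit 0x18000c40071000000000000000000000000000000000000000) := T_25 (nat_lit 174) (nat_lit 156) (nat_lit 0) (nat_lit 7) (nat_lit 10) L73136 (by decide +kernel)
theorem L73138 : W_25 (nat_lit 2) (nat_lit 0x780022001000080000000000000000000000000000000) (nat_lit 0x0) (nat_lit 0x18000800000000000000000000000000000000000000000000) := D_25 (nat_lit 196) (nat_lit 195) (nat_lit 179) (nat_lit 3) (nat_lit 5) (nat_lit 10) (nat_lit 7) (nat_lit 8) (nat_lit 7) (by decide +kernel)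
theorem L73139 : W_25 (nat_lit 3) (nat_lit 0x780002001000080000000000000000000000000000000) (nat_lit 0x0) (nat_lit 0x18000800060000000000000000000000000000000000000000) := T_25 (nat_lit 161) (nat_lit 162) (nat_lit 2) (nat_lit 5) (nat_lit 10) L73138 (by decide +kernel)
theorem L73140 : W_25 (nat_lit 4) (nat_lit 0x380002001000080000000000000000000000000000000) (nat_lit 0x0) (nat_lit 0x18000c00064000000000000000000000000000000000000000) := T_25 (nat_lit 178) (nat_lit 158) (nat_lit 0) (nat_lit 8) (nat_lit 10) L73139 (by decide +kernel)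
theorem L73141 : W_25 (nat_lit 11) (nat_lit 0x380000001000080000000000000000000000000000000) (nat_lit 0x0) (nat_lit 0x2001b000c40077800f00078001c000e0004000000000000000000) := Q_25 (nat_lit 157) (C_25 L73132 (C_25 L73133 (C_25 L73137 (C_25 L73140 N_25)))) (by decide +kernel)
theorem L73142 : W_25 (nat_lit 17) (nat_lit 0x300000001000080000000000000000000000000000000) (nat_lit 0x0) (nat_lit 0x1c000f8007e03bf00cf80f7e00fa077f00be000e0004000000000000000000) := Q_25 (nat_lit 175) (C_25 L73098 (C_25 L73099 (C_25 L73100 (C_25 L73101 (C_25 L73102 (C_25 L71965 (C_25 L73110 (C_25 L73141 N_25)))))))) (by decide +kernel)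
theorem L73143 : W_25 (nat_lit 5) (nat_lit 0x3c0000001000080000000000000000000000000000000) (nat_lit 0x0) (nat_lit 0x200010000c00400007000200000000000000000000000000000000000) := T_25 (nat_lit 191) (nat_lit 190) (nat_lit 1) (nat_lit 7) (nat_lit 10) L73086 (by decide +kernel)
theorem L73144 : W_25 (nat_lit 10) (nat_lit 0x380000001000080000000000000000000000000000000) (nat_lit 0x0) (nat_lit 0x200010003f8047801fe00200010000000000000000000000000000000) := Q_25 (nat_lit 174) (C_25 L72581 (C_25 L71636 (C_25 L13197 (C_25 L71967 (C_25 L73143 (C_25 L13244 N_25)))))) (by decide +kernel)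
theorem L73145 : W_25 (nat_lit 2) (nat_lit 0x10000780004001000080000000000000000000000000000000) (nat_lit 0x0) (nat_lit 0x20000800008000000000000000000000000000000000000000) := D_25 (nat_lit 179) (nat_lit 159) (nat_lit 197) (nat_lit 0) (nat_lit 9) (nat_lit 10) (nat_lit 3) (nat_lit 6) (nat_lit 10) (by decide +kernel)
theorem L73146 : W_25 (nat_lit 3) (nat_lit 0x780004001000080000000000000000000000000000000) (nat_lit 0x0) (nat_lit 0x38000800008000000000000000000000000000000000000000) := T_25 (nat_lit 196) (nat_lit 195) (nat_lit 3) (nat_lit 5) (nat_lit 10) L73145 (by decide +kernel)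
theorem L73147 : W_25 (nat_lit 4) (nat_lit 0x780000001000080000000000000000000000000000000) (nat_lit 0x0) (nat_lit 0x3800080000e000000000000000000000000000000000000000) := T_25 (nat_lit 158) (nat_lit 157) (nat_lit 0) (nat_lit 8) (nat_lit 10) L73146 (by decide +kernel)
theorem L73148 : W_25 (nat_lit 5) (nat_lit 0x380000001000080000000000000000000000000000000) (nat_lit 0x0) (nat_lit 0x3bc00c4000f000000000000000000000000000000000000000) := Q_25 (nat_lit 178) (C_25 L13282 (C_25 L72815 (C_25 L73147 N_25))) (by decide +kernel)
theorem L73149 : W_25 (nat_lit 2) (nat_lit 0x380008001c002c0000000000000000000000000000000) (nat_lit 0x0) (nat_lit 0x20002000100000000000000000000000) := D_25 (nat_lit 109) (nat_lit 125) (nat_lit 92) (nat_lit 6) (nat_lit 6) (nat_lit 10) (nat_lit 5) (nat_lit 7) (nat_lit 5) (by decide +kernel)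
theorem L73150 : W_25 (nat_lit 3) (nat_lit 0x380000001c002c0000000000000000000000000000000) (nat_lit 0x0) (nat_lit 0x2000000008000000020002000100000000000000000000000) := T_25 (nat_lit 159) (nat_lit 193) (nat_lit 6) (nat_lit 6) (nat_lit 11) L73149 (by decide +kernel)
theorem L73151 : W_25 (nat_lit 4) (nat_lit 0x380000001c000c0000000000000000000000000000000) (nat_lit 0x0) (nat_lit 0x2000000008000000320002000100000000000000000000000) := T_25 (nat_lit 129) (nat_lit 128) (nat_lit 1) (nat_lit 10) (nat_lit 7) L73150 (by decide +kernel)
theorem L73152 : W_25 (nat_lit 2) (nat_lit 0x380000001c000c0000000000000000000000000000000) (nat_lit 0x0) (nat_lit 0x200300000000000000000000000000000000) := D_25 (nat_lit 128) (nat_lit 129) (nat_lit 141) (nat_lit 1) (nat_lit 10) (nat_lit 7) (nat_lit 2) (nat_lit 5) (nat_lit 8) (by decide +kernel)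
theorem L73153 : W_25 (nat_lit 5) (nat_lit 0x3800000018000c0000000000000000000000000000000) (nat_lit 0x0) (nat_lit 0x2000000008000600320002000100000000000000000000000) := Q_25 (nat_lit 142) (C_25 L73151 (C_25 L73152 (C_25 L13357 N_25))) (by decide +kernel)
theorem L73154 : W_25 (nat_lit 2) (nat_lit 0x780010001a000f0000800000000000000000000000000) (nat_lit 0x0) (nat_lit 0x8000400100000000000000000000000000000000) := D_25 (nat_lit 142) (nat_lit 159) (nat_lit 128) (nat_lit 4) (nat_lit 6) (nat_lit 10) (nat_lit 2) (nat_lit 5) (nat_lit 8) (by decide +kernel)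
theorem L73155 : W_25 (nat_lit 3) (nat_lit 0x7800100018000f0000800000000000000000000000000) (nat_lit 0x0) (nat_lit 0x8000700100000000000000000000000000000000) := T_25 (nat_lit 141) (nat_lit 140) (nat_lit 1) (nat_lit 8) (nat_lit 7) L73154 (by decide +kernel)
theorem L73156 : W_25 (nat_lit 4) (nat_lit 0x7800100018000f0000000000000000000000000000000) (nat_lit 0x0) (nat_lit 0x8000700100000c00000000000000000000000000) := T_25 (nat_lit 107) (nat_lit 106) (nat_lit 0) (nat_lit 8) (nat_lit 7) L73155 (by decide +kernel)
theorem L73157 : W_25 (nat_lit 5) (nat_lit 0x3800100018000f0000000000000000000000000000000) (nat_lit 0x0) (nat_lit 0x8000400008000700100000c00000000000000000000000000) := T_25 (nat_lit 178) (nat_lit 195) (nat_lit 7) (nat_lit 7) (nat_lit 7) L73156 (by decide +kernel)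
theorem L73158 : W_25 (nat_lit 6) (nat_lit 0x3800100018000e0000000000000000000000000000000) (nat_lit 0x0) (nat_lit 0x8000400008000700118000c00000000000000000000000000) := T_25 (nat_lit 124) (nat_lit 123) (nat_lit 3) (nat_lit 4) (nat_lit 7) L73157 (by decide +kernel)
theorem L73159 : W_25 (nat_lit 7) (nat_lit 0x3800100018000c0000000000000000000000000000000) (nat_lit 0x0) (nat_lit 0x8000400008000700138001c00000000000000000000000000) := T_25 (nat_lit 125) (nat_lit 108) (nat_lit 4) (nat_lit 7) (nat_lit 10) L73158 (by decide +kernel)
theorem L73160 : W_25 (nat_lit 8) (nat_lit 0x3800000018000c0000000000000000000000000000000) (nat_lit 0x0) (nat_lit 0xa000400018000700138001c00000000000000000000000000) := T_25 (nat_lit 160) (nat_lit 193) (nat_lit 5) (nat_lit 7) (nat_lit 7) L73159 (by decide +kernel)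
theorem L73161 : W_25 (nat_lit 7) (nat_lit 0x3800000018000c0000000000000000000000000000000) (nat_lit 0x0) (nat_lit 0x18000700120003c0078001c000000000000000000) := Q_25 (nat_lit 109) (C_25 L13691 (C_25 L13700 (C_25 L13696 (C_25 L13701 N_25)))) (by decide +kernel)
theorem L73162 : W_25 (nat_lit 11) (nat_lit 0x380000001800080000000000000000000000000000000) (nat_lit 0x0) (nat_lit 0xa00040001800070077803bc0078001c000000000000000000) := Q_25 (nat_lit 126) (C_25 L13313 (C_25 L73153 (C_25 L13355 (C_25 L73160 (C_25 L13322 (C_25 L73161 N_25)))))) (by decide +kernel)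
theorem L73163 : W_25 (nat_lit 2) (nat_lit 0x4003c0001001800080000000000000000000000000000000) (nat_lit 0x0) (nat_lit 0x200020000800000000000000000000000000000000000000) := D_25 (nat_lit 173) (nat_lit 155) (nat_lit 189) (nat_lit 0) (nat_lit 6) (nat_lit 10) (nat_lit 1) (nat_lit 6) (nat_lit 10) (by decide +kernel)
theorem L73164 : W_25 (nat_lit 3) (nat_lit 0x3c0001001800080000000000000000000000000000000) (nat_lit 0x0) (nat_lit 0xe00020000800000000000000000000000000000000000000) := T_25 (nat_lit 190) (nat_lit 191) (nat_lit 1) (nat_lit 7) (nat_lit 10) L73163 (by decide +kernel)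
theorem L73165 : W_25 (nat_lit 4) (nat_lit 0x3c0000001800080000000000000000000000000000000) (nat_lit 0x0) (nat_lit 0xe00020003800000000000000000000000000000000000000) := T_25 (nat_lit 156) (nat_lit 157) (nat_lit 0) (nat_lit 7) (nat_lit 10) L73164 (by decide +kernel)
theorem L73166 : W_25 (nat_lit 2) (nat_lit 0x4000000010801fc00900018002c0000000000000000000000000000000) (nat_lit 0x0) (nat_lit 0x400500000000000000000000000000000000) := D_25 (nat_lit 128) (nat_lit 130) (nat_lit 142) (nat_lit 1) (nat_lit 11) (nat_lit 7) (nat_lit 1) (nat_lit 10) (nat_lit 7) (by decide +kernel)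
theorem L73167 : W_25 (nat_lit 3) (nat_lit 0x4000000010801fc00900018000c0000000000000000000000000000000) (nat_lit 0x0) (nat_lit 0x4400700000000000000000000000000000000) := T_25 (nat_lit 129) (nat_lit 146) (nat_lit 5) (nat_lit 10) (nat_lit 7) L73166 (by decide +kernel)
theorem L73168 : W_25 (nat_lit 4) (nat_lit 0x4000000010801fc0090001800080000000000000000000000000000000) (nat_lit 0x0) (nat_lit 0x2000000000004400740000000000000000000000000000000) := T_25 (nat_lit 126) (nat_lit 193) (nat_lit 5) (nat_lit 7) (nat_lit 7) L73167 (by decide +kernel)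
theorem L73169 : W_25 (nat_lit 5) (nat_lit 0x10801fc0090001800080000000000000000000000000000000) (nat_lit 0x0) (nat_lit 0x4000200002000000000004400740000000000000000000000000000000) := T_25 (nat_lit 230) (nat_lit 213) (nat_lit 6) (nat_lit 9) (nat_lit 13) L73168 (by decide +kernel)
theorem L73170 : W_25 (nat_lit 6) (nat_lit 0x10801fc0080001800080000000000000000000000000000000) (nat_lit 0x0) (nat_lit 0x4000200002000000018004400740000000000000000000000000000000) := T_25 (nat_lit 160) (nat_lit 159) (nat_lit 0) (nat_lit 10) (nat_lit 10) L73169 (by decide +kernel)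
theorem L73171 : W_25 (nat_lit 7) (nat_lit 0x10800fc0080001800080000000000000000000000000000000) (nat_lit 0x0) (nat_lit 0x4000200002001000118004400740000000000000000000000000000000) := T_25 (nat_lit 180) (nat_lit 164) (nat_lit 2) (nat_lit 7) (nat_lit 10) L73170 (by decide +kernel)
theorem L73172 : W_25 (nat_lit 8) (nat_lit 0x10800fc0000001800080000000000000000000000000000000) (nat_lit 0x0) (nat_lit 0x40002000020010001d8004400740000000000000000000000000000000) := T_25 (nat_lit 163) (nat_lit 162) (nat_lit 2) (nat_lit 6) (nat_lit 10) L73171 (by decide +kernel)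
theorem L73173 : W_25 (nat_lit 9) (nat_lit 0x108007c0000001800080000000000000000000000000000000) (nat_lit 0x0) (nat_lit 0x40002000220018001d8004400740000000000000000000000000000000) := T_25 (nat_lit 179) (nat_lit 197) (nat_lit 3) (nat_lit 6) (nat_lit 10) L73172 (by decide +kernel)
theorem L73174 : W_25 (nat_lit 10) (nat_lit 0x8007c0000001800080000000000000000000000000000000) (nat_lit 0x0) (nat_lit 0x400020003a0018001d8004400740000000000000000000000000000000) := T_25 (nat_lit 196) (nat_lit 195) (nat_lit 3) (nat_lit 5) (nat_lit 10) L73173 (by decide +kernel)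
theorem L73175 : W_25 (nat_lit 11) (nat_lit 0x8003c0000001800080000000000000000000000000000000) (nat_lit 0x0) (nat_lit 0x400020003b001c001d8004400740000000000000000000000000000000) := T_25 (nat_lit 178) (nat_lit 192) (nat_lit 1) (nat_lit 8) (nat_lit 10) L73174 (by decide +kernel)
theorem L73176 : W_25 (nat_lit 12) (nat_lit 0x3c0000001800080000000000000000000000000000000) (nat_lit 0x0) (nat_lit 0x400020003bc01c001d8004400740000000000000000000000000000000) := T_25 (nat_lit 191) (nat_lit 190) (nat_lit 1) (nat_lit 7) (nat_lit 10) L73175 (by decide +kernel)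
theorem L73177 : W_25 (nat_lit 13) (nat_lit 0x380000001800080000000000000000000000000000000) (nat_lit 0x0) (nat_lit 0x408020403bf01c701db804600750000000000000000000000000000000) := Q_25 (nat_lit 174) (C_25 L73165 (C_25 L13623 (C_25 L73176 (C_25 L13629 N_25)))) (by decide +kernel)
theorem L73178 : W_25 (nat_lit 2) (nat_lit 0x1000f80000001800080000000000000000000000000000000) (nat_lit 0x0) (nat_lit 0x38000000000000000000000000000000000000000000000000) := D_25 (nat_lit 196) (nat_lit 195) (nat_lit 197) (nat_lit 3) (nat_lit 5) (nat_lit 10) (nat_lit 3) (nat_lit 6) (nat_lit 10) (by decide +kernel)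
theorem L73179 : W_25 (nat_lit 3) (nat_lit 0x1000780000001800080000000000000000000000000000000) (nat_lit 0x0) (nat_lit 0x3a000800000000000000000000000000000000000000000000) := T_25 (nat_lit 179) (nat_lit 193) (nat_lit 1) (nat_lit 9) (nat_lit 10) L73178 (by decide +kernel)
theorem L73180 : W_25 (nat_lit 4) (nat_lit 0x1000380000001800080000000000000000000000000000000) (nat_lit 0x0) (nat_lit 0x3a800c00000000000000000000000000000000000000000000) := T_25 (nat_lit 178) (nat_lit 191) (nat_lit 1) (nat_lit 8) (nat_lit 10) L73179 (by decide +kernel)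
theorem L73181 : W_25 (nat_lit 2) (nat_lit 0x1800380000001800080000000000000000000000000000000) (nat_lit 0x0) (nat_lit 0x600040000000000000000000000000000000000000000000) := D_25 (nat_lit 190) (nat_lit 174) (nat_lit 189) (nat_lit 1) (nat_lit 7) (nat_lit 10) (nat_lit 2) (nat_lit 2) (nat_lit 11) (by decide +kernel)
theorem L73182 : W_25 (nat_lit 3) (nat_lit 0x1000380000001800080000000000000000000000000000000) (nat_lit 0x0) (nat_lit 0xe00440000000000000000000000000000000000000000000) := T_25 (nat_lit 191) (nat_lit 178) (nat_lit 1) (nat_lit 8) (nat_lit 10) L73181 (by decide +kernel)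
theorem L73183 : W_25 (nat_lit 2) (nat_lit 0x1000380000001e00090000000000000000000000000000000) (nat_lit 0x0) (nat_lit 0x2000000008000000020000000000000000000000000000000) := D_25 (nat_lit 159) (nat_lit 125) (nat_lit 193) (nat_lit 5) (nat_lit 6) (nat_lit 7) (nat_lit 4) (nat_lit 6) (nat_lit 11) (by decide +kernel)
theorem L73184 : W_25 (nat_lit 3) (nat_lit 0x1000380000001e00080000000000000000000000000000000) (nat_lit 0x0) (nat_lit 0x2000000008000000038000000000000000000000000000000) := T_25 (nat_lit 124) (nat_lit 123) (nat_lit 0) (nat_lit 8) (nat_lit 8) L73183 (by decide +kernel)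
theorem L73185 : W_25 (nat_lit 4) (nat_lit 0x1000380000001c00080000000000000000000000000000000) (nat_lit 0x0) (nat_lit 0x2000000008000200138000000000000000000000000000000) := T_25 (nat_lit 141) (nat_lit 128) (nat_lit 2) (nat_lit 5) (nat_lit 8) L73184 (by decide +kernel)
theorem L73186 : W_25 (nat_lit 5) (nat_lit 0x1000380000001800080000000000000000000000000000000) (nat_lit 0x0) (nat_lit 0x2000200000000800070017c000000000000000000000000000000) := Q_25 (nat_lit 142) (C_25 L13672 (C_25 L13665 (C_25 L73185 N_25))) (by decide +kernel)
theorem L73187 : W_25 (nat_lit 6) (nat_lit 0x380000001800080000000000000000000000000000000) (nat_lit 0x0) (nat_lit 0x2003be00c4000800070017c000000000000000000000000000000) := Q_25 (nat_lit 192) (C_25 L73180 (C_25 L73182 (C_25 L73186 N_25))) (by decide +kernel)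
theorem L73188 : W_25 (nat_lit 2) (nat_lit 0x10800fc000a001e00090000000000000000000000000000000) (nat_lit 0x0) (nat_lit 0x1020010000000000000000000000000000000000000000) := D_25 (nat_lit 160) (nat_lit 173) (nat_lit 180) (nat_lit 2) (nat_lit 3) (nat_lit 10) (nat_lit 0) (nat_lit 10) (nat_lit 10) (by decide +kernel)
theorem L73189 : W_25 (nat_lit 3) (nat_lit 0x108007c000a001e00090000000000000000000000000000000) (nat_lit 0x0) (nat_lit 0x20001820010000000000000000000000000000000000000000) := T_25 (nat_lit 179) (nat_lit 197) (nat_lit 3) (nat_lit 6) (nat_lit 10) L73188 (by decide +kernel)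
theorem L73190 : W_25 (nat_lit 4) (nat_lit 0x108007c0002001e00090000000000000000000000000000000) (nat_lit 0x0) (nat_lit 0x22001820018000000000000000000000000000000000000000) := T_25 (nat_lit 159) (nat_lit 193) (nat_lit 4) (nat_lit 6) (nat_lit 11) L73189 (by decide +kernel)
theorem L73191 : W_25 (nat_lit 5) (nat_lit 0x8007c0002001e00090000000000000000000000000000000) (nat_lit 0x0) (nat_lit 0x3a001820018000000000000000000000000000000000000000) := T_25 (nat_lit 196) (nat_lit 195) (nat_lit 3) (nat_lit 5) (nat_lit 10) L73190 (by decide +kernel)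
theorem L73192 : W_25 (nat_lit 6) (nat_lit 0x8007c0000001e00090000000000000000000000000000000) (nat_lit 0x0) (nat_lit 0x3a00182001a000100000000000000000000000000000000000) := T_25 (nat_lit 157) (nat_lit 140) (nat_lit 6) (nat_lit 4) (nat_lit 11) L73191 (by decide +kernel)
theorem L73193 : W_25 (nat_lit 7) (nat_lit 0x8003c0000001e00090000000000000000000000000000000) (nat_lit 0x0) (nat_lit 0x3b001c2001a000100000000000000000000000000000000000) := T_25 (nat_lit 178) (nat_lit 192) (nat_lit 1) (nat_lit 8) (nat_lit 10) L73192 (by decide +kernel)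
theorem L73194 : W_25 (nat_lit 8) (nat_lit 0x8003c0000001e00080000000000000000000000000000000) (nat_lit 0x0) (nat_lit 0x3b001c2001a000100018000000000000000000000000000000) := T_25 (nat_lit 124) (nat_lit 123) (nat_lit 0) (nat_lit 8) (nat_lit 8) L73193 (by decide +kernel)
theorem L73195 : W_25 (nat_lit 9) (nat_lit 0x8003c0000001c00080000000000000000000000000000000) (nat_lit 0x0) (nat_lit 0x3b001c2001a000300118000000000000000000000000000000) := T_25 (nat_lit 141) (nat_lit 128) (nat_lit 2) (nat_lit 5) (nat_lit 8) L73194 (by decide +kernel)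
theorem L73196 : W_25 (nat_lit 10) (nat_lit 0x3c0000001c00080000000000000000000000000000000) (nat_lit 0x0) (nat_lit 0x3bc01c2001a000300118000000000000000000000000000000) := T_25 (nat_lit 191) (nat_lit 190) (nat_lit 1) (nat_lit 7) (nat_lit 10) L73195 (by decide +kernel)
theorem L73197 : W_25 (nat_lit 11) (nat_lit 0x3c0000001800080000000000000000000000000000000) (nat_lit 0x0) (nat_lit 0x40002003bc01c2001a00070013c000800040000000000000000000000) := Q_25 (nat_lit 142) (C_25 L13598 (C_25 L13603 (C_25 L73196 (C_25 L13612 (C_25 L13608 N_25))))) (by decide +kernel)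
theorem L73198 : W_25 (nat_lit 6) (nat_lit 0x3e0008001800080000000000000000000000000000000) (nat_lit 0x0) (nat_lit 0x3b00418001c00000000000000000000000000000000000000) := T_25 (nat_lit 155) (nat_lit 156) (nat_lit 0) (nat_lit 6) (nat_lit 10) L13566 (by decide +kernel)
theorem L73199 : W_25 (nat_lit 7) (nat_lit 0x3e0000001800080000000000000000000000000000000) (nat_lit 0x0) (nat_lit 0x3b00418019c00000000000000000000000000000000000000) := T_25 (nat_lit 159) (nat_lit 160) (nat_lit 2) (nat_lit 3) (nat_lit 10) L73198 (by decide +kernel)
theorem L73200 : W_25 (nat_lit 2) (nat_lit 0x3e0000001800080000000000000000000000000000000) (nat_lit 0x0) (nat_lit 0xe00000000000000000000000000000000000000000000000) := D_25 (nat_lit 190) (nat_lit 189) (nat_lit 191) (nat_lit 1) (nat_lit 6) (nat_lit 10) (nat_lit 1) (nat_lit 7) (nat_lit 10) (by decide +kernel)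
theorem L73201 : W_25 (nat_lit 12) (nat_lit 0x3e0000001800080000000000000000000000000000000) (nat_lit 0x0) (nat_lit 0x48002400370001001980078013c000000000000000000000000000000) := T_25 (nat_lit 156) (nat_lit 155) (nat_lit 0) (nat_lit 6) (nat_lit 10) L13576 (by decide +kernel)
theorem L73202 : W_25 (nat_lit 2) (nat_lit 0x18003e0001001800080000000000000000000000000000000) (nat_lit 0x0) (nat_lit 0x2000018000000000000000000000000000000000000000000) := D_25 (nat_lit 172) (nat_lit 171) (nat_lit 193) (nat_lit 3) (nat_lit 1) (nat_lit 10) (nat_lit 3) (nat_lit 2) (nat_lit 10) (by decide +kernel)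
theorem L73203 : W_25 (nat_lit 3) (nat_lit 0x8003e0001001800080000000000000000000000000000000) (nat_lit 0x0) (nat_lit 0x3000418000000000000000000000000000000000000000000) := T_25 (nat_lit 192) (nat_lit 178) (nat_lit 1) (nat_lit 8) (nat_lit 10) L73202 (by decide +kernel)
theorem L73204 : W_25 (nat_lit 4) (nat_lit 0x8003e0000001800080000000000000000000000000000000) (nat_lit 0x0) (nat_lit 0x3000418001800000000000000000000000000000000000000) := T_25 (nat_lit 156) (nat_lit 155) (nat_lit 0) (nat_lit 6) (nat_lit 10) L73203 (by decide +kernel)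
theorem L73205 : W_25 (nat_lit 5) (nat_lit 0x3e0000001800080000000000000000000000000000000) (nat_lit 0x0) (nat_lit 0x3c00418001800000000000000000000000000000000000000) := T_25 (nat_lit 191) (nat_lit 190) (nat_lit 1) (nat_lit 7) (nat_lit 10) L73204 (by decide +kernel)
theorem L73206 : W_25 (nat_lit 13) (nat_lit 0x3c0000001800080000000000000000000000000000000) (nat_lit 0x0) (nat_lit 0x480024003f00438019c0078013c000000000000000000000000000000) := Q_25 (nat_lit 173) (C_25 L73199 (C_25 L73200 (C_25 L73201 (C_25 L73205 N_25)))) (by decide +kernel)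
theorem L73207 : W_25 (nat_lit 4) (nat_lit 0x8003c0000001800080000000000000000000000000000000) (nat_lit 0x0) (nat_lit 0x400020001000400003000100000000000000000000000000000000000) := T_25 (nat_lit 157) (nat_lit 156) (nat_lit 0) (nat_lit 7) (nat_lit 10) L13580 (by decide +kernel)
theorem L73208 : W_25 (nat_lit 5) (nat_lit 0x3c0000001800080000000000000000000000000000000) (nat_lit 0x0) (nat_lit 0x400020001c00400003000100000000000000000000000000000000000) := T_25 (nat_lit 191) (nat_lit 190) (nat_lit 1) (nat_lit 7) (nat_lit 10) L73207 (by decide +kernel)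
theorem L73209 : W_25 (nat_lit 2) (nat_lit 0x400000029001fc008a001c00088000000000000000000000000000000) (nat_lit 0x0) (nat_lit 0x200110000000000000000000000000000000) := D_25 (nat_lit 141) (nat_lit 128) (nat_lit 124) (nat_lit 2) (nat_lit 5) (nat_lit 8) (nat_lit 0) (nat_lit 8) (nat_lit 8) (by decide +kernel)
theorem L73210 : W_25 (nat_lit 3) (nat_lit 0x400000029001fc008a001800088000000000000000000000000000000) (nat_lit 0x0) (nat_lit 0x600130000000000000000000000000000000) := T_25 (nat_lit 142) (nat_lit 125) (nat_lit 5) (nat_lit 6) (nat_lit 7) L73209 (by decide +kernel)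
theorem L73211 : W_25 (nat_lit 4) (nat_lit 0x400000009001fc008a001800088000000000000000000000000000000) (nat_lit 0x0) (nat_lit 0x60000000000000600130000000000000000000000000000000) := T_25 (nat_lit 197) (nat_lit 198) (nat_lit 3) (nat_lit 7) (nat_lit 10) L73210 (by decide +kernel)
theorem L73212 : W_25 (nat_lit 5) (nat_lit 0x400000009001fc0082001800088000000000000000000000000000000) (nat_lit 0x0) (nat_lit 0x60000000018000600130000000000000000000000000000000) := T_25 (nat_lit 159) (nat_lit 160) (nat_lit 0) (nat_lit 10) (nat_lit 10) L73211 (by decide +kernel)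
theorem L73213 : W_25 (nat_lit 6) (nat_lit 0x400000009000fc0082001800088000000000000000000000000000000) (nat_lit 0x0) (nat_lit 0x60001000118000600130000000000000000000000000000000) := T_25 (nat_lit 180) (nat_lit 164) (nat_lit 2) (nat_lit 7) (nat_lit 10) L73212 (by decide +kernel)
theorem L73214 : W_25 (nat_lit 7) (nat_lit 0x400000009000fc0002001800088000000000000000000000000000000) (nat_lit 0x0) (nat_lit 0x600010001d8000600130000000000000000000000000000000) := T_25 (nat_lit 163) (nat_lit 162) (nat_lit 2) (nat_lit 6) (nat_lit 10) L73213 (by decide +kernel)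
theorem L73215 : W_25 (nat_lit 8) (nat_lit 0x9000fc0002001800088000000000000000000000000000000) (nat_lit 0x0) (nat_lit 0x4000200600010001d8000600130000000000000000000000000000000) := T_25 (nat_lit 226) (nat_lit 209) (nat_lit 4) (nat_lit 5) (nat_lit 13) L73214 (by decide +kernel)
theorem L73216 : W_25 (nat_lit 9) (nat_lit 0x90007c0002001800088000000000000000000000000000000) (nat_lit 0x0) (nat_lit 0x4000200620018001d8000600130000000000000000000000000000000) := T_25 (nat_lit 179) (nat_lit 193) (nat_lit 1) (nat_lit 9) (nat_lit 10) L73215 (by decide +kernel)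
theorem L73217 : W_25 (nat_lit 10) (nat_lit 0x10007c0002001800088000000000000000000000000000000) (nat_lit 0x0) (nat_lit 0x40002007a0018001d8000600130000000000000000000000000000000) := T_25 (nat_lit 195) (nat_lit 196) (nat_lit 3) (nat_lit 5) (nat_lit 10) L73216 (by decide +kernel)
theorem L73218 : W_25 (nat_lit 11) (nat_lit 0x10007c0002001800080000000000000000000000000000000) (nat_lit 0x0) (nat_lit 0x40002007a0018001d8000700138000000000000000000000000000000) := T_25 (nat_lit 123) (nat_lit 140) (nat_lit 7) (nat_lit 4) (nat_lit 7) L73217 (by decide +kernel)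
theorem L73219 : W_25 (nat_lit 12) (nat_lit 0x10003c0002001800080000000000000000000000000000000) (nat_lit 0x0) (nat_lit 0x40002007a801c001d8000700138000000000000000000000000000000) := T_25 (nat_lit 178) (nat_lit 191) (nat_lit 1) (nat_lit 8) (nat_lit 10) L73218 (by decide +kernel)
theorem L73220 : W_25 (nat_lit 13) (nat_lit 0x10003c0000001800080000000000000000000000000000000) (nat_lit 0x0) (nat_lit 0x40002007a801c001db000700138000000000000000000000000000000) := T_25 (nat_lit 157) (nat_lit 156) (nat_lit 0) (nat_lit 7) (nat_lit 10) L73219 (by decide +kernel)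
theorem L73221 : W_25 (nat_lit 2) (nat_lit 0x2000b0007d0002001c00088000000000000000000000000000000) (nat_lit 0x0) (nat_lit 0x200110000000000000000000000000000000) := D_25 (nat_lit 141) (nat_lit 128) (nat_lit 124) (nat_lit 2) (nat_lit 5) (nat_lit 8) (nat_lit 0) (nat_lit 8) (nat_lit 8) (by decide +kernel)
theorem L73222 : W_25 (nat_lit 3) (nat_lit 0x2000b0007d0002001800088000000000000000000000000000000) (nat_lit 0x0) (nat_lit 0x8000600110000000000000000000000000000000) := T_25 (nat_lit 142) (nat_lit 159) (nat_lit 5) (nat_lit 6) (nat_lit 8) L73221 (by decide +kernel)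
theorem L73223 : W_25 (nat_lit 4) (nat_lit 0x2000b0007c0002001800088000000000000000000000000000000) (nat_lit 0x0) (nat_lit 0x30008000600110000000000000000000000000000000) := T_25 (nat_lit 172) (nat_lit 173) (nat_lit 3) (nat_lit 2) (nat_lit 10) L73222 (by decide +kernel)
theorem L73224 : W_25 (nat_lit 5) (nat_lit 0x200090007c0002001800088000000000000000000000000000000) (nat_lit 0x0) (nat_lit 0x2000830008000600110000000000000000000000000000000) := T_25 (nat_lit 193) (nat_lit 179) (nat_lit 1) (nat_lit 9) (nat_lit 10) L73223 (by decide +kernel)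
theorem L73225 : W_25 (nat_lit 6) (nat_lit 0x90007c0002001800088000000000000000000000000000000) (nat_lit 0x0) (nat_lit 0x400020002000830008000600110000000000000000000000000000000) := T_25 (nat_lit 209) (nat_lit 226) (nat_lit 4) (nat_lit 5) (nat_lit 13) L73224 (by decide +kernel)
theorem L73226 : W_25 (nat_lit 7) (nat_lit 0x90007c0002001800080000000000000000000000000000000) (nat_lit 0x0) (nat_lit 0x400020002000830008000700118000000000000000000000000000000) := T_25 (nat_lit 123) (nat_lit 140) (nat_lit 7) (nat_lit 4) (nat_lit 7) L73225 (by decide +kernel)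
theorem L73227 : W_25 (nat_lit 8) (nat_lit 0x10007c0002001800080000000000000000000000000000000) (nat_lit 0x0) (nat_lit 0x40002001a000830008000700118000000000000000000000000000000) := T_25 (nat_lit 195) (nat_lit 196) (nat_lit 3) (nat_lit 5) (nat_lit 10) L73226 (by decide +kernel)
theorem L73228 : W_25 (nat_lit 9) (nat_lit 0x10007c0000001800080000000000000000000000000000000) (nat_lit 0x0) (nat_lit 0x40002001a00083000b000700118000000000000000000000000000000) := T_25 (nat_lit 157) (nat_lit 156) (nat_lit 0) (nat_lit 7) (nat_lit 10) L73227 (by decide +kernel)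
theorem L73229 : W_25 (nat_lit 10) (nat_lit 0x10003c0000001800080000000000000000000000000000000) (nat_lit 0x0) (nat_lit 0x40002001a800c3000b000700118000000000000000000000000000000) := T_25 (nat_lit 178) (nat_lit 191) (nat_lit 1) (nat_lit 8) (nat_lit 10) L73228 (by decide +kernel)
theorem L73230 : W_25 (nat_lit 2) (nat_lit 0x80006000b0007d000a001800088000000000000000000000000000000) (nat_lit 0x0) (nat_lit 0x20001000080000000000000000000000000000000000000000000000000000) := D_25 (nat_lit 228) (nat_lit 211) (nat_lit 245) (nat_lit 7) (nat_lit 6) (nat_lit 9) (nat_lit 7) (nat_lit 6) (nat_lit 10) (by decide +kernel)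
theorem L73231 : W_25 (nat_lit 3) (nat_lit 0x6000b0007d000a001800088000000000000000000000000000000) (nat_lit 0x0) (nat_lit 0x30001800080000000000000000000000000000000000000000000000000000) := T_25 (nat_lit 227) (nat_lit 244) (nat_lit 4) (nat_lit 6) (nat_lit 14) L73230 (by decide +kernel)
theorem L73232 : W_25 (nat_lit 4) (nat_lit 0x2000b0007d000a001800088000000000000000000000000000000) (nat_lit 0x0) (nat_lit 0x300018000c0000000000010000000000000000000000000000000000000000) := T_25 (nat_lit 210) (nat_lit 160) (nat_lit 6) (nat_lit 6) (nat_lit 12) L73231 (by decide +kernel)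
theorem L73233 : W_25 (nat_lit 5) (nat_lit 0x2000b0007d0002001800088000000000000000000000000000000) (nat_lit 0x0) (nat_lit 0x300018000c0000000000018000400000000000000000000000000000000000) := T_25 (nat_lit 159) (nat_lit 142) (nat_lit 5) (nat_lit 6) (nat_lit 8) L73232 (by decide +kernel)
theorem L73234 : W_25 (nat_lit 6) (nat_lit 0x2000b0007c0002001800088000000000000000000000000000000) (nat_lit 0x0) (nat_lit 0x300018000c0000000030018000400000000000000000000000000000000000) := T_25 (nat_lit 172) (nat_lit 173) (nat_lit 3) (nat_lit 2) (nat_lit 10) L73233 (by decide +kernel)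
theorem L73235 : W_25 (nat_lit 7) (nat_lit 0x200090007c0002001800088000000000000000000000000000000) (nat_lit 0x0) (nat_lit 0x300018000c0002000830018000400000000000000000000000000000000000) := T_25 (nat_lit 193) (nat_lit 179) (nat_lit 1) (nat_lit 9) (nat_lit 10) L73234 (by decide +kernel)
theorem L73236 : W_25 (nat_lit 8) (nat_lit 0x90007c0002001800088000000000000000000000000000000) (nat_lit 0x0) (nat_lit 0x30001c000e0002000830018000400000000000000000000000000000000000) := T_25 (nat_lit 209) (nat_lit 226) (nat_lit 4) (nat_lit 5) (nat_lit 13) L73235 (by decide +kernel)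
theorem L73237 : W_25 (nat_lit 9) (nat_lit 0x90007c0002001800080000000000000000000000000000000) (nat_lit 0x0) (nat_lit 0x30001c000e0002000830018000500008000000000000000000000000000000) := T_25 (nat_lit 123) (nat_lit 140) (nat_lit 7) (nat_lit 4) (nat_lit 7) L73236 (by decide +kernel)
theorem L73238 : W_25 (nat_lit 10) (nat_lit 0x10007c0002001800080000000000000000000000000000000) (nat_lit 0x0) (nat_lit 0x30001c000e001a000830018000500008000000000000000000000000000000) := T_25 (nat_lit 195) (nat_lit 196) (nat_lit 3) (nat_lit 5) (nat_lit 10) L73237 (by decide +kernel)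
theorem L73239 : W_25 (nat_lit 11) (nat_lit 0x10007c0000001800080000000000000000000000000000000) (nat_lit 0x0) (nat_lit 0x30001c000e001a00083001b000500008000000000000000000000000000000) := T_25 (nat_lit 157) (nat_lit 156) (nat_lit 0) (nat_lit 7) (nat_lit 10) L73238 (by decide +kernel)
theorem L73240 : W_25 (nat_lit 12) (nat_lit 0x10003c0000001800080000000000000000000000000000000) (nat_lit 0x0) (nat_lit 0x30001c000e001a800c3001b000500008000000000000000000000000000000) := T_25 (nat_lit 178) (nat_lit 191) (nat_lit 1) (nat_lit 8) (nat_lit 10) L73239 (by decide +kernel)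
theorem L73241 : W_25 (nat_lit 2) (nat_lit 0x110007c0002001800080000000000000000000000000000000) (nat_lit 0x0) (nat_lit 0x22000800000000000000000000000000000000000000000000) := D_25 (nat_lit 179) (nat_lit 193) (nat_lit 197) (nat_lit 1) (nat_lit 9) (nat_lit 10) (nat_lit 3) (nat_lit 6) (nat_lit 10) (by decide +kernel)
theorem L73242 : W_25 (nat_lit 3) (nat_lit 0x10007c0002001800080000000000000000000000000000000) (nat_lit 0x0) (nat_lit 0x3a000800000000000000000000000000000000000000000000) := T_25 (nat_lit 196) (nat_lit 195) (nat_lit 3) (nat_lit 5) (nat_lit 10) L73241 (by decide +kernel)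
theorem L73243 : W_25 (nat_lit 4) (nat_lit 0x10007c0000001800080000000000000000000000000000000) (nat_lit 0x0) (nat_lit 0x3a000800003000000000000000000000000000000000000000) := T_25 (nat_lit 157) (nat_lit 156) (nat_lit 0) (nat_lit 7) (nat_lit 10) L73242 (by decide +kernel)
theorem L73244 : W_25 (nat_lit 5) (nat_lit 0x10003c0000001800080000000000000000000000000000000) (nat_lit 0x0) (nat_lit 0x3a800c00003000000000000000000000000000000000000000) := T_25 (nat_lit 178) (nat_lit 191) (nat_lit 1) (nat_lit 8) (nat_lit 10) L73243 (by decide +kernel)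
theorem L73245 : W_25 (nat_lit 3) (nat_lit 0x10003c0002001800080000000000000000000000000000000) (nat_lit 0x0) (nat_lit 0x400020000800400000000100000000000000000000000000000000000) := T_25 (nat_lit 191) (nat_lit 178) (nat_lit 1) (nat_lit 8) (nat_lit 10) L13579 (by decide +kernel)
theorem L73246 : W_25 (nat_lit 4) (nat_lit 0x10003c0000001800080000000000000000000000000000000) (nat_lit 0x0) (nat_lit 0x400020000800400003000100000000000000000000000000000000000) := T_25 (nat_lit 157) (nat_lit 156) (nat_lit 0) (nat_lit 7) (nat_lit 10) L73245 (by decide +kernel)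
theorem L73247 : W_25 (nat_lit 14) (nat_lit 0x3c0000001800080000000000000000000000000000000) (nat_lit 0x0) (nat_lit 0x30001c800e407bb01c301db80078013c000000000000000000000000000000) := Q_25 (nat_lit 192) (C_25 L73220 (C_25 L73229 (C_25 L73240 (C_25 L73244 (C_25 L73246 (C_25 L13588 (C_25 L13593 (C_25 L13585 N_25)))))))) (by decide +kernel)
theorem L73248 : W_25 (nat_lit 15) (nat_lit 0x380000001800080000000000000000000000000000000) (nat_lit 0x0) (nat_lit 0x30001c800e407bf01c781dbc0078013c000800040000000000000000000000) := Q_25 (nat_lit 174) (C_25 L73165 (C_25 L13578 (C_25 L73197 (C_25 L73206 (C_25 L73208 (C_25 L73247 N_25)))))) (by decide +kernel)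
theorem L73249 : W_25 (nat_lit 2) (nat_lit 0x8003c00100018000c0000000000000000000000000000000) (nat_lit 0x0) (nat_lit 0x9000400000000000000000000000000000000000000000000) := D_25 (nat_lit 178) (nat_lit 192) (nat_lit 195) (nat_lit 1) (nat_lit 8) (nat_lit 10) (nat_lit 7) (nat_lit 7) (nat_lit 7) (by decide +kernel)
theorem L73250 : W_25 (nat_lit 3) (nat_lit 0x8003c0010001800080000000000000000000000000000000) (nat_lit 0x0) (nat_lit 0xb000400000000000040000000000000000000000000000000) := T_25 (nat_lit 126) (nat_lit 193) (nat_lit 5) (nat_lit 7) (nat_lit 7) L73249 (by decide +kernel)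
theorem L73251 : W_25 (nat_lit 4) (nat_lit 0x3c0010001800080000000000000000000000000000000) (nat_lit 0x0) (nat_lit 0xbc00400000000000040000000000000000000000000000000) := T_25 (nat_lit 191) (nat_lit 190) (nat_lit 1) (nat_lit 7) (nat_lit 10) L73250 (by decide +kernel)
theorem L73252 : W_25 (nat_lit 2) (nat_lit 0x3e0010001800080000000000000000000000000000000) (nat_lit 0x0) (nat_lit 0xe00000000000000000000000000000000000000000000000) := D_25 (nat_lit 190) (nat_lit 189) (nat_lit 191) (nat_lit 1) (nat_lit 6) (nat_lit 10) (nat_lit 1) (nat_lit 7) (nat_lit 10) (by decide +kernel)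
theorem L73253 : W_25 (nat_lit 3) (nat_lit 0x3c0010001800080000000000000000000000000000000) (nat_lit 0x0) (nat_lit 0xe00020008000000000000000000000000000000000000000) := T_25 (nat_lit 173) (nat_lit 159) (nat_lit 2) (nat_lit 3) (nat_lit 10) L73252 (by decide +kernel)
theorem L73254 : W_25 (nat_lit 6) (nat_lit 0x3c0000001800080000000000000000000000000000000) (nat_lit 0x0) (nat_lit 0xbe00438018000000040002000000000000000000000000000) := Q_25 (nat_lit 160) (C_25 L13646 (C_25 L13659 (C_25 L73251 (C_25 L73253 N_25)))) (by decide +kernel)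
theorem L73255 : W_25 (nat_lit 13) (nat_lit 0x380000001800080000000000000000000000000000000) (nat_lit 0x0) (nat_lit 0x40002000be00c7801b8001c007e003500000000000000000000000000) := Q_25 (nat_lit 174) (C_25 L73165 (C_25 L73208 (C_25 L13644 (C_25 L73254 (C_25 L13629 N_25))))) (by decide +kernel)
theorem L73256 : W_25 (nat_lit 4) (nat_lit 0x780000001800080000000000000000000000000000000) (nat_lit 0x0) (nat_lit 0x3b800800000000000000000000000000000000000000000000) := T_25 (nat_lit 192) (nat_lit 191) (nat_lit 1) (nat_lit 8) (nat_lit 10) L73179 (by decide +kernel)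
theorem L73257 : W_25 (nat_lit 8) (nat_lit 0x88007c0000001a000c0000000000000000000000000000000) (nat_lit 0x0) (nat_lit 0x3000100738039c00000000000000000000000000) := T_25 (nat_lit 157) (nat_lit 156) (nat_lit 0) (nat_lit 7) (nat_lit 10) L8567 (by decide +kernel)
theorem L73258 : W_25 (nat_lit 9) (nat_lit 0x8800780000001a000c0000000000000000000000000000000) (nat_lit 0x0) (nat_lit 0x400040003000100738039c00000000000000000000000000) := T_25 (nat_lit 174) (nat_lit 190) (nat_lit 1) (nat_lit 7) (nat_lit 10) L73257 (by decide +kernel)
theorem L73259 : W_25 (nat_lit 10) (nat_lit 0x8800780000001a00080000000000000000000000000000000) (nat_lit 0x0) (nat_lit 0x400040013000100778039c00000000000000000000000000) := T_25 (nat_lit 126) (nat_lit 160) (nat_lit 7) (nat_lit 7) (nat_lit 7) L73258 (by decide +kernel)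
theorem L73260 : W_25 (nat_lit 11) (nat_lit 0x8000780000001a00080000000000000000000000000000000) (nat_lit 0x0) (nat_lit 0x1c00040013000100778039c00000000000000000000000000) := T_25 (nat_lit 191) (nat_lit 192) (nat_lit 1) (nat_lit 8) (nat_lit 10) L73259 (by decide +kernel)
theorem L73261 : W_25 (nat_lit 12) (nat_lit 0x780000001a00080000000000000000000000000000000) (nat_lit 0x0) (nat_lit 0x19c00040013000100778039c00000000000000000000000000) := T_25 (nat_lit 195) (nat_lit 196) (nat_lit 3) (nat_lit 5) (nat_lit 10) L73260 (by decide +kernel)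
theorem L73262 : W_25 (nat_lit 2) (nat_lit 0x9000780000005a003e0010000000000000000000000000000) (nat_lit 0x0) (nat_lit 0x3800000000000000000000000000) := D_25 (nat_lit 108) (nat_lit 107) (nat_lit 109) (nat_lit 0) (nat_lit 9) (nat_lit 7) (nat_lit 0) (nat_lit 10) (nat_lit 7) (by decide +kernel)
theorem L73263 : W_25 (nat_lit 3) (nat_lit 0x9000780000005a003c0010000000000000000000000000000) (nat_lit 0x0) (nat_lit 0x2000b800000000000000000000000000) := T_25 (nat_lit 125) (nat_lit 111) (nat_lit 2) (nat_lit 6) (nat_lit 7) L73262 (by decide +kernel)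
theorem L73264 : W_25 (nat_lit 4) (nat_lit 0x9000780000005a003c0000000000000000000000000000000) (nat_lit 0x0) (nat_lit 0x2003b800000000000000000000000000) := T_25 (nat_lit 112) (nat_lit 113) (nat_lit 2) (nat_lit 7) (nat_lit 7) L73263 (by decide +kernel)
theorem L73265 : W_25 (nat_lit 5) (nat_lit 0x9000780000001a003c0000000000000000000000000000000) (nat_lit 0x0) (nat_lit 0xc00002003b800000000000000000000000000) := T_25 (nat_lit 146) (nat_lit 147) (nat_lit 3) (nat_lit 7) (nat_lit 7) L73264 (by decide +kernel)
theorem L73266 : W_25 (nat_lit 6) (nat_lit 0x8000780000001a003c0000000000000000000000000000000) (nat_lit 0x0) (nat_lit 0x180000000000c00002003b800000000000000000000000000) := T_25 (nat_lit 192) (nat_lit 191) (nat_lit 1) (nat_lit 8) (nat_lit 10) L73265 (by decide +kernel)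
theorem L73267 : W_25 (nat_lit 7) (nat_lit 0x8000780000001a001c0000000000000000000000000000000) (nat_lit 0x0) (nat_lit 0x180000000000c00062003b800000000000000000000000000) := T_25 (nat_lit 129) (nat_lit 130) (nat_lit 1) (nat_lit 11) (nat_lit 7) L73266 (by decide +kernel)
theorem L73268 : W_25 (nat_lit 8) (nat_lit 0x8000780000001a00180000000000000000000000000000000) (nat_lit 0x0) (nat_lit 0x180000001000c00066003b800000000000000000000000000) := T_25 (nat_lit 126) (nat_lit 160) (nat_lit 7) (nat_lit 7) (nat_lit 7) L73267 (by decide +kernel)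
theorem L73269 : W_25 (nat_lit 9) (nat_lit 0x8000780000001a00080000000000000000000000000000000) (nat_lit 0x0) (nat_lit 0x180000001000c40076003b800000000000000000000000000) := T_25 (nat_lit 128) (nat_lit 142) (nat_lit 2) (nat_lit 5) (nat_lit 8) L73268 (by decide +kernel)
theorem L73270 : W_25 (nat_lit 10) (nat_lit 0x780000001a00080000000000000000000000000000000) (nat_lit 0x0) (nat_lit 0x1980000001000c40076003b800000000000000000000000000) := T_25 (nat_lit 195) (nat_lit 196) (nat_lit 3) (nat_lit 5) (nat_lit 10) L73269 (by decide +kernel)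
theorem L73271 : W_25 (nat_lit 13) (nat_lit 0x780000001800080000000000000000000000000000000) (nat_lit 0x0) (nat_lit 0x19c0004001300c70077c03bc00000000000000000000000000) := Q_25 (nat_lit 141) (C_25 L13378 (C_25 L8561 (C_25 L73261 (C_25 L73270 (C_25 L13382 (C_25 L8555 N_25)))))) (by decide +kernel)
theorem L73272 : W_25 (nat_lit 14) (nat_lit 0x380000001800080000000000000000000000000000000) (nat_lit 0x0) (nat_lit 0x100008000fbc03c401d300c70077c03bc00000000000000000000000000) := Q_25 (nat_lit 178) (C_25 L73256 (C_25 L13409 (C_25 L73271 (C_25 L13419 N_25)))) (by decide +kernel)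
theorem L73273 : W_25 (nat_lit 2) (nat_lit 0x380010001a000f0000800000000000000000000000000) (nat_lit 0x0) (nat_lit 0x8000400100000000000000000000000000000000) := D_25 (nat_lit 142) (nat_lit 128) (nat_lit 159) (nat_lit 2) (nat_lit 5) (nat_lit 8) (nat_lit 4) (nat_lit 6) (nat_lit 10) (by decide +kernel)
theorem L73274 : W_25 (nat_lit 3) (nat_lit 0x380010001a000f0000000000000000000000000000000) (nat_lit 0x0) (nat_lit 0x8000400100000c00000000000000000000000000) := T_25 (nat_lit 107) (nat_lit 106) (nat_lit 0) (nat_lit 8) (nat_lit 7) L73273 (by decide +kernel)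
theorem L73275 : W_25 (nat_lit 4) (nat_lit 0x3800100018000f0000000000000000000000000000000) (nat_lit 0x0) (nat_lit 0x8000700100000c00000000000000000000000000) := T_25 (nat_lit 141) (nat_lit 140) (nat_lit 1) (nat_lit 8) (nat_lit 7) L73274 (by decide +kernel)
theorem L73276 : W_25 (nat_lit 5) (nat_lit 0x3800100018000e0000000000000000000000000000000) (nat_lit 0x0) (nat_lit 0x8000700118000c00000000000000000000000000) := T_25 (nat_lit 124) (nat_lit 123) (nat_lit 3) (nat_lit 4) (nat_lit 7) L73275 (by decide +kernel)
theorem L73277 : W_25 (nat_lit 6) (nat_lit 0x3800100018000c0000000000000000000000000000000) (nat_lit 0x0) (nat_lit 0x8000700138001c00000000000000000000000000) := T_25 (nat_lit 125) (nat_lit 108) (nat_lit 4) (nat_lit 7) (nat_lit 10) L73276 (by decide +kernel)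
theorem L73278 : W_25 (nat_lit 7) (nat_lit 0x3800000018000c0000000000000000000000000000000) (nat_lit 0x0) (nat_lit 0x2000000018000700138001c00000000000000000000000000) := T_25 (nat_lit 160) (nat_lit 193) (nat_lit 5) (nat_lit 7) (nat_lit 7) L73277 (by decide +kernel)
theorem L73279 : W_25 (nat_lit 10) (nat_lit 0x380000001800080000000000000000000000000000000) (nat_lit 0x0) (nat_lit 0x200000001800070077803bc0078001c000000000000000000) := Q_25 (nat_lit 126) (C_25 L73153 (C_25 L73161 (C_25 L13355 (C_25 L73278 (C_25 L13435 N_25))))) (by decide +kernel)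
theorem L73280 : W_25 (nat_lit 2) (nat_lit 0x1000780010001c000e0000000000000000000000000000000) (nat_lit 0x0) (nat_lit 0x300100000000000000000000000000000000) := D_25 (nat_lit 141) (nat_lit 128) (nat_lit 140) (nat_lit 2) (nat_lit 5) (nat_lit 8) (nat_lit 2) (nat_lit 4) (nat_lit 8) (by decide +kernel)
theorem L73281 : W_25 (nat_lit 3) (nat_lit 0x10007800100018000e0000000000000000000000000000000) (nat_lit 0x0) (nat_lit 0x8000700100000000000000000000000000000000) := T_25 (nat_lit 142) (nat_lit 159) (nat_lit 5) (nat_lit 6) (nat_lit 7) L73280 (by decide +kernel)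
theorem L73282 : W_25 (nat_lit 4) (nat_lit 0x7800100018000e0000000000000000000000000000000) (nat_lit 0x0) (nat_lit 0x1800000008000700100000000000000000000000000000000) := T_25 (nat_lit 192) (nat_lit 191) (nat_lit 1) (nat_lit 8) (nat_lit 10) L73281 (by decide +kernel)
theorem L73283 : W_25 (nat_lit 5) (nat_lit 0x3800100018000e0000000000000000000000000000000) (nat_lit 0x0) (nat_lit 0x9800400008000700100000000000000000000000000000000) := T_25 (nat_lit 178) (nat_lit 195) (nat_lit 7) (nat_lit 7) (nat_lit 7) L73282 (by decide +kernel)
theorem L73284 : W_25 (nat_lit 6) (nat_lit 0x3800100018000c0000000000000000000000000000000) (nat_lit 0x0) (nat_lit 0x9800400008000700120001000000000000000000000000000) := T_25 (nat_lit 125) (nat_lit 108) (nat_lit 4) (nat_lit 7) (nat_lit 10) L73283 (by decide +kernel)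
theorem L73285 : W_25 (nat_lit 7) (nat_lit 0x3800000018000c0000000000000000000000000000000) (nat_lit 0x0) (nat_lit 0xb800400018000700120001000000000000000000000000000) := T_25 (nat_lit 160) (nat_lit 193) (nat_lit 5) (nat_lit 7) (nat_lit 7) L73284 (by decide +kernel)
theorem L73286 : W_25 (nat_lit 10) (nat_lit 0x80007800000018000c0000000000000000000000000000000) (nat_lit 0x0) (nat_lit 0x100008000e38038001c0004400700000000000000000000000000000000) := T_25 (nat_lit 192) (nat_lit 191) (nat_lit 1) (nat_lit 8) (nat_lit 10) L13687 (by decide +kernel)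
theorem L73287 : W_25 (nat_lit 11) (nat_lit 0x7800000018000c0000000000000000000000000000000) (nat_lit 0x0) (nat_lit 0x100008000fb8038001c0004400700000000000000000000000000000000) := T_25 (nat_lit 195) (nat_lit 196) (nat_lit 3) (nat_lit 5) (nat_lit 10) L73286 (by decide +kernel)
theorem L73288 : W_25 (nat_lit 2) (nat_lit 0x7800000018000c0000000000000000000000000000000) (nat_lit 0x0) (nat_lit 0x18000000010000000000000000000000000000000000000000) := D_25 (nat_lit 195) (nat_lit 196) (nat_lit 160) (nat_lit 3) (nat_lit 5) (nat_lit 10) (nat_lit 7) (nat_lit 7) (nat_lit 7) (by decide +kernel)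
theorem L73289 : W_25 (nat_lit 2) (nat_lit 0x10007800000018000c0000000000000000000000000000000) (nat_lit 0x0) (nat_lit 0x2000800010000000000000000000000000000000000000000) := D_25 (nat_lit 193) (nat_lit 160) (nat_lit 179) (nat_lit 5) (nat_lit 7) (nat_lit 7) (nat_lit 1) (nat_lit 9) (nat_lit 10) (by decide +kernel)
theorem L73290 : W_25 (nat_lit 3) (nat_lit 0x7800000018000c0000000000000000000000000000000) (nat_lit 0x0) (nat_lit 0x3800800010000000000000000000000000000000000000000) := T_25 (nat_lit 192) (nat_lit 191) (nat_lit 1) (nat_lit 8) (nat_lit 10) L73289 (by decide +kernel)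
theorem L73291 : W_25 (nat_lit 12) (nat_lit 0x3800000018000c0000000000000000000000000000000) (nat_lit 0x0) (nat_lit 0x100008000fb803c001d0004400700000000000000000000000000000000) := Q_25 (nat_lit 178) (C_25 L13676 (C_25 L73287 (C_25 L73288 (C_25 L73290 N_25)))) (by decide +kernel)
theorem L73292 : W_25 (nat_lit 13) (nat_lit 0x380000001800080000000000000000000000000000000) (nat_lit 0x0) (nat_lit 0x100008000fb803c001d8004700760003c0078001c000000000000000000) := Q_25 (nat_lit 126) (C_25 L73153 (C_25 L73161 (C_25 L13355 (C_25 L73285 (C_25 L73291 N_25))))) (by decide +kernel)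
theorem L73293 : W_25 (nat_lit 2) (nat_lit 0x3c0002001e00088000000000000000000000000000000) (nat_lit 0x0) (nat_lit 0x1000000000000100004000000000000000000000000000000) := D_25 (nat_lit 140) (nat_lit 122) (nat_lit 192) (nat_lit 0) (nat_lit 7) (nat_lit 8) (nat_lit 7) (nat_lit 4) (nat_lit 7) (by decide +kernel)
theorem L73294 : W_25 (nat_lit 3) (nat_lit 0x3c0002001e00080000000000000000000000000000000) (nat_lit 0x0) (nat_lit 0x100000000000010001c000000000000000000000000000000) := T_25 (nat_lit 123) (nat_lit 124) (nat_lit 0) (nat_lit 8) (nat_lit 8) L73293 (by decide +kernel)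
theorem L73295 : W_25 (nat_lit 4) (nat_lit 0x3c0002001c00080000000000000000000000000000000) (nat_lit 0x0) (nat_lit 0x100000000000030011c000000000000000000000000000000) := T_25 (nat_lit 141) (nat_lit 128) (nat_lit 2) (nat_lit 5) (nat_lit 8) L73294 (by decide +kernel)
theorem L73296 : W_25 (nat_lit 5) (nat_lit 0x3c0000001c00080000000000000000000000000000000) (nat_lit 0x0) (nat_lit 0x100000000300030011c000000000000000000000000000000) := T_25 (nat_lit 157) (nat_lit 156) (nat_lit 0) (nat_lit 7) (nat_lit 10) L73295 (by decide +kernel)
theorem L73297 : W_25 (nat_lit 9) (nat_lit 0x3c0000001800080000000000000000000000000000000) (nat_lit 0x0) (nat_lit 0x160002001b80078017c000800000000000000000000000000) := Q_25 (nat_lit 142) (C_25 L73296 (C_25 L13491 (C_25 L13470 (C_25 L13495 (C_25 L13499 N_25))))) (by decide +kernel)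
theorem L73298 : W_25 (nat_lit 2) (nat_lit 0x400000011001fc008a001c00088000000000000000000000000000000) (nat_lit 0x0) (nat_lit 0x200110000000000000000000000000000000) := D_25 (nat_lit 141) (nat_lit 128) (nat_lit 124) (nat_lit 2) (nat_lit 5) (nat_lit 8) (nat_lit 0) (nat_lit 8) (nat_lit 8) (by decide +kernel)
theorem L73299 : W_25 (nat_lit 3) (nat_lit 0x400000011001fc008a001800088000000000000000000000000000000) (nat_lit 0x0) (nat_lit 0x600130000000000000000000000000000000) := T_25 (nat_lit 142) (nat_lit 125) (nat_lit 5) (nat_lit 6) (nat_lit 7) L73298 (by decide +kernel)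
theorem L73300 : W_25 (nat_lit 4) (nat_lit 0x11001fc008a001800088000000000000000000000000000000) (nat_lit 0x0) (nat_lit 0x400020000000000000000600130000000000000000000000000000000) := T_25 (nat_lit 226) (nat_lit 209) (nat_lit 6) (nat_lit 5) (nat_lit 13) L73299 (by decide +kernel)
theorem L73301 : W_25 (nat_lit 5) (nat_lit 0x11001fc0082001800088000000000000000000000000000000) (nat_lit 0x0) (nat_lit 0x400020000000000018000600130000000000000000000000000000000) := T_25 (nat_lit 159) (nat_lit 160) (nat_lit 0) (nat_lit 10) (nat_lit 10) L73300 (by decide +kernel)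
theorem L73302 : W_25 (nat_lit 6) (nat_lit 0x11000fc0082001800088000000000000000000000000000000) (nat_lit 0x0) (nat_lit 0x400020000001000118000600130000000000000000000000000000000) := T_25 (nat_lit 180) (nat_lit 164) (nat_lit 2) (nat_lit 7) (nat_lit 10) L73301 (by decide +kernel)
theorem L73303 : W_25 (nat_lit 7) (nat_lit 0x11000fc0082001800080000000000000000000000000000000) (nat_lit 0x0) (nat_lit 0x400020000001000118000700138000000000000000000000000000000) := T_25 (nat_lit 123) (nat_lit 140) (nat_lit 7) (nat_lit 4) (nat_lit 7) L73302 (by decide +kernel)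
theorem L73304 : W_25 (nat_lit 8) (nat_lit 0x11000fc0002001800080000000000000000000000000000000) (nat_lit 0x0) (nat_lit 0x4000200000010001d8000700138000000000000000000000000000000) := T_25 (nat_lit 163) (nat_lit 162) (nat_lit 2) (nat_lit 6) (nat_lit 10) L73303 (by decide +kernel)
theorem L73305 : W_25 (nat_lit 9) (nat_lit 0x110007c0002001800080000000000000000000000000000000) (nat_lit 0x0) (nat_lit 0x4000200200018001d8000700138000000000000000000000000000000) := T_25 (nat_lit 179) (nat_lit 197) (nat_lit 3) (nat_lit 6) (nat_lit 10) L73304 (by decide +kernel)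
theorem L73306 : W_25 (nat_lit 10) (nat_lit 0x100007c0002001800080000000000000000000000000000000) (nat_lit 0x0) (nat_lit 0x4000200218018001d8000700138000000000000000000000000000000) := T_25 (nat_lit 192) (nat_lit 191) (nat_lit 1) (nat_lit 8) (nat_lit 10) L73305 (by decide +kernel)
theorem L73307 : W_25 (nat_lit 11) (nat_lit 0x7c0002001800080000000000000000000000000000000) (nat_lit 0x0) (nat_lit 0x4000200398018001d8000700138000000000000000000000000000000) := T_25 (nat_lit 196) (nat_lit 195) (nat_lit 3) (nat_lit 5) (nat_lit 10) L73306 (by decide +kernel)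
theorem L73308 : W_25 (nat_lit 12) (nat_lit 0x7c0000001800080000000000000000000000000000000) (nat_lit 0x0) (nat_lit 0x4000200398018001db000700138000000000000000000000000000000) := T_25 (nat_lit 157) (nat_lit 156) (nat_lit 0) (nat_lit 7) (nat_lit 10) L73307 (by decide +kernel)
theorem L73309 : W_25 (nat_lit 2) (nat_lit 0x80007c0011001800080000000000000000000000000000000) (nat_lit 0x0) (nat_lit 0x20008800000000000000000000000000000000000000) := D_25 (nat_lit 173) (nat_lit 155) (nat_lit 159) (nat_lit 0) (nat_lit 6) (nat_lit 10) (nat_lit 2) (nat_lit 3) (nat_lit 10) (by decide +kernel)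
theorem L73310 : W_25 (nat_lit 3) (nat_lit 0x80007c0001001800080000000000000000000000000000000) (nat_lit 0x0) (nat_lit 0x20018800000040000000000000000000000000000000) := T_25 (nat_lit 160) (nat_lit 126) (nat_lit 7) (nat_lit 7) (nat_lit 7) L73309 (by decide +kernel)
theorem L73311 : W_25 (nat_lit 4) (nat_lit 0x80007c0000001800080000000000000000000000000000000) (nat_lit 0x0) (nat_lit 0x2001b800000040000000000000000000000000000000) := T_25 (nat_lit 156) (nat_lit 157) (nat_lit 0) (nat_lit 7) (nat_lit 10) L73310 (by decide +kernel)
theorem L73312 : W_25 (nat_lit 5) (nat_lit 0x7c0000001800080000000000000000000000000000000) (nat_lit 0x0) (nat_lit 0x1800002001b800000040000000000000000000000000000000) := T_25 (nat_lit 195) (nat_lit 196) (nat_lit 3) (nat_lit 5) (nat_lit 10) L73311 (by decide +kernel)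
theorem L73313 : W_25 (nat_lit 2) (nat_lit 0x4000000011001fc0082001800388000000000000000000000000000000) (nat_lit 0x0) (nat_lit 0x600040000000000000000000000000000000) := D_25 (nat_lit 142) (nat_lit 126) (nat_lit 141) (nat_lit 1) (nat_lit 10) (nat_lit 7) (nat_lit 2) (nat_lit 5) (nat_lit 8) (by decide +kernel)
theorem L73314 : W_25 (nat_lit 3) (nat_lit 0x4000000011001fc0082001800288000000000000000000000000000000) (nat_lit 0x0) (nat_lit 0x600540000000000000000000000000000000) := T_25 (nat_lit 128) (nat_lit 130) (nat_lit 1) (nat_lit 11) (nat_lit 7) L73313 (by decide +kernel)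
theorem L73315 : W_25 (nat_lit 4) (nat_lit 0x4000000011001fc0082001800088000000000000000000000000000000) (nat_lit 0x0) (nat_lit 0x4600740000000000000000000000000000000) := T_25 (nat_lit 129) (nat_lit 146) (nat_lit 5) (nat_lit 10) (nat_lit 7) L73314 (by decide +kernel)
theorem L73316 : W_25 (nat_lit 5) (nat_lit 0x11001fc0082001800088000000000000000000000000000000) (nat_lit 0x0) (nat_lit 0x4000200000000000000004600740000000000000000000000000000000) := T_25 (nat_lit 230) (nat_lit 213) (nat_lit 6) (nat_lit 9) (nat_lit 13) L73315 (by decide +kernel)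
theorem L73317 : W_25 (nat_lit 6) (nat_lit 0x11001fc0082001800080000000000000000000000000000000) (nat_lit 0x0) (nat_lit 0x4000200000000000000004700748000000000000000000000000000000) := T_25 (nat_lit 123) (nat_lit 140) (nat_lit 7) (nat_lit 4) (nat_lit 7) L73316 (by decide +kernel)
theorem L73318 : W_25 (nat_lit 7) (nat_lit 0x11000fc0082001800080000000000000000000000000000000) (nat_lit 0x0) (nat_lit 0x4000200000001000100004700748000000000000000000000000000000) := T_25 (nat_lit 180) (nat_lit 164) (nat_lit 2) (nat_lit 7) (nat_lit 10) L73317 (by decide +kernel)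
theorem L73319 : W_25 (nat_lit 8) (nat_lit 0x10000fc0082001800080000000000000000000000000000000) (nat_lit 0x0) (nat_lit 0x4000200001801000100004700748000000000000000000000000000000) := T_25 (nat_lit 192) (nat_lit 191) (nat_lit 1) (nat_lit 8) (nat_lit 10) L73318 (by decide +kernel)
theorem L73320 : W_25 (nat_lit 9) (nat_lit 0x10000fc0002001800080000000000000000000000000000000) (nat_lit 0x0) (nat_lit 0x40002000018010001c0004700748000000000000000000000000000000) := T_25 (nat_lit 163) (nat_lit 162) (nat_lit 2) (nat_lit 6) (nat_lit 10) L73319 (by decide +kernel)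
theorem L73321 : W_25 (nat_lit 10) (nat_lit 0x100007c0002001800080000000000000000000000000000000) (nat_lit 0x0) (nat_lit 0x40002000218018001c0004700748000000000000000000000000000000) := T_25 (nat_lit 179) (nat_lit 197) (nat_lit 3) (nat_lit 6) (nat_lit 10) L73320 (by decide +kernel)
theorem L73322 : W_25 (nat_lit 11) (nat_lit 0x100007c0000001800080000000000000000000000000000000) (nat_lit 0x0) (nat_lit 0x40002000218018001c3004700748000000000000000000000000000000) := T_25 (nat_lit 157) (nat_lit 156) (nat_lit 0) (nat_lit 7) (nat_lit 10) L73321 (by decide +kernel)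
theorem L73323 : W_25 (nat_lit 12) (nat_lit 0x7c0000001800080000000000000000000000000000000) (nat_lit 0x0) (nat_lit 0x40002000398018001c3004700748000000000000000000000000000000) := T_25 (nat_lit 196) (nat_lit 195) (nat_lit 3) (nat_lit 5) (nat_lit 10) L73322 (by decide +kernel)
theorem L73324 : W_25 (nat_lit 9) (nat_lit 0x10007c0000001800080000000000000000000000000000000) (nat_lit 0x0) (nat_lit 0x40002000000002001b80070017c000000000000000000000000000000) := T_25 (nat_lit 156) (nat_lit 157) (nat_lit 0) (nat_lit 7) (nat_lit 10) L13522 (by decide +kernel)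
theorem L73325 : W_25 (nat_lit 10) (nat_lit 0x7c0000001800080000000000000000000000000000000) (nat_lit 0x0) (nat_lit 0x40002000180002001b80070017c000000000000000000000000000000) := T_25 (nat_lit 192) (nat_lit 191) (nat_lit 1) (nat_lit 8) (nat_lit 10) L73324 (by decide +kernel)
theorem L73326 : W_25 (nat_lit 13) (nat_lit 0x3c0000001800080000000000000000000000000000000) (nat_lit 0x0) (nat_lit 0x6400320039801c201db80478077c000000000000000000000000000000) := Q_25 (nat_lit 178) (C_25 L73308 (C_25 L73312 (C_25 L73323 (C_25 L73325 (C_25 L13515 N_25))))) (by decide +kernel)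
theorem L73327 : W_25 (nat_lit 14) (nat_lit 0x380000001800080000000000000000000000000000000) (nat_lit 0x0) (nat_lit 0x6400320039e01c601db80478077c000800000000000000000000000000) := Q_25 (nat_lit 174) (C_25 L73208 (C_25 L73165 (C_25 L73297 (C_25 L13464 (C_25 L73326 N_25))))) (by decide +kernel)
theorem L73328 : W_25 (nat_lit 16) (nat_lit 0x380000001000080000000000000000000000000000000) (nat_lit 0x0) (nat_lit 0x30017c80be40fbf03c781dbc0cfc077e03bd007c001c000000000000000000) := Q_25 (nat_lit 143) (C_25 L73162 (C_25 L73177 (C_25 L73187 (C_25 L73248 (C_25 L73255 (C_25 L73272 (C_25 L73279 (C_25 L73292 (C_25 L73327 N_25))))))))) (by decide +kernel)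
theorem L73329 : W_25 (nat_lit 3) (nat_lit 0x780004001c00080000000000000000000000000000000) (nat_lit 0x0) (nat_lit 0x2000000000000200118000000000000000000000000000000) := T_25 (nat_lit 141) (nat_lit 128) (nat_lit 2) (nat_lit 5) (nat_lit 8) L11256 (by decide +kernel)
theorem L73330 : W_25 (nat_lit 4) (nat_lit 0x780000001c00080000000000000000000000000000000) (nat_lit 0x0) (nat_lit 0x2000000006000200118000000000000000000000000000000) := T_25 (nat_lit 158) (nat_lit 157) (nat_lit 0) (nat_lit 8) (nat_lit 10) L73329 (by decide +kernel)
theorem L73331 : W_25 (nat_lit 2) (nat_lit 0x1000780004001c00080000000000000000000000000000000) (nat_lit 0x0) (nat_lit 0x20000000000008000000020000000000000000000000000000000) := D_25 (nat_lit 159) (nat_lit 125) (nat_lit 209) (nat_lit 5) (nat_lit 6) (nat_lit 7) (nat_lit 6) (nat_lit 5) (nat_lit 12) (by decide +kernel)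
theorem L73332 : W_25 (nat_lit 3) (nat_lit 0x780004001c00080000000000000000000000000000000) (nat_lit 0x0) (nat_lit 0x20001800000008000000020000000000000000000000000000000) := T_25 (nat_lit 192) (nat_lit 191) (nat_lit 1) (nat_lit 8) (nat_lit 10) L73331 (by decide +kernel)
theorem L73333 : W_25 (nat_lit 4) (nat_lit 0x780000001c00080000000000000000000000000000000) (nat_lit 0x0) (nat_lit 0x2000180000000e000000020000000000000000000000000000000) := T_25 (nat_lit 158) (nat_lit 157) (nat_lit 0) (nat_lit 8) (nat_lit 10) L73332 (by decide +kernel)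
theorem L73334 : W_25 (nat_lit 6) (nat_lit 0x780000001800080000000000000000000000000000000) (nat_lit 0x0) (nat_lit 0x2001b80000000e00070017c000000000000000000000000000000) := Q_25 (nat_lit 142) (C_25 L73330 (C_25 L73333 (C_25 L8533 N_25))) (by decide +kernel)
theorem L73335 : W_25 (nat_lit 2) (nat_lit 0xa000780004001c000c0000000000000000000000000000000) (nat_lit 0x0) (nat_lit 0x300010000000000000000000000000000000) := D_25 (nat_lit 141) (nat_lit 140) (nat_lit 124) (nat_lit 2) (nat_lit 4) (nat_lit 8) (nat_lit 7) (nat_lit 5) (nat_lit 7) (by decide +kernel)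
theorem L73336 : W_25 (nat_lit 3) (nat_lit 0x8000780004001c000c0000000000000000000000000000000) (nat_lit 0x0) (nat_lit 0x2000000008000300010000000000000000000000000000000) := T_25 (nat_lit 193) (nat_lit 159) (nat_lit 6) (nat_lit 6) (nat_lit 11) L73335 (by decide +kernel)
theorem L73337 : W_25 (nat_lit 4) (nat_lit 0x8000780004001c00080000000000000000000000000000000) (nat_lit 0x0) (nat_lit 0x2000000018000300050000000000000000000000000000000) := T_25 (nat_lit 126) (nat_lit 160) (nat_lit 7) (nat_lit 7) (nat_lit 7) L73336 (by decide +kernel)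
theorem L73338 : W_25 (nat_lit 5) (nat_lit 0x8000780000001c00080000000000000000000000000000000) (nat_lit 0x0) (nat_lit 0x200000001e000300050000000000000000000000000000000) := T_25 (nat_lit 158) (nat_lit 157) (nat_lit 0) (nat_lit 8) (nat_lit 10) L73337 (by decide +kernel)
theorem L73339 : W_25 (nat_lit 6) (nat_lit 0x780000001c00080000000000000000000000000000000) (nat_lit 0x0) (nat_lit 0x1a00000001e000300050000000000000000000000000000000) := T_25 (nat_lit 195) (nat_lit 196) (nat_lit 3) (nat_lit 5) (nat_lit 10) L73338 (by decide +kernel)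
theorem L73340 : W_25 (nat_lit 2) (nat_lit 0x800078000c001c000c0000000000000000000000000000000) (nat_lit 0x0) (nat_lit 0x20003000000000000000000000000000) := D_25 (nat_lit 125) (nat_lit 109) (nat_lit 108) (nat_lit 6) (nat_lit 6) (nat_lit 10) (nat_lit 5) (nat_lit 6) (nat_lit 6) (by decide +kernel)
theorem L73341 : W_25 (nat_lit 3) (nat_lit 0x8000780004001c000c0000000000000000000000000000000) (nat_lit 0x0) (nat_lit 0x2000000008000000020003000000000000000000000000000) := T_25 (nat_lit 159) (nat_lit 193) (nat_lit 6) (nat_lit 6) (nat_lit 11) L73340 (by decide +kernel)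
theorem L73342 : W_25 (nat_lit 4) (nat_lit 0x8000780004001c00080000000000000000000000000000000) (nat_lit 0x0) (nat_lit 0x2000000018000000060003000000000000000000000000000) := T_25 (nat_lit 126) (nat_lit 160) (nat_lit 7) (nat_lit 7) (nat_lit 7) L73341 (by decide +kernel)
theorem L73343 : W_25 (nat_lit 5) (nat_lit 0x8000780000001c00080000000000000000000000000000000) (nat_lit 0x0) (nat_lit 0x200000001e000000060003000000000000000000000000000) := T_25 (nat_lit 158) (nat_lit 157) (nat_lit 0) (nat_lit 8) (nat_lit 10) L73342 (by decide +kernel)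
theorem L73344 : W_25 (nat_lit 6) (nat_lit 0x780000001c00080000000000000000000000000000000) (nat_lit 0x0) (nat_lit 0x1a00000001e000000060003000000000000000000000000000) := T_25 (nat_lit 195) (nat_lit 196) (nat_lit 3) (nat_lit 5) (nat_lit 10) L73343 (by decide +kernel)
theorem L73345 : W_25 (nat_lit 7) (nat_lit 0x780000001800080000000000000000000000000000000) (nat_lit 0x0) (nat_lit 0x1a00000001e00070017c003000000000000000000000000000) := Q_25 (nat_lit 142) (C_25 L73330 (C_25 L8533 (C_25 L73339 (C_25 L73344 N_25)))) (by decide +kernel)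
theorem L73346 : W_25 (nat_lit 2) (nat_lit 0xb000780004001800080000000000000000000000000000000) (nat_lit 0x0) (nat_lit 0x800040000000000000000200000000000000000000000000000000000) := D_25 (nat_lit 210) (nat_lit 227) (nat_lit 141) (nat_lit 4) (nat_lit 6) (nat_lit 13) (nat_lit 7) (nat_lit 5) (nat_lit 8) (by decide +kernel)
theorem L73347 : W_25 (nat_lit 3) (nat_lit 0xb000780000001800080000000000000000000000000000000) (nat_lit 0x0) (nat_lit 0x800040000000000006000200000000000000000000000000000000000) := T_25 (nat_lit 158) (nat_lit 157) (nat_lit 0) (nat_lit 8) (nat_lit 10) L73346 (by decide +kernel)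
theorem L73348 : W_25 (nat_lit 4) (nat_lit 0xa000780000001800080000000000000000000000000000000) (nat_lit 0x0) (nat_lit 0x800040001800000006000200000000000000000000000000000000000) := T_25 (nat_lit 192) (nat_lit 191) (nat_lit 1) (nat_lit 8) (nat_lit 10) L73347 (by decide +kernel)
theorem L73349 : W_25 (nat_lit 5) (nat_lit 0x2000780000001800080000000000000000000000000000000) (nat_lit 0x0) (nat_lit 0x800040019800000006000200000000000000000000000000000000000) := T_25 (nat_lit 195) (nat_lit 196) (nat_lit 3) (nat_lit 5) (nat_lit 10) L73348 (by decide +kernel)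
theorem L73350 : W_25 (nat_lit 2) (nat_lit 0x2000780014001800080000000000000000000000000000000) (nat_lit 0x0) (nat_lit 0x800040000000000008000000000000000000000000000000000000000) := D_25 (nat_lit 210) (nat_lit 227) (nat_lit 159) (nat_lit 6) (nat_lit 6) (nat_lit 13) (nat_lit 6) (nat_lit 6) (nat_lit 12) (by decide +kernel)
theorem L73351 : W_25 (nat_lit 3) (nat_lit 0x2000780004001800080000000000000000000000000000000) (nat_lit 0x0) (nat_lit 0x800040000000000018000000040000000000000000000000000000000) := T_25 (nat_lit 160) (nat_lit 126) (nat_lit 5) (nat_lit 7) (nat_lit 7) L73350 (by decide +kernel)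
theorem L73352 : W_25 (nat_lit 4) (nat_lit 0x2000780000001800080000000000000000000000000000000) (nat_lit 0x0) (nat_lit 0x80004000000000001e000000040000000000000000000000000000000) := T_25 (nat_lit 158) (nat_lit 157) (nat_lit 0) (nat_lit 8) (nat_lit 10) L73351 (by decide +kernel)
theorem L73353 : W_25 (nat_lit 2) (nat_lit 0xb000780000001c000c0000000000000000000000000000000) (nat_lit 0x0) (nat_lit 0x300100000000000000000000000000000000) := D_25 (nat_lit 141) (nat_lit 128) (nat_lit 140) (nat_lit 2) (nat_lit 5) (nat_lit 8) (nat_lit 2) (nat_lit 4) (nat_lit 8) (by decide +kernel)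
theorem L73354 : W_25 (nat_lit 3) (nat_lit 0xb0007800000018000c0000000000000000000000000000000) (nat_lit 0x0) (nat_lit 0x8000700100000000000000000000000000000000) := T_25 (nat_lit 142) (nat_lit 159) (nat_lit 6) (nat_lit 6) (nat_lit 11) L73353 (by decide +kernel)
theorem L73355 : W_25 (nat_lit 4) (nat_lit 0x30007800000018000c0000000000000000000000000000000) (nat_lit 0x0) (nat_lit 0x18000000008000700100000000000000000000000000000000) := T_25 (nat_lit 195) (nat_lit 196) (nat_lit 3) (nat_lit 5) (nat_lit 10) L73354 (by decide +kernel)
theorem L73356 : W_25 (nat_lit 5) (nat_lit 0x3000780000001800080000000000000000000000000000000) (nat_lit 0x0) (nat_lit 0x18000000018000700140000000000000000000000000000000) := T_25 (nat_lit 126) (nat_lit 160) (nat_lit 5) (nat_lit 7) (nat_lit 7) L73355 (by decide +kernel)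
theorem L73357 : W_25 (nat_lit 6) (nat_lit 0x2000780000001800080000000000000000000000000000000) (nat_lit 0x0) (nat_lit 0x19800000018000700140000000000000000000000000000000) := T_25 (nat_lit 192) (nat_lit 191) (nat_lit 1) (nat_lit 8) (nat_lit 10) L73356 (by decide +kernel)
theorem L73358 : W_25 (nat_lit 7) (nat_lit 0x780000001800080000000000000000000000000000000) (nat_lit 0x0) (nat_lit 0x80004001b80000001e000700140000000000000000000000000000000) := Q_25 (nat_lit 193) (C_25 L73349 (C_25 L73352 (C_25 L73357 N_25))) (by decide +kernel)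
theorem L73359 : W_25 (nat_lit 2) (nat_lit 0x1000780000001e00090000000000000000000000000000000) (nat_lit 0x0) (nat_lit 0x2000000008000000020000000000000000000000000000000) := D_25 (nat_lit 159) (nat_lit 193) (nat_lit 125) (nat_lit 4) (nat_lit 6) (nat_lit 11) (nat_lit 5) (nat_lit 6) (nat_lit 7) (by decide +kernel)
theorem L73360 : W_25 (nat_lit 3) (nat_lit 0x780000001e00090000000000000000000000000000000) (nat_lit 0x0) (nat_lit 0x3800000008000000020000000000000000000000000000000) := T_25 (nat_lit 192) (nat_lit 191) (nat_lit 1) (nat_lit 8) (nat_lit 10) L73359 (by decide +kernel)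
theorem L73361 : W_25 (nat_lit 4) (nat_lit 0x780000001e00080000000000000000000000000000000) (nat_lit 0x0) (nat_lit 0x3800000008000000038000000000000000000000000000000) := T_25 (nat_lit 124) (nat_lit 123) (nat_lit 0) (nat_lit 8) (nat_lit 8) L73360 (by decide +kernel)
theorem L73362 : W_25 (nat_lit 5) (nat_lit 0x780000001c00080000000000000000000000000000000) (nat_lit 0x0) (nat_lit 0x3800000008000200138000000000000000000000000000000) := T_25 (nat_lit 141) (nat_lit 128) (nat_lit 2) (nat_lit 5) (nat_lit 8) L73361 (by decide +kernel)
theorem L73363 : W_25 (nat_lit 6) (nat_lit 0x780000001800080000000000000000000000000000000) (nat_lit 0x0) (nat_lit 0x2000380000000e000600138000000000000000000000000000000) := Q_25 (nat_lit 142) (C_25 L73333 (C_25 L73330 (C_25 L73362 N_25))) (by decide +kernel)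
theorem L73364 : W_25 (nat_lit 2) (nat_lit 0x3000780010001800080000000000000000000000000000000) (nat_lit 0x0) (nat_lit 0x800040000000000008000000000000000000000000000000000000000) := D_25 (nat_lit 210) (nat_lit 159) (nat_lit 227) (nat_lit 6) (nat_lit 6) (nat_lit 12) (nat_lit 6) (nat_lit 6) (nat_lit 13) (by decide +kernel)
theorem L73365 : W_25 (nat_lit 3) (nat_lit 0x3000780000001800080000000000000000000000000000000) (nat_lit 0x0) (nat_lit 0x800040000000000018000000040000000000000000000000000000000) := T_25 (nat_lit 160) (nat_lit 126) (nat_lit 5) (nat_lit 7) (nat_lit 7) L73364 (by decide +kernel)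
theorem L73366 : W_25 (nat_lit 4) (nat_lit 0x2000780000001800080000000000000000000000000000000) (nat_lit 0x0) (nat_lit 0x800040001800000018000000040000000000000000000000000000000) := T_25 (nat_lit 192) (nat_lit 191) (nat_lit 1) (nat_lit 8) (nat_lit 10) L73365 (by decide +kernel)
theorem L73367 : W_25 (nat_lit 3) (nat_lit 0xa0007800040018000c0000000000000000000000000000000) (nat_lit 0x0) (nat_lit 0x8000700010000000000000000000000000000000) := T_25 (nat_lit 142) (nat_lit 159) (nat_lit 6) (nat_lit 6) (nat_lit 11) L73335 (by decide +kernel)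
theorem L73368 : W_25 (nat_lit 4) (nat_lit 0xa000780004001800080000000000000000000000000000000) (nat_lit 0x0) (nat_lit 0x18000700050000000000000000000000000000000) := T_25 (nat_lit 126) (nat_lit 160) (nat_lit 7) (nat_lit 7) (nat_lit 7) L73367 (by decide +kernel)
theorem L73369 : W_25 (nat_lit 5) (nat_lit 0xa000780000001800080000000000000000000000000000000) (nat_lit 0x0) (nat_lit 0x1e000700050000000000000000000000000000000) := T_25 (nat_lit 158) (nat_lit 157) (nat_lit 0) (nat_lit 8) (nat_lit 10) L73368 (by decide +kernel)
theorem L73370 : W_25 (nat_lit 6) (nat_lit 0x2000780000001800080000000000000000000000000000000) (nat_lit 0x0) (nat_lit 0x1800000001e000700050000000000000000000000000000000) := T_25 (nat_lit 195) (nat_lit 196) (nat_lit 3) (nat_lit 5) (nat_lit 10) L73369 (by decide +kernel)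
theorem L73371 : W_25 (nat_lit 7) (nat_lit 0x780000001800080000000000000000000000000000000) (nat_lit 0x0) (nat_lit 0x80004001b80000001e000700050000000000000000000000000000000) := Q_25 (nat_lit 193) (C_25 L73349 (C_25 L73352 (C_25 L73366 (C_25 L73370 N_25)))) (by decide +kernel)
theorem L73372 : W_25 (nat_lit 2) (nat_lit 0x9000780004001a00580000000000000000000000000000000) (nat_lit 0x0) (nat_lit 0x40002000000000000000010000000000000000000000000000000) := D_25 (nat_lit 193) (nat_lit 124) (nat_lit 210) (nat_lit 7) (nat_lit 5) (nat_lit 7) (nat_lit 7) (nat_lit 5) (nat_lit 8) (by decide +kernel)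
theorem L73373 : W_25 (nat_lit 3) (nat_lit 0x9000780000001a00580000000000000000000000000000000) (nat_lit 0x0) (nat_lit 0x40002000000006000000010000000000000000000000000000000) := T_25 (nat_lit 158) (nat_lit 157) (nat_lit 0) (nat_lit 8) (nat_lit 10) L73372 (by decide +kernel)
theorem L73374 : W_25 (nat_lit 4) (nat_lit 0x1000780000001a00580000000000000000000000000000000) (nat_lit 0x0) (nat_lit 0x4001a000000006000000010000000000000000000000000000000) := T_25 (nat_lit 195) (nat_lit 196) (nat_lit 3) (nat_lit 5) (nat_lit 10) L73373 (by decide +kernel)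
theorem L73375 : W_25 (nat_lit 5) (nat_lit 0x1000780000001a00180000000000000000000000000000000) (nat_lit 0x0) (nat_lit 0x4001a000000006000000610000000000000000000000000000000) := T_25 (nat_lit 130) (nat_lit 129) (nat_lit 1) (nat_lit 11) (nat_lit 7) L73374 (by decide +kernel)
theorem L73376 : W_25 (nat_lit 6) (nat_lit 0x1000780000001800180000000000000000000000000000000) (nat_lit 0x0) (nat_lit 0x4001a000000006000600610000000000000000000000000000000) := T_25 (nat_lit 141) (nat_lit 142) (nat_lit 2) (nat_lit 5) (nat_lit 8) L73375 (by decide +kernel)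
theorem L73377 : W_25 (nat_lit 7) (nat_lit 0x780000001800180000000000000000000000000000000) (nat_lit 0x0) (nat_lit 0x4001b800000006000600610000000000000000000000000000000) := T_25 (nat_lit 192) (nat_lit 191) (nat_lit 1) (nat_lit 8) (nat_lit 10) L73376 (by decide +kernel)
theorem L73378 : W_25 (nat_lit 2) (nat_lit 0x9000780004001800380000000000000000000000000000000) (nat_lit 0x0) (nat_lit 0x10000400040000000000000000000000000000000) := D_25 (nat_lit 126) (nat_lit 142) (nat_lit 160) (nat_lit 1) (nat_lit 10) (nat_lit 7) (nat_lit 7) (nat_lit 7) (nat_lit 7) (by decide +kernel)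
theorem L73379 : W_25 (nat_lit 3) (nat_lit 0x1000780004001800380000000000000000000000000000000) (nat_lit 0x0) (nat_lit 0x18000000010000400040000000000000000000000000000000) := T_25 (nat_lit 195) (nat_lit 196) (nat_lit 3) (nat_lit 5) (nat_lit 10) L73378 (by decide +kernel)
theorem L73380 : W_25 (nat_lit 4) (nat_lit 0x1000780004001800180000000000000000000000000000000) (nat_lit 0x0) (nat_lit 0x18000000010000400640000000000000000000000000000000) := T_25 (nat_lit 129) (nat_lit 130) (nat_lit 1) (nat_lit 11) (nat_lit 7) L73379 (by decide +kernel)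
theorem L73381 : W_25 (nat_lit 5) (nat_lit 0x780004001800180000000000000000000000000000000) (nat_lit 0x0) (nat_lit 0x19800000010000400640000000000000000000000000000000) := T_25 (nat_lit 192) (nat_lit 191) (nat_lit 1) (nat_lit 8) (nat_lit 10) L73380 (by decide +kernel)
theorem L73382 : W_25 (nat_lit 6) (nat_lit 0x780000001800180000000000000000000000000000000) (nat_lit 0x0) (nat_lit 0x19800000016000400640000000000000000000000000000000) := T_25 (nat_lit 158) (nat_lit 157) (nat_lit 0) (nat_lit 8) (nat_lit 10) L73381 (by decide +kernel)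
theorem L73383 : W_25 (nat_lit 2) (nat_lit 0x9000780004001a001c0000000000000000000000000000000) (nat_lit 0x0) (nat_lit 0x40002000000000000000010000000000000000000000000000000) := D_25 (nat_lit 193) (nat_lit 124) (nat_lit 210) (nat_lit 7) (nat_lit 5) (nat_lit 7) (nat_lit 7) (nat_lit 5) (nat_lit 8) (by decide +kernel)
theorem L73384 : W_25 (nat_lit 3) (nat_lit 0x90007800040018001c0000000000000000000000000000000) (nat_lit 0x0) (nat_lit 0x40002000000000000600010000000000000000000000000000000) := T_25 (nat_lit 141) (nat_lit 142) (nat_lit 2) (nat_lit 5) (nat_lit 8) L73383 (by decide +kernel)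
theorem L73385 : W_25 (nat_lit 4) (nat_lit 0x80007800040018001c0000000000000000000000000000000) (nat_lit 0x0) (nat_lit 0x40003800000000000600010000000000000000000000000000000) := T_25 (nat_lit 192) (nat_lit 191) (nat_lit 1) (nat_lit 8) (nat_lit 10) L73384 (by decide +kernel)
theorem L73386 : W_25 (nat_lit 5) (nat_lit 0x8000780004001800180000000000000000000000000000000) (nat_lit 0x0) (nat_lit 0x40003800000010000600050000000000000000000000000000000) := T_25 (nat_lit 126) (nat_lit 160) (nat_lit 7) (nat_lit 7) (nat_lit 7) L73385 (by decide +kernel)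
theorem L73387 : W_25 (nat_lit 6) (nat_lit 0x8000780000001800180000000000000000000000000000000) (nat_lit 0x0) (nat_lit 0x40003800000016000600050000000000000000000000000000000) := T_25 (nat_lit 158) (nat_lit 157) (nat_lit 0) (nat_lit 8) (nat_lit 10) L73386 (by decide +kernel)
theorem L73388 : W_25 (nat_lit 7) (nat_lit 0x780000001800180000000000000000000000000000000) (nat_lit 0x0) (nat_lit 0x4001b800000016000600050000000000000000000000000000000) := T_25 (nat_lit 195) (nat_lit 196) (nat_lit 3) (nat_lit 5) (nat_lit 10) L73387 (by decide +kernel)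
theorem L73389 : W_25 (nat_lit 2) (nat_lit 0x90007800040058003e0010000000000000000000000000000) (nat_lit 0x0) (nat_lit 0x3800000000000000000000000000) := D_25 (nat_lit 108) (nat_lit 107) (nat_lit 109) (nat_lit 0) (nat_lit 9) (nat_lit 7) (nat_lit 0) (nat_lit 10) (nat_lit 7) (by decide +kernel)
theorem L73390 : W_25 (nat_lit 3) (nat_lit 0x90007800040058003c0010000000000000000000000000000) (nat_lit 0x0) (nat_lit 0x2000b800000000000000000000000000) := T_25 (nat_lit 125) (nat_lit 111) (nat_lit 2) (nat_lit 6) (nat_lit 7) L73389 (by decide +kernel)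
theorem L73391 : W_25 (nat_lit 4) (nat_lit 0x90007800040058003c0000000000000000000000000000000) (nat_lit 0x0) (nat_lit 0x2003b800000000000000000000000000) := T_25 (nat_lit 112) (nat_lit 113) (nat_lit 2) (nat_lit 7) (nat_lit 7) L73390 (by decide +kernel)
theorem L73392 : W_25 (nat_lit 5) (nat_lit 0x90007800040018003c0000000000000000000000000000000) (nat_lit 0x0) (nat_lit 0xc00002003b800000000000000000000000000) := T_25 (nat_lit 146) (nat_lit 147) (nat_lit 3) (nat_lit 7) (nat_lit 7) L73391 (by decide +kernel)
theorem L73393 : W_25 (nat_lit 6) (nat_lit 0x9000780004001800380000000000000000000000000000000) (nat_lit 0x0) (nat_lit 0x1000c00006003b800000000000000000000000000) := T_25 (nat_lit 126) (nat_lit 160) (nat_lit 7) (nat_lit 7) (nat_lit 7) L73392 (by decide +kernel)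
theorem L73394 : W_25 (nat_lit 7) (nat_lit 0x9000780000001800380000000000000000000000000000000) (nat_lit 0x0) (nat_lit 0x1600c00006003b800000000000000000000000000) := T_25 (nat_lit 158) (nat_lit 157) (nat_lit 0) (nat_lit 8) (nat_lit 10) L73393 (by decide +kernel)
theorem L73395 : W_25 (nat_lit 8) (nat_lit 0x1000780000001800380000000000000000000000000000000) (nat_lit 0x0) (nat_lit 0x1800000001600c00006003b800000000000000000000000000) := T_25 (nat_lit 195) (nat_lit 196) (nat_lit 3) (nat_lit 5) (nat_lit 10) L73394 (by decide +kernel)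
theorem L73396 : W_25 (nat_lit 9) (nat_lit 0x780000001800380000000000000000000000000000000) (nat_lit 0x0) (nat_lit 0x1980000001600c00006003b800000000000000000000000000) := T_25 (nat_lit 192) (nat_lit 191) (nat_lit 1) (nat_lit 8) (nat_lit 10) L73395 (by decide +kernel)
theorem L73397 : W_25 (nat_lit 10) (nat_lit 0x780000001800180000000000000000000000000000000) (nat_lit 0x0) (nat_lit 0x1980000001600c00066003b800000000000000000000000000) := T_25 (nat_lit 129) (nat_lit 130) (nat_lit 1) (nat_lit 11) (nat_lit 7) L73396 (by decide +kernel)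
theorem L73398 : W_25 (nat_lit 2) (nat_lit 0x8000780000001800380000000000000000000000000000000) (nat_lit 0x0) (nat_lit 0x10000400040000000000000000000000000000000) := D_25 (nat_lit 126) (nat_lit 160) (nat_lit 142) (nat_lit 7) (nat_lit 7) (nat_lit 7) (nat_lit 1) (nat_lit 10) (nat_lit 7) (by decide +kernel)
theorem L73399 : W_25 (nat_lit 3) (nat_lit 0x8000780000001800180000000000000000000000000000000) (nat_lit 0x0) (nat_lit 0x10000400640000000000000000000000000000000) := T_25 (nat_lit 129) (nat_lit 130) (nat_lit 1) (nat_lit 11) (nat_lit 7) L73398 (by decide +kernel)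
theorem L73400 : W_25 (nat_lit 4) (nat_lit 0x780000001800180000000000000000000000000000000) (nat_lit 0x0) (nat_lit 0x18000000010000400640000000000000000000000000000000) := T_25 (nat_lit 195) (nat_lit 196) (nat_lit 3) (nat_lit 5) (nat_lit 10) L73399 (by decide +kernel)
theorem L73401 : W_25 (nat_lit 2) (nat_lit 0x1000780004001a00580000000000000000000000000000000) (nat_lit 0x0) (nat_lit 0x40002000000000000000010000000000000000000000000000000) := D_25 (nat_lit 193) (nat_lit 210) (nat_lit 124) (nat_lit 7) (nat_lit 5) (nat_lit 8) (nat_lit 7) (nat_lit 5) (nat_lit 7) (by decide +kernel)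
theorem L73402 : W_25 (nat_lit 3) (nat_lit 0x1000780004001800580000000000000000000000000000000) (nat_lit 0x0) (nat_lit 0x40002000000000000600010000000000000000000000000000000) := T_25 (nat_lit 141) (nat_lit 142) (nat_lit 2) (nat_lit 5) (nat_lit 8) L73401 (by decide +kernel)
theorem L73403 : W_25 (nat_lit 4) (nat_lit 0x780004001800580000000000000000000000000000000) (nat_lit 0x0) (nat_lit 0x40003800000000000600010000000000000000000000000000000) := T_25 (nat_lit 192) (nat_lit 191) (nat_lit 1) (nat_lit 8) (nat_lit 10) L73402 (by decide +kernel)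
theorem L73404 : W_25 (nat_lit 5) (nat_lit 0x780004001800180000000000000000000000000000000) (nat_lit 0x0) (nat_lit 0x40003800000000000600610000000000000000000000000000000) := T_25 (nat_lit 130) (nat_lit 129) (nat_lit 1) (nat_lit 11) (nat_lit 7) L73403 (by decide +kernel)
theorem L73405 : W_25 (nat_lit 6) (nat_lit 0x780000001800180000000000000000000000000000000) (nat_lit 0x0) (nat_lit 0x40003800000006000600610000000000000000000000000000000) := T_25 (nat_lit 158) (nat_lit 157) (nat_lit 0) (nat_lit 8) (nat_lit 10) L73404 (by decide +kernel)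
theorem L73406 : W_25 (nat_lit 11) (nat_lit 0x780000001800080000000000000000000000000000000) (nat_lit 0x0) (nat_lit 0x4001b80000001600c60077003b800000000000000000000000000) := Q_25 (nat_lit 128) (C_25 L73377 (C_25 L73382 (C_25 L73388 (C_25 L73397 (C_25 L73400 (C_25 L73405 N_25)))))) (by decide +kernel)
theorem L73407 : W_25 (nat_lit 2) (nat_lit 0x900078000c001800080000000000000000000000000000000) (nat_lit 0x0) (nat_lit 0x20000000000000000400020000000000000000000000000000000) := D_25 (nat_lit 142) (nat_lit 125) (nat_lit 209) (nat_lit 5) (nat_lit 6) (nat_lit 7) (nat_lit 6) (nat_lit 5) (nat_lit 12) (by decide +kernel)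
theorem L73408 : W_25 (nat_lit 3) (nat_lit 0x800078000c001800080000000000000000000000000000000) (nat_lit 0x0) (nat_lit 0x20001800000000000400020000000000000000000000000000000) := T_25 (nat_lit 192) (nat_lit 191) (nat_lit 1) (nat_lit 8) (nat_lit 10) L73407 (by decide +kernel)
theorem L73409 : W_25 (nat_lit 4) (nat_lit 0x78000c001800080000000000000000000000000000000) (nat_lit 0x0) (nat_lit 0x20019800000000000400020000000000000000000000000000000) := T_25 (nat_lit 195) (nat_lit 196) (nat_lit 3) (nat_lit 5) (nat_lit 10) L73408 (by decide +kernel)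
theorem L73410 : W_25 (nat_lit 5) (nat_lit 0x780008001800080000000000000000000000000000000) (nat_lit 0x0) (nat_lit 0x20019800000006000400020000000000000000000000000000000) := T_25 (nat_lit 158) (nat_lit 157) (nat_lit 0) (nat_lit 8) (nat_lit 10) L73409 (by decide +kernel)
theorem L73411 : W_25 (nat_lit 2) (nat_lit 0x800078000c001c000c0000000000000000000000000000000) (nat_lit 0x0) (nat_lit 0x20001800000000000000000000000000000000000000000000000) := D_25 (nat_lit 192) (nat_lit 191) (nat_lit 209) (nat_lit 1) (nat_lit 8) (nat_lit 10) (nat_lit 6) (nat_lit 5) (nat_lit 12) (by decide +kernel)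
theorem L73412 : W_25 (nat_lit 3) (nat_lit 0x800078000c0018000c0000000000000000000000000000000) (nat_lit 0x0) (nat_lit 0x20003800000000000400000000000000000000000000000000000) := T_25 (nat_lit 142) (nat_lit 193) (nat_lit 6) (nat_lit 6) (nat_lit 11) L73411 (by decide +kernel)
theorem L73413 : W_25 (nat_lit 4) (nat_lit 0x800078000c001800080000000000000000000000000000000) (nat_lit 0x0) (nat_lit 0x20003800000010000400040000000000000000000000000000000) := T_25 (nat_lit 126) (nat_lit 160) (nat_lit 7) (nat_lit 7) (nat_lit 7) L73412 (by decide +kernel)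
theorem L73414 : W_25 (nat_lit 5) (nat_lit 0x8000780008001800080000000000000000000000000000000) (nat_lit 0x0) (nat_lit 0x20003800000016000400040000000000000000000000000000000) := T_25 (nat_lit 158) (nat_lit 157) (nat_lit 0) (nat_lit 8) (nat_lit 10) L73413 (by decide +kernel)
theorem L73415 : W_25 (nat_lit 6) (nat_lit 0x780008001800080000000000000000000000000000000) (nat_lit 0x0) (nat_lit 0x2001b800000016000400040000000000000000000000000000000) := T_25 (nat_lit 195) (nat_lit 196) (nat_lit 3) (nat_lit 5) (nat_lit 10) L73414 (by decide +kernel)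
theorem L73416 : W_25 (nat_lit 2) (nat_lit 0x6000900078000c001800080000000000000000000000000000000) (nat_lit 0x0) (nat_lit 0x2000000010000000040000000000000000000000000000000) := D_25 (nat_lit 160) (nat_lit 193) (nat_lit 126) (nat_lit 6) (nat_lit 6) (nat_lit 12) (nat_lit 7) (nat_lit 7) (nat_lit 7) (by decide +kernel)
theorem L73417 : W_25 (nat_lit 3) (nat_lit 0x2000900078000c001800080000000000000000000000000000000) (nat_lit 0x0) (nat_lit 0x800040002000000010000000040000000000000000000000000000000) := T_25 (nat_lit 210) (nat_lit 227) (nat_lit 7) (nat_lit 5) (nat_lit 9) L73416 (by decide +kernel)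
theorem L73418 : W_25 (nat_lit 4) (nat_lit 0x2000100078000c001800080000000000000000000000000000000) (nat_lit 0x0) (nat_lit 0x80004001a000000010000000040000000000000000000000000000000) := T_25 (nat_lit 195) (nat_lit 196) (nat_lit 3) (nat_lit 5) (nat_lit 10) L73417 (by decide +kernel)
theorem L73419 : W_25 (nat_lit 5) (nat_lit 0x100078000c001800080000000000000000000000000000000) (nat_lit 0x0) (nat_lit 0xc0006001a000000010000000040000000000000000000000000000000) := T_25 (nat_lit 209) (nat_lit 226) (nat_lit 6) (nat_lit 5) (nat_lit 13) L73418 (by decide +kernel)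
theorem L73420 : W_25 (nat_lit 6) (nat_lit 0x1000780008001800080000000000000000000000000000000) (nat_lit 0x0) (nat_lit 0xc0006001a000000016000000040000000000000000000000000000000) := T_25 (nat_lit 158) (nat_lit 157) (nat_lit 0) (nat_lit 8) (nat_lit 10) L73419 (by decide +kernel)
theorem L73421 : W_25 (nat_lit 7) (nat_lit 0x780008001800080000000000000000000000000000000) (nat_lit 0x0) (nat_lit 0xc0006001b800000016000000040000000000000000000000000000000) := T_25 (nat_lit 192) (nat_lit 191) (nat_lit 1) (nat_lit 8) (nat_lit 10) L73420 (by decide +kernel)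
theorem L73422 : W_25 (nat_lit 2) (nat_lit 0x90007800080018000c0000000000000000000000000000000) (nat_lit 0x0) (nat_lit 0x2000000000000400020000000000000000000000000000000) := D_25 (nat_lit 142) (nat_lit 193) (nat_lit 125) (nat_lit 6) (nat_lit 6) (nat_lit 11) (nat_lit 5) (nat_lit 6) (nat_lit 7) (by decide +kernel)
theorem L73423 : W_25 (nat_lit 3) (nat_lit 0x9000780008001800080000000000000000000000000000000) (nat_lit 0x0) (nat_lit 0x2000000010000400060000000000000000000000000000000) := T_25 (nat_lit 126) (nat_lit 160) (nat_lit 7) (nat_lit 7) (nat_lit 7) L73422 (by decide +kernel)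
theorem L73424 : W_25 (nat_lit 4) (nat_lit 0x8000780008001800080000000000000000000000000000000) (nat_lit 0x0) (nat_lit 0x3800000010000400060000000000000000000000000000000) := T_25 (nat_lit 192) (nat_lit 191) (nat_lit 1) (nat_lit 8) (nat_lit 10) L73423 (by decide +kernel)
theorem L73425 : W_25 (nat_lit 5) (nat_lit 0x780008001800080000000000000000000000000000000) (nat_lit 0x0) (nat_lit 0x1b800000010000400060000000000000000000000000000000) := T_25 (nat_lit 195) (nat_lit 196) (nat_lit 3) (nat_lit 5) (nat_lit 10) L73424 (by decide +kernel)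
theorem L73426 : W_25 (nat_lit 3) (nat_lit 0x78000c001800080000000000000000000000000000000) (nat_lit 0x0) (nat_lit 0x20001800000000000400020000000000000000000000000000000) := T_25 (nat_lit 192) (nat_lit 191) (nat_lit 1) (nat_lit 8) (nat_lit 10) L65782 (by decide +kernel)
theorem L73427 : W_25 (nat_lit 4) (nat_lit 0x780008001800080000000000000000000000000000000) (nat_lit 0x0) (nat_lit 0x20001800000006000400020000000000000000000000000000000) := T_25 (nat_lit 158) (nat_lit 157) (nat_lit 0) (nat_lit 8) (nat_lit 10) L73426 (by decide +kernel)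
theorem L73428 : W_25 (nat_lit 3) (nat_lit 0x800078000c0018000c0000000000000000000000000000000) (nat_lit 0x0) (nat_lit 0x2000000000000400020003000000000000000000000000000) := T_25 (nat_lit 142) (nat_lit 193) (nat_lit 6) (nat_lit 6) (nat_lit 11) L73340 (by decide +kernel)
theorem L73429 : W_25 (nat_lit 4) (nat_lit 0x800078000c001800080000000000000000000000000000000) (nat_lit 0x0) (nat_lit 0x2000000010000400060003000000000000000000000000000) := T_25 (nat_lit 126) (nat_lit 160) (nat_lit 7) (nat_lit 7) (nat_lit 7) L73428 (by decide +kernel)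
theorem L73430 : W_25 (nat_lit 5) (nat_lit 0x8000780008001800080000000000000000000000000000000) (nat_lit 0x0) (nat_lit 0x2000000016000400060003000000000000000000000000000) := T_25 (nat_lit 158) (nat_lit 157) (nat_lit 0) (nat_lit 8) (nat_lit 10) L73429 (by decide +kernel)
theorem L73431 : W_25 (nat_lit 6) (nat_lit 0x780008001800080000000000000000000000000000000) (nat_lit 0x0) (nat_lit 0x1a000000016000400060003000000000000000000000000000) := T_25 (nat_lit 195) (nat_lit 196) (nat_lit 3) (nat_lit 5) (nat_lit 10) L73430 (by decide +kernel)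
theorem L73432 : W_25 (nat_lit 8) (nat_lit 0x780000001800080000000000000000000000000000000) (nat_lit 0x0) (nat_lit 0xc0006001b80000001e000400060003000000000000000000000000000) := Q_25 (nat_lit 159) (C_25 L73410 (C_25 L73415 (C_25 L73421 (C_25 L73425 (C_25 L73427 (C_25 L73431 N_25)))))) (by decide +kernel)
theorem L73433 : W_25 (nat_lit 2) (nat_lit 0xb0007800040018003f0000800000000000000000000000000) (nat_lit 0x0) (nat_lit 0x38000000000000000000000000000) := D_25 (nat_lit 112) (nat_lit 111) (nat_lit 113) (nat_lit 2) (nat_lit 6) (nat_lit 7) (nat_lit 2) (nat_lit 7) (nat_lit 7) (by decide +kernel)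
theorem L73434 : W_25 (nat_lit 3) (nat_lit 0xb0007800040018001f0000800000000000000000000000000) (nat_lit 0x0) (nat_lit 0x600038000000000000000000000000000) := T_25 (nat_lit 129) (nat_lit 130) (nat_lit 1) (nat_lit 11) (nat_lit 7) L73433 (by decide +kernel)
theorem L73435 : W_25 (nat_lit 4) (nat_lit 0xb0007800040018000f0000800000000000000000000000000) (nat_lit 0x0) (nat_lit 0x700039000000000000000000000000000) := T_25 (nat_lit 128) (nat_lit 108) (nat_lit 0) (nat_lit 9) (nat_lit 7) L73434 (by decide +kernel)
theorem L73436 : W_25 (nat_lit 5) (nat_lit 0xb0007800040018000f0000000000000000000000000000000) (nat_lit 0x0) (nat_lit 0x700039c00000000000000000000000000) := T_25 (nat_lit 107) (nat_lit 106) (nat_lit 0) (nat_lit 8) (nat_lit 7) L73435 (by decide +kernel)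
theorem L73437 : W_25 (nat_lit 6) (nat_lit 0xb0007800040018000d0000000000000000000000000000000) (nat_lit 0x0) (nat_lit 0x728039c00000000000000000000000000) := T_25 (nat_lit 125) (nat_lit 123) (nat_lit 3) (nat_lit 4) (nat_lit 7) L73436 (by decide +kernel)
theorem L73438 : W_25 (nat_lit 7) (nat_lit 0xb0007800040018000c0000000000000000000000000000000) (nat_lit 0x0) (nat_lit 0x200738039c00000000000000000000000000) := T_25 (nat_lit 124) (nat_lit 141) (nat_lit 7) (nat_lit 5) (nat_lit 7) L73437 (by decide +kernel)
theorem L73439 : W_25 (nat_lit 8) (nat_lit 0xb0007800000018000c0000000000000000000000000000000) (nat_lit 0x0) (nat_lit 0x6000200738039c00000000000000000000000000) := T_25 (nat_lit 158) (nat_lit 157) (nat_lit 0) (nat_lit 8) (nat_lit 10) L73438 (by decide +kernel)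
theorem L73440 : W_25 (nat_lit 9) (nat_lit 0xb000780000001800080000000000000000000000000000000) (nat_lit 0x0) (nat_lit 0x16000200778039c00000000000000000000000000) := T_25 (nat_lit 126) (nat_lit 160) (nat_lit 7) (nat_lit 7) (nat_lit 7) L73439 (by decide +kernel)
theorem L73441 : W_25 (nat_lit 10) (nat_lit 0xa000780000001800080000000000000000000000000000000) (nat_lit 0x0) (nat_lit 0x1800000016000200778039c00000000000000000000000000) := T_25 (nat_lit 192) (nat_lit 191) (nat_lit 1) (nat_lit 8) (nat_lit 10) L73440 (by decide +kernel)
theorem L73442 : W_25 (nat_lit 11) (nat_lit 0x2000780000001800080000000000000000000000000000000) (nat_lit 0x0) (nat_lit 0x19800000016000200778039c00000000000000000000000000) := T_25 (nat_lit 195) (nat_lit 196) (nat_lit 3) (nat_lit 5) (nat_lit 10) L73441 (by decide +kernel)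
theorem L73443 : W_25 (nat_lit 12) (nat_lit 0x780000001800080000000000000000000000000000000) (nat_lit 0x0) (nat_lit 0x80004001b80000001e000200778039c00000000000000000000000000) := Q_25 (nat_lit 193) (C_25 L73349 (C_25 L73366 (C_25 L73352 (C_25 L73442 N_25)))) (by decide +kernel)
theorem L73444 : W_25 (nat_lit 2) (nat_lit 0x9000780008001c00580000000000000000000000000000000) (nat_lit 0x0) (nat_lit 0x400020002000000000000000000000000000000000000000000000000) := D_25 (nat_lit 209) (nat_lit 193) (nat_lit 226) (nat_lit 5) (nat_lit 6) (nat_lit 8) (nat_lit 6) (nat_lit 5) (nat_lit 13) (by decide +kernel)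
theorem L73445 : W_25 (nat_lit 3) (nat_lit 0x9000780000001c00580000000000000000000000000000000) (nat_lit 0x0) (nat_lit 0x400020002000000008000000020000000000000000000000000000000) := T_25 (nat_lit 159) (nat_lit 125) (nat_lit 5) (nat_lit 6) (nat_lit 7) L73444 (by decide +kernel)
theorem L73446 : W_25 (nat_lit 4) (nat_lit 0x8000780000001c00580000000000000000000000000000000) (nat_lit 0x0) (nat_lit 0x400020003800000008000000020000000000000000000000000000000) := T_25 (nat_lit 192) (nat_lit 191) (nat_lit 1) (nat_lit 8) (nat_lit 10) L73445 (by decide +kernel)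
theorem L73447 : W_25 (nat_lit 5) (nat_lit 0x8000780000001c00180000000000000000000000000000000) (nat_lit 0x0) (nat_lit 0x400020003800000008000000620000000000000000000000000000000) := T_25 (nat_lit 130) (nat_lit 129) (nat_lit 1) (nat_lit 11) (nat_lit 7) L73446 (by decide +kernel)
theorem L73448 : W_25 (nat_lit 6) (nat_lit 0x8000780000001800180000000000000000000000000000000) (nat_lit 0x0) (nat_lit 0x400020003800000008000600620000000000000000000000000000000) := T_25 (nat_lit 142) (nat_lit 141) (nat_lit 2) (nat_lit 5) (nat_lit 8) L73447 (by decide +kernel)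
theorem L73449 : W_25 (nat_lit 7) (nat_lit 0x780000001800180000000000000000000000000000000) (nat_lit 0x0) (nat_lit 0x40002001b800000008000600620000000000000000000000000000000) := T_25 (nat_lit 195) (nat_lit 196) (nat_lit 3) (nat_lit 5) (nat_lit 10) L73448 (by decide +kernel)
theorem L73450 : W_25 (nat_lit 4) (nat_lit 0x9000780000001c001a0000000000000000000000000000000) (nat_lit 0x0) (nat_lit 0x10000000058001c00000000000000000000000000) := T_25 (nat_lit 126) (nat_lit 160) (nat_lit 7) (nat_lit 7) (nat_lit 7) L13874 (by decide +kernel)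
theorem L73451 : W_25 (nat_lit 5) (nat_lit 0x9000780000001c00180000000000000000000000000000000) (nat_lit 0x0) (nat_lit 0x18000000078001c00000000000000000000000000) := T_25 (nat_lit 125) (nat_lit 159) (nat_lit 5) (nat_lit 6) (nat_lit 7) L73450 (by decide +kernel)
theorem L73452 : W_25 (nat_lit 6) (nat_lit 0x1000780000001c00180000000000000000000000000000000) (nat_lit 0x0) (nat_lit 0x18000000018000000078001c00000000000000000000000000) := T_25 (nat_lit 195) (nat_lit 196) (nat_lit 3) (nat_lit 5) (nat_lit 10) L73451 (by decide +kernel)
theorem L73453 : W_25 (nat_lit 7) (nat_lit 0x1000780000001800180000000000000000000000000000000) (nat_lit 0x0) (nat_lit 0x18000000018000600078001c00000000000000000000000000) := T_25 (nat_lit 142) (nat_lit 141) (nat_lit 2) (nat_lit 5) (nat_lit 8) L73452 (by decide +kernel)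
theorem L73454 : W_25 (nat_lit 8) (nat_lit 0x780000001800180000000000000000000000000000000) (nat_lit 0x0) (nat_lit 0x19800000018000600078001c00000000000000000000000000) := T_25 (nat_lit 192) (nat_lit 191) (nat_lit 1) (nat_lit 8) (nat_lit 10) L73453 (by decide +kernel)
theorem L73455 : W_25 (nat_lit 2) (nat_lit 0x90007800000058003c001a000000008000000000000000000) (nat_lit 0x0) (nat_lit 0x1000080000000000000000400000000000000000000000) := D_25 (nat_lit 163) (nat_lit 94) (nat_lit 180) (nat_lit 4) (nat_lit 10) (nat_lit 9) (nat_lit 4) (nat_lit 10) (nat_lit 10) (by decide +kernel)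
theorem L73456 : W_25 (nat_lit 3) (nat_lit 0x90007800000058003c0012000000008000000000000000000) (nat_lit 0x0) (nat_lit 0x1000080000000020008000400000000000000000000000) := T_25 (nat_lit 111) (nat_lit 125) (nat_lit 2) (nat_lit 6) (nat_lit 7) L73455 (by decide +kernel)
theorem L73457 : W_25 (nat_lit 4) (nat_lit 0x90007800000058003c0002000000008000000000000000000) (nat_lit 0x0) (nat_lit 0x1000080000000020038000400000000000000000000000) := T_25 (nat_lit 112) (nat_lit 113) (nat_lit 2) (nat_lit 7) (nat_lit 7) L73456 (by decide +kernel)
theorem L73458 : W_25 (nat_lit 5) (nat_lit 0x90007800000058003c0002000000000000000000000000000) (nat_lit 0x0) (nat_lit 0x1000080000000020038000500008000000000000000000) := T_25 (nat_lit 75) (nat_lit 92) (nat_lit 7) (nat_lit 7) (nat_lit 4) L73457 (by decide +kernel)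
theorem L73459 : W_25 (nat_lit 6) (nat_lit 0x90007800000018003c0002000000000000000000000000000) (nat_lit 0x0) (nat_lit 0x100008000c000020038000500008000000000000000000) := T_25 (nat_lit 146) (nat_lit 147) (nat_lit 3) (nat_lit 7) (nat_lit 7) L73458 (by decide +kernel)
theorem L73460 : W_25 (nat_lit 7) (nat_lit 0x90007800000018003c0000000000000000000000000000000) (nat_lit 0x0) (nat_lit 0x100008000c00002003b000500008000000000000000000) := T_25 (nat_lit 109) (nat_lit 108) (nat_lit 0) (nat_lit 10) (nat_lit 7) L73459 (by decide +kernel)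
theorem L73461 : W_25 (nat_lit 8) (nat_lit 0x90007800000018001c0000000000000000000000000000000) (nat_lit 0x0) (nat_lit 0x100008000c00062003b000500008000000000000000000) := T_25 (nat_lit 129) (nat_lit 130) (nat_lit 1) (nat_lit 11) (nat_lit 7) L73460 (by decide +kernel)
theorem L73462 : W_25 (nat_lit 9) (nat_lit 0x9000780000001800180000000000000000000000000000000) (nat_lit 0x0) (nat_lit 0x100009000c00066003b000500008000000000000000000) := T_25 (nat_lit 126) (nat_lit 160) (nat_lit 7) (nat_lit 7) (nat_lit 7) L73461 (by decide +kernel)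
theorem L73463 : W_25 (nat_lit 10) (nat_lit 0x8000780000001800180000000000000000000000000000000) (nat_lit 0x0) (nat_lit 0x180100009000c00066003b000500008000000000000000000) := T_25 (nat_lit 192) (nat_lit 191) (nat_lit 1) (nat_lit 8) (nat_lit 10) L73462 (by decide +kernel)
theorem L73464 : W_25 (nat_lit 11) (nat_lit 0x780000001800180000000000000000000000000000000) (nat_lit 0x0) (nat_lit 0x1980100009000c00066003b000500008000000000000000000) := T_25 (nat_lit 195) (nat_lit 196) (nat_lit 3) (nat_lit 5) (nat_lit 10) L73463 (by decide +kernel)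
theorem L73465 : W_25 (nat_lit 2) (nat_lit 0x1000780008001c00580000000000000000000000000000000) (nat_lit 0x0) (nat_lit 0x20002000000000000000040000000000000000000000000000000) := D_25 (nat_lit 193) (nat_lit 209) (nat_lit 126) (nat_lit 5) (nat_lit 6) (nat_lit 8) (nat_lit 6) (nat_lit 6) (nat_lit 11) (by decide +kernel)
theorem L73466 : W_25 (nat_lit 3) (nat_lit 0x1000780000001c00580000000000000000000000000000000) (nat_lit 0x0) (nat_lit 0x20002000000008000000060000000000000000000000000000000) := T_25 (nat_lit 159) (nat_lit 125) (nat_lit 5) (nat_lit 6) (nat_lit 7) L73465 (by decide +kernel)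
theorem L73467 : W_25 (nat_lit 4) (nat_lit 0x1000780000001800580000000000000000000000000000000) (nat_lit 0x0) (nat_lit 0x20002000000008000600060000000000000000000000000000000) := T_25 (nat_lit 142) (nat_lit 141) (nat_lit 2) (nat_lit 5) (nat_lit 8) L73466 (by decide +kernel)
theorem L73468 : W_25 (nat_lit 5) (nat_lit 0x780000001800580000000000000000000000000000000) (nat_lit 0x0) (nat_lit 0x20003800000008000600060000000000000000000000000000000) := T_25 (nat_lit 192) (nat_lit 191) (nat_lit 1) (nat_lit 8) (nat_lit 10) L73467 (by decide +kernel)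
theorem L73469 : W_25 (nat_lit 6) (nat_lit 0x780000001800180000000000000000000000000000000) (nat_lit 0x0) (nat_lit 0x20003800000008000600660000000000000000000000000000000) := T_25 (nat_lit 130) (nat_lit 129) (nat_lit 1) (nat_lit 11) (nat_lit 7) L73468 (by decide +kernel)
theorem L73470 : W_25 (nat_lit 12) (nat_lit 0x780000001800080000000000000000000000000000000) (nat_lit 0x0) (nat_lit 0x40002001b80100009800c60077803bc00500008000000000000000000) := Q_25 (nat_lit 128) (C_25 L73449 (C_25 L73400 (C_25 L73454 (C_25 L73464 (C_25 L73469 N_25))))) (by decide +kernel)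
theorem L73471 : W_25 (nat_lit 6) (nat_lit 0x780000001800080000000000000000000000000000000) (nat_lit 0x0) (nat_lit 0x2001980000000e00070017c000000000000000000000000000000) := Q_25 (nat_lit 142) (C_25 L8533 (C_25 L73333 N_25)) (by decide +kernel)
theorem L73472 : W_25 (nat_lit 13) (nat_lit 0x780000001000080000000000000000000000000000000) (nat_lit 0x0) (nat_lit 0xc0006001b80100009e00cf0077c03bc00500008000000000000000000) := Q_25 (nat_lit 143) (C_25 L73334 (C_25 L73345 (C_25 L73358 (C_25 L73363 (C_25 L73371 (C_25 L73406 (C_25 L73432 (C_25 L73443 (C_25 L73470 (C_25 L73471 N_25)))))))))) (by decide +kernel)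
theorem L73473 : W_25 (nat_lit 14) (nat_lit 0x380000001000080000000000000000000000000000000) (nat_lit 0x0) (nat_lit 0xc0006003b801c0009e00cf0077c03bc00500008000000000000000000) := Q_25 (nat_lit 178) (C_25 L73147 (C_25 L13282 (C_25 L73472 (C_25 L11395 N_25)))) (by decide +kernel)
theorem L73474 : W_25 (nat_lit 2) (nat_lit 0x3e0000001000080000000000000000000000000000000) (nat_lit 0x0) (nat_lit 0x3800000000000000000000000000000000000000) := D_25 (nat_lit 156) (nat_lit 157) (nat_lit 155) (nat_lit 0) (nat_lit 7) (nat_lit 10) (nat_lit 0) (nat_lit 6) (nat_lit 10) (by decide +kernel)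
theorem L73475 : W_25 (nat_lit 7) (nat_lit 0x3c0000001000080000000000000000000000000000000) (nat_lit 0x0) (nat_lit 0x38043801fe00000000000000000000000000000000000000) := Q_25 (nat_lit 173) (C_25 L73474 (C_25 L13299 (C_25 L13302 N_25))) (by decide +kernel)
theorem L73476 : W_25 (nat_lit 8) (nat_lit 0x380000001000080000000000000000000000000000000) (nat_lit 0x0) (nat_lit 0x200010000f80c7801fe00200000000000000000000000000000000000) := Q_25 (nat_lit 174) (C_25 L73143 (C_25 L13197 (C_25 L71636 (C_25 L13308 (C_25 L13237 (C_25 L73475 N_25)))))) (by decide +kernel)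
theorem L73477 : W_25 (nat_lit 4) (nat_lit 0x380004001000080000000000000000000000000000000) (nat_lit 0x0) (nat_lit 0x38000c0000a000000000000000000000000000000000000000) := T_25 (nat_lit 178) (nat_lit 157) (nat_lit 0) (nat_lit 8) (nat_lit 10) L73146 (by decide +kernel)
theorem L73478 : W_25 (nat_lit 7) (nat_lit 0x380004001000080000000000000000000000000000000) (nat_lit 0x0) (nat_lit 0x20003000440002000f00078001c00020000000000000000000000) := T_25 (nat_lit 157) (nat_lit 178) (nat_lit 0) (nat_lit 8) (nat_lit 10) L73131 (by decide +kernel)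
theorem L73479 : W_25 (nat_lit 2) (nat_lit 0x3000b8000c001700080000000000000000000000000000000) (nat_lit 0x0) (nat_lit 0x100000c0000000000000000000000000000000000) := D_25 (nat_lit 139) (nat_lit 160) (nat_lit 138) (nat_lit 3) (nat_lit 3) (nat_lit 8) (nat_lit 3) (nat_lit 2) (nat_lit 8) (by decide +kernel)
theorem L73480 : W_25 (nat_lit 3) (nat_lit 0x3000b80004001700080000000000000000000000000000000) (nat_lit 0x0) (nat_lit 0x200000000000180000c0000000000000000000000000000000000) := T_25 (nat_lit 159) (nat_lit 209) (nat_lit 6) (nat_lit 5) (nat_lit 12) L73479 (by decide +kernel)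
theorem L73481 : W_25 (nat_lit 4) (nat_lit 0x3000b80004001300080000000000000000000000000000000) (nat_lit 0x0) (nat_lit 0x200000000000180004c0020000000000000000000000000000000) := T_25 (nat_lit 142) (nat_lit 125) (nat_lit 6) (nat_lit 5) (nat_lit 11) L73480 (by decide +kernel)
theorem L73482 : W_25 (nat_lit 5) (nat_lit 0x3000380004001300080000000000000000000000000000000) (nat_lit 0x0) (nat_lit 0x20000000c000180004c0020000000000000000000000000000000) := T_25 (nat_lit 179) (nat_lit 178) (nat_lit 1) (nat_lit 9) (nat_lit 10) L73481 (by decide +kernel)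
theorem L73483 : W_25 (nat_lit 6) (nat_lit 0x1000380004001300080000000000000000000000000000000) (nat_lit 0x0) (nat_lit 0x60002000c000180004c0020000000000000000000000000000000) := T_25 (nat_lit 193) (nat_lit 210) (nat_lit 7) (nat_lit 5) (nat_lit 8) L73482 (by decide +kernel)
theorem L73484 : W_25 (nat_lit 7) (nat_lit 0x1000380004001200080000000000000000000000000000000) (nat_lit 0x0) (nat_lit 0x60002000c000180005c0028000000000000000000000000000000) := T_25 (nat_lit 140) (nat_lit 123) (nat_lit 4) (nat_lit 5) (nat_lit 11) L73483 (by decide +kernel)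
theorem L73485 : W_25 (nat_lit 5) (nat_lit 0x40001000380004001200080000000000000000000000000000000) (nat_lit 0x0) (nat_lit 0x4000e00030000000000008000100008000000000000000000000000000000) := T_25 (nat_lit 140) (nat_lit 123) (nat_lit 4) (nat_lit 5) (nat_lit 11) L13806 (by decide +kernel)
theorem L73486 : W_25 (nat_lit 6) (nat_lit 0x1000380004001200080000000000000000000000000000000) (nat_lit 0x0) (nat_lit 0x4000e00070002000000008000100008000000000000000000000000000000) := T_25 (nat_lit 210) (nat_lit 193) (nat_lit 7) (nat_lit 5) (nat_lit 8) L73485 (by decide +kernel)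
theorem L73487 : W_25 (nat_lit 2) (nat_lit 0x3000b8000c001600080000000000000000000000000000000) (nat_lit 0x0) (nat_lit 0x800140000000000000000000000000000000) := D_25 (nat_lit 143) (nat_lit 126) (nat_lit 128) (nat_lit 6) (nat_lit 6) (nat_lit 11) (nat_lit 2) (nat_lit 5) (nat_lit 8) (by decide +kernel)
theorem L73488 : W_25 (nat_lit 3) (nat_lit 0x3000b80004001600080000000000000000000000000000000) (nat_lit 0x0) (nat_lit 0x20000000000008000800140000000000000000000000000000000) := T_25 (nat_lit 159) (nat_lit 209) (nat_lit 6) (nat_lit 5) (nat_lit 12) L73487 (by decide +kernel)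
theorem L73489 : W_25 (nat_lit 4) (nat_lit 0x3000b80004001200080000000000000000000000000000000) (nat_lit 0x0) (nat_lit 0x20000000000008000c00160000000000000000000000000000000) := T_25 (nat_lit 142) (nat_lit 125) (nat_lit 6) (nat_lit 5) (nat_lit 11) L73488 (by decide +kernel)
theorem L73490 : W_25 (nat_lit 5) (nat_lit 0x3000380004001200080000000000000000000000000000000) (nat_lit 0x0) (nat_lit 0x20000000c00008000c00160000000000000000000000000000000) := T_25 (nat_lit 179) (nat_lit 178) (nat_lit 1) (nat_lit 9) (nat_lit 10) L73489 (by decide +kernel)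
theorem L73491 : W_25 (nat_lit 6) (nat_lit 0x1000380004001200080000000000000000000000000000000) (nat_lit 0x0) (nat_lit 0x60002000c00008000c00160000000000000000000000000000000) := T_25 (nat_lit 193) (nat_lit 210) (nat_lit 7) (nat_lit 5) (nat_lit 8) L73490 (by decide +kernel)
theorem L73492 : W_25 (nat_lit 8) (nat_lit 0x380004001200080000000000000000000000000000000) (nat_lit 0x0) (nat_lit 0x4000e00070003000c00018000dc0168000000000000000000000000000000) := Q_25 (nat_lit 192) (C_25 L71946 (C_25 L73484 (C_25 L13798 (C_25 L73486 (C_25 L73491 N_25))))) (by decide +kernel)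
theorem L73493 : W_25 (nat_lit 9) (nat_lit 0x380004001000080000000000000000000000000000000) (nat_lit 0x0) (nat_lit 0x4000e00070003000c00018000fc0178001c000a0000000000000000000000) := Q_25 (nat_lit 141) (C_25 L13762 (C_25 L38710 (C_25 L72202 (C_25 L73492 (C_25 L72157 N_25))))) (by decide +kernel)
theorem L73494 : W_25 (nat_lit 10) (nat_lit 0x380000001000080000000000000000000000000000000) (nat_lit 0x0) (nat_lit 0x4000e0007003b000c4001f800fc0178001c000a0000000000000000000000) := Q_25 (nat_lit 158) (C_25 L73477 (C_25 L73478 (C_25 L72015 (C_25 L73493 N_25)))) (by decide +kernel)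
theorem L73495 : W_25 (nat_lit 2) (nat_lit 0x9000780000001f000a0000000000000000000000000000000) (nat_lit 0x0) (nat_lit 0x1c000000000000000000000000000000) := D_25 (nat_lit 123) (nat_lit 122) (nat_lit 124) (nat_lit 0) (nat_lit 7) (nat_lit 8) (nat_lit 0) (nat_lit 8) (nat_lit 8) (by decide +kernel)
theorem L73496 : W_25 (nat_lit 3) (nat_lit 0x9000780000001e000a0000000000000000000000000000000) (nat_lit 0x0) (nat_lit 0x10005c000000000000000000000000000000) := T_25 (nat_lit 140) (nat_lit 126) (nat_lit 2) (nat_lit 4) (nat_lit 8) L73495 (by decide +kernel)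
theorem L73497 : W_25 (nat_lit 4) (nat_lit 0x9000780000001c000a0000000000000000000000000000000) (nat_lit 0x0) (nat_lit 0x400030005c000000000000000000000000000000) := T_25 (nat_lit 141) (nat_lit 158) (nat_lit 6) (nat_lit 5) (nat_lit 11) L73496 (by decide +kernel)
theorem L73498 : W_25 (nat_lit 5) (nat_lit 0x9000780000001c00080000000000000000000000000000000) (nat_lit 0x0) (nat_lit 0xc00030007c000000000000000000000000000000) := T_25 (nat_lit 125) (nat_lit 159) (nat_lit 5) (nat_lit 6) (nat_lit 7) L73497 (by decide +kernel)
theorem L73499 : W_25 (nat_lit 6) (nat_lit 0x8000780000001c00080000000000000000000000000000000) (nat_lit 0x0) (nat_lit 0x180000000c00030007c000000000000000000000000000000) := T_25 (nat_lit 192) (nat_lit 191) (nat_lit 1) (nat_lit 8) (nat_lit 10) L73498 (by decide +kernel)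
theorem L73500 : W_25 (nat_lit 7) (nat_lit 0x780000001c00080000000000000000000000000000000) (nat_lit 0x0) (nat_lit 0x1980000000c00030007c000000000000000000000000000000) := T_25 (nat_lit 195) (nat_lit 196) (nat_lit 3) (nat_lit 5) (nat_lit 10) L73499 (by decide +kernel)
theorem L73501 : W_25 (nat_lit 4) (nat_lit 0x1000780000001c00080000000000000000000000000000000) (nat_lit 0x0) (nat_lit 0x2001a000000008000000060000000000000000000000000000000) := T_25 (nat_lit 195) (nat_lit 196) (nat_lit 3) (nat_lit 5) (nat_lit 10) L8615 (by decide +kernel)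
theorem L73502 : W_25 (nat_lit 5) (nat_lit 0x780000001c00080000000000000000000000000000000) (nat_lit 0x0) (nat_lit 0x2001b800000008000000060000000000000000000000000000000) := T_25 (nat_lit 192) (nat_lit 191) (nat_lit 1) (nat_lit 8) (nat_lit 10) L73501 (by decide +kernel)
theorem L73503 : W_25 (nat_lit 8) (nat_lit 0x780000001800080000000000000000000000000000000) (nat_lit 0x0) (nat_lit 0x2001b80000000c00070017c000000000000000000000000000000) := Q_25 (nat_lit 142) (C_25 L73362 (C_25 L8533 (C_25 L73500 (C_25 L73502 N_25)))) (by decide +kernel)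
theorem L73504 : W_25 (nat_lit 7) (nat_lit 0x780000001800080000000000000000000000000000000) (nat_lit 0x0) (nat_lit 0x1a00000001c00070017c002000100000000000000000000000) := Q_25 (nat_lit 142) (C_25 L13822 (C_25 L13830 (C_25 L8533 (C_25 L8646 (C_25 L8541 N_25))))) (by decide +kernel)
theorem L73505 : W_25 (nat_lit 5) (nat_lit 0x8000780000001c00080000000000000000000000000000000) (nat_lit 0x0) (nat_lit 0x40002000380000001c000000040000000000000000000000000000000) := T_25 (nat_lit 192) (nat_lit 191) (nat_lit 1) (nat_lit 8) (nat_lit 10) L13909 (by decide +kernel)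
theorem L73506 : W_25 (nat_lit 6) (nat_lit 0x780000001c00080000000000000000000000000000000) (nat_lit 0x0) (nat_lit 0x40002001b80000001c000000040000000000000000000000000000000) := T_25 (nat_lit 195) (nat_lit 196) (nat_lit 3) (nat_lit 5) (nat_lit 10) L73505 (by decide +kernel)
theorem L73507 : W_25 (nat_lit 7) (nat_lit 0x780000001800080000000000000000000000000000000) (nat_lit 0x0) (nat_lit 0x40002001b80000001c00070015c000000000000000000000000000000) := Q_25 (nat_lit 142) (C_25 L13822 (C_25 L8541 (C_25 L13830 (C_25 L73506 N_25)))) (by decide +kernel)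
theorem L73508 : W_25 (nat_lit 4) (nat_lit 0x1000780000001c00080000000000000000000000000000000) (nat_lit 0x0) (nat_lit 0x2000000004000200138000000000000000000000000000000) := T_25 (nat_lit 141) (nat_lit 128) (nat_lit 2) (nat_lit 5) (nat_lit 8) L13846 (by decide +kernel)
theorem L73509 : W_25 (nat_lit 5) (nat_lit 0x780000001c00080000000000000000000000000000000) (nat_lit 0x0) (nat_lit 0x3800000004000200138000000000000000000000000000000) := T_25 (nat_lit 192) (nat_lit 191) (nat_lit 1) (nat_lit 8) (nat_lit 10) L73508 (by decide +kernel)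
theorem L73510 : W_25 (nat_lit 2) (nat_lit 0x1000780000001e00090000000000000000000000000000000) (nat_lit 0x0) (nat_lit 0xc000000020000000000000000000000000000000) := D_25 (nat_lit 125) (nat_lit 159) (nat_lit 158) (nat_lit 5) (nat_lit 6) (nat_lit 7) (nat_lit 6) (nat_lit 5) (nat_lit 11) (by decide +kernel)
theorem L73511 : W_25 (nat_lit 3) (nat_lit 0x780000001e00090000000000000000000000000000000) (nat_lit 0x0) (nat_lit 0x180000000c000000020000000000000000000000000000000) := T_25 (nat_lit 192) (nat_lit 191) (nat_lit 1) (nat_lit 8) (nat_lit 10) L73510 (by decide +kernel)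
theorem L73512 : W_25 (nat_lit 4) (nat_lit 0x780000001e00080000000000000000000000000000000) (nat_lit 0x0) (nat_lit 0x180000000c000000038000000000000000000000000000000) := T_25 (nat_lit 124) (nat_lit 123) (nat_lit 0) (nat_lit 8) (nat_lit 8) L73511 (by decide +kernel)
theorem L73513 : W_25 (nat_lit 5) (nat_lit 0x780000001c00080000000000000000000000000000000) (nat_lit 0x0) (nat_lit 0x180000000c000200138000000000000000000000000000000) := T_25 (nat_lit 141) (nat_lit 128) (nat_lit 2) (nat_lit 5) (nat_lit 8) L73512 (by decide +kernel)
theorem L73514 : W_25 (nat_lit 6) (nat_lit 0x780000001800080000000000000000000000000000000) (nat_lit 0x0) (nat_lit 0x2001b80000000c000600138000000000000000000000000000000) := Q_25 (nat_lit 142) (C_25 L13822 (C_25 L13901 (C_25 L73509 (C_25 L73362 (C_25 L73513 N_25))))) (by decide +kernel)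
theorem L73515 : W_25 (nat_lit 2) (nat_lit 0x38000600090007a0018001800080000000000000000000000000000000) (nat_lit 0x0) (nat_lit 0x98000000000000000000000000000000000000000000000000000) := D_25 (nat_lit 208) (nat_lit 207) (nat_lit 211) (nat_lit 3) (nat_lit 3) (nat_lit 12) (nat_lit 3) (nat_lit 4) (nat_lit 12) (by decide +kernel)
theorem L73516 : W_25 (nat_lit 3) (nat_lit 0x28000600090007a0018001800080000000000000000000000000000000) (nat_lit 0x0) (nat_lit 0x5000098000000000000000000000000000000000000000000000000000) := T_25 (nat_lit 228) (nat_lit 230) (nat_lit 0) (nat_lit 9) (nat_lit 13) L73515 (by decide +kernel)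
theorem L73517 : W_25 (nat_lit 4) (nat_lit 0x8000600090007a0018001800080000000000000000000000000000000) (nat_lit 0x0) (nat_lit 0x7000198000000000000000000000000000000000000000000000000000) := T_25 (nat_lit 229) (nat_lit 212) (nat_lit 4) (nat_lit 8) (nat_lit 13) L73516 (by decide +kernel)
theorem L73518 : W_25 (nat_lit 5) (nat_lit 0x600090007a0018001800080000000000000000000000000000000) (nat_lit 0x0) (nat_lit 0x7800198000000000004000000000000000000000000000000000000000) := T_25 (nat_lit 227) (nat_lit 158) (nat_lit 7) (nat_lit 5) (nat_lit 9) L73517 (by decide +kernel)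
theorem L73519 : W_25 (nat_lit 6) (nat_lit 0x60009000780018001800080000000000000000000000000000000) (nat_lit 0x0) (nat_lit 0x7800198000000060004000000000000000000000000000000000000000) := T_25 (nat_lit 173) (nat_lit 174) (nat_lit 2) (nat_lit 3) (nat_lit 10) L73518 (by decide +kernel)
theorem L73520 : W_25 (nat_lit 7) (nat_lit 0x20009000780018001800080000000000000000000000000000000) (nat_lit 0x0) (nat_lit 0x78001d8002000060004000000000000000000000000000000000000000) := T_25 (nat_lit 210) (nat_lit 193) (nat_lit 6) (nat_lit 6) (nat_lit 12) L73519 (by decide +kernel)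
theorem L73521 : W_25 (nat_lit 8) (nat_lit 0x9000780018001800080000000000000000000000000000000) (nat_lit 0x0) (nat_lit 0x7c001f8002000060004000000000000000000000000000000000000000) := T_25 (nat_lit 209) (nat_lit 226) (nat_lit 6) (nat_lit 5) (nat_lit 13) L73520 (by decide +kernel)
theorem L73522 : W_25 (nat_lit 9) (nat_lit 0x9000780008001800080000000000000000000000000000000) (nat_lit 0x0) (nat_lit 0x7c001f8002000060014000000040000000000000000000000000000000) := T_25 (nat_lit 160) (nat_lit 126) (nat_lit 7) (nat_lit 7) (nat_lit 7) L73521 (by decide +kernel)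
theorem L73523 : W_25 (nat_lit 10) (nat_lit 0x8000780008001800080000000000000000000000000000000) (nat_lit 0x0) (nat_lit 0x7c001f8003800060014000000040000000000000000000000000000000) := T_25 (nat_lit 192) (nat_lit 191) (nat_lit 1) (nat_lit 8) (nat_lit 10) L73522 (by decide +kernel)
theorem L73524 : W_25 (nat_lit 11) (nat_lit 0x780008001800080000000000000000000000000000000) (nat_lit 0x0) (nat_lit 0x7c001f801b800060014000000040000000000000000000000000000000) := T_25 (nat_lit 195) (nat_lit 196) (nat_lit 3) (nat_lit 5) (nat_lit 10) L73523 (by decide +kernel)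
theorem L73525 : W_25 (nat_lit 2) (nat_lit 0x1000780008001c00080000000000000000000000000000000) (nat_lit 0x0) (nat_lit 0x400020002000000000000000000000000000000000000000000000000) := D_25 (nat_lit 209) (nat_lit 226) (nat_lit 193) (nat_lit 6) (nat_lit 5) (nat_lit 13) (nat_lit 5) (nat_lit 6) (nat_lit 8) (by decide +kernel)
theorem L73526 : W_25 (nat_lit 3) (nat_lit 0x1000780008001800080000000000000000000000000000000) (nat_lit 0x0) (nat_lit 0x400020002000000000000400020000000000000000000000000000000) := T_25 (nat_lit 142) (nat_lit 125) (nat_lit 5) (nat_lit 6) (nat_lit 7) L73525 (by decide +kernel)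
theorem L73527 : W_25 (nat_lit 4) (nat_lit 0x780008001800080000000000000000000000000000000) (nat_lit 0x0) (nat_lit 0x400020003800000000000400020000000000000000000000000000000) := T_25 (nat_lit 192) (nat_lit 191) (nat_lit 1) (nat_lit 8) (nat_lit 10) L73526 (by decide +kernel)
theorem L73528 : W_25 (nat_lit 6) (nat_lit 0x90007800080018000c0000000000000000000000000000000) (nat_lit 0x0) (nat_lit 0x400020000000000004000700038000c00000000000000000000000000) := T_25 (nat_lit 226) (nat_lit 209) (nat_lit 6) (nat_lit 5) (nat_lit 13) L13921 (by decide +kernel)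
theorem L73529 : W_25 (nat_lit 7) (nat_lit 0x9000780008001800080000000000000000000000000000000) (nat_lit 0x0) (nat_lit 0x400020000000000014000700078000c00000000000000000000000000) := T_25 (nat_lit 126) (nat_lit 160) (nat_lit 7) (nat_lit 7) (nat_lit 7) L73528 (by decide +kernel)
theorem L73530 : W_25 (nat_lit 8) (nat_lit 0x8000780008001800080000000000000000000000000000000) (nat_lit 0x0) (nat_lit 0x400020001800000014000700078000c00000000000000000000000000) := T_25 (nat_lit 192) (nat_lit 191) (nat_lit 1) (nat_lit 8) (nat_lit 10) L73529 (by decide +kernel)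
theorem L73531 : W_25 (nat_lit 9) (nat_lit 0x780008001800080000000000000000000000000000000) (nat_lit 0x0) (nat_lit 0x400020019800000014000700078000c00000000000000000000000000) := T_25 (nat_lit 195) (nat_lit 196) (nat_lit 3) (nat_lit 5) (nat_lit 10) L73530 (by decide +kernel)
theorem L73532 : W_25 (nat_lit 12) (nat_lit 0x780000001800080000000000000000000000000000000) (nat_lit 0x0) (nat_lit 0x7c001f801b80006001c000700078002c00140000000000000000000000) := Q_25 (nat_lit 159) (C_25 L13915 (C_25 L13934 (C_25 L73524 (C_25 L73425 (C_25 L73527 (C_25 L13937 (C_25 L73531 N_25))))))) (by decide +kernel)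
theorem L73533 : W_25 (nat_lit 11) (nat_lit 0x780000001800080000000000000000000000000000000) (nat_lit 0x0) (nat_lit 0x1bc0004001400c70077c03b800000000000000000000000000) := Q_25 (nat_lit 141) (C_25 L13848 (C_25 L8555 (C_25 L13854 (C_25 L13860 (C_25 L73270 N_25))))) (by decide +kernel)
theorem L73534 : W_25 (nat_lit 3) (nat_lit 0x1000780000001c00080000000000000000000000000000000) (nat_lit 0x0) (nat_lit 0x400020002000000008000000020000000000000000000000000000000) := T_25 (nat_lit 159) (nat_lit 125) (nat_lit 5) (nat_lit 6) (nat_lit 7) L73525 (by decide +kernel)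
theorem L73535 : W_25 (nat_lit 4) (nat_lit 0x780000001c00080000000000000000000000000000000) (nat_lit 0x0) (nat_lit 0x400020003800000008000000020000000000000000000000000000000) := T_25 (nat_lit 192) (nat_lit 191) (nat_lit 1) (nat_lit 8) (nat_lit 10) L73534 (by decide +kernel)
theorem L73536 : W_25 (nat_lit 7) (nat_lit 0x780000001800080000000000000000000000000000000) (nat_lit 0x0) (nat_lit 0x40002000380000000c00070017c000000000000000000000000000000) := Q_25 (nat_lit 142) (C_25 L73513 (C_25 L8541 (C_25 L13840 (C_25 L73535 N_25)))) (by decide +kernel)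
theorem L73537 : W_25 (nat_lit 4) (nat_lit 0x1000780000001c00180000000000000000000000000000000) (nat_lit 0x0) (nat_lit 0x40002000000000000c000000620000000000000000000000000000000) := T_25 (nat_lit 130) (nat_lit 129) (nat_lit 1) (nat_lit 11) (nat_lit 7) L13863 (by decide +kernel)
theorem L73538 : W_25 (nat_lit 5) (nat_lit 0x1000780000001800180000000000000000000000000000000) (nat_lit 0x0) (nat_lit 0x40002000000000000c000600620000000000000000000000000000000) := T_25 (nat_lit 142) (nat_lit 141) (nat_lit 2) (nat_lit 5) (nat_lit 8) L73537 (by decide +kernel)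
theorem L73539 : W_25 (nat_lit 6) (nat_lit 0x780000001800180000000000000000000000000000000) (nat_lit 0x0) (nat_lit 0x40002000180000000c000600620000000000000000000000000000000) := T_25 (nat_lit 192) (nat_lit 191) (nat_lit 1) (nat_lit 8) (nat_lit 10) L73538 (by decide +kernel)
theorem L73540 : W_25 (nat_lit 12) (nat_lit 0x780000001800080000000000000000000000000000000) (nat_lit 0x0) (nat_lit 0x40002001980100009c00c60077803bc00500008000000000000000000) := Q_25 (nat_lit 128) (C_25 L73539 (C_25 L73400 (C_25 L73454 (C_25 L73464 N_25)))) (by decide +kernel)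
theorem L73541 : W_25 (nat_lit 13) (nat_lit 0x780000001000080000000000000000000000000000000) (nat_lit 0x0) (nat_lit 0x7c001f801bf0107009dc0cf4077e03bc00540008000000000000000000) := Q_25 (nat_lit 143) (C_25 L73503 (C_25 L73504 (C_25 L73507 (C_25 L73514 (C_25 L73532 (C_25 L73533 (C_25 L13980 (C_25 L13981 (C_25 L73536 (C_25 L73540 N_25)))))))))) (by decide +kernel)
theorem L73542 : W_25 (nat_lit 14) (nat_lit 0x380000001000080000000000000000000000000000000) (nat_lit 0x0) (nat_lit 0x7c001f803bf01c701ddc0cf4077e03bc00540008000000000000000000) := Q_25 (nat_lit 178) (C_25 L13816 (C_25 L13282 (C_25 L73541 (C_25 L13987 N_25)))) (by decide +kernel)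
theorem L73543 : W_25 (nat_lit 17) (nat_lit 0x300000001000080000000000000000000000000000000) (nat_lit 0x0) (nat_lit 0x34017f80bfc0fbf83cf81dfe0cfc077e03bf007e001c000000000000000000) := Q_25 (nat_lit 175) (C_25 L73098 (C_25 L73144 (C_25 L73148 (C_25 L73328 (C_25 L73473 (C_25 L72017 (C_25 L73476 (C_25 L73494 (C_25 L73542 N_25))))))))) (by decide +kernel)
theorem L73544 : W_25 (nat_lit 2) (nat_lit 0x2000f000200010001c0000000000000000000000000000000) (nat_lit 0x0) (nat_lit 0x8000000010000800000000000000000000000000000000000) := D_25 (nat_lit 143) (nat_lit 195) (nat_lit 160) (nat_lit 4) (nat_lit 8) (nat_lit 11) (nat_lit 5) (nat_lit 7) (nat_lit 7) (by decide +kernel)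
theorem L73545 : W_25 (nat_lit 3) (nat_lit 0xf000200010001c0000000000000000000000000000000) (nat_lit 0x0) (nat_lit 0xb000000010000800000000000000000000000000000000000) := T_25 (nat_lit 193) (nat_lit 192) (nat_lit 1) (nat_lit 9) (nat_lit 10) L73544 (by decide +kernel)
theorem L73546 : W_25 (nat_lit 4) (nat_lit 0xf00020001000180000000000000000000000000000000) (nat_lit 0x0) (nat_lit 0xb000000010000800040002000000000000000000000000000) := T_25 (nat_lit 126) (nat_lit 109) (nat_lit 4) (nat_lit 8) (nat_lit 10) L73545 (by decide +kernel)
theorem L73547 : W_25 (nat_lit 5) (nat_lit 0xf00020001000080000000000000000000000000000000) (nat_lit 0x0) (nat_lit 0xb00000001000080014000a000000000000000000000000000) := T_25 (nat_lit 128) (nat_lit 111) (nat_lit 6) (nat_lit 8) (nat_lit 10) L73546 (by decide +kernel)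
theorem L73548 : W_25 (nat_lit 6) (nat_lit 0xf00000001000080000000000000000000000000000000) (nat_lit 0x0) (nat_lit 0x1b00000003000080014000a000000000000000000000000000) := T_25 (nat_lit 161) (nat_lit 196) (nat_lit 7) (nat_lit 8) (nat_lit 7) L73547 (by decide +kernel)
theorem L73549 : W_25 (nat_lit 2) (nat_lit 0x42003f000a00010007c0000000000000000000000000000000) (nat_lit 0x0) (nat_lit 0x70000000000000000000000000000) := D_25 (nat_lit 113) (nat_lit 112) (nat_lit 114) (nat_lit 2) (nat_lit 7) (nat_lit 7) (nat_lit 2) (nat_lit 8) (nat_lit 7) (by decide +kernel)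
theorem L73550 : W_25 (nat_lit 3) (nat_lit 0x42003f000a0001000780000000000000000000000000000000) (nat_lit 0x0) (nat_lit 0x40072000000000000000000000000000) := T_25 (nat_lit 126) (nat_lit 109) (nat_lit 4) (nat_lit 8) (nat_lit 10) L73549 (by decide +kernel)
theorem L73551 : W_25 (nat_lit 4) (nat_lit 0x42003f000a0001000380000000000000000000000000000000) (nat_lit 0x0) (nat_lit 0x800440072000000000000000000000000000) := T_25 (nat_lit 130) (nat_lit 143) (nat_lit 1) (nat_lit 11) (nat_lit 7) L73550 (by decide +kernel)
theorem L73552 : W_25 (nat_lit 5) (nat_lit 0x42003f000a0001000280000000000000000000000000000000) (nat_lit 0x0) (nat_lit 0x80054007a000000000000000000000000000) := T_25 (nat_lit 128) (nat_lit 111) (nat_lit 6) (nat_lit 8) (nat_lit 10) L73551 (by decide +kernel)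
theorem L73553 : W_25 (nat_lit 6) (nat_lit 0x42003f000a0001000080000000000000000000000000000000) (nat_lit 0x0) (nat_lit 0x480074007a000000000000000000000000000) := T_25 (nat_lit 129) (nat_lit 146) (nat_lit 7) (nat_lit 10) (nat_lit 7) L73552 (by decide +kernel)
theorem L73554 : W_25 (nat_lit 7) (nat_lit 0x42003f00080001000080000000000000000000000000000000) (nat_lit 0x0) (nat_lit 0x3000480074007a000000000000000000000000000) := T_25 (nat_lit 161) (nat_lit 160) (nat_lit 0) (nat_lit 11) (nat_lit 10) L73553 (by decide +kernel)
theorem L73555 : W_25 (nat_lit 8) (nat_lit 0x42001f00080001000080000000000000000000000000000000) (nat_lit 0x0) (nat_lit 0x8000200003000480074007a000000000000000000000000000) := T_25 (nat_lit 181) (nat_lit 199) (nat_lit 3) (nat_lit 8) (nat_lit 10) L73554 (by decide +kernel)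
theorem L73556 : W_25 (nat_lit 9) (nat_lit 0x2001f00080001000080000000000000000000000000000000) (nat_lit 0x0) (nat_lit 0xe000200003000480074007a000000000000000000000000000) := T_25 (nat_lit 198) (nat_lit 197) (nat_lit 3) (nat_lit 7) (nat_lit 10) L73555 (by decide +kernel)
theorem L73557 : W_25 (nat_lit 10) (nat_lit 0x2000f00080001000080000000000000000000000000000000) (nat_lit 0x0) (nat_lit 0xe000300013000480074007a000000000000000000000000000) := T_25 (nat_lit 180) (nat_lit 164) (nat_lit 2) (nat_lit 7) (nat_lit 10) L73556 (by decide +kernel)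
theorem L73558 : W_25 (nat_lit 11) (nat_lit 0x2000f00000001000080000000000000000000000000000000) (nat_lit 0x0) (nat_lit 0xe00030001f000480074007a000000000000000000000000000) := T_25 (nat_lit 163) (nat_lit 162) (nat_lit 2) (nat_lit 6) (nat_lit 10) L73557 (by decide +kernel)
theorem L73559 : W_25 (nat_lit 12) (nat_lit 0xf00000001000080000000000000000000000000000000) (nat_lit 0x0) (nat_lit 0xe30030001f000480074007a000000000000000000000000000) := T_25 (nat_lit 193) (nat_lit 192) (nat_lit 1) (nat_lit 9) (nat_lit 10) L73558 (by decide +kernel)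
theorem L73560 : W_25 (nat_lit 13) (nat_lit 0x700000001000080000000000000000000000000000000) (nat_lit 0x0) (nat_lit 0xfb0038001f000480074007a000000000000000000000000000) := Q_25 (nat_lit 179) (C_25 L72811 (C_25 L72899 (C_25 L73548 (C_25 L73559 N_25)))) (by decide +kernel)
theorem L73561 : W_25 (nat_lit 2) (nat_lit 0x40002000f00008001000080000000000000000000000000000000) (nat_lit 0x0) (nat_lit 0x800000000000000010000800000000000000000000000000000000000) := D_25 (nat_lit 160) (nat_lit 227) (nat_lit 143) (nat_lit 6) (nat_lit 6) (nat_lit 13) (nat_lit 6) (nat_lit 6) (nat_lit 12) (by decide +kernel)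
theorem L73562 : W_25 (nat_lit 3) (nat_lit 0x40002000f00000001000080000000000000000000000000000000) (nat_lit 0x0) (nat_lit 0x80000000000000001c000800000000000000000000000000000000000) := T_25 (nat_lit 159) (nat_lit 158) (nat_lit 0) (nat_lit 9) (nat_lit 10) L73561 (by decide +kernel)
theorem L73563 : W_25 (nat_lit 2) (nat_lit 0x1e0012000f00048001000080000000000000000000000000000000) (nat_lit 0x0) (nat_lit 0x6000200000000000000000000000000000000000000000000000000000) := D_25 (nat_lit 229) (nat_lit 230) (nat_lit 213) (nat_lit 3) (nat_lit 5) (nat_lit 12) (nat_lit 5) (nat_lit 9) (nat_lit 9) (by decide +kernel)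
theorem L73564 : W_25 (nat_lit 3) (nat_lit 0xe0012000f00048001000080000000000000000000000000000000) (nat_lit 0x0) (nat_lit 0x6000300008000000000000000000000000000000000000000000000000) := T_25 (nat_lit 212) (nat_lit 195) (nat_lit 2) (nat_lit 5) (nat_lit 12) L73563 (by decide +kernel)
theorem L73565 : W_25 (nat_lit 4) (nat_lit 0xe0002000f00048001000080000000000000000000000000000000) (nat_lit 0x0) (nat_lit 0x6000300038000000000000000000000000000000000000000000000000) := T_25 (nat_lit 196) (nat_lit 197) (nat_lit 3) (nat_lit 6) (nat_lit 10) L73564 (by decide +kernel)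
theorem L73566 : W_25 (nat_lit 5) (nat_lit 0x60002000f00048001000080000000000000000000000000000000) (nat_lit 0x0) (nat_lit 0x7000380038000000000000000000000000000000000000000000000000) := T_25 (nat_lit 211) (nat_lit 228) (nat_lit 7) (nat_lit 6) (nat_lit 9) L73565 (by decide +kernel)
theorem L73567 : W_25 (nat_lit 6) (nat_lit 0x40002000f00048001000080000000000000000000000000000000) (nat_lit 0x0) (nat_lit 0x74003a0038000000000000000000000000000000000000000000000000) := T_25 (nat_lit 209) (nat_lit 226) (nat_lit 5) (nat_lit 6) (nat_lit 9) L73566 (by decide +kernel)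
theorem L73568 : W_25 (nat_lit 7) (nat_lit 0x40002000f00008001000080000000000000000000000000000000) (nat_lit 0x0) (nat_lit 0x74003a00380000000c0000000000000000000000000000000000000000) := T_25 (nat_lit 162) (nat_lit 163) (nat_lit 2) (nat_lit 6) (nat_lit 10) L73567 (by decide +kernel)
theorem L73569 : W_25 (nat_lit 8) (nat_lit 0x40002000f00000001000080000000000000000000000000000000) (nat_lit 0x0) (nat_lit 0x74003a00380000000cc000000000000000000000000000000000000000) := T_25 (nat_lit 159) (nat_lit 158) (nat_lit 0) (nat_lit 9) (nat_lit 10) L73568 (by decide +kernel)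
theorem L73570 : W_25 (nat_lit 2) (nat_lit 0x1a003800040012000f00040001000080000000000000000000000000000000) (nat_lit 0x0) (nat_lit 0x300008000000000000000000000000000000000000000000000000) := D_25 (nat_lit 212) (nat_lit 213) (nat_lit 195) (nat_lit 5) (nat_lit 9) (nat_lit 9) (nat_lit 6) (nat_lit 8) (nat_lit 13) (by decide +kernel)
theorem L73571 : W_25 (nat_lit 3) (nat_lit 0x1a003800040012000f00000001000080000000000000000000000000000000) (nat_lit 0x0) (nat_lit 0x3000080000000c0000000000000000000000000000000000000000) := T_25 (nat_lit 162) (nat_lit 163) (nat_lit 2) (nat_lit 6) (nat_lit 10) L73570 (by decide +kernel)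
theorem L73572 : W_25 (nat_lit 4) (nat_lit 0x1a001800040012000f00000001000080000000000000000000000000000000) (nat_lit 0x0) (nat_lit 0x60003000080000000c0000000000000000000000000000000000000000) := T_25 (nat_lit 229) (nat_lit 230) (nat_lit 1) (nat_lit 9) (nat_lit 13) L73571 (by decide +kernel)
theorem L73573 : W_25 (nat_lit 5) (nat_lit 0x18001800040012000f00000001000080000000000000000000000000000000) (nat_lit 0x0) (nat_lit 0x60060003000080000000c0000000000000000000000000000000000000000) := T_25 (nat_lit 241) (nat_lit 242) (nat_lit 2) (nat_lit 3) (nat_lit 14) L73572 (by decide +kernel)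
theorem L73574 : W_25 (nat_lit 6) (nat_lit 0x8001800040012000f00000001000080000000000000000000000000000000) (nat_lit 0x0) (nat_lit 0x1000160060003000080000000c0000000000000000000000000000000000000000) := T_25 (nat_lit 244) (nat_lit 260) (nat_lit 5) (nat_lit 6) (nat_lit 11) L73573 (by decide +kernel)
theorem L73575 : W_25 (nat_lit 7) (nat_lit 0x8000800040012000f00000001000080000000000000000000000000000000) (nat_lit 0x0) (nat_lit 0x1000360070003000080000000c0000000000000000000000000000000000000000) := T_25 (nat_lit 228) (nat_lit 245) (nat_lit 7) (nat_lit 6) (nat_lit 10) L73574 (by decide +kernel)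
theorem L73576 : W_25 (nat_lit 8) (nat_lit 0x800040012000f00000001000080000000000000000000000000000000) (nat_lit 0x0) (nat_lit 0x10003e0074003000080000000c0000000000000000000000000000000000000000) := T_25 (nat_lit 243) (nat_lit 226) (nat_lit 5) (nat_lit 6) (nat_lit 10) L73575 (by decide +kernel)
theorem L73577 : W_25 (nat_lit 9) (nat_lit 0x40012000f00000001000080000000000000000000000000000000) (nat_lit 0x0) (nat_lit 0x10003e007c003000080000000d0000000000000000000000000000000000000000) := T_25 (nat_lit 227) (nat_lit 160) (nat_lit 6) (nat_lit 6) (nat_lit 13) L73576 (by decide +kernel)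
theorem L73578 : W_25 (nat_lit 10) (nat_lit 0x40002000f00000001000080000000000000000000000000000000) (nat_lit 0x0) (nat_lit 0x10003e007c003000380000000d0000000000000000000000000000000000000000) := T_25 (nat_lit 196) (nat_lit 197) (nat_lit 3) (nat_lit 6) (nat_lit 10) L73577 (by decide +kernel)
theorem L73579 : W_25 (nat_lit 11) (nat_lit 0x2000f00000001000080000000000000000000000000000000) (nat_lit 0x0) (nat_lit 0x10003e007c003e00380000000dc000800000000000000000000000000000000000) := Q_25 (nat_lit 210) (C_25 L73562 (C_25 L73569 (C_25 L73578 N_25))) (by decide +kernel)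
theorem L73580 : W_25 (nat_lit 12) (nat_lit 0xf00000001000080000000000000000000000000000000) (nat_lit 0x0) (nat_lit 0x10003e007c003e003b0000000dc000800000000000000000000000000000000000) := T_25 (nat_lit 193) (nat_lit 192) (nat_lit 1) (nat_lit 9) (nat_lit 10) L73579 (by decide +kernel)
theorem L73581 : W_25 (nat_lit 2) (nat_lit 0x20000f00048001000080000000000000000000000000000000) (nat_lit 0x0) (nat_lit 0x40001000010000000000000000000000000000000000000000) := D_25 (nat_lit 180) (nat_lit 198) (nat_lit 160) (nat_lit 3) (nat_lit 7) (nat_lit 10) (nat_lit 0) (nat_lit 10) (nat_lit 10) (by decide +kernel)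
theorem L73582 : W_25 (nat_lit 3) (nat_lit 0x20000f00040001000080000000000000000000000000000000) (nat_lit 0x0) (nat_lit 0x4000100001c000000000000000000000000000000000000000) := T_25 (nat_lit 159) (nat_lit 158) (nat_lit 0) (nat_lit 9) (nat_lit 10) L73581 (by decide +kernel)
theorem L73583 : W_25 (nat_lit 4) (nat_lit 0xf00040001000080000000000000000000000000000000) (nat_lit 0x0) (nat_lit 0x7000100001c000000000000000000000000000000000000000) := T_25 (nat_lit 197) (nat_lit 196) (nat_lit 3) (nat_lit 6) (nat_lit 10) L73582 (by decide +kernel)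
theorem L73584 : W_25 (nat_lit 5) (nat_lit 0xf00000001000080000000000000000000000000000000) (nat_lit 0x0) (nat_lit 0x700010000dc000000000000000000000000000000000000000) := T_25 (nat_lit 162) (nat_lit 163) (nat_lit 2) (nat_lit 6) (nat_lit 10) L73583 (by decide +kernel)
theorem L73588 : W_25 (nat_lit 5) (nat_lit 0x2000f00000001000080000000000000000000000000000000) (nat_lit 0x0) (nat_lit 0x400000010000dc000800040000000000000000000000000000000) := T_25 (nat_lit 162) (nat_lit 163) (nat_lit 2) (nat_lit 6) (nat_lit 10) L73587 (by decide +kernel)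
theorem L73589 : W_25 (nat_lit 6) (nat_lit 0xf00000001000080000000000000000000000000000000) (nat_lit 0x0) (nat_lit 0x400030010000dc000800040000000000000000000000000000000) := T_25 (nat_lit 193) (nat_lit 192) (nat_lit 1) (nat_lit 9) (nat_lit 10) L73588 (by decide +kernel)
theorem L73590 : W_25 (nat_lit 13) (nat_lit 0x700000001000080000000000000000000000000000000) (nat_lit 0x0) (nat_lit 0x10003e007c003e00fb0038003dc000800040000000000000000000000000000000) := Q_25 (nat_lit 179) (C_25 L73580 (C_25 L73584 (C_25 L72899 (C_25 L73589 (C_25 L72885 (C_25 L17036 N_25)))))) (by decide +kernel)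
theorem L73591 : W_25 (nat_lit 2) (nat_lit 0x10003000080007000200010001c0000000000000000000000000000000) (nat_lit 0x0) (nat_lit 0x20002000000000000000010000000000000000000000000000000000000000) := D_25 (nat_lit 229) (nat_lit 160) (nat_lit 245) (nat_lit 4) (nat_lit 8) (nat_lit 13) (nat_lit 5) (nat_lit 8) (nat_lit 10) (by decide +kernel)
theorem L73592 : W_25 (nat_lit 3) (nat_lit 0x3000080007000200010001c0000000000000000000000000000000) (nat_lit 0x0) (nat_lit 0x20003000080000000000010000000000000000000000000000000000000000) := T_25 (nat_lit 228) (nat_lit 211) (nat_lit 5) (nat_lit 8) (nat_lit 9) L73591 (by decide +kernel)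
theorem L73593 : W_25 (nat_lit 4) (nat_lit 0x2000080007000200010001c0000000000000000000000000000000) (nat_lit 0x0) (nat_lit 0x20007000180000000000010000000000000000000000000000000000000000) := T_25 (nat_lit 212) (nat_lit 230) (nat_lit 7) (nat_lit 8) (nat_lit 9) L73592 (by decide +kernel)
theorem L73594 : W_25 (nat_lit 5) (nat_lit 0x80007000200010001c0000000000000000000000000000000) (nat_lit 0x0) (nat_lit 0x20007000380010000000010000000000000000000000000000000000000000) := T_25 (nat_lit 213) (nat_lit 196) (nat_lit 7) (nat_lit 8) (nat_lit 8) L73593 (by decide +kernel)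
theorem L73595 : W_25 (nat_lit 6) (nat_lit 0x80007000200010000c0000000000000000000000000000000) (nat_lit 0x0) (nat_lit 0x20007000380010000000010000000100008000000000000000000000000000) := T_25 (nat_lit 128) (nat_lit 111) (nat_lit 6) (nat_lit 8) (nat_lit 10) L73594 (by decide +kernel)
theorem L73596 : W_25 (nat_lit 7) (nat_lit 0x7000200010000c0000000000000000000000000000000) (nat_lit 0x0) (nat_lit 0x20007000380018000000010000800100008000000000000000000000000000) := T_25 (nat_lit 195) (nat_lit 143) (nat_lit 4) (nat_lit 8) (nat_lit 11) L73595 (by decide +kernel)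
theorem L73597 : W_25 (nat_lit 8) (nat_lit 0x7000000010000c0000000000000000000000000000000) (nat_lit 0x0) (nat_lit 0x2000700038001800000003000080010000a000000000000000000000000000) := T_25 (nat_lit 161) (nat_lit 109) (nat_lit 4) (nat_lit 8) (nat_lit 10) L73596 (by decide +kernel)
theorem L73599 : W_25 (nat_lit 3) (nat_lit 0x7000200018000c0000000000000000000000000000000) (nat_lit 0x0) (nat_lit 0x600300008000000000000000000000000000) := T_25 (nat_lit 128) (nat_lit 111) (nat_lit 6) (nat_lit 8) (nat_lit 10) L73598 (by decide +kernel)
theorem L73600 : W_25 (nat_lit 4) (nat_lit 0x7000200010000c0000000000000000000000000000000) (nat_lit 0x0) (nat_lit 0x8000000000000e00300008000000000000000000000000000) := T_25 (nat_lit 143) (nat_lit 195) (nat_lit 4) (nat_lit 8) (nat_lit 11) L73599 (by decide +kernel)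
theorem L73601 : W_25 (nat_lit 5) (nat_lit 0x7000000010000c0000000000000000000000000000000) (nat_lit 0x0) (nat_lit 0x8000000020000e0030000a000000000000000000000000000) := T_25 (nat_lit 161) (nat_lit 109) (nat_lit 4) (nat_lit 8) (nat_lit 10) L73600 (by decide +kernel)
theorem L73602 : W_25 (nat_lit 2) (nat_lit 0x7000000018000c0000000000000000000000000000000) (nat_lit 0x0) (nat_lit 0x8000000030000000000000000000000000000000000000000) := D_25 (nat_lit 195) (nat_lit 161) (nat_lit 160) (nat_lit 4) (nat_lit 8) (nat_lit 11) (nat_lit 7) (nat_lit 7) (nat_lit 7) (by decide +kernel)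
theorem L73603 : W_25 (nat_lit 4) (nat_lit 0x7000000018000c0000000000000000000000000000000) (nat_lit 0x0) (nat_lit 0x8000000020000600300008000000000000000000000000000) := T_25 (nat_lit 161) (nat_lit 195) (nat_lit 4) (nat_lit 8) (nat_lit 11) L73599 (by decide +kernel)
theorem L73604 : W_25 (nat_lit 2) (nat_lit 0x7000000018000c0000000000000000000000000000000) (nat_lit 0x0) (nat_lit 0xa000000010000000000000000000000000000000000000000) := D_25 (nat_lit 160) (nat_lit 195) (nat_lit 193) (nat_lit 7) (nat_lit 7) (nat_lit 7) (nat_lit 5) (nat_lit 7) (nat_lit 7) (by decide +kernel)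
theorem L73605 : W_25 (nat_lit 2) (nat_lit 0x700010001a000f0000800000000000000000000000000) (nat_lit 0x0) (nat_lit 0x8000400100000000000000000000000000000000) := D_25 (nat_lit 142) (nat_lit 128) (nat_lit 159) (nat_lit 2) (nat_lit 5) (nat_lit 8) (nat_lit 4) (nat_lit 6) (nat_lit 10) (by decide +kernel)
theorem L73606 : W_25 (nat_lit 3) (nat_lit 0x700010001a000f0000000000000000000000000000000) (nat_lit 0x0) (nat_lit 0x8000400100000c00000000000000000000000000) := T_25 (nat_lit 107) (nat_lit 106) (nat_lit 0) (nat_lit 8) (nat_lit 7) L73605 (by decide +kernel)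
theorem L73607 : W_25 (nat_lit 4) (nat_lit 0x7000100018000f0000000000000000000000000000000) (nat_lit 0x0) (nat_lit 0x8000700100000c00000000000000000000000000) := T_25 (nat_lit 141) (nat_lit 140) (nat_lit 1) (nat_lit 8) (nat_lit 7) L73606 (by decide +kernel)
theorem L73608 : W_25 (nat_lit 5) (nat_lit 0x7000100018000e0000000000000000000000000000000) (nat_lit 0x0) (nat_lit 0x8000700118000c00000000000000000000000000) := T_25 (nat_lit 124) (nat_lit 123) (nat_lit 3) (nat_lit 4) (nat_lit 7) L73607 (by decide +kernel)
theorem L73609 : W_25 (nat_lit 6) (nat_lit 0x7000100018000c0000000000000000000000000000000) (nat_lit 0x0) (nat_lit 0x8000700138001c00000000000000000000000000) := T_25 (nat_lit 125) (nat_lit 108) (nat_lit 4) (nat_lit 7) (nat_lit 10) L73608 (by decide +kernel)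
theorem L73610 : W_25 (nat_lit 7) (nat_lit 0x7000000018000c0000000000000000000000000000000) (nat_lit 0x0) (nat_lit 0x2000000018000700138001c00000000000000000000000000) := T_25 (nat_lit 160) (nat_lit 193) (nat_lit 5) (nat_lit 7) (nat_lit 7) L73609 (by decide +kernel)
theorem L73611 : W_25 (nat_lit 8) (nat_lit 0x7000000010000c0000000000000000000000000000000) (nat_lit 0x0) (nat_lit 0xa000000038000f00338009c00000000000000000000000000) := Q_25 (nat_lit 143) (C_25 L73602 (C_25 L73603 (C_25 L73604 (C_25 L73610 N_25)))) (by decide +kernel)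
theorem L73612 : W_25 (nat_lit 2) (nat_lit 0x10003000080007000200010000c0000000000000000000000000000000) (nat_lit 0x0) (nat_lit 0x20002000000000000000010000000000000000000000000000000000000000) := D_25 (nat_lit 229) (nat_lit 160) (nat_lit 245) (nat_lit 4) (nat_lit 8) (nat_lit 13) (nat_lit 5) (nat_lit 8) (nat_lit 10) (by decide +kernel)
theorem L73613 : W_25 (nat_lit 3) (nat_lit 0x3000080007000200010000c0000000000000000000000000000000) (nat_lit 0x0) (nat_lit 0x20003000080000000000010000000000000000000000000000000000000000) := T_25 (nat_lit 228) (nat_lit 211) (nat_lit 5) (nat_lit 8) (nat_lit 9) L73612 (by decide +kernel)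
theorem L73614 : W_25 (nat_lit 4) (nat_lit 0x2000080007000200010000c0000000000000000000000000000000) (nat_lit 0x0) (nat_lit 0x20007000180000000000010000000000000000000000000000000000000000) := T_25 (nat_lit 212) (nat_lit 230) (nat_lit 7) (nat_lit 8) (nat_lit 9) L73613 (by decide +kernel)
theorem L73615 : W_25 (nat_lit 5) (nat_lit 0x80007000200010000c0000000000000000000000000000000) (nat_lit 0x0) (nat_lit 0x20007000380010000000010000000000000000000000000000000000000000) := T_25 (nat_lit 213) (nat_lit 196) (nat_lit 7) (nat_lit 8) (nat_lit 8) L73614 (by decide +kernel)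
theorem L73616 : W_25 (nat_lit 6) (nat_lit 0x7000200010000c0000000000000000000000000000000) (nat_lit 0x0) (nat_lit 0x20007000380018000000010000800000000000000000000000000000000000) := T_25 (nat_lit 195) (nat_lit 143) (nat_lit 4) (nat_lit 8) (nat_lit 11) L73615 (by decide +kernel)
theorem L73617 : W_25 (nat_lit 7) (nat_lit 0x7000000010000c0000000000000000000000000000000) (nat_lit 0x0) (nat_lit 0x20007000380018000000030000800000002000000000000000000000000000) := T_25 (nat_lit 161) (nat_lit 109) (nat_lit 4) (nat_lit 8) (nat_lit 10) L73616 (by decide +kernel)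
theorem L73618 : W_25 (nat_lit 2) (nat_lit 0x7000200014001e0000800000000000000000000000000) (nat_lit 0x0) (nat_lit 0x8000000010000400000000000000000000000000) := D_25 (nat_lit 124) (nat_lit 106) (nat_lit 159) (nat_lit 0) (nat_lit 8) (nat_lit 7) (nat_lit 4) (nat_lit 6) (nat_lit 10) (by decide +kernel)
theorem L73619 : W_25 (nat_lit 3) (nat_lit 0x7000200014001e0000000000000000000000000000000) (nat_lit 0x0) (nat_lit 0x8000000010001c00000000000000000000000000) := T_25 (nat_lit 107) (nat_lit 108) (nat_lit 0) (nat_lit 9) (nat_lit 7) L73618 (by decide +kernel)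
theorem L73620 : W_25 (nat_lit 4) (nat_lit 0x7000200010001e0000000000000000000000000000000) (nat_lit 0x0) (nat_lit 0x8000600010001c00000000000000000000000000) := T_25 (nat_lit 142) (nat_lit 141) (nat_lit 1) (nat_lit 9) (nat_lit 7) L73619 (by decide +kernel)
theorem L73621 : W_25 (nat_lit 5) (nat_lit 0x7000200010000e0000000000000000000000000000000) (nat_lit 0x0) (nat_lit 0x8000600110009c00000000000000000000000000) := T_25 (nat_lit 128) (nat_lit 111) (nat_lit 6) (nat_lit 8) (nat_lit 10) L73620 (by decide +kernel)
theorem L73622 : W_25 (nat_lit 6) (nat_lit 0x7000000010000e0000000000000000000000000000000) (nat_lit 0x0) (nat_lit 0x2800060011000bc00000000000000000000000000) := T_25 (nat_lit 161) (nat_lit 109) (nat_lit 4) (nat_lit 8) (nat_lit 10) L73621 (by decide +kernel)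
theorem L73623 : W_25 (nat_lit 2) (nat_lit 0x7000200012001e0000800000000000000000000000000) (nat_lit 0x0) (nat_lit 0x100010000400000000000000000000000000) := D_25 (nat_lit 124) (nat_lit 140) (nat_lit 106) (nat_lit 1) (nat_lit 8) (nat_lit 7) (nat_lit 0) (nat_lit 8) (nat_lit 7) (by decide +kernel)
theorem L73624 : W_25 (nat_lit 3) (nat_lit 0x7000200012001e0000000000000000000000000000000) (nat_lit 0x0) (nat_lit 0x100010001c00000000000000000000000000) := T_25 (nat_lit 107) (nat_lit 108) (nat_lit 0) (nat_lit 9) (nat_lit 7) L73623 (by decide +kernel)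
theorem L73625 : W_25 (nat_lit 4) (nat_lit 0x7000200010001e0000000000000000000000000000000) (nat_lit 0x0) (nat_lit 0x700010001c00000000000000000000000000) := T_25 (nat_lit 141) (nat_lit 142) (nat_lit 1) (nat_lit 9) (nat_lit 7) L73624 (by decide +kernel)
theorem L73626 : W_25 (nat_lit 5) (nat_lit 0x7000200010000e0000000000000000000000000000000) (nat_lit 0x0) (nat_lit 0x700110009c00000000000000000000000000) := T_25 (nat_lit 128) (nat_lit 111) (nat_lit 6) (nat_lit 8) (nat_lit 10) L73625 (by decide +kernel)
theorem L73627 : W_25 (nat_lit 6) (nat_lit 0x7000000010000e0000000000000000000000000000000) (nat_lit 0x0) (nat_lit 0x2000070011000bc00000000000000000000000000) := T_25 (nat_lit 161) (nat_lit 109) (nat_lit 4) (nat_lit 8) (nat_lit 10) L73626 (by decide +kernel)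
theorem L73628 : W_25 (nat_lit 2) (nat_lit 0x7000000010001e0000000000000000000000000000000) (nat_lit 0x0) (nat_lit 0x20000000000018000000000000000000000000000) := D_25 (nat_lit 111) (nat_lit 112) (nat_lit 161) (nat_lit 2) (nat_lit 6) (nat_lit 7) (nat_lit 6) (nat_lit 8) (nat_lit 10) (by decide +kernel)
theorem L73629 : W_25 (nat_lit 2) (nat_lit 0x7000000014001e0000800000000000000000000000000) (nat_lit 0x0) (nat_lit 0x8000000010000400000000000000000000000000) := D_25 (nat_lit 124) (nat_lit 106) (nat_lit 159) (nat_lit 0) (nat_lit 8) (nat_lit 7) (nat_lit 4) (nat_lit 6) (nat_lit 10) (by decide +kernel)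
theorem L73630 : W_25 (nat_lit 3) (nat_lit 0x7000000010001e0000800000000000000000000000000) (nat_lit 0x0) (nat_lit 0x8000600010000400000000000000000000000000) := T_25 (nat_lit 142) (nat_lit 141) (nat_lit 1) (nat_lit 9) (nat_lit 7) L73629 (by decide +kernel)
theorem L73631 : W_25 (nat_lit 4) (nat_lit 0x7000000010001e0000000000000000000000000000000) (nat_lit 0x0) (nat_lit 0x8000600010001c00000000000000000000000000) := T_25 (nat_lit 107) (nat_lit 108) (nat_lit 0) (nat_lit 9) (nat_lit 7) L73630 (by decide +kernel)
theorem L73632 : W_25 (nat_lit 5) (nat_lit 0x7000000010000e0000000000000000000000000000000) (nat_lit 0x0) (nat_lit 0x28000600110019c00000000000000000000000000) := Q_25 (nat_lit 128) (C_25 L73628 (C_25 L73631 N_25)) (by decide +kernel)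
theorem L73633 : W_25 (nat_lit 2) (nat_lit 0x7000200012000f0000800000000000000000000000000) (nat_lit 0x0) (nat_lit 0xc000400000000000000000000000000000000000) := D_25 (nat_lit 159) (nat_lit 142) (nat_lit 158) (nat_lit 4) (nat_lit 6) (nat_lit 10) (nat_lit 7) (nat_lit 5) (nat_lit 6) (by decide +kernel)
theorem L73634 : W_25 (nat_lit 3) (nat_lit 0x7000200012000f0000000000000000000000000000000) (nat_lit 0x0) (nat_lit 0xc000400000000c00000000000000000000000000) := T_25 (nat_lit 107) (nat_lit 106) (nat_lit 0) (nat_lit 8) (nat_lit 7) L73633 (by decide +kernel)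
theorem L73635 : W_25 (nat_lit 4) (nat_lit 0x7000200010000f0000000000000000000000000000000) (nat_lit 0x0) (nat_lit 0xc000700000000c00000000000000000000000000) := T_25 (nat_lit 141) (nat_lit 140) (nat_lit 1) (nat_lit 8) (nat_lit 7) L73634 (by decide +kernel)
theorem L73636 : W_25 (nat_lit 5) (nat_lit 0x7000000010000f0000000000000000000000000000000) (nat_lit 0x0) (nat_lit 0x2c000700000002c00000000000000000000000000) := T_25 (nat_lit 161) (nat_lit 109) (nat_lit 4) (nat_lit 8) (nat_lit 10) L73635 (by decide +kernel)
theorem L73637 : W_25 (nat_lit 3) (nat_lit 0x7000000010000f0000800000000000000000000000000) (nat_lit 0x0) (nat_lit 0xc000700000000000000000000000000000000000) := T_25 (nat_lit 141) (nat_lit 140) (nat_lit 1) (nat_lit 8) (nat_lit 7) L69285 (by decide +kernel)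
theorem L73638 : W_25 (nat_lit 4) (nat_lit 0x7000000010000f0000000000000000000000000000000) (nat_lit 0x0) (nat_lit 0xc000700000000c00000000000000000000000000) := T_25 (nat_lit 107) (nat_lit 106) (nat_lit 0) (nat_lit 8) (nat_lit 7) L73637 (by decide +kernel)
theorem L73639 : W_25 (nat_lit 2) (nat_lit 0x7000200010000f8000400000000000000000000000000) (nat_lit 0x0) (nat_lit 0x380000000000000000000000000000000000) := D_25 (nat_lit 140) (nat_lit 141) (nat_lit 139) (nat_lit 1) (nat_lit 8) (nat_lit 7) (nat_lit 1) (nat_lit 7) (nat_lit 7) (by decide +kernel)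
theorem L73640 : W_25 (nat_lit 3) (nat_lit 0x7000200010000f0000400000000000000000000000000) (nat_lit 0x0) (nat_lit 0x380008000200000000000000000000000000) := T_25 (nat_lit 123) (nat_lit 105) (nat_lit 0) (nat_lit 7) (nat_lit 7) L73639 (by decide +kernel)
theorem L73641 : W_25 (nat_lit 4) (nat_lit 0x7000000010000f0000400000000000000000000000000) (nat_lit 0x0) (nat_lit 0x20000380008002200000000000000000000000000) := T_25 (nat_lit 161) (nat_lit 109) (nat_lit 4) (nat_lit 8) (nat_lit 10) L73640 (by decide +kernel)
theorem L73642 : W_25 (nat_lit 5) (nat_lit 0x7000000010000f0000000000000000000000000000000) (nat_lit 0x0) (nat_lit 0x20000380008002e00000000000000000000000000) := T_25 (nat_lit 106) (nat_lit 107) (nat_lit 0) (nat_lit 8) (nat_lit 7) L73641 (by decide +kernel)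
theorem L73643 : W_25 (nat_lit 2) (nat_lit 0x7000000010000fc002400000008000000000000000000) (nat_lit 0x0) (nat_lit 0x1c0000000000000000000000000000000000) := D_25 (nat_lit 139) (nat_lit 138) (nat_lit 140) (nat_lit 1) (nat_lit 6) (nat_lit 7) (nat_lit 1) (nat_lit 7) (nat_lit 7) (by decide +kernel)
theorem L73644 : W_25 (nat_lit 3) (nat_lit 0x7000000010000f8002400000008000000000000000000) (nat_lit 0x0) (nat_lit 0x1c0004001000000000000000000000000000) := T_25 (nat_lit 122) (nat_lit 108) (nat_lit 2) (nat_lit 3) (nat_lit 7) L73643 (by decide +kernel)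
theorem L73645 : W_25 (nat_lit 4) (nat_lit 0x7000000010000f8002400000000000000000000000000) (nat_lit 0x0) (nat_lit 0x1c0004001000100008000000000000000000) := T_25 (nat_lit 75) (nat_lit 92) (nat_lit 7) (nat_lit 7) (nat_lit 4) L73644 (by decide +kernel)
theorem L73646 : W_25 (nat_lit 5) (nat_lit 0x7000000010000f0002400000000000000000000000000) (nat_lit 0x0) (nat_lit 0x1c000c001200100008000000000000000000) := T_25 (nat_lit 123) (nat_lit 105) (nat_lit 0) (nat_lit 7) (nat_lit 7) L73645 (by decide +kernel)
theorem L73647 : W_25 (nat_lit 6) (nat_lit 0x7000000010000f0000400000000000000000000000000) (nat_lit 0x0) (nat_lit 0x200001c000c003200100008000000000000000000) := T_25 (nat_lit 109) (nat_lit 161) (nat_lit 4) (nat_lit 8) (nat_lit 10) L73646 (by decide +kernel)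
theorem L73648 : W_25 (nat_lit 7) (nat_lit 0x7000000010000f0000000000000000000000000000000) (nat_lit 0x0) (nat_lit 0x200001c000c003e00100008000000000000000000) := T_25 (nat_lit 106) (nat_lit 107) (nat_lit 0) (nat_lit 8) (nat_lit 7) L73647 (by decide +kernel)
theorem L73649 : W_25 (nat_lit 2) (nat_lit 0x7000000011000f8002200000008000000000000000000) (nat_lit 0x0) (nat_lit 0x4001100000000000000000000000000) := D_25 (nat_lit 122) (nat_lit 108) (nat_lit 104) (nat_lit 2) (nat_lit 3) (nat_lit 7) (nat_lit 0) (nat_lit 6) (nat_lit 7) (by decide +kernel)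
theorem L73650 : W_25 (nat_lit 3) (nat_lit 0x7000000011000f8002000000008000000000000000000) (nat_lit 0x0) (nat_lit 0x4001700000000000000000000000000) := T_25 (nat_lit 105) (nat_lit 106) (nat_lit 0) (nat_lit 7) (nat_lit 7) L73649 (by decide +kernel)
theorem L73651 : W_25 (nat_lit 4) (nat_lit 0x7000000011000f0002000000008000000000000000000) (nat_lit 0x0) (nat_lit 0x8000c001700000000000000000000000000) := T_25 (nat_lit 123) (nat_lit 139) (nat_lit 1) (nat_lit 7) (nat_lit 7) L73650 (by decide +kernel)
theorem L73652 : W_25 (nat_lit 5) (nat_lit 0x7000000011000f0002000000000000000000000000000) (nat_lit 0x0) (nat_lit 0x8000c001700100008000000000000000000) := T_25 (nat_lit 75) (nat_lit 92) (nat_lit 7) (nat_lit 7) (nat_lit 4) L73651 (by decide +kernel)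
theorem L73653 : W_25 (nat_lit 6) (nat_lit 0x7000000010000f0002000000000000000000000000000) (nat_lit 0x0) (nat_lit 0x38000c001700100008000000000000000000) := T_25 (nat_lit 140) (nat_lit 141) (nat_lit 1) (nat_lit 8) (nat_lit 7) L73652 (by decide +kernel)
theorem L73654 : W_25 (nat_lit 7) (nat_lit 0x7000000010000f0000000000000000000000000000000) (nat_lit 0x0) (nat_lit 0x2000038000c003700100008000000000000000000) := T_25 (nat_lit 109) (nat_lit 161) (nat_lit 4) (nat_lit 8) (nat_lit 10) L73653 (by decide +kernel)
theorem L73655 : W_25 (nat_lit 2) (nat_lit 0x70002c0010000f0000800000000000000000000000000) (nat_lit 0x0) (nat_lit 0x13000000000000000000000000000000000000000) := D_25 (nat_lit 157) (nat_lit 160) (nat_lit 156) (nat_lit 3) (nat_lit 4) (nat_lit 9) (nat_lit 3) (nat_lit 3) (nat_lit 9) (by decide +kernel)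
theorem L73656 : W_25 (nat_lit 3) (nat_lit 0x7000280010000f0000800000000000000000000000000) (nat_lit 0x0) (nat_lit 0x17000200000000000000000000000000000000000) := T_25 (nat_lit 158) (nat_lit 141) (nat_lit 7) (nat_lit 5) (nat_lit 6) L73655 (by decide +kernel)
theorem L73657 : W_25 (nat_lit 4) (nat_lit 0x7000200010000f0000800000000000000000000000000) (nat_lit 0x0) (nat_lit 0x1f000600000000000000000000000000000000000) := T_25 (nat_lit 159) (nat_lit 142) (nat_lit 4) (nat_lit 6) (nat_lit 10) L73656 (by decide +kernel)
theorem L73658 : W_25 (nat_lit 5) (nat_lit 0x7000000010000f0000800000000000000000000000000) (nat_lit 0x0) (nat_lit 0x3f000600000002000000000000000000000000000) := T_25 (nat_lit 161) (nat_lit 109) (nat_lit 4) (nat_lit 8) (nat_lit 10) L73657 (by decide +kernel)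
theorem L73659 : W_25 (nat_lit 6) (nat_lit 0x7000000010000f0000000000000000000000000000000) (nat_lit 0x0) (nat_lit 0x3f000600000002c00000000000000000000000000) := T_25 (nat_lit 107) (nat_lit 106) (nat_lit 0) (nat_lit 8) (nat_lit 7) L73658 (by decide +kernel)
theorem L73660 : W_25 (nat_lit 2) (nat_lit 0x70000c0012000f0002000000000000000000000000000) (nat_lit 0x0) (nat_lit 0x13000000000000000000000000000000000000000) := D_25 (nat_lit 157) (nat_lit 156) (nat_lit 160) (nat_lit 3) (nat_lit 3) (nat_lit 9) (nat_lit 3) (nat_lit 4) (nat_lit 9) (by decide +kernel)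
theorem L73661 : W_25 (nat_lit 3) (nat_lit 0x7000080012000f0002000000000000000000000000000) (nat_lit 0x0) (nat_lit 0x17000000000000800000000000000000000000000) := T_25 (nat_lit 158) (nat_lit 107) (nat_lit 7) (nat_lit 5) (nat_lit 6) L73660 (by decide +kernel)
theorem L73662 : W_25 (nat_lit 4) (nat_lit 0x7000000012000f0002000000000000000000000000000) (nat_lit 0x0) (nat_lit 0x1f000400000000800000000000000000000000000) := T_25 (nat_lit 159) (nat_lit 142) (nat_lit 6) (nat_lit 6) (nat_lit 10) L73661 (by decide +kernel)
theorem L73663 : W_25 (nat_lit 5) (nat_lit 0x7000000012000f0000000000000000000000000000000) (nat_lit 0x0) (nat_lit 0x3f000400000002800000000000000000000000000) := T_25 (nat_lit 109) (nat_lit 161) (nat_lit 4) (nat_lit 8) (nat_lit 10) L73662 (by decide +kernel)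
theorem L73664 : W_25 (nat_lit 6) (nat_lit 0x7000000010000f0000000000000000000000000000000) (nat_lit 0x0) (nat_lit 0x3f000700000002800000000000000000000000000) := T_25 (nat_lit 141) (nat_lit 140) (nat_lit 1) (nat_lit 8) (nat_lit 7) L73663 (by decide +kernel)
theorem L73665 : W_25 (nat_lit 8) (nat_lit 0x7000000010000e0000000000000000000000000000000) (nat_lit 0x0) (nat_lit 0x3f0007c001c003f00100008000000000000000000) := Q_25 (nat_lit 124) (C_25 L73636 (C_25 L73638 (C_25 L73642 (C_25 L73648 (C_25 L73654 (C_25 L73659 (C_25 L73664 N_25))))))) (by decide +kernel)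
theorem L73666 : W_25 (nat_lit 2) (nat_lit 0x7000000010001e0002000000000000000000000000000) (nat_lit 0x0) (nat_lit 0x200001800000000000000000000000000) := D_25 (nat_lit 108) (nat_lit 107) (nat_lit 129) (nat_lit 0) (nat_lit 9) (nat_lit 7) (nat_lit 0) (nat_lit 10) (nat_lit 7) (by decide +kernel)
theorem L73667 : W_25 (nat_lit 3) (nat_lit 0x7000000010001e0000000000000000000000000000000) (nat_lit 0x0) (nat_lit 0x20000000200003800000000000000000000000000) := T_25 (nat_lit 109) (nat_lit 161) (nat_lit 4) (nat_lit 8) (nat_lit 10) L73666 (by decide +kernel)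
theorem L73668 : W_25 (nat_lit 2) (nat_lit 0x7000000010001e0011000000000000000000000000000) (nat_lit 0x0) (nat_lit 0x200022000000000000000000000000000) := D_25 (nat_lit 129) (nat_lit 109) (nat_lit 113) (nat_lit 0) (nat_lit 10) (nat_lit 7) (nat_lit 2) (nat_lit 7) (nat_lit 7) (by decide +kernel)
theorem L73669 : W_25 (nat_lit 3) (nat_lit 0x7000000010001e0001000000000000000000000000000) (nat_lit 0x0) (nat_lit 0x20003a000000000000000000000000000) := T_25 (nat_lit 112) (nat_lit 111) (nat_lit 2) (nat_lit 6) (nat_lit 7) L73668 (by decide +kernel)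
theorem L73670 : W_25 (nat_lit 4) (nat_lit 0x7000000010001e0000000000000000000000000000000) (nat_lit 0x0) (nat_lit 0x20003b800000000000000000000000000) := T_25 (nat_lit 108) (nat_lit 107) (nat_lit 0) (nat_lit 9) (nat_lit 7) L73669 (by decide +kernel)
theorem L73671 : W_25 (nat_lit 5) (nat_lit 0x7000000010000e0000000000000000000000000000000) (nat_lit 0x0) (nat_lit 0x2000000030003b800000000000000000000000000) := Q_25 (nat_lit 128) (C_25 L73628 (C_25 L73667 (C_25 L73670 N_25))) (by decide +kernel)
theorem L73672 : W_25 (nat_lit 2) (nat_lit 0x7000000016000e0002000000008000000000000000000) (nat_lit 0x0) (nat_lit 0x180010000000000000000000000000000000) := D_25 (nat_lit 140) (nat_lit 124) (nat_lit 139) (nat_lit 1) (nat_lit 8) (nat_lit 7) (nat_lit 2) (nat_lit 3) (nat_lit 8) (by decide +kernel)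
theorem L73673 : W_25 (nat_lit 3) (nat_lit 0x7000000014000e0002000000008000000000000000000) (nat_lit 0x0) (nat_lit 0x380110000000000000000000000000000000) := T_25 (nat_lit 141) (nat_lit 128) (nat_lit 1) (nat_lit 9) (nat_lit 7) L73672 (by decide +kernel)
theorem L73674 : W_25 (nat_lit 4) (nat_lit 0x7000000014000e0002000000000000000000000000000) (nat_lit 0x0) (nat_lit 0x380110000000100008000000000000000000) := T_25 (nat_lit 75) (nat_lit 92) (nat_lit 7) (nat_lit 7) (nat_lit 4) L73673 (by decide +kernel)
theorem L73675 : W_25 (nat_lit 5) (nat_lit 0x7000000010000e0002000000000000000000000000000) (nat_lit 0x0) (nat_lit 0x8000780110000000100008000000000000000000) := T_25 (nat_lit 142) (nat_lit 159) (nat_lit 6) (nat_lit 6) (nat_lit 10) L73674 (by decide +kernel)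
theorem L73676 : W_25 (nat_lit 6) (nat_lit 0x7000000010000e0000000000000000000000000000000) (nat_lit 0x0) (nat_lit 0x28000780110002000100008000000000000000000) := T_25 (nat_lit 109) (nat_lit 161) (nat_lit 4) (nat_lit 8) (nat_lit 10) L73675 (by decide +kernel)
theorem L73677 : W_25 (nat_lit 4) (nat_lit 0x7000000010000e0000800000000000000000000000000) (nat_lit 0x0) (nat_lit 0xc000700010000400000000000000000000000000) := T_25 (nat_lit 124) (nat_lit 106) (nat_lit 0) (nat_lit 8) (nat_lit 7) L73637 (by decide +kernel)
theorem L73678 : W_25 (nat_lit 2) (nat_lit 0x7000000010001f0000800000000000000000000000000) (nat_lit 0x0) (nat_lit 0x700000000000000000000000000000000000) := D_25 (nat_lit 141) (nat_lit 140) (nat_lit 142) (nat_lit 1) (nat_lit 8) (nat_lit 7) (nat_lit 1) (nat_lit 9) (nat_lit 7) (by decide +kernel)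
theorem L73679 : W_25 (nat_lit 3) (nat_lit 0x7000000010000f0000800000000000000000000000000) (nat_lit 0x0) (nat_lit 0x700100001000000000000000000000000000) := T_25 (nat_lit 128) (nat_lit 108) (nat_lit 0) (nat_lit 9) (nat_lit 7) L73678 (by decide +kernel)
theorem L73680 : W_25 (nat_lit 4) (nat_lit 0x7000000010000e0000800000000000000000000000000) (nat_lit 0x0) (nat_lit 0x700110001400000000000000000000000000) := T_25 (nat_lit 124) (nat_lit 106) (nat_lit 0) (nat_lit 8) (nat_lit 7) L73679 (by decide +kernel)
theorem L73681 : W_25 (nat_lit 2) (nat_lit 0x7000000010000e0000c00000000000000000000000000) (nat_lit 0x0) (nat_lit 0x100001200000000000000000000000000) := D_25 (nat_lit 108) (nat_lit 128) (nat_lit 105) (nat_lit 0) (nat_lit 9) (nat_lit 7) (nat_lit 3) (nat_lit 3) (nat_lit 6) (by decide +kernel)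
theorem L73682 : W_25 (nat_lit 3) (nat_lit 0x7000000010000e0000800000000000000000000000000) (nat_lit 0x0) (nat_lit 0x110001600000000000000000000000000) := T_25 (nat_lit 106) (nat_lit 124) (nat_lit 0) (nat_lit 8) (nat_lit 7) L73681 (by decide +kernel)
theorem L73683 : W_25 (nat_lit 2) (nat_lit 0x7000000014001e0000800000000000000000000000000) (nat_lit 0x0) (nat_lit 0x8000000010002000000000000000000000000000) := D_25 (nat_lit 159) (nat_lit 124) (nat_lit 109) (nat_lit 4) (nat_lit 6) (nat_lit 10) (nat_lit 6) (nat_lit 6) (nat_lit 10) (by decide +kernel)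
theorem L73684 : W_25 (nat_lit 3) (nat_lit 0x7000000010001e0000800000000000000000000000000) (nat_lit 0x0) (nat_lit 0x8000600010002000000000000000000000000000) := T_25 (nat_lit 142) (nat_lit 141) (nat_lit 1) (nat_lit 9) (nat_lit 7) L73683 (by decide +kernel)
theorem L73685 : W_25 (nat_lit 4) (nat_lit 0x7000000010000e0000800000000000000000000000000) (nat_lit 0x0) (nat_lit 0x8000600110003000000000000000000000000000) := T_25 (nat_lit 128) (nat_lit 108) (nat_lit 0) (nat_lit 9) (nat_lit 7) L73684 (by decide +kernel)
theorem L73686 : W_25 (nat_lit 2) (nat_lit 0x7000000010000e0001800000000000000000000000000) (nat_lit 0x0) (nat_lit 0x2600000000000000000000000000) := D_25 (nat_lit 106) (nat_lit 105) (nat_lit 109) (nat_lit 3) (nat_lit 3) (nat_lit 6) (nat_lit 3) (nat_lit 4) (nat_lit 6) (by decide +kernel)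
theorem L73687 : W_25 (nat_lit 3) (nat_lit 0x7000000010000e0000800000000000000000000000000) (nat_lit 0x0) (nat_lit 0x100003600000000000000000000000000) := T_25 (nat_lit 108) (nat_lit 128) (nat_lit 0) (nat_lit 9) (nat_lit 7) L73686 (by decide +kernel)
theorem L73688 : W_25 (nat_lit 5) (nat_lit 0x7000000010000e0000000000000000000000000000000) (nat_lit 0x0) (nat_lit 0xc000700110003e00000000000000000000000000) := Q_25 (nat_lit 107) (C_25 L73677 (C_25 L73680 (C_25 L73682 (C_25 L73685 (C_25 L73687 N_25))))) (by decide +kernel)
theorem L73689 : W_25 (nat_lit 9) (nat_lit 0x7000000010000c0000000000000000000000000000000) (nat_lit 0x0) (nat_lit 0x3f0007c033c03bf00100008000000000000000000) := Q_25 (nat_lit 125) (C_25 L73622 (C_25 L73627 (C_25 L73632 (C_25 L73665 (C_25 L73671 (C_25 L73676 (C_25 L73688 N_25))))))) (by decide +kernel)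
theorem L73690 : W_25 (nat_lit 3) (nat_lit 0x700000001c000c0000000000000000000000000000000) (nat_lit 0x0) (nat_lit 0x2000000008000000020002000100000000000000000000000) := T_25 (nat_lit 159) (nat_lit 193) (nat_lit 6) (nat_lit 6) (nat_lit 11) L67109 (by decide +kernel)
theorem L73691 : W_25 (nat_lit 2) (nat_lit 0x700000001c000c0000000000000000000000000000000) (nat_lit 0x0) (nat_lit 0x300100000000000000000000000000000000) := D_25 (nat_lit 141) (nat_lit 140) (nat_lit 128) (nat_lit 2) (nat_lit 4) (nat_lit 8) (nat_lit 2) (nat_lit 5) (nat_lit 8) (by decide +kernel)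
theorem L73692 : W_25 (nat_lit 4) (nat_lit 0x7000000018000c0000000000000000000000000000000) (nat_lit 0x0) (nat_lit 0x2000000008000700120002000100000000000000000000000) := Q_25 (nat_lit 142) (C_25 L73690 (C_25 L73691 N_25)) (by decide +kernel)
theorem L73693 : W_25 (nat_lit 7) (nat_lit 0x7000000018000c0000000000000000000000000000000) (nat_lit 0x0) (nat_lit 0x8000000018000700138001c00000000000000000000000000) := T_25 (nat_lit 160) (nat_lit 195) (nat_lit 7) (nat_lit 7) (nat_lit 7) L73609 (by decide +kernel)
theorem L73694 : W_25 (nat_lit 8) (nat_lit 0x7000000010000c0000000000000000000000000000000) (nat_lit 0x0) (nat_lit 0xa000000018000f00138003c00100000000000000000000000) := Q_25 (nat_lit 143) (C_25 L73692 (C_25 L73693 (C_25 L73604 N_25))) (by decide +kernel)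
theorem L73695 : W_25 (nat_lit 10) (nat_lit 0x700000001000080000000000000000000000000000000) (nat_lit 0x0) (nat_lit 0x2000700038001a00000003f000fc037c03bf00100008000000000000000000) := Q_25 (nat_lit 126) (C_25 L73597 (C_25 L73601 (C_25 L73611 (C_25 L73617 (C_25 L73689 (C_25 L73694 N_25)))))) (by decide +kernel)
theorem L73696 : W_25 (nat_lit 2) (nat_lit 0x40003f001680018001c0000000000000000000000000000000) (nat_lit 0x0) (nat_lit 0x600200000000000000000000000000000000) := D_25 (nat_lit 142) (nat_lit 141) (nat_lit 129) (nat_lit 3) (nat_lit 5) (nat_lit 8) (nat_lit 1) (nat_lit 10) (nat_lit 7) (by decide +kernel)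
theorem L73697 : W_25 (nat_lit 3) (nat_lit 0x40003f001680010001c0000000000000000000000000000000) (nat_lit 0x0) (nat_lit 0x8000000000000e00200000000000000000000000000000000) := T_25 (nat_lit 143) (nat_lit 195) (nat_lit 4) (nat_lit 8) (nat_lit 11) L73696 (by decide +kernel)
theorem L73698 : W_25 (nat_lit 4) (nat_lit 0x40003f001680010000c0000000000000000000000000000000) (nat_lit 0x0) (nat_lit 0x8000000000000e00300008000000000000000000000000000) := T_25 (nat_lit 128) (nat_lit 111) (nat_lit 6) (nat_lit 8) (nat_lit 10) L73697 (by decide +kernel)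
theorem L73699 : W_25 (nat_lit 5) (nat_lit 0x40003f00168001000080000000000000000000000000000000) (nat_lit 0x0) (nat_lit 0x8000000000000e0034000a000000000000000000000000000) := T_25 (nat_lit 126) (nat_lit 109) (nat_lit 4) (nat_lit 8) (nat_lit 10) L73698 (by decide +kernel)
theorem L73700 : W_25 (nat_lit 6) (nat_lit 0x40003f00148001000080000000000000000000000000000000) (nat_lit 0x0) (nat_lit 0x8004000020000e0034000a000000000000000000000000000) := T_25 (nat_lit 161) (nat_lit 182) (nat_lit 0) (nat_lit 12) (nat_lit 10) L73699 (by decide +kernel)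
theorem L73701 : W_25 (nat_lit 7) (nat_lit 0x40003f00048001000080000000000000000000000000000000) (nat_lit 0x0) (nat_lit 0x8004000320000e0034000a000000000000000000000000000) := T_25 (nat_lit 164) (nat_lit 165) (nat_lit 2) (nat_lit 8) (nat_lit 10) L73700 (by decide +kernel)
theorem L73702 : W_25 (nat_lit 8) (nat_lit 0x40001f00048001000080000000000000000000000000000000) (nat_lit 0x0) (nat_lit 0x88006000320000e0034000a000000000000000000000000000) := T_25 (nat_lit 181) (nat_lit 199) (nat_lit 3) (nat_lit 8) (nat_lit 10) L73701 (by decide +kernel)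
theorem L73703 : W_25 (nat_lit 9) (nat_lit 0x1f00048001000080000000000000000000000000000000) (nat_lit 0x0) (nat_lit 0xe8006000320000e0034000a000000000000000000000000000) := T_25 (nat_lit 198) (nat_lit 197) (nat_lit 3) (nat_lit 7) (nat_lit 10) L73702 (by decide +kernel)
theorem L73704 : W_25 (nat_lit 10) (nat_lit 0xf00048001000080000000000000000000000000000000) (nat_lit 0x0) (nat_lit 0xe8007000330000e0034000a000000000000000000000000000) := T_25 (nat_lit 180) (nat_lit 160) (nat_lit 0) (nat_lit 10) (nat_lit 10) L73703 (by decide +kernel)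
theorem L73705 : W_25 (nat_lit 11) (nat_lit 0xf00008001000080000000000000000000000000000000) (nat_lit 0x0) (nat_lit 0xe80070003f0000e0034000a000000000000000000000000000) := T_25 (nat_lit 162) (nat_lit 163) (nat_lit 2) (nat_lit 6) (nat_lit 10) L73704 (by decide +kernel)
theorem L73706 : W_25 (nat_lit 12) (nat_lit 0xf00000001000080000000000000000000000000000000) (nat_lit 0x0) (nat_lit 0xe80070003fc000e0034000a000000000000000000000000000) := T_25 (nat_lit 159) (nat_lit 158) (nat_lit 0) (nat_lit 9) (nat_lit 10) L73705 (by decide +kernel)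
theorem L73707 : W_25 (nat_lit 2) (nat_lit 0xf000000018000c0000000000000000000000000000000) (nat_lit 0x0) (nat_lit 0x8000000020000000000002000000000000000000000000000) := D_25 (nat_lit 161) (nat_lit 109) (nat_lit 195) (nat_lit 4) (nat_lit 8) (nat_lit 10) (nat_lit 4) (nat_lit 8) (nat_lit 11) (by decide +kernel)
theorem L73708 : W_25 (nat_lit 2) (nat_lit 0xf000000018000c0000000000000000000000000000000) (nat_lit 0x0) (nat_lit 0x8000000030000000000000000000000000000000000000000) := D_25 (nat_lit 195) (nat_lit 160) (nat_lit 161) (nat_lit 7) (nat_lit 7) (nat_lit 7) (nat_lit 4) (nat_lit 8) (nat_lit 11) (by decide +kernel)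
theorem L73709 : W_25 (nat_lit 2) (nat_lit 0xf000080018000c0000000000000000000000000000000) (nat_lit 0x0) (nat_lit 0x8000000010000000000002000000000000000000000000000) := D_25 (nat_lit 160) (nat_lit 195) (nat_lit 109) (nat_lit 7) (nat_lit 7) (nat_lit 7) (nat_lit 5) (nat_lit 7) (nat_lit 6) (by decide +kernel)
theorem L73710 : W_25 (nat_lit 3) (nat_lit 0xf000000018000c0000000000000000000000000000000) (nat_lit 0x0) (nat_lit 0x800000001c000000000002000000000000000000000000000) := T_25 (nat_lit 159) (nat_lit 158) (nat_lit 0) (nat_lit 9) (nat_lit 10) L73709 (by decide +kernel)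
theorem L73711 : W_25 (nat_lit 3) (nat_lit 0xf000280018000c0000000000000000000000000000000) (nat_lit 0x0) (nat_lit 0x600300008000000000000000000000000000) := T_25 (nat_lit 128) (nat_lit 111) (nat_lit 6) (nat_lit 8) (nat_lit 10) L72977 (by decide +kernel)
theorem L73712 : W_25 (nat_lit 4) (nat_lit 0xf000200018000c0000000000000000000000000000000) (nat_lit 0x0) (nat_lit 0xc000600300008000000000000000000000000000) := T_25 (nat_lit 159) (nat_lit 158) (nat_lit 0) (nat_lit 9) (nat_lit 10) L73711 (by decide +kernel)
theorem L73713 : W_25 (nat_lit 5) (nat_lit 0xf000000018000c0000000000000000000000000000000) (nat_lit 0x0) (nat_lit 0x2c00060030000a000000000000000000000000000) := T_25 (nat_lit 161) (nat_lit 109) (nat_lit 4) (nat_lit 8) (nat_lit 10) L73712 (by decide +kernel)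
theorem L73714 : W_25 (nat_lit 6) (nat_lit 0xf00000001800080000000000000000000000000000000) (nat_lit 0x0) (nat_lit 0x800000003c00060034000a000000000000000000000000000) := Q_25 (nat_lit 126) (C_25 L73707 (C_25 L73708 (C_25 L73710 (C_25 L73713 N_25)))) (by decide +kernel)
theorem L73715 : W_25 (nat_lit 2) (nat_lit 0x2000f000400018000c0000000000000000000000000000000) (nat_lit 0x0) (nat_lit 0x8000000020000000000002000000000000000000000000000) := D_25 (nat_lit 161) (nat_lit 195) (nat_lit 109) (nat_lit 4) (nat_lit 8) (nat_lit 11) (nat_lit 4) (nat_lit 8) (nat_lit 10) (by decide +kernel)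
theorem L73716 : W_25 (nat_lit 3) (nat_lit 0x2000f00040001800080000000000000000000000000000000) (nat_lit 0x0) (nat_lit 0x8000000030000000040002000000000000000000000000000) := T_25 (nat_lit 126) (nat_lit 160) (nat_lit 5) (nat_lit 7) (nat_lit 7) L73715 (by decide +kernel)
theorem L73717 : W_25 (nat_lit 4) (nat_lit 0xf00040001800080000000000000000000000000000000) (nat_lit 0x0) (nat_lit 0xb000000030000000040002000000000000000000000000000) := T_25 (nat_lit 193) (nat_lit 192) (nat_lit 1) (nat_lit 9) (nat_lit 10) L73716 (by decide +kernel)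
theorem L73718 : W_25 (nat_lit 5) (nat_lit 0xf00000001800080000000000000000000000000000000) (nat_lit 0x0) (nat_lit 0xb0000000f0000000040002000000000000000000000000000) := T_25 (nat_lit 162) (nat_lit 163) (nat_lit 2) (nat_lit 6) (nat_lit 10) L73717 (by decide +kernel)
theorem L73719 : W_25 (nat_lit 4) (nat_lit 0x2000f00008001800080000000000000000000000000000000) (nat_lit 0x0) (nat_lit 0xc0000600150000000000000000000000000000000) := T_25 (nat_lit 162) (nat_lit 163) (nat_lit 2) (nat_lit 6) (nat_lit 10) L65736 (by decide +kernel)
theorem L73720 : W_25 (nat_lit 5) (nat_lit 0x2000f00000001800080000000000000000000000000000000) (nat_lit 0x0) (nat_lit 0xcc000600150000000000000000000000000000000) := T_25 (nat_lit 159) (nat_lit 158) (nat_lit 0) (nat_lit 9) (nat_lit 10) L73719 (by decide +kernel)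
theorem L73721 : W_25 (nat_lit 6) (nat_lit 0xf00000001800080000000000000000000000000000000) (nat_lit 0x0) (nat_lit 0x30000000cc000600150000000000000000000000000000000) := T_25 (nat_lit 193) (nat_lit 192) (nat_lit 1) (nat_lit 9) (nat_lit 10) L73720 (by decide +kernel)
theorem L73722 : W_25 (nat_lit 6) (nat_lit 0x2000f00008001800080000000000000000000000000000000) (nat_lit 0x0) (nat_lit 0x28001c000e00000000000d0000000000000000000000000000000000000000) := T_25 (nat_lit 162) (nat_lit 163) (nat_lit 2) (nat_lit 6) (nat_lit 10) L66232 (by decide +kernel)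
theorem L73723 : W_25 (nat_lit 7) (nat_lit 0xf00008001800080000000000000000000000000000000) (nat_lit 0x0) (nat_lit 0x28001c000e00030000000d0000000000000000000000000000000000000000) := T_25 (nat_lit 193) (nat_lit 192) (nat_lit 1) (nat_lit 9) (nat_lit 10) L73722 (by decide +kernel)
theorem L73724 : W_25 (nat_lit 8) (nat_lit 0xf00000001800080000000000000000000000000000000) (nat_lit 0x0) (nat_lit 0x28001c000e00030000000dc000000000000000000000000000000000000000) := T_25 (nat_lit 159) (nat_lit 158) (nat_lit 0) (nat_lit 9) (nat_lit 10) L73723 (by decide +kernel)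
theorem L73725 : W_25 (nat_lit 9) (nat_lit 0xf00000001000080000000000000000000000000000000) (nat_lit 0x0) (nat_lit 0x28001c000e000b0000000fc000e0035000a000000000000000000000000000) := Q_25 (nat_lit 143) (C_25 L73714 (C_25 L73718 (C_25 L73721 (C_25 L73724 N_25)))) (by decide +kernel)
theorem L73726 : W_25 (nat_lit 8) (nat_lit 0x42003f00008001000080000000000000000000000000000000) (nat_lit 0x0) (nat_lit 0x10000800008004000760000c0014000a000000000000000000000000000) := T_25 (nat_lit 165) (nat_lit 164) (nat_lit 2) (nat_lit 8) (nat_lit 10) L72930 (by decide +kernel)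
theorem L73727 : W_25 (nat_lit 9) (nat_lit 0x42001f00008001000080000000000000000000000000000000) (nat_lit 0x0) (nat_lit 0x10000800088006000760000c0014000a000000000000000000000000000) := T_25 (nat_lit 181) (nat_lit 199) (nat_lit 3) (nat_lit 8) (nat_lit 10) L73726 (by decide +kernel)
theorem L73728 : W_25 (nat_lit 10) (nat_lit 0x2001f00008001000080000000000000000000000000000000) (nat_lit 0x0) (nat_lit 0x100008000e8006000760000c0014000a000000000000000000000000000) := T_25 (nat_lit 198) (nat_lit 197) (nat_lit 3) (nat_lit 7) (nat_lit 10) L73727 (by decide +kernel)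
theorem L73729 : W_25 (nat_lit 11) (nat_lit 0x2000f00008001000080000000000000000000000000000000) (nat_lit 0x0) (nat_lit 0x100008000e8007000770000c0014000a000000000000000000000000000) := T_25 (nat_lit 180) (nat_lit 160) (nat_lit 0) (nat_lit 10) (nat_lit 10) L73728 (by decide +kernel)
theorem L73730 : W_25 (nat_lit 12) (nat_lit 0x2000f00000001000080000000000000000000000000000000) (nat_lit 0x0) (nat_lit 0x100008000e800700077c000c0014000a000000000000000000000000000) := T_25 (nat_lit 159) (nat_lit 158) (nat_lit 0) (nat_lit 9) (nat_lit 10) L73729 (by decide +kernel)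
theorem L73731 : W_25 (nat_lit 13) (nat_lit 0xf00000001000080000000000000000000000000000000) (nat_lit 0x0) (nat_lit 0x100008000eb00700077c000c0014000a000000000000000000000000000) := T_25 (nat_lit 193) (nat_lit 192) (nat_lit 1) (nat_lit 9) (nat_lit 10) L73730 (by decide +kernel)
theorem L73732 : W_25 (nat_lit 14) (nat_lit 0x700000001000080000000000000000000000000000000) (nat_lit 0x0) (nat_lit 0x28011c008e00eb0078007fc004e0075007a000000000000000000000000000) := Q_25 (nat_lit 179) (C_25 L72885 (C_25 L73706 (C_25 L72936 (C_25 L73559 (C_25 L73589 (C_25 L73725 (C_25 L73731 N_25))))))) (by decide +kernel)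
theorem L73733 : W_25 (nat_lit 13) (nat_lit 0x700000001000080000000000000000000000000000000) (nat_lit 0x0) (nat_lit 0xf80078003fc000e0034000a000000000000000000000000000) := Q_25 (nat_lit 179) (C_25 L73584 (C_25 L73706 (C_25 L72811 (C_25 L73077 N_25)))) (by decide +kernel)
theorem L73734 : W_25 (nat_lit 15) (nat_lit 0x300000001000080000000000000000000000000000000) (nat_lit 0x0) (nat_lit 0x10003e017c00be00fb007c007ff004fc077c07bf00100008000000000000000000) := Q_25 (nat_lit 178) (C_25 L73560 (C_25 L73590 (C_25 L72937 (C_25 L73063 (C_25 L73695 (C_25 L73732 (C_25 L73733 N_25))))))) (by decide +kernel)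
theorem L73735 : W_25 (nat_lit 2) (nat_lit 0x20000f00080001000080000000000000000000000000000000) (nat_lit 0x0) (nat_lit 0x40001000100000000000000000000000000000000000000000) := D_25 (nat_lit 180) (nat_lit 198) (nat_lit 164) (nat_lit 3) (nat_lit 7) (nat_lit 10) (nat_lit 2) (nat_lit 7) (nat_lit 10) (by decide +kernel)
theorem L73736 : W_25 (nat_lit 3) (nat_lit 0x20000f00000001000080000000000000000000000000000000) (nat_lit 0x0) (nat_lit 0x400010001c0000000000000000000000000000000000000000) := T_25 (nat_lit 163) (nat_lit 162) (nat_lit 2) (nat_lit 6) (nat_lit 10) L73735 (by decide +kernel)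
theorem L73737 : W_25 (nat_lit 4) (nat_lit 0xf00000001000080000000000000000000000000000000) (nat_lit 0x0) (nat_lit 0x700010001c0000000000000000000000000000000000000000) := T_25 (nat_lit 197) (nat_lit 196) (nat_lit 3) (nat_lit 6) (nat_lit 10) L73736 (by decide +kernel)
theorem L73738 : W_25 (nat_lit 6) (nat_lit 0x1001f00080001800080000000000000000000000000000000) (nat_lit 0x0) (nat_lit 0x18800080000004600740000000000000000000000000000000) := T_25 (nat_lit 175) (nat_lit 191) (nat_lit 1) (nat_lit 8) (nat_lit 10) L8509 (by decide +kernel)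
theorem L73739 : W_25 (nat_lit 7) (nat_lit 0x1000f00080001800080000000000000000000000000000000) (nat_lit 0x0) (nat_lit 0x18801080100004600740000000000000000000000000000000) := T_25 (nat_lit 180) (nat_lit 164) (nat_lit 2) (nat_lit 7) (nat_lit 10) L73738 (by decide +kernel)
theorem L73740 : W_25 (nat_lit 8) (nat_lit 0xf00080001800080000000000000000000000000000000) (nat_lit 0x0) (nat_lit 0x1b801080100004600740000000000000000000000000000000) := T_25 (nat_lit 192) (nat_lit 193) (nat_lit 1) (nat_lit 9) (nat_lit 10) L73739 (by decide +kernel)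
theorem L73741 : W_25 (nat_lit 9) (nat_lit 0xf00000001800080000000000000000000000000000000) (nat_lit 0x0) (nat_lit 0x1b8010801c0004600740000000000000000000000000000000) := T_25 (nat_lit 163) (nat_lit 162) (nat_lit 2) (nat_lit 6) (nat_lit 10) L73740 (by decide +kernel)
theorem L73742 : W_25 (nat_lit 9) (nat_lit 0x1001f00088001800080000000000000000000000000000000) (nat_lit 0x0) (nat_lit 0x4000200188000c000300070013c000000000000000000000000000000) := T_25 (nat_lit 175) (nat_lit 191) (nat_lit 1) (nat_lit 8) (nat_lit 10) L8500 (by decide +kernel)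
theorem L73743 : W_25 (nat_lit 10) (nat_lit 0x1001f00080001800080000000000000000000000000000000) (nat_lit 0x0) (nat_lit 0x4000200188000c001b00070013c000000000000000000000000000000) := T_25 (nat_lit 159) (nat_lit 160) (nat_lit 0) (nat_lit 10) (nat_lit 10) L73742 (by decide +kernel)
theorem L73744 : W_25 (nat_lit 11) (nat_lit 0x1000f00080001800080000000000000000000000000000000) (nat_lit 0x0) (nat_lit 0x4000200188010c011b00070013c000000000000000000000000000000) := T_25 (nat_lit 180) (nat_lit 164) (nat_lit 2) (nat_lit 7) (nat_lit 10) L73743 (by decide +kernel)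
theorem L73745 : W_25 (nat_lit 12) (nat_lit 0xf00080001800080000000000000000000000000000000) (nat_lit 0x0) (nat_lit 0x40002001b8010c011b00070013c000000000000000000000000000000) := T_25 (nat_lit 192) (nat_lit 193) (nat_lit 1) (nat_lit 9) (nat_lit 10) L73744 (by decide +kernel)
theorem L73746 : W_25 (nat_lit 13) (nat_lit 0xf00000001800080000000000000000000000000000000) (nat_lit 0x0) (nat_lit 0x40002001b8010c01db00070013c000000000000000000000000000000) := T_25 (nat_lit 163) (nat_lit 162) (nat_lit 2) (nat_lit 6) (nat_lit 10) L73745 (by decide +kernel)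
theorem L73747 : W_25 (nat_lit 14) (nat_lit 0xf00000001000080000000000000000000000000000000) (nat_lit 0x0) (nat_lit 0x40006001b8010c01db004f0077c019c00000000000000000000000000) := Q_25 (nat_lit 143) (C_25 L8524 (C_25 L73741 (C_25 L73746 (C_25 L8485 (C_25 L8456 (C_25 L8489 N_25)))))) (by decide +kernel)
theorem L73748 : W_25 (nat_lit 2) (nat_lit 0x10000000042003f000800018002c0000000000000000000000000000000) (nat_lit 0x0) (nat_lit 0x400500000000000000000000000000000000) := D_25 (nat_lit 128) (nat_lit 130) (nat_lit 142) (nat_lit 1) (nat_lit 11) (nat_lit 7) (nat_lit 1) (nat_lit 10) (nat_lit 7) (by decide +kernel)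
theorem L73749 : W_25 (nat_lit 3) (nat_lit 0x10000000042003f000800018000c0000000000000000000000000000000) (nat_lit 0x0) (nat_lit 0x4400700000000000000000000000000000000) := T_25 (nat_lit 129) (nat_lit 146) (nat_lit 7) (nat_lit 10) (nat_lit 7) L73748 (by decide +kernel)
theorem L73750 : W_25 (nat_lit 4) (nat_lit 0x42003f000800018000c0000000000000000000000000000000) (nat_lit 0x0) (nat_lit 0x10000800000000000000004400700000000000000000000000000000000) := T_25 (nat_lit 232) (nat_lit 215) (nat_lit 4) (nat_lit 11) (nat_lit 13) L73749 (by decide +kernel)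
theorem L73751 : W_25 (nat_lit 5) (nat_lit 0x42001f000800018000c0000000000000000000000000000000) (nat_lit 0x0) (nat_lit 0x10000800080002000000004400700000000000000000000000000000000) := T_25 (nat_lit 181) (nat_lit 199) (nat_lit 3) (nat_lit 8) (nat_lit 10) L73750 (by decide +kernel)
theorem L73752 : W_25 (nat_lit 6) (nat_lit 0x2001f000800018000c0000000000000000000000000000000) (nat_lit 0x0) (nat_lit 0x100008000e0002000000004400700000000000000000000000000000000) := T_25 (nat_lit 198) (nat_lit 197) (nat_lit 3) (nat_lit 7) (nat_lit 10) L73751 (by decide +kernel)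
theorem L73753 : W_25 (nat_lit 7) (nat_lit 0x2001f00080001800080000000000000000000000000000000) (nat_lit 0x0) (nat_lit 0x100008000e0002000010004400740000000000000000000000000000000) := T_25 (nat_lit 126) (nat_lit 160) (nat_lit 5) (nat_lit 7) (nat_lit 7) L73752 (by decide +kernel)
theorem L73754 : W_25 (nat_lit 8) (nat_lit 0x2000f00080001800080000000000000000000000000000000) (nat_lit 0x0) (nat_lit 0x100008000e0003000110004400740000000000000000000000000000000) := T_25 (nat_lit 180) (nat_lit 164) (nat_lit 2) (nat_lit 7) (nat_lit 10) L73753 (by decide +kernel)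
theorem L73755 : W_25 (nat_lit 9) (nat_lit 0xf00080001800080000000000000000000000000000000) (nat_lit 0x0) (nat_lit 0x100008000e3003000110004400740000000000000000000000000000000) := T_25 (nat_lit 193) (nat_lit 192) (nat_lit 1) (nat_lit 9) (nat_lit 10) L73754 (by decide +kernel)
theorem L73756 : W_25 (nat_lit 10) (nat_lit 0xf00000001800080000000000000000000000000000000) (nat_lit 0x0) (nat_lit 0x100008000e30030001d0004400740000000000000000000000000000000) := T_25 (nat_lit 163) (nat_lit 162) (nat_lit 2) (nat_lit 6) (nat_lit 10) L73755 (by decide +kernel)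
theorem L73757 : W_25 (nat_lit 6) (nat_lit 0x21001f80088001c00080000000000000000000000000000000) (nat_lit 0x0) (nat_lit 0x40002000000004000300030011c000000000000000000000000000000) := T_25 (nat_lit 226) (nat_lit 209) (nat_lit 6) (nat_lit 5) (nat_lit 13) L8460 (by decide +kernel)
theorem L73758 : W_25 (nat_lit 7) (nat_lit 0x21001f80088001800080000000000000000000000000000000) (nat_lit 0x0) (nat_lit 0x40002000000004000300070013c000000000000000000000000000000) := T_25 (nat_lit 142) (nat_lit 125) (nat_lit 5) (nat_lit 6) (nat_lit 7) L73757 (by decide +kernel)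
theorem L73759 : W_25 (nat_lit 8) (nat_lit 0x21001f00088001800080000000000000000000000000000000) (nat_lit 0x0) (nat_lit 0x4000200008000c000300070013c000000000000000000000000000000) := T_25 (nat_lit 175) (nat_lit 191) (nat_lit 1) (nat_lit 8) (nat_lit 10) L73758 (by decide +kernel)
theorem L73760 : W_25 (nat_lit 9) (nat_lit 0x1001f00088001800080000000000000000000000000000000) (nat_lit 0x0) (nat_lit 0x4000200608000c000300070013c000000000000000000000000000000) := T_25 (nat_lit 197) (nat_lit 198) (nat_lit 3) (nat_lit 7) (nat_lit 10) L73759 (by decide +kernel)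
theorem L73761 : W_25 (nat_lit 10) (nat_lit 0x1001f00080001800080000000000000000000000000000000) (nat_lit 0x0) (nat_lit 0x4000200608000c001b00070013c000000000000000000000000000000) := T_25 (nat_lit 159) (nat_lit 160) (nat_lit 0) (nat_lit 10) (nat_lit 10) L73760 (by decide +kernel)
theorem L73762 : W_25 (nat_lit 11) (nat_lit 0x1000f00080001800080000000000000000000000000000000) (nat_lit 0x0) (nat_lit 0x4000200608010c011b00070013c000000000000000000000000000000) := T_25 (nat_lit 180) (nat_lit 164) (nat_lit 2) (nat_lit 7) (nat_lit 10) L73761 (by decide +kernel)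
theorem L73763 : W_25 (nat_lit 12) (nat_lit 0xf00080001800080000000000000000000000000000000) (nat_lit 0x0) (nat_lit 0x4000200638010c011b00070013c000000000000000000000000000000) := T_25 (nat_lit 192) (nat_lit 193) (nat_lit 1) (nat_lit 9) (nat_lit 10) L73762 (by decide +kernel)
theorem L73764 : W_25 (nat_lit 13) (nat_lit 0xf00000001800080000000000000000000000000000000) (nat_lit 0x0) (nat_lit 0x4000200638010c01db00070013c000000000000000000000000000000) := T_25 (nat_lit 163) (nat_lit 162) (nat_lit 2) (nat_lit 6) (nat_lit 10) L73763 (by decide +kernel)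
theorem L73765 : W_25 (nat_lit 14) (nat_lit 0xf00000001000080000000000000000000000000000000) (nat_lit 0x0) (nat_lit 0x104008600eb8030c01db004f0077c019c00000000000000000000000000) := Q_25 (nat_lit 143) (C_25 L8524 (C_25 L73756 (C_25 L8477 (C_25 L73764 (C_25 L8485 (C_25 L8489 N_25)))))) (by decide +kernel)
theorem L73766 : W_25 (nat_lit 15) (nat_lit 0x700000001000080000000000000000000000000000000) (nat_lit 0x0) (nat_lit 0x104008600fb8038c01db004f0077c019c00000000000000000000000000) := Q_25 (nat_lit 179) (C_25 L72899 (C_25 L73737 (C_25 L73747 (C_25 L4774 (C_25 L73765 N_25))))) (by decide +kernel)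
theorem L73767 : W_25 (nat_lit 2) (nat_lit 0x88007c0022001000080000000000000000000000000000000) (nat_lit 0x0) (nat_lit 0x800040002000000000000000000000000000) := D_25 (nat_lit 126) (nat_lit 109) (nat_lit 143) (nat_lit 4) (nat_lit 8) (nat_lit 10) (nat_lit 4) (nat_lit 8) (nat_lit 11) (by decide +kernel)
theorem L73768 : W_25 (nat_lit 3) (nat_lit 0x8007c0022001000080000000000000000000000000000000) (nat_lit 0x0) (nat_lit 0x18000000000000800040002000000000000000000000000000) := T_25 (nat_lit 195) (nat_lit 196) (nat_lit 3) (nat_lit 5) (nat_lit 10) L73767 (by decide +kernel)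
theorem L73769 : W_25 (nat_lit 4) (nat_lit 0x8007c0020001000080000000000000000000000000000000) (nat_lit 0x0) (nat_lit 0x18000000003000800040002000000000000000000000000000) := T_25 (nat_lit 157) (nat_lit 156) (nat_lit 0) (nat_lit 7) (nat_lit 10) L73768 (by decide +kernel)
theorem L73770 : W_25 (nat_lit 5) (nat_lit 0x7c0020001000080000000000000000000000000000000) (nat_lit 0x0) (nat_lit 0x18c00000003000800040002000000000000000000000000000) := T_25 (nat_lit 191) (nat_lit 190) (nat_lit 1) (nat_lit 7) (nat_lit 10) L73769 (by decide +kernel)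
theorem L73771 : W_25 (nat_lit 6) (nat_lit 0x780020001000080000000000000000000000000000000) (nat_lit 0x0) (nat_lit 0x18c00040013000800040002000000000000000000000000000) := T_25 (nat_lit 174) (nat_lit 160) (nat_lit 2) (nat_lit 4) (nat_lit 10) L73770 (by decide +kernel)
theorem L73772 : W_25 (nat_lit 7) (nat_lit 0x700020001000080000000000000000000000000000000) (nat_lit 0x0) (nat_lit 0x18c000c0053000800040002000000000000000000000000000) := T_25 (nat_lit 175) (nat_lit 162) (nat_lit 2) (nat_lit 5) (nat_lit 10) L73771 (by decide +kernel)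
theorem L73773 : W_25 (nat_lit 5) (nat_lit 0x700020001000080000000000000000000000000000000) (nat_lit 0x0) (nat_lit 0x8000000000000e0034000a000000000000000000000000000) := T_25 (nat_lit 126) (nat_lit 109) (nat_lit 4) (nat_lit 8) (nat_lit 10) L73600 (by decide +kernel)
theorem L73774 : W_25 (nat_lit 8) (nat_lit 0x700000001000080000000000000000000000000000000) (nat_lit 0x0) (nat_lit 0x19c000c0073000e0034000a000000000000000000000000000) := Q_25 (nat_lit 161) (C_25 L4938 (C_25 L73772 (C_25 L73773 N_25))) (by decide +kernel)
theorem L73775 : W_25 (nat_lit 6) (nat_lit 0x700000001000080000000000000000000000000000000) (nat_lit 0x0) (nat_lit 0x9c000c0070000e0034000a000000000000000000000000000) := Q_25 (nat_lit 161) (C_25 L4938 (C_25 L73773 N_25)) (by decide +kernel)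
theorem L73776 : W_25 (nat_lit 2) (nat_lit 0x20001f400b00018001c0000000000000000000000000000000) (nat_lit 0x0) (nat_lit 0x600200000000000000000000000000000000) := D_25 (nat_lit 142) (nat_lit 141) (nat_lit 129) (nat_lit 2) (nat_lit 5) (nat_lit 8) (nat_lit 1) (nat_lit 10) (nat_lit 7) (by decide +kernel)
theorem L73777 : W_25 (nat_lit 3) (nat_lit 0x20001f400b00010001c0000000000000000000000000000000) (nat_lit 0x0) (nat_lit 0x8000000000000e00200000000000000000000000000000000) := T_25 (nat_lit 143) (nat_lit 195) (nat_lit 7) (nat_lit 7) (nat_lit 7) L73776 (by decide +kernel)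
theorem L73778 : W_25 (nat_lit 4) (nat_lit 0x20001f400b0001000180000000000000000000000000000000) (nat_lit 0x0) (nat_lit 0x8000000000000e00240002000000000000000000000000000) := T_25 (nat_lit 126) (nat_lit 109) (nat_lit 4) (nat_lit 8) (nat_lit 10) L73777 (by decide +kernel)
theorem L73779 : W_25 (nat_lit 5) (nat_lit 0x20001f400b0001000080000000000000000000000000000000) (nat_lit 0x0) (nat_lit 0x8000000000000e0034000a000000000000000000000000000) := T_25 (nat_lit 128) (nat_lit 111) (nat_lit 6) (nat_lit 8) (nat_lit 10) L73778 (by decide +kernel)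
theorem L73780 : W_25 (nat_lit 6) (nat_lit 0x20001f000b0001000080000000000000000000000000000000) (nat_lit 0x0) (nat_lit 0x80000c0000000e0034000a000000000000000000000000000) := T_25 (nat_lit 174) (nat_lit 175) (nat_lit 2) (nat_lit 4) (nat_lit 10) L73779 (by decide +kernel)
theorem L73781 : W_25 (nat_lit 7) (nat_lit 0x20001f00090001000080000000000000000000000000000000) (nat_lit 0x0) (nat_lit 0x80020c0020000e0034000a000000000000000000000000000) := T_25 (nat_lit 161) (nat_lit 181) (nat_lit 0) (nat_lit 11) (nat_lit 10) L73780 (by decide +kernel)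
theorem L73782 : W_25 (nat_lit 8) (nat_lit 0x20001f00080001000080000000000000000000000000000000) (nat_lit 0x0) (nat_lit 0x80020c0038000e0034000a000000000000000000000000000) := T_25 (nat_lit 160) (nat_lit 159) (nat_lit 0) (nat_lit 10) (nat_lit 10) L73781 (by decide +kernel)
theorem L73783 : W_25 (nat_lit 9) (nat_lit 0x20001f00000001000080000000000000000000000000000000) (nat_lit 0x0) (nat_lit 0x80020c01b8000e0034000a000000000000000000000000000) := T_25 (nat_lit 163) (nat_lit 164) (nat_lit 2) (nat_lit 7) (nat_lit 10) L73782 (by decide +kernel)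
theorem L73784 : W_25 (nat_lit 10) (nat_lit 0x1f00000001000080000000000000000000000000000000) (nat_lit 0x0) (nat_lit 0x680020c01b8000e0034000a000000000000000000000000000) := T_25 (nat_lit 197) (nat_lit 198) (nat_lit 3) (nat_lit 7) (nat_lit 10) L73783 (by decide +kernel)
theorem L73785 : W_25 (nat_lit 2) (nat_lit 0x800000002001f000900010000c0000000000000000000000000000000) (nat_lit 0x0) (nat_lit 0x2000020000000000002000000000000000000000000000) := D_25 (nat_lit 161) (nat_lit 109) (nat_lit 181) (nat_lit 4) (nat_lit 8) (nat_lit 10) (nat_lit 0) (nat_lit 11) (nat_lit 10) (by decide +kernel)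
theorem L73786 : W_25 (nat_lit 3) (nat_lit 0x800000002001f00090001000080000000000000000000000000000000) (nat_lit 0x0) (nat_lit 0x2000020000800040002000000000000000000000000000) := T_25 (nat_lit 126) (nat_lit 143) (nat_lit 5) (nat_lit 7) (nat_lit 7) L73785 (by decide +kernel)
theorem L73787 : W_25 (nat_lit 4) (nat_lit 0x2001f00090001000080000000000000000000000000000000) (nat_lit 0x0) (nat_lit 0x800040000002000020000800040002000000000000000000000000000) := T_25 (nat_lit 227) (nat_lit 210) (nat_lit 6) (nat_lit 6) (nat_lit 13) L73786 (by decide +kernel)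
theorem L73788 : W_25 (nat_lit 5) (nat_lit 0x2001f00010001000080000000000000000000000000000000) (nat_lit 0x0) (nat_lit 0x8000400000020001a0000800040002000000000000000000000000000) := T_25 (nat_lit 163) (nat_lit 164) (nat_lit 2) (nat_lit 7) (nat_lit 10) L73787 (by decide +kernel)
theorem L73789 : W_25 (nat_lit 6) (nat_lit 0x2001f00000001000080000000000000000000000000000000) (nat_lit 0x0) (nat_lit 0x8000400000020001b8000800040002000000000000000000000000000) := T_25 (nat_lit 160) (nat_lit 159) (nat_lit 0) (nat_lit 10) (nat_lit 10) L73788 (by decide +kernel)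
theorem L73790 : W_25 (nat_lit 7) (nat_lit 0x1f00000001000080000000000000000000000000000000) (nat_lit 0x0) (nat_lit 0x8000400030020001b8000800040002000000000000000000000000000) := T_25 (nat_lit 193) (nat_lit 192) (nat_lit 1) (nat_lit 9) (nat_lit 10) L73789 (by decide +kernel)
theorem L73791 : W_25 (nat_lit 2) (nat_lit 0x22001f00030001000080000000000000000000000000000000) (nat_lit 0x0) (nat_lit 0x800040002000000000000000000000000000) := D_25 (nat_lit 126) (nat_lit 143) (nat_lit 109) (nat_lit 5) (nat_lit 7) (nat_lit 7) (nat_lit 4) (nat_lit 8) (nat_lit 10) (by decide +kernel)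
theorem L73792 : W_25 (nat_lit 3) (nat_lit 0x22001f00010001000080000000000000000000000000000000) (nat_lit 0x0) (nat_lit 0x2000020000800040002000000000000000000000000000) := T_25 (nat_lit 161) (nat_lit 181) (nat_lit 0) (nat_lit 11) (nat_lit 10) L73791 (by decide +kernel)
theorem L73793 : W_25 (nat_lit 4) (nat_lit 0x22001f00000001000080000000000000000000000000000000) (nat_lit 0x0) (nat_lit 0x2000038000800040002000000000000000000000000000) := T_25 (nat_lit 160) (nat_lit 159) (nat_lit 0) (nat_lit 10) (nat_lit 10) L73792 (by decide +kernel)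
theorem L73794 : W_25 (nat_lit 5) (nat_lit 0x20001f00000001000080000000000000000000000000000000) (nat_lit 0x0) (nat_lit 0x3002000038000800040002000000000000000000000000000) := T_25 (nat_lit 193) (nat_lit 192) (nat_lit 1) (nat_lit 9) (nat_lit 10) L73793 (by decide +kernel)
theorem L73795 : W_25 (nat_lit 6) (nat_lit 0x1f00000001000080000000000000000000000000000000) (nat_lit 0x0) (nat_lit 0x63002000038000800040002000000000000000000000000000) := T_25 (nat_lit 197) (nat_lit 198) (nat_lit 3) (nat_lit 7) (nat_lit 10) L73794 (by decide +kernel)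
theorem L73796 : W_25 (nat_lit 2) (nat_lit 0x21001f800b00018001c0000000000000000000000000000000) (nat_lit 0x0) (nat_lit 0x600200000000000000000000000000000000) := D_25 (nat_lit 142) (nat_lit 141) (nat_lit 129) (nat_lit 2) (nat_lit 5) (nat_lit 8) (nat_lit 1) (nat_lit 10) (nat_lit 7) (by decide +kernel)
theorem L73797 : W_25 (nat_lit 3) (nat_lit 0x21001f800b00010001c0000000000000000000000000000000) (nat_lit 0x0) (nat_lit 0x8000000000000e00200000000000000000000000000000000) := T_25 (nat_lit 143) (nat_lit 195) (nat_lit 7) (nat_lit 7) (nat_lit 7) L73796 (by decide +kernel)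
theorem L73798 : W_25 (nat_lit 4) (nat_lit 0x21001f800b00010000c0000000000000000000000000000000) (nat_lit 0x0) (nat_lit 0x8000000000000e00300008000000000000000000000000000) := T_25 (nat_lit 128) (nat_lit 111) (nat_lit 6) (nat_lit 8) (nat_lit 10) L73797 (by decide +kernel)
theorem L73799 : W_25 (nat_lit 5) (nat_lit 0x21001f800b0001000080000000000000000000000000000000) (nat_lit 0x0) (nat_lit 0x8000000000000e0034000a000000000000000000000000000) := T_25 (nat_lit 126) (nat_lit 109) (nat_lit 4) (nat_lit 8) (nat_lit 10) L73798 (by decide +kernel)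
theorem L73800 : W_25 (nat_lit 6) (nat_lit 0x21001f80090001000080000000000000000000000000000000) (nat_lit 0x0) (nat_lit 0x8000040020000e0034000a000000000000000000000000000) := T_25 (nat_lit 161) (nat_lit 174) (nat_lit 2) (nat_lit 4) (nat_lit 10) L73799 (by decide +kernel)
theorem L73801 : W_25 (nat_lit 7) (nat_lit 0x21001f00090001000080000000000000000000000000000000) (nat_lit 0x0) (nat_lit 0x88000c0020000e0034000a000000000000000000000000000) := T_25 (nat_lit 175) (nat_lit 191) (nat_lit 1) (nat_lit 8) (nat_lit 10) L73800 (by decide +kernel)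
theorem L73802 : W_25 (nat_lit 8) (nat_lit 0x20001f00090001000080000000000000000000000000000000) (nat_lit 0x0) (nat_lit 0xb8000c0020000e0034000a000000000000000000000000000) := T_25 (nat_lit 192) (nat_lit 193) (nat_lit 1) (nat_lit 9) (nat_lit 10) L73801 (by decide +kernel)
theorem L73803 : W_25 (nat_lit 9) (nat_lit 0x1f00090001000080000000000000000000000000000000) (nat_lit 0x0) (nat_lit 0x6b8000c0020000e0034000a000000000000000000000000000) := T_25 (nat_lit 197) (nat_lit 198) (nat_lit 3) (nat_lit 7) (nat_lit 10) L73802 (by decide +kernel)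
theorem L73804 : W_25 (nat_lit 10) (nat_lit 0x1f00010001000080000000000000000000000000000000) (nat_lit 0x0) (nat_lit 0x6b8000c01a0000e0034000a000000000000000000000000000) := T_25 (nat_lit 163) (nat_lit 164) (nat_lit 2) (nat_lit 7) (nat_lit 10) L73803 (by decide +kernel)
theorem L73805 : W_25 (nat_lit 11) (nat_lit 0x1f00000001000080000000000000000000000000000000) (nat_lit 0x0) (nat_lit 0x6b8000c01b8000e0034000a000000000000000000000000000) := T_25 (nat_lit 160) (nat_lit 159) (nat_lit 0) (nat_lit 10) (nat_lit 10) L73804 (by decide +kernel)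
theorem L73806 : W_25 (nat_lit 12) (nat_lit 0xf00000001000080000000000000000000000000000000) (nat_lit 0x0) (nat_lit 0x8000400eb8030c03b8000e0034000a000000000000000000000000000) := Q_25 (nat_lit 180) (C_25 L73784 (C_25 L72924 (C_25 L73790 (C_25 L73795 (C_25 L73805 N_25))))) (by decide +kernel)
theorem L73807 : W_25 (nat_lit 13) (nat_lit 0x700000001000080000000000000000000000000000000) (nat_lit 0x0) (nat_lit 0x8000400fb8038c03b8000e0034000a000000000000000000000000000) := Q_25 (nat_lit 179) (C_25 L72811 (C_25 L73548 (C_25 L4774 (C_25 L73806 N_25)))) (by decide +kernel)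
theorem L73808 : W_25 (nat_lit 2) (nat_lit 0x4007c0021001000080000000000000000000000000000000) (nat_lit 0x0) (nat_lit 0x200020000800000000000000000000000000000000000000) := D_25 (nat_lit 173) (nat_lit 189) (nat_lit 155) (nat_lit 1) (nat_lit 6) (nat_lit 10) (nat_lit 0) (nat_lit 6) (nat_lit 10) (by decide +kernel)
theorem L73809 : W_25 (nat_lit 3) (nat_lit 0x4007c0020001000080000000000000000000000000000000) (nat_lit 0x0) (nat_lit 0x200020003800000000000000000000000000000000000000) := T_25 (nat_lit 156) (nat_lit 157) (nat_lit 0) (nat_lit 7) (nat_lit 10) L73808 (by decide +kernel)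
theorem L73810 : W_25 (nat_lit 4) (nat_lit 0x7c0020001000080000000000000000000000000000000) (nat_lit 0x0) (nat_lit 0xe00020003800000000000000000000000000000000000000) := T_25 (nat_lit 190) (nat_lit 191) (nat_lit 1) (nat_lit 7) (nat_lit 10) L73809 (by decide +kernel)
theorem L73811 : W_25 (nat_lit 5) (nat_lit 0x780020001000080000000000000000000000000000000) (nat_lit 0x0) (nat_lit 0xe00060013800000000000000000000000000000000000000) := T_25 (nat_lit 174) (nat_lit 160) (nat_lit 2) (nat_lit 4) (nat_lit 10) L73810 (by decide +kernel)
theorem L73812 : W_25 (nat_lit 6) (nat_lit 0x700020001000080000000000000000000000000000000) (nat_lit 0x0) (nat_lit 0xe000e0053800000000000000000000000000000000000000) := T_25 (nat_lit 175) (nat_lit 162) (nat_lit 2) (nat_lit 5) (nat_lit 10) L73811 (by decide +kernel)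
theorem L73813 : W_25 (nat_lit 7) (nat_lit 0x700000001000080000000000000000000000000000000) (nat_lit 0x0) (nat_lit 0x18e008e0073800e0034000a000000000000000000000000000) := Q_25 (nat_lit 161) (C_25 L72960 (C_25 L73773 (C_25 L73812 N_25))) (by decide +kernel)
theorem L73814 : W_25 (nat_lit 5) (nat_lit 0x700000001000080000000000000000000000000000000) (nat_lit 0x0) (nat_lit 0x738018801e0000000000000000000000000000000000000000) := Q_25 (nat_lit 179) (C_25 L73737 (C_25 L72869 (C_25 L72811 N_25))) (by decide +kernel)
theorem L73815 : W_25 (nat_lit 16) (nat_lit 0x300000001000080000000000000000000000000000000) (nat_lit 0x0) (nat_lit 0x10c008600fbe03ce03fb804f0077c07bc00000000000000000000000000) := Q_25 (nat_lit 178) (C_25 L73560 (C_25 L73766 (C_25 L72870 (C_25 L73774 (C_25 L73775 (C_25 L73807 (C_25 L73813 (C_25 L73814 N_25)))))))) (by decide +kernel)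
theorem L73816 : W_25 (nat_lit 2) (nat_lit 0x10000780004001000080000000000000000000000000000000) (nat_lit 0x0) (nat_lit 0x20000800020000000000000000000000000000000000000000) := D_25 (nat_lit 179) (nat_lit 197) (nat_lit 161) (nat_lit 3) (nat_lit 6) (nat_lit 10) (nat_lit 7) (nat_lit 8) (nat_lit 7) (by decide +kernel)
theorem L73817 : W_25 (nat_lit 3) (nat_lit 0x780004001000080000000000000000000000000000000) (nat_lit 0x0) (nat_lit 0x38000800020000000000000000000000000000000000000000) := T_25 (nat_lit 196) (nat_lit 195) (nat_lit 3) (nat_lit 5) (nat_lit 10) L73816 (by decide +kernel)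
theorem L73818 : W_25 (nat_lit 4) (nat_lit 0x780000001000080000000000000000000000000000000) (nat_lit 0x0) (nat_lit 0x38000800026000000000000000000000000000000000000000) := T_25 (nat_lit 158) (nat_lit 157) (nat_lit 0) (nat_lit 8) (nat_lit 10) L73817 (by decide +kernel)
theorem L73819 : W_25 (nat_lit 5) (nat_lit 0x700000001000080000000000000000000000000000000) (nat_lit 0x0) (nat_lit 0x3bc008c0027000000000000000000000000000000000000000) := Q_25 (nat_lit 175) (C_25 L13282 (C_25 L73818 (C_25 L72815 N_25))) (by decide +kernel)
theorem L73820 : W_25 (nat_lit 14) (nat_lit 0x700000001000080000000000000000000000000000000) (nat_lit 0x0) (nat_lit 0x7c001f803bf018f009fc0cf4077e03bc00540008000000000000000000) := Q_25 (nat_lit 175) (C_25 L11395 (C_25 L73147 (C_25 L73541 (C_25 L13282 N_25)))) (by decide +kernel)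
theorem L73821 : W_25 (nat_lit 2) (nat_lit 0x8007c00220018001c0000000000000000000000000000000) (nat_lit 0x0) (nat_lit 0x600200000000000000000000000000000000) := D_25 (nat_lit 142) (nat_lit 141) (nat_lit 129) (nat_lit 2) (nat_lit 5) (nat_lit 8) (nat_lit 1) (nat_lit 10) (nat_lit 7) (by decide +kernel)
theorem L73822 : W_25 (nat_lit 3) (nat_lit 0x8007c00220010001c0000000000000000000000000000000) (nat_lit 0x0) (nat_lit 0x8000000000000e00200000000000000000000000000000000) := T_25 (nat_lit 143) (nat_lit 195) (nat_lit 4) (nat_lit 8) (nat_lit 11) L73821 (by decide +kernel)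
theorem L73823 : W_25 (nat_lit 4) (nat_lit 0x8007c00220010000c0000000000000000000000000000000) (nat_lit 0x0) (nat_lit 0x8000000000000e00300008000000000000000000000000000) := T_25 (nat_lit 128) (nat_lit 111) (nat_lit 6) (nat_lit 8) (nat_lit 10) L73822 (by decide +kernel)
theorem L73824 : W_25 (nat_lit 5) (nat_lit 0x8007c0022001000080000000000000000000000000000000) (nat_lit 0x0) (nat_lit 0x8000000000000e0034000a000000000000000000000000000) := T_25 (nat_lit 126) (nat_lit 109) (nat_lit 4) (nat_lit 8) (nat_lit 10) L73823 (by decide +kernel)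
theorem L73825 : W_25 (nat_lit 6) (nat_lit 0x8007c0002001000080000000000000000000000000000000) (nat_lit 0x0) (nat_lit 0x8000000030000e0034000a000000000000000000000000000) := T_25 (nat_lit 161) (nat_lit 160) (nat_lit 2) (nat_lit 4) (nat_lit 10) L73824 (by decide +kernel)
theorem L73826 : W_25 (nat_lit 7) (nat_lit 0x7c0002001000080000000000000000000000000000000) (nat_lit 0x0) (nat_lit 0x8c00000030000e0034000a000000000000000000000000000) := T_25 (nat_lit 191) (nat_lit 190) (nat_lit 1) (nat_lit 7) (nat_lit 10) L73825 (by decide +kernel)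
theorem L73827 : W_25 (nat_lit 8) (nat_lit 0x780002001000080000000000000000000000000000000) (nat_lit 0x0) (nat_lit 0x8c00040031000e0034000a000000000000000000000000000) := T_25 (nat_lit 174) (nat_lit 156) (nat_lit 0) (nat_lit 7) (nat_lit 10) L73826 (by decide +kernel)
theorem L73828 : W_25 (nat_lit 9) (nat_lit 0x780000001000080000000000000000000000000000000) (nat_lit 0x0) (nat_lit 0x8c00040037000e0034000a000000000000000000000000000) := T_25 (nat_lit 157) (nat_lit 158) (nat_lit 0) (nat_lit 8) (nat_lit 10) L73827 (by decide +kernel)
theorem L73829 : W_25 (nat_lit 7) (nat_lit 0x8007c0000001000080000000000000000000000000000000) (nat_lit 0x0) (nat_lit 0x8000000033000e0034000a000000000000000000000000000) := T_25 (nat_lit 157) (nat_lit 156) (nat_lit 0) (nat_lit 7) (nat_lit 10) L73825 (by decide +kernel)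
theorem L73830 : W_25 (nat_lit 8) (nat_lit 0x800780000001000080000000000000000000000000000000) (nat_lit 0x0) (nat_lit 0x8400040033000e0034000a000000000000000000000000000) := T_25 (nat_lit 174) (nat_lit 190) (nat_lit 1) (nat_lit 7) (nat_lit 10) L73829 (by decide +kernel)
theorem L73831 : W_25 (nat_lit 9) (nat_lit 0x780000001000080000000000000000000000000000000) (nat_lit 0x0) (nat_lit 0x9c00040033000e0034000a000000000000000000000000000) := T_25 (nat_lit 191) (nat_lit 192) (nat_lit 1) (nat_lit 8) (nat_lit 10) L73830 (by decide +kernel)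
theorem L73832 : W_25 (nat_lit 2) (nat_lit 0x2000fc001a001000080000000000000000000000000000000) (nat_lit 0x0) (nat_lit 0x40000000000000000800040000000000000000000000000000000) := D_25 (nat_lit 143) (nat_lit 126) (nat_lit 210) (nat_lit 5) (nat_lit 7) (nat_lit 7) (nat_lit 6) (nat_lit 6) (nat_lit 12) (by decide +kernel)
theorem L73833 : W_25 (nat_lit 3) (nat_lit 0xfc001a001000080000000000000000000000000000000) (nat_lit 0x0) (nat_lit 0x40003000000000000800040000000000000000000000000000000) := T_25 (nat_lit 193) (nat_lit 192) (nat_lit 1) (nat_lit 9) (nat_lit 10) L73832 (by decide +kernel)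
theorem L73834 : W_25 (nat_lit 4) (nat_lit 0x7c001a001000080000000000000000000000000000000) (nat_lit 0x0) (nat_lit 0x40003001800000000800040000000000000000000000000000000) := T_25 (nat_lit 179) (nat_lit 180) (nat_lit 0) (nat_lit 10) (nat_lit 10) L73833 (by decide +kernel)
theorem L73835 : W_25 (nat_lit 5) (nat_lit 0x7c0012001000080000000000000000000000000000000) (nat_lit 0x0) (nat_lit 0x40003001820008000800040000000000000000000000000000000) := T_25 (nat_lit 159) (nat_lit 173) (nat_lit 2) (nat_lit 3) (nat_lit 10) L73834 (by decide +kernel)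
theorem L73836 : W_25 (nat_lit 6) (nat_lit 0x7c0002001000080000000000000000000000000000000) (nat_lit 0x0) (nat_lit 0x40003001820038000800040000000000000000000000000000000) := T_25 (nat_lit 160) (nat_lit 161) (nat_lit 2) (nat_lit 4) (nat_lit 10) L73835 (by decide +kernel)
theorem L73837 : W_25 (nat_lit 7) (nat_lit 0x780002001000080000000000000000000000000000000) (nat_lit 0x0) (nat_lit 0x40003001860039000800040000000000000000000000000000000) := T_25 (nat_lit 174) (nat_lit 156) (nat_lit 0) (nat_lit 7) (nat_lit 10) L73836 (by decide +kernel)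
theorem L73838 : W_25 (nat_lit 8) (nat_lit 0x780000001000080000000000000000000000000000000) (nat_lit 0x0) (nat_lit 0x4000300186003f000800040000000000000000000000000000000) := T_25 (nat_lit 157) (nat_lit 158) (nat_lit 0) (nat_lit 8) (nat_lit 10) L73837 (by decide +kernel)
theorem L73847 : W_25 (nat_lit 10) (nat_lit 0x700000001000080000000000000000000000000000000) (nat_lit 0x0) (nat_lit 0x4000600ebc038e03bf000e0034000a000000000000000000000000000) := Q_25 (nat_lit 175) (C_25 L11395 (C_25 L73828 (C_25 L73831 (C_25 L73838 (C_25 L73846 N_25))))) (by decide +kernel)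
theorem L73848 : W_25 (nat_lit 2) (nat_lit 0x88007c0018001000080000000000000000000000000000000) (nat_lit 0x0) (nat_lit 0x1800004000000000000000000000000000000000000000) := D_25 (nat_lit 179) (nat_lit 180) (nat_lit 158) (nat_lit 0) (nat_lit 10) (nat_lit 10) (nat_lit 0) (nat_lit 9) (nat_lit 10) (by decide +kernel)
theorem L73849 : W_25 (nat_lit 3) (nat_lit 0x88007c0010001000080000000000000000000000000000000) (nat_lit 0x0) (nat_lit 0x182000c000000000000000000000000000000000000000) := T_25 (nat_lit 159) (nat_lit 173) (nat_lit 2) (nat_lit 3) (nat_lit 10) L73848 (by decide +kernel)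
theorem L73850 : W_25 (nat_lit 4) (nat_lit 0x88007c0000001000080000000000000000000000000000000) (nat_lit 0x0) (nat_lit 0x182003c000000000000000000000000000000000000000) := T_25 (nat_lit 160) (nat_lit 161) (nat_lit 2) (nat_lit 4) (nat_lit 10) L73849 (by decide +kernel)
theorem L73851 : W_25 (nat_lit 5) (nat_lit 0x8800780000001000080000000000000000000000000000000) (nat_lit 0x0) (nat_lit 0x40186003c000000000000000000000000000000000000000) := T_25 (nat_lit 174) (nat_lit 190) (nat_lit 1) (nat_lit 7) (nat_lit 10) L73850 (by decide +kernel)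
theorem L73852 : W_25 (nat_lit 6) (nat_lit 0x8000780000001000080000000000000000000000000000000) (nat_lit 0x0) (nat_lit 0x1c0186003c000000000000000000000000000000000000000) := T_25 (nat_lit 191) (nat_lit 192) (nat_lit 1) (nat_lit 8) (nat_lit 10) L73851 (by decide +kernel)
theorem L73853 : W_25 (nat_lit 7) (nat_lit 0x780000001000080000000000000000000000000000000) (nat_lit 0x0) (nat_lit 0x19c0186003c000000000000000000000000000000000000000) := T_25 (nat_lit 195) (nat_lit 196) (nat_lit 3) (nat_lit 5) (nat_lit 10) L73852 (by decide +kernel)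
theorem L73854 : W_25 (nat_lit 10) (nat_lit 0x700000001000080000000000000000000000000000000) (nat_lit 0x0) (nat_lit 0x39c018e003f000e0034000a000000000000000000000000000) := Q_25 (nat_lit 175) (C_25 L73818 (C_25 L73831 (C_25 L73147 (C_25 L73853 (C_25 L72815 N_25))))) (by decide +kernel)
theorem L73855 : W_25 (nat_lit 15) (nat_lit 0x300000001000080000000000000000000000000000000) (nat_lit 0x0) (nat_lit 0x20007c003f80fbf03cf03bfc0cfc077e03bf00540008000000000000000000) := Q_25 (nat_lit 178) (C_25 L73819 (C_25 L73820 (C_25 L73695 (C_25 L73807 (C_25 L73847 (C_25 L73854 (C_25 L73064 N_25))))))) (by decide +kernel)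
theorem L73856 : W_25 (nat_lit 2) (nat_lit 0xf00088001000080000000000000000000000000000000) (nat_lit 0x0) (nat_lit 0x1000110000000000000000000000000000000000000000) := D_25 (nat_lit 180) (nat_lit 160) (nat_lit 164) (nat_lit 0) (nat_lit 10) (nat_lit 10) (nat_lit 2) (nat_lit 7) (nat_lit 10) (by decide +kernel)
theorem L73857 : W_25 (nat_lit 3) (nat_lit 0xf00008001000080000000000000000000000000000000) (nat_lit 0x0) (nat_lit 0x10001d0000000000000000000000000000000000000000) := T_25 (nat_lit 163) (nat_lit 162) (nat_lit 2) (nat_lit 6) (nat_lit 10) L73856 (by decide +kernel)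
theorem L73858 : W_25 (nat_lit 4) (nat_lit 0xf00000001000080000000000000000000000000000000) (nat_lit 0x0) (nat_lit 0x10001dc000000000000000000000000000000000000000) := T_25 (nat_lit 159) (nat_lit 158) (nat_lit 0) (nat_lit 9) (nat_lit 10) L73857 (by decide +kernel)
theorem L73859 : W_25 (nat_lit 2) (nat_lit 0x18003f00008001000080000000000000000000000000000000) (nat_lit 0x0) (nat_lit 0x380000000000000000000000000000000000000000) := D_25 (nat_lit 164) (nat_lit 163) (nat_lit 165) (nat_lit 2) (nat_lit 7) (nat_lit 10) (nat_lit 2) (nat_lit 8) (nat_lit 10) (by decide +kernel)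
theorem L73860 : W_25 (nat_lit 3) (nat_lit 0x18001f00008001000080000000000000000000000000000000) (nat_lit 0x0) (nat_lit 0x6000380000000000000000000000000000000000000000) := T_25 (nat_lit 181) (nat_lit 182) (nat_lit 1) (nat_lit 12) (nat_lit 10) L73859 (by decide +kernel)
theorem L73861 : W_25 (nat_lit 4) (nat_lit 0x18000f00008001000080000000000000000000000000000000) (nat_lit 0x0) (nat_lit 0x7000390000000000000000000000000000000000000000) := T_25 (nat_lit 180) (nat_lit 160) (nat_lit 0) (nat_lit 10) (nat_lit 10) L73860 (by decide +kernel)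
theorem L73862 : W_25 (nat_lit 5) (nat_lit 0x10000f00008001000080000000000000000000000000000000) (nat_lit 0x0) (nat_lit 0x8007080390000000000000000000000000000000000000000) := T_25 (nat_lit 195) (nat_lit 175) (nat_lit 3) (nat_lit 5) (nat_lit 10) L73861 (by decide +kernel)
theorem L73863 : W_25 (nat_lit 6) (nat_lit 0xf00008001000080000000000000000000000000000000) (nat_lit 0x0) (nat_lit 0x38007080390000000000000000000000000000000000000000) := T_25 (nat_lit 196) (nat_lit 197) (nat_lit 3) (nat_lit 6) (nat_lit 10) L73862 (by decide +kernel)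
theorem L73864 : W_25 (nat_lit 7) (nat_lit 0xf00000001000080000000000000000000000000000000) (nat_lit 0x0) (nat_lit 0x3800708039c000000000000000000000000000000000000000) := T_25 (nat_lit 159) (nat_lit 158) (nat_lit 0) (nat_lit 9) (nat_lit 10) L73863 (by decide +kernel)
theorem L73865 : W_25 (nat_lit 2) (nat_lit 0x20000f00008001000080000000000000000000000000000000) (nat_lit 0x0) (nat_lit 0x40001000010000000000000000000000000000000000000000) := D_25 (nat_lit 180) (nat_lit 160) (nat_lit 198) (nat_lit 0) (nat_lit 10) (nat_lit 10) (nat_lit 3) (nat_lit 7) (nat_lit 10) (by decide +kernel)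
theorem L73866 : W_25 (nat_lit 3) (nat_lit 0xf00008001000080000000000000000000000000000000) (nat_lit 0x0) (nat_lit 0x70001000010000000000000000000000000000000000000000) := T_25 (nat_lit 197) (nat_lit 196) (nat_lit 3) (nat_lit 6) (nat_lit 10) L73865 (by decide +kernel)
theorem L73867 : W_25 (nat_lit 4) (nat_lit 0xf00000001000080000000000000000000000000000000) (nat_lit 0x0) (nat_lit 0x7000100001c000000000000000000000000000000000000000) := T_25 (nat_lit 159) (nat_lit 158) (nat_lit 0) (nat_lit 9) (nat_lit 10) L73866 (by decide +kernel)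
theorem L73868 : W_25 (nat_lit 8) (nat_lit 0x700000001000080000000000000000000000000000000) (nat_lit 0x0) (nat_lit 0x780078803de000000000000000000000000000000000000000) := Q_25 (nat_lit 179) (C_25 L73737 (C_25 L73858 (C_25 L11432 (C_25 L73864 (C_25 L73867 N_25))))) (by decide +kernel)
theorem L73869 : W_25 (nat_lit 7) (nat_lit 0x700000001000080000000000000000000000000000000) (nat_lit 0x0) (nat_lit 0x8e000e0073800e0034000a000000000000000000000000000) := Q_25 (nat_lit 161) (C_25 L73812 (C_25 L73773 N_25)) (by decide +kernel)
theorem L73870 : W_25 (nat_lit 5) (nat_lit 0x700000001000080000000000000000000000000000000) (nat_lit 0x0) (nat_lit 0x700018001fc000000000000000000000000000000000000000) := Q_25 (nat_lit 179) (C_25 L73867 (C_25 L73737 (C_25 L73858 (C_25 L72811 N_25)))) (by decide +kernel)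
theorem L73871 : W_25 (nat_lit 14) (nat_lit 0x300000001000080000000000000000000000000000000) (nat_lit 0x0) (nat_lit 0x200070003800fae07ce03ff800fc037c03bf00100008000000000000000000) := Q_25 (nat_lit 178) (C_25 L73813 (C_25 L73868 (C_25 L72987 (C_25 L73695 (C_25 L73869 (C_25 L73733 (C_25 L73870 N_25))))))) (by decide +kernel)
theorem L73872 : W_25 (nat_lit 14) (nat_lit 0x300000001000080000000000000000000000000000000) (nat_lit 0x0) (nat_lit 0x8000400fbc07cc03fe000e0034000a000000000000000000000000000) := Q_25 (nat_lit 178) (C_25 L73814 (C_25 L73868 (C_25 L73870 (C_25 L73775 (C_25 L73807 N_25))))) (by decide +kernel)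
theorem L73873 : W_25 (nat_lit 11) (nat_lit 0x300000001000080000000000000000000000000000000) (nat_lit 0x0) (nat_lit 0x79e07ce03ff800e0034000a000000000000000000000000000) := Q_25 (nat_lit 178) (C_25 L73869 (C_25 L73868 (C_25 L73870 (C_25 L72987 (C_25 L73854 N_25))))) (by decide +kernel)
theorem L73874 : W_25 (nat_lit 14) (nat_lit 0x300000001000080000000000000000000000000000000) (nat_lit 0x0) (nat_lit 0x10003e007c003e00fbc03cc03fc000e0034000a000000000000000000000000000) := Q_25 (nat_lit 178) (C_25 L73814 (C_25 L73590 (C_25 L73870 (C_25 L73775 (C_25 L73807 N_25))))) (by decide +kernel)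
theorem L73875 : W_25 (nat_lit 18) (nat_lit 0x200000001000080000000000000000000000000000000) (nat_lit 0x0) (nat_lit 0x1000be017fc0bfe0fbf87df87ffe0cff077f07bfc07f001c000000000000000000) := Q_25 (nat_lit 176) (C_25 L72773 (C_25 L72895 (C_25 L72989 (C_25 L73072 (C_25 L73080 (C_25 L73142 (C_25 L73543 (C_25 L73734 (C_25 L73815 (C_25 L73855 (C_25 L73871 (C_25 L73872 (C_25 L73873 (C_25 L73874 N_25)))))))))))))) (by decide +kernel)
theorem L74407 : W_25 (nat_lit 6) (nat_lit 0x300000001c00080000000000000000000000000000000) (nat_lit 0x0) (nat_lit 0xa0007c00c8000c000000078003800040000000000000000000000) := Q_25 (nat_lit 159) (C_25 L12498 (C_25 L12505 (C_25 L12515 (C_25 L12652 N_25)))) (by decide +kernel)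
theorem L74408 : W_25 (nat_lit 7) (nat_lit 0x300000001800080000000000000000000000000000000) (nat_lit 0x0) (nat_lit 0xa0007c00c8000f00070017c003800040000000000000000000000) := Q_25 (nat_lit 142) (C_25 L74407 (C_25 L12492 (C_25 L12496 (C_25 L12519 N_25)))) (by decide +kernel)
theorem L74409 : W_25 (nat_lit 5) (nat_lit 0x7000100018000f0000800000000000000000000000000) (nat_lit 0x0) (nat_lit 0x700700038000000000000000000000000000) := T_25 (nat_lit 141) (nat_lit 140) (nat_lit 1) (nat_lit 8) (nat_lit 7) L67145 (by decide +kernel)
theorem L74410 : W_25 (nat_lit 6) (nat_lit 0x7000100018000f0000000000000000000000000000000) (nat_lit 0x0) (nat_lit 0x700700038c00000000000000000000000000) := T_25 (nat_lit 107) (nat_lit 106) (nat_lit 0) (nat_lit 8) (nat_lit 7) L74409 (by decide +kernel)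
theorem L74411 : W_25 (nat_lit 7) (nat_lit 0x3000100018000f0000000000000000000000000000000) (nat_lit 0x0) (nat_lit 0x8000400000000700700038c00000000000000000000000000) := T_25 (nat_lit 178) (nat_lit 195) (nat_lit 7) (nat_lit 7) (nat_lit 7) L74410 (by decide +kernel)
theorem L74412 : W_25 (nat_lit 8) (nat_lit 0x3000100018000e0000000000000000000000000000000) (nat_lit 0x0) (nat_lit 0x8000400000000700718038c00000000000000000000000000) := T_25 (nat_lit 124) (nat_lit 123) (nat_lit 3) (nat_lit 4) (nat_lit 7) L74411 (by decide +kernel)
theorem L74413 : W_25 (nat_lit 9) (nat_lit 0x3000100018000c0000000000000000000000000000000) (nat_lit 0x0) (nat_lit 0x8000400000000700738039c00000000000000000000000000) := T_25 (nat_lit 125) (nat_lit 108) (nat_lit 4) (nat_lit 7) (nat_lit 10) L74412 (by decide +kernel)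
theorem L74414 : W_25 (nat_lit 10) (nat_lit 0x300010001800080000000000000000000000000000000) (nat_lit 0x0) (nat_lit 0xa000400000000700778039c00000000000000000000000000) := T_25 (nat_lit 126) (nat_lit 193) (nat_lit 5) (nat_lit 7) (nat_lit 7) L74413 (by decide +kernel)
theorem L74415 : W_25 (nat_lit 11) (nat_lit 0x300000001800080000000000000000000000000000000) (nat_lit 0x0) (nat_lit 0xe000400010000700778039c00000000000000000000000000) := T_25 (nat_lit 160) (nat_lit 194) (nat_lit 6) (nat_lit 7) (nat_lit 11) L74414 (by decide +kernel)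
theorem L74416 : W_25 (nat_lit 2) (nat_lit 0x7000180018000e8000000000000000000000000000000) (nat_lit 0x0) (nat_lit 0x800006000000000000000000000000000000000000000) := D_25 (nat_lit 158) (nat_lit 157) (nat_lit 179) (nat_lit 3) (nat_lit 4) (nat_lit 9) (nat_lit 0) (nat_lit 9) (nat_lit 10) (by decide +kernel)
theorem L74417 : W_25 (nat_lit 3) (nat_lit 0x7000100018000e8000000000000000000000000000000) (nat_lit 0x0) (nat_lit 0x80000e000000000002000000000000000000000000000) := T_25 (nat_lit 159) (nat_lit 109) (nat_lit 5) (nat_lit 7) (nat_lit 6) L74416 (by decide +kernel)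
theorem L74418 : W_25 (nat_lit 4) (nat_lit 0x3000100018000e8000000000000000000000000000000) (nat_lit 0x0) (nat_lit 0x8000c0000e000000000002000000000000000000000000000) := T_25 (nat_lit 178) (nat_lit 195) (nat_lit 7) (nat_lit 7) (nat_lit 7) L74417 (by decide +kernel)
theorem L74419 : W_25 (nat_lit 5) (nat_lit 0x3000100018000e0000000000000000000000000000000) (nat_lit 0x0) (nat_lit 0x8000c0000e000000018002000000000000000000000000000) := T_25 (nat_lit 123) (nat_lit 124) (nat_lit 3) (nat_lit 4) (nat_lit 7) L74418 (by decide +kernel)
theorem L74420 : W_25 (nat_lit 6) (nat_lit 0x3000000018000e0000000000000000000000000000000) (nat_lit 0x0) (nat_lit 0x8000c0001e000000018003000000000000000000000000000) := T_25 (nat_lit 160) (nat_lit 108) (nat_lit 4) (nat_lit 7) (nat_lit 10) L74419 (by decide +kernel)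
theorem L74421 : W_25 (nat_lit 2) (nat_lit 0x7000180018000e0000000000000000000000000000000) (nat_lit 0x0) (nat_lit 0x800006000000000000000000000000000000000000000) := D_25 (nat_lit 158) (nat_lit 157) (nat_lit 179) (nat_lit 3) (nat_lit 4) (nat_lit 9) (nat_lit 0) (nat_lit 9) (nat_lit 10) (by decide +kernel)
theorem L74422 : W_25 (nat_lit 3) (nat_lit 0x3000180018000e0000000000000000000000000000000) (nat_lit 0x0) (nat_lit 0x8000c00006000000000000000000000000000000000000000) := T_25 (nat_lit 178) (nat_lit 195) (nat_lit 7) (nat_lit 7) (nat_lit 7) L74421 (by decide +kernel)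
theorem L74423 : W_25 (nat_lit 4) (nat_lit 0x3000100018000e0000000000000000000000000000000) (nat_lit 0x0) (nat_lit 0x8000c0000e000000000002000000000000000000000000000) := T_25 (nat_lit 159) (nat_lit 109) (nat_lit 5) (nat_lit 7) (nat_lit 6) L74422 (by decide +kernel)
theorem L74424 : W_25 (nat_lit 5) (nat_lit 0x3000000018000e0000000000000000000000000000000) (nat_lit 0x0) (nat_lit 0x8000c0001e000000000003000000000000000000000000000) := T_25 (nat_lit 160) (nat_lit 108) (nat_lit 4) (nat_lit 7) (nat_lit 10) L74423 (by decide +kernel)
theorem L74425 : W_25 (nat_lit 7) (nat_lit 0x3000000018000a0000000000000000000000000000000) (nat_lit 0x0) (nat_lit 0x8000c0001e000700358003c00000000000000000000000000) := Q_25 (nat_lit 126) (C_25 L74090 (C_25 L74420 (C_25 L74086 (C_25 L74424 N_25)))) (by decide +kernel)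
theorem L74426 : W_25 (nat_lit 5) (nat_lit 0x3000100018000a0000000000000000000000000000000) (nat_lit 0x0) (nat_lit 0x8000c0000e000000040003000000000000000000000000000) := T_25 (nat_lit 126) (nat_lit 108) (nat_lit 4) (nat_lit 7) (nat_lit 10) L74423 (by decide +kernel)
theorem L74427 : W_25 (nat_lit 6) (nat_lit 0x3000000018000a0000000000000000000000000000000) (nat_lit 0x0) (nat_lit 0xc000c0001e000000040003000000000000000000000000000) := T_25 (nat_lit 160) (nat_lit 194) (nat_lit 6) (nat_lit 7) (nat_lit 11) L74426 (by decide +kernel)
theorem L74428 : W_25 (nat_lit 9) (nat_lit 0x3000100018000a0000000000000000000000000000000) (nat_lit 0x0) (nat_lit 0x8000400000000700758039c00000000000000000000000000) := T_25 (nat_lit 126) (nat_lit 108) (nat_lit 4) (nat_lit 7) (nat_lit 10) L74412 (by decide +kernel)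
theorem L74429 : W_25 (nat_lit 10) (nat_lit 0x3000000018000a0000000000000000000000000000000) (nat_lit 0x0) (nat_lit 0xc000400010000700758039c00000000000000000000000000) := T_25 (nat_lit 160) (nat_lit 194) (nat_lit 6) (nat_lit 7) (nat_lit 11) L74428 (by decide +kernel)
theorem L74430 : W_25 (nat_lit 6) (nat_lit 0x3000000018000a0000000000000000000000000000000) (nat_lit 0x0) (nat_lit 0x500008000f000700158003800040000000000000000000000) := Q_25 (nat_lit 142) (C_25 L74072 (C_25 L12598 (C_25 L14328 N_25))) (by decide +kernel)
theorem L74431 : W_25 (nat_lit 11) (nat_lit 0x300000001800080000000000000000000000000000000) (nat_lit 0x0) (nat_lit 0xd000c8001f00070077803bc00040000000000000000000000) := Q_25 (nat_lit 125) (C_25 L74425 (C_25 L74427 (C_25 L74080 (C_25 L74429 (C_25 L74430 (C_25 L74125 N_25)))))) (by decide +kernel)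
theorem L74432 : W_25 (nat_lit 4) (nat_lit 0x300004001e00080000000000000000000000000000000) (nat_lit 0x0) (nat_lit 0x4000000018000000038000800000000000000000000000000) := T_25 (nat_lit 124) (nat_lit 123) (nat_lit 0) (nat_lit 8) (nat_lit 8) L40403 (by decide +kernel)
theorem L74433 : W_25 (nat_lit 5) (nat_lit 0x300000001e00080000000000000000000000000000000) (nat_lit 0x0) (nat_lit 0x400000001e000000038000800000000000000000000000000) := T_25 (nat_lit 158) (nat_lit 157) (nat_lit 1) (nat_lit 8) (nat_lit 8) L74432 (by decide +kernel)
theorem L74434 : W_25 (nat_lit 6) (nat_lit 0x300000001c00080000000000000000000000000000000) (nat_lit 0x0) (nat_lit 0x400000001e000200138000800000000000000000000000000) := T_25 (nat_lit 141) (nat_lit 128) (nat_lit 2) (nat_lit 5) (nat_lit 8) L74433 (by decide +kernel)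
theorem L74435 : W_25 (nat_lit 8) (nat_lit 0x300000001800080000000000000000000000000000000) (nat_lit 0x0) (nat_lit 0x100008000700008001e000600138001800000000000000000000000000) := Q_25 (nat_lit 142) (C_25 L12496 (C_25 L12643 (C_25 L12636 (C_25 L74434 N_25)))) (by decide +kernel)
theorem L74436 : W_25 (nat_lit 10) (nat_lit 0x3000000018000c0000000000000000000000000000000) (nat_lit 0x0) (nat_lit 0xa000400010000700738039c00000000000000000000000000) := T_25 (nat_lit 160) (nat_lit 193) (nat_lit 5) (nat_lit 7) (nat_lit 7) L74413 (by decide +kernel)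
theorem L74437 : W_25 (nat_lit 6) (nat_lit 0x3000000018000c0000000000000000000000000000000) (nat_lit 0x0) (nat_lit 0x8000c0001e000700338003c00000000000000000000000000) := Q_25 (nat_lit 125) (C_25 L74086 (C_25 L74424 (C_25 L74090 N_25))) (by decide +kernel)
theorem L74438 : W_25 (nat_lit 6) (nat_lit 0x3000000018000c0000000000000000000000000000000) (nat_lit 0x0) (nat_lit 0x200008000e000700338002000100000000000000000000000) := Q_25 (nat_lit 142) (C_25 L12559 (C_25 L12563 (C_25 L12566 N_25))) (by decide +kernel)
theorem L74439 : W_25 (nat_lit 11) (nat_lit 0x300000001800080000000000000000000000000000000) (nat_lit 0x0) (nat_lit 0xa000c8001e00070077803bc0018000c000000000000000000) := Q_25 (nat_lit 126) (C_25 L12558 (C_25 L74436 (C_25 L74437 (C_25 L74438 N_25)))) (by decide +kernel)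
theorem L74440 : W_25 (nat_lit 5) (nat_lit 0x300010001800080000000000000000000000000000000) (nat_lit 0x0) (nat_lit 0xa000c0000e000000040002000000000000000000000000000) := T_25 (nat_lit 126) (nat_lit 193) (nat_lit 5) (nat_lit 7) (nat_lit 7) L65958 (by decide +kernel)
theorem L74441 : W_25 (nat_lit 6) (nat_lit 0x300000001800080000000000000000000000000000000) (nat_lit 0x0) (nat_lit 0xe000c0001e000000040002000000000000000000000000000) := T_25 (nat_lit 160) (nat_lit 194) (nat_lit 6) (nat_lit 7) (nat_lit 11) L74440 (by decide +kernel)
theorem L74442 : W_25 (nat_lit 12) (nat_lit 0x300000001000080000000000000000000000000000000) (nat_lit 0x0) (nat_lit 0x10000a000fc00c8001f000f0077c03bc001c000c000000000000000000) := Q_25 (nat_lit 143) (C_25 L74408 (C_25 L74027 (C_25 L74415 (C_25 L74431 (C_25 L74435 (C_25 L12630 (C_25 L74439 (C_25 L74441 N_25)))))))) (by decide +kernel)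
theorem L74445 : W_25 (nat_lit 4) (nat_lit 0x780004001000080000000000000000000000000000000) (nat_lit 0x0) (nat_lit 0x800040003800800000000200000000000000000000000000000000000) := T_25 (nat_lit 192) (nat_lit 191) (nat_lit 1) (nat_lit 8) (nat_lit 10) L74444 (by decide +kernel)
theorem L74446 : W_25 (nat_lit 5) (nat_lit 0x780000001000080000000000000000000000000000000) (nat_lit 0x0) (nat_lit 0x800040003800800006000200000000000000000000000000000000000) := T_25 (nat_lit 158) (nat_lit 157) (nat_lit 0) (nat_lit 8) (nat_lit 10) L74445 (by decide +kernel)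
theorem L74451 : W_25 (nat_lit 2) (nat_lit 0x48007e0004001000080000000000000000000000000000000) (nat_lit 0x0) (nat_lit 0x10018000000000000000000000000000000000000000) := D_25 (nat_lit 159) (nat_lit 160) (nat_lit 172) (nat_lit 2) (nat_lit 3) (nat_lit 10) (nat_lit 2) (nat_lit 2) (nat_lit 10) (by decide +kernel)
theorem L74452 : W_25 (nat_lit 3) (nat_lit 0x48007c0004001000080000000000000000000000000000000) (nat_lit 0x0) (nat_lit 0x2000030018000000000000000000000000000000000000000) := T_25 (nat_lit 173) (nat_lit 193) (nat_lit 3) (nat_lit 3) (nat_lit 10) L74451 (by decide +kernel)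
theorem L74453 : W_25 (nat_lit 4) (nat_lit 0x8007c0004001000080000000000000000000000000000000) (nat_lit 0x0) (nat_lit 0xe000030018000000000000000000000000000000000000000) := T_25 (nat_lit 194) (nat_lit 195) (nat_lit 3) (nat_lit 4) (nat_lit 10) L74452 (by decide +kernel)
theorem L74454 : W_25 (nat_lit 5) (nat_lit 0x800780004001000080000000000000000000000000000000) (nat_lit 0x0) (nat_lit 0xe400070018000000000000000000000000000000000000000) := T_25 (nat_lit 174) (nat_lit 190) (nat_lit 1) (nat_lit 7) (nat_lit 10) L74453 (by decide +kernel)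
theorem L74455 : W_25 (nat_lit 6) (nat_lit 0x780004001000080000000000000000000000000000000) (nat_lit 0x0) (nat_lit 0xfc00070018000000000000000000000000000000000000000) := T_25 (nat_lit 191) (nat_lit 192) (nat_lit 1) (nat_lit 8) (nat_lit 10) L74454 (by decide +kernel)
theorem L74456 : W_25 (nat_lit 7) (nat_lit 0x780000001000080000000000000000000000000000000) (nat_lit 0x0) (nat_lit 0xfc0007001e000000000000000000000000000000000000000) := T_25 (nat_lit 158) (nat_lit 157) (nat_lit 0) (nat_lit 8) (nat_lit 10) L74455 (by decide +kernel)
theorem L74457 : W_25 (nat_lit 2) (nat_lit 0x400000001000fc0058001400080000000000000000000000000000000) (nat_lit 0x0) (nat_lit 0x8000c000000000000000000000000000000000000000000000000) := D_25 (nat_lit 194) (nat_lit 211) (nat_lit 195) (nat_lit 4) (nat_lit 7) (nat_lit 12) (nat_lit 3) (nat_lit 4) (nat_lit 10) (by decide +kernel)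
theorem L74458 : W_25 (nat_lit 3) (nat_lit 0x400000001000f80058001400080000000000000000000000000000000) (nat_lit 0x0) (nat_lit 0x8000c000060000000000000000000000000000000000000000000) := T_25 (nat_lit 174) (nat_lit 173) (nat_lit 2) (nat_lit 3) (nat_lit 10) L74457 (by decide +kernel)
theorem L74459 : W_25 (nat_lit 4) (nat_lit 0x400000001000f80048001400080000000000000000000000000000000) (nat_lit 0x0) (nat_lit 0x8000c001060010000000000000000000000000000000000000000) := T_25 (nat_lit 160) (nat_lit 180) (nat_lit 0) (nat_lit 10) (nat_lit 10) L74458 (by decide +kernel)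
theorem L74460 : W_25 (nat_lit 5) (nat_lit 0x400000001000f80048001000080000000000000000000000000000000) (nat_lit 0x0) (nat_lit 0x8000c001060010000400020000000000000000000000000000000) := T_25 (nat_lit 142) (nat_lit 125) (nat_lit 5) (nat_lit 6) (nat_lit 7) L74459 (by decide +kernel)
theorem L74461 : W_25 (nat_lit 6) (nat_lit 0x1000f80048001000080000000000000000000000000000000) (nat_lit 0x0) (nat_lit 0x4000a000c001060010000400020000000000000000000000000000000) := T_25 (nat_lit 226) (nat_lit 209) (nat_lit 6) (nat_lit 5) (nat_lit 13) L74460 (by decide +kernel)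
theorem L74462 : W_25 (nat_lit 7) (nat_lit 0x1000f80008001000080000000000000000000000000000000) (nat_lit 0x0) (nat_lit 0x4000a000c0010600d0000400020000000000000000000000000000000) := T_25 (nat_lit 162) (nat_lit 163) (nat_lit 2) (nat_lit 6) (nat_lit 10) L74461 (by decide +kernel)
theorem L74463 : W_25 (nat_lit 8) (nat_lit 0x1000f80000001000080000000000000000000000000000000) (nat_lit 0x0) (nat_lit 0x4000a000c0010600dc000400020000000000000000000000000000000) := T_25 (nat_lit 159) (nat_lit 158) (nat_lit 0) (nat_lit 9) (nat_lit 10) L74462 (by decide +kernel)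
theorem L74464 : W_25 (nat_lit 9) (nat_lit 0x1000780000001000080000000000000000000000000000000) (nat_lit 0x0) (nat_lit 0x4000a000e0018600dc000400020000000000000000000000000000000) := T_25 (nat_lit 179) (nat_lit 193) (nat_lit 1) (nat_lit 9) (nat_lit 10) L74463 (by decide +kernel)
theorem L74465 : W_25 (nat_lit 10) (nat_lit 0x780000001000080000000000000000000000000000000) (nat_lit 0x0) (nat_lit 0x4000a000f8018600dc000400020000000000000000000000000000000) := T_25 (nat_lit 192) (nat_lit 191) (nat_lit 1) (nat_lit 8) (nat_lit 10) L74464 (by decide +kernel)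
theorem L74466 : W_25 (nat_lit 11) (nat_lit 0x700000001000080000000000000000000000000000000) (nat_lit 0x0) (nat_lit 0xc000e000fc038f01df800600020000000000000000000000000000000) := Q_25 (nat_lit 175) (C_25 L11395 (C_25 L74446 (C_25 L74450 (C_25 L11392 (C_25 L74456 (C_25 L11400 (C_25 L74465 N_25))))))) (by decide +kernel)
theorem L74467 : W_25 (nat_lit 2) (nat_lit 0x10007800240010001c0000000000000000000000000000000) (nat_lit 0x0) (nat_lit 0x2000800008000000000000000000000000000000000000000) := D_25 (nat_lit 179) (nat_lit 193) (nat_lit 159) (nat_lit 1) (nat_lit 9) (nat_lit 10) (nat_lit 0) (nat_lit 9) (nat_lit 10) (by decide +kernel)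
theorem L74468 : W_25 (nat_lit 3) (nat_lit 0x10007800200010001c0000000000000000000000000000000) (nat_lit 0x0) (nat_lit 0x200080000e000000000000000000000000000000000000000) := T_25 (nat_lit 158) (nat_lit 157) (nat_lit 0) (nat_lit 8) (nat_lit 10) L74467 (by decide +kernel)
theorem L74469 : W_25 (nat_lit 4) (nat_lit 0x7800200010001c0000000000000000000000000000000) (nat_lit 0x0) (nat_lit 0x380080000e000000000000000000000000000000000000000) := T_25 (nat_lit 192) (nat_lit 191) (nat_lit 1) (nat_lit 8) (nat_lit 10) L74468 (by decide +kernel)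
theorem L74470 : W_25 (nat_lit 5) (nat_lit 0x7000200010001c0000000000000000000000000000000) (nat_lit 0x0) (nat_lit 0x380088004e000000000000000000000000000000000000000) := T_25 (nat_lit 175) (nat_lit 162) (nat_lit 2) (nat_lit 5) (nat_lit 10) L74469 (by decide +kernel)
theorem L74471 : W_25 (nat_lit 6) (nat_lit 0x7000200010000c0000000000000000000000000000000) (nat_lit 0x0) (nat_lit 0x380088004e000000100008000000000000000000000000000) := T_25 (nat_lit 128) (nat_lit 111) (nat_lit 6) (nat_lit 8) (nat_lit 10) L74470 (by decide +kernel)
theorem L74472 : W_25 (nat_lit 7) (nat_lit 0x700020001000080000000000000000000000000000000) (nat_lit 0x0) (nat_lit 0x380088004e00000014000a000000000000000000000000000) := T_25 (nat_lit 126) (nat_lit 109) (nat_lit 4) (nat_lit 8) (nat_lit 10) L74471 (by decide +kernel)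
theorem L74473 : W_25 (nat_lit 8) (nat_lit 0x700000001000080000000000000000000000000000000) (nat_lit 0x0) (nat_lit 0x780088006e00000014000a000000000000000000000000000) := T_25 (nat_lit 161) (nat_lit 194) (nat_lit 5) (nat_lit 8) (nat_lit 7) L74472 (by decide +kernel)
theorem L74474 : W_25 (nat_lit 7) (nat_lit 0x2000f00040001000080000000000000000000000000000000) (nat_lit 0x0) (nat_lit 0xe000700073c000000000000000000000000000000000000000) := T_25 (nat_lit 159) (nat_lit 158) (nat_lit 0) (nat_lit 9) (nat_lit 10) L72859 (by decide +kernel)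
theorem L74475 : W_25 (nat_lit 8) (nat_lit 0xf00040001000080000000000000000000000000000000) (nat_lit 0x0) (nat_lit 0xe300700073c000000000000000000000000000000000000000) := T_25 (nat_lit 193) (nat_lit 192) (nat_lit 1) (nat_lit 9) (nat_lit 10) L74474 (by decide +kernel)
theorem L74476 : W_25 (nat_lit 9) (nat_lit 0xf00000001000080000000000000000000000000000000) (nat_lit 0x0) (nat_lit 0xe30070007fc000000000000000000000000000000000000000) := T_25 (nat_lit 162) (nat_lit 163) (nat_lit 2) (nat_lit 6) (nat_lit 10) L74475 (by decide +kernel)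
theorem L74477 : W_25 (nat_lit 2) (nat_lit 0x2003f000a00010001c0000000000000000000000000000000) (nat_lit 0x0) (nat_lit 0xe0000000000000000000000000000000000000000000000000) := D_25 (nat_lit 198) (nat_lit 197) (nat_lit 199) (nat_lit 3) (nat_lit 7) (nat_lit 10) (nat_lit 3) (nat_lit 8) (nat_lit 10) (by decide +kernel)
theorem L74478 : W_25 (nat_lit 3) (nat_lit 0x2001f000a00010001c0000000000000000000000000000000) (nat_lit 0x0) (nat_lit 0xe0002000010000000000000000000000000000000000000000) := T_25 (nat_lit 181) (nat_lit 160) (nat_lit 0) (nat_lit 11) (nat_lit 10) L74477 (by decide +kernel)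
theorem L74479 : W_25 (nat_lit 4) (nat_lit 0x2000f000a00010001c0000000000000000000000000000000) (nat_lit 0x0) (nat_lit 0xe0003000110000000000000000000000000000000000000000) := T_25 (nat_lit 180) (nat_lit 164) (nat_lit 2) (nat_lit 7) (nat_lit 10) L74478 (by decide +kernel)
theorem L74480 : W_25 (nat_lit 5) (nat_lit 0xf000a00010001c0000000000000000000000000000000) (nat_lit 0x0) (nat_lit 0xe3003000110000000000000000000000000000000000000000) := T_25 (nat_lit 193) (nat_lit 192) (nat_lit 1) (nat_lit 9) (nat_lit 10) L74479 (by decide +kernel)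
theorem L74481 : W_25 (nat_lit 6) (nat_lit 0xf000200010001c0000000000000000000000000000000) (nat_lit 0x0) (nat_lit 0xe30030001d0000000000000000000000000000000000000000) := T_25 (nat_lit 163) (nat_lit 162) (nat_lit 2) (nat_lit 6) (nat_lit 10) L74480 (by decide +kernel)
theorem L74482 : W_25 (nat_lit 7) (nat_lit 0xf000200010000c0000000000000000000000000000000) (nat_lit 0x0) (nat_lit 0xe30030001d0000000100008000000000000000000000000000) := T_25 (nat_lit 128) (nat_lit 111) (nat_lit 6) (nat_lit 8) (nat_lit 10) L74481 (by decide +kernel)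
theorem L74483 : W_25 (nat_lit 8) (nat_lit 0xf00020001000080000000000000000000000000000000) (nat_lit 0x0) (nat_lit 0xe30030001d000000014000a000000000000000000000000000) := T_25 (nat_lit 126) (nat_lit 109) (nat_lit 4) (nat_lit 8) (nat_lit 10) L74482 (by decide +kernel)
theorem L74484 : W_25 (nat_lit 9) (nat_lit 0xf00000001000080000000000000000000000000000000) (nat_lit 0x0) (nat_lit 0xe70030001f000000014000a000000000000000000000000000) := T_25 (nat_lit 161) (nat_lit 194) (nat_lit 5) (nat_lit 8) (nat_lit 7) L74483 (by decide +kernel)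
theorem L74485 : W_25 (nat_lit 6) (nat_lit 0xf000600010000c0000000000000000000000000000000) (nat_lit 0x0) (nat_lit 0xe000700001c000000100008000000000000000000000000000) := T_25 (nat_lit 128) (nat_lit 111) (nat_lit 6) (nat_lit 8) (nat_lit 10) L67384 (by decide +kernel)
theorem L74486 : W_25 (nat_lit 7) (nat_lit 0xf00060001000080000000000000000000000000000000) (nat_lit 0x0) (nat_lit 0xe000700001c00000014000a000000000000000000000000000) := T_25 (nat_lit 126) (nat_lit 109) (nat_lit 4) (nat_lit 8) (nat_lit 10) L74485 (by decide +kernel)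
theorem L74487 : W_25 (nat_lit 8) (nat_lit 0xf00040001000080000000000000000000000000000000) (nat_lit 0x0) (nat_lit 0xe400700003c00000014000a000000000000000000000000000) := T_25 (nat_lit 161) (nat_lit 194) (nat_lit 5) (nat_lit 8) (nat_lit 7) L74486 (by decide +kernel)
theorem L74488 : W_25 (nat_lit 9) (nat_lit 0xf00000001000080000000000000000000000000000000) (nat_lit 0x0) (nat_lit 0xe40070000fc00000014000a000000000000000000000000000) := T_25 (nat_lit 162) (nat_lit 163) (nat_lit 2) (nat_lit 6) (nat_lit 10) L74487 (by decide +kernel)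
theorem L74489 : W_25 (nat_lit 2) (nat_lit 0x2000f00008001000080000000000000000000000000000000) (nat_lit 0x0) (nat_lit 0x4001000020000000000000000000000000000000000000000) := D_25 (nat_lit 194) (nat_lit 161) (nat_lit 180) (nat_lit 5) (nat_lit 8) (nat_lit 7) (nat_lit 1) (nat_lit 10) (nat_lit 10) (by decide +kernel)
theorem L74490 : W_25 (nat_lit 3) (nat_lit 0xf00008001000080000000000000000000000000000000) (nat_lit 0x0) (nat_lit 0x7001000020000000000000000000000000000000000000000) := T_25 (nat_lit 193) (nat_lit 192) (nat_lit 1) (nat_lit 9) (nat_lit 10) L74489 (by decide +kernel)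
theorem L74491 : W_25 (nat_lit 4) (nat_lit 0xf00000001000080000000000000000000000000000000) (nat_lit 0x0) (nat_lit 0x700100002c000000000000000000000000000000000000000) := T_25 (nat_lit 159) (nat_lit 158) (nat_lit 0) (nat_lit 9) (nat_lit 10) L74490 (by decide +kernel)
theorem L74492 : W_25 (nat_lit 2) (nat_lit 0x2000f00048001000080000000000000000000000000000000) (nat_lit 0x0) (nat_lit 0x4001000010000000000000000000000000000000000000000) := D_25 (nat_lit 180) (nat_lit 194) (nat_lit 160) (nat_lit 1) (nat_lit 10) (nat_lit 10) (nat_lit 0) (nat_lit 10) (nat_lit 10) (by decide +kernel)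
theorem L74493 : W_25 (nat_lit 3) (nat_lit 0x2000f00040001000080000000000000000000000000000000) (nat_lit 0x0) (nat_lit 0x400100001c000000000000000000000000000000000000000) := T_25 (nat_lit 159) (nat_lit 158) (nat_lit 0) (nat_lit 9) (nat_lit 10) L74492 (by decide +kernel)
theorem L74494 : W_25 (nat_lit 4) (nat_lit 0xf00040001000080000000000000000000000000000000) (nat_lit 0x0) (nat_lit 0x700100001c000000000000000000000000000000000000000) := T_25 (nat_lit 193) (nat_lit 192) (nat_lit 1) (nat_lit 9) (nat_lit 10) L74493 (by decide +kernel)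
theorem L74495 : W_25 (nat_lit 5) (nat_lit 0xf00000001000080000000000000000000000000000000) (nat_lit 0x0) (nat_lit 0x70010000dc000000000000000000000000000000000000000) := T_25 (nat_lit 162) (nat_lit 163) (nat_lit 2) (nat_lit 6) (nat_lit 10) L74494 (by decide +kernel)
theorem L74498 : W_25 (nat_lit 4) (nat_lit 0x6000f00000001000080000000000000000000000000000000) (nat_lit 0x0) (nat_lit 0x10000800000000000cc000400000000000000000000000000000000000) := T_25 (nat_lit 162) (nat_lit 163) (nat_lit 2) (nat_lit 6) (nat_lit 10) L74497 (by decide +kernel)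
theorem L74499 : W_25 (nat_lit 5) (nat_lit 0x2000f00000001000080000000000000000000000000000000) (nat_lit 0x0) (nat_lit 0x10000800040000000ec000400000000000000000000000000000000000) := T_25 (nat_lit 194) (nat_lit 161) (nat_lit 5) (nat_lit 8) (nat_lit 7) L74498 (by decide +kernel)
theorem L74500 : W_25 (nat_lit 6) (nat_lit 0xf00000001000080000000000000000000000000000000) (nat_lit 0x0) (nat_lit 0x10000800070000000ec000400000000000000000000000000000000000) := T_25 (nat_lit 193) (nat_lit 192) (nat_lit 1) (nat_lit 9) (nat_lit 10) L74499 (by decide +kernel)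
theorem L74501 : W_25 (nat_lit 10) (nat_lit 0x700000001000080000000000000000000000000000000) (nat_lit 0x0) (nat_lit 0x10000800e70078007fc00040014000a000000000000000000000000000) := Q_25 (nat_lit 179) (C_25 L74476 (C_25 L74484 (C_25 L74488 (C_25 L74491 (C_25 L74495 (C_25 L74500 N_25)))))) (by decide +kernel)
theorem L74502 : W_25 (nat_lit 2) (nat_lit 0x4007e00240010000c0000000000000000000000000000000) (nat_lit 0x0) (nat_lit 0x810008000000000000000000000000000000000000000) := D_25 (nat_lit 159) (nat_lit 179) (nat_lit 172) (nat_lit 0) (nat_lit 9) (nat_lit 10) (nat_lit 2) (nat_lit 2) (nat_lit 10) (by decide +kernel)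
theorem L74503 : W_25 (nat_lit 3) (nat_lit 0x4007c00240010000c0000000000000000000000000000000) (nat_lit 0x0) (nat_lit 0x200830008000000000000000000000000000000000000000) := T_25 (nat_lit 173) (nat_lit 189) (nat_lit 1) (nat_lit 6) (nat_lit 10) L74502 (by decide +kernel)
theorem L74504 : W_25 (nat_lit 4) (nat_lit 0x4007c0024001000080000000000000000000000000000000) (nat_lit 0x0) (nat_lit 0x200830008000000040002000000000000000000000000000) := T_25 (nat_lit 126) (nat_lit 109) (nat_lit 4) (nat_lit 8) (nat_lit 10) L74503 (by decide +kernel)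
theorem L74505 : W_25 (nat_lit 5) (nat_lit 0x7c0024001000080000000000000000000000000000000) (nat_lit 0x0) (nat_lit 0xe00830008000000040002000000000000000000000000000) := T_25 (nat_lit 190) (nat_lit 191) (nat_lit 1) (nat_lit 7) (nat_lit 10) L74504 (by decide +kernel)
theorem L74506 : W_25 (nat_lit 6) (nat_lit 0x780024001000080000000000000000000000000000000) (nat_lit 0x0) (nat_lit 0xe00870018000000040002000000000000000000000000000) := T_25 (nat_lit 174) (nat_lit 160) (nat_lit 2) (nat_lit 4) (nat_lit 10) L74505 (by decide +kernel)
theorem L74507 : W_25 (nat_lit 7) (nat_lit 0x780004001000080000000000000000000000000000000) (nat_lit 0x0) (nat_lit 0xe00870078000000040002000000000000000000000000000) := T_25 (nat_lit 161) (nat_lit 162) (nat_lit 2) (nat_lit 5) (nat_lit 10) L74506 (by decide +kernel)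
theorem L74508 : W_25 (nat_lit 8) (nat_lit 0x780000001000080000000000000000000000000000000) (nat_lit 0x0) (nat_lit 0xe0087007e000000040002000000000000000000000000000) := T_25 (nat_lit 158) (nat_lit 157) (nat_lit 0) (nat_lit 8) (nat_lit 10) L74507 (by decide +kernel)
theorem L74509 : W_25 (nat_lit 9) (nat_lit 0x700000001000080000000000000000000000000000000) (nat_lit 0x0) (nat_lit 0x800060003e008f007f000600060002000000000000000000000000000) := Q_25 (nat_lit 175) (C_25 L74446 (C_25 L74450 (C_25 L74508 (C_25 L72871 (C_25 L73924 N_25))))) (by decide +kernel)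
theorem L74510 : W_25 (nat_lit 2) (nat_lit 0x7c00200010001c0000000000000000000000000000000) (nat_lit 0x0) (nat_lit 0x7000000000000000000000000000000000000000) := D_25 (nat_lit 157) (nat_lit 158) (nat_lit 156) (nat_lit 0) (nat_lit 8) (nat_lit 10) (nat_lit 0) (nat_lit 7) (nat_lit 10) (by decide +kernel)
theorem L74511 : W_25 (nat_lit 3) (nat_lit 0x7800200010001c0000000000000000000000000000000) (nat_lit 0x0) (nat_lit 0x40017000000000000000000000000000000000000000) := T_25 (nat_lit 174) (nat_lit 160) (nat_lit 2) (nat_lit 4) (nat_lit 10) L74510 (by decide +kernel)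
theorem L74512 : W_25 (nat_lit 4) (nat_lit 0x7000200010001c0000000000000000000000000000000) (nat_lit 0x0) (nat_lit 0xc0057000000000000000000000000000000000000000) := T_25 (nat_lit 175) (nat_lit 162) (nat_lit 2) (nat_lit 5) (nat_lit 10) L74511 (by decide +kernel)
theorem L74513 : W_25 (nat_lit 5) (nat_lit 0x7000200010000c0000000000000000000000000000000) (nat_lit 0x0) (nat_lit 0xc0057000000100008000000000000000000000000000) := T_25 (nat_lit 128) (nat_lit 111) (nat_lit 6) (nat_lit 8) (nat_lit 10) L74512 (by decide +kernel)
theorem L74514 : W_25 (nat_lit 6) (nat_lit 0x700020001000080000000000000000000000000000000) (nat_lit 0x0) (nat_lit 0xc005700000014000a000000000000000000000000000) := T_25 (nat_lit 126) (nat_lit 109) (nat_lit 4) (nat_lit 8) (nat_lit 10) L74513 (by decide +kernel)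
theorem L74515 : W_25 (nat_lit 7) (nat_lit 0x700000001000080000000000000000000000000000000) (nat_lit 0x0) (nat_lit 0x40000c007700000014000a000000000000000000000000000) := T_25 (nat_lit 161) (nat_lit 194) (nat_lit 5) (nat_lit 8) (nat_lit 7) L74514 (by decide +kernel)
theorem L74516 : W_25 (nat_lit 4) (nat_lit 0x780000001000080000000000000000000000000000000) (nat_lit 0x0) (nat_lit 0x4000040037000000000000000000000000000000000000000) := T_25 (nat_lit 161) (nat_lit 194) (nat_lit 5) (nat_lit 8) (nat_lit 7) L73923 (by decide +kernel)
theorem L74517 : W_25 (nat_lit 4) (nat_lit 0x780000001000080000000000000000000000000000000) (nat_lit 0x0) (nat_lit 0x5c00040030000000000000000000000000000000000000000) := T_25 (nat_lit 161) (nat_lit 194) (nat_lit 5) (nat_lit 8) (nat_lit 7) L4937 (by decide +kernel)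
theorem L74518 : W_25 (nat_lit 7) (nat_lit 0x700000001000080000000000000000000000000000000) (nat_lit 0x0) (nat_lit 0x2000fc008e003f800400020000000000000000000000000000000) := Q_25 (nat_lit 175) (C_25 L74450 (C_25 L11400 (C_25 L74516 (C_25 L74517 N_25)))) (by decide +kernel)
theorem L74519 : W_25 (nat_lit 12) (nat_lit 0x300000001000080000000000000000000000000000000) (nat_lit 0x0) (nat_lit 0x1c000e00efe07cf07ff80060016000a000000000000000000000000000) := Q_25 (nat_lit 178) (C_25 L74466 (C_25 L74401 (C_25 L74473 (C_25 L74501 (C_25 L74509 (C_25 L74515 (C_25 L74518 N_25))))))) (by decide +kernel)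
theorem L74520 : W_25 (nat_lit 6) (nat_lit 0x3000000018000a0000000000000000000000000000000) (nat_lit 0x0) (nat_lit 0x38000700358003c00100008000000000000000000) := Q_25 (nat_lit 126) (C_25 L74086 (C_25 L74082 (C_25 L74090 (C_25 L74093 N_25)))) (by decide +kernel)
theorem L74521 : W_25 (nat_lit 4) (nat_lit 0x3000100018000a0000000000000000000000000000000) (nat_lit 0x0) (nat_lit 0x28000000040003000100008000000000000000000) := T_25 (nat_lit 126) (nat_lit 108) (nat_lit 4) (nat_lit 7) (nat_lit 10) L74092 (by decide +kernel)
theorem L74522 : W_25 (nat_lit 5) (nat_lit 0x3000000018000a0000000000000000000000000000000) (nat_lit 0x0) (nat_lit 0x4000000038000000040003000100008000000000000000000) := T_25 (nat_lit 160) (nat_lit 194) (nat_lit 6) (nat_lit 7) (nat_lit 11) L74521 (by decide +kernel)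
theorem L74523 : W_25 (nat_lit 11) (nat_lit 0x300000001800080000000000000000000000000000000) (nat_lit 0x0) (nat_lit 0x50000c007f000700378003c00140008000000000000000000) := Q_25 (nat_lit 125) (C_25 L74520 (C_25 L74522 (C_25 L74075 (C_25 L74430 (C_25 L74125 (C_25 L74080 N_25)))))) (by decide +kernel)
theorem L74524 : W_25 (nat_lit 2) (nat_lit 0x7400300008001e00080000000000000000000000000000000) (nat_lit 0x0) (nat_lit 0x40000000000006000000000000000000000000000000000000000) := D_25 (nat_lit 158) (nat_lit 210) (nat_lit 157) (nat_lit 4) (nat_lit 6) (nat_lit 12) (nat_lit 1) (nat_lit 8) (nat_lit 8) (by decide +kernel)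
theorem L74525 : W_25 (nat_lit 3) (nat_lit 0x7400300008001c00080000000000000000000000000000000) (nat_lit 0x0) (nat_lit 0x40000000000006000200010000000000000000000000000000000) := T_25 (nat_lit 141) (nat_lit 124) (nat_lit 4) (nat_lit 6) (nat_lit 11) L74524 (by decide +kernel)
theorem L74526 : W_25 (nat_lit 4) (nat_lit 0x3400300008001c00080000000000000000000000000000000) (nat_lit 0x0) (nat_lit 0xc0004000000006000200010000000000000000000000000000000) := T_25 (nat_lit 194) (nat_lit 211) (nat_lit 7) (nat_lit 6) (nat_lit 8) L74525 (by decide +kernel)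
theorem L74527 : W_25 (nat_lit 5) (nat_lit 0x3000300008001c00080000000000000000000000000000000) (nat_lit 0x0) (nat_lit 0xc0004c00000006000200010000000000000000000000000000000) := T_25 (nat_lit 190) (nat_lit 191) (nat_lit 2) (nat_lit 3) (nat_lit 11) L74526 (by decide +kernel)
theorem L74528 : W_25 (nat_lit 6) (nat_lit 0x2000300008001c00080000000000000000000000000000000) (nat_lit 0x0) (nat_lit 0xe0005c00000006000200010000000000000000000000000000000) := T_25 (nat_lit 192) (nat_lit 209) (nat_lit 5) (nat_lit 6) (nat_lit 8) L74527 (by decide +kernel)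
theorem L74529 : W_25 (nat_lit 7) (nat_lit 0x300008001c00080000000000000000000000000000000) (nat_lit 0x0) (nat_lit 0xe0007c00000006000200050000000000000000000000000000000) := T_25 (nat_lit 193) (nat_lit 126) (nat_lit 6) (nat_lit 6) (nat_lit 11) L74528 (by decide +kernel)
theorem L74530 : W_25 (nat_lit 8) (nat_lit 0x300000001c00080000000000000000000000000000000) (nat_lit 0x0) (nat_lit 0xe0007c0008000e000200078003800040000000000000000000000) := Q_25 (nat_lit 159) (C_25 L12515 (C_25 L12505 (C_25 L74529 (C_25 L12502 (C_25 L12498 N_25))))) (by decide +kernel)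
theorem L74531 : W_25 (nat_lit 2) (nat_lit 0x100078003c0008001c00080000000000000000000000000000000) (nat_lit 0x0) (nat_lit 0x4000200000000000000004000000000000000000000000000000000000000) := D_25 (nat_lit 225) (nat_lit 158) (nat_lit 242) (nat_lit 6) (nat_lit 4) (nat_lit 13) (nat_lit 6) (nat_lit 4) (nat_lit 14) (by decide +kernel)
theorem L74532 : W_25 (nat_lit 3) (nat_lit 0x10007800340008001c00080000000000000000000000000000000) (nat_lit 0x0) (nat_lit 0x4000200000008000080004000000000000000000000000000000000000000) := T_25 (nat_lit 175) (nat_lit 195) (nat_lit 3) (nat_lit 4) (nat_lit 10) L74531 (by decide +kernel)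
theorem L74533 : W_25 (nat_lit 4) (nat_lit 0x10007800300008001c00080000000000000000000000000000000) (nat_lit 0x0) (nat_lit 0x40002000000080000e0004000000000000000000000000000000000000000) := T_25 (nat_lit 174) (nat_lit 173) (nat_lit 0) (nat_lit 7) (nat_lit 11) L74532 (by decide +kernel)
theorem L74534 : W_25 (nat_lit 5) (nat_lit 0x7800300008001c00080000000000000000000000000000000) (nat_lit 0x0) (nat_lit 0x40002000180080000e0004000000000000000000000000000000000000000) := T_25 (nat_lit 208) (nat_lit 207) (nat_lit 1) (nat_lit 7) (nat_lit 11) L74533 (by decide +kernel)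
theorem L74535 : W_25 (nat_lit 6) (nat_lit 0x3800300008001c00080000000000000000000000000000000) (nat_lit 0x0) (nat_lit 0x400020009800c0000e0004000000000000000000000000000000000000000) := T_25 (nat_lit 194) (nat_lit 211) (nat_lit 7) (nat_lit 6) (nat_lit 8) L74534 (by decide +kernel)
theorem L74536 : W_25 (nat_lit 7) (nat_lit 0x3000300008001c00080000000000000000000000000000000) (nat_lit 0x0) (nat_lit 0x400020009800cc000e0004000000000000000000000000000000000000000) := T_25 (nat_lit 191) (nat_lit 190) (nat_lit 2) (nat_lit 3) (nat_lit 11) L74535 (by decide +kernel)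
theorem L74537 : W_25 (nat_lit 8) (nat_lit 0x2000300008001c00080000000000000000000000000000000) (nat_lit 0x0) (nat_lit 0x40002000b800dc000e0004000000000000000000000000000000000000000) := T_25 (nat_lit 192) (nat_lit 209) (nat_lit 5) (nat_lit 6) (nat_lit 8) L74536 (by decide +kernel)
theorem L74538 : W_25 (nat_lit 9) (nat_lit 0x300008001c00080000000000000000000000000000000) (nat_lit 0x0) (nat_lit 0x40002000b800fc000e0004000000040000000000000000000000000000000) := T_25 (nat_lit 193) (nat_lit 126) (nat_lit 6) (nat_lit 6) (nat_lit 11) L74537 (by decide +kernel)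
theorem L74539 : W_25 (nat_lit 10) (nat_lit 0x300000001c00080000000000000000000000000000000) (nat_lit 0x0) (nat_lit 0x40002000b800fc000e000c000000078003800140000000000000000000000) := Q_25 (nat_lit 159) (C_25 L12515 (C_25 L12505 (C_25 L74538 (C_25 L12521 N_25)))) (by decide +kernel)
theorem L74540 : W_25 (nat_lit 11) (nat_lit 0x300000001800080000000000000000000000000000000) (nat_lit 0x0) (nat_lit 0x40002000f800fc000e000f00070017c003800140000000000000000000000) := Q_25 (nat_lit 142) (C_25 L12519 (C_25 L74530 (C_25 L74539 (C_25 L12496 (C_25 L12492 N_25))))) (by decide +kernel)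
theorem L74541 : W_25 (nat_lit 4) (nat_lit 0x3000000018000c0002000000000000000000000000000) (nat_lit 0x0) (nat_lit 0x1800000000000100018000c000000000000000000) := T_25 (nat_lit 160) (nat_lit 159) (nat_lit 5) (nat_lit 7) (nat_lit 6) L12556 (by decide +kernel)
theorem L74542 : W_25 (nat_lit 5) (nat_lit 0x3000000018000c0000000000000000000000000000000) (nat_lit 0x0) (nat_lit 0x3800000002000300018000c000000000000000000) := Q_25 (nat_lit 109) (C_25 L74097 (C_25 L74541 (C_25 L74098 N_25))) (by decide +kernel)
theorem L74543 : W_25 (nat_lit 11) (nat_lit 0x300000001800080000000000000000000000000000000) (nat_lit 0x0) (nat_lit 0x30000c007e000700378003c0018000c000000000000000000) := Q_25 (nat_lit 126) (C_25 L12558 (C_25 L74438 (C_25 L74100 (C_25 L74542 N_25)))) (by decide +kernel)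
theorem L74544 : W_25 (nat_lit 12) (nat_lit 0x300000001000080000000000000000000000000000000) (nat_lit 0x0) (nat_lit 0x40012000f800fc000e007f000f0037c003c001c000c000000000000000000) := Q_25 (nat_lit 143) (C_25 L12630 (C_25 L74060 (C_25 L74523 (C_25 L74540 (C_25 L74435 (C_25 L74543 (C_25 L74064 N_25))))))) (by decide +kernel)
theorem L74547 : W_25 (nat_lit 6) (nat_lit 0x400030001d001000080000000000000000000000000000000) (nat_lit 0x0) (nat_lit 0x38003c0003800000000000200000000000000000000000000000000000) := T_25 (nat_lit 211) (nat_lit 228) (nat_lit 4) (nat_lit 7) (nat_lit 13) L15997 (by decide +kernel)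
theorem L74548 : W_25 (nat_lit 7) (nat_lit 0x400030001c001000080000000000000000000000000000000) (nat_lit 0x0) (nat_lit 0x38003c0003800000003000200000000000000000000000000000000000) := T_25 (nat_lit 156) (nat_lit 157) (nat_lit 3) (nat_lit 3) (nat_lit 9) L74547 (by decide +kernel)
theorem L74549 : W_25 (nat_lit 8) (nat_lit 0x400030000c001000080000000000000000000000000000000) (nat_lit 0x0) (nat_lit 0x38003c0003800000013000a00000000000000000000000000000000000) := T_25 (nat_lit 160) (nat_lit 143) (nat_lit 6) (nat_lit 7) (nat_lit 11) L74548 (by decide +kernel)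
theorem L74554 : W_25 (nat_lit 6) (nat_lit 0x8000400030000c001000080000000000000000000000000000000) (nat_lit 0x0) (nat_lit 0x2800340003800000010000a00000000000000000000000000000000000) := T_25 (nat_lit 160) (nat_lit 143) (nat_lit 6) (nat_lit 7) (nat_lit 11) L74553 (by decide +kernel)
theorem L74555 : W_25 (nat_lit 7) (nat_lit 0x400030000c001000080000000000000000000000000000000) (nat_lit 0x0) (nat_lit 0x38003c0003800000010000a00000000000000000000000000000000000) := T_25 (nat_lit 211) (nat_lit 228) (nat_lit 4) (nat_lit 7) (nat_lit 13) L74554 (by decide +kernel)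
theorem L74556 : W_25 (nat_lit 9) (nat_lit 0x4000300008001000080000000000000000000000000000000) (nat_lit 0x0) (nat_lit 0x38003c0003800c80017000a00000000000000000000000000000000000) := Q_25 (nat_lit 158) (C_25 L74546 (C_25 L74549 (C_25 L74555 N_25))) (by decide +kernel)
theorem L74557 : W_25 (nat_lit 2) (nat_lit 0x4000300008001400080000000000000000000000000000000) (nat_lit 0x0) (nat_lit 0x1000080000000000010000000000000000000000000000000000000000) := D_25 (nat_lit 211) (nat_lit 228) (nat_lit 160) (nat_lit 4) (nat_lit 7) (nat_lit 13) (nat_lit 4) (nat_lit 7) (nat_lit 12) (by decide +kernel)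
theorem L74558 : W_25 (nat_lit 3) (nat_lit 0x4000300008001000080000000000000000000000000000000) (nat_lit 0x0) (nat_lit 0x1000080000000000010000400020000000000000000000000000000000) := T_25 (nat_lit 142) (nat_lit 125) (nat_lit 7) (nat_lit 6) (nat_lit 7) L74557 (by decide +kernel)
theorem L74561 : W_25 (nat_lit 5) (nat_lit 0x4000300008001400080000000000000000000000000000000) (nat_lit 0x0) (nat_lit 0x20003c00400010000800040000000000000000000000000000000) := T_25 (nat_lit 143) (nat_lit 160) (nat_lit 6) (nat_lit 7) (nat_lit 11) L15482 (by decide +kernel)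
theorem L74562 : W_25 (nat_lit 6) (nat_lit 0x4000300008001000080000000000000000000000000000000) (nat_lit 0x0) (nat_lit 0x20003c00400010000c00060000000000000000000000000000000) := T_25 (nat_lit 142) (nat_lit 125) (nat_lit 7) (nat_lit 6) (nat_lit 7) L74561 (by decide +kernel)
theorem L74563 : W_25 (nat_lit 10) (nat_lit 0x4000300000001000080000000000000000000000000000000) (nat_lit 0x0) (nat_lit 0x38003e0003c00c8001f000e00060000000000000000000000000000000) := Q_25 (nat_lit 159) (C_25 L74556 (C_25 L14834 (C_25 L74558 (C_25 L74560 (C_25 L74562 N_25))))) (by decide +kernel)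
theorem L74564 : W_25 (nat_lit 5) (nat_lit 0x4000300008001000080000000000000000000000000000000) (nat_lit 0x0) (nat_lit 0x1000080003001c00024000000000000000000000000000000000000000) := T_25 (nat_lit 178) (nat_lit 161) (nat_lit 5) (nat_lit 8) (nat_lit 7) L15511 (by decide +kernel)
theorem L74565 : W_25 (nat_lit 2) (nat_lit 0x1000000004003f000880010000a0000000000000000000000000000000) (nat_lit 0x0) (nat_lit 0xe0000000000000000000000000000000000000000000000000) := D_25 (nat_lit 198) (nat_lit 197) (nat_lit 199) (nat_lit 3) (nat_lit 7) (nat_lit 10) (nat_lit 3) (nat_lit 8) (nat_lit 10) (by decide +kernel)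
theorem L74566 : W_25 (nat_lit 3) (nat_lit 0x1000000004001f000880010000a0000000000000000000000000000000) (nat_lit 0x0) (nat_lit 0xe8002000000000000000000000000000000000000000000000) := T_25 (nat_lit 181) (nat_lit 195) (nat_lit 1) (nat_lit 11) (nat_lit 10) L74565 (by decide +kernel)
theorem L74567 : W_25 (nat_lit 4) (nat_lit 0x1000000004000f000880010000a0000000000000000000000000000000) (nat_lit 0x0) (nat_lit 0xe8003000100000000000000000000000000000000000000000) := T_25 (nat_lit 180) (nat_lit 164) (nat_lit 2) (nat_lit 7) (nat_lit 10) L74566 (by decide +kernel)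
theorem L74568 : W_25 (nat_lit 5) (nat_lit 0x1000000004000f000080010000a0000000000000000000000000000000) (nat_lit 0x0) (nat_lit 0xe80030001c0000000000000000000000000000000000000000) := T_25 (nat_lit 163) (nat_lit 162) (nat_lit 2) (nat_lit 6) (nat_lit 10) L74567 (by decide +kernel)
theorem L74569 : W_25 (nat_lit 6) (nat_lit 0x10000000040007000080010000a0000000000000000000000000000000) (nat_lit 0x0) (nat_lit 0xe80038001c4000000000000000000000000000000000000000) := T_25 (nat_lit 179) (nat_lit 158) (nat_lit 0) (nat_lit 9) (nat_lit 10) L74568 (by decide +kernel)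
theorem L74570 : W_25 (nat_lit 7) (nat_lit 0x1000000004000700008001000080000000000000000000000000000000) (nat_lit 0x0) (nat_lit 0xe80038001c4000400020000000000000000000000000000000) := T_25 (nat_lit 125) (nat_lit 142) (nat_lit 7) (nat_lit 6) (nat_lit 7) L74569 (by decide +kernel)
theorem L74571 : W_25 (nat_lit 8) (nat_lit 0x1000000004000300008001000080000000000000000000000000000000) (nat_lit 0x0) (nat_lit 0xe8003c001e4000400020000000000000000000000000000000) := T_25 (nat_lit 178) (nat_lit 161) (nat_lit 5) (nat_lit 8) (nat_lit 7) L74570 (by decide +kernel)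
theorem L74572 : W_25 (nat_lit 9) (nat_lit 0x4000300008001000080000000000000000000000000000000) (nat_lit 0x0) (nat_lit 0x10000800e8003c001e4000400020000000000000000000000000000000) := T_25 (nat_lit 228) (nat_lit 211) (nat_lit 4) (nat_lit 7) (nat_lit 13) L74571 (by decide +kernel)
theorem L74573 : W_25 (nat_lit 10) (nat_lit 0x4000300000001000080000000000000000000000000000000) (nat_lit 0x0) (nat_lit 0x10000800eb003c001ec000400020000000000000000000000000000000) := Q_25 (nat_lit 159) (C_25 L74564 (C_25 L74560 (C_25 L74572 (C_25 L74268 N_25)))) (by decide +kernel)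
theorem L74574 : W_25 (nat_lit 11) (nat_lit 0x300000001000080000000000000000000000000000000) (nat_lit 0x0) (nat_lit 0x8000600038003e00efc03cc01ff000e00060000000000000000000000000000000) := Q_25 (nat_lit 194) (C_25 L74274 (C_25 L74563 (C_25 L74277 (C_25 L74288 (C_25 L74573 (C_25 L8170 N_25)))))) (by decide +kernel)
theorem L74575 : W_25 (nat_lit 3) (nat_lit 0xf00058001000080000000000000000000000000000000) (nat_lit 0x0) (nat_lit 0x40003000000000000800040000000000000000000000000000000) := T_25 (nat_lit 193) (nat_lit 192) (nat_lit 1) (nat_lit 9) (nat_lit 10) L73585 (by decide +kernel)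
theorem L74576 : W_25 (nat_lit 4) (nat_lit 0xf00048001000080000000000000000000000000000000) (nat_lit 0x0) (nat_lit 0x40003001000010000800040000000000000000000000000000000) := T_25 (nat_lit 160) (nat_lit 180) (nat_lit 0) (nat_lit 10) (nat_lit 10) L74575 (by decide +kernel)
theorem L74577 : W_25 (nat_lit 5) (nat_lit 0xf00008001000080000000000000000000000000000000) (nat_lit 0x0) (nat_lit 0x400030010000d0000800040000000000000000000000000000000) := T_25 (nat_lit 162) (nat_lit 163) (nat_lit 2) (nat_lit 6) (nat_lit 10) L74576 (by decide +kernel)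
theorem L74578 : W_25 (nat_lit 6) (nat_lit 0xf00000001000080000000000000000000000000000000) (nat_lit 0x0) (nat_lit 0x400030010000dc000800040000000000000000000000000000000) := T_25 (nat_lit 159) (nat_lit 158) (nat_lit 0) (nat_lit 9) (nat_lit 10) L74577 (by decide +kernel)
theorem L74579 : W_25 (nat_lit 7) (nat_lit 0x700000001000080000000000000000000000000000000) (nat_lit 0x0) (nat_lit 0x4000f8018801de000800040002000000000000000000000000000) := Q_25 (nat_lit 179) (C_25 L74578 (C_25 L74495 (C_25 L4847 (C_25 L5784 (C_25 L5584 N_25))))) (by decide +kernel)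
theorem L74580 : W_25 (nat_lit 12) (nat_lit 0x7000200010000c0000000000000000000000000000000) (nat_lit 0x0) (nat_lit 0x4a0038001d000c800738039000000000000000000000000000) := T_25 (nat_lit 128) (nat_lit 111) (nat_lit 6) (nat_lit 8) (nat_lit 10) L5966 (by decide +kernel)
theorem L74581 : W_25 (nat_lit 13) (nat_lit 0x700020001000080000000000000000000000000000000) (nat_lit 0x0) (nat_lit 0x4a0038001d000c80077803b000000000000000000000000000) := T_25 (nat_lit 126) (nat_lit 109) (nat_lit 4) (nat_lit 8) (nat_lit 10) L74580 (by decide +kernel)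
theorem L74582 : W_25 (nat_lit 14) (nat_lit 0x700000001000080000000000000000000000000000000) (nat_lit 0x0) (nat_lit 0x4e0038001f000c80077803b000000000000000000000000000) := T_25 (nat_lit 161) (nat_lit 194) (nat_lit 5) (nat_lit 8) (nat_lit 7) L74581 (by decide +kernel)
theorem L74583 : W_25 (nat_lit 11) (nat_lit 0x700020001000180000000000000000000000000000000) (nat_lit 0x0) (nat_lit 0xa0000c001e000b00678003c00000000000000000000000000) := T_25 (nat_lit 126) (nat_lit 109) (nat_lit 4) (nat_lit 8) (nat_lit 10) L5974 (by decide +kernel)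
theorem L74584 : W_25 (nat_lit 12) (nat_lit 0x700020001000080000000000000000000000000000000) (nat_lit 0x0) (nat_lit 0xa0000c001e000b0077800bc00000000000000000000000000) := T_25 (nat_lit 128) (nat_lit 111) (nat_lit 6) (nat_lit 8) (nat_lit 10) L74583 (by decide +kernel)
theorem L74585 : W_25 (nat_lit 14) (nat_lit 0x700000001000080000000000000000000000000000000) (nat_lit 0x0) (nat_lit 0x4b8038c01ff00cb0077803bc00000000000000000000000000) := Q_25 (nat_lit 161) (C_25 L73937 (C_25 L74472 (C_25 L74581 (C_25 L74584 N_25)))) (by decide +kernel)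
theorem L74586 : W_25 (nat_lit 13) (nat_lit 0x700000001000080000000000000000000000000000000) (nat_lit 0x0) (nat_lit 0xe0000c003e000b0077800bc00000000000000000000000000) := T_25 (nat_lit 161) (nat_lit 194) (nat_lit 5) (nat_lit 8) (nat_lit 7) L74584 (by decide +kernel)
theorem L74587 : W_25 (nat_lit 15) (nat_lit 0x300000001000080000000000000000000000000000000) (nat_lit 0x0) (nat_lit 0x4004f803cc01ff00cb0077803bc00000000000000000000000000) := Q_25 (nat_lit 178) (C_25 L74515 (C_25 L74579 (C_25 L74473 (C_25 L74582 (C_25 L74010 (C_25 L74585 (C_25 L74586 N_25))))))) (by decide +kernel)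
theorem L74588 : W_25 (nat_lit 2) (nat_lit 0x2000000048007c0004001f80084000000000000000000000000000000) (nat_lit 0x0) (nat_lit 0x20001800000000000000000000000000000000000000) := D_25 (nat_lit 156) (nat_lit 155) (nat_lit 173) (nat_lit 1) (nat_lit 6) (nat_lit 8) (nat_lit 7) (nat_lit 3) (nat_lit 7) (by decide +kernel)
theorem L74589 : W_25 (nat_lit 3) (nat_lit 0x2000000048007c0004001f00084000000000000000000000000000000) (nat_lit 0x0) (nat_lit 0x20001800080002000000000000000000000000000000) := T_25 (nat_lit 139) (nat_lit 121) (nat_lit 0) (nat_lit 6) (nat_lit 8) L74588 (by decide +kernel)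
theorem L74590 : W_25 (nat_lit 4) (nat_lit 0x2000000048007c0004001f00080000000000000000000000000000000) (nat_lit 0x0) (nat_lit 0x2000180008000e000000000000000000000000000000) := T_25 (nat_lit 122) (nat_lit 123) (nat_lit 0) (nat_lit 7) (nat_lit 8) L74589 (by decide +kernel)
theorem L74591 : W_25 (nat_lit 5) (nat_lit 0x2000000048007c0004001e00080000000000000000000000000000000) (nat_lit 0x0) (nat_lit 0x2000180018004e000000000000000000000000000000) := T_25 (nat_lit 140) (nat_lit 126) (nat_lit 2) (nat_lit 4) (nat_lit 8) L74590 (by decide +kernel)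
theorem L74592 : W_25 (nat_lit 6) (nat_lit 0x2000000048007c0004001a00080000000000000000000000000000000) (nat_lit 0x0) (nat_lit 0x2000180058014e000000000000000000000000000000) := T_25 (nat_lit 142) (nat_lit 128) (nat_lit 2) (nat_lit 5) (nat_lit 8) L74591 (by decide +kernel)
theorem L74593 : W_25 (nat_lit 7) (nat_lit 0x2000000048007c0004001800080000000000000000000000000000000) (nat_lit 0x0) (nat_lit 0x2000180078015e000000000000000000000000000000) := T_25 (nat_lit 141) (nat_lit 124) (nat_lit 5) (nat_lit 5) (nat_lit 7) L74592 (by decide +kernel)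
theorem L74594 : W_25 (nat_lit 8) (nat_lit 0x2000000048007c0004001000080000000000000000000000000000000) (nat_lit 0x0) (nat_lit 0x20011800f8015e000000000000000000000000000000) := T_25 (nat_lit 143) (nat_lit 160) (nat_lit 6) (nat_lit 7) (nat_lit 11) L74593 (by decide +kernel)
theorem L74595 : W_25 (nat_lit 9) (nat_lit 0x48007c0004001000080000000000000000000000000000000) (nat_lit 0x0) (nat_lit 0x200010000000020011800f8015e000000000000000000000000000000) := T_25 (nat_lit 225) (nat_lit 208) (nat_lit 6) (nat_lit 4) (nat_lit 13) L74594 (by decide +kernel)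
theorem L74596 : W_25 (nat_lit 10) (nat_lit 0x8007c0004001000080000000000000000000000000000000) (nat_lit 0x0) (nat_lit 0x20001000c000020011800f8015e000000000000000000000000000000) := T_25 (nat_lit 194) (nat_lit 195) (nat_lit 3) (nat_lit 4) (nat_lit 10) L74595 (by decide +kernel)
theorem L74597 : W_25 (nat_lit 11) (nat_lit 0x800780004001000080000000000000000000000000000000) (nat_lit 0x0) (nat_lit 0x20001000c400060011800f8015e000000000000000000000000000000) := T_25 (nat_lit 174) (nat_lit 190) (nat_lit 1) (nat_lit 7) (nat_lit 10) L74596 (by decide +kernel)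
theorem L74598 : W_25 (nat_lit 12) (nat_lit 0x780004001000080000000000000000000000000000000) (nat_lit 0x0) (nat_lit 0x20001000dc00060011800f8015e000000000000000000000000000000) := T_25 (nat_lit 191) (nat_lit 192) (nat_lit 1) (nat_lit 8) (nat_lit 10) L74597 (by decide +kernel)
theorem L74599 : W_25 (nat_lit 13) (nat_lit 0x780000001000080000000000000000000000000000000) (nat_lit 0x0) (nat_lit 0x20001000dc00060017800f8015e000000000000000000000000000000) := T_25 (nat_lit 158) (nat_lit 157) (nat_lit 0) (nat_lit 8) (nat_lit 10) L74598 (by decide +kernel)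
theorem L74600 : W_25 (nat_lit 2) (nat_lit 0x44007c0002001000080000000000000000000000000000000) (nat_lit 0x0) (nat_lit 0x2200020000000000000000000000000000000000000000000) := D_25 (nat_lit 173) (nat_lit 193) (nat_lit 189) (nat_lit 3) (nat_lit 3) (nat_lit 10) (nat_lit 1) (nat_lit 6) (nat_lit 10) (by decide +kernel)
theorem L74601 : W_25 (nat_lit 3) (nat_lit 0x4007c0002001000080000000000000000000000000000000) (nat_lit 0x0) (nat_lit 0xe200020000000000000000000000000000000000000000000) := T_25 (nat_lit 194) (nat_lit 195) (nat_lit 3) (nat_lit 4) (nat_lit 10) L74600 (by decide +kernel)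
theorem L74602 : W_25 (nat_lit 4) (nat_lit 0x7c0002001000080000000000000000000000000000000) (nat_lit 0x0) (nat_lit 0xee00020000000000000000000000000000000000000000000) := T_25 (nat_lit 190) (nat_lit 191) (nat_lit 1) (nat_lit 7) (nat_lit 10) L74601 (by decide +kernel)
theorem L74603 : W_25 (nat_lit 5) (nat_lit 0x780002001000080000000000000000000000000000000) (nat_lit 0x0) (nat_lit 0xee00060001000000000000000000000000000000000000000) := T_25 (nat_lit 174) (nat_lit 156) (nat_lit 0) (nat_lit 7) (nat_lit 10) L74602 (by decide +kernel)
theorem L74604 : W_25 (nat_lit 6) (nat_lit 0x780000001000080000000000000000000000000000000) (nat_lit 0x0) (nat_lit 0xee00060007000000000000000000000000000000000000000) := T_25 (nat_lit 157) (nat_lit 158) (nat_lit 0) (nat_lit 8) (nat_lit 10) L74603 (by decide +kernel)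
theorem L74605 : W_25 (nat_lit 2) (nat_lit 0x60007c0002001000080000000000000000000000000000000) (nat_lit 0x0) (nat_lit 0x1001800000000000000000000000000000000000000000000) := D_25 (nat_lit 179) (nat_lit 180) (nat_lit 192) (nat_lit 1) (nat_lit 10) (nat_lit 10) (nat_lit 1) (nat_lit 9) (nat_lit 10) (by decide +kernel)
theorem L74606 : W_25 (nat_lit 3) (nat_lit 0x40007c0002001000080000000000000000000000000000000) (nat_lit 0x0) (nat_lit 0x3001820000000000000000000000000000000000000000000) := T_25 (nat_lit 193) (nat_lit 173) (nat_lit 3) (nat_lit 3) (nat_lit 10) L74605 (by decide +kernel)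
theorem L74607 : W_25 (nat_lit 4) (nat_lit 0x7c0002001000080000000000000000000000000000000) (nat_lit 0x0) (nat_lit 0xf001820000000000000000000000000000000000000000000) := T_25 (nat_lit 194) (nat_lit 195) (nat_lit 3) (nat_lit 4) (nat_lit 10) L74606 (by decide +kernel)
theorem L74608 : W_25 (nat_lit 5) (nat_lit 0x780002001000080000000000000000000000000000000) (nat_lit 0x0) (nat_lit 0xf001860001000000000000000000000000000000000000000) := T_25 (nat_lit 174) (nat_lit 156) (nat_lit 0) (nat_lit 7) (nat_lit 10) L74607 (by decide +kernel)
theorem L74609 : W_25 (nat_lit 6) (nat_lit 0x780000001000080000000000000000000000000000000) (nat_lit 0x0) (nat_lit 0xf001860007000000000000000000000000000000000000000) := T_25 (nat_lit 157) (nat_lit 158) (nat_lit 0) (nat_lit 8) (nat_lit 10) L74608 (by decide +kernel)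
theorem L74610 : W_25 (nat_lit 2) (nat_lit 0x10000000045003f80080001800380000000000000000000000000000000) (nat_lit 0x0) (nat_lit 0x600040000000000000000000000000000000) := D_25 (nat_lit 142) (nat_lit 126) (nat_lit 141) (nat_lit 1) (nat_lit 10) (nat_lit 7) (nat_lit 2) (nat_lit 5) (nat_lit 8) (by decide +kernel)
theorem L74611 : W_25 (nat_lit 3) (nat_lit 0x10000000045003f80080001800280000000000000000000000000000000) (nat_lit 0x0) (nat_lit 0x600540000000000000000000000000000000) := T_25 (nat_lit 128) (nat_lit 130) (nat_lit 1) (nat_lit 11) (nat_lit 7) L74610 (by decide +kernel)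
theorem L74612 : W_25 (nat_lit 4) (nat_lit 0x45003f80080001800280000000000000000000000000000000) (nat_lit 0x0) (nat_lit 0x10000800000000000000000600540000000000000000000000000000000) := T_25 (nat_lit 232) (nat_lit 215) (nat_lit 4) (nat_lit 11) (nat_lit 13) L74611 (by decide +kernel)
theorem L74613 : W_25 (nat_lit 5) (nat_lit 0x45003f80080001000280000000000000000000000000000000) (nat_lit 0x0) (nat_lit 0x10000800000000000010000e00540000000000000000000000000000000) := T_25 (nat_lit 143) (nat_lit 160) (nat_lit 6) (nat_lit 7) (nat_lit 11) L74612 (by decide +kernel)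
theorem L74614 : W_25 (nat_lit 6) (nat_lit 0x45003f80080001000080000000000000000000000000000000) (nat_lit 0x0) (nat_lit 0x10000800000000000010004e00740000000000000000000000000000000) := T_25 (nat_lit 129) (nat_lit 146) (nat_lit 7) (nat_lit 10) (nat_lit 7) L74613 (by decide +kernel)
theorem L74615 : W_25 (nat_lit 7) (nat_lit 0x41003f80080001000080000000000000000000000000000000) (nat_lit 0x0) (nat_lit 0x1000080000c000000010004e00740000000000000000000000000000000) := T_25 (nat_lit 194) (nat_lit 195) (nat_lit 1) (nat_lit 11) (nat_lit 10) L74614 (by decide +kernel)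
theorem L74616 : W_25 (nat_lit 8) (nat_lit 0x41001f80080001000080000000000000000000000000000000) (nat_lit 0x0) (nat_lit 0x1000080008c002000010004e00740000000000000000000000000000000) := T_25 (nat_lit 181) (nat_lit 199) (nat_lit 3) (nat_lit 8) (nat_lit 10) L74615 (by decide +kernel)
theorem L74617 : W_25 (nat_lit 9) (nat_lit 0x1001f80080001000080000000000000000000000000000000) (nat_lit 0x0) (nat_lit 0x100008000ec002000010004e00740000000000000000000000000000000) := T_25 (nat_lit 198) (nat_lit 197) (nat_lit 3) (nat_lit 7) (nat_lit 10) L74616 (by decide +kernel)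
theorem L74618 : W_25 (nat_lit 10) (nat_lit 0x1000f80080001000080000000000000000000000000000000) (nat_lit 0x0) (nat_lit 0x100008000ec003000110004e00740000000000000000000000000000000) := T_25 (nat_lit 180) (nat_lit 164) (nat_lit 2) (nat_lit 7) (nat_lit 10) L74617 (by decide +kernel)
theorem L74619 : W_25 (nat_lit 11) (nat_lit 0x1000f80000001000080000000000000000000000000000000) (nat_lit 0x0) (nat_lit 0x100008000ec0030001d0004e00740000000000000000000000000000000) := T_25 (nat_lit 163) (nat_lit 162) (nat_lit 2) (nat_lit 6) (nat_lit 10) L74618 (by decide +kernel)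
theorem L74620 : W_25 (nat_lit 12) (nat_lit 0x1000780000001000080000000000000000000000000000000) (nat_lit 0x0) (nat_lit 0x100008000ee0038001d0004e00740000000000000000000000000000000) := T_25 (nat_lit 179) (nat_lit 193) (nat_lit 1) (nat_lit 9) (nat_lit 10) L74619 (by decide +kernel)
theorem L74621 : W_25 (nat_lit 13) (nat_lit 0x780000001000080000000000000000000000000000000) (nat_lit 0x0) (nat_lit 0x100008000ef8038001d0004e00740000000000000000000000000000000) := T_25 (nat_lit 192) (nat_lit 191) (nat_lit 1) (nat_lit 8) (nat_lit 10) L74620 (by decide +kernel)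
theorem L74622 : W_25 (nat_lit 14) (nat_lit 0x700000001000080000000000000000000000000000000) (nat_lit 0x0) (nat_lit 0x10a008500efe038e01d7804f8075e000000000000000000000000000000) := Q_25 (nat_lit 175) (C_25 L74446 (C_25 L11400 (C_25 L74599 (C_25 L74604 (C_25 L74609 (C_25 L74621 N_25)))))) (by decide +kernel)
theorem L74623 : W_25 (nat_lit 2) (nat_lit 0xb0007800240010001c0000000000000000000000000000000) (nat_lit 0x0) (nat_lit 0x800040000000000000000200000000000000000000000000000000000) := D_25 (nat_lit 210) (nat_lit 227) (nat_lit 141) (nat_lit 4) (nat_lit 6) (nat_lit 13) (nat_lit 7) (nat_lit 5) (nat_lit 8) (by decide +kernel)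
theorem L74624 : W_25 (nat_lit 3) (nat_lit 0x90007800240010001c0000000000000000000000000000000) (nat_lit 0x0) (nat_lit 0x800040002000800000000200000000000000000000000000000000000) := T_25 (nat_lit 193) (nat_lit 179) (nat_lit 1) (nat_lit 9) (nat_lit 10) L74623 (by decide +kernel)
theorem L74625 : W_25 (nat_lit 4) (nat_lit 0x90007800200010001c0000000000000000000000000000000) (nat_lit 0x0) (nat_lit 0x800040002000800006000200000000000000000000000000000000000) := T_25 (nat_lit 158) (nat_lit 157) (nat_lit 0) (nat_lit 8) (nat_lit 10) L74624 (by decide +kernel)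
theorem L74626 : W_25 (nat_lit 5) (nat_lit 0x80007800200010001c0000000000000000000000000000000) (nat_lit 0x0) (nat_lit 0x800040003800800006000200000000000000000000000000000000000) := T_25 (nat_lit 192) (nat_lit 191) (nat_lit 1) (nat_lit 8) (nat_lit 10) L74625 (by decide +kernel)
theorem L74627 : W_25 (nat_lit 6) (nat_lit 0x80007000200010001c0000000000000000000000000000000) (nat_lit 0x0) (nat_lit 0x800040003800880046000200000000000000000000000000000000000) := T_25 (nat_lit 175) (nat_lit 162) (nat_lit 2) (nat_lit 5) (nat_lit 10) L74626 (by decide +kernel)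
theorem L74628 : W_25 (nat_lit 7) (nat_lit 0x7000200010001c0000000000000000000000000000000) (nat_lit 0x0) (nat_lit 0x80004000b800880046000a00000000000000000000000000000000000) := T_25 (nat_lit 195) (nat_lit 143) (nat_lit 4) (nat_lit 8) (nat_lit 11) L74627 (by decide +kernel)
theorem L74629 : W_25 (nat_lit 8) (nat_lit 0x7000200010000c0000000000000000000000000000000) (nat_lit 0x0) (nat_lit 0x80004000b800880046000a00100008000000000000000000000000000) := T_25 (nat_lit 128) (nat_lit 111) (nat_lit 6) (nat_lit 8) (nat_lit 10) L74628 (by decide +kernel)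
theorem L74630 : W_25 (nat_lit 9) (nat_lit 0x700020001000080000000000000000000000000000000) (nat_lit 0x0) (nat_lit 0x80004000b800880046000a0014000a000000000000000000000000000) := T_25 (nat_lit 126) (nat_lit 109) (nat_lit 4) (nat_lit 8) (nat_lit 10) L74629 (by decide +kernel)
theorem L74631 : W_25 (nat_lit 10) (nat_lit 0x700000001000080000000000000000000000000000000) (nat_lit 0x0) (nat_lit 0x80004000f800880066000a0014000a000000000000000000000000000) := T_25 (nat_lit 161) (nat_lit 194) (nat_lit 5) (nat_lit 8) (nat_lit 7) L74630 (by decide +kernel)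
theorem L74632 : W_25 (nat_lit 3) (nat_lit 0x7000200010001c0000000000000000000000000000000) (nat_lit 0x0) (nat_lit 0x8000000000000e00200000000000000000000000000000000) := T_25 (nat_lit 143) (nat_lit 195) (nat_lit 4) (nat_lit 8) (nat_lit 11) L73598 (by decide +kernel)
theorem L74633 : W_25 (nat_lit 4) (nat_lit 0x700020001000180000000000000000000000000000000) (nat_lit 0x0) (nat_lit 0x8000000000000e00240002000000000000000000000000000) := T_25 (nat_lit 126) (nat_lit 109) (nat_lit 4) (nat_lit 8) (nat_lit 10) L74632 (by decide +kernel)
theorem L74634 : W_25 (nat_lit 5) (nat_lit 0x700020001000080000000000000000000000000000000) (nat_lit 0x0) (nat_lit 0x8000000000000e0034000a000000000000000000000000000) := T_25 (nat_lit 128) (nat_lit 111) (nat_lit 6) (nat_lit 8) (nat_lit 10) L74633 (by decide +kernel)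
theorem L74635 : W_25 (nat_lit 14) (nat_lit 0x700000001000080000000000000000000000000000000) (nat_lit 0x0) (nat_lit 0x80004004b8038c01f700ce0077803b000000000000000000000000000) := Q_25 (nat_lit 161) (C_25 L74630 (C_25 L73937 (C_25 L74581 (C_25 L74634 N_25)))) (by decide +kernel)
theorem L74636 : W_25 (nat_lit 6) (nat_lit 0x700000001000080000000000000000000000000000000) (nat_lit 0x0) (nat_lit 0xc000000020000e0034000a000000000000000000000000000) := T_25 (nat_lit 161) (nat_lit 194) (nat_lit 5) (nat_lit 8) (nat_lit 7) L74634 (by decide +kernel)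
theorem L74637 : W_25 (nat_lit 15) (nat_lit 0x300000001000080000000000000000000000000000000) (nat_lit 0x0) (nat_lit 0x10a008500efe03ce01f780cf8077e03b000000000000000000000000000) := Q_25 (nat_lit 178) (C_25 L74622 (C_25 L74010 (C_25 L74631 (C_25 L74582 (C_25 L74635 (C_25 L74636 N_25)))))) (by decide +kernel)
theorem L74640 : W_25 (nat_lit 4) (nat_lit 0x800780004001000080000000000000000000000000000000) (nat_lit 0x0) (nat_lit 0x400870018000000000000000000000000000000000000000) := T_25 (nat_lit 159) (nat_lit 179) (nat_lit 0) (nat_lit 9) (nat_lit 10) L74639 (by decide +kernel)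
theorem L74641 : W_25 (nat_lit 5) (nat_lit 0x780004001000080000000000000000000000000000000) (nat_lit 0x0) (nat_lit 0x1c00870018000000000000000000000000000000000000000) := T_25 (nat_lit 191) (nat_lit 192) (nat_lit 1) (nat_lit 8) (nat_lit 10) L74640 (by decide +kernel)
theorem L74642 : W_25 (nat_lit 6) (nat_lit 0x780000001000080000000000000000000000000000000) (nat_lit 0x0) (nat_lit 0x1c0087001e000000000000000000000000000000000000000) := T_25 (nat_lit 158) (nat_lit 157) (nat_lit 0) (nat_lit 8) (nat_lit 10) L74641 (by decide +kernel)
theorem L74643 : W_25 (nat_lit 2) (nat_lit 0x10000000044003f80084001800380000000000000000000000000000000) (nat_lit 0x0) (nat_lit 0x600040000000000000000000000000000000) := D_25 (nat_lit 142) (nat_lit 126) (nat_lit 141) (nat_lit 1) (nat_lit 10) (nat_lit 7) (nat_lit 2) (nat_lit 5) (nat_lit 8) (by decide +kernel)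
theorem L74644 : W_25 (nat_lit 3) (nat_lit 0x10000000044003f80084001800280000000000000000000000000000000) (nat_lit 0x0) (nat_lit 0x600540000000000000000000000000000000) := T_25 (nat_lit 128) (nat_lit 130) (nat_lit 1) (nat_lit 11) (nat_lit 7) L74643 (by decide +kernel)
theorem L74645 : W_25 (nat_lit 4) (nat_lit 0x44003f80084001800280000000000000000000000000000000) (nat_lit 0x0) (nat_lit 0x10000800000000000000000600540000000000000000000000000000000) := T_25 (nat_lit 232) (nat_lit 215) (nat_lit 4) (nat_lit 11) (nat_lit 13) L74644 (by decide +kernel)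
theorem L74646 : W_25 (nat_lit 5) (nat_lit 0x44003f80084001000280000000000000000000000000000000) (nat_lit 0x0) (nat_lit 0x10000800000000000010000e00540000000000000000000000000000000) := T_25 (nat_lit 143) (nat_lit 160) (nat_lit 6) (nat_lit 7) (nat_lit 11) L74645 (by decide +kernel)
theorem L74647 : W_25 (nat_lit 6) (nat_lit 0x44003f80084001000080000000000000000000000000000000) (nat_lit 0x0) (nat_lit 0x10000800000000000010004e00740000000000000000000000000000000) := T_25 (nat_lit 129) (nat_lit 146) (nat_lit 7) (nat_lit 10) (nat_lit 7) L74646 (by decide +kernel)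
theorem L74648 : W_25 (nat_lit 7) (nat_lit 0x40003f80084001000080000000000000000000000000000000) (nat_lit 0x0) (nat_lit 0x1000080000c000000010004e00740000000000000000000000000000000) := T_25 (nat_lit 194) (nat_lit 195) (nat_lit 1) (nat_lit 11) (nat_lit 10) L74647 (by decide +kernel)
theorem L74649 : W_25 (nat_lit 8) (nat_lit 0x40001f80084001000080000000000000000000000000000000) (nat_lit 0x0) (nat_lit 0x1000080008c002000010004e00740000000000000000000000000000000) := T_25 (nat_lit 181) (nat_lit 199) (nat_lit 3) (nat_lit 8) (nat_lit 10) L74648 (by decide +kernel)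
theorem L74650 : W_25 (nat_lit 9) (nat_lit 0x1f80084001000080000000000000000000000000000000) (nat_lit 0x0) (nat_lit 0x100008000ec002000010004e00740000000000000000000000000000000) := T_25 (nat_lit 198) (nat_lit 197) (nat_lit 3) (nat_lit 7) (nat_lit 10) L74649 (by decide +kernel)
theorem L74651 : W_25 (nat_lit 10) (nat_lit 0xf80084001000080000000000000000000000000000000) (nat_lit 0x0) (nat_lit 0x100008000ec003000110004e00740000000000000000000000000000000) := T_25 (nat_lit 180) (nat_lit 164) (nat_lit 2) (nat_lit 7) (nat_lit 10) L74650 (by decide +kernel)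
theorem L74652 : W_25 (nat_lit 11) (nat_lit 0xf80004001000080000000000000000000000000000000) (nat_lit 0x0) (nat_lit 0x100008000ec0030001d0004e00740000000000000000000000000000000) := T_25 (nat_lit 163) (nat_lit 162) (nat_lit 2) (nat_lit 6) (nat_lit 10) L74651 (by decide +kernel)
theorem L74653 : W_25 (nat_lit 12) (nat_lit 0x780004001000080000000000000000000000000000000) (nat_lit 0x0) (nat_lit 0x100008000ec0038001d8004e00740000000000000000000000000000000) := T_25 (nat_lit 179) (nat_lit 159) (nat_lit 0) (nat_lit 9) (nat_lit 10) L74652 (by decide +kernel)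
theorem L74654 : W_25 (nat_lit 13) (nat_lit 0x780000001000080000000000000000000000000000000) (nat_lit 0x0) (nat_lit 0x100008000ec0038001de004e00740000000000000000000000000000000) := T_25 (nat_lit 158) (nat_lit 157) (nat_lit 0) (nat_lit 8) (nat_lit 10) L74653 (by decide +kernel)
theorem L74655 : W_25 (nat_lit 2) (nat_lit 0x48007c001a001000080000000000000000000000000000000) (nat_lit 0x0) (nat_lit 0x1000080000000000000000400000000000000000000000000000000000) := D_25 (nat_lit 211) (nat_lit 142) (nat_lit 228) (nat_lit 4) (nat_lit 7) (nat_lit 12) (nat_lit 4) (nat_lit 7) (nat_lit 13) (by decide +kernel)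
theorem L74656 : W_25 (nat_lit 3) (nat_lit 0x48007c0012001000080000000000000000000000000000000) (nat_lit 0x0) (nat_lit 0x1000080000000020008000400000000000000000000000000000000000) := T_25 (nat_lit 159) (nat_lit 173) (nat_lit 2) (nat_lit 3) (nat_lit 10) L74655 (by decide +kernel)
theorem L74657 : W_25 (nat_lit 4) (nat_lit 0x48007c0002001000080000000000000000000000000000000) (nat_lit 0x0) (nat_lit 0x1000080000000020018000c00000000000000000000000000000000000) := T_25 (nat_lit 160) (nat_lit 143) (nat_lit 6) (nat_lit 7) (nat_lit 11) L74656 (by decide +kernel)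
theorem L74658 : W_25 (nat_lit 5) (nat_lit 0x8007c0002001000080000000000000000000000000000000) (nat_lit 0x0) (nat_lit 0x100008000c000020018000c00000000000000000000000000000000000) := T_25 (nat_lit 194) (nat_lit 195) (nat_lit 3) (nat_lit 4) (nat_lit 10) L74657 (by decide +kernel)
theorem L74659 : W_25 (nat_lit 6) (nat_lit 0x8007c0000001000080000000000000000000000000000000) (nat_lit 0x0) (nat_lit 0x100008000c00002001b000c00000000000000000000000000000000000) := T_25 (nat_lit 157) (nat_lit 156) (nat_lit 0) (nat_lit 7) (nat_lit 10) L74658 (by decide +kernel)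
theorem L74660 : W_25 (nat_lit 7) (nat_lit 0x800780000001000080000000000000000000000000000000) (nat_lit 0x0) (nat_lit 0x100008000c40006001b000c00000000000000000000000000000000000) := T_25 (nat_lit 174) (nat_lit 190) (nat_lit 1) (nat_lit 7) (nat_lit 10) L74659 (by decide +kernel)
theorem L74661 : W_25 (nat_lit 8) (nat_lit 0x780000001000080000000000000000000000000000000) (nat_lit 0x0) (nat_lit 0x100008000dc0006001b000c00000000000000000000000000000000000) := T_25 (nat_lit 191) (nat_lit 192) (nat_lit 1) (nat_lit 8) (nat_lit 10) L74660 (by decide +kernel)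
theorem L74662 : W_25 (nat_lit 2) (nat_lit 0x48007c0018001000080000000000000000000000000000000) (nat_lit 0x0) (nat_lit 0x1800004000000000000000000000000000000000000000) := D_25 (nat_lit 179) (nat_lit 180) (nat_lit 158) (nat_lit 0) (nat_lit 10) (nat_lit 10) (nat_lit 0) (nat_lit 9) (nat_lit 10) (by decide +kernel)
theorem L74663 : W_25 (nat_lit 3) (nat_lit 0x48007c0010001000080000000000000000000000000000000) (nat_lit 0x0) (nat_lit 0x182000c000000000000000000000000000000000000000) := T_25 (nat_lit 159) (nat_lit 173) (nat_lit 2) (nat_lit 3) (nat_lit 10) L74662 (by decide +kernel)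
theorem L74664 : W_25 (nat_lit 4) (nat_lit 0x48007c0000001000080000000000000000000000000000000) (nat_lit 0x0) (nat_lit 0x182001c000800000000000000000000000000000000000) := T_25 (nat_lit 160) (nat_lit 143) (nat_lit 6) (nat_lit 7) (nat_lit 11) L74663 (by decide +kernel)
theorem L74665 : W_25 (nat_lit 5) (nat_lit 0x8007c0000001000080000000000000000000000000000000) (nat_lit 0x0) (nat_lit 0xc00182001c000800000000000000000000000000000000000) := T_25 (nat_lit 194) (nat_lit 195) (nat_lit 3) (nat_lit 4) (nat_lit 10) L74664 (by decide +kernel)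
theorem L74666 : W_25 (nat_lit 6) (nat_lit 0x800780000001000080000000000000000000000000000000) (nat_lit 0x0) (nat_lit 0xc40186001c000800000000000000000000000000000000000) := T_25 (nat_lit 174) (nat_lit 190) (nat_lit 1) (nat_lit 7) (nat_lit 10) L74665 (by decide +kernel)
theorem L74667 : W_25 (nat_lit 7) (nat_lit 0x780000001000080000000000000000000000000000000) (nat_lit 0x0) (nat_lit 0xdc0186001c000800000000000000000000000000000000000) := T_25 (nat_lit 191) (nat_lit 192) (nat_lit 1) (nat_lit 8) (nat_lit 10) L74666 (by decide +kernel)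
theorem L74668 : W_25 (nat_lit 14) (nat_lit 0x700000001000080000000000000000000000000000000) (nat_lit 0x0) (nat_lit 0x112008b00edc038f01df804f8077e000000000000000000000000000000) := Q_25 (nat_lit 175) (C_25 L74450 (C_25 L74642 (C_25 L74599 (C_25 L74654 (C_25 L74661 (C_25 L74667 N_25)))))) (by decide +kernel)
theorem L74669 : W_25 (nat_lit 6) (nat_lit 0x700000001000080000000000000000000000000000000) (nat_lit 0x0) (nat_lit 0x80000c0077000e0034000a000000000000000000000000000) := Q_25 (nat_lit 161) (C_25 L73937 (C_25 L74634 N_25)) (by decide +kernel)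
theorem L74670 : W_25 (nat_lit 15) (nat_lit 0x300000001000080000000000000000000000000000000) (nat_lit 0x0) (nat_lit 0x112008b00edc03cf01ff804f8077e00a000000000000000000000000000) := Q_25 (nat_lit 178) (C_25 L74668 (C_25 L74010 (C_25 L74636 (C_25 L74669 N_25)))) (by decide +kernel)
theorem L74671 : W_25 (nat_lit 9) (nat_lit 0x700000001000080000000000000000000000000000000) (nat_lit 0x0) (nat_lit 0x10000a000fe018e000f800400020000000000000000000000000000000) := Q_25 (nat_lit 175) (C_25 L74450 (C_25 L74609 (C_25 L74604 (C_25 L11400 (C_25 L11407 N_25))))) (by decide +kernel)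
theorem L74672 : W_25 (nat_lit 5) (nat_lit 0xf80024001000080000000000000000000000000000000) (nat_lit 0x0) (nat_lit 0x8000000000000e0034000a000000000000000000000000000) := T_25 (nat_lit 128) (nat_lit 111) (nat_lit 6) (nat_lit 8) (nat_lit 10) L72947 (by decide +kernel)
theorem L74673 : W_25 (nat_lit 6) (nat_lit 0x780024001000080000000000000000000000000000000) (nat_lit 0x0) (nat_lit 0x8000800008000e0034000a000000000000000000000000000) := T_25 (nat_lit 179) (nat_lit 159) (nat_lit 0) (nat_lit 9) (nat_lit 10) L74672 (by decide +kernel)
theorem L74674 : W_25 (nat_lit 7) (nat_lit 0x780004001000080000000000000000000000000000000) (nat_lit 0x0) (nat_lit 0x8000800068000e0034000a000000000000000000000000000) := T_25 (nat_lit 161) (nat_lit 162) (nat_lit 2) (nat_lit 5) (nat_lit 10) L74673 (by decide +kernel)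
theorem L74675 : W_25 (nat_lit 8) (nat_lit 0x780000001000080000000000000000000000000000000) (nat_lit 0x0) (nat_lit 0x800080006e000e0034000a000000000000000000000000000) := T_25 (nat_lit 158) (nat_lit 157) (nat_lit 0) (nat_lit 8) (nat_lit 10) L74674 (by decide +kernel)
theorem L74676 : W_25 (nat_lit 3) (nat_lit 0x10007800240010001c0000000000000000000000000000000) (nat_lit 0x0) (nat_lit 0x8000000000000e00200000000000000000000000000000000) := T_25 (nat_lit 143) (nat_lit 195) (nat_lit 4) (nat_lit 8) (nat_lit 11) L65756 (by decide +kernel)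
theorem L74677 : W_25 (nat_lit 4) (nat_lit 0x10007800200010001c0000000000000000000000000000000) (nat_lit 0x0) (nat_lit 0x8000000006000e00200000000000000000000000000000000) := T_25 (nat_lit 158) (nat_lit 157) (nat_lit 0) (nat_lit 8) (nat_lit 10) L74676 (by decide +kernel)
theorem L74678 : W_25 (nat_lit 5) (nat_lit 0x1000780020001000180000000000000000000000000000000) (nat_lit 0x0) (nat_lit 0x8000000006000e00240002000000000000000000000000000) := T_25 (nat_lit 126) (nat_lit 109) (nat_lit 4) (nat_lit 8) (nat_lit 10) L74677 (by decide +kernel)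
theorem L74679 : W_25 (nat_lit 6) (nat_lit 0x1000780020001000080000000000000000000000000000000) (nat_lit 0x0) (nat_lit 0x8000000006000e0034000a000000000000000000000000000) := T_25 (nat_lit 128) (nat_lit 111) (nat_lit 6) (nat_lit 8) (nat_lit 10) L74678 (by decide +kernel)
theorem L74680 : W_25 (nat_lit 7) (nat_lit 0x780020001000080000000000000000000000000000000) (nat_lit 0x0) (nat_lit 0x9800000006000e0034000a000000000000000000000000000) := T_25 (nat_lit 192) (nat_lit 191) (nat_lit 1) (nat_lit 8) (nat_lit 10) L74679 (by decide +kernel)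
theorem L74681 : W_25 (nat_lit 8) (nat_lit 0x780000001000080000000000000000000000000000000) (nat_lit 0x0) (nat_lit 0x9800000066000e0034000a000000000000000000000000000) := T_25 (nat_lit 161) (nat_lit 162) (nat_lit 2) (nat_lit 5) (nat_lit 10) L74680 (by decide +kernel)
theorem L74682 : W_25 (nat_lit 9) (nat_lit 0x700000001000080000000000000000000000000000000) (nat_lit 0x0) (nat_lit 0x80006000b80088006e000e0036000a000000000000000000000000000) := Q_25 (nat_lit 175) (C_25 L74446 (C_25 L74450 (C_25 L74675 (C_25 L74681 (C_25 L72944 N_25))))) (by decide +kernel)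
theorem L74683 : W_25 (nat_lit 11) (nat_lit 0x300000001000080000000000000000000000000000000) (nat_lit 0x0) (nat_lit 0x18000e000fe01ce006f800e0036000a000000000000000000000000000) := Q_25 (nat_lit 178) (C_25 L74671 (C_25 L74631 (C_25 L74636 (C_25 L74682 (C_25 L74473 N_25))))) (by decide +kernel)
theorem L74684 : W_25 (nat_lit 2) (nat_lit 0x5800300000001000080000000000000000000000000000000) (nat_lit 0x0) (nat_lit 0x2400400000000000000000000000000000000000000000000) := D_25 (nat_lit 193) (nat_lit 178) (nat_lit 190) (nat_lit 2) (nat_lit 4) (nat_lit 11) (nat_lit 2) (nat_lit 3) (nat_lit 11) (by decide +kernel)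
theorem L74685 : W_25 (nat_lit 2) (nat_lit 0x5c00300000001000080000000000000000000000000000000) (nat_lit 0x0) (nat_lit 0x2000c0000000000000000000000000000000000000000000) := D_25 (nat_lit 175) (nat_lit 189) (nat_lit 174) (nat_lit 2) (nat_lit 2) (nat_lit 11) (nat_lit 1) (nat_lit 7) (nat_lit 10) (by decide +kernel)
theorem L74686 : W_25 (nat_lit 3) (nat_lit 0x5800300000001000080000000000000000000000000000000) (nat_lit 0x0) (nat_lit 0x26000c0000000000000000000000000000000000000000000) := T_25 (nat_lit 190) (nat_lit 193) (nat_lit 2) (nat_lit 3) (nat_lit 11) L74685 (by decide +kernel)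
theorem L74687 : W_25 (nat_lit 2) (nat_lit 0x5800380010001000080000000000000000000000000000000) (nat_lit 0x0) (nat_lit 0x8400040000000000000000000000000000000000000000000) := D_25 (nat_lit 174) (nat_lit 190) (nat_lit 195) (nat_lit 1) (nat_lit 7) (nat_lit 10) (nat_lit 3) (nat_lit 4) (nat_lit 10) (by decide +kernel)
theorem L74688 : W_25 (nat_lit 3) (nat_lit 0x5800300010001000080000000000000000000000000000000) (nat_lit 0x0) (nat_lit 0x84004c0000000000000000000000000000000000000000000) := T_25 (nat_lit 175) (nat_lit 178) (nat_lit 1) (nat_lit 8) (nat_lit 10) L74687 (by decide +kernel)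
theorem L74689 : W_25 (nat_lit 4) (nat_lit 0x5800300000001000080000000000000000000000000000000) (nat_lit 0x0) (nat_lit 0x84004c0010000800000000000000000000000000000000000) := T_25 (nat_lit 160) (nat_lit 143) (nat_lit 6) (nat_lit 7) (nat_lit 11) L74688 (by decide +kernel)
theorem L74690 : W_25 (nat_lit 2) (nat_lit 0x5800300000001000080000000000000000000000000000000) (nat_lit 0x0) (nat_lit 0x2000480000000000000000000000000000000000000000000) := D_25 (nat_lit 178) (nat_lit 175) (nat_lit 193) (nat_lit 1) (nat_lit 8) (nat_lit 10) (nat_lit 2) (nat_lit 4) (nat_lit 11) (by decide +kernel)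
theorem L74691 : W_25 (nat_lit 5) (nat_lit 0x5000300000001000080000000000000000000000000000000) (nat_lit 0x0) (nat_lit 0xae004c0010000800000000000000000000000000000000000) := Q_25 (nat_lit 191) (C_25 L74684 (C_25 L74686 (C_25 L74689 (C_25 L74690 N_25)))) (by decide +kernel)
theorem L74692 : W_25 (nat_lit 2) (nat_lit 0x5000300018001000080000000000000000000000000000000) (nat_lit 0x0) (nat_lit 0x1000080000000000000000400000000000000000000000000000000000) := D_25 (nat_lit 211) (nat_lit 142) (nat_lit 228) (nat_lit 4) (nat_lit 7) (nat_lit 12) (nat_lit 4) (nat_lit 7) (nat_lit 13) (by decide +kernel)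
theorem L74693 : W_25 (nat_lit 3) (nat_lit 0x5000300008001000080000000000000000000000000000000) (nat_lit 0x0) (nat_lit 0x1000080000000000010000c00000000000000000000000000000000000) := T_25 (nat_lit 160) (nat_lit 143) (nat_lit 6) (nat_lit 7) (nat_lit 11) L74692 (by decide +kernel)
theorem L74694 : W_25 (nat_lit 2) (nat_lit 0x5000300008001400080000000000000000000000000000000) (nat_lit 0x0) (nat_lit 0x1000080000000000010000000000000000000000000000000000000000) := D_25 (nat_lit 211) (nat_lit 228) (nat_lit 160) (nat_lit 4) (nat_lit 7) (nat_lit 13) (nat_lit 4) (nat_lit 7) (nat_lit 12) (by decide +kernel)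
theorem L74695 : W_25 (nat_lit 3) (nat_lit 0x5000300008001000080000000000000000000000000000000) (nat_lit 0x0) (nat_lit 0x1000080000000000010000400020000000000000000000000000000000) := T_25 (nat_lit 142) (nat_lit 125) (nat_lit 7) (nat_lit 6) (nat_lit 7) L74694 (by decide +kernel)
theorem L74696 : W_25 (nat_lit 2) (nat_lit 0x1c0005000300018001000080000000000000000000000000000000) (nat_lit 0x0) (nat_lit 0x20002800000000000000000000000000000000000000000000000) := D_25 (nat_lit 191) (nat_lit 193) (nat_lit 209) (nat_lit 3) (nat_lit 4) (nat_lit 11) (nat_lit 0) (nat_lit 8) (nat_lit 12) (by decide +kernel)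
theorem L74697 : W_25 (nat_lit 3) (nat_lit 0xc0005000300018001000080000000000000000000000000000000) (nat_lit 0x0) (nat_lit 0x2000120002800000000000000000000000000000000000000000000000) := T_25 (nat_lit 212) (nat_lit 229) (nat_lit 7) (nat_lit 7) (nat_lit 9) L74696 (by decide +kernel)
theorem L74698 : W_25 (nat_lit 4) (nat_lit 0x80005000300018001000080000000000000000000000000000000) (nat_lit 0x0) (nat_lit 0x2800160002800000000000000000000000000000000000000000000000) := T_25 (nat_lit 210) (nat_lit 227) (nat_lit 5) (nat_lit 7) (nat_lit 9) L74697 (by decide +kernel)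
theorem L74699 : W_25 (nat_lit 5) (nat_lit 0x80005000300008001000080000000000000000000000000000000) (nat_lit 0x0) (nat_lit 0x2800160002800000010000800000000000000000000000000000000000) := T_25 (nat_lit 160) (nat_lit 143) (nat_lit 6) (nat_lit 7) (nat_lit 11) L74698 (by decide +kernel)
theorem L74700 : W_25 (nat_lit 6) (nat_lit 0x5000300008001000080000000000000000000000000000000) (nat_lit 0x0) (nat_lit 0x38001e0002800000010000800000000000000000000000000000000000) := T_25 (nat_lit 211) (nat_lit 228) (nat_lit 4) (nat_lit 7) (nat_lit 13) L74699 (by decide +kernel)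
theorem L74701 : W_25 (nat_lit 2) (nat_lit 0x5000300008001400080000000000000000000000000000000) (nat_lit 0x0) (nat_lit 0x1000080002000000000000000000000000000000000000000000000000) := D_25 (nat_lit 211) (nat_lit 228) (nat_lit 193) (nat_lit 4) (nat_lit 7) (nat_lit 13) (nat_lit 7) (nat_lit 6) (nat_lit 8) (by decide +kernel)
theorem L74702 : W_25 (nat_lit 3) (nat_lit 0x5000300008001000080000000000000000000000000000000) (nat_lit 0x0) (nat_lit 0x1000080002000000000000400020000000000000000000000000000000) := T_25 (nat_lit 142) (nat_lit 125) (nat_lit 7) (nat_lit 6) (nat_lit 7) L74701 (by decide +kernel)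
theorem L74705 : W_25 (nat_lit 4) (nat_lit 0x800000007800340018001400080000000000000000000000000000000) (nat_lit 0x0) (nat_lit 0x4000200018008000080004000000000000000000000000000000000000000) := T_25 (nat_lit 208) (nat_lit 207) (nat_lit 1) (nat_lit 7) (nat_lit 11) L74704 (by decide +kernel)
theorem L74706 : W_25 (nat_lit 5) (nat_lit 0x800000007800300018001400080000000000000000000000000000000) (nat_lit 0x0) (nat_lit 0x40002000180080000e0004000000000000000000000000000000000000000) := T_25 (nat_lit 174) (nat_lit 173) (nat_lit 0) (nat_lit 7) (nat_lit 11) L74705 (by decide +kernel)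
theorem L74707 : W_25 (nat_lit 6) (nat_lit 0x7800300018001400080000000000000000000000000000000) (nat_lit 0x0) (nat_lit 0x4000a000580080000e0004000000000000000000000000000000000000000) := T_25 (nat_lit 227) (nat_lit 210) (nat_lit 6) (nat_lit 6) (nat_lit 13) L74706 (by decide +kernel)
theorem L74708 : W_25 (nat_lit 7) (nat_lit 0x7000300018001400080000000000000000000000000000000) (nat_lit 0x0) (nat_lit 0x4000a00058008c000e0004000000000000000000000000000000000000000) := T_25 (nat_lit 191) (nat_lit 190) (nat_lit 2) (nat_lit 3) (nat_lit 11) L74707 (by decide +kernel)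
theorem L74709 : W_25 (nat_lit 8) (nat_lit 0x5000300018001400080000000000000000000000000000000) (nat_lit 0x0) (nat_lit 0x4000a0007800ac000e0004000000000000000000000000000000000000000) := T_25 (nat_lit 193) (nat_lit 209) (nat_lit 5) (nat_lit 6) (nat_lit 8) L74708 (by decide +kernel)
theorem L74710 : W_25 (nat_lit 9) (nat_lit 0x5000300018001000080000000000000000000000000000000) (nat_lit 0x0) (nat_lit 0x4000a0007800ac000e0004000400020000000000000000000000000000000) := T_25 (nat_lit 142) (nat_lit 125) (nat_lit 7) (nat_lit 6) (nat_lit 7) L74709 (by decide +kernel)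
theorem L74711 : W_25 (nat_lit 10) (nat_lit 0x5000300008001000080000000000000000000000000000000) (nat_lit 0x0) (nat_lit 0x4000a0007800ac000e0014000c00020000000000000000000000000000000) := T_25 (nat_lit 160) (nat_lit 143) (nat_lit 6) (nat_lit 7) (nat_lit 11) L74710 (by decide +kernel)
theorem L74712 : W_25 (nat_lit 11) (nat_lit 0x5000300000001000080000000000000000000000000000000) (nat_lit 0x0) (nat_lit 0x4003a001f800ac000e001c000c00020000000000000000000000000000000) := Q_25 (nat_lit 159) (C_25 L74693 (C_25 L74695 (C_25 L74700 (C_25 L74702 (C_25 L74711 N_25))))) (by decide +kernel)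
theorem L74713 : W_25 (nat_lit 4) (nat_lit 0x5000380000001000080000000000000000000000000000000) (nat_lit 0x0) (nat_lit 0xa000060003800000000000000000000000000000000000000) := T_25 (nat_lit 174) (nat_lit 195) (nat_lit 3) (nat_lit 4) (nat_lit 10) L7716 (by decide +kernel)
theorem L74714 : W_25 (nat_lit 2) (nat_lit 0x50003c0000001000080000000000000000000000000000000) (nat_lit 0x0) (nat_lit 0xc00400000000000000000000000000000000000000000000) := D_25 (nat_lit 191) (nat_lit 190) (nat_lit 178) (nat_lit 1) (nat_lit 7) (nat_lit 10) (nat_lit 1) (nat_lit 8) (nat_lit 10) (by decide +kernel)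
theorem L74715 : W_25 (nat_lit 3) (nat_lit 0x5000380000001000080000000000000000000000000000000) (nat_lit 0x0) (nat_lit 0x8c00440000000000000000000000000000000000000000000) := T_25 (nat_lit 174) (nat_lit 195) (nat_lit 3) (nat_lit 4) (nat_lit 10) L74714 (by decide +kernel)
theorem L74716 : W_25 (nat_lit 4) (nat_lit 0x5000380000001000080000000000000000000000000000000) (nat_lit 0x0) (nat_lit 0x2800c0000e000000000000000000000000000000000000000) := T_25 (nat_lit 178) (nat_lit 191) (nat_lit 1) (nat_lit 8) (nat_lit 10) L7413 (by decide +kernel)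
theorem L74717 : W_25 (nat_lit 5) (nat_lit 0x5000300000001000080000000000000000000000000000000) (nat_lit 0x0) (nat_lit 0xac00ce000f800000000000000000000000000000000000000) := Q_25 (nat_lit 175) (C_25 L74713 (C_25 L74715 (C_25 L74716 N_25))) (by decide +kernel)
theorem L74722 : W_25 (nat_lit 7) (nat_lit 0x5000780010001000080000000000000000000000000000000) (nat_lit 0x0) (nat_lit 0xe80038001ce000000000000000000000000000000000000000) := T_25 (nat_lit 158) (nat_lit 157) (nat_lit 0) (nat_lit 8) (nat_lit 10) L15875 (by decide +kernel)
theorem L74723 : W_25 (nat_lit 8) (nat_lit 0x5000380010001000080000000000000000000000000000000) (nat_lit 0x0) (nat_lit 0xe8803c001ce000000000000000000000000000000000000000) := T_25 (nat_lit 178) (nat_lit 191) (nat_lit 1) (nat_lit 8) (nat_lit 10) L74722 (by decide +kernel)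
theorem L74724 : W_25 (nat_lit 9) (nat_lit 0x5000380000001000080000000000000000000000000000000) (nat_lit 0x0) (nat_lit 0xe8803c001de000800000000000000000000000000000000000) := T_25 (nat_lit 160) (nat_lit 143) (nat_lit 6) (nat_lit 7) (nat_lit 11) L74723 (by decide +kernel)
theorem L74725 : W_25 (nat_lit 2) (nat_lit 0x500078001c001000080000000000000000000000000000000) (nat_lit 0x0) (nat_lit 0x80000000000000000400020000000000000000000000000000000) := D_25 (nat_lit 142) (nat_lit 125) (nat_lit 211) (nat_lit 7) (nat_lit 6) (nat_lit 7) (nat_lit 4) (nat_lit 7) (nat_lit 12) (by decide +kernel)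
theorem L74726 : W_25 (nat_lit 3) (nat_lit 0x5000780014001000080000000000000000000000000000000) (nat_lit 0x0) (nat_lit 0x80000000800008000400020000000000000000000000000000000) := T_25 (nat_lit 159) (nat_lit 179) (nat_lit 0) (nat_lit 9) (nat_lit 10) L74725 (by decide +kernel)
theorem L74727 : W_25 (nat_lit 4) (nat_lit 0x5000780004001000080000000000000000000000000000000) (nat_lit 0x0) (nat_lit 0x80000000800018000c00020000000000000000000000000000000) := T_25 (nat_lit 160) (nat_lit 143) (nat_lit 6) (nat_lit 7) (nat_lit 11) L74726 (by decide +kernel)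
theorem L74728 : W_25 (nat_lit 5) (nat_lit 0x5000780000001000080000000000000000000000000000000) (nat_lit 0x0) (nat_lit 0x8000000080001e000c00020000000000000000000000000000000) := T_25 (nat_lit 158) (nat_lit 157) (nat_lit 0) (nat_lit 8) (nat_lit 10) L74727 (by decide +kernel)
theorem L74729 : W_25 (nat_lit 6) (nat_lit 0x5000380000001000080000000000000000000000000000000) (nat_lit 0x0) (nat_lit 0x80000800c0001e000c00020000000000000000000000000000000) := T_25 (nat_lit 178) (nat_lit 191) (nat_lit 1) (nat_lit 8) (nat_lit 10) L74728 (by decide +kernel)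
theorem L74730 : W_25 (nat_lit 10) (nat_lit 0x5000300000001000080000000000000000000000000000000) (nat_lit 0x0) (nat_lit 0x800e8c03ce01df800c00020000000000000000000000000000000) := Q_25 (nat_lit 175) (C_25 L74721 (C_25 L74715 (C_25 L74724 (C_25 L74729 N_25)))) (by decide +kernel)
theorem L74731 : W_25 (nat_lit 2) (nat_lit 0x7000300018001400080000000000000000000000000000000) (nat_lit 0x0) (nat_lit 0xc00400000000000000000000000000000000000000000000) := D_25 (nat_lit 191) (nat_lit 178) (nat_lit 190) (nat_lit 2) (nat_lit 4) (nat_lit 11) (nat_lit 2) (nat_lit 3) (nat_lit 11) (by decide +kernel)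
theorem L74732 : W_25 (nat_lit 3) (nat_lit 0x5000300018001400080000000000000000000000000000000) (nat_lit 0x0) (nat_lit 0x20002c00400000000000000000000000000000000000000000000) := T_25 (nat_lit 193) (nat_lit 209) (nat_lit 5) (nat_lit 6) (nat_lit 8) L74731 (by decide +kernel)
theorem L74733 : W_25 (nat_lit 4) (nat_lit 0x5000300018001000080000000000000000000000000000000) (nat_lit 0x0) (nat_lit 0x20002c00400000000400020000000000000000000000000000000) := T_25 (nat_lit 142) (nat_lit 125) (nat_lit 7) (nat_lit 6) (nat_lit 7) L74732 (by decide +kernel)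
theorem L74734 : W_25 (nat_lit 5) (nat_lit 0x5000300008001000080000000000000000000000000000000) (nat_lit 0x0) (nat_lit 0x20002c00400010000c00020000000000000000000000000000000) := T_25 (nat_lit 160) (nat_lit 143) (nat_lit 6) (nat_lit 7) (nat_lit 11) L74733 (by decide +kernel)
theorem L74735 : W_25 (nat_lit 7) (nat_lit 0x5000300000001000080000000000000000000000000000000) (nat_lit 0x0) (nat_lit 0x38001e0002c00400018000c00020000000000000000000000000000000) := Q_25 (nat_lit 159) (C_25 L74702 (C_25 L74700 (C_25 L74695 (C_25 L74734 N_25)))) (by decide +kernel)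
theorem L74736 : W_25 (nat_lit 2) (nat_lit 0x80007e002d000300018001000080000000000000000000000000000000) (nat_lit 0x0) (nat_lit 0x4000000000000c0000000000000000000000000000000000000000000) := D_25 (nat_lit 175) (nat_lit 174) (nat_lit 226) (nat_lit 3) (nat_lit 4) (nat_lit 10) (nat_lit 6) (nat_lit 5) (nat_lit 13) (by decide +kernel)
theorem L74737 : W_25 (nat_lit 3) (nat_lit 0x80007c002d000300018001000080000000000000000000000000000000) (nat_lit 0x0) (nat_lit 0x4000300000000c0000000000000000000000000000000000000000000) := T_25 (nat_lit 209) (nat_lit 208) (nat_lit 2) (nat_lit 4) (nat_lit 12) L74736 (by decide +kernel)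
theorem L74738 : W_25 (nat_lit 4) (nat_lit 0x80007c0025000300018001000080000000000000000000000000000000) (nat_lit 0x0) (nat_lit 0x4008300080000c0000000000000000000000000000000000000000000) := T_25 (nat_lit 195) (nat_lit 215) (nat_lit 0) (nat_lit 11) (nat_lit 12) L74737 (by decide +kernel)
theorem L74739 : W_25 (nat_lit 5) (nat_lit 0x80007c0005000300018001000080000000000000000000000000000000) (nat_lit 0x0) (nat_lit 0x4008300680000c0000000000000000000000000000000000000000000) := T_25 (nat_lit 197) (nat_lit 198) (nat_lit 2) (nat_lit 7) (nat_lit 12) L74738 (by decide +kernel)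
theorem L74740 : W_25 (nat_lit 6) (nat_lit 0x80003c0005000300018001000080000000000000000000000000000000) (nat_lit 0x0) (nat_lit 0x10400c300680000c0000000000000000000000000000000000000000000) := T_25 (nat_lit 214) (nat_lit 232) (nat_lit 3) (nat_lit 7) (nat_lit 12) L74739 (by decide +kernel)
theorem L74741 : W_25 (nat_lit 7) (nat_lit 0x3c0005000300018001000080000000000000000000000000000000) (nat_lit 0x0) (nat_lit 0x1c400c300680000c0000000000000000000000000000000000000000000) := T_25 (nat_lit 231) (nat_lit 230) (nat_lit 3) (nat_lit 6) (nat_lit 12) L74740 (by decide +kernel)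
theorem L74742 : W_25 (nat_lit 8) (nat_lit 0x1c0005000300018001000080000000000000000000000000000000) (nat_lit 0x0) (nat_lit 0x1c400e3006a0000c0000000000000000000000000000000000000000000) := T_25 (nat_lit 213) (nat_lit 193) (nat_lit 0) (nat_lit 9) (nat_lit 12) L74741 (by decide +kernel)
theorem L74743 : W_25 (nat_lit 9) (nat_lit 0xc0005000300018001000080000000000000000000000000000000) (nat_lit 0x0) (nat_lit 0x1e400f3006a0000c0000000000000000000000000000000000000000000) := T_25 (nat_lit 212) (nat_lit 229) (nat_lit 7) (nat_lit 7) (nat_lit 9) L74742 (by decide +kernel)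
theorem L74744 : W_25 (nat_lit 10) (nat_lit 0x80005000300018001000080000000000000000000000000000000) (nat_lit 0x0) (nat_lit 0x1ec00f7006a0000c0000000000000000000000000000000000000000000) := T_25 (nat_lit 210) (nat_lit 227) (nat_lit 5) (nat_lit 7) (nat_lit 9) L74743 (by decide +kernel)
theorem L74745 : W_25 (nat_lit 11) (nat_lit 0x5000300018001000080000000000000000000000000000000) (nat_lit 0x0) (nat_lit 0x1fc00ff006a0000c0000000000000000000000000000000000000000000) := T_25 (nat_lit 211) (nat_lit 228) (nat_lit 4) (nat_lit 7) (nat_lit 13) L74744 (by decide +kernel)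
theorem L74746 : W_25 (nat_lit 12) (nat_lit 0x5000300008001000080000000000000000000000000000000) (nat_lit 0x0) (nat_lit 0x1fc00ff006a0000c0010000800000000000000000000000000000000000) := T_25 (nat_lit 160) (nat_lit 143) (nat_lit 6) (nat_lit 7) (nat_lit 11) L74745 (by decide +kernel)
theorem L74750 : W_25 (nat_lit 5) (nat_lit 0x5000300008001000080000000000000000000000000000000) (nat_lit 0x0) (nat_lit 0x400020002000080014000c00020000000000000000000000000000000) := T_25 (nat_lit 142) (nat_lit 125) (nat_lit 7) (nat_lit 6) (nat_lit 7) L74749 (by decide +kernel)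
theorem L74751 : W_25 (nat_lit 13) (nat_lit 0x5000300000001000080000000000000000000000000000000) (nat_lit 0x0) (nat_lit 0x1fc00ff006a0000c001c000c00020000000000000000000000000000000) := Q_25 (nat_lit 159) (C_25 L74702 (C_25 L74746 (C_25 L74695 (C_25 L74750 N_25)))) (by decide +kernel)
theorem L74752 : W_25 (nat_lit 14) (nat_lit 0x4000300000001000080000000000000000000000000000000) (nat_lit 0x0) (nat_lit 0x401fe00ff80ebe03ce01df800c00020000000000000000000000000000000) := Q_25 (nat_lit 192) (C_25 L74691 (C_25 L74712 (C_25 L74717 (C_25 L74730 (C_25 L74735 (C_25 L74751 N_25)))))) (by decide +kernel)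
theorem L74753 : W_25 (nat_lit 15) (nat_lit 0x300000001000080000000000000000000000000000000) (nat_lit 0x0) (nat_lit 0x401fe00ff80efe03ce01ff800c00020000000000000000000000000000000) := Q_25 (nat_lit 194) (C_25 L74752 (C_25 L74573 (C_25 L74277 (C_25 L8170 (C_25 L74288 N_25))))) (by decide +kernel)
theorem L74756 : W_25 (nat_lit 4) (nat_lit 0xc000600070001c001000080000000000000000000000000000000) (nat_lit 0x0) (nat_lit 0x400030009c00000000000000000000000000000000000000000000000) := T_25 (nat_lit 191) (nat_lit 192) (nat_lit 2) (nat_lit 4) (nat_lit 11) L74755 (by decide +kernel)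
theorem L74757 : W_25 (nat_lit 5) (nat_lit 0xc000400070001c001000080000000000000000000000000000000) (nat_lit 0x0) (nat_lit 0x40003000bc00000000000200000000000000000000000000000000000) := T_25 (nat_lit 193) (nat_lit 141) (nat_lit 4) (nat_lit 6) (nat_lit 12) L74756 (by decide +kernel)
theorem L74758 : W_25 (nat_lit 6) (nat_lit 0x8000400070001c001000080000000000000000000000000000000) (nat_lit 0x0) (nat_lit 0xc0007000bc00000000000200000000000000000000000000000000000) := T_25 (nat_lit 210) (nat_lit 227) (nat_lit 5) (nat_lit 7) (nat_lit 9) L74757 (by decide +kernel)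
theorem L74759 : W_25 (nat_lit 7) (nat_lit 0x400070001c001000080000000000000000000000000000000) (nat_lit 0x0) (nat_lit 0x1c000f000bc00000000000200000000000000000000000000000000000) := T_25 (nat_lit 211) (nat_lit 228) (nat_lit 4) (nat_lit 7) (nat_lit 13) L74758 (by decide +kernel)
theorem L74760 : W_25 (nat_lit 8) (nat_lit 0x4000700018001000080000000000000000000000000000000) (nat_lit 0x0) (nat_lit 0x1c000f000bc00000006000200000000000000000000000000000000000) := T_25 (nat_lit 158) (nat_lit 157) (nat_lit 3) (nat_lit 4) (nat_lit 9) L74759 (by decide +kernel)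
theorem L74761 : W_25 (nat_lit 9) (nat_lit 0x4000700008001000080000000000000000000000000000000) (nat_lit 0x0) (nat_lit 0x1c000f000bc00000016000a00000000000000000000000000000000000) := T_25 (nat_lit 160) (nat_lit 143) (nat_lit 6) (nat_lit 7) (nat_lit 11) L74760 (by decide +kernel)
theorem L74762 : W_25 (nat_lit 2) (nat_lit 0x5e0006000f00018001000080000000000000000000000000000000) (nat_lit 0x0) (nat_lit 0x18008000000000000000000000000000000000000000000000000) := D_25 (nat_lit 208) (nat_lit 195) (nat_lit 207) (nat_lit 2) (nat_lit 4) (nat_lit 12) (nat_lit 2) (nat_lit 3) (nat_lit 12) (by decide +kernel)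
theorem L74763 : W_25 (nat_lit 3) (nat_lit 0x5c0006000f00018001000080000000000000000000000000000000) (nat_lit 0x0) (nat_lit 0x400038008000000000000000000000000000000000000000000000000) := T_25 (nat_lit 209) (nat_lit 226) (nat_lit 5) (nat_lit 6) (nat_lit 9) L74762 (by decide +kernel)
theorem L74764 : W_25 (nat_lit 4) (nat_lit 0x1c0006000f00018001000080000000000000000000000000000000) (nat_lit 0x0) (nat_lit 0x400638008000000000000000000000000000000000000000000000000) := T_25 (nat_lit 214) (nat_lit 213) (nat_lit 0) (nat_lit 10) (nat_lit 12) L74763 (by decide +kernel)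
theorem L74765 : W_25 (nat_lit 5) (nat_lit 0x1c0004000f00018001000080000000000000000000000000000000) (nat_lit 0x0) (nat_lit 0x40063800b000000000000000000000000000000000000000000000000) := T_25 (nat_lit 193) (nat_lit 192) (nat_lit 1) (nat_lit 9) (nat_lit 10) L74764 (by decide +kernel)
theorem L74766 : W_25 (nat_lit 6) (nat_lit 0x1c0004000700018001000080000000000000000000000000000000) (nat_lit 0x0) (nat_lit 0x40063800b001800000000000000000000000000000000000000000000) := T_25 (nat_lit 179) (nat_lit 180) (nat_lit 0) (nat_lit 10) (nat_lit 10) L74765 (by decide +kernel)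
theorem L74767 : W_25 (nat_lit 7) (nat_lit 0xc0004000700018001000080000000000000000000000000000000) (nat_lit 0x0) (nat_lit 0x240073800b001800000000000000000000000000000000000000000000) := T_25 (nat_lit 212) (nat_lit 229) (nat_lit 7) (nat_lit 7) (nat_lit 9) L74766 (by decide +kernel)
theorem L74768 : W_25 (nat_lit 8) (nat_lit 0x80004000700018001000080000000000000000000000000000000) (nat_lit 0x0) (nat_lit 0x2c0077800b001800000000000000000000000000000000000000000000) := T_25 (nat_lit 210) (nat_lit 227) (nat_lit 5) (nat_lit 7) (nat_lit 9) L74767 (by decide +kernel)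
theorem L74769 : W_25 (nat_lit 9) (nat_lit 0x80004000700008001000080000000000000000000000000000000) (nat_lit 0x0) (nat_lit 0x2c0077800b001800010000800000000000000000000000000000000000) := T_25 (nat_lit 160) (nat_lit 143) (nat_lit 6) (nat_lit 7) (nat_lit 11) L74768 (by decide +kernel)
theorem L74770 : W_25 (nat_lit 10) (nat_lit 0x4000700008001000080000000000000000000000000000000) (nat_lit 0x0) (nat_lit 0x3c007f800b001800010000800000000000000000000000000000000000) := T_25 (nat_lit 211) (nat_lit 228) (nat_lit 4) (nat_lit 7) (nat_lit 13) L74769 (by decide +kernel)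
theorem L74771 : W_25 (nat_lit 11) (nat_lit 0x4000300008001000080000000000000000000000000000000) (nat_lit 0x0) (nat_lit 0x3c007f800bc01c00016000a00000000000000000000000000000000000) := Q_25 (nat_lit 178) (C_25 L15511 (C_25 L15501 (C_25 L74761 (C_25 L74770 N_25)))) (by decide +kernel)
theorem L74772 : W_25 (nat_lit 12) (nat_lit 0x4000300000001000080000000000000000000000000000000) (nat_lit 0x0) (nat_lit 0x3c007f800bc01c0001e000e00060000000000000000000000000000000) := Q_25 (nat_lit 159) (C_25 L74562 (C_25 L74560 (C_25 L74771 (C_25 L74558 N_25)))) (by decide +kernel)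
theorem L74773 : W_25 (nat_lit 2) (nat_lit 0x800000006000700010001000080000000000000000000000000000000) (nat_lit 0x0) (nat_lit 0x1800800000000000000000000000000000000000000000000) := D_25 (nat_lit 192) (nat_lit 191) (nat_lit 179) (nat_lit 2) (nat_lit 4) (nat_lit 11) (nat_lit 1) (nat_lit 9) (nat_lit 10) (by decide +kernel)
theorem L74774 : W_25 (nat_lit 3) (nat_lit 0x800000006000300010001000080000000000000000000000000000000) (nat_lit 0x0) (nat_lit 0x1800c00020000000000000000000000000000000000000000) := T_25 (nat_lit 178) (nat_lit 161) (nat_lit 5) (nat_lit 8) (nat_lit 7) L74773 (by decide +kernel)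
theorem L74775 : W_25 (nat_lit 4) (nat_lit 0x6000300010001000080000000000000000000000000000000) (nat_lit 0x0) (nat_lit 0x800040001800c00020000000000000000000000000000000000000000) := T_25 (nat_lit 227) (nat_lit 210) (nat_lit 6) (nat_lit 6) (nat_lit 13) L74774 (by decide +kernel)
theorem L74776 : W_25 (nat_lit 5) (nat_lit 0x6000300000001000080000000000000000000000000000000) (nat_lit 0x0) (nat_lit 0x800040001800c00030000800000000000000000000000000000000000) := T_25 (nat_lit 160) (nat_lit 143) (nat_lit 6) (nat_lit 7) (nat_lit 11) L74775 (by decide +kernel)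
theorem L74777 : W_25 (nat_lit 2) (nat_lit 0x6000300028001400080000000000000000000000000000000) (nat_lit 0x0) (nat_lit 0x10000800040000000000000000000000000000000) := D_25 (nat_lit 143) (nat_lit 160) (nat_lit 126) (nat_lit 6) (nat_lit 7) (nat_lit 11) (nat_lit 6) (nat_lit 6) (nat_lit 11) (by decide +kernel)
theorem L74778 : W_25 (nat_lit 3) (nat_lit 0x6000300028001000080000000000000000000000000000000) (nat_lit 0x0) (nat_lit 0x10000c00060000000000000000000000000000000) := T_25 (nat_lit 142) (nat_lit 125) (nat_lit 7) (nat_lit 6) (nat_lit 7) L74777 (by decide +kernel)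
theorem L74779 : W_25 (nat_lit 4) (nat_lit 0x6000300008001000080000000000000000000000000000000) (nat_lit 0x0) (nat_lit 0x400030000c00060000000000000000000000000000000) := T_25 (nat_lit 161) (nat_lit 178) (nat_lit 5) (nat_lit 8) (nat_lit 7) L74778 (by decide +kernel)
theorem L74780 : W_25 (nat_lit 13) (nat_lit 0x6000300000001000080000000000000000000000000000000) (nat_lit 0x0) (nat_lit 0xc00078001c004600ff000f80070000000000000000000000000000000) := Q_25 (nat_lit 159) (C_25 L74779 (C_25 L74295 (C_25 L74316 (C_25 L74306 (C_25 L74318 N_25))))) (by decide +kernel)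
theorem L74781 : W_25 (nat_lit 2) (nat_lit 0x800000007000300018001700080000000000000000000000000000000) (nat_lit 0x0) (nat_lit 0x64000000000000000000000000000000000000000) := D_25 (nat_lit 161) (nat_lit 162) (nat_lit 158) (nat_lit 0) (nat_lit 9) (nat_lit 9) (nat_lit 0) (nat_lit 8) (nat_lit 9) (by decide +kernel)
theorem L74782 : W_25 (nat_lit 3) (nat_lit 0x800000007000300018001600080000000000000000000000000000000) (nat_lit 0x0) (nat_lit 0x64000180000000000000000000000000000000000) := T_25 (nat_lit 140) (nat_lit 139) (nat_lit 3) (nat_lit 3) (nat_lit 8) L74781 (by decide +kernel)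
theorem L74783 : W_25 (nat_lit 4) (nat_lit 0x800000007000300018001400080000000000000000000000000000000) (nat_lit 0x0) (nat_lit 0x64000380010000000000000000000000000000000) := T_25 (nat_lit 141) (nat_lit 124) (nat_lit 4) (nat_lit 6) (nat_lit 11) L74782 (by decide +kernel)
theorem L74784 : W_25 (nat_lit 5) (nat_lit 0x800000006000300018001400080000000000000000000000000000000) (nat_lit 0x0) (nat_lit 0x20001000000064000380010000000000000000000000000000000) := T_25 (nat_lit 192) (nat_lit 209) (nat_lit 5) (nat_lit 6) (nat_lit 8) L74783 (by decide +kernel)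
theorem L74785 : W_25 (nat_lit 6) (nat_lit 0x800000006000300018001000080000000000000000000000000000000) (nat_lit 0x0) (nat_lit 0x20001000000064000780030000000000000000000000000000000) := T_25 (nat_lit 142) (nat_lit 125) (nat_lit 7) (nat_lit 6) (nat_lit 7) L74784 (by decide +kernel)
theorem L74786 : W_25 (nat_lit 7) (nat_lit 0x6000300018001000080000000000000000000000000000000) (nat_lit 0x0) (nat_lit 0x800060001000000064000780030000000000000000000000000000000) := T_25 (nat_lit 227) (nat_lit 210) (nat_lit 6) (nat_lit 6) (nat_lit 13) L74785 (by decide +kernel)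
theorem L74787 : W_25 (nat_lit 8) (nat_lit 0x6000300008001000080000000000000000000000000000000) (nat_lit 0x0) (nat_lit 0x800060001000000074000f80030000000000000000000000000000000) := T_25 (nat_lit 160) (nat_lit 143) (nat_lit 6) (nat_lit 7) (nat_lit 11) L74786 (by decide +kernel)
theorem L74788 : W_25 (nat_lit 2) (nat_lit 0x7000780034001a0010000a0000000000000000000000000000000) (nat_lit 0x0) (nat_lit 0x5000080000000000000000000000000000000000) := D_25 (nat_lit 156) (nat_lit 139) (nat_lit 158) (nat_lit 4) (nat_lit 4) (nat_lit 12) (nat_lit 3) (nat_lit 3) (nat_lit 9) (by decide +kernel)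
theorem L74789 : W_25 (nat_lit 3) (nat_lit 0x700078003400180010000a0000000000000000000000000000000) (nat_lit 0x0) (nat_lit 0x7000180000000000000000000000000000000000) := T_25 (nat_lit 157) (nat_lit 140) (nat_lit 7) (nat_lit 4) (nat_lit 8) L74788 (by decide +kernel)
theorem L74790 : W_25 (nat_lit 4) (nat_lit 0x700078003000180010000a0000000000000000000000000000000) (nat_lit 0x0) (nat_lit 0x60007000180000000000000000000000000000000000) := T_25 (nat_lit 174) (nat_lit 173) (nat_lit 0) (nat_lit 7) (nat_lit 11) L74789 (by decide +kernel)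
theorem L74791 : W_25 (nat_lit 5) (nat_lit 0x700070003000180010000a0000000000000000000000000000000) (nat_lit 0x0) (nat_lit 0xc00060007000180000000000000000000000000000000000) := T_25 (nat_lit 191) (nat_lit 190) (nat_lit 2) (nat_lit 3) (nat_lit 11) L74790 (by decide +kernel)
theorem L74792 : W_25 (nat_lit 6) (nat_lit 0x700060003000180010000a0000000000000000000000000000000) (nat_lit 0x0) (nat_lit 0x9c00060007000180000000000000000000000000000000000) := T_25 (nat_lit 192) (nat_lit 195) (nat_lit 1) (nat_lit 8) (nat_lit 11) L74791 (by decide +kernel)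
theorem L74793 : W_25 (nat_lit 7) (nat_lit 0x600060003000180010000a0000000000000000000000000000000) (nat_lit 0x0) (nat_lit 0x18009c00060007000180000000000000000000000000000000000) := T_25 (nat_lit 208) (nat_lit 207) (nat_lit 2) (nat_lit 3) (nat_lit 12) L74792 (by decide +kernel)
theorem L74794 : W_25 (nat_lit 8) (nat_lit 0x400060003000180010000a0000000000000000000000000000000) (nat_lit 0x0) (nat_lit 0x400038009c00060007000180000000000000000000000000000000000) := T_25 (nat_lit 209) (nat_lit 226) (nat_lit 5) (nat_lit 6) (nat_lit 9) L74793 (by decide +kernel)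
theorem L74795 : W_25 (nat_lit 9) (nat_lit 0x60003000180010000a0000000000000000000000000000000) (nat_lit 0x0) (nat_lit 0xc00078009c00060007000180000000000000000000000000000000000) := T_25 (nat_lit 210) (nat_lit 227) (nat_lit 6) (nat_lit 6) (nat_lit 13) L74794 (by decide +kernel)
theorem L74796 : W_25 (nat_lit 10) (nat_lit 0x60003000080010000a0000000000000000000000000000000) (nat_lit 0x0) (nat_lit 0xc00078009c00060017000980000000000000000000000000000000000) := T_25 (nat_lit 160) (nat_lit 143) (nat_lit 6) (nat_lit 7) (nat_lit 11) L74795 (by decide +kernel)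
theorem L74797 : W_25 (nat_lit 11) (nat_lit 0x6000300008001000080000000000000000000000000000000) (nat_lit 0x0) (nat_lit 0xc00078009c00060017000d80020000000000000000000000000000000) := T_25 (nat_lit 125) (nat_lit 142) (nat_lit 7) (nat_lit 6) (nat_lit 7) L74796 (by decide +kernel)
theorem L74798 : W_25 (nat_lit 12) (nat_lit 0x6000300000001000080000000000000000000000000000000) (nat_lit 0x0) (nat_lit 0x10000c00078009c0006007f000f80170000000000000000000000000000000) := Q_25 (nat_lit 159) (C_25 L74787 (C_25 L8298 (C_25 L74330 (C_25 L8297 (C_25 L74797 N_25))))) (by decide +kernel)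
theorem L74799 : W_25 (nat_lit 12) (nat_lit 0x6000300000001000080000000000000000000000000000000) (nat_lit 0x0) (nat_lit 0x10000c00078009c0006001f000f80170000000000000000000000000000000) := Q_25 (nat_lit 159) (C_25 L8297 (C_25 L8298 (C_25 L74797 (C_25 L74330 N_25)))) (by decide +kernel)
theorem L74800 : W_25 (nat_lit 14) (nat_lit 0x4000300000001000080000000000000000000000000000000) (nat_lit 0x0) (nat_lit 0x10000c0007800bc01c600ff000f80170000000000000000000000000000000) := Q_25 (nat_lit 193) (C_25 L74776 (C_25 L74780 (C_25 L74798 (C_25 L16856 (C_25 L74799 (C_25 L74333 N_25)))))) (by decide +kernel)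
theorem L74801 : W_25 (nat_lit 15) (nat_lit 0x300000001000080000000000000000000000000000000) (nat_lit 0x0) (nat_lit 0x10003c007f80efc03c601ff000f80170000000000000000000000000000000) := Q_25 (nat_lit 194) (C_25 L74772 (C_25 L74573 (C_25 L74277 (C_25 L74288 (C_25 L74800 N_25))))) (by decide +kernel)
theorem L74802 : W_25 (nat_lit 15) (nat_lit 0x300000001000080000000000000000000000000000000) (nat_lit 0x0) (nat_lit 0x10a008500efe03ce01f7804f8075e00a000000000000000000000000000) := Q_25 (nat_lit 178) (C_25 L74622 (C_25 L74010 (C_25 L74669 (C_25 L74636 N_25)))) (by decide +kernel)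
theorem L74803 : W_25 (nat_lit 2) (nat_lit 0x1000000014003e000e001700080000000000000000000000000000000) (nat_lit 0x0) (nat_lit 0x40002000000000000000010000000000000000000000000000000) := D_25 (nat_lit 193) (nat_lit 210) (nat_lit 124) (nat_lit 7) (nat_lit 5) (nat_lit 8) (nat_lit 7) (nat_lit 5) (nat_lit 7) (by decide +kernel)
theorem L74804 : W_25 (nat_lit 3) (nat_lit 0x1000000014003e000e001500080000000000000000000000000000000) (nat_lit 0x0) (nat_lit 0x40002000000000000a00010000000000000000000000000000000) := T_25 (nat_lit 141) (nat_lit 143) (nat_lit 1) (nat_lit 8) (nat_lit 8) L74803 (by decide +kernel)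
theorem L74805 : W_25 (nat_lit 4) (nat_lit 0x1000000014003e000e001100080000000000000000000000000000000) (nat_lit 0x0) (nat_lit 0x40002000000000000e00030000000000000000000000000000000) := T_25 (nat_lit 142) (nat_lit 125) (nat_lit 5) (nat_lit 6) (nat_lit 7) L74804 (by decide +kernel)
theorem L74806 : W_25 (nat_lit 5) (nat_lit 0x1000000004003e000e001100080000000000000000000000000000000) (nat_lit 0x0) (nat_lit 0x60003000000000000e00030000000000000000000000000000000) := T_25 (nat_lit 192) (nat_lit 209) (nat_lit 4) (nat_lit 5) (nat_lit 12) L74805 (by decide +kernel)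
theorem L74807 : W_25 (nat_lit 6) (nat_lit 0x1000000004003e000e001000080000000000000000000000000000000) (nat_lit 0x0) (nat_lit 0x60003000000000000f00038000000000000000000000000000000) := T_25 (nat_lit 140) (nat_lit 123) (nat_lit 5) (nat_lit 4) (nat_lit 7) L74806 (by decide +kernel)
theorem L74808 : W_25 (nat_lit 7) (nat_lit 0x4003e000e001000080000000000000000000000000000000) (nat_lit 0x0) (nat_lit 0x100068003000000000000f00038000000000000000000000000000000) := T_25 (nat_lit 224) (nat_lit 207) (nat_lit 6) (nat_lit 3) (nat_lit 13) L74807 (by decide +kernel)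
theorem L74809 : W_25 (nat_lit 8) (nat_lit 0x4003e000a001000080000000000000000000000000000000) (nat_lit 0x0) (nat_lit 0x100068003000010004000f00038000000000000000000000000000000) := T_25 (nat_lit 158) (nat_lit 172) (nat_lit 2) (nat_lit 2) (nat_lit 10) L74808 (by decide +kernel)
theorem L74810 : W_25 (nat_lit 9) (nat_lit 0x4003e0002001000080000000000000000000000000000000) (nat_lit 0x0) (nat_lit 0x10006800300001001c000f00038000000000000000000000000000000) := T_25 (nat_lit 159) (nat_lit 160) (nat_lit 2) (nat_lit 3) (nat_lit 10) L74809 (by decide +kernel)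
theorem L74811 : W_25 (nat_lit 10) (nat_lit 0x4003c0002001000080000000000000000000000000000000) (nat_lit 0x0) (nat_lit 0x10006800320003001c000f00038000000000000000000000000000000) := T_25 (nat_lit 173) (nat_lit 189) (nat_lit 1) (nat_lit 6) (nat_lit 10) L74810 (by decide +kernel)
theorem L74812 : W_25 (nat_lit 11) (nat_lit 0x3c0002001000080000000000000000000000000000000) (nat_lit 0x0) (nat_lit 0x100068003e0003001c000f00038000000000000000000000000000000) := T_25 (nat_lit 190) (nat_lit 191) (nat_lit 1) (nat_lit 7) (nat_lit 10) L74811 (by decide +kernel)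
theorem L74813 : W_25 (nat_lit 12) (nat_lit 0x3c0000001000080000000000000000000000000000000) (nat_lit 0x0) (nat_lit 0x100068003e0003001f000f00038000000000000000000000000000000) := T_25 (nat_lit 157) (nat_lit 156) (nat_lit 0) (nat_lit 7) (nat_lit 10) L74812 (by decide +kernel)
theorem L74814 : W_25 (nat_lit 5) (nat_lit 0x3c0000001000080000000000000000000000000000000) (nat_lit 0x0) (nat_lit 0x10000c00400007000200010000000000000000000000000000000) := T_25 (nat_lit 191) (nat_lit 190) (nat_lit 1) (nat_lit 7) (nat_lit 10) L12658 (by decide +kernel)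
theorem L74815 : W_25 (nat_lit 2) (nat_lit 0x18003c0002001000080000000000000000000000000000000) (nat_lit 0x0) (nat_lit 0x400020000000000000000100000000000000000000000000000000000) := D_25 (nat_lit 209) (nat_lit 226) (nat_lit 140) (nat_lit 4) (nat_lit 5) (nat_lit 13) (nat_lit 7) (nat_lit 4) (nat_lit 8) (by decide +kernel)
theorem L74816 : W_25 (nat_lit 3) (nat_lit 0x8003c0002001000080000000000000000000000000000000) (nat_lit 0x0) (nat_lit 0x400020001000400000000100000000000000000000000000000000000) := T_25 (nat_lit 192) (nat_lit 178) (nat_lit 1) (nat_lit 8) (nat_lit 10) L74815 (by decide +kernel)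
theorem L74817 : W_25 (nat_lit 4) (nat_lit 0x3c0002001000080000000000000000000000000000000) (nat_lit 0x0) (nat_lit 0x400020001c00400000000100000000000000000000000000000000000) := T_25 (nat_lit 191) (nat_lit 190) (nat_lit 1) (nat_lit 7) (nat_lit 10) L74816 (by decide +kernel)
theorem L74818 : W_25 (nat_lit 5) (nat_lit 0x3c0000001000080000000000000000000000000000000) (nat_lit 0x0) (nat_lit 0x400020001c00400003000100000000000000000000000000000000000) := T_25 (nat_lit 157) (nat_lit 156) (nat_lit 0) (nat_lit 7) (nat_lit 10) L74817 (by decide +kernel)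
theorem L74823 : W_25 (nat_lit 2) (nat_lit 0x4000000030007e000a001600088000000000000000000000000000000) (nat_lit 0x0) (nat_lit 0x800140000000000000000000000000000000) := D_25 (nat_lit 143) (nat_lit 128) (nat_lit 126) (nat_lit 2) (nat_lit 5) (nat_lit 8) (nat_lit 6) (nat_lit 6) (nat_lit 11) (by decide +kernel)
theorem L74824 : W_25 (nat_lit 3) (nat_lit 0x4000000030007e000a001400088000000000000000000000000000000) (nat_lit 0x0) (nat_lit 0xa00150000000000000000000000000000000) := T_25 (nat_lit 141) (nat_lit 124) (nat_lit 4) (nat_lit 6) (nat_lit 11) L74823 (by decide +kernel)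
theorem L74825 : W_25 (nat_lit 4) (nat_lit 0x4000000030007e000a001000088000000000000000000000000000000) (nat_lit 0x0) (nat_lit 0xe00170000000000000000000000000000000) := T_25 (nat_lit 142) (nat_lit 125) (nat_lit 5) (nat_lit 6) (nat_lit 7) L74824 (by decide +kernel)
theorem L74826 : W_25 (nat_lit 5) (nat_lit 0x4000000030007e0002001000088000000000000000000000000000000) (nat_lit 0x0) (nat_lit 0x18000e00170000000000000000000000000000000) := T_25 (nat_lit 159) (nat_lit 160) (nat_lit 2) (nat_lit 3) (nat_lit 10) L74825 (by decide +kernel)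
theorem L74827 : W_25 (nat_lit 6) (nat_lit 0x30007e0002001000088000000000000000000000000000000) (nat_lit 0x0) (nat_lit 0x400020000000000018000e00170000000000000000000000000000000) := T_25 (nat_lit 226) (nat_lit 209) (nat_lit 4) (nat_lit 5) (nat_lit 13) L74826 (by decide +kernel)
theorem L74828 : W_25 (nat_lit 7) (nat_lit 0x30007c0002001000088000000000000000000000000000000) (nat_lit 0x0) (nat_lit 0x400020000000030018000e00170000000000000000000000000000000) := T_25 (nat_lit 173) (nat_lit 172) (nat_lit 3) (nat_lit 2) (nat_lit 10) L74827 (by decide +kernel)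
theorem L74829 : W_25 (nat_lit 8) (nat_lit 0x30007c0002001000080000000000000000000000000000000) (nat_lit 0x0) (nat_lit 0x400020000000030018000f00178000000000000000000000000000000) := T_25 (nat_lit 123) (nat_lit 140) (nat_lit 7) (nat_lit 4) (nat_lit 7) L74828 (by decide +kernel)
theorem L74830 : W_25 (nat_lit 9) (nat_lit 0x10007c0002001000080000000000000000000000000000000) (nat_lit 0x0) (nat_lit 0x400020002000830018000f00178000000000000000000000000000000) := T_25 (nat_lit 193) (nat_lit 179) (nat_lit 1) (nat_lit 9) (nat_lit 10) L74829 (by decide +kernel)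
theorem L74831 : W_25 (nat_lit 10) (nat_lit 0x7c0002001000080000000000000000000000000000000) (nat_lit 0x0) (nat_lit 0x400020003800830018000f00178000000000000000000000000000000) := T_25 (nat_lit 192) (nat_lit 191) (nat_lit 1) (nat_lit 8) (nat_lit 10) L74830 (by decide +kernel)
theorem L74832 : W_25 (nat_lit 11) (nat_lit 0x3c0002001000080000000000000000000000000000000) (nat_lit 0x0) (nat_lit 0x400020003800c3001c000f00178000000000000000000000000000000) := T_25 (nat_lit 178) (nat_lit 158) (nat_lit 0) (nat_lit 8) (nat_lit 10) L74831 (by decide +kernel)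
theorem L74833 : W_25 (nat_lit 12) (nat_lit 0x3c0000001000080000000000000000000000000000000) (nat_lit 0x0) (nat_lit 0x400020003800c3001f000f00178000000000000000000000000000000) := T_25 (nat_lit 157) (nat_lit 156) (nat_lit 0) (nat_lit 7) (nat_lit 10) L74832 (by decide +kernel)
theorem L74834 : W_25 (nat_lit 13) (nat_lit 0x380000001000080000000000000000000000000000000) (nat_lit 0x0) (nat_lit 0x500078003f00c7001fc00f00178000000000000000000000000000000) := Q_25 (nat_lit 174) (C_25 L74202 (C_25 L74813 (C_25 L74814 (C_25 L74818 (C_25 L13197 (C_25 L13237 (C_25 L74822 (C_25 L74833 N_25)))))))) (by decide +kernel)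
theorem L74841 : W_25 (nat_lit 8) (nat_lit 0x380000001000080000000000000000000000000000000) (nat_lit 0x0) (nat_lit 0x400020003f00c7003fc00100000000000000000000000000000000000) := Q_25 (nat_lit 174) (C_25 L74818 (C_25 L74822 (C_25 L13237 (C_25 L13197 (C_25 L74840 N_25))))) (by decide +kernel)
theorem L74842 : W_25 (nat_lit 2) (nat_lit 0x3e0011001000080000000000000000000000000000000) (nat_lit 0x0) (nat_lit 0xe00000000000000000000000000000000000000000000000) := D_25 (nat_lit 190) (nat_lit 191) (nat_lit 189) (nat_lit 1) (nat_lit 7) (nat_lit 10) (nat_lit 1) (nat_lit 6) (nat_lit 10) (by decide +kernel)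
theorem L74843 : W_25 (nat_lit 3) (nat_lit 0x3c0011001000080000000000000000000000000000000) (nat_lit 0x0) (nat_lit 0xe00020000800000000000000000000000000000000000000) := T_25 (nat_lit 173) (nat_lit 155) (nat_lit 0) (nat_lit 6) (nat_lit 10) L74842 (by decide +kernel)
theorem L74844 : W_25 (nat_lit 4) (nat_lit 0x3c0001001000080000000000000000000000000000000) (nat_lit 0x0) (nat_lit 0xe00020030800000000000000000000000000000000000000) := T_25 (nat_lit 160) (nat_lit 161) (nat_lit 2) (nat_lit 4) (nat_lit 10) L74843 (by decide +kernel)
theorem L74845 : W_25 (nat_lit 5) (nat_lit 0x3c0000001000080000000000000000000000000000000) (nat_lit 0x0) (nat_lit 0xe00020033800000000000000000000000000000000000000) := T_25 (nat_lit 156) (nat_lit 157) (nat_lit 0) (nat_lit 7) (nat_lit 10) L74844 (by decide +kernel)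
theorem L74851 : W_25 (nat_lit 5) (nat_lit 0x3c0004001000080000000000000000000000000000000) (nat_lit 0x0) (nat_lit 0x200010000c00000033000200000000000000000000000000000000000) := T_25 (nat_lit 160) (nat_lit 161) (nat_lit 2) (nat_lit 4) (nat_lit 10) L74850 (by decide +kernel)
theorem L74852 : W_25 (nat_lit 2) (nat_lit 0x100008003c0014001000080000000000000000000000000000000) (nat_lit 0x0) (nat_lit 0x1000000000000200010000000000000000000000000000000) := D_25 (nat_lit 141) (nat_lit 124) (nat_lit 192) (nat_lit 5) (nat_lit 5) (nat_lit 7) (nat_lit 5) (nat_lit 5) (nat_lit 8) (by decide +kernel)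
theorem L74853 : W_25 (nat_lit 3) (nat_lit 0x8003c0014001000080000000000000000000000000000000) (nat_lit 0x0) (nat_lit 0x200010001000000000000200010000000000000000000000000000000) := T_25 (nat_lit 208) (nat_lit 225) (nat_lit 6) (nat_lit 4) (nat_lit 13) L74852 (by decide +kernel)
theorem L74854 : W_25 (nat_lit 4) (nat_lit 0x8003c0004001000080000000000000000000000000000000) (nat_lit 0x0) (nat_lit 0x200010001000000030000200010000000000000000000000000000000) := T_25 (nat_lit 160) (nat_lit 161) (nat_lit 2) (nat_lit 4) (nat_lit 10) L74853 (by decide +kernel)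
theorem L74855 : W_25 (nat_lit 5) (nat_lit 0x3c0004001000080000000000000000000000000000000) (nat_lit 0x0) (nat_lit 0x200010001c00000030000200010000000000000000000000000000000) := T_25 (nat_lit 191) (nat_lit 190) (nat_lit 1) (nat_lit 7) (nat_lit 10) L74854 (by decide +kernel)
theorem L74856 : W_25 (nat_lit 7) (nat_lit 0x3c0000001000080000000000000000000000000000000) (nat_lit 0x0) (nat_lit 0x200030001c0000003f000b80018000000000000000000000000000000) := Q_25 (nat_lit 158) (C_25 L74847 (C_25 L74851 (C_25 L13199 (C_25 L74855 N_25)))) (by decide +kernel)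
theorem L74857 : W_25 (nat_lit 2) (nat_lit 0x4003c0010001000080000000000000000000000000000000) (nat_lit 0x0) (nat_lit 0x200020008000000000000000000000000000000000000000) := D_25 (nat_lit 173) (nat_lit 159) (nat_lit 189) (nat_lit 2) (nat_lit 3) (nat_lit 10) (nat_lit 1) (nat_lit 6) (nat_lit 10) (by decide +kernel)
theorem L74858 : W_25 (nat_lit 3) (nat_lit 0x4003c0000001000080000000000000000000000000000000) (nat_lit 0x0) (nat_lit 0x200020038000000000000000000000000000000000000000) := T_25 (nat_lit 160) (nat_lit 161) (nat_lit 2) (nat_lit 4) (nat_lit 10) L74857 (by decide +kernel)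
theorem L74859 : W_25 (nat_lit 4) (nat_lit 0x3c0000001000080000000000000000000000000000000) (nat_lit 0x0) (nat_lit 0xe00020038000000000000000000000000000000000000000) := T_25 (nat_lit 190) (nat_lit 191) (nat_lit 1) (nat_lit 7) (nat_lit 10) L74858 (by decide +kernel)
theorem L74860 : W_25 (nat_lit 8) (nat_lit 0x380000001000080000000000000000000000000000000) (nat_lit 0x0) (nat_lit 0x200030001f0007003fc00b80018000000000000000000000000000000) := Q_25 (nat_lit 174) (C_25 L74845 (C_25 L71636 (C_25 L74856 (C_25 L13197 (C_25 L13237 (C_25 L74859 (C_25 L71648 N_25))))))) (by decide +kernel)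
theorem L74861 : W_25 (nat_lit 9) (nat_lit 0x380000001000080000000000000000000000000000000) (nat_lit 0x0) (nat_lit 0x80004000b800c40077000e0034000a000000000000000000000000000) := Q_25 (nat_lit 178) (C_25 L74681 (C_25 L72944 (C_25 L73924 (C_25 L74446 N_25)))) (by decide +kernel)
theorem L74862 : W_25 (nat_lit 9) (nat_lit 0x380000001000080000000000000000000000000000000) (nat_lit 0x0) (nat_lit 0x80006000b800c0006e000e0036000a000000000000000000000000000) := Q_25 (nat_lit 178) (C_25 L72944 (C_25 L74681 (C_25 L74450 (C_25 L74446 (C_25 L74675 N_25))))) (by decide +kernel)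
theorem L74863 : W_25 (nat_lit 2) (nat_lit 0x8003c0022001000080000000000000000000000000000000) (nat_lit 0x0) (nat_lit 0x400044000000000000000000000000000000000000000) := D_25 (nat_lit 178) (nat_lit 162) (nat_lit 158) (nat_lit 2) (nat_lit 5) (nat_lit 10) (nat_lit 0) (nat_lit 8) (nat_lit 10) (by decide +kernel)
theorem L74864 : W_25 (nat_lit 3) (nat_lit 0x8003c0020001000080000000000000000000000000000000) (nat_lit 0x0) (nat_lit 0x400047000000000000000000000000000000000000000) := T_25 (nat_lit 157) (nat_lit 156) (nat_lit 0) (nat_lit 7) (nat_lit 10) L74863 (by decide +kernel)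
theorem L74865 : W_25 (nat_lit 4) (nat_lit 0x3c0020001000080000000000000000000000000000000) (nat_lit 0x0) (nat_lit 0xc00400047000000000000000000000000000000000000000) := T_25 (nat_lit 191) (nat_lit 190) (nat_lit 1) (nat_lit 7) (nat_lit 10) L74864 (by decide +kernel)
theorem L74866 : W_25 (nat_lit 5) (nat_lit 0x380020001000080000000000000000000000000000000) (nat_lit 0x0) (nat_lit 0xc00440057000000000000000000000000000000000000000) := T_25 (nat_lit 174) (nat_lit 160) (nat_lit 2) (nat_lit 4) (nat_lit 10) L74865 (by decide +kernel)
theorem L74867 : W_25 (nat_lit 7) (nat_lit 0x780020001000080000000000000000000000000000000) (nat_lit 0x0) (nat_lit 0x800080000e000e0034000a000000000000000000000000000) := T_25 (nat_lit 158) (nat_lit 157) (nat_lit 0) (nat_lit 8) (nat_lit 10) L74673 (by decide +kernel)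
theorem L74868 : W_25 (nat_lit 8) (nat_lit 0x380020001000080000000000000000000000000000000) (nat_lit 0x0) (nat_lit 0x8000c0004e000e0034000a000000000000000000000000000) := T_25 (nat_lit 178) (nat_lit 162) (nat_lit 2) (nat_lit 5) (nat_lit 10) L74867 (by decide +kernel)
theorem L74869 : W_25 (nat_lit 2) (nat_lit 0x8007c00200018001c0000000000000000000000000000000) (nat_lit 0x0) (nat_lit 0x600200000000000000000000000000000000) := D_25 (nat_lit 142) (nat_lit 141) (nat_lit 129) (nat_lit 2) (nat_lit 5) (nat_lit 8) (nat_lit 1) (nat_lit 10) (nat_lit 7) (by decide +kernel)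
theorem L74870 : W_25 (nat_lit 3) (nat_lit 0x8007c00200010001c0000000000000000000000000000000) (nat_lit 0x0) (nat_lit 0x8000000000000e00200000000000000000000000000000000) := T_25 (nat_lit 143) (nat_lit 195) (nat_lit 4) (nat_lit 8) (nat_lit 11) L74869 (by decide +kernel)
theorem L74871 : W_25 (nat_lit 4) (nat_lit 0x8007c0020001000180000000000000000000000000000000) (nat_lit 0x0) (nat_lit 0x8000000000000e00240002000000000000000000000000000) := T_25 (nat_lit 126) (nat_lit 109) (nat_lit 4) (nat_lit 8) (nat_lit 10) L74870 (by decide +kernel)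
theorem L74872 : W_25 (nat_lit 5) (nat_lit 0x8007c0020001000080000000000000000000000000000000) (nat_lit 0x0) (nat_lit 0x8000000000000e0034000a000000000000000000000000000) := T_25 (nat_lit 128) (nat_lit 111) (nat_lit 6) (nat_lit 8) (nat_lit 10) L74871 (by decide +kernel)
theorem L74873 : W_25 (nat_lit 6) (nat_lit 0x7c0020001000080000000000000000000000000000000) (nat_lit 0x0) (nat_lit 0x8c00000000000e0034000a000000000000000000000000000) := T_25 (nat_lit 191) (nat_lit 190) (nat_lit 1) (nat_lit 7) (nat_lit 10) L74872 (by decide +kernel)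
theorem L74874 : W_25 (nat_lit 7) (nat_lit 0x780020001000080000000000000000000000000000000) (nat_lit 0x0) (nat_lit 0x8c00040010000e0034000a000000000000000000000000000) := T_25 (nat_lit 174) (nat_lit 160) (nat_lit 2) (nat_lit 4) (nat_lit 10) L74873 (by decide +kernel)
theorem L74875 : W_25 (nat_lit 8) (nat_lit 0x380020001000080000000000000000000000000000000) (nat_lit 0x0) (nat_lit 0x8c00440050000e0034000a000000000000000000000000000) := T_25 (nat_lit 178) (nat_lit 162) (nat_lit 2) (nat_lit 5) (nat_lit 10) L74874 (by decide +kernel)
theorem L74876 : W_25 (nat_lit 9) (nat_lit 0x380000001000080000000000000000000000000000000) (nat_lit 0x0) (nat_lit 0x8e00c6007f800e0034000a000000000000000000000000000) := Q_25 (nat_lit 161) (C_25 L74866 (C_25 L74228 (C_25 L74868 (C_25 L74875 N_25)))) (by decide +kernel)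
theorem L74877 : W_25 (nat_lit 6) (nat_lit 0x380000001000080000000000000000000000000000000) (nat_lit 0x0) (nat_lit 0x400020001e0046003b800100000000000000000000000000000000000) := Q_25 (nat_lit 174) (C_25 L71636 (C_25 L71648 (C_25 L74818 (C_25 L74859 N_25)))) (by decide +kernel)
theorem L74878 : W_25 (nat_lit 3) (nat_lit 0x380020001000080000000000000000000000000000000) (nat_lit 0x0) (nat_lit 0x400d8000000000000000000000000000000000000000) := T_25 (nat_lit 160) (nat_lit 174) (nat_lit 2) (nat_lit 4) (nat_lit 10) L65093 (by decide +kernel)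
theorem L74879 : W_25 (nat_lit 2) (nat_lit 0x7c00220018001c0000000000000000000000000000000) (nat_lit 0x0) (nat_lit 0x600200000000000000000000000000000000) := D_25 (nat_lit 142) (nat_lit 141) (nat_lit 129) (nat_lit 2) (nat_lit 5) (nat_lit 8) (nat_lit 1) (nat_lit 10) (nat_lit 7) (by decide +kernel)
theorem L74880 : W_25 (nat_lit 3) (nat_lit 0x7c00220010001c0000000000000000000000000000000) (nat_lit 0x0) (nat_lit 0x8000000000000e00200000000000000000000000000000000) := T_25 (nat_lit 143) (nat_lit 195) (nat_lit 4) (nat_lit 8) (nat_lit 11) L74879 (by decide +kernel)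
theorem L74881 : W_25 (nat_lit 4) (nat_lit 0x7c00220010000c0000000000000000000000000000000) (nat_lit 0x0) (nat_lit 0x8000000000000e00300008000000000000000000000000000) := T_25 (nat_lit 128) (nat_lit 111) (nat_lit 6) (nat_lit 8) (nat_lit 10) L74880 (by decide +kernel)
theorem L74882 : W_25 (nat_lit 5) (nat_lit 0x7c0022001000080000000000000000000000000000000) (nat_lit 0x0) (nat_lit 0x8000000000000e0034000a000000000000000000000000000) := T_25 (nat_lit 126) (nat_lit 109) (nat_lit 4) (nat_lit 8) (nat_lit 10) L74881 (by decide +kernel)
theorem L74883 : W_25 (nat_lit 6) (nat_lit 0x3c0022001000080000000000000000000000000000000) (nat_lit 0x0) (nat_lit 0x8000400004000e0034000a000000000000000000000000000) := T_25 (nat_lit 178) (nat_lit 158) (nat_lit 0) (nat_lit 8) (nat_lit 10) L74882 (by decide +kernel)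
theorem L74884 : W_25 (nat_lit 7) (nat_lit 0x3c0020001000080000000000000000000000000000000) (nat_lit 0x0) (nat_lit 0x8000400007000e0034000a000000000000000000000000000) := T_25 (nat_lit 157) (nat_lit 156) (nat_lit 0) (nat_lit 7) (nat_lit 10) L74883 (by decide +kernel)
theorem L74885 : W_25 (nat_lit 8) (nat_lit 0x380020001000080000000000000000000000000000000) (nat_lit 0x0) (nat_lit 0x8000440017000e0034000a000000000000000000000000000) := T_25 (nat_lit 174) (nat_lit 160) (nat_lit 2) (nat_lit 4) (nat_lit 10) L74884 (by decide +kernel)
theorem L74886 : W_25 (nat_lit 9) (nat_lit 0x380000001000080000000000000000000000000000000) (nat_lit 0x0) (nat_lit 0x8000c400ff000e0034000a000000000000000000000000000) := Q_25 (nat_lit 161) (C_25 L74244 (C_25 L74878 (C_25 L74868 (C_25 L74885 N_25)))) (by decide +kernel)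
theorem L74887 : W_25 (nat_lit 8) (nat_lit 0x780000001000080000000000000000000000000000000) (nat_lit 0x0) (nat_lit 0x8c00040070000e0034000a000000000000000000000000000) := T_25 (nat_lit 161) (nat_lit 162) (nat_lit 2) (nat_lit 5) (nat_lit 10) L74874 (by decide +kernel)
theorem L74888 : W_25 (nat_lit 2) (nat_lit 0x7c00200018001c0000000000000000000000000000000) (nat_lit 0x0) (nat_lit 0x600200000000000000000000000000000000) := D_25 (nat_lit 142) (nat_lit 141) (nat_lit 129) (nat_lit 2) (nat_lit 5) (nat_lit 8) (nat_lit 1) (nat_lit 10) (nat_lit 7) (by decide +kernel)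
theorem L74889 : W_25 (nat_lit 3) (nat_lit 0x7c00200010001c0000000000000000000000000000000) (nat_lit 0x0) (nat_lit 0x8000000000000e00200000000000000000000000000000000) := T_25 (nat_lit 143) (nat_lit 195) (nat_lit 4) (nat_lit 8) (nat_lit 11) L74888 (by decide +kernel)
theorem L74890 : W_25 (nat_lit 4) (nat_lit 0x7c0020001000180000000000000000000000000000000) (nat_lit 0x0) (nat_lit 0x8000000000000e00240002000000000000000000000000000) := T_25 (nat_lit 126) (nat_lit 109) (nat_lit 4) (nat_lit 8) (nat_lit 10) L74889 (by decide +kernel)
theorem L74891 : W_25 (nat_lit 5) (nat_lit 0x7c0020001000080000000000000000000000000000000) (nat_lit 0x0) (nat_lit 0x8000000000000e0034000a000000000000000000000000000) := T_25 (nat_lit 128) (nat_lit 111) (nat_lit 6) (nat_lit 8) (nat_lit 10) L74890 (by decide +kernel)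
theorem L74892 : W_25 (nat_lit 6) (nat_lit 0x780020001000080000000000000000000000000000000) (nat_lit 0x0) (nat_lit 0x8000040010000e0034000a000000000000000000000000000) := T_25 (nat_lit 174) (nat_lit 160) (nat_lit 2) (nat_lit 4) (nat_lit 10) L74891 (by decide +kernel)
theorem L74893 : W_25 (nat_lit 7) (nat_lit 0x780000001000080000000000000000000000000000000) (nat_lit 0x0) (nat_lit 0x8000040070000e0034000a000000000000000000000000000) := T_25 (nat_lit 161) (nat_lit 162) (nat_lit 2) (nat_lit 5) (nat_lit 10) L74892 (by decide +kernel)
theorem L74894 : W_25 (nat_lit 10) (nat_lit 0x380000001000080000000000000000000000000000000) (nat_lit 0x0) (nat_lit 0x4000200ebc03c403fc000e0034000a000000000000000000000000000) := Q_25 (nat_lit 178) (C_25 L72944 (C_25 L72871 (C_25 L13987 (C_25 L74887 (C_25 L74893 (C_25 L73846 N_25)))))) (by decide +kernel)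
theorem L74895 : W_25 (nat_lit 14) (nat_lit 0x300000001000080000000000000000000000000000000) (nat_lit 0x0) (nat_lit 0xf000780ebf03cf03ffc00f8037800a000000000000000000000000000) := Q_25 (nat_lit 175) (C_25 L74834 (C_25 L74841 (C_25 L74860 (C_25 L74861 (C_25 L74862 (C_25 L74876 (C_25 L74877 (C_25 L74886 (C_25 L74894 N_25))))))))) (by decide +kernel)
theorem L74896 : W_25 (nat_lit 4) (nat_lit 0x1c000600030001d001000080000000000000000000000000000000) (nat_lit 0x0) (nat_lit 0x400638008000000000000000000000000000000000000000000000000) := T_25 (nat_lit 214) (nat_lit 213) (nat_lit 0) (nat_lit 10) (nat_lit 12) L12267 (by decide +kernel)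
theorem L74897 : W_25 (nat_lit 5) (nat_lit 0xc000600030001d001000080000000000000000000000000000000) (nat_lit 0x0) (nat_lit 0x2400738008000000000000000000000000000000000000000000000000) := T_25 (nat_lit 212) (nat_lit 229) (nat_lit 7) (nat_lit 7) (nat_lit 9) L74896 (by decide +kernel)
theorem L74898 : W_25 (nat_lit 6) (nat_lit 0xc000400030001d001000080000000000000000000000000000000) (nat_lit 0x0) (nat_lit 0x240073800a000000000000200000000000000000000000000000000000) := T_25 (nat_lit 193) (nat_lit 141) (nat_lit 4) (nat_lit 6) (nat_lit 12) L74897 (by decide +kernel)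
theorem L74899 : W_25 (nat_lit 7) (nat_lit 0x8000400030001d001000080000000000000000000000000000000) (nat_lit 0x0) (nat_lit 0x2c0077800a000000000000200000000000000000000000000000000000) := T_25 (nat_lit 210) (nat_lit 227) (nat_lit 5) (nat_lit 7) (nat_lit 9) L74898 (by decide +kernel)
theorem L74900 : W_25 (nat_lit 8) (nat_lit 0x400030001d001000080000000000000000000000000000000) (nat_lit 0x0) (nat_lit 0x3c007f800a000000000000200000000000000000000000000000000000) := T_25 (nat_lit 211) (nat_lit 228) (nat_lit 4) (nat_lit 7) (nat_lit 13) L74899 (by decide +kernel)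
theorem L74901 : W_25 (nat_lit 9) (nat_lit 0x400030001c001000080000000000000000000000000000000) (nat_lit 0x0) (nat_lit 0x3c007f800a000000003000200000000000000000000000000000000000) := T_25 (nat_lit 156) (nat_lit 157) (nat_lit 3) (nat_lit 3) (nat_lit 9) L74900 (by decide +kernel)
theorem L74902 : W_25 (nat_lit 10) (nat_lit 0x400030000c001000080000000000000000000000000000000) (nat_lit 0x0) (nat_lit 0x3c007f800a000000013000a00000000000000000000000000000000000) := T_25 (nat_lit 160) (nat_lit 143) (nat_lit 6) (nat_lit 7) (nat_lit 11) L74901 (by decide +kernel)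
theorem L74903 : W_25 (nat_lit 2) (nat_lit 0x5e000600030001c001000080000000000000000000000000000000) (nat_lit 0x0) (nat_lit 0x18008000000000000000000000000000000000000000000000000) := D_25 (nat_lit 208) (nat_lit 195) (nat_lit 207) (nat_lit 2) (nat_lit 4) (nat_lit 12) (nat_lit 2) (nat_lit 3) (nat_lit 12) (by decide +kernel)
theorem L74904 : W_25 (nat_lit 3) (nat_lit 0x5c000600030001c001000080000000000000000000000000000000) (nat_lit 0x0) (nat_lit 0x400038008000000000000000000000000000000000000000000000000) := T_25 (nat_lit 209) (nat_lit 226) (nat_lit 5) (nat_lit 6) (nat_lit 9) L74903 (by decide +kernel)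
theorem L74905 : W_25 (nat_lit 4) (nat_lit 0x1c000600030001c001000080000000000000000000000000000000) (nat_lit 0x0) (nat_lit 0x400638008000000000000000000000000000000000000000000000000) := T_25 (nat_lit 214) (nat_lit 213) (nat_lit 0) (nat_lit 10) (nat_lit 12) L74904 (by decide +kernel)
theorem L74906 : W_25 (nat_lit 5) (nat_lit 0xc000600030001c001000080000000000000000000000000000000) (nat_lit 0x0) (nat_lit 0x2400738008000000000000000000000000000000000000000000000000) := T_25 (nat_lit 212) (nat_lit 229) (nat_lit 7) (nat_lit 7) (nat_lit 9) L74905 (by decide +kernel)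
theorem L74907 : W_25 (nat_lit 6) (nat_lit 0xc000400030001c001000080000000000000000000000000000000) (nat_lit 0x0) (nat_lit 0x240073800a000000000000200000000000000000000000000000000000) := T_25 (nat_lit 193) (nat_lit 141) (nat_lit 4) (nat_lit 6) (nat_lit 12) L74906 (by decide +kernel)
theorem L74908 : W_25 (nat_lit 7) (nat_lit 0x8000400030001c001000080000000000000000000000000000000) (nat_lit 0x0) (nat_lit 0x2c0077800a000000000000200000000000000000000000000000000000) := T_25 (nat_lit 210) (nat_lit 227) (nat_lit 5) (nat_lit 7) (nat_lit 9) L74907 (by decide +kernel)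
theorem L74909 : W_25 (nat_lit 8) (nat_lit 0x8000400030000c001000080000000000000000000000000000000) (nat_lit 0x0) (nat_lit 0x2c0077800a000000010000a00000000000000000000000000000000000) := T_25 (nat_lit 160) (nat_lit 143) (nat_lit 6) (nat_lit 7) (nat_lit 11) L74908 (by decide +kernel)
theorem L74910 : W_25 (nat_lit 9) (nat_lit 0x400030000c001000080000000000000000000000000000000) (nat_lit 0x0) (nat_lit 0x3c007f800a000000010000a00000000000000000000000000000000000) := T_25 (nat_lit 211) (nat_lit 228) (nat_lit 4) (nat_lit 7) (nat_lit 13) L74909 (by decide +kernel)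
theorem L74911 : W_25 (nat_lit 11) (nat_lit 0x4000300008001000080000000000000000000000000000000) (nat_lit 0x0) (nat_lit 0x3c007f800a000c80017000a00000000000000000000000000000000000) := Q_25 (nat_lit 158) (C_25 L74546 (C_25 L74902 (C_25 L74910 N_25))) (by decide +kernel)
theorem L74912 : W_25 (nat_lit 3) (nat_lit 0x4000300008001c00080000000000000000000000000000000) (nat_lit 0x0) (nat_lit 0x2000000000000200150000000000000000000000000000000) := T_25 (nat_lit 193) (nat_lit 126) (nat_lit 6) (nat_lit 6) (nat_lit 11) L8267 (by decide +kernel)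
theorem L74913 : W_25 (nat_lit 4) (nat_lit 0x4000300008001400080000000000000000000000000000000) (nat_lit 0x0) (nat_lit 0x2000000010000a00150000000000000000000000000000000) := T_25 (nat_lit 143) (nat_lit 160) (nat_lit 6) (nat_lit 7) (nat_lit 11) L74912 (by decide +kernel)
theorem L74914 : W_25 (nat_lit 5) (nat_lit 0x4000300008001000080000000000000000000000000000000) (nat_lit 0x0) (nat_lit 0x2000000010000e00170000000000000000000000000000000) := T_25 (nat_lit 142) (nat_lit 125) (nat_lit 7) (nat_lit 6) (nat_lit 7) L74913 (by decide +kernel)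
theorem L74915 : W_25 (nat_lit 12) (nat_lit 0x4000300000001000080000000000000000000000000000000) (nat_lit 0x0) (nat_lit 0x3c007f800a000c8001f000e00170000000000000000000000000000000) := Q_25 (nat_lit 159) (C_25 L74560 (C_25 L74911 (C_25 L74558 (C_25 L74914 N_25)))) (by decide +kernel)
theorem L74916 : W_25 (nat_lit 2) (nat_lit 0x1000000004001f00008001000080000000000000000000000000000000) (nat_lit 0x0) (nat_lit 0x1c0000000000000000000000000000000000000000) := D_25 (nat_lit 163) (nat_lit 162) (nat_lit 164) (nat_lit 2) (nat_lit 6) (nat_lit 10) (nat_lit 2) (nat_lit 7) (nat_lit 10) (by decide +kernel)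
theorem L74917 : W_25 (nat_lit 3) (nat_lit 0x1000000004000f00008001000080000000000000000000000000000000) (nat_lit 0x0) (nat_lit 0x20010001c0000000000000000000000000000000000000000) := T_25 (nat_lit 180) (nat_lit 193) (nat_lit 1) (nat_lit 10) (nat_lit 10) L74916 (by decide +kernel)
theorem L74918 : W_25 (nat_lit 4) (nat_lit 0x1000000004000700008001000080000000000000000000000000000000) (nat_lit 0x0) (nat_lit 0x20018001c4000000000000000000000000000000000000000) := T_25 (nat_lit 179) (nat_lit 158) (nat_lit 0) (nat_lit 9) (nat_lit 10) L74917 (by decide +kernel)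
theorem L74919 : W_25 (nat_lit 5) (nat_lit 0x4000700008001000080000000000000000000000000000000) (nat_lit 0x0) (nat_lit 0x10000800020018001c4000000000000000000000000000000000000000) := T_25 (nat_lit 228) (nat_lit 211) (nat_lit 4) (nat_lit 7) (nat_lit 13) L74918 (by decide +kernel)
theorem L74920 : W_25 (nat_lit 6) (nat_lit 0x4000300008001000080000000000000000000000000000000) (nat_lit 0x0) (nat_lit 0x1000080002001c001e4000000000000000000000000000000000000000) := T_25 (nat_lit 178) (nat_lit 161) (nat_lit 5) (nat_lit 8) (nat_lit 7) L74919 (by decide +kernel)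
theorem L74921 : W_25 (nat_lit 2) (nat_lit 0x4001f000080010000a0000000000000000000000000000000) (nat_lit 0x0) (nat_lit 0x1c0000000000000000000000000000000000000000) := D_25 (nat_lit 163) (nat_lit 162) (nat_lit 164) (nat_lit 2) (nat_lit 6) (nat_lit 10) (nat_lit 2) (nat_lit 7) (nat_lit 10) (by decide +kernel)
theorem L74922 : W_25 (nat_lit 3) (nat_lit 0x4000f000080010000a0000000000000000000000000000000) (nat_lit 0x0) (nat_lit 0x20010001c0000000000000000000000000000000000000000) := T_25 (nat_lit 180) (nat_lit 193) (nat_lit 1) (nat_lit 10) (nat_lit 10) L74921 (by decide +kernel)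
theorem L74923 : W_25 (nat_lit 4) (nat_lit 0x40007000080010000a0000000000000000000000000000000) (nat_lit 0x0) (nat_lit 0x20018001c4000000000000000000000000000000000000000) := T_25 (nat_lit 179) (nat_lit 158) (nat_lit 0) (nat_lit 9) (nat_lit 10) L74922 (by decide +kernel)
theorem L74924 : W_25 (nat_lit 5) (nat_lit 0x40003000080010000a0000000000000000000000000000000) (nat_lit 0x0) (nat_lit 0x2001c001e4000000000000000000000000000000000000000) := T_25 (nat_lit 178) (nat_lit 161) (nat_lit 5) (nat_lit 8) (nat_lit 7) L74923 (by decide +kernel)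
theorem L74925 : W_25 (nat_lit 6) (nat_lit 0x4000300008001000080000000000000000000000000000000) (nat_lit 0x0) (nat_lit 0x2001c001e4000400020000000000000000000000000000000) := T_25 (nat_lit 125) (nat_lit 142) (nat_lit 7) (nat_lit 6) (nat_lit 7) L74924 (by decide +kernel)
theorem L74926 : W_25 (nat_lit 10) (nat_lit 0x4000300000001000080000000000000000000000000000000) (nat_lit 0x0) (nat_lit 0x10000800ea003c001ec000400020000000000000000000000000000000) := Q_25 (nat_lit 159) (C_25 L74560 (C_25 L74572 (C_25 L74920 (C_25 L74925 N_25)))) (by decide +kernel)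
theorem L74927 : W_25 (nat_lit 13) (nat_lit 0x300000001000080000000000000000000000000000000) (nat_lit 0x0) (nat_lit 0x800060003c007f80ee003cc01ff000e00170000000000000000000000000000000) := Q_25 (nat_lit 194) (C_25 L74915 (C_25 L74274 (C_25 L74277 (C_25 L74288 (C_25 L74926 (C_25 L8170 N_25)))))) (by decide +kernel)
theorem L74928 : W_25 (nat_lit 2) (nat_lit 0x20001800180004000300010001000080000000000000000000000000000000) (nat_lit 0x0) (nat_lit 0x400000000000000008000400000000000000000000000000000000000000000000) := D_25 (nat_lit 195) (nat_lit 178) (nat_lit 262) (nat_lit 6) (nat_lit 7) (nat_lit 14) (nat_lit 6) (nat_lit 7) (nat_lit 15) (by decide +kernel)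
theorem L74929 : W_25 (nat_lit 3) (nat_lit 0x1800180004000300010001000080000000000000000000000000000000) (nat_lit 0x0) (nat_lit 0x40002000000000000a000400000000000000000000000000000000000000000000) := T_25 (nat_lit 245) (nat_lit 193) (nat_lit 4) (nat_lit 7) (nat_lit 14) L74928 (by decide +kernel)
theorem L74930 : W_25 (nat_lit 4) (nat_lit 0x800180004000300010001000080000000000000000000000000000000) (nat_lit 0x0) (nat_lit 0x40003000100000000a000400000000000000000000000000000000000000000000) := T_25 (nat_lit 228) (nat_lit 244) (nat_lit 5) (nat_lit 7) (nat_lit 10) L74929 (by decide +kernel)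
theorem L74931 : W_25 (nat_lit 5) (nat_lit 0x800080004000300010001000080000000000000000000000000000000) (nat_lit 0x0) (nat_lit 0x40003000300010000a000400000000000000000000000000000000000000000000) := T_25 (nat_lit 212) (nat_lit 229) (nat_lit 7) (nat_lit 7) (nat_lit 9) L74930 (by decide +kernel)
theorem L74932 : W_25 (nat_lit 6) (nat_lit 0x80004000300010001000080000000000000000000000000000000) (nat_lit 0x0) (nat_lit 0x40003000380014000a000400000000000000000000000000000000000000000000) := T_25 (nat_lit 227) (nat_lit 210) (nat_lit 5) (nat_lit 7) (nat_lit 9) L74931 (by decide +kernel)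
theorem L74933 : W_25 (nat_lit 7) (nat_lit 0x80004000300000001000080000000000000000000000000000000) (nat_lit 0x0) (nat_lit 0x40003000380014000a000400010000800000000000000000000000000000000000) := T_25 (nat_lit 160) (nat_lit 143) (nat_lit 6) (nat_lit 7) (nat_lit 11) L74932 (by decide +kernel)
theorem L74934 : W_25 (nat_lit 2) (nat_lit 0x80004000300000001400080000000000000000000000000000000) (nat_lit 0x0) (nat_lit 0x18000800000000000000000000000000000000000) := D_25 (nat_lit 160) (nat_lit 143) (nat_lit 159) (nat_lit 6) (nat_lit 7) (nat_lit 11) (nat_lit 4) (nat_lit 7) (nat_lit 12) (by decide +kernel)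
theorem L74935 : W_25 (nat_lit 2) (nat_lit 0x80004000300000001f00080000000000000000000000000000000) (nat_lit 0x0) (nat_lit 0x1c000000000000000000000000000000) := D_25 (nat_lit 123) (nat_lit 124) (nat_lit 122) (nat_lit 0) (nat_lit 8) (nat_lit 8) (nat_lit 0) (nat_lit 7) (nat_lit 8) (by decide +kernel)
theorem L74936 : W_25 (nat_lit 3) (nat_lit 0x80004000300000001e00080000000000000000000000000000000) (nat_lit 0x0) (nat_lit 0x10005c000000000000000000000000000000) := T_25 (nat_lit 140) (nat_lit 126) (nat_lit 2) (nat_lit 4) (nat_lit 8) L74935 (by decide +kernel)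
theorem L74937 : W_25 (nat_lit 4) (nat_lit 0x80004000300000001c00080000000000000000000000000000000) (nat_lit 0x0) (nat_lit 0x30015c000000000000000000000000000000) := T_25 (nat_lit 141) (nat_lit 128) (nat_lit 2) (nat_lit 5) (nat_lit 8) L74936 (by decide +kernel)
theorem L74938 : W_25 (nat_lit 5) (nat_lit 0x80004000300000001400080000000000000000000000000000000) (nat_lit 0x0) (nat_lit 0x10000b0015c000000000000000000000000000000) := T_25 (nat_lit 143) (nat_lit 160) (nat_lit 6) (nat_lit 7) (nat_lit 11) L74937 (by decide +kernel)
theorem L74939 : W_25 (nat_lit 2) (nat_lit 0x80004000300000001400080000000000000000000000000000000) (nat_lit 0x0) (nat_lit 0x2000000008000000020000000000000000000000000000000) := D_25 (nat_lit 159) (nat_lit 125) (nat_lit 193) (nat_lit 7) (nat_lit 6) (nat_lit 7) (nat_lit 7) (nat_lit 6) (nat_lit 8) (by decide +kernel)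
theorem L74940 : W_25 (nat_lit 6) (nat_lit 0x80004000300000001000080000000000000000000000000000000) (nat_lit 0x0) (nat_lit 0x2000000018000f0017c000000000000000000000000000000) := Q_25 (nat_lit 142) (C_25 L74934 (C_25 L74279 (C_25 L74938 (C_25 L74939 N_25)))) (by decide +kernel)
theorem L74941 : W_25 (nat_lit 8) (nat_lit 0x4000300000001000080000000000000000000000000000000) (nat_lit 0x0) (nat_lit 0xc000700038001c000a000400018000f0017c000000000000000000000000000000) := Q_25 (nat_lit 211) (C_25 L74933 (C_25 L74278 (C_25 L11924 (C_25 L74940 N_25)))) (by decide +kernel)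
theorem L74942 : W_25 (nat_lit 2) (nat_lit 0x50001000080004000300020001000080000000000000000000000000000000) (nat_lit 0x0) (nat_lit 0xa00020000000000000000000000000000000000000000000000000000000000000) := D_25 (nat_lit 245) (nat_lit 261) (nat_lit 263) (nat_lit 5) (nat_lit 7) (nat_lit 11) (nat_lit 7) (nat_lit 7) (nat_lit 11) (by decide +kernel)
theorem L74943 : W_25 (nat_lit 3) (nat_lit 0x10001000080004000300020001000080000000000000000000000000000000) (nat_lit 0x0) (nat_lit 0xa00060002000000000000000000000000000000000000000000000000000000000) := T_25 (nat_lit 246) (nat_lit 229) (nat_lit 7) (nat_lit 7) (nat_lit 10) L74942 (by decide +kernel)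
theorem L74944 : W_25 (nat_lit 4) (nat_lit 0x1000080004000300020001000080000000000000000000000000000000) (nat_lit 0x0) (nat_lit 0xa00070002800000000000000000000000000000000000000000000000000000000) := T_25 (nat_lit 244) (nat_lit 227) (nat_lit 5) (nat_lit 7) (nat_lit 10) L74943 (by decide +kernel)
theorem L74945 : W_25 (nat_lit 2) (nat_lit 0x800040003e0000001000080000000000000000000000000000000) (nat_lit 0x0) (nat_lit 0xe00000000000000000000000000000000000000000000000) := D_25 (nat_lit 190) (nat_lit 189) (nat_lit 191) (nat_lit 1) (nat_lit 6) (nat_lit 10) (nat_lit 1) (nat_lit 7) (nat_lit 10) (by decide +kernel)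
theorem L74946 : W_25 (nat_lit 3) (nat_lit 0x800040003c0000001000080000000000000000000000000000000) (nat_lit 0x0) (nat_lit 0x2e00020000000000000000000000000000000000000000000) := T_25 (nat_lit 173) (nat_lit 193) (nat_lit 3) (nat_lit 3) (nat_lit 10) L74945 (by decide +kernel)
theorem L74947 : W_25 (nat_lit 4) (nat_lit 0x80004000380000001000080000000000000000000000000000000) (nat_lit 0x0) (nat_lit 0xae00060000000000000000000000000000000000000000000) := T_25 (nat_lit 174) (nat_lit 195) (nat_lit 3) (nat_lit 4) (nat_lit 10) L74946 (by decide +kernel)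
theorem L74948 : W_25 (nat_lit 2) (nat_lit 0x800048003c0000001000080000000000000000000000000000000) (nat_lit 0x0) (nat_lit 0x1000400020000000000000000000000000000000000000000) := D_25 (nat_lit 178) (nat_lit 161) (nat_lit 192) (nat_lit 5) (nat_lit 8) (nat_lit 7) (nat_lit 1) (nat_lit 8) (nat_lit 10) (by decide +kernel)
theorem L74949 : W_25 (nat_lit 3) (nat_lit 0x800040003c0000001000080000000000000000000000000000000) (nat_lit 0x0) (nat_lit 0x1c00400020000000000000000000000000000000000000000) := T_25 (nat_lit 191) (nat_lit 190) (nat_lit 1) (nat_lit 7) (nat_lit 10) L74948 (by decide +kernel)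
theorem L74950 : W_25 (nat_lit 4) (nat_lit 0x80004000380000001000080000000000000000000000000000000) (nat_lit 0x0) (nat_lit 0x9c00440020000000000000000000000000000000000000000) := T_25 (nat_lit 174) (nat_lit 195) (nat_lit 3) (nat_lit 4) (nat_lit 10) L74949 (by decide +kernel)
theorem L74951 : W_25 (nat_lit 2) (nat_lit 0x80005003f80080001000080000000000000000000000000000000) (nat_lit 0x0) (nat_lit 0xe0000000000000000000000000000000000000000000000000) := D_25 (nat_lit 198) (nat_lit 197) (nat_lit 199) (nat_lit 3) (nat_lit 7) (nat_lit 10) (nat_lit 3) (nat_lit 8) (nat_lit 10) (by decide +kernel)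
theorem L74952 : W_25 (nat_lit 3) (nat_lit 0x80005001f80080001000080000000000000000000000000000000) (nat_lit 0x0) (nat_lit 0xe8002000000000000000000000000000000000000000000000) := T_25 (nat_lit 181) (nat_lit 195) (nat_lit 1) (nat_lit 11) (nat_lit 10) L74951 (by decide +kernel)
theorem L74953 : W_25 (nat_lit 4) (nat_lit 0x80005000f80080001000080000000000000000000000000000000) (nat_lit 0x0) (nat_lit 0xe8003000100000000000000000000000000000000000000000) := T_25 (nat_lit 180) (nat_lit 164) (nat_lit 2) (nat_lit 7) (nat_lit 10) L74952 (by decide +kernel)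
theorem L74954 : W_25 (nat_lit 5) (nat_lit 0x80005000f80000001000080000000000000000000000000000000) (nat_lit 0x0) (nat_lit 0xe80030001c0000000000000000000000000000000000000000) := T_25 (nat_lit 163) (nat_lit 162) (nat_lit 2) (nat_lit 6) (nat_lit 10) L74953 (by decide +kernel)
theorem L74955 : W_25 (nat_lit 6) (nat_lit 0x80005000780000001000080000000000000000000000000000000) (nat_lit 0x0) (nat_lit 0xea0038001c0000000000000000000000000000000000000000) := T_25 (nat_lit 179) (nat_lit 193) (nat_lit 1) (nat_lit 9) (nat_lit 10) L74954 (by decide +kernel)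
theorem L74956 : W_25 (nat_lit 7) (nat_lit 0x80004000780000001000080000000000000000000000000000000) (nat_lit 0x0) (nat_lit 0xeb8038001c0000000000000000000000000000000000000000) := T_25 (nat_lit 192) (nat_lit 191) (nat_lit 1) (nat_lit 8) (nat_lit 10) L74955 (by decide +kernel)
theorem L74957 : W_25 (nat_lit 8) (nat_lit 0x80004000380000001000080000000000000000000000000000000) (nat_lit 0x0) (nat_lit 0xeb803c001e0000000000000000000000000000000000000000) := T_25 (nat_lit 178) (nat_lit 161) (nat_lit 5) (nat_lit 8) (nat_lit 7) L74956 (by decide +kernel)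
theorem L74958 : W_25 (nat_lit 2) (nat_lit 0x800040003e0020001000080000000000000000000000000000000) (nat_lit 0x0) (nat_lit 0x3800000000000000000000000000000000000000) := D_25 (nat_lit 156) (nat_lit 157) (nat_lit 155) (nat_lit 0) (nat_lit 7) (nat_lit 10) (nat_lit 0) (nat_lit 6) (nat_lit 10) (by decide +kernel)
theorem L74959 : W_25 (nat_lit 3) (nat_lit 0x800040003c0020001000080000000000000000000000000000000) (nat_lit 0x0) (nat_lit 0x2000020003800000000000000000000000000000000000000) := T_25 (nat_lit 173) (nat_lit 193) (nat_lit 3) (nat_lit 3) (nat_lit 10) L74958 (by decide +kernel)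
theorem L74960 : W_25 (nat_lit 4) (nat_lit 0x80004000380020001000080000000000000000000000000000000) (nat_lit 0x0) (nat_lit 0xa000060003800000000000000000000000000000000000000) := T_25 (nat_lit 174) (nat_lit 195) (nat_lit 3) (nat_lit 4) (nat_lit 10) L74959 (by decide +kernel)
theorem L74961 : W_25 (nat_lit 5) (nat_lit 0x80004000380000001000080000000000000000000000000000000) (nat_lit 0x0) (nat_lit 0xa000460023800000000000000000000000000000000000000) := T_25 (nat_lit 161) (nat_lit 178) (nat_lit 5) (nat_lit 8) (nat_lit 7) L74960 (by decide +kernel)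
theorem L74962 : W_25 (nat_lit 2) (nat_lit 0x3c000800070007c0002001000088000000000000000000000000000000) (nat_lit 0x0) (nat_lit 0x200300000000000000000000000000000000000000000000000000000) := D_25 (nat_lit 212) (nat_lit 213) (nat_lit 225) (nat_lit 2) (nat_lit 5) (nat_lit 13) (nat_lit 2) (nat_lit 4) (nat_lit 13) (by decide +kernel)
theorem L74963 : W_25 (nat_lit 3) (nat_lit 0x38000800070007c0002001000088000000000000000000000000000000) (nat_lit 0x0) (nat_lit 0x600320000000000000000000000000000000000000000000000000000) := T_25 (nat_lit 226) (nat_lit 209) (nat_lit 4) (nat_lit 5) (nat_lit 13) L74962 (by decide +kernel)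
theorem L74964 : W_25 (nat_lit 4) (nat_lit 0x38000800070007c0002001000080000000000000000000000000000000) (nat_lit 0x0) (nat_lit 0x600320000000000000000100008000000000000000000000000000000) := T_25 (nat_lit 123) (nat_lit 140) (nat_lit 7) (nat_lit 4) (nat_lit 7) L74963 (by decide +kernel)
theorem L74965 : W_25 (nat_lit 5) (nat_lit 0x30000800070007c0002001000080000000000000000000000000000000) (nat_lit 0x0) (nat_lit 0x10000e00320000000000000000100008000000000000000000000000000000) := T_25 (nat_lit 227) (nat_lit 244) (nat_lit 5) (nat_lit 7) (nat_lit 10) L74964 (by decide +kernel)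
theorem L74966 : W_25 (nat_lit 6) (nat_lit 0x30000800070007c0000001000080000000000000000000000000000000) (nat_lit 0x0) (nat_lit 0x10000e00320000000000003000100008000000000000000000000000000000) := T_25 (nat_lit 157) (nat_lit 156) (nat_lit 0) (nat_lit 7) (nat_lit 10) L74965 (by decide +kernel)
theorem L74967 : W_25 (nat_lit 7) (nat_lit 0x10000800070007c0000001000080000000000000000000000000000000) (nat_lit 0x0) (nat_lit 0x50002e00320000000000003000100008000000000000000000000000000000) := T_25 (nat_lit 229) (nat_lit 246) (nat_lit 7) (nat_lit 7) (nat_lit 10) L74966 (by decide +kernel)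
theorem L74968 : W_25 (nat_lit 8) (nat_lit 0x1000080007000780000001000080000000000000000000000000000000) (nat_lit 0x0) (nat_lit 0x50002e00320000000060003000100008000000000000000000000000000000) := T_25 (nat_lit 174) (nat_lit 173) (nat_lit 3) (nat_lit 3) (nat_lit 10) L74967 (by decide +kernel)
theorem L74969 : W_25 (nat_lit 9) (nat_lit 0x80007000780000001000080000000000000000000000000000000) (nat_lit 0x0) (nat_lit 0x70003e00320000000060003000100008000000000000000000000000000000) := T_25 (nat_lit 228) (nat_lit 245) (nat_lit 4) (nat_lit 7) (nat_lit 14) L74968 (by decide +kernel)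
theorem L74970 : W_25 (nat_lit 10) (nat_lit 0x80005000780000001000080000000000000000000000000000000) (nat_lit 0x0) (nat_lit 0x70003e00320002000860003000100008000000000000000000000000000000) := T_25 (nat_lit 193) (nat_lit 179) (nat_lit 1) (nat_lit 9) (nat_lit 10) L74969 (by decide +kernel)
theorem L74971 : W_25 (nat_lit 11) (nat_lit 0x80004000780000001000080000000000000000000000000000000) (nat_lit 0x0) (nat_lit 0x70003e00320003800860003000100008000000000000000000000000000000) := T_25 (nat_lit 192) (nat_lit 191) (nat_lit 1) (nat_lit 8) (nat_lit 10) L74970 (by decide +kernel)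
theorem L74972 : W_25 (nat_lit 12) (nat_lit 0x80004000380000001000080000000000000000000000000000000) (nat_lit 0x0) (nat_lit 0x70003e00320003800c60023000100008000000000000000000000000000000) := T_25 (nat_lit 178) (nat_lit 161) (nat_lit 5) (nat_lit 8) (nat_lit 7) L74971 (by decide +kernel)
theorem L74973 : W_25 (nat_lit 13) (nat_lit 0x80004000300000001000080000000000000000000000000000000) (nat_lit 0x0) (nat_lit 0x70003e003200ebe03ce01e3800100008000000000000000000000000000000) := Q_25 (nat_lit 175) (C_25 L74947 (C_25 L74950 (C_25 L74957 (C_25 L74961 (C_25 L74972 N_25))))) (by decide +kernel)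
theorem L74974 : W_25 (nat_lit 5) (nat_lit 0x80004000300020001000080000000000000000000000000000000) (nat_lit 0x0) (nat_lit 0xa00070003800000000000000008000000000000000000000000000000000000000) := T_25 (nat_lit 228) (nat_lit 159) (nat_lit 4) (nat_lit 7) (nat_lit 13) L74944 (by decide +kernel)
theorem L74975 : W_25 (nat_lit 6) (nat_lit 0x80004000300000001000080000000000000000000000000000000) (nat_lit 0x0) (nat_lit 0xa00070003800000000000400028000000000000000000000000000000000000000) := T_25 (nat_lit 161) (nat_lit 178) (nat_lit 5) (nat_lit 8) (nat_lit 7) L74974 (by decide +kernel)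
theorem L74976 : W_25 (nat_lit 2) (nat_lit 0x800048007c0001001000080000000000000000000000000000000) (nat_lit 0x0) (nat_lit 0x2000020000800000000000000000000000000000000000000) := D_25 (nat_lit 173) (nat_lit 193) (nat_lit 155) (nat_lit 3) (nat_lit 3) (nat_lit 10) (nat_lit 0) (nat_lit 6) (nat_lit 10) (by decide +kernel)
theorem L74977 : W_25 (nat_lit 3) (nat_lit 0x800048007c0000001000080000000000000000000000000000000) (nat_lit 0x0) (nat_lit 0x2000020003800000000000000000000000000000000000000) := T_25 (nat_lit 156) (nat_lit 157) (nat_lit 0) (nat_lit 7) (nat_lit 10) L74976 (by decide +kernel)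
theorem L74978 : W_25 (nat_lit 4) (nat_lit 0x80004800780000001000080000000000000000000000000000000) (nat_lit 0x0) (nat_lit 0x2400060003800000000000000000000000000000000000000) := T_25 (nat_lit 174) (nat_lit 190) (nat_lit 1) (nat_lit 7) (nat_lit 10) L74977 (by decide +kernel)
theorem L74979 : W_25 (nat_lit 5) (nat_lit 0x80004000780000001000080000000000000000000000000000000) (nat_lit 0x0) (nat_lit 0x3c00060003800000000000000000000000000000000000000) := T_25 (nat_lit 191) (nat_lit 192) (nat_lit 1) (nat_lit 8) (nat_lit 10) L74978 (by decide +kernel)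
theorem L74980 : W_25 (nat_lit 6) (nat_lit 0x80004000380000001000080000000000000000000000000000000) (nat_lit 0x0) (nat_lit 0x3c00460023800000000000000000000000000000000000000) := T_25 (nat_lit 178) (nat_lit 161) (nat_lit 5) (nat_lit 8) (nat_lit 7) L74979 (by decide +kernel)
theorem L74981 : W_25 (nat_lit 9) (nat_lit 0x80004000300000001000080000000000000000000000000000000) (nat_lit 0x0) (nat_lit 0xebe03ce01e3800000000000000000000000000000000000000) := Q_25 (nat_lit 175) (C_25 L74947 (C_25 L74961 (C_25 L74950 (C_25 L74957 (C_25 L74980 N_25))))) (by decide +kernel)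
theorem L74982 : W_25 (nat_lit 14) (nat_lit 0x4000300000001000080000000000000000000000000000000) (nat_lit 0x0) (nat_lit 0xa00070003e003a00ebe03ce01eb800100008000000000000000000000000000000) := Q_25 (nat_lit 211) (C_25 L74973 (C_25 L11924 (C_25 L74975 (C_25 L74981 N_25)))) (by decide +kernel)
theorem L74983 : W_25 (nat_lit 15) (nat_lit 0x300000001000080000000000000000000000000000000) (nat_lit 0x0) (nat_lit 0xe00070003e003e00efe03ce01fb800f0017c000000000000000000000000000000) := Q_25 (nat_lit 194) (C_25 L74941 (C_25 L74274 (C_25 L74277 (C_25 L74288 (C_25 L74982 (C_25 L8170 N_25)))))) (by decide +kernel)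
theorem L74984 : W_25 (nat_lit 11) (nat_lit 0x300000001000080000000000000000000000000000000) (nat_lit 0x0) (nat_lit 0xc000700038001c00ee003cc01fc000f0017c000000000000000000000000000000) := Q_25 (nat_lit 194) (C_25 L74941 (C_25 L74926 (C_25 L74277 (C_25 L8170 (C_25 L74288 N_25))))) (by decide +kernel)
theorem L74985 : W_25 (nat_lit 2) (nat_lit 0x400070000c0010000a0000000000000000000000000000000) (nat_lit 0x0) (nat_lit 0x80003000000000000000000000000000000000000000) := D_25 (nat_lit 157) (nat_lit 175) (nat_lit 156) (nat_lit 0) (nat_lit 8) (nat_lit 10) (nat_lit 3) (nat_lit 3) (nat_lit 9) (by decide +kernel)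
theorem L74986 : W_25 (nat_lit 3) (nat_lit 0x40007000080010000a0000000000000000000000000000000) (nat_lit 0x0) (nat_lit 0x880007000000000000000000000000000000000000000) := T_25 (nat_lit 158) (nat_lit 179) (nat_lit 0) (nat_lit 9) (nat_lit 10) L74985 (by decide +kernel)
theorem L74987 : W_25 (nat_lit 4) (nat_lit 0x4000700008001000080000000000000000000000000000000) (nat_lit 0x0) (nat_lit 0x880007000400020000000000000000000000000000000) := T_25 (nat_lit 125) (nat_lit 142) (nat_lit 7) (nat_lit 6) (nat_lit 7) L74986 (by decide +kernel)
theorem L74988 : W_25 (nat_lit 5) (nat_lit 0x4000300008001000080000000000000000000000000000000) (nat_lit 0x0) (nat_lit 0xc80027000400020000000000000000000000000000000) := T_25 (nat_lit 178) (nat_lit 161) (nat_lit 5) (nat_lit 8) (nat_lit 7) L74987 (by decide +kernel)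
theorem L74989 : W_25 (nat_lit 7) (nat_lit 0x4000300000001000080000000000000000000000000000000) (nat_lit 0x0) (nat_lit 0x1000080002001c801ef000400020000000000000000000000000000000) := Q_25 (nat_lit 159) (C_25 L74560 (C_25 L74925 (C_25 L74920 (C_25 L74988 N_25)))) (by decide +kernel)
theorem L74990 : W_25 (nat_lit 11) (nat_lit 0x300000001000080000000000000000000000000000000) (nat_lit 0x0) (nat_lit 0x8000600038003e0007c01cc01ff000e00060000000000000000000000000000000) := Q_25 (nat_lit 194) (C_25 L74563 (C_25 L74274 (C_25 L8170 (C_25 L74277 (C_25 L74288 (C_25 L74989 N_25)))))) (by decide +kernel)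
theorem L74991 : W_25 (nat_lit 16) (nat_lit 0x200000001000080000000000000000000000000000000) (nat_lit 0x0) (nat_lit 0xe0007401ff00ff80eff07df07ffc0cf8077e03bc001c000c000000000000000000) := Q_25 (nat_lit 176) (C_25 L74442 (C_25 L74519 (C_25 L74544 (C_25 L74574 (C_25 L74587 (C_25 L74637 (C_25 L74670 (C_25 L74683 (C_25 L74753 (C_25 L74801 (C_25 L74802 (C_25 L74895 (C_25 L74927 (C_25 L74983 (C_25 L74984 (C_25 L74990 N_25)))))))))))))))) (by decide +kernel)
end Crest.Agent.Helper32.Snaky.R1_0
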