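import Crest.Agent.Helper32.Snaky.Gen.R1_0_p2
set_option autoImplicit false
set_option maxRecDepth 100000
set_option linter.all false
set_option Elab.async false
namespace Crest.Agent.Helper32.Snaky.R1_0
@[reducible] def W_26 (d M Bz Z : Nat) : Prop := Crest.Agent.Helper32.Snaky.Wins (nat_lit 17) d M Bz Z
theorem D_26 {d M Bz Z : Nat} (m t1 t2 o1 x1 y1 o2 x2 y2 : Nat) (h : Crest.Agent.Helper32.Snaky.chkDoubleC (nat_lit 17) d M Bz Z m t1 t2 o1 x1 y1 o2 x2 y2 = true) : W_26 d M Bz Z := Crest.Agent.Helper32.Snaky.doubleC m t1 t2 o1 x1 y1 o2 x2 y2 h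
theorem T_26 {d M Bz Z cd cM cBz cZ : Nat} (m t o x y : Nat) (child : W_26 cd cM cBz cZ) (h : Crest.Agent.Helper32.Snaky.chkThreatC (nat_lit 17) d M Bz Z cd cM cBz cZ m t o x y = true) : W_26 d M Bz Z := Crest.Agent.Helper32.Snaky.threatC m t o x y child h
theorem Q_26 {d M Bz Z : Nat} (m : Nat) {l : List Crest.Agent.Helper32.Snaky.Spec} (kids : Crest.Agent.Helper32.Snaky.AllWins (nat_lit 17) l) (h : Crest.Agent.Helper32.Snaky.chkQuiet d M Bz Z m l = true) : W_26 d M Bz Z := Crest.Agent.Helper32.Snaky.quiet m kids h
theorem C_26 {cd cM cBz cZ : Nat} {l : List Crest.Agent.Helper32.Snaky.Spec} (h : W_26 cd cM cBz cZ) (hl : Crest.Agent.Helper32.Snaky.AllWins (nat_lit 17) l) : Crest.Agent.Helper32.Snaky.AllWins (nat_lit 17) ((cd, cM, cBz, cZ) :: l) := Crest.Agent.Helper32.Snaky.AllWins.cons h hl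
theorem N_26 : Crest.Agent.Helper32.Snaky.AllWins (nat_lit 17) [] := Crest.Agent.Helper32.Snaky.AllWins.nil
theorem L4985 : W_26 (nat_lit 2) (nat_lit 0x20001f000300000001000080000000000000000000000000000000) (nat_lit 0x0) (nat_lit 0x70000000000000000000000000000000000000000000000000000) := D_26 (nat_lit 209) (nat_lit 210) (nat_lit 208) (nat_lit 1) (nat_lit 9) (nat_lit 11) (nat_lit 1) (nat_lit 8) (nat_lit 11) (by decide +kernel)
theorem L4986 : W_26 (nat_lit 3) (nat_lit 0x20001e000300000001000080000000000000000000000000000000) (nat_lit 0x0) (nat_lit 0x170001000000000000000000000000000000000000000000000000) := T_26 (nat_lit 192) (nat_lit 212) (nat_lit 3) (nat_lit 5) (nat_lit 11) L4985 (by decide +kernel)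
theorem L4987 : W_26 (nat_lit 4) (nat_lit 0x1e000300000001000080000000000000000000000000000000) (nat_lit 0x0) (nat_lit 0x770001000000000000000000000000000000000000000000000000) := T_26 (nat_lit 213) (nat_lit 214) (nat_lit 3) (nat_lit 6) (nat_lit 11) L4986 (by decide +kernel)
theorem L4988 : W_26 (nat_lit 5) (nat_lit 0x1e000200000001000080000000000000000000000000000000) (nat_lit 0x0) (nat_lit 0x770001000180000000000000000000000000000000000000000000) := T_26 (nat_lit 176) (nat_lit 175) (nat_lit 0) (nat_lit 9) (nat_lit 11) L4987 (by decide +kernel)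
theorem L4989 : W_26 (nat_lit 2) (nat_lit 0x20001f000a00000001000080000000000000000000000000000000) (nat_lit 0x0) (nat_lit 0x70000000000000000000000000000000000000000000000000000) := D_26 (nat_lit 209) (nat_lit 208) (nat_lit 210) (nat_lit 1) (nat_lit 8) (nat_lit 11) (nat_lit 1) (nat_lit 9) (nat_lit 11) (by decide +kernel)
theorem L4990 : W_26 (nat_lit 3) (nat_lit 0x20001e000a00000001000080000000000000000000000000000000) (nat_lit 0x0) (nat_lit 0x170001000000000000000000000000000000000000000000000000) := T_26 (nat_lit 192) (nat_lit 212) (nat_lit 3) (nat_lit 5) (nat_lit 11) L4989 (by decide +kernel)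
theorem L4991 : W_26 (nat_lit 4) (nat_lit 0x1e000a00000001000080000000000000000000000000000000) (nat_lit 0x0) (nat_lit 0x770001000000000000000000000000000000000000000000000000) := T_26 (nat_lit 213) (nat_lit 214) (nat_lit 3) (nat_lit 6) (nat_lit 11) L4990 (by decide +kernel)
theorem L4992 : W_26 (nat_lit 5) (nat_lit 0x1e000200000001000080000000000000000000000000000000) (nat_lit 0x0) (nat_lit 0x770001001800000000000000000000000000000000000000000000) := T_26 (nat_lit 179) (nat_lit 180) (nat_lit 2) (nat_lit 6) (nat_lit 11) L4991 (by decide +kernel)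
theorem L5001 : W_26 (nat_lit 10) (nat_lit 0x20001e000300000001000080000000000000000000000000000000) (nat_lit 0x0) (nat_lit 0x17000f8001e00000018000e0004000000000000000000000000000000000000) := T_26 (nat_lit 179) (nat_lit 180) (nat_lit 2) (nat_lit 6) (nat_lit 11) L5000 (by decide +kernel)
theorem L5002 : W_26 (nat_lit 11) (nat_lit 0x20001e000200000001000080000000000000000000000000000000) (nat_lit 0x0) (nat_lit 0x17000f8001e00000019800e0004000000000000000000000000000000000000) := T_26 (nat_lit 176) (nat_lit 175) (nat_lit 0) (nat_lit 9) (nat_lit 11) L5001 (by decide +kernel)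
theorem L5003 : W_26 (nat_lit 12) (nat_lit 0x1e000200000001000080000000000000000000000000000000) (nat_lit 0x0) (nat_lit 0x17000f8007e00000019800e0004000000000000000000000000000000000000) := T_26 (nat_lit 213) (nat_lit 214) (nat_lit 3) (nat_lit 6) (nat_lit 11) L5002 (by decide +kernel)
theorem L5008 : W_26 (nat_lit 6) (nat_lit 0x1e000a00000001000080000000000000000000000000000000) (nat_lit 0x0) (nat_lit 0x738001c00180000000000000000000000000000000000000000000) := T_26 (nat_lit 176) (nat_lit 175) (nat_lit 0) (nat_lit 9) (nat_lit 11) L5007 (by decide +kernel)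
theorem L5009 : W_26 (nat_lit 7) (nat_lit 0x1e000200000001000080000000000000000000000000000000) (nat_lit 0x0) (nat_lit 0x738001c01980000000000000000000000000000000000000000000) := T_26 (nat_lit 179) (nat_lit 180) (nat_lit 2) (nat_lit 6) (nat_lit 11) L5008 (by decide +kernel)
theorem L5010 : W_26 (nat_lit 2) (nat_lit 0x1c0024001e000b000c8001400080000000000000000000000000000000) (nat_lit 0x0) (nat_lit 0x4000200010000000000000000000000000000000) := D_26 (nat_lit 141) (nat_lit 158) (nat_lit 124) (nat_lit 4) (nat_lit 6) (nat_lit 12) (nat_lit 4) (nat_lit 6) (nat_lit 11) (by decide +kernel)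
theorem L5011 : W_26 (nat_lit 3) (nat_lit 0x1c0024001e000b000c8001000080000000000000000000000000000000) (nat_lit 0x0) (nat_lit 0x4000600030000000000000000000000000000000) := T_26 (nat_lit 142) (nat_lit 125) (nat_lit 7) (nat_lit 6) (nat_lit 7) L5010 (by decide +kernel)
theorem L5012 : W_26 (nat_lit 4) (nat_lit 0x1c0024001e000b000c0001000080000000000000000000000000000000) (nat_lit 0x0) (nat_lit 0x8000000000000c000600030000000000000000000000000000000) := T_26 (nat_lit 159) (nat_lit 211) (nat_lit 7) (nat_lit 6) (nat_lit 9) L5011 (by decide +kernel)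
theorem L5013 : W_26 (nat_lit 5) (nat_lit 0xc0024001e000b000c0001000080000000000000000000000000000000) (nat_lit 0x0) (nat_lit 0x2000100008000000000000c000600030000000000000000000000000000000) := T_26 (nat_lit 228) (nat_lit 245) (nat_lit 7) (nat_lit 6) (nat_lit 10) L5012 (by decide +kernel)
theorem L5014 : W_26 (nat_lit 6) (nat_lit 0x80024001e000b000c0001000080000000000000000000000000000000) (nat_lit 0x0) (nat_lit 0x2800140008000000000000c000600030000000000000000000000000000000) := T_26 (nat_lit 226) (nat_lit 243) (nat_lit 5) (nat_lit 6) (nat_lit 10) L5013 (by decide +kernel)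
theorem L5015 : W_26 (nat_lit 7) (nat_lit 0x80024001e000b00040001000080000000000000000000000000000000) (nat_lit 0x0) (nat_lit 0x2800140008000000000008c004600030000000000000000000000000000000) := T_26 (nat_lit 163) (nat_lit 146) (nat_lit 6) (nat_lit 9) (nat_lit 12) L5014 (by decide +kernel)
theorem L5016 : W_26 (nat_lit 8) (nat_lit 0x80024001e000a00040001000080000000000000000000000000000000) (nat_lit 0x0) (nat_lit 0x2800140008000000018008c004600030000000000000000000000000000000) := T_26 (nat_lit 176) (nat_lit 175) (nat_lit 0) (nat_lit 9) (nat_lit 11) L5015 (by decide +kernel)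
theorem L5017 : W_26 (nat_lit 9) (nat_lit 0x80024001e000a00000001000080000000000000000000000000000000) (nat_lit 0x0) (nat_lit 0x280014000800000001800ec004600030000000000000000000000000000000) := T_26 (nat_lit 162) (nat_lit 161) (nat_lit 4) (nat_lit 9) (nat_lit 12) L5016 (by decide +kernel)
theorem L5018 : W_26 (nat_lit 10) (nat_lit 0x24001e000a00000001000080000000000000000000000000000000) (nat_lit 0x0) (nat_lit 0x38001c000800000001800ec004600030000000000000000000000000000000) := T_26 (nat_lit 227) (nat_lit 244) (nat_lit 6) (nat_lit 6) (nat_lit 14) L5017 (by decide +kernel)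
theorem L5019 : W_26 (nat_lit 11) (nat_lit 0x24001e000200000001000080000000000000000000000000000000) (nat_lit 0x0) (nat_lit 0x38001c000800000019800ec004600030000000000000000000000000000000) := T_26 (nat_lit 179) (nat_lit 180) (nat_lit 2) (nat_lit 6) (nat_lit 11) L5018 (by decide +kernel)
theorem L5020 : W_26 (nat_lit 12) (nat_lit 0x20001e000200000001000080000000000000000000000000000000) (nat_lit 0x0) (nat_lit 0x38001c000e00000019800ec004600030000000000000000000000000000000) := T_26 (nat_lit 210) (nat_lit 209) (nat_lit 1) (nat_lit 9) (nat_lit 11) L5019 (by decide +kernel)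
theorem L5021 : W_26 (nat_lit 13) (nat_lit 0x1e000200000001000080000000000000000000000000000000) (nat_lit 0x0) (nat_lit 0x38001c006e00000019800ec004600030000000000000000000000000000000) := T_26 (nat_lit 213) (nat_lit 214) (nat_lit 3) (nat_lit 6) (nat_lit 11) L5020 (by decide +kernel)
theorem L5034 : W_26 (nat_lit 14) (nat_lit 0x1c000200000001000080000000000000000000000000000000) (nat_lit 0x0) (nat_lit 0x17800fc007f8003c019c00ec004600030000000000000000000000000000000) := Q_26 (nat_lit 193) (C_26 L4988 (C_26 L4992 (C_26 L5003 (C_26 L5009 (C_26 L5021 (C_26 L5030 (C_26 L5033 N_26))))))) (by decide +kernel)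
theorem L5060 : W_26 (nat_lit 7) (nat_lit 0x1c000200000001000080000000000000000000000000000000) (nat_lit 0x0) (nat_lit 0xfe0063807800000000000000000000000000000000000000000000) := Q_26 (nat_lit 197) (C_26 L5038 (C_26 L5043 (C_26 L5046 (C_26 L5049 (C_26 L5054 (C_26 L5059 N_26)))))) (by decide +kernel)
theorem L5065 : W_26 (nat_lit 15) (nat_lit 0x14000200000001000080000000000000000000000000000000) (nat_lit 0x0) (nat_lit 0x17800fc00ff806bc079c00ec004600030000000000000000000000000000000) := Q_26 (nat_lit 195) (C_26 L5034 (C_26 L5039 (C_26 L5060 (C_26 L5061 (C_26 L5062 (C_26 L5063 (C_26 L5064 N_26))))))) (by decide +kernel)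
theorem L5095 : W_26 (nat_lit 2) (nat_lit 0x20001f000200020001000080000000000000000000000000000000) (nat_lit 0x0) (nat_lit 0x70000000000000000000000000000000000000000000000000000) := D_26 (nat_lit 209) (nat_lit 208) (nat_lit 210) (nat_lit 1) (nat_lit 8) (nat_lit 11) (nat_lit 1) (nat_lit 9) (nat_lit 11) (by decide +kernel)
theorem L5096 : W_26 (nat_lit 3) (nat_lit 0x20001e000200020001000080000000000000000000000000000000) (nat_lit 0x0) (nat_lit 0x170001000000000000000000000000000000000000000000000000) := T_26 (nat_lit 192) (nat_lit 212) (nat_lit 3) (nat_lit 5) (nat_lit 11) L5095 (by decide +kernel)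
theorem L5097 : W_26 (nat_lit 4) (nat_lit 0x1e000200020001000080000000000000000000000000000000) (nat_lit 0x0) (nat_lit 0x770001000000000000000000000000000000000000000000000000) := T_26 (nat_lit 213) (nat_lit 214) (nat_lit 3) (nat_lit 6) (nat_lit 11) L5096 (by decide +kernel)
theorem L5098 : W_26 (nat_lit 5) (nat_lit 0x1e000200000001000080000000000000000000000000000000) (nat_lit 0x0) (nat_lit 0x770001000400020000000000000000000000000000000000000000) := T_26 (nat_lit 161) (nat_lit 178) (nat_lit 5) (nat_lit 8) (nat_lit 7) L5097 (by decide +kernel)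
theorem L5099 : W_26 (nat_lit 2) (nat_lit 0x4001e000600000001000080000000000000000000000000000000) (nat_lit 0x0) (nat_lit 0x1001800000000000000000000000000000000000000000000) := D_26 (nat_lit 179) (nat_lit 180) (nat_lit 192) (nat_lit 2) (nat_lit 6) (nat_lit 11) (nat_lit 2) (nat_lit 5) (nat_lit 11) (by decide +kernel)
theorem L5100 : W_26 (nat_lit 3) (nat_lit 0x4001e000200000001000080000000000000000000000000000000) (nat_lit 0x0) (nat_lit 0x1001c00020000000000000000000000000000000000000000) := T_26 (nat_lit 178) (nat_lit 161) (nat_lit 5) (nat_lit 8) (nat_lit 7) L5099 (by decide +kernel)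
theorem L5101 : W_26 (nat_lit 4) (nat_lit 0x1e000200000001000080000000000000000000000000000000) (nat_lit 0x0) (nat_lit 0x60001001c00020000000000000000000000000000000000000000) := T_26 (nat_lit 210) (nat_lit 209) (nat_lit 1) (nat_lit 9) (nat_lit 11) L5100 (by decide +kernel)
theorem L5102 : W_26 (nat_lit 6) (nat_lit 0x1c000200000001000080000000000000000000000000000000) (nat_lit 0x0) (nat_lit 0x770003001c00060000000000000000000000000000000000000000) := Q_26 (nat_lit 193) (C_26 L4992 (C_26 L5094 (C_26 L5098 (C_26 L5101 N_26)))) (by decide +kernel)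
theorem L5118 : W_26 (nat_lit 11) (nat_lit 0x14000200000001000080000000000000000000000000000000) (nat_lit 0x0) (nat_lit 0x17000f800ff006b807c001e0004000200000000000000000000000000000000) := Q_26 (nat_lit 195) (C_26 L5071 (C_26 L5060 (C_26 L5080 (C_26 L5085 (C_26 L5091 (C_26 L5102 (C_26 L5110 (C_26 L5117 N_26)))))))) (by decide +kernel)
theorem L5160 : W_26 (nat_lit 7) (nat_lit 0x14000600000001000080000000000000000000000000000000) (nat_lit 0x0) (nat_lit 0x50002800e30019001cc004400200000000000000000000000000000000) := Q_26 (nat_lit 179) (C_26 L5145 (C_26 L5149 (C_26 L5150 (C_26 L5155 (C_26 L5159 N_26))))) (by decide +kernel)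
theorem L5161 : W_26 (nat_lit 8) (nat_lit 0x14000200000001000080000000000000000000000000000000) (nat_lit 0x0) (nat_lit 0x50002800e3001d001ec004400200000000000000000000000000000000) := T_26 (nat_lit 178) (nat_lit 161) (nat_lit 5) (nat_lit 8) (nat_lit 7) L5160 (by decide +kernel)
theorem L5162 : W_26 (nat_lit 11) (nat_lit 0x1c000200000001000080000000000000000000000000000000) (nat_lit 0x0) (nat_lit 0x38001c007f00030019c000c000600030000000000000000000000000000000) := Q_26 (nat_lit 193) (C_26 L5033 (C_26 L4992 (C_26 L5030 N_26))) (by decide +kernel)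
theorem L5163 : W_26 (nat_lit 12) (nat_lit 0x14000200000001000080000000000000000000000000000000) (nat_lit 0x0) (nat_lit 0x38001c00ff006b8079c000c000600030000000000000000000000000000000) := Q_26 (nat_lit 195) (C_26 L5162 (C_26 L5063 (C_26 L5060 (C_26 L5061 (C_26 L5062 (C_26 L5064 N_26)))))) (by decide +kernel)
theorem L5166 : W_26 (nat_lit 4) (nat_lit 0x14000e00000001000080000000000000000000000000000000) (nat_lit 0x0) (nat_lit 0x2b800180000000000000000000000000000000000000000000) := T_26 (nat_lit 176) (nat_lit 197) (nat_lit 3) (nat_lit 6) (nat_lit 10) L5165 (by decide +kernel)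
theorem L5167 : W_26 (nat_lit 6) (nat_lit 0x14000600000001000080000000000000000000000000000000) (nat_lit 0x0) (nat_lit 0x40002000eb8019801c0004000200000000000000000000000000000000) := Q_26 (nat_lit 179) (C_26 L5159 (C_26 L5149 (C_26 L5150 (C_26 L5166 N_26)))) (by decide +kernel)
theorem L5168 : W_26 (nat_lit 7) (nat_lit 0x14000200000001000080000000000000000000000000000000) (nat_lit 0x0) (nat_lit 0x40002000eb801d801e0004000200000000000000000000000000000000) := T_26 (nat_lit 178) (nat_lit 161) (nat_lit 5) (nat_lit 8) (nat_lit 7) L5167 (by decide +kernel)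
theorem L5175 : W_26 (nat_lit 8) (nat_lit 0x20001e000200000001000080000000000000000000000000000000) (nat_lit 0x0) (nat_lit 0x38003c001e0000000580020000000000000000000000000000000000000000) := T_26 (nat_lit 161) (nat_lit 178) (nat_lit 7) (nat_lit 8) (nat_lit 8) L5174 (by decide +kernel)
theorem L5176 : W_26 (nat_lit 9) (nat_lit 0x1e000200000001000080000000000000000000000000000000) (nat_lit 0x0) (nat_lit 0x38003c007e0000000580020000000000000000000000000000000000000000) := T_26 (nat_lit 213) (nat_lit 214) (nat_lit 3) (nat_lit 6) (nat_lit 11) L5175 (by decide +kernel)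
theorem L5177 : W_26 (nat_lit 2) (nat_lit 0x1000000024001e000680000001000080000000000000000000000000000000) (nat_lit 0x0) (nat_lit 0x1800040000000000000000000000000000000000000000000) := D_26 (nat_lit 192) (nat_lit 191) (nat_lit 174) (nat_lit 2) (nat_lit 4) (nat_lit 11) (nat_lit 0) (nat_lit 8) (nat_lit 11) (by decide +kernel)
theorem L5178 : W_26 (nat_lit 3) (nat_lit 0x1000000024001e000600000001000080000000000000000000000000000000) (nat_lit 0x0) (nat_lit 0x18001c0000000000000000000000000000000000000000000) := T_26 (nat_lit 175) (nat_lit 176) (nat_lit 3) (nat_lit 5) (nat_lit 10) L5177 (by decide +kernel)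
theorem L5179 : W_26 (nat_lit 4) (nat_lit 0x1000000024001e000200000001000080000000000000000000000000000000) (nat_lit 0x0) (nat_lit 0x18005c0020000000000000000000000000000000000000000) := T_26 (nat_lit 178) (nat_lit 161) (nat_lit 7) (nat_lit 8) (nat_lit 8) L5178 (by decide +kernel)
theorem L5180 : W_26 (nat_lit 5) (nat_lit 0x24001e000200000001000080000000000000000000000000000000) (nat_lit 0x0) (nat_lit 0x100008000000018005c0020000000000000000000000000000000000000000) := T_26 (nat_lit 244) (nat_lit 227) (nat_lit 6) (nat_lit 6) (nat_lit 14) L5179 (by decide +kernel)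
theorem L5181 : W_26 (nat_lit 6) (nat_lit 0x4001e000200000001000080000000000000000000000000000000) (nat_lit 0x0) (nat_lit 0x100008006000018005c0020000000000000000000000000000000000000000) := T_26 (nat_lit 213) (nat_lit 214) (nat_lit 3) (nat_lit 6) (nat_lit 11) L5180 (by decide +kernel)
theorem L5182 : W_26 (nat_lit 7) (nat_lit 0x1e000200000001000080000000000000000000000000000000) (nat_lit 0x0) (nat_lit 0x100008006600018005c0020000000000000000000000000000000000000000) := T_26 (nat_lit 210) (nat_lit 209) (nat_lit 1) (nat_lit 9) (nat_lit 11) L5181 (by decide +kernel)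
theorem L5189 : W_26 (nat_lit 8) (nat_lit 0x4001e000200020001000080000000000000000000000000000000) (nat_lit 0x0) (nat_lit 0x38001c0008000000018000c000600030000000000000000000000000000000) := T_26 (nat_lit 176) (nat_lit 175) (nat_lit 0) (nat_lit 9) (nat_lit 11) L5188 (by decide +kernel)
theorem L5190 : W_26 (nat_lit 9) (nat_lit 0x1e000200020001000080000000000000000000000000000000) (nat_lit 0x0) (nat_lit 0x38001c000e000000018000c000600030000000000000000000000000000000) := T_26 (nat_lit 210) (nat_lit 209) (nat_lit 1) (nat_lit 9) (nat_lit 11) L5189 (by decide +kernel)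
theorem L5191 : W_26 (nat_lit 10) (nat_lit 0x1e000200000001000080000000000000000000000000000000) (nat_lit 0x0) (nat_lit 0x38001c000e000000058002c000600030000000000000000000000000000000) := T_26 (nat_lit 161) (nat_lit 178) (nat_lit 5) (nat_lit 8) (nat_lit 7) L5190 (by decide +kernel)
theorem L5192 : W_26 (nat_lit 11) (nat_lit 0x1c000200000001000080000000000000000000000000000000) (nat_lit 0x0) (nat_lit 0x38003c007f00038005c002c000600030000000000000000000000000000000) := Q_26 (nat_lit 193) (C_26 L5098 (C_26 L5033 (C_26 L5176 (C_26 L5182 (C_26 L5191 N_26))))) (by decide +kernel)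
theorem L5195 : W_26 (nat_lit 12) (nat_lit 0x14000200000001000080000000000000000000000000000000) (nat_lit 0x0) (nat_lit 0x78007c00ff006b8035c002c000600030000000000000000000000000000000) := Q_26 (nat_lit 195) (C_26 L5192 (C_26 L5080 (C_26 L5063 (C_26 L5194 N_26)))) (by decide +kernel)
theorem L5196 : W_26 (nat_lit 12) (nat_lit 0x14000200000001000080000000000000000000000000000000) (nat_lit 0x0) (nat_lit 0x38003c00ff006b800dc002c000600030000000000000000000000000000000) := Q_26 (nat_lit 195) (C_26 L5192 (C_26 L5194 (C_26 L5091 (C_26 L5063 N_26)))) (by decide +kernel)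
theorem L5197 : W_26 (nat_lit 11) (nat_lit 0x16000200000001000080000000000000000000000000000000) (nat_lit 0x0) (nat_lit 0x38001c006e0008001d8006c000600030000000000000000000000000000000) := Q_26 (nat_lit 195) (C_26 L5191 (C_26 L5094 (C_26 L5030 N_26))) (by decide +kernel)
theorem L5201 : W_26 (nat_lit 11) (nat_lit 0x16000200000001000080000000000000000000000000000000) (nat_lit 0x0) (nat_lit 0x38001c007f00090019c000c000600030000000000000000000000000000000) := Q_26 (nat_lit 195) (C_26 L5033 (C_26 L4992 (C_26 L5030 N_26))) (by decide +kernel)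
theorem L5205 : W_26 (nat_lit 11) (nat_lit 0x16000200000001000080000000000000000000000000000000) (nat_lit 0x0) (nat_lit 0x38001c007f00090005c002c000600030000000000000000000000000000000) := Q_26 (nat_lit 195) (C_26 L5191 (C_26 L5098 (C_26 L5033 N_26))) (by decide +kernel)
theorem L5206 : W_26 (nat_lit 12) (nat_lit 0x14000200000001000080000000000000000000000000000000) (nat_lit 0x0) (nat_lit 0x38001c007f000b801dc006c000600030000000000000000000000000000000) := Q_26 (nat_lit 193) (C_26 L5197 (C_26 L5200 (C_26 L5201 (C_26 L5204 (C_26 L5205 N_26))))) (by decide +kernel)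
theorem L5207 : W_26 (nat_lit 2) (nat_lit 0x1e000700000001000080000000000000000000000000000000) (nat_lit 0x0) (nat_lit 0x1001800000000000000000000000000000000000000000000) := D_26 (nat_lit 179) (nat_lit 180) (nat_lit 192) (nat_lit 2) (nat_lit 6) (nat_lit 11) (nat_lit 2) (nat_lit 5) (nat_lit 11) (by decide +kernel)
theorem L5208 : W_26 (nat_lit 3) (nat_lit 0x1e000300000001000080000000000000000000000000000000) (nat_lit 0x0) (nat_lit 0x1001c00020000000000000000000000000000000000000000) := T_26 (nat_lit 178) (nat_lit 161) (nat_lit 5) (nat_lit 8) (nat_lit 7) L5207 (by decide +kernel)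
theorem L5209 : W_26 (nat_lit 4) (nat_lit 0x1e000200000001000080000000000000000000000000000000) (nat_lit 0x0) (nat_lit 0x1001d80020000000000000000000000000000000000000000) := T_26 (nat_lit 176) (nat_lit 175) (nat_lit 0) (nat_lit 9) (nat_lit 11) L5208 (by decide +kernel)
theorem L5210 : W_26 (nat_lit 11) (nat_lit 0x1c000200000001000080000000000000000000000000000000) (nat_lit 0x0) (nat_lit 0x38001c000e0003001d8002c000600030000000000000000000000000000000) := Q_26 (nat_lit 193) (C_26 L5191 (C_26 L5101 (C_26 L5030 (C_26 L5209 N_26)))) (by decide +kernel)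
theorem L5211 : W_26 (nat_lit 12) (nat_lit 0x14000200000001000080000000000000000000000000000000) (nat_lit 0x0) (nat_lit 0x138009c00de006b007d8006c000600030000000000000000000000000000000) := Q_26 (nat_lit 195) (C_26 L5210 (C_26 L5194 (C_26 L5110 (C_26 L5061 N_26)))) (by decide +kernel)
theorem L5212 : W_26 (nat_lit 16) (nat_lit 0x4000200000001000080000000000000000000000000000000) (nat_lit 0x0) (nat_lit 0x17800fc07ff81fbc0fdc01ec004600230000000000000000000000000000000) := Q_26 (nat_lit 196) (C_26 L5065 (C_26 L5118 (C_26 L5143 (C_26 L5161 (C_26 L5163 (C_26 L5168 (C_26 L5195 (C_26 L5196 (C_26 L5206 (C_26 L5211 N_26)))))))))) (by decide +kernel)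
theorem L5225 : W_26 (nat_lit 9) (nat_lit 0xe000200000001000080000000000000000000000000000000) (nat_lit 0x0) (nat_lit 0x400028003f8011800cc0004000200000000000000000000000000000000000) := Q_26 (nat_lit 192) (C_26 L5213 (C_26 L5217 (C_26 L5224 N_26))) (by decide +kernel)
theorem L5232 : W_26 (nat_lit 2) (nat_lit 0x1000000034001e000a00000001800080000000000000000000000000000000) (nat_lit 0x0) (nat_lit 0x40002000000000000000040000000000000000000000000000000000000000) := D_26 (nat_lit 229) (nat_lit 246) (nat_lit 162) (nat_lit 6) (nat_lit 8) (nat_lit 14) (nat_lit 5) (nat_lit 9) (nat_lit 9) (by decide +kernel)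
theorem L5233 : W_26 (nat_lit 3) (nat_lit 0x1000000034001e000200000001800080000000000000000000000000000000) (nat_lit 0x0) (nat_lit 0x40002000000000001800040000000000000000000000000000000000000000) := T_26 (nat_lit 179) (nat_lit 180) (nat_lit 2) (nat_lit 6) (nat_lit 11) L5232 (by decide +kernel)
theorem L5234 : W_26 (nat_lit 4) (nat_lit 0x1000000024001e000200000001800080000000000000000000000000000000) (nat_lit 0x0) (nat_lit 0x40002000100001001800040000000000000000000000000000000000000000) := T_26 (nat_lit 212) (nat_lit 192) (nat_lit 3) (nat_lit 5) (nat_lit 11) L5233 (by decide +kernel)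
theorem L5235 : W_26 (nat_lit 5) (nat_lit 0x1000000004001e000200000001800080000000000000000000000000000000) (nat_lit 0x0) (nat_lit 0x40002000700001001800040000000000000000000000000000000000000000) := T_26 (nat_lit 213) (nat_lit 214) (nat_lit 3) (nat_lit 6) (nat_lit 11) L5234 (by decide +kernel)
theorem L5236 : W_26 (nat_lit 6) (nat_lit 0x4001e000200000001800080000000000000000000000000000000) (nat_lit 0x0) (nat_lit 0x50002800700001001800040000000000000000000000000000000000000000) := T_26 (nat_lit 244) (nat_lit 227) (nat_lit 6) (nat_lit 6) (nat_lit 14) L5235 (by decide +kernel)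
theorem L5237 : W_26 (nat_lit 7) (nat_lit 0x4000e000200000001800080000000000000000000000000000000) (nat_lit 0x0) (nat_lit 0x50002800720011001800040000000000000000000000000000000000000000) := T_26 (nat_lit 196) (nat_lit 209) (nat_lit 1) (nat_lit 9) (nat_lit 11) L5236 (by decide +kernel)
theorem L5238 : W_26 (nat_lit 8) (nat_lit 0x4000e000200000001000080000000000000000000000000000000) (nat_lit 0x0) (nat_lit 0x50002800720011001800050000800000000000000000000000000000000000) := T_26 (nat_lit 143) (nat_lit 160) (nat_lit 6) (nat_lit 7) (nat_lit 11) L5237 (by decide +kernel)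
theorem L5239 : W_26 (nat_lit 2) (nat_lit 0x4003e000a00010001000080000000000000000000000000000000) (nat_lit 0x0) (nat_lit 0xe00000000000000000000000000000000000000000000000000000) := D_26 (nat_lit 214) (nat_lit 213) (nat_lit 215) (nat_lit 3) (nat_lit 6) (nat_lit 11) (nat_lit 3) (nat_lit 7) (nat_lit 11) (by decide +kernel)
theorem L5240 : W_26 (nat_lit 3) (nat_lit 0x4001e000a00010001000080000000000000000000000000000000) (nat_lit 0x0) (nat_lit 0xe80020000000000000000000000000000000000000000000000000) := T_26 (nat_lit 197) (nat_lit 211) (nat_lit 1) (nat_lit 10) (nat_lit 11) L5239 (by decide +kernel)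
theorem L5241 : W_26 (nat_lit 4) (nat_lit 0x4001e000200010001000080000000000000000000000000000000) (nat_lit 0x0) (nat_lit 0xe80020001800000000000000000000000000000000000000000000) := T_26 (nat_lit 179) (nat_lit 180) (nat_lit 2) (nat_lit 6) (nat_lit 11) L5240 (by decide +kernel)
theorem L5242 : W_26 (nat_lit 5) (nat_lit 0x4001e000200000001000080000000000000000000000000000000) (nat_lit 0x0) (nat_lit 0xe80020001800010000800000000000000000000000000000000000) := T_26 (nat_lit 160) (nat_lit 143) (nat_lit 6) (nat_lit 7) (nat_lit 11) L5241 (by decide +kernel)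
theorem L5243 : W_26 (nat_lit 6) (nat_lit 0x4000e000200000001000080000000000000000000000000000000) (nat_lit 0x0) (nat_lit 0xea0030001800010000800000000000000000000000000000000000) := T_26 (nat_lit 196) (nat_lit 209) (nat_lit 1) (nat_lit 9) (nat_lit 11) L5242 (by decide +kernel)
theorem L5244 : W_26 (nat_lit 9) (nat_lit 0xe000200000001000080000000000000000000000000000000) (nat_lit 0x0) (nat_lit 0x50002800fe0031001800050000800000000000000000000000000000000000) := Q_26 (nat_lit 210) (C_26 L5229 (C_26 L5231 (C_26 L5238 (C_26 L5243 N_26)))) (by decide +kernel)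
theorem L5254 : W_26 (nat_lit 6) (nat_lit 0x1e000200000001000080000000000000000000000000000000) (nat_lit 0x0) (nat_lit 0xee0020001800010000800000000000000000000000000000000000) := T_26 (nat_lit 210) (nat_lit 209) (nat_lit 1) (nat_lit 9) (nat_lit 11) L5242 (by decide +kernel)
theorem L5277 : W_26 (nat_lit 12) (nat_lit 0xe000200000001000080000000000000000000000000000000) (nat_lit 0x0) (nat_lit 0x90004803fe00f0007c00010000800000000000000000000000000000000000) := Q_26 (nat_lit 196) (C_26 L5253 (C_26 L5254 (C_26 L5264 (C_26 L5268 (C_26 L5272 (C_26 L5276 N_26)))))) (by decide +kernel)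
theorem L5281 : W_26 (nat_lit 6) (nat_lit 0xe000200000001000080000000000000000000000000000000) (nat_lit 0x0) (nat_lit 0x400020003b8001800cc0010000000000000000000000000000000000000000) := Q_26 (nat_lit 192) (C_26 L5217 (C_26 L5213 (C_26 L5280 N_26))) (by decide +kernel)
theorem L5289 : W_26 (nat_lit 9) (nat_lit 0xe000200000001000080000000000000000000000000000000) (nat_lit 0x0) (nat_lit 0x50002800370011800cc0014000a00000000000000000000000000000000000) := Q_26 (nat_lit 192) (C_26 L5280 (C_26 L5288 (C_26 L5224 (C_26 L5213 N_26)))) (by decide +kernel)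
theorem L5295 : W_26 (nat_lit 9) (nat_lit 0xe000200000001000080000000000000000000000000000000) (nat_lit 0x0) (nat_lit 0x500028003f80118004c0014000800000000000000000000000000000000000) := Q_26 (nat_lit 192) (C_26 L5217 (C_26 L5288 (C_26 L5291 (C_26 L5294 N_26)))) (by decide +kernel)
theorem L5303 : W_26 (nat_lit 9) (nat_lit 0xe000200000001000080000000000000000000000000000000) (nat_lit 0x0) (nat_lit 0xe78031803cc0010000800000000000000000000000000000000000) := Q_26 (nat_lit 192) (C_26 L5294 (C_26 L5302 (C_26 L5213 N_26))) (by decide +kernel)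
theorem L5309 : W_26 (nat_lit 7) (nat_lit 0xe000200000001000080000000000000000000000000000000) (nat_lit 0x0) (nat_lit 0x100008000f8011800cc0010000800000000000000000000000000000000000) := Q_26 (nat_lit 192) (C_26 L5294 (C_26 L5308 (C_26 L5213 N_26))) (by decide +kernel)
theorem L5313 : W_26 (nat_lit 5) (nat_lit 0xe000200000001000080000000000000000000000000000000) (nat_lit 0x0) (nat_lit 0x40002000380001800ce0010000000000000000000000000000000000000000) := Q_26 (nat_lit 192) (C_26 L5291 (C_26 L5312 (C_26 L5280 (C_26 L5213 N_26)))) (by decide +kernel)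
theorem L5314 : W_26 (nat_lit 13) (nat_lit 0xc000200000001000080000000000000000000000000000000) (nat_lit 0x0) (nat_lit 0xd0006803ff80f3807ce0054000a00000000000000000000000000000000000) := Q_26 (nat_lit 193) (C_26 L5225 (C_26 L5244 (C_26 L5277 (C_26 L5281 (C_26 L5289 (C_26 L5295 (C_26 L5303 (C_26 L5309 (C_26 L5313 N_26))))))))) (by decide +kernel)
theorem L5324 : W_26 (nat_lit 2) (nat_lit 0xc000340002001e000b0000000000000000000000000000000) (nat_lit 0x0) (nat_lit 0x800000001000100000000000000000000000000000000000) := D_26 (nat_lit 140) (nat_lit 156) (nat_lit 191) (nat_lit 1) (nat_lit 7) (nat_lit 8) (nat_lit 6) (nat_lit 4) (nat_lit 11) (by decide +kernel)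
theorem L5325 : W_26 (nat_lit 3) (nat_lit 0xc000340002001e000a0000000000000000000000000000000) (nat_lit 0x0) (nat_lit 0x800000001000100018000000000000000000000000000000) := T_26 (nat_lit 124) (nat_lit 123) (nat_lit 0) (nat_lit 8) (nat_lit 8) L5324 (by decide +kernel)
theorem L5326 : W_26 (nat_lit 4) (nat_lit 0xc000340000001e000a0000000000000000000000000000000) (nat_lit 0x0) (nat_lit 0x800000007000100018000000000000000000000000000000) := T_26 (nat_lit 157) (nat_lit 158) (nat_lit 1) (nat_lit 8) (nat_lit 8) L5325 (by decide +kernel)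
theorem L5327 : W_26 (nat_lit 5) (nat_lit 0xc000340000001c000a0000000000000000000000000000000) (nat_lit 0x0) (nat_lit 0x800000007000300118000000000000000000000000000000) := T_26 (nat_lit 141) (nat_lit 128) (nat_lit 2) (nat_lit 5) (nat_lit 8) L5326 (by decide +kernel)
theorem L5328 : W_26 (nat_lit 6) (nat_lit 0xc000300000001c000a0000000000000000000000000000000) (nat_lit 0x0) (nat_lit 0x8000c0007000300118000000000000000000000000000000) := T_26 (nat_lit 174) (nat_lit 175) (nat_lit 3) (nat_lit 4) (nat_lit 10) L5327 (by decide +kernel)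
theorem L5329 : W_26 (nat_lit 7) (nat_lit 0xc0003000000014000a0000000000000000000000000000000) (nat_lit 0x0) (nat_lit 0x8000c0017000b00118000000000000000000000000000000) := T_26 (nat_lit 143) (nat_lit 160) (nat_lit 6) (nat_lit 7) (nat_lit 11) L5328 (by decide +kernel)
theorem L5330 : W_26 (nat_lit 8) (nat_lit 0xc000300000001400080000000000000000000000000000000) (nat_lit 0x0) (nat_lit 0x8000c001f000b00138000000000000000000000000000000) := T_26 (nat_lit 125) (nat_lit 159) (nat_lit 7) (nat_lit 6) (nat_lit 7) L5329 (by decide +kernel)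
theorem L5335 : W_26 (nat_lit 6) (nat_lit 0xc000300000001c00080000000000000000000000000000000) (nat_lit 0x0) (nat_lit 0x8000c0007000300118000000000000000000000000000000) := T_26 (nat_lit 174) (nat_lit 175) (nat_lit 3) (nat_lit 4) (nat_lit 10) L5334 (by decide +kernel)
theorem L5336 : W_26 (nat_lit 7) (nat_lit 0xc000300000001400080000000000000000000000000000000) (nat_lit 0x0) (nat_lit 0x8000c0017000b00118000000000000000000000000000000) := T_26 (nat_lit 143) (nat_lit 160) (nat_lit 6) (nat_lit 7) (nat_lit 11) L5335 (by decide +kernel)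
theorem L5337 : W_26 (nat_lit 9) (nat_lit 0xc000300000001000080000000000000000000000000000000) (nat_lit 0x0) (nat_lit 0x10000800028000c001f000f00138000000000000000000000000000000) := Q_26 (nat_lit 142) (C_26 L5318 (C_26 L5320 (C_26 L5323 (C_26 L5330 (C_26 L5336 N_26))))) (by decide +kernel)
theorem L5358 : W_26 (nat_lit 10) (nat_lit 0xc000300000001000080000000000000000000000000000000) (nat_lit 0x0) (nat_lit 0xc00070003e007f00300000c0018000c00000000000000000000000000000000000) := Q_26 (nat_lit 211) (C_26 L5339 (C_26 L5344 (C_26 L5352 (C_26 L5357 N_26)))) (by decide +kernel)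
theorem L5364 : W_26 (nat_lit 5) (nat_lit 0x2c000300000001c000a0000000000000000000000000000000) (nat_lit 0x0) (nat_lit 0x700030011c000000000000000000000000000000) := T_26 (nat_lit 141) (nat_lit 128) (nat_lit 2) (nat_lit 5) (nat_lit 8) L5363 (by decide +kernel)
theorem L5365 : W_26 (nat_lit 6) (nat_lit 0x2c000300000001c00080000000000000000000000000000000) (nat_lit 0x0) (nat_lit 0xf00030013c000000000000000000000000000000) := T_26 (nat_lit 125) (nat_lit 159) (nat_lit 7) (nat_lit 6) (nat_lit 7) L5364 (by decide +kernel)
theorem L5366 : W_26 (nat_lit 7) (nat_lit 0x2c000300000001400080000000000000000000000000000000) (nat_lit 0x0) (nat_lit 0x1f000b0013c000000000000000000000000000000) := T_26 (nat_lit 143) (nat_lit 160) (nat_lit 6) (nat_lit 7) (nat_lit 11) L5365 (by decide +kernel)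
theorem L5367 : W_26 (nat_lit 8) (nat_lit 0xc000300000001400080000000000000000000000000000000) (nat_lit 0x0) (nat_lit 0x3000000001f000b0013c000000000000000000000000000000) := T_26 (nat_lit 197) (nat_lit 196) (nat_lit 0) (nat_lit 10) (nat_lit 11) L5366 (by decide +kernel)
theorem L5368 : W_26 (nat_lit 2) (nat_lit 0x2c000300002001e00088000000000000000000000000000000) (nat_lit 0x0) (nat_lit 0x1000100004000000000000000000000000000000) := D_26 (nat_lit 140) (nat_lit 156) (nat_lit 122) (nat_lit 1) (nat_lit 7) (nat_lit 8) (nat_lit 0) (nat_lit 7) (nat_lit 8) (by decide +kernel)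
theorem L5369 : W_26 (nat_lit 3) (nat_lit 0x2c000300002001e00080000000000000000000000000000000) (nat_lit 0x0) (nat_lit 0x100010001c000000000000000000000000000000) := T_26 (nat_lit 123) (nat_lit 124) (nat_lit 0) (nat_lit 8) (nat_lit 8) L5368 (by decide +kernel)
theorem L5370 : W_26 (nat_lit 4) (nat_lit 0x2c000300000001e00080000000000000000000000000000000) (nat_lit 0x0) (nat_lit 0x700010001c000000000000000000000000000000) := T_26 (nat_lit 157) (nat_lit 158) (nat_lit 1) (nat_lit 8) (nat_lit 8) L5369 (by decide +kernel)
theorem L5371 : W_26 (nat_lit 5) (nat_lit 0x2c000300000001c00080000000000000000000000000000000) (nat_lit 0x0) (nat_lit 0x700030011c000000000000000000000000000000) := T_26 (nat_lit 141) (nat_lit 128) (nat_lit 2) (nat_lit 5) (nat_lit 8) L5370 (by decide +kernel)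
theorem L5372 : W_26 (nat_lit 6) (nat_lit 0xc000300000001c00080000000000000000000000000000000) (nat_lit 0x0) (nat_lit 0x3000000000700030011c000000000000000000000000000000) := T_26 (nat_lit 197) (nat_lit 196) (nat_lit 0) (nat_lit 10) (nat_lit 11) L5371 (by decide +kernel)
theorem L5373 : W_26 (nat_lit 7) (nat_lit 0xc000300000001400080000000000000000000000000000000) (nat_lit 0x0) (nat_lit 0x30000000017000b0011c000000000000000000000000000000) := T_26 (nat_lit 143) (nat_lit 160) (nat_lit 6) (nat_lit 7) (nat_lit 11) L5372 (by decide +kernel)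
theorem L5374 : W_26 (nat_lit 9) (nat_lit 0xc000300000001000080000000000000000000000000000000) (nat_lit 0x0) (nat_lit 0x100008003200000001f000f0013c000000000000000000000000000000) := Q_26 (nat_lit 142) (C_26 L5320 (C_26 L5360 (C_26 L5318 (C_26 L5367 (C_26 L5373 N_26))))) (by decide +kernel)
theorem L5375 : W_26 (nat_lit 11) (nat_lit 0xc000200000001000080000000000000000000000000000000) (nat_lit 0x0) (nat_lit 0xc00070003e007f00328001c001f000f0013c000000000000000000000000000000) := Q_26 (nat_lit 176) (C_26 L5316 (C_26 L5337 (C_26 L5358 (C_26 L5374 N_26)))) (by decide +kernel)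
theorem L5378 : W_26 (nat_lit 12) (nat_lit 0xc000200000001000080000000000000000000000000000000) (nat_lit 0x0) (nat_lit 0x38001c00ff00738079c000c000600030000000000000000000000000000000) := Q_26 (nat_lit 196) (C_26 L5064 (C_26 L5162 (C_26 L5060 (C_26 L5061 (C_26 L5062 (C_26 L5063 N_26)))))) (by decide +kernel)
theorem L5383 : W_26 (nat_lit 10) (nat_lit 0xc000300000001000080000000000000000000000000000000) (nat_lit 0x0) (nat_lit 0xc00070003e007f0030000000018000c00000000000000000000000000000000000) := Q_26 (nat_lit 211) (C_26 L5352 (C_26 L5382 (C_26 L5339 N_26))) (by decide +kernel)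
theorem L5411 : W_26 (nat_lit 12) (nat_lit 0xc000300000001000080000000000000000000000000000000) (nat_lit 0x0) (nat_lit 0x1c000e00070007e001f00018004c0018000c00000000000000000000000000000000000) := Q_26 (nat_lit 211) (C_26 L5339 (C_26 L5388 (C_26 L5398 (C_26 L5405 (C_26 L5410 N_26))))) (by decide +kernel)
theorem L5412 : W_26 (nat_lit 13) (nat_lit 0xc000200000001000080000000000000000000000000000000) (nat_lit 0x0) (nat_lit 0x1c000e00070007e007f00318005c0018000c00000000000000000000000000000000000) := Q_26 (nat_lit 176) (C_26 L5377 (C_26 L5383 (C_26 L5411 N_26))) (by decide +kernel)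
theorem L5413 : W_26 (nat_lit 2) (nat_lit 0x20001f000200010001000080000000000000000000000000000000) (nat_lit 0x0) (nat_lit 0x70000000000000000000000000000000000000000000000000000) := D_26 (nat_lit 209) (nat_lit 210) (nat_lit 208) (nat_lit 1) (nat_lit 9) (nat_lit 11) (nat_lit 1) (nat_lit 8) (nat_lit 11) (by decide +kernel)
theorem L5414 : W_26 (nat_lit 3) (nat_lit 0x20001e000200010001000080000000000000000000000000000000) (nat_lit 0x0) (nat_lit 0x170001000000000000000000000000000000000000000000000000) := T_26 (nat_lit 192) (nat_lit 212) (nat_lit 3) (nat_lit 5) (nat_lit 11) L5413 (by decide +kernel)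
theorem L5415 : W_26 (nat_lit 4) (nat_lit 0x1e000200010001000080000000000000000000000000000000) (nat_lit 0x0) (nat_lit 0x770001000000000000000000000000000000000000000000000000) := T_26 (nat_lit 213) (nat_lit 214) (nat_lit 3) (nat_lit 6) (nat_lit 11) L5414 (by decide +kernel)
theorem L5416 : W_26 (nat_lit 5) (nat_lit 0x1e000200000001000080000000000000000000000000000000) (nat_lit 0x0) (nat_lit 0x770001000000010000800000000000000000000000000000000000) := T_26 (nat_lit 160) (nat_lit 143) (nat_lit 6) (nat_lit 7) (nat_lit 11) L5415 (by decide +kernel)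
theorem L5417 : W_26 (nat_lit 2) (nat_lit 0x1f000a00000001000080000000000000000000000000000000) (nat_lit 0x0) (nat_lit 0x700000000000000000000000000000000000000000000000000000) := D_26 (nat_lit 213) (nat_lit 214) (nat_lit 212) (nat_lit 3) (nat_lit 6) (nat_lit 11) (nat_lit 3) (nat_lit 5) (nat_lit 11) (by decide +kernel)
theorem L5418 : W_26 (nat_lit 3) (nat_lit 0x1e000a00000001000080000000000000000000000000000000) (nat_lit 0x0) (nat_lit 0x700001000400000000000000000000000000000000000000000000) := T_26 (nat_lit 192) (nat_lit 178) (nat_lit 2) (nat_lit 5) (nat_lit 11) L5417 (by decide +kernel)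
theorem L5419 : W_26 (nat_lit 4) (nat_lit 0x1e000200000001000080000000000000000000000000000000) (nat_lit 0x0) (nat_lit 0x700001001c00000000000000000000000000000000000000000000) := T_26 (nat_lit 179) (nat_lit 180) (nat_lit 2) (nat_lit 6) (nat_lit 11) L5418 (by decide +kernel)
theorem L5420 : W_26 (nat_lit 6) (nat_lit 0x1c000200000001000080000000000000000000000000000000) (nat_lit 0x0) (nat_lit 0x100008007f0003001c00010000800000000000000000000000000000000000) := Q_26 (nat_lit 193) (C_26 L4992 (C_26 L5276 (C_26 L5416 (C_26 L5419 N_26)))) (by decide +kernel)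
theorem L5421 : W_26 (nat_lit 8) (nat_lit 0xc000200000001000080000000000000000000000000000000) (nat_lit 0x0) (nat_lit 0x10000800ff0073807d00010000800000000000000000000000000000000000) := Q_26 (nat_lit 196) (C_26 L5064 (C_26 L5060 (C_26 L5061 (C_26 L5062 (C_26 L5063 (C_26 L5420 N_26)))))) (by decide +kernel)
theorem L5458 : W_26 (nat_lit 10) (nat_lit 0xc000200010001000080000000000000000000000000000000) (nat_lit 0x0) (nat_lit 0x4000e0007001fe00ff0003800500008000400000000000000000000000000000000000) := Q_26 (nat_lit 211) (C_26 L5425 (C_26 L5433 (C_26 L5441 (C_26 L5445 (C_26 L5451 (C_26 L5457 N_26)))))) (by decide +kernel)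
theorem L5459 : W_26 (nat_lit 11) (nat_lit 0xc000200000001000080000000000000000000000000000000) (nat_lit 0x0) (nat_lit 0x4000e0007001fe00ff0003800500018000c00000000000000000000000000000000000) := T_26 (nat_lit 160) (nat_lit 143) (nat_lit 6) (nat_lit 7) (nat_lit 11) L5458 (by decide +kernel)
theorem L5464 : W_26 (nat_lit 6) (nat_lit 0x1c000200000001000080000000000000000000000000000000) (nat_lit 0x0) (nat_lit 0xf70023003c00010000800000000000000000000000000000000000) := Q_26 (nat_lit 193) (C_26 L5419 (C_26 L5416 (C_26 L5272 (C_26 L5463 N_26)))) (by decide +kernel)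
theorem L5472 : W_26 (nat_lit 5) (nat_lit 0x20001e000200000001000080000000000000000000000000000000) (nat_lit 0x0) (nat_lit 0x800060000001980010000800000000000000000000000000000000000) := T_26 (nat_lit 160) (nat_lit 143) (nat_lit 6) (nat_lit 7) (nat_lit 11) L5471 (by decide +kernel)
theorem L5473 : W_26 (nat_lit 6) (nat_lit 0x1e000200000001000080000000000000000000000000000000) (nat_lit 0x0) (nat_lit 0x800660000001980010000800000000000000000000000000000000000) := T_26 (nat_lit 213) (nat_lit 214) (nat_lit 3) (nat_lit 6) (nat_lit 11) L5472 (by decide +kernel)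
theorem L5474 : W_26 (nat_lit 7) (nat_lit 0x1c000200000001000080000000000000000000000000000000) (nat_lit 0x0) (nat_lit 0x800770003001d80010000800000000000000000000000000000000000) := Q_26 (nat_lit 193) (C_26 L5463 (C_26 L5416 (C_26 L5419 (C_26 L5473 N_26)))) (by decide +kernel)
theorem L5479 : W_26 (nat_lit 8) (nat_lit 0xc000200000001000080000000000000000000000000000000) (nat_lit 0x0) (nat_lit 0x801f70073007d80010000800000000000000000000000000000000000) := Q_26 (nat_lit 196) (C_26 L5062 (C_26 L5464 (C_26 L5468 (C_26 L5474 (C_26 L5478 N_26))))) (by decide +kernel)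
theorem L5480 : W_26 (nat_lit 10) (nat_lit 0xc000200000001000080000000000000000000000000000000) (nat_lit 0x0) (nat_lit 0x10000800328005c001f000f0013c000000000000000000000000000000) := Q_26 (nat_lit 176) (C_26 L5377 (C_26 L5374 (C_26 L5337 N_26))) (by decide +kernel)
theorem L5481 : W_26 (nat_lit 14) (nat_lit 0x4000200000001000080000000000000000000000000000000) (nat_lit 0x0) (nat_lit 0x1c000e000f801fe03ff80fb807de005f000f0013c000000000000000000000000000000) := Q_26 (nat_lit 195) (C_26 L5314 (C_26 L5375 (C_26 L5378 (C_26 L5412 (C_26 L5421 (C_26 L5459 (C_26 L5479 (C_26 L5480 N_26)))))))) (by decide +kernel)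
theorem L5497 : W_26 (nat_lit 2) (nat_lit 0x4000e00010001000080000000000000000000000000000000) (nat_lit 0x0) (nat_lit 0x2001000008000000000000000000000000000000000000000) := D_26 (nat_lit 180) (nat_lit 159) (nat_lit 193) (nat_lit 0) (nat_lit 10) (nat_lit 10) (nat_lit 1) (nat_lit 10) (nat_lit 10) (by decide +kernel)
theorem L5498 : W_26 (nat_lit 3) (nat_lit 0x4000e00000001000080000000000000000000000000000000) (nat_lit 0x0) (nat_lit 0x2001000018000800000000000000000000000000000000000) := T_26 (nat_lit 160) (nat_lit 143) (nat_lit 6) (nat_lit 7) (nat_lit 11) L5497 (by decide +kernel)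
theorem L5504 : W_26 (nat_lit 2) (nat_lit 0x200020001e000f000480010000a0000000000000000000000000000000) (nat_lit 0x0) (nat_lit 0xc0004000000000000000000000000000000000000000000000000000000000) := D_26 (nat_lit 230) (nat_lit 247) (nat_lit 246) (nat_lit 4) (nat_lit 9) (nat_lit 14) (nat_lit 5) (nat_lit 9) (nat_lit 10) (by decide +kernel)
theorem L5505 : W_26 (nat_lit 3) (nat_lit 0x200000001e000f000480010000a0000000000000000000000000000000) (nat_lit 0x0) (nat_lit 0xc0004000600000000000000000000000000000000000000000000000000000) := T_26 (nat_lit 213) (nat_lit 214) (nat_lit 3) (nat_lit 6) (nat_lit 11) L5504 (by decide +kernel)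
theorem L5506 : W_26 (nat_lit 4) (nat_lit 0x1e000f000480010000a0000000000000000000000000000000) (nat_lit 0x0) (nat_lit 0xc0006000700000000000000000000000000000000000000000000000000000) := T_26 (nat_lit 229) (nat_lit 212) (nat_lit 6) (nat_lit 8) (nat_lit 13) L5505 (by decide +kernel)
theorem L5507 : W_26 (nat_lit 5) (nat_lit 0x16000f000480010000a0000000000000000000000000000000) (nat_lit 0x0) (nat_lit 0xc0006000700008000080000000000000000000000000000000000000000000) := T_26 (nat_lit 195) (nat_lit 175) (nat_lit 3) (nat_lit 5) (nat_lit 10) L5506 (by decide +kernel)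
theorem L5508 : W_26 (nat_lit 6) (nat_lit 0x6000f000480010000a0000000000000000000000000000000) (nat_lit 0x0) (nat_lit 0xc0006000700038000080000000000000000000000000000000000000000000) := T_26 (nat_lit 196) (nat_lit 197) (nat_lit 3) (nat_lit 6) (nat_lit 10) L5507 (by decide +kernel)
theorem L5509 : W_26 (nat_lit 7) (nat_lit 0x6000f000080010000a0000000000000000000000000000000) (nat_lit 0x0) (nat_lit 0xc00060007000380000800c0000000000000000000000000000000000000000) := T_26 (nat_lit 162) (nat_lit 163) (nat_lit 2) (nat_lit 6) (nat_lit 10) L5508 (by decide +kernel)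
theorem L5510 : W_26 (nat_lit 8) (nat_lit 0x6000f00008001000080000000000000000000000000000000) (nat_lit 0x0) (nat_lit 0xc00060007000380000800c0000400020000000000000000000000000000000) := T_26 (nat_lit 125) (nat_lit 142) (nat_lit 7) (nat_lit 6) (nat_lit 7) L5509 (by decide +kernel)
theorem L5511 : W_26 (nat_lit 9) (nat_lit 0x4000f00008001000080000000000000000000000000000000) (nat_lit 0x0) (nat_lit 0xc000600070003b0000800c0000400020000000000000000000000000000000) := T_26 (nat_lit 193) (nat_lit 192) (nat_lit 1) (nat_lit 9) (nat_lit 10) L5510 (by decide +kernel)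
theorem L5512 : W_26 (nat_lit 10) (nat_lit 0x4000f00000001000080000000000000000000000000000000) (nat_lit 0x0) (nat_lit 0xc000600070003b0000800cc000400020000000000000000000000000000000) := T_26 (nat_lit 159) (nat_lit 158) (nat_lit 0) (nat_lit 9) (nat_lit 10) L5511 (by decide +kernel)
theorem L5513 : W_26 (nat_lit 2) (nat_lit 0x15000f00014001000080000000000000000000000000000000) (nat_lit 0x0) (nat_lit 0x800080002000000000000000000000000000000000000000) := D_26 (nat_lit 175) (nat_lit 191) (nat_lit 157) (nat_lit 1) (nat_lit 8) (nat_lit 10) (nat_lit 0) (nat_lit 8) (nat_lit 10) (by decide +kernel)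
theorem L5514 : W_26 (nat_lit 3) (nat_lit 0x15000f00010001000080000000000000000000000000000000) (nat_lit 0x0) (nat_lit 0x80008000e000000000000000000000000000000000000000) := T_26 (nat_lit 158) (nat_lit 159) (nat_lit 0) (nat_lit 9) (nat_lit 10) L5513 (by decide +kernel)
theorem L5515 : W_26 (nat_lit 4) (nat_lit 0x14000f00010001000080000000000000000000000000000000) (nat_lit 0x0) (nat_lit 0x380008000e000000000000000000000000000000000000000) := T_26 (nat_lit 192) (nat_lit 193) (nat_lit 1) (nat_lit 9) (nat_lit 10) L5514 (by decide +kernel)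
theorem L5516 : W_26 (nat_lit 5) (nat_lit 0x14000f00000001000080000000000000000000000000000000) (nat_lit 0x0) (nat_lit 0x380008001e000800000000000000000000000000000000000) := T_26 (nat_lit 160) (nat_lit 143) (nat_lit 6) (nat_lit 7) (nat_lit 11) L5515 (by decide +kernel)
theorem L5517 : W_26 (nat_lit 6) (nat_lit 0x4000f00000001000080000000000000000000000000000000) (nat_lit 0x0) (nat_lit 0x3380008001e000800000000000000000000000000000000000) := T_26 (nat_lit 196) (nat_lit 197) (nat_lit 3) (nat_lit 6) (nat_lit 10) L5516 (by decide +kernel)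
theorem L5518 : W_26 (nat_lit 2) (nat_lit 0x40016000f00018001000080000000000000000000000000000000) (nat_lit 0x0) (nat_lit 0x400020008000000000000000000000000000000000000000000000000) := D_26 (nat_lit 209) (nat_lit 195) (nat_lit 226) (nat_lit 1) (nat_lit 9) (nat_lit 11) (nat_lit 5) (nat_lit 6) (nat_lit 9) (by decide +kernel)
theorem L5519 : W_26 (nat_lit 3) (nat_lit 0x40016000f00010001000080000000000000000000000000000000) (nat_lit 0x0) (nat_lit 0x40002000800000000c000000000000000000000000000000000000000) := T_26 (nat_lit 159) (nat_lit 158) (nat_lit 0) (nat_lit 9) (nat_lit 10) L5518 (by decide +kernel)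
theorem L5520 : W_26 (nat_lit 4) (nat_lit 0x16000f00010001000080000000000000000000000000000000) (nat_lit 0x0) (nat_lit 0xc0006000800000000c000000000000000000000000000000000000000) := T_26 (nat_lit 210) (nat_lit 227) (nat_lit 6) (nat_lit 6) (nat_lit 13) L5519 (by decide +kernel)
theorem L5521 : W_26 (nat_lit 5) (nat_lit 0x16000f00000001000080000000000000000000000000000000) (nat_lit 0x0) (nat_lit 0xc0006000800000001c000800000000000000000000000000000000000) := T_26 (nat_lit 160) (nat_lit 143) (nat_lit 6) (nat_lit 7) (nat_lit 11) L5520 (by decide +kernel)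
theorem L5522 : W_26 (nat_lit 6) (nat_lit 0x6000f00000001000080000000000000000000000000000000) (nat_lit 0x0) (nat_lit 0xc0006003800000001c000800000000000000000000000000000000000) := T_26 (nat_lit 196) (nat_lit 197) (nat_lit 3) (nat_lit 6) (nat_lit 10) L5521 (by decide +kernel)
theorem L5523 : W_26 (nat_lit 7) (nat_lit 0x4000f00000001000080000000000000000000000000000000) (nat_lit 0x0) (nat_lit 0xc0006003b00000001c000800000000000000000000000000000000000) := T_26 (nat_lit 193) (nat_lit 192) (nat_lit 1) (nat_lit 9) (nat_lit 10) L5522 (by decide +kernel)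
theorem L5524 : W_26 (nat_lit 2) (nat_lit 0x6000f80054001000080000000000000000000000000000000) (nat_lit 0x0) (nat_lit 0x8000060000000000000000000000000000000000000000000) := D_26 (nat_lit 174) (nat_lit 173) (nat_lit 195) (nat_lit 3) (nat_lit 3) (nat_lit 10) (nat_lit 3) (nat_lit 4) (nat_lit 10) (by decide +kernel)
theorem L5525 : W_26 (nat_lit 3) (nat_lit 0x6000f00054001000080000000000000000000000000000000) (nat_lit 0x0) (nat_lit 0x80000e0002000000000000000000000000000000000000000) := T_26 (nat_lit 175) (nat_lit 157) (nat_lit 0) (nat_lit 8) (nat_lit 10) L5524 (by decide +kernel)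
theorem L5526 : W_26 (nat_lit 4) (nat_lit 0x6000f00014001000080000000000000000000000000000000) (nat_lit 0x0) (nat_lit 0x80000e00c2000000000000000000000000000000000000000) := T_26 (nat_lit 162) (nat_lit 163) (nat_lit 2) (nat_lit 6) (nat_lit 10) L5525 (by decide +kernel)
theorem L5527 : W_26 (nat_lit 5) (nat_lit 0x6000f00010001000080000000000000000000000000000000) (nat_lit 0x0) (nat_lit 0x80000e00ce000000000000000000000000000000000000000) := T_26 (nat_lit 158) (nat_lit 159) (nat_lit 0) (nat_lit 9) (nat_lit 10) L5526 (by decide +kernel)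
theorem L5528 : W_26 (nat_lit 6) (nat_lit 0x4000f00010001000080000000000000000000000000000000) (nat_lit 0x0) (nat_lit 0xb0000e00ce000000000000000000000000000000000000000) := T_26 (nat_lit 193) (nat_lit 192) (nat_lit 1) (nat_lit 9) (nat_lit 10) L5527 (by decide +kernel)
theorem L5529 : W_26 (nat_lit 7) (nat_lit 0x4000f00000001000080000000000000000000000000000000) (nat_lit 0x0) (nat_lit 0xb0000e00de000800000000000000000000000000000000000) := T_26 (nat_lit 160) (nat_lit 143) (nat_lit 6) (nat_lit 7) (nat_lit 11) L5528 (by decide +kernel)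
theorem L5530 : W_26 (nat_lit 2) (nat_lit 0x800000016000fc0050001000080000000000000000000000000000000) (nat_lit 0x0) (nat_lit 0x7000000000000000000000000000000000000000) := D_26 (nat_lit 157) (nat_lit 158) (nat_lit 156) (nat_lit 0) (nat_lit 8) (nat_lit 10) (nat_lit 0) (nat_lit 7) (nat_lit 10) (by decide +kernel)
theorem L5531 : W_26 (nat_lit 3) (nat_lit 0x800000016000f80050001000080000000000000000000000000000000) (nat_lit 0x0) (nat_lit 0x60007000000000000000000000000000000000000000) := T_26 (nat_lit 174) (nat_lit 173) (nat_lit 3) (nat_lit 3) (nat_lit 10) L5530 (by decide +kernel)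
theorem L5532 : W_26 (nat_lit 4) (nat_lit 0x800000016000f00050001000080000000000000000000000000000000) (nat_lit 0x0) (nat_lit 0x80000e0007000000000000000000000000000000000000000) := T_26 (nat_lit 175) (nat_lit 195) (nat_lit 3) (nat_lit 5) (nat_lit 10) L5531 (by decide +kernel)
theorem L5533 : W_26 (nat_lit 5) (nat_lit 0x800000006000f00050001000080000000000000000000000000000000) (nat_lit 0x0) (nat_lit 0x380000e0007000000000000000000000000000000000000000) := T_26 (nat_lit 196) (nat_lit 197) (nat_lit 3) (nat_lit 6) (nat_lit 10) L5532 (by decide +kernel)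
theorem L5534 : W_26 (nat_lit 6) (nat_lit 0x800000006000f00010001000080000000000000000000000000000000) (nat_lit 0x0) (nat_lit 0x380000e00c7000000000000000000000000000000000000000) := T_26 (nat_lit 162) (nat_lit 163) (nat_lit 2) (nat_lit 6) (nat_lit 10) L5533 (by decide +kernel)
theorem L5535 : W_26 (nat_lit 7) (nat_lit 0x6000f00010001000080000000000000000000000000000000) (nat_lit 0x0) (nat_lit 0x8000400380000e00c7000000000000000000000000000000000000000) := T_26 (nat_lit 227) (nat_lit 210) (nat_lit 6) (nat_lit 6) (nat_lit 13) L5534 (by decide +kernel)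
theorem L5536 : W_26 (nat_lit 8) (nat_lit 0x6000f00000001000080000000000000000000000000000000) (nat_lit 0x0) (nat_lit 0x8000400380000e00d7000800000000000000000000000000000000000) := T_26 (nat_lit 160) (nat_lit 143) (nat_lit 6) (nat_lit 7) (nat_lit 11) L5535 (by decide +kernel)
theorem L5537 : W_26 (nat_lit 9) (nat_lit 0x4000f00000001000080000000000000000000000000000000) (nat_lit 0x0) (nat_lit 0x80004003b0000e00d7000800000000000000000000000000000000000) := T_26 (nat_lit 193) (nat_lit 192) (nat_lit 1) (nat_lit 9) (nat_lit 10) L5536 (by decide +kernel)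
theorem L5539 : W_26 (nat_lit 11) (nat_lit 0x4000e00000001000080000000000000000000000000000000) (nat_lit 0x0) (nat_lit 0xc0006c0076003b8001e00df000c00020000000000000000000000000000000) := Q_26 (nat_lit 176) (C_26 L5503 (C_26 L5512 (C_26 L5517 (C_26 L5523 (C_26 L5529 (C_26 L5537 (C_26 L5538 N_26))))))) (by decide +kernel)
theorem L5540 : W_26 (nat_lit 12) (nat_lit 0x4000600000001000080000000000000000000000000000000) (nat_lit 0x0) (nat_lit 0xc0006c007600fb8039e00df000c00020000000000000000000000000000000) := Q_26 (nat_lit 179) (C_26 L5492 (C_26 L5496 (C_26 L5498 (C_26 L5539 N_26)))) (by decide +kernel)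
theorem L5541 : W_26 (nat_lit 13) (nat_lit 0x4000200000001000080000000000000000000000000000000) (nat_lit 0x0) (nat_lit 0xc0006c007600fb803de00ff000c00020000000000000000000000000000000) := T_26 (nat_lit 178) (nat_lit 161) (nat_lit 5) (nat_lit 8) (nat_lit 7) L5540 (by decide +kernel)
theorem L5542 : W_26 (nat_lit 17) (nat_lit 0x200000001000080000000000000000000000000000000) (nat_lit 0x0) (nat_lit 0x1c000e001f801fe07ff81ffc0fde01ff004f0033c000000000000000000000000000000) := Q_26 (nat_lit 194) (C_26 L5212 (C_26 L5481 (C_26 L5483 (C_26 L5489 (C_26 L5541 N_26))))) (by decide +kernel)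
theorem L7814 : W_26 (nat_lit 10) (nat_lit 0x1c000200000001000080000000000000000000000000000000) (nat_lit 0x0) (nat_lit 0x38003c007f0003801d80000000000000000000000000000000000000000000) := Q_26 (nat_lit 193) (C_26 L7799 (C_26 L7802 (C_26 L7805 (C_26 L7813 N_26)))) (by decide +kernel)
theorem L7820 : W_26 (nat_lit 6) (nat_lit 0x1c000200000001000080000000000000000000000000000000) (nat_lit 0x0) (nat_lit 0x1ec0062007c00000000000000000000000000000000000000000000) := Q_26 (nat_lit 197) (C_26 L5038 (C_26 L7816 (C_26 L7819 N_26))) (by decide +kernel)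
theorem L7822 : W_26 (nat_lit 11) (nat_lit 0x14000200000001000080000000000000000000000000000000) (nat_lit 0x0) (nat_lit 0x38003c01ff006b807d80000000000000000000000000000000000000000000) := Q_26 (nat_lit 195) (C_26 L7814 (C_26 L7817 (C_26 L5039 (C_26 L7820 (C_26 L7821 N_26))))) (by decide +kernel)
theorem L7839 : W_26 (nat_lit 9) (nat_lit 0x1c000200000001000080000000000000000000000000000000) (nat_lit 0x0) (nat_lit 0x2000100019800fc01e380f800000000000000000000000000000000000000000000) := Q_26 (nat_lit 197) (C_26 L5043 (C_26 L7825 (C_26 L7831 (C_26 L5054 (C_26 L5059 (C_26 L7838 N_26)))))) (by decide +kernel)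
theorem L7841 : W_26 (nat_lit 2) (nat_lit 0x30001e000b00000001000080000000000000000000000000000000) (nat_lit 0x0) (nat_lit 0x2000000000000000060000000000000000000000000000000000000000) := D_26 (nat_lit 162) (nat_lit 161) (nat_lit 229) (nat_lit 4) (nat_lit 9) (nat_lit 12) (nat_lit 5) (nat_lit 9) (nat_lit 9) (by decide +kernel)
theorem L7842 : W_26 (nat_lit 3) (nat_lit 0x20001e000b00000001000080000000000000000000000000000000) (nat_lit 0x0) (nat_lit 0x2000100001000000060000000000000000000000000000000000000000) := T_26 (nat_lit 212) (nat_lit 192) (nat_lit 3) (nat_lit 5) (nat_lit 11) L7841 (by decide +kernel)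
theorem L7843 : W_26 (nat_lit 4) (nat_lit 0x1e000b00000001000080000000000000000000000000000000) (nat_lit 0x0) (nat_lit 0x2000700001000000060000000000000000000000000000000000000000) := T_26 (nat_lit 213) (nat_lit 214) (nat_lit 3) (nat_lit 6) (nat_lit 11) L7842 (by decide +kernel)
theorem L7844 : W_26 (nat_lit 5) (nat_lit 0x1e000300000001000080000000000000000000000000000000) (nat_lit 0x0) (nat_lit 0x2000700001001800060000000000000000000000000000000000000000) := T_26 (nat_lit 179) (nat_lit 180) (nat_lit 2) (nat_lit 6) (nat_lit 11) L7843 (by decide +kernel)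
theorem L7845 : W_26 (nat_lit 6) (nat_lit 0x1e000200000001000080000000000000000000000000000000) (nat_lit 0x0) (nat_lit 0x2000700001001980060000000000000000000000000000000000000000) := T_26 (nat_lit 176) (nat_lit 175) (nat_lit 0) (nat_lit 9) (nat_lit 11) L7844 (by decide +kernel)
theorem L7850 : W_26 (nat_lit 6) (nat_lit 0x80004001e000300000001000080000000000000000000000000000000) (nat_lit 0x0) (nat_lit 0x2000100008000000180000c000600030000000000000000000000000000000) := T_26 (nat_lit 179) (nat_lit 180) (nat_lit 2) (nat_lit 6) (nat_lit 11) L7849 (by decide +kernel)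
theorem L7851 : W_26 (nat_lit 7) (nat_lit 0x4001e000300000001000080000000000000000000000000000000) (nat_lit 0x0) (nat_lit 0x3000180008000000180000c000600030000000000000000000000000000000) := T_26 (nat_lit 227) (nat_lit 244) (nat_lit 6) (nat_lit 6) (nat_lit 14) L7850 (by decide +kernel)
theorem L7852 : W_26 (nat_lit 8) (nat_lit 0x4001e000200000001000080000000000000000000000000000000) (nat_lit 0x0) (nat_lit 0x3000180008000000198000c000600030000000000000000000000000000000) := T_26 (nat_lit 176) (nat_lit 175) (nat_lit 0) (nat_lit 9) (nat_lit 11) L7851 (by decide +kernel)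
theorem L7853 : W_26 (nat_lit 9) (nat_lit 0x1e000200000001000080000000000000000000000000000000) (nat_lit 0x0) (nat_lit 0x300018000e000000198000c000600030000000000000000000000000000000) := T_26 (nat_lit 210) (nat_lit 209) (nat_lit 1) (nat_lit 9) (nat_lit 11) L7852 (by decide +kernel)
theorem L7854 : W_26 (nat_lit 10) (nat_lit 0x1c000200000001000080000000000000000000000000000000) (nat_lit 0x0) (nat_lit 0x38003c007f000300198006c000600030000000000000000000000000000000) := Q_26 (nat_lit 193) (C_26 L7805 (C_26 L7813 (C_26 L7845 (C_26 L7853 N_26)))) (by decide +kernel)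
theorem L7856 : W_26 (nat_lit 11) (nat_lit 0x14000200000001000080000000000000000000000000000000) (nat_lit 0x0) (nat_lit 0x200013801bc00ff01eb80f98006c000600030000000000000000000000000000000) := Q_26 (nat_lit 195) (C_26 L5039 (C_26 L5061 (C_26 L7839 (C_26 L7840 (C_26 L7854 (C_26 L7855 (C_26 L5064 N_26))))))) (by decide +kernel)
theorem L7857 : W_26 (nat_lit 2) (nat_lit 0x180068003c001600000001000080000000000000000000000000000000) (nat_lit 0x0) (nat_lit 0x40006000000000000000000000000000000000000000000000000000000000) := D_26 (nat_lit 229) (nat_lit 246) (nat_lit 230) (nat_lit 7) (nat_lit 7) (nat_lit 10) (nat_lit 2) (nat_lit 6) (nat_lit 13) (by decide +kernel)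
theorem L7858 : W_26 (nat_lit 3) (nat_lit 0x180048003c001600000001000080000000000000000000000000000000) (nat_lit 0x0) (nat_lit 0x40006000300000000000000000000000000000000000000000000000000000) := T_26 (nat_lit 213) (nat_lit 212) (nat_lit 1) (nat_lit 10) (nat_lit 12) L7857 (by decide +kernel)
theorem L7859 : W_26 (nat_lit 4) (nat_lit 0x100048003c001600000001000080000000000000000000000000000000) (nat_lit 0x0) (nat_lit 0x50006800300000000000000000000000000000000000000000000000000000) := T_26 (nat_lit 227) (nat_lit 244) (nat_lit 5) (nat_lit 7) (nat_lit 10) L7858 (by decide +kernel)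
theorem L7860 : W_26 (nat_lit 5) (nat_lit 0x48003c001600000001000080000000000000000000000000000000) (nat_lit 0x0) (nat_lit 0x70007800300000000000000000000000000000000000000000000000000000) := T_26 (nat_lit 228) (nat_lit 245) (nat_lit 6) (nat_lit 7) (nat_lit 14) L7859 (by decide +kernel)
theorem L7861 : W_26 (nat_lit 6) (nat_lit 0x40003c001600000001000080000000000000000000000000000000) (nat_lit 0x0) (nat_lit 0x700078003c0000000000000000000000000000000000000000000000000000) := T_26 (nat_lit 211) (nat_lit 210) (nat_lit 1) (nat_lit 10) (nat_lit 11) L7860 (by decide +kernel)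
theorem L7862 : W_26 (nat_lit 7) (nat_lit 0x40003c000600000001000080000000000000000000000000000000) (nat_lit 0x0) (nat_lit 0x700078003c0000003000000000000000000000000000000000000000000000) := T_26 (nat_lit 180) (nat_lit 181) (nat_lit 2) (nat_lit 7) (nat_lit 11) L7861 (by decide +kernel)
theorem L7863 : W_26 (nat_lit 8) (nat_lit 0x3c000600000001000080000000000000000000000000000000) (nat_lit 0x0) (nat_lit 0x70007800fc0000003000000000000000000000000000000000000000000000) := T_26 (nat_lit 214) (nat_lit 215) (nat_lit 3) (nat_lit 7) (nat_lit 11) L7862 (by decide +kernel)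
theorem L7864 : W_26 (nat_lit 9) (nat_lit 0x3c000200000001000080000000000000000000000000000000) (nat_lit 0x0) (nat_lit 0x70007800fc0000003400020000000000000000000000000000000000000000) := T_26 (nat_lit 178) (nat_lit 161) (nat_lit 5) (nat_lit 8) (nat_lit 7) L7863 (by decide +kernel)
theorem L7865 : W_26 (nat_lit 10) (nat_lit 0x34000200000001000080000000000000000000000000000000) (nat_lit 0x0) (nat_lit 0x70007800fc0008003500020000000000000000000000000000000000000000) := T_26 (nat_lit 195) (nat_lit 176) (nat_lit 0) (nat_lit 10) (nat_lit 11) L7864 (by decide +kernel)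
theorem L7866 : W_26 (nat_lit 11) (nat_lit 0x14000200000001000080000000000000000000000000000000) (nat_lit 0x0) (nat_lit 0x70007807fc01e800fd00020000000000000000000000000000000000000000) := Q_26 (nat_lit 197) (C_26 L5131 (C_26 L5128 (C_26 L5127 (C_26 L5140 (C_26 L7865 N_26))))) (by decide +kernel)
theorem L7867 : W_26 (nat_lit 5) (nat_lit 0x1c000200000001000080000000000000000000000000000000) (nat_lit 0x0) (nat_lit 0x770003001c00060000000000000000000000000000000000000000) := Q_26 (nat_lit 193) (C_26 L7805 (C_26 L5094 (C_26 L7802 N_26))) (by decide +kernel)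
theorem L7868 : W_26 (nat_lit 9) (nat_lit 0x1c000600000001000080000000000000000000000000000000) (nat_lit 0x0) (nat_lit 0x70007800fc0060003000000000000000000000000000000000000000000000) := T_26 (nat_lit 197) (nat_lit 198) (nat_lit 0) (nat_lit 11) (nat_lit 11) L7863 (by decide +kernel)
theorem L7869 : W_26 (nat_lit 10) (nat_lit 0x1c000200000001000080000000000000000000000000000000) (nat_lit 0x0) (nat_lit 0x70007800fc0060003400020000000000000000000000000000000000000000) := T_26 (nat_lit 178) (nat_lit 161) (nat_lit 5) (nat_lit 8) (nat_lit 7) L7868 (by decide +kernel)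
theorem L7870 : W_26 (nat_lit 11) (nat_lit 0x14000200000001000080000000000000000000000000000000) (nat_lit 0x0) (nat_lit 0x200017001f800ff01eb80fc001e0004000200000000000000000000000000000000) := Q_26 (nat_lit 195) (C_26 L7867 (C_26 L7869 (C_26 L7839 (C_26 L5091 (C_26 L5110 (C_26 L5085 (C_26 L5117 N_26))))))) (by decide +kernel)
theorem L7871 : W_26 (nat_lit 7) (nat_lit 0x14000600000001000080000000000000000000000000000000) (nat_lit 0x0) (nat_lit 0x50002800e30019001cc004400200000000000000000000000000000000) := Q_26 (nat_lit 179) (C_26 L5145 (C_26 L5150 (C_26 L5149 (C_26 L5159 (C_26 L5155 N_26))))) (by decide +kernel)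
theorem L7872 : W_26 (nat_lit 8) (nat_lit 0x14000200000001000080000000000000000000000000000000) (nat_lit 0x0) (nat_lit 0x50002800e3001d001ec004400200000000000000000000000000000000) := T_26 (nat_lit 178) (nat_lit 161) (nat_lit 5) (nat_lit 8) (nat_lit 7) L7871 (by decide +kernel)
theorem L7873 : W_26 (nat_lit 7) (nat_lit 0x14000200000001000080000000000000000000000000000000) (nat_lit 0x0) (nat_lit 0x1f7006b007d00060000000000000000000000000000000000000000) := Q_26 (nat_lit 195) (C_26 L7867 (C_26 L5085 (C_26 L7821 (C_26 L7840 (C_26 L7817 N_26))))) (by decide +kernel)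
theorem L7874 : W_26 (nat_lit 8) (nat_lit 0x1e000200020001000080000000000000000000000000000000) (nat_lit 0x0) (nat_lit 0x38003c007e0000000180000000000000000000000000000000000000000000) := T_26 (nat_lit 213) (nat_lit 214) (nat_lit 3) (nat_lit 6) (nat_lit 11) L5174 (by decide +kernel)
theorem L7875 : W_26 (nat_lit 9) (nat_lit 0x1e000200000001000080000000000000000000000000000000) (nat_lit 0x0) (nat_lit 0x38003c007e0000000580020000000000000000000000000000000000000000) := T_26 (nat_lit 161) (nat_lit 178) (nat_lit 5) (nat_lit 8) (nat_lit 7) L7874 (by decide +kernel)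
theorem L7876 : W_26 (nat_lit 2) (nat_lit 0x20001f000200020001000080000000000000000000000000000000) (nat_lit 0x0) (nat_lit 0x1c0000000000000000000000000000000000000000000) := D_26 (nat_lit 175) (nat_lit 174) (nat_lit 176) (nat_lit 0) (nat_lit 8) (nat_lit 11) (nat_lit 0) (nat_lit 9) (nat_lit 11) (by decide +kernel)
theorem L7877 : W_26 (nat_lit 3) (nat_lit 0x20001e000200020001000080000000000000000000000000000000) (nat_lit 0x0) (nat_lit 0x1000010001c0000000000000000000000000000000000000000000) := T_26 (nat_lit 192) (nat_lit 212) (nat_lit 3) (nat_lit 5) (nat_lit 11) L7876 (by decide +kernel)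
theorem L7878 : W_26 (nat_lit 4) (nat_lit 0x1e000200020001000080000000000000000000000000000000) (nat_lit 0x0) (nat_lit 0x7000010001c0000000000000000000000000000000000000000000) := T_26 (nat_lit 213) (nat_lit 214) (nat_lit 3) (nat_lit 6) (nat_lit 11) L7877 (by decide +kernel)
theorem L7879 : W_26 (nat_lit 5) (nat_lit 0x1e000200000001000080000000000000000000000000000000) (nat_lit 0x0) (nat_lit 0x7000010005c0020000000000000000000000000000000000000000) := T_26 (nat_lit 161) (nat_lit 178) (nat_lit 5) (nat_lit 8) (nat_lit 7) L7878 (by decide +kernel)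
theorem L7883 : W_26 (nat_lit 11) (nat_lit 0x1c000200000001000080000000000000000000000000000000) (nat_lit 0x0) (nat_lit 0x38003c007f00030005c002c000600030000000000000000000000000000000) := Q_26 (nat_lit 193) (C_26 L7805 (C_26 L7875 (C_26 L7879 (C_26 L7882 N_26)))) (by decide +kernel)
theorem L7884 : W_26 (nat_lit 12) (nat_lit 0x14000200000001000080000000000000000000000000000000) (nat_lit 0x0) (nat_lit 0x78007c00ff006b0075c002c000600030000000000000000000000000000000) := Q_26 (nat_lit 195) (C_26 L7883 (C_26 L7869 (C_26 L5061 (C_26 L7821 N_26)))) (by decide +kernel)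
theorem L7885 : W_26 (nat_lit 10) (nat_lit 0x16000200000001000080000000000000000000000000000000) (nat_lit 0x0) (nat_lit 0x300038007f000900198006c000600030000000000000000000000000000000) := Q_26 (nat_lit 195) (C_26 L7845 (C_26 L7805 (C_26 L7853 N_26))) (by decide +kernel)
theorem L7886 : W_26 (nat_lit 11) (nat_lit 0x16000200000001000080000000000000000000000000000000) (nat_lit 0x0) (nat_lit 0x38001c006e0008001d8006c000600030000000000000000000000000000000) := Q_26 (nat_lit 195) (C_26 L5094 (C_26 L7882 (C_26 L7853 N_26))) (by decide +kernel)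
theorem L7887 : W_26 (nat_lit 10) (nat_lit 0x16000200000001000080000000000000000000000000000000) (nat_lit 0x0) (nat_lit 0x300018007f0009801d8000c000600030000000000000000000000000000000) := Q_26 (nat_lit 195) (C_26 L7805 (C_26 L7853 (C_26 L7799 N_26))) (by decide +kernel)
theorem L7888 : W_26 (nat_lit 11) (nat_lit 0x16000200000001000080000000000000000000000000000000) (nat_lit 0x0) (nat_lit 0x38001c007f00090005c002c000600030000000000000000000000000000000) := Q_26 (nat_lit 195) (C_26 L7879 (C_26 L7805 (C_26 L7882 N_26))) (by decide +kernel)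
theorem L7889 : W_26 (nat_lit 12) (nat_lit 0x14000200000001000080000000000000000000000000000000) (nat_lit 0x0) (nat_lit 0x38003c007f000b801dc006c000600030000000000000000000000000000000) := Q_26 (nat_lit 193) (C_26 L5204 (C_26 L7885 (C_26 L5200 (C_26 L7886 (C_26 L7887 (C_26 L7888 N_26)))))) (by decide +kernel)
theorem L7897 : W_26 (nat_lit 12) (nat_lit 0x14000200000001000080000000000000000000000000000000) (nat_lit 0x0) (nat_lit 0x200013801bc03ff00eb80edc002c000600030000000000000000000000000000000) := Q_26 (nat_lit 195) (C_26 L7883 (C_26 L7817 (C_26 L7855 (C_26 L5091 (C_26 L7896 N_26))))) (by decide +kernel)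
theorem L7900 : W_26 (nat_lit 11) (nat_lit 0x1c000200000001000080000000000000000000000000000000) (nat_lit 0x0) (nat_lit 0x38001c000f0003001d8002c000600030000000000000000000000000000000) := Q_26 (nat_lit 193) (C_26 L7802 (C_26 L7882 (C_26 L7853 (C_26 L7899 N_26)))) (by decide +kernel)
theorem L7901 : W_26 (nat_lit 12) (nat_lit 0x14000200000001000080000000000000000000000000000000) (nat_lit 0x0) (nat_lit 0x138009c03df00eb00fd8006c000600030000000000000000000000000000000) := Q_26 (nat_lit 195) (C_26 L7900 (C_26 L7896 (C_26 L5061 (C_26 L5110 (C_26 L7821 N_26))))) (by decide +kernel)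
theorem L7902 : W_26 (nat_lit 13) (nat_lit 0x4000200000001000080000000000000000000000000000000) (nat_lit 0x0) (nat_lit 0x200017801fc07ff01fb80fdc01ec004600230000000000000000000000000000000) := Q_26 (nat_lit 196) (C_26 L7822 (C_26 L7856 (C_26 L7866 (C_26 L7870 (C_26 L7872 (C_26 L7873 (C_26 L7884 (C_26 L7889 (C_26 L7897 (C_26 L7901 N_26)))))))))) (by decide +kernel)
theorem L7903 : W_26 (nat_lit 11) (nat_lit 0xc000200000001000080000000000000000000000000000000) (nat_lit 0x0) (nat_lit 0x200013801bc00ff01f380fd80000000000000000000000000000000000000000000) := Q_26 (nat_lit 196) (C_26 L7839 (C_26 L7814 (C_26 L5064 (C_26 L5061 (C_26 L7840 (C_26 L7855 N_26)))))) (by decide +kernel)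
theorem L7904 : W_26 (nat_lit 7) (nat_lit 0x380008000c000340000001000080000000000000000000000000000000) (nat_lit 0x0) (nat_lit 0x1c000e00020004000170002000000000000000000000000000000000000000000000000) := T_26 (nat_lit 245) (nat_lit 193) (nat_lit 4) (nat_lit 7) (nat_lit 14) L5393 (by decide +kernel)
theorem L7905 : W_26 (nat_lit 8) (nat_lit 0x300008000c000340000001000080000000000000000000000000000000) (nat_lit 0x0) (nat_lit 0x1c000e00030004800170002000000000000000000000000000000000000000000000000) := T_26 (nat_lit 227) (nat_lit 244) (nat_lit 5) (nat_lit 7) (nat_lit 10) L7904 (by decide +kernel)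
theorem L7906 : W_26 (nat_lit 9) (nat_lit 0x100008000c000340000001000080000000000000000000000000000000) (nat_lit 0x0) (nat_lit 0x1c000e00070006800170002000000000000000000000000000000000000000000000000) := T_26 (nat_lit 229) (nat_lit 246) (nat_lit 7) (nat_lit 7) (nat_lit 10) L7905 (by decide +kernel)
theorem L7907 : W_26 (nat_lit 10) (nat_lit 0x100008000c000300000001000080000000000000000000000000000000) (nat_lit 0x0) (nat_lit 0x1c000e000700068001700020000c0000000000000000000000000000000000000000000) := T_26 (nat_lit 174) (nat_lit 175) (nat_lit 3) (nat_lit 4) (nat_lit 10) L7906 (by decide +kernel)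
theorem L7908 : W_26 (nat_lit 11) (nat_lit 0x8000c000300000001000080000000000000000000000000000000) (nat_lit 0x0) (nat_lit 0x1c000e000700078001700020000c0008000000000000000000000000000000000000000) := T_26 (nat_lit 228) (nat_lit 159) (nat_lit 4) (nat_lit 7) (nat_lit 13) L7907 (by decide +kernel)
theorem L7909 : W_26 (nat_lit 2) (nat_lit 0x1e000c000340018001000080000000000000000000000000000000) (nat_lit 0x0) (nat_lit 0x600000002000000000000000000000000000000000000000000000000) := D_26 (nat_lit 226) (nat_lit 225) (nat_lit 193) (nat_lit 1) (nat_lit 8) (nat_lit 12) (nat_lit 5) (nat_lit 6) (nat_lit 9) (by decide +kernel)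
theorem L7910 : W_26 (nat_lit 3) (nat_lit 0xe000c000340018001000080000000000000000000000000000000) (nat_lit 0x0) (nat_lit 0x2600100002000000000000000000000000000000000000000000000000) := T_26 (nat_lit 212) (nat_lit 229) (nat_lit 7) (nat_lit 7) (nat_lit 9) L7909 (by decide +kernel)
theorem L7911 : W_26 (nat_lit 4) (nat_lit 0xe000c000340010001000080000000000000000000000000000000) (nat_lit 0x0) (nat_lit 0x2600100002000000008000400000000000000000000000000000000000) := T_26 (nat_lit 159) (nat_lit 142) (nat_lit 4) (nat_lit 7) (nat_lit 12) L7910 (by decide +kernel)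
theorem L7912 : W_26 (nat_lit 5) (nat_lit 0xe000c000300010001000080000000000000000000000000000000) (nat_lit 0x0) (nat_lit 0x26001000020000c0008000400000000000000000000000000000000000) := T_26 (nat_lit 174) (nat_lit 175) (nat_lit 3) (nat_lit 4) (nat_lit 10) L7911 (by decide +kernel)
theorem L7913 : W_26 (nat_lit 6) (nat_lit 0xc000c000300010001000080000000000000000000000000000000) (nat_lit 0x0) (nat_lit 0x26001300020000c0008000400000000000000000000000000000000000) := T_26 (nat_lit 209) (nat_lit 208) (nat_lit 2) (nat_lit 4) (nat_lit 12) L7912 (by decide +kernel)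
theorem L7914 : W_26 (nat_lit 7) (nat_lit 0x8000c000300010001000080000000000000000000000000000000) (nat_lit 0x0) (nat_lit 0x2e001700020000c0008000400000000000000000000000000000000000) := T_26 (nat_lit 210) (nat_lit 227) (nat_lit 5) (nat_lit 7) (nat_lit 9) L7913 (by decide +kernel)
theorem L7915 : W_26 (nat_lit 8) (nat_lit 0x8000c000300000001000080000000000000000000000000000000) (nat_lit 0x0) (nat_lit 0x2e001700020000c0018000c00000000000000000000000000000000000) := T_26 (nat_lit 160) (nat_lit 143) (nat_lit 6) (nat_lit 7) (nat_lit 11) L7914 (by decide +kernel)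
theorem L7919 : W_26 (nat_lit 5) (nat_lit 0xe000c000300010001000080000000000000000000000000000000) (nat_lit 0x0) (nat_lit 0x8002600300003800000000000000000000000000000000000000000000000) := T_26 (nat_lit 212) (nat_lit 229) (nat_lit 7) (nat_lit 7) (nat_lit 9) L7918 (by decide +kernel)
theorem L7920 : W_26 (nat_lit 6) (nat_lit 0xc000c000300010001000080000000000000000000000000000000) (nat_lit 0x0) (nat_lit 0x8002600330003800000000000000000000000000000000000000000000000) := T_26 (nat_lit 209) (nat_lit 208) (nat_lit 2) (nat_lit 4) (nat_lit 12) L7919 (by decide +kernel)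
theorem L7921 : W_26 (nat_lit 7) (nat_lit 0x8000c000300010001000080000000000000000000000000000000) (nat_lit 0x0) (nat_lit 0x8002e00370003800000000000000000000000000000000000000000000000) := T_26 (nat_lit 210) (nat_lit 227) (nat_lit 5) (nat_lit 7) (nat_lit 9) L7920 (by decide +kernel)
theorem L7922 : W_26 (nat_lit 8) (nat_lit 0x8000c000300000001000080000000000000000000000000000000) (nat_lit 0x0) (nat_lit 0x8002e00370003800000010000800000000000000000000000000000000000) := T_26 (nat_lit 160) (nat_lit 143) (nat_lit 6) (nat_lit 7) (nat_lit 11) L7921 (by decide +kernel)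
theorem L7923 : W_26 (nat_lit 12) (nat_lit 0xc000300000001000080000000000000000000000000000000) (nat_lit 0x0) (nat_lit 0x1c000e00078007e003f00038000c0018000c00000000000000000000000000000000000) := Q_26 (nat_lit 211) (C_26 L5339 (C_26 L7908 (C_26 L7915 (C_26 L7922 N_26)))) (by decide +kernel)
theorem L7928 : W_26 (nat_lit 6) (nat_lit 0x4000100008002c000340000001000080000000000000000000000000000000) (nat_lit 0x0) (nat_lit 0xc00030000e00740000000000000000000000000000000000000000000000000000) := T_26 (nat_lit 227) (nat_lit 244) (nat_lit 5) (nat_lit 7) (nat_lit 10) L7927 (by decide +kernel)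
theorem L7929 : W_26 (nat_lit 7) (nat_lit 0x100008002c000340000001000080000000000000000000000000000000) (nat_lit 0x0) (nat_lit 0xc00070002e00740000000000000000000000000000000000000000000000000000) := T_26 (nat_lit 246) (nat_lit 229) (nat_lit 7) (nat_lit 7) (nat_lit 10) L7928 (by decide +kernel)
theorem L7930 : W_26 (nat_lit 8) (nat_lit 0x100008002c000300000001000080000000000000000000000000000000) (nat_lit 0x0) (nat_lit 0xc00070002e007400000000c0000000000000000000000000000000000000000000) := T_26 (nat_lit 174) (nat_lit 175) (nat_lit 3) (nat_lit 4) (nat_lit 10) L7929 (by decide +kernel)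
theorem L7931 : W_26 (nat_lit 9) (nat_lit 0x8002c000300000001000080000000000000000000000000000000) (nat_lit 0x0) (nat_lit 0xc00070003e007400000000c0008000000000000000000000000000000000000000) := T_26 (nat_lit 228) (nat_lit 159) (nat_lit 4) (nat_lit 7) (nat_lit 13) L7930 (by decide +kernel)
theorem L7932 : W_26 (nat_lit 10) (nat_lit 0x8000c000300000001000080000000000000000000000000000000) (nat_lit 0x0) (nat_lit 0xc00070003e007400300000c0008000000000000000000000000000000000000000) := T_26 (nat_lit 197) (nat_lit 196) (nat_lit 0) (nat_lit 10) (nat_lit 11) L7931 (by decide +kernel)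
theorem L7933 : W_26 (nat_lit 2) (nat_lit 0xc001c000340010001000080000000000000000000000000000000) (nat_lit 0x0) (nat_lit 0x130000000000000000000000000000000000000000000000000000) := D_26 (nat_lit 209) (nat_lit 212) (nat_lit 208) (nat_lit 2) (nat_lit 5) (nat_lit 12) (nat_lit 2) (nat_lit 4) (nat_lit 12) (by decide +kernel)
theorem L7934 : W_26 (nat_lit 3) (nat_lit 0x8001c000340010001000080000000000000000000000000000000) (nat_lit 0x0) (nat_lit 0x800170000000000000000000000000000000000000000000000000000) := T_26 (nat_lit 210) (nat_lit 227) (nat_lit 5) (nat_lit 7) (nat_lit 9) L7933 (by decide +kernel)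
theorem L7935 : W_26 (nat_lit 4) (nat_lit 0x8001c000340000001000080000000000000000000000000000000) (nat_lit 0x0) (nat_lit 0x800170000000000010000800000000000000000000000000000000000) := T_26 (nat_lit 160) (nat_lit 143) (nat_lit 6) (nat_lit 7) (nat_lit 11) L7934 (by decide +kernel)
theorem L7936 : W_26 (nat_lit 5) (nat_lit 0x8000c000340000001000080000000000000000000000000000000) (nat_lit 0x0) (nat_lit 0x800170030000000010000800000000000000000000000000000000000) := T_26 (nat_lit 196) (nat_lit 197) (nat_lit 0) (nat_lit 10) (nat_lit 11) L7935 (by decide +kernel)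
theorem L7937 : W_26 (nat_lit 6) (nat_lit 0x8000c000300000001000080000000000000000000000000000000) (nat_lit 0x0) (nat_lit 0x8001700300000c0010000800000000000000000000000000000000000) := T_26 (nat_lit 174) (nat_lit 175) (nat_lit 3) (nat_lit 4) (nat_lit 10) L7936 (by decide +kernel)
theorem L7938 : W_26 (nat_lit 11) (nat_lit 0xc000300000001000080000000000000000000000000000000) (nat_lit 0x0) (nat_lit 0xc00070003e007f00300000c0018000c00000000000000000000000000000000000) := Q_26 (nat_lit 211) (C_26 L5339 (C_26 L7932 (C_26 L7937 N_26))) (by decide +kernel)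
theorem L7939 : W_26 (nat_lit 2) (nat_lit 0x2c000300000001f000a0000000000000000000000000000000) (nat_lit 0x0) (nat_lit 0x1c000000000000000000000000000000) := D_26 (nat_lit 123) (nat_lit 122) (nat_lit 124) (nat_lit 0) (nat_lit 7) (nat_lit 8) (nat_lit 0) (nat_lit 8) (nat_lit 8) (by decide +kernel)
theorem L7940 : W_26 (nat_lit 3) (nat_lit 0x2c000300000001e000a0000000000000000000000000000000) (nat_lit 0x0) (nat_lit 0x10005c000000000000000000000000000000) := T_26 (nat_lit 140) (nat_lit 126) (nat_lit 2) (nat_lit 4) (nat_lit 8) L7939 (by decide +kernel)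
theorem L7941 : W_26 (nat_lit 4) (nat_lit 0x2c000300000001c000a0000000000000000000000000000000) (nat_lit 0x0) (nat_lit 0x30015c000000000000000000000000000000) := T_26 (nat_lit 141) (nat_lit 128) (nat_lit 2) (nat_lit 5) (nat_lit 8) L7940 (by decide +kernel)
theorem L7942 : W_26 (nat_lit 5) (nat_lit 0x2c000300000001c00080000000000000000000000000000000) (nat_lit 0x0) (nat_lit 0x800030017c000000000000000000000000000000) := T_26 (nat_lit 125) (nat_lit 159) (nat_lit 7) (nat_lit 6) (nat_lit 7) L7941 (by decide +kernel)
theorem L7943 : W_26 (nat_lit 6) (nat_lit 0x2c000300000001400080000000000000000000000000000000) (nat_lit 0x0) (nat_lit 0x18000b0017c000000000000000000000000000000) := T_26 (nat_lit 143) (nat_lit 160) (nat_lit 6) (nat_lit 7) (nat_lit 11) L7942 (by decide +kernel)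
theorem L7944 : W_26 (nat_lit 7) (nat_lit 0xc000300000001400080000000000000000000000000000000) (nat_lit 0x0) (nat_lit 0x30000000018000b0017c000000000000000000000000000000) := T_26 (nat_lit 197) (nat_lit 196) (nat_lit 0) (nat_lit 10) (nat_lit 11) L7943 (by decide +kernel)
theorem L7945 : W_26 (nat_lit 2) (nat_lit 0x2c000300000001f00080000000000000000000000000000000) (nat_lit 0x0) (nat_lit 0x1c000000000000000000000000000000) := D_26 (nat_lit 123) (nat_lit 122) (nat_lit 124) (nat_lit 0) (nat_lit 7) (nat_lit 8) (nat_lit 0) (nat_lit 8) (nat_lit 8) (by decide +kernel)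
theorem L7946 : W_26 (nat_lit 3) (nat_lit 0x2c000300000001e00080000000000000000000000000000000) (nat_lit 0x0) (nat_lit 0x10005c000000000000000000000000000000) := T_26 (nat_lit 140) (nat_lit 126) (nat_lit 2) (nat_lit 4) (nat_lit 8) L7945 (by decide +kernel)
theorem L7947 : W_26 (nat_lit 4) (nat_lit 0x2c000300000001c00080000000000000000000000000000000) (nat_lit 0x0) (nat_lit 0x30015c000000000000000000000000000000) := T_26 (nat_lit 141) (nat_lit 128) (nat_lit 2) (nat_lit 5) (nat_lit 8) L7946 (by decide +kernel)
theorem L7948 : W_26 (nat_lit 5) (nat_lit 0xc000300000001c00080000000000000000000000000000000) (nat_lit 0x0) (nat_lit 0x3000000000000030015c000000000000000000000000000000) := T_26 (nat_lit 197) (nat_lit 196) (nat_lit 0) (nat_lit 10) (nat_lit 11) L7947 (by decide +kernel)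
theorem L7949 : W_26 (nat_lit 6) (nat_lit 0xc000300000001400080000000000000000000000000000000) (nat_lit 0x0) (nat_lit 0x30000000010000b0015c000000000000000000000000000000) := T_26 (nat_lit 143) (nat_lit 160) (nat_lit 6) (nat_lit 7) (nat_lit 11) L7948 (by decide +kernel)
theorem L7950 : W_26 (nat_lit 8) (nat_lit 0xc000300000001000080000000000000000000000000000000) (nat_lit 0x0) (nat_lit 0x1000080032000000018000f0017c000000000000000000000000000000) := Q_26 (nat_lit 142) (C_26 L5318 (C_26 L5360 (C_26 L7944 (C_26 L7949 N_26)))) (by decide +kernel)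
theorem L7951 : W_26 (nat_lit 13) (nat_lit 0xc000200000001000080000000000000000000000000000000) (nat_lit 0x0) (nat_lit 0x1c000e00078007e007f00338001c0018000f0017c000000000000000000000000000000) := Q_26 (nat_lit 176) (C_26 L7923 (C_26 L5316 (C_26 L7938 (C_26 L7950 N_26)))) (by decide +kernel)
theorem L7957 : W_26 (nat_lit 2) (nat_lit 0xe000c000340010001000080000000000000000000000000000000) (nat_lit 0x0) (nat_lit 0x2000100010000000000000000000000000000000000000000000000000) := D_26 (nat_lit 212) (nat_lit 229) (nat_lit 196) (nat_lit 7) (nat_lit 7) (nat_lit 9) (nat_lit 2) (nat_lit 5) (nat_lit 12) (by decide +kernel)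
theorem L7958 : W_26 (nat_lit 3) (nat_lit 0xc000c000340010001000080000000000000000000000000000000) (nat_lit 0x0) (nat_lit 0x2000130010000000000000000000000000000000000000000000000000) := T_26 (nat_lit 209) (nat_lit 208) (nat_lit 2) (nat_lit 4) (nat_lit 12) L7957 (by decide +kernel)
theorem L7959 : W_26 (nat_lit 4) (nat_lit 0x8000c000340010001000080000000000000000000000000000000) (nat_lit 0x0) (nat_lit 0x2800170010000000000000000000000000000000000000000000000000) := T_26 (nat_lit 210) (nat_lit 227) (nat_lit 5) (nat_lit 7) (nat_lit 9) L7958 (by decide +kernel)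
theorem L7960 : W_26 (nat_lit 5) (nat_lit 0x8000c000340000001000080000000000000000000000000000000) (nat_lit 0x0) (nat_lit 0x2800170010000000010000800000000000000000000000000000000000) := T_26 (nat_lit 160) (nat_lit 143) (nat_lit 6) (nat_lit 7) (nat_lit 11) L7959 (by decide +kernel)
theorem L7961 : W_26 (nat_lit 6) (nat_lit 0x8000c000300000001000080000000000000000000000000000000) (nat_lit 0x0) (nat_lit 0x28001700100000c0010000800000000000000000000000000000000000) := T_26 (nat_lit 174) (nat_lit 175) (nat_lit 3) (nat_lit 4) (nat_lit 10) L7960 (by decide +kernel)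
theorem L7962 : W_26 (nat_lit 7) (nat_lit 0xc000300000001000080000000000000000000000000000000) (nat_lit 0x0) (nat_lit 0x2000700038001f00100004c0018000c00000000000000000000000000000000000) := Q_26 (nat_lit 211) (C_26 L5339 (C_26 L7956 (C_26 L7961 N_26))) (by decide +kernel)
theorem L7964 : W_26 (nat_lit 3) (nat_lit 0xe000c000380018001000080000000000000000000000000000000) (nat_lit 0x0) (nat_lit 0x2600100001000000000000000000000000000000000000000000000000) := T_26 (nat_lit 212) (nat_lit 229) (nat_lit 7) (nat_lit 7) (nat_lit 9) L7963 (by decide +kernel)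
theorem L7965 : W_26 (nat_lit 4) (nat_lit 0xe000c000380010001000080000000000000000000000000000000) (nat_lit 0x0) (nat_lit 0x2600100001000000008000400000000000000000000000000000000000) := T_26 (nat_lit 159) (nat_lit 142) (nat_lit 4) (nat_lit 7) (nat_lit 12) L7964 (by decide +kernel)
theorem L7966 : W_26 (nat_lit 5) (nat_lit 0xe000c000300010001000080000000000000000000000000000000) (nat_lit 0x0) (nat_lit 0x26001000010000c0008000400000000000000000000000000000000000) := T_26 (nat_lit 175) (nat_lit 174) (nat_lit 3) (nat_lit 4) (nat_lit 10) L7965 (by decide +kernel)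
theorem L7967 : W_26 (nat_lit 6) (nat_lit 0xc000c000300010001000080000000000000000000000000000000) (nat_lit 0x0) (nat_lit 0x26001300010000c0008000400000000000000000000000000000000000) := T_26 (nat_lit 209) (nat_lit 208) (nat_lit 2) (nat_lit 4) (nat_lit 12) L7966 (by decide +kernel)
theorem L7968 : W_26 (nat_lit 7) (nat_lit 0x8000c000300010001000080000000000000000000000000000000) (nat_lit 0x0) (nat_lit 0x2e001700010000c0008000400000000000000000000000000000000000) := T_26 (nat_lit 210) (nat_lit 227) (nat_lit 5) (nat_lit 7) (nat_lit 9) L7967 (by decide +kernel)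
theorem L7969 : W_26 (nat_lit 8) (nat_lit 0x8000c000300000001000080000000000000000000000000000000) (nat_lit 0x0) (nat_lit 0x2e001700010000c0018000c00000000000000000000000000000000000) := T_26 (nat_lit 160) (nat_lit 143) (nat_lit 6) (nat_lit 7) (nat_lit 11) L7968 (by decide +kernel)
theorem L7970 : W_26 (nat_lit 9) (nat_lit 0xc000300000001000080000000000000000000000000000000) (nat_lit 0x0) (nat_lit 0x600070003e001f00010004c0018000c00000000000000000000000000000000000) := Q_26 (nat_lit 211) (C_26 L7956 (C_26 L5339 (C_26 L7969 (C_26 L5410 N_26)))) (by decide +kernel)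
theorem L7980 : W_26 (nat_lit 7) (nat_lit 0xc000300000001000080000000000000000000000000000000) (nat_lit 0x0) (nat_lit 0x2000700038001f0030000400018000c00000000000000000000000000000000000) := Q_26 (nat_lit 211) (C_26 L7975 (C_26 L5339 (C_26 L7979 N_26))) (by decide +kernel)
theorem L7981 : W_26 (nat_lit 12) (nat_lit 0xc000200000001000080000000000000000000000000000000) (nat_lit 0x0) (nat_lit 0xe00070003e007f00310005c0018000c00000000000000000000000000000000000) := Q_26 (nat_lit 176) (C_26 L5377 (C_26 L7962 (C_26 L7938 (C_26 L7970 (C_26 L7980 N_26))))) (by decide +kernel)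
theorem L7982 : W_26 (nat_lit 9) (nat_lit 0xe000200000001000080000000000000000000000000000000) (nat_lit 0x0) (nat_lit 0x400028003f8011800cc0004000200000000000000000000000000000000000) := Q_26 (nat_lit 192) (C_26 L5213 (C_26 L5217 (C_26 L5224 N_26))) (by decide +kernel)
theorem L7989 : W_26 (nat_lit 2) (nat_lit 0x80004000e000200000001000080000000000000000000000000000000) (nat_lit 0x0) (nat_lit 0x80000000000010000800000000000000000000000000000000000) := D_26 (nat_lit 160) (nat_lit 143) (nat_lit 211) (nat_lit 6) (nat_lit 7) (nat_lit 11) (nat_lit 5) (nat_lit 7) (nat_lit 9) (by decide +kernel)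
theorem L7990 : W_26 (nat_lit 3) (nat_lit 0x4000e000200000001000080000000000000000000000000000000) (nat_lit 0x0) (nat_lit 0x10000800080000000000010000800000000000000000000000000000000000) := T_26 (nat_lit 227) (nat_lit 244) (nat_lit 6) (nat_lit 6) (nat_lit 14) L7989 (by decide +kernel)
theorem L7991 : W_26 (nat_lit 8) (nat_lit 0xe000200000001000080000000000000000000000000000000) (nat_lit 0x0) (nat_lit 0x50002800fe0031001800050000800000000000000000000000000000000000) := Q_26 (nat_lit 210) (C_26 L5229 (C_26 L7988 (C_26 L7990 N_26))) (by decide +kernel)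
theorem L7992 : W_26 (nat_lit 2) (nat_lit 0x4001e000200010001000080000000000000000000000000000000) (nat_lit 0x0) (nat_lit 0x800080020000000000000000000000000000000000000000000000000) := D_26 (nat_lit 211) (nat_lit 227) (nat_lit 197) (nat_lit 5) (nat_lit 7) (nat_lit 9) (nat_lit 1) (nat_lit 10) (nat_lit 11) (by decide +kernel)
theorem L7993 : W_26 (nat_lit 3) (nat_lit 0x4001e000200000001000080000000000000000000000000000000) (nat_lit 0x0) (nat_lit 0x800080020000000010000800000000000000000000000000000000000) := T_26 (nat_lit 160) (nat_lit 143) (nat_lit 6) (nat_lit 7) (nat_lit 11) L7992 (by decide +kernel)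
theorem L7994 : W_26 (nat_lit 4) (nat_lit 0x1e000200000001000080000000000000000000000000000000) (nat_lit 0x0) (nat_lit 0x8000e0020000000010000800000000000000000000000000000000000) := T_26 (nat_lit 210) (nat_lit 209) (nat_lit 1) (nat_lit 9) (nat_lit 11) L7993 (by decide +kernel)
theorem L7997 : W_26 (nat_lit 4) (nat_lit 0x1e000a00010001000080000000000000000000000000000000) (nat_lit 0x0) (nat_lit 0x100008006e0000000000000000000000000000000000000000000000000000) := T_26 (nat_lit 213) (nat_lit 214) (nat_lit 3) (nat_lit 6) (nat_lit 11) L7996 (by decide +kernel)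
theorem L7998 : W_26 (nat_lit 5) (nat_lit 0x1e000a00000001000080000000000000000000000000000000) (nat_lit 0x0) (nat_lit 0x100008006e0000000000010000800000000000000000000000000000000000) := T_26 (nat_lit 160) (nat_lit 143) (nat_lit 6) (nat_lit 7) (nat_lit 11) L7997 (by decide +kernel)
theorem L7999 : W_26 (nat_lit 6) (nat_lit 0x1e000200000001000080000000000000000000000000000000) (nat_lit 0x0) (nat_lit 0x100008006e0000001800010000800000000000000000000000000000000000) := T_26 (nat_lit 179) (nat_lit 180) (nat_lit 2) (nat_lit 6) (nat_lit 11) L7998 (by decide +kernel)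
theorem L8000 : W_26 (nat_lit 2) (nat_lit 0x4003e000a00000001800080000000000000000000000000000000) (nat_lit 0x0) (nat_lit 0xe00000000000000000000000000000000000000000000000000000) := D_26 (nat_lit 214) (nat_lit 213) (nat_lit 215) (nat_lit 3) (nat_lit 6) (nat_lit 11) (nat_lit 3) (nat_lit 7) (nat_lit 11) (by decide +kernel)
theorem L8001 : W_26 (nat_lit 3) (nat_lit 0x4001e000a00000001800080000000000000000000000000000000) (nat_lit 0x0) (nat_lit 0xe80020000000000000000000000000000000000000000000000000) := T_26 (nat_lit 197) (nat_lit 211) (nat_lit 1) (nat_lit 10) (nat_lit 11) L8000 (by decide +kernel)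
theorem L8002 : W_26 (nat_lit 4) (nat_lit 0x4001e000a00000001000080000000000000000000000000000000) (nat_lit 0x0) (nat_lit 0xe80020000000010000800000000000000000000000000000000000) := T_26 (nat_lit 143) (nat_lit 160) (nat_lit 6) (nat_lit 7) (nat_lit 11) L8001 (by decide +kernel)
theorem L8003 : W_26 (nat_lit 5) (nat_lit 0x4001e000200000001000080000000000000000000000000000000) (nat_lit 0x0) (nat_lit 0xe80020001800010000800000000000000000000000000000000000) := T_26 (nat_lit 179) (nat_lit 180) (nat_lit 2) (nat_lit 6) (nat_lit 11) L8002 (by decide +kernel)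
theorem L8004 : W_26 (nat_lit 6) (nat_lit 0x1e000200000001000080000000000000000000000000000000) (nat_lit 0x0) (nat_lit 0xee0020001800010000800000000000000000000000000000000000) := T_26 (nat_lit 210) (nat_lit 209) (nat_lit 1) (nat_lit 9) (nat_lit 11) L8003 (by decide +kernel)
theorem L8005 : W_26 (nat_lit 2) (nat_lit 0x48003e000a00010001000080000000000000000000000000000000) (nat_lit 0x0) (nat_lit 0x100040000400000000000000000000000000000000000000000000) := D_26 (nat_lit 198) (nat_lit 178) (nat_lit 212) (nat_lit 0) (nat_lit 11) (nat_lit 11) (nat_lit 1) (nat_lit 11) (nat_lit 11) (by decide +kernel)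
theorem L8006 : W_26 (nat_lit 3) (nat_lit 0x40003e000a00010001000080000000000000000000000000000000) (nat_lit 0x0) (nat_lit 0x1c0040000400000000000000000000000000000000000000000000) := T_26 (nat_lit 211) (nat_lit 210) (nat_lit 1) (nat_lit 10) (nat_lit 11) L8005 (by decide +kernel)
theorem L8007 : W_26 (nat_lit 4) (nat_lit 0x40001e000a00010001000080000000000000000000000000000000) (nat_lit 0x0) (nat_lit 0x9c0060000400000000000000000000000000000000000000000000) := T_26 (nat_lit 197) (nat_lit 215) (nat_lit 3) (nat_lit 7) (nat_lit 11) L8006 (by decide +kernel)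
theorem L8008 : W_26 (nat_lit 5) (nat_lit 0x1e000a00010001000080000000000000000000000000000000) (nat_lit 0x0) (nat_lit 0xfc0060000400000000000000000000000000000000000000000000) := T_26 (nat_lit 214) (nat_lit 213) (nat_lit 3) (nat_lit 6) (nat_lit 11) L8007 (by decide +kernel)
theorem L8009 : W_26 (nat_lit 6) (nat_lit 0x1e000a00000001000080000000000000000000000000000000) (nat_lit 0x0) (nat_lit 0xfc0060000400010000800000000000000000000000000000000000) := T_26 (nat_lit 160) (nat_lit 143) (nat_lit 6) (nat_lit 7) (nat_lit 11) L8008 (by decide +kernel)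
theorem L8010 : W_26 (nat_lit 7) (nat_lit 0x1e000200000001000080000000000000000000000000000000) (nat_lit 0x0) (nat_lit 0xfc0060001c00010000800000000000000000000000000000000000) := T_26 (nat_lit 179) (nat_lit 180) (nat_lit 2) (nat_lit 6) (nat_lit 11) L8009 (by decide +kernel)
theorem L8014 : W_26 (nat_lit 5) (nat_lit 0x20001e001200000001000080000000000000000000000000000000) (nat_lit 0x0) (nat_lit 0x1800e0002400010000800000000000000000000000000000000000) := T_26 (nat_lit 160) (nat_lit 143) (nat_lit 6) (nat_lit 7) (nat_lit 11) L8013 (by decide +kernel)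
theorem L8015 : W_26 (nat_lit 6) (nat_lit 0x20001e000200000001000080000000000000000000000000000000) (nat_lit 0x0) (nat_lit 0x1800e0003c00010000800000000000000000000000000000000000) := T_26 (nat_lit 180) (nat_lit 179) (nat_lit 2) (nat_lit 6) (nat_lit 11) L8014 (by decide +kernel)
theorem L8016 : W_26 (nat_lit 7) (nat_lit 0x1e000200000001000080000000000000000000000000000000) (nat_lit 0x0) (nat_lit 0x7800e0003c00010000800000000000000000000000000000000000) := T_26 (nat_lit 213) (nat_lit 214) (nat_lit 3) (nat_lit 6) (nat_lit 11) L8015 (by decide +kernel)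
theorem L8017 : W_26 (nat_lit 12) (nat_lit 0xe000200000001000080000000000000000000000000000000) (nat_lit 0x0) (nat_lit 0x90004803fe00f0007c00010000800000000000000000000000000000000000) := Q_26 (nat_lit 196) (C_26 L5253 (C_26 L7994 (C_26 L5264 (C_26 L7999 (C_26 L8004 (C_26 L8010 (C_26 L8016 N_26))))))) (by decide +kernel)
theorem L8018 : W_26 (nat_lit 9) (nat_lit 0xe000200000001000080000000000000000000000000000000) (nat_lit 0x0) (nat_lit 0x50002800370011800cc0014000a00000000000000000000000000000000000) := Q_26 (nat_lit 192) (C_26 L5224 (C_26 L5213 (C_26 L5288 N_26))) (by decide +kernel)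
theorem L8019 : W_26 (nat_lit 6) (nat_lit 0xe000200000001000080000000000000000000000000000000) (nat_lit 0x0) (nat_lit 0x400020003b8001800cc0010000000000000000000000000000000000000000) := Q_26 (nat_lit 192) (C_26 L5217 (C_26 L5213 (C_26 L5280 N_26))) (by decide +kernel)
theorem L8020 : W_26 (nat_lit 9) (nat_lit 0xe000200000001000080000000000000000000000000000000) (nat_lit 0x0) (nat_lit 0x500028003f80118004c0014000800000000000000000000000000000000000) := Q_26 (nat_lit 192) (C_26 L5217 (C_26 L5288 (C_26 L5291 (C_26 L5294 N_26)))) (by decide +kernel)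
theorem L8021 : W_26 (nat_lit 5) (nat_lit 0xe000200000001000080000000000000000000000000000000) (nat_lit 0x0) (nat_lit 0x40002000380001800ce0010000000000000000000000000000000000000000) := Q_26 (nat_lit 192) (C_26 L5291 (C_26 L5312 (C_26 L5280 (C_26 L5213 N_26)))) (by decide +kernel)
theorem L8022 : W_26 (nat_lit 7) (nat_lit 0xe000200000001000080000000000000000000000000000000) (nat_lit 0x0) (nat_lit 0x100008000f8011800cc0010000800000000000000000000000000000000000) := Q_26 (nat_lit 192) (C_26 L5294 (C_26 L5308 (C_26 L5213 N_26))) (by decide +kernel)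
theorem L8023 : W_26 (nat_lit 13) (nat_lit 0xc000200000001000080000000000000000000000000000000) (nat_lit 0x0) (nat_lit 0xd0006803ff80f3807ce0054000a00000000000000000000000000000000000) := Q_26 (nat_lit 193) (C_26 L7982 (C_26 L7991 (C_26 L8017 (C_26 L8018 (C_26 L8019 (C_26 L8020 (C_26 L8021 (C_26 L8022 N_26)))))))) (by decide +kernel)
theorem L8024 : W_26 (nat_lit 9) (nat_lit 0xc000300000001000080000000000000000000000000000000) (nat_lit 0x0) (nat_lit 0x600070003e001f00020004c0018000c00000000000000000000000000000000000) := Q_26 (nat_lit 211) (C_26 L7956 (C_26 L5339 (C_26 L5410 (C_26 L7915 N_26)))) (by decide +kernel)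
theorem L8025 : W_26 (nat_lit 10) (nat_lit 0xc000200000001000080000000000000000000000000000000) (nat_lit 0x0) (nat_lit 0x600070003e001f00320005c0018000f0017c000000000000000000000000000000) := Q_26 (nat_lit 176) (C_26 L5377 (C_26 L7962 (C_26 L7980 (C_26 L7950 (C_26 L8024 N_26))))) (by decide +kernel)
theorem L8030 : W_26 (nat_lit 6) (nat_lit 0xe000200000001000080000000000000000000000000000000) (nat_lit 0x0) (nat_lit 0x378011800dc0000000000000000000000000000000000000000000) := Q_26 (nat_lit 192) (C_26 L5294 (C_26 L8029 (C_26 L5213 N_26))) (by decide +kernel)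
theorem L8032 : W_26 (nat_lit 5) (nat_lit 0xe000200000001000080000000000000000000000000000000) (nat_lit 0x0) (nat_lit 0x770031000180000000000000000000000000000000000000000000) := Q_26 (nat_lit 196) (C_26 L7805 (C_26 L8031 N_26)) (by decide +kernel)
theorem L8033 : W_26 (nat_lit 2) (nat_lit 0x24001e000300000001000080000000000000000000000000000000) (nat_lit 0x0) (nat_lit 0x800000000000000010000800000000000000000000000000000000000) := D_26 (nat_lit 160) (nat_lit 143) (nat_lit 227) (nat_lit 6) (nat_lit 7) (nat_lit 11) (nat_lit 6) (nat_lit 6) (nat_lit 13) (by decide +kernel)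
theorem L8034 : W_26 (nat_lit 3) (nat_lit 0x20001e000300000001000080000000000000000000000000000000) (nat_lit 0x0) (nat_lit 0x800060000000000010000800000000000000000000000000000000000) := T_26 (nat_lit 210) (nat_lit 209) (nat_lit 1) (nat_lit 9) (nat_lit 11) L8033 (by decide +kernel)
theorem L8035 : W_26 (nat_lit 4) (nat_lit 0x20001e000200000001000080000000000000000000000000000000) (nat_lit 0x0) (nat_lit 0x800060000000180010000800000000000000000000000000000000000) := T_26 (nat_lit 176) (nat_lit 175) (nat_lit 0) (nat_lit 9) (nat_lit 11) L8034 (by decide +kernel)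
theorem L8036 : W_26 (nat_lit 5) (nat_lit 0x1e000200000001000080000000000000000000000000000000) (nat_lit 0x0) (nat_lit 0x800660000000180010000800000000000000000000000000000000000) := T_26 (nat_lit 213) (nat_lit 214) (nat_lit 3) (nat_lit 6) (nat_lit 11) L8035 (by decide +kernel)
theorem L8037 : W_26 (nat_lit 12) (nat_lit 0xe000200000001000080000000000000000000000000000000) (nat_lit 0x0) (nat_lit 0x90004803f600f0003d80010000800000000000000000000000000000000000) := Q_26 (nat_lit 196) (C_26 L8031 (C_26 L5264 (C_26 L8036 N_26))) (by decide +kernel)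
theorem L8047 : W_26 (nat_lit 11) (nat_lit 0xe000200000001000080000000000000000000000000000000) (nat_lit 0x0) (nat_lit 0x4000200037e001e00de0010000800000000000000000000000000000000000) := Q_26 (nat_lit 192) (C_26 L5294 (C_26 L8046 (C_26 L5280 N_26))) (by decide +kernel)
theorem L8051 : W_26 (nat_lit 12) (nat_lit 0xe000200000001000080000000000000000000000000000000) (nat_lit 0x0) (nat_lit 0x90004803f700f1803c00010000800000000000000000000000000000000000) := Q_26 (nat_lit 196) (C_26 L7805 (C_26 L5264 (C_26 L8050 (C_26 L7802 N_26)))) (by decide +kernel)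
theorem L8052 : W_26 (nat_lit 5) (nat_lit 0xe000200000001000080000000000000000000000000000000) (nat_lit 0x0) (nat_lit 0x700031800d80000000000000000000000000000000000000000000) := Q_26 (nat_lit 196) (C_26 L8050 (C_26 L8031 N_26)) (by decide +kernel)
theorem L8057 : W_26 (nat_lit 6) (nat_lit 0xe000200000001000080000000000000000000000000000000) (nat_lit 0x0) (nat_lit 0x78011800dc0010000800000000000000000000000000000000000) := Q_26 (nat_lit 192) (C_26 L5294 (C_26 L8056 (C_26 L5213 N_26))) (by decide +kernel)
theorem L8058 : W_26 (nat_lit 13) (nat_lit 0xc000200000001000080000000000000000000000000000000) (nat_lit 0x0) (nat_lit 0xd0006803f7e0f3e03de0014000a00000000000000000000000000000000000) := Q_26 (nat_lit 193) (C_26 L8030 (C_26 L8032 (C_26 L8018 (C_26 L8037 (C_26 L8047 (C_26 L8051 (C_26 L8052 (C_26 L8057 N_26)))))))) (by decide +kernel)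
theorem L8059 : W_26 (nat_lit 2) (nat_lit 0x4001e000d000200018001000080000000000000000000000000000000) (nat_lit 0x0) (nat_lit 0x200002000100000000000000000000000000000000000000000000) := D_26 (nat_lit 193) (nat_lit 213) (nat_lit 176) (nat_lit 3) (nat_lit 5) (nat_lit 11) (nat_lit 5) (nat_lit 6) (nat_lit 9) (by decide +kernel)
theorem L8060 : W_26 (nat_lit 3) (nat_lit 0x1e000d000200018001000080000000000000000000000000000000) (nat_lit 0x0) (nat_lit 0x600200002000100000000000000000000000000000000000000000000) := T_26 (nat_lit 226) (nat_lit 225) (nat_lit 1) (nat_lit 8) (nat_lit 12) L8059 (by decide +kernel)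
theorem L8061 : W_26 (nat_lit 4) (nat_lit 0x1e000c000200018001000080000000000000000000000000000000) (nat_lit 0x0) (nat_lit 0x600200003800100000000000000000000000000000000000000000000) := T_26 (nat_lit 192) (nat_lit 191) (nat_lit 0) (nat_lit 8) (nat_lit 12) L8060 (by decide +kernel)
theorem L8062 : W_26 (nat_lit 5) (nat_lit 0x1e000c000200010001000080000000000000000000000000000000) (nat_lit 0x0) (nat_lit 0x600200003800100008000400000000000000000000000000000000000) := T_26 (nat_lit 159) (nat_lit 142) (nat_lit 4) (nat_lit 7) (nat_lit 12) L8061 (by decide +kernel)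
theorem L8063 : W_26 (nat_lit 6) (nat_lit 0x1c000c000200010001000080000000000000000000000000000000) (nat_lit 0x0) (nat_lit 0x600230003800100008000400000000000000000000000000000000000) := T_26 (nat_lit 209) (nat_lit 208) (nat_lit 2) (nat_lit 4) (nat_lit 12) L8062 (by decide +kernel)
theorem L8064 : W_26 (nat_lit 7) (nat_lit 0x18000c000200010001000080000000000000000000000000000000) (nat_lit 0x0) (nat_lit 0xe00270003800100008000400000000000000000000000000000000000) := T_26 (nat_lit 210) (nat_lit 227) (nat_lit 5) (nat_lit 7) (nat_lit 9) L8063 (by decide +kernel)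
theorem L8065 : W_26 (nat_lit 8) (nat_lit 0x8000c000200010001000080000000000000000000000000000000) (nat_lit 0x0) (nat_lit 0x2e00370003800100008000400000000000000000000000000000000000) := T_26 (nat_lit 212) (nat_lit 229) (nat_lit 7) (nat_lit 7) (nat_lit 9) L8064 (by decide +kernel)
theorem L8066 : W_26 (nat_lit 10) (nat_lit 0xc000200010001000080000000000000000000000000000000) (nat_lit 0x0) (nat_lit 0x4000e0007001fe00ff0003800500008000400000000000000000000000000000000000) := Q_26 (nat_lit 211) (C_26 L5425 (C_26 L5433 (C_26 L8065 (C_26 L5441 (C_26 L5445 (C_26 L5457 (C_26 L5451 N_26))))))) (by decide +kernel)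
theorem L8067 : W_26 (nat_lit 11) (nat_lit 0xc000200000001000080000000000000000000000000000000) (nat_lit 0x0) (nat_lit 0x4000e0007001fe00ff0003800500018000c00000000000000000000000000000000000) := T_26 (nat_lit 160) (nat_lit 143) (nat_lit 6) (nat_lit 7) (nat_lit 11) L8066 (by decide +kernel)
theorem L8068 : W_26 (nat_lit 2) (nat_lit 0x8000c000340008001000080000000000000000000000000000000) (nat_lit 0x0) (nat_lit 0x2000000000000400020000000000000000000000000000000) := D_26 (nat_lit 142) (nat_lit 125) (nat_lit 193) (nat_lit 7) (nat_lit 6) (nat_lit 7) (nat_lit 7) (nat_lit 6) (nat_lit 8) (by decide +kernel)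
theorem L8069 : W_26 (nat_lit 3) (nat_lit 0xc000340008001000080000000000000000000000000000000) (nat_lit 0x0) (nat_lit 0x1000080002000000000000400020000000000000000000000000000000) := T_26 (nat_lit 211) (nat_lit 228) (nat_lit 4) (nat_lit 7) (nat_lit 13) L8068 (by decide +kernel)
theorem L8070 : W_26 (nat_lit 4) (nat_lit 0xc000300008001000080000000000000000000000000000000) (nat_lit 0x0) (nat_lit 0x10000800020000c0000000400020000000000000000000000000000000) := T_26 (nat_lit 174) (nat_lit 175) (nat_lit 3) (nat_lit 4) (nat_lit 10) L8069 (by decide +kernel)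
theorem L8071 : W_26 (nat_lit 2) (nat_lit 0x1e000c0003800180010000a0000000000000000000000000000000) (nat_lit 0x0) (nat_lit 0x600000001000000000000000000000000000000000000000000000000) := D_26 (nat_lit 226) (nat_lit 225) (nat_lit 192) (nat_lit 1) (nat_lit 8) (nat_lit 12) (nat_lit 6) (nat_lit 5) (nat_lit 13) (by decide +kernel)
theorem L8072 : W_26 (nat_lit 3) (nat_lit 0xe000c0003800180010000a0000000000000000000000000000000) (nat_lit 0x0) (nat_lit 0x2600100001000000000000000000000000000000000000000000000000) := T_26 (nat_lit 212) (nat_lit 229) (nat_lit 7) (nat_lit 7) (nat_lit 9) L8071 (by decide +kernel)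
theorem L8073 : W_26 (nat_lit 4) (nat_lit 0xc000c0003800180010000a0000000000000000000000000000000) (nat_lit 0x0) (nat_lit 0x2600130001000000000000000000000000000000000000000000000000) := T_26 (nat_lit 209) (nat_lit 208) (nat_lit 2) (nat_lit 4) (nat_lit 12) L8072 (by decide +kernel)
theorem L8074 : W_26 (nat_lit 5) (nat_lit 0x8000c0003800180010000a0000000000000000000000000000000) (nat_lit 0x0) (nat_lit 0x2e00170001000000000000000000000000000000000000000000000000) := T_26 (nat_lit 210) (nat_lit 227) (nat_lit 5) (nat_lit 7) (nat_lit 9) L8073 (by decide +kernel)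
theorem L8075 : W_26 (nat_lit 6) (nat_lit 0xc0003800180010000a0000000000000000000000000000000) (nat_lit 0x0) (nat_lit 0x3e001f0001000000000000000000000000000000000000000000000000) := T_26 (nat_lit 211) (nat_lit 228) (nat_lit 4) (nat_lit 7) (nat_lit 13) L8074 (by decide +kernel)
theorem L8076 : W_26 (nat_lit 7) (nat_lit 0xc0003000180010000a0000000000000000000000000000000) (nat_lit 0x0) (nat_lit 0x3e001f00010000c0000000000000000000000000000000000000000000) := T_26 (nat_lit 175) (nat_lit 174) (nat_lit 3) (nat_lit 4) (nat_lit 10) L8075 (by decide +kernel)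
theorem L8077 : W_26 (nat_lit 8) (nat_lit 0xc0003000080010000a0000000000000000000000000000000) (nat_lit 0x0) (nat_lit 0x3e001f00010000c0010000800000000000000000000000000000000000) := T_26 (nat_lit 160) (nat_lit 143) (nat_lit 6) (nat_lit 7) (nat_lit 11) L8076 (by decide +kernel)
theorem L8078 : W_26 (nat_lit 9) (nat_lit 0xc000300008001000080000000000000000000000000000000) (nat_lit 0x0) (nat_lit 0x3e001f00010000c0010000c00020000000000000000000000000000000) := T_26 (nat_lit 125) (nat_lit 142) (nat_lit 7) (nat_lit 6) (nat_lit 7) L8077 (by decide +kernel)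
theorem L8079 : W_26 (nat_lit 2) (nat_lit 0xc000340008001e00080000000000000000000000000000000) (nat_lit 0x0) (nat_lit 0x2000000000000100040000000000000000000000000000000) := D_26 (nat_lit 126) (nat_lit 140) (nat_lit 193) (nat_lit 2) (nat_lit 4) (nat_lit 8) (nat_lit 6) (nat_lit 6) (nat_lit 11) (by decide +kernel)
theorem L8080 : W_26 (nat_lit 3) (nat_lit 0xc000340008001c00080000000000000000000000000000000) (nat_lit 0x0) (nat_lit 0x2000000000000300140000000000000000000000000000000) := T_26 (nat_lit 141) (nat_lit 128) (nat_lit 2) (nat_lit 5) (nat_lit 8) L8079 (by decide +kernel)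
theorem L8081 : W_26 (nat_lit 4) (nat_lit 0xc000300008001c00080000000000000000000000000000000) (nat_lit 0x0) (nat_lit 0x20000c0000000300140000000000000000000000000000000) := T_26 (nat_lit 174) (nat_lit 175) (nat_lit 3) (nat_lit 4) (nat_lit 10) L8080 (by decide +kernel)
theorem L8082 : W_26 (nat_lit 5) (nat_lit 0xc000300008001400080000000000000000000000000000000) (nat_lit 0x0) (nat_lit 0x20000c0010000b00140000000000000000000000000000000) := T_26 (nat_lit 143) (nat_lit 160) (nat_lit 6) (nat_lit 7) (nat_lit 11) L8081 (by decide +kernel)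
theorem L8083 : W_26 (nat_lit 6) (nat_lit 0xc000300008001000080000000000000000000000000000000) (nat_lit 0x0) (nat_lit 0x20000c0010000f00160000000000000000000000000000000) := T_26 (nat_lit 142) (nat_lit 125) (nat_lit 7) (nat_lit 6) (nat_lit 7) L8082 (by decide +kernel)
theorem L8084 : W_26 (nat_lit 3) (nat_lit 0x1c000c000340018001000080000000000000000000000000000000) (nat_lit 0x0) (nat_lit 0x600030002000000000000000000000000000000000000000000000000) := T_26 (nat_lit 209) (nat_lit 208) (nat_lit 2) (nat_lit 4) (nat_lit 12) L7909 (by decide +kernel)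
theorem L8085 : W_26 (nat_lit 4) (nat_lit 0x18000c000340018001000080000000000000000000000000000000) (nat_lit 0x0) (nat_lit 0xe00070002000000000000000000000000000000000000000000000000) := T_26 (nat_lit 210) (nat_lit 227) (nat_lit 5) (nat_lit 7) (nat_lit 9) L8084 (by decide +kernel)
theorem L8086 : W_26 (nat_lit 5) (nat_lit 0x8000c000340018001000080000000000000000000000000000000) (nat_lit 0x0) (nat_lit 0x2e00170002000000000000000000000000000000000000000000000000) := T_26 (nat_lit 212) (nat_lit 229) (nat_lit 7) (nat_lit 7) (nat_lit 9) L8085 (by decide +kernel)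
theorem L8087 : W_26 (nat_lit 6) (nat_lit 0x8000c000300018001000080000000000000000000000000000000) (nat_lit 0x0) (nat_lit 0x2e001700020000c0000000000000000000000000000000000000000000) := T_26 (nat_lit 174) (nat_lit 175) (nat_lit 3) (nat_lit 4) (nat_lit 10) L8086 (by decide +kernel)
theorem L8088 : W_26 (nat_lit 7) (nat_lit 0xc000300018001000080000000000000000000000000000000) (nat_lit 0x0) (nat_lit 0x3e001f00020000c0000000000000000000000000000000000000000000) := T_26 (nat_lit 211) (nat_lit 228) (nat_lit 4) (nat_lit 7) (nat_lit 13) L8087 (by decide +kernel)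
theorem L8089 : W_26 (nat_lit 8) (nat_lit 0xc000300008001000080000000000000000000000000000000) (nat_lit 0x0) (nat_lit 0x3e001f00020000c0010000800000000000000000000000000000000000) := T_26 (nat_lit 160) (nat_lit 143) (nat_lit 6) (nat_lit 7) (nat_lit 11) L8088 (by decide +kernel)
theorem L8090 : W_26 (nat_lit 2) (nat_lit 0x100000000e000300008001c00080000000000000000000000000000000) (nat_lit 0x0) (nat_lit 0x200110000000000000000000000000000000) := D_26 (nat_lit 141) (nat_lit 128) (nat_lit 124) (nat_lit 2) (nat_lit 5) (nat_lit 8) (nat_lit 4) (nat_lit 6) (nat_lit 11) (by decide +kernel)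
theorem L8091 : W_26 (nat_lit 3) (nat_lit 0x100000000c000300008001c00080000000000000000000000000000000) (nat_lit 0x0) (nat_lit 0x2000000000000200150000000000000000000000000000000) := T_26 (nat_lit 193) (nat_lit 126) (nat_lit 6) (nat_lit 6) (nat_lit 11) L8090 (by decide +kernel)
theorem L8092 : W_26 (nat_lit 4) (nat_lit 0x100000000c000300008001800080000000000000000000000000000000) (nat_lit 0x0) (nat_lit 0x2000000000000600170000000000000000000000000000000) := T_26 (nat_lit 142) (nat_lit 125) (nat_lit 7) (nat_lit 6) (nat_lit 7) L8091 (by decide +kernel)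
theorem L8093 : W_26 (nat_lit 5) (nat_lit 0x100000000c000300008001000080000000000000000000000000000000) (nat_lit 0x0) (nat_lit 0x2000000010000e00170000000000000000000000000000000) := T_26 (nat_lit 143) (nat_lit 160) (nat_lit 6) (nat_lit 7) (nat_lit 11) L8092 (by decide +kernel)
theorem L8094 : W_26 (nat_lit 6) (nat_lit 0xc000300008001000080000000000000000000000000000000) (nat_lit 0x0) (nat_lit 0x1000080002000000010000e00170000000000000000000000000000000) := T_26 (nat_lit 228) (nat_lit 211) (nat_lit 4) (nat_lit 7) (nat_lit 13) L8093 (by decide +kernel)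
theorem L8095 : W_26 (nat_lit 10) (nat_lit 0xc000300000001000080000000000000000000000000000000) (nat_lit 0x0) (nat_lit 0x3e001f00030000c0018000f00170000000000000000000000000000000) := Q_26 (nat_lit 159) (C_26 L8070 (C_26 L8078 (C_26 L8083 (C_26 L8089 (C_26 L8094 N_26))))) (by decide +kernel)
theorem L8096 : W_26 (nat_lit 11) (nat_lit 0xc000200000001000080000000000000000000000000000000) (nat_lit 0x0) (nat_lit 0x3e001f00330005c0018000f0017c000000000000000000000000000000) := Q_26 (nat_lit 176) (C_26 L5377 (C_26 L7950 (C_26 L8095 N_26))) (by decide +kernel)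
theorem L8097 : W_26 (nat_lit 2) (nat_lit 0xc000340000001f000a0000000000000000000000000000000) (nat_lit 0x0) (nat_lit 0x1c000000000000000000000000000000) := D_26 (nat_lit 123) (nat_lit 122) (nat_lit 124) (nat_lit 0) (nat_lit 7) (nat_lit 8) (nat_lit 0) (nat_lit 8) (nat_lit 8) (by decide +kernel)
theorem L8098 : W_26 (nat_lit 3) (nat_lit 0xc000340000001e000a0000000000000000000000000000000) (nat_lit 0x0) (nat_lit 0x10005c000000000000000000000000000000) := T_26 (nat_lit 140) (nat_lit 126) (nat_lit 2) (nat_lit 4) (nat_lit 8) L8097 (by decide +kernel)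
theorem L8099 : W_26 (nat_lit 4) (nat_lit 0xc000340000001c000a0000000000000000000000000000000) (nat_lit 0x0) (nat_lit 0x30015c000000000000000000000000000000) := T_26 (nat_lit 141) (nat_lit 128) (nat_lit 2) (nat_lit 5) (nat_lit 8) L8098 (by decide +kernel)
theorem L8100 : W_26 (nat_lit 5) (nat_lit 0xc0003400000014000a0000000000000000000000000000000) (nat_lit 0x0) (nat_lit 0x10000b0015c000000000000000000000000000000) := T_26 (nat_lit 143) (nat_lit 160) (nat_lit 6) (nat_lit 7) (nat_lit 11) L8099 (by decide +kernel)
theorem L8101 : W_26 (nat_lit 6) (nat_lit 0xc000340000001400080000000000000000000000000000000) (nat_lit 0x0) (nat_lit 0x18000b0017c000000000000000000000000000000) := T_26 (nat_lit 125) (nat_lit 159) (nat_lit 7) (nat_lit 6) (nat_lit 7) L8100 (by decide +kernel)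
theorem L8102 : W_26 (nat_lit 7) (nat_lit 0xc000300000001400080000000000000000000000000000000) (nat_lit 0x0) (nat_lit 0xc0018000b0017c000000000000000000000000000000) := T_26 (nat_lit 174) (nat_lit 175) (nat_lit 3) (nat_lit 4) (nat_lit 10) L8101 (by decide +kernel)
theorem L8103 : W_26 (nat_lit 2) (nat_lit 0xc000340000001f00080000000000000000000000000000000) (nat_lit 0x0) (nat_lit 0x1c000000000000000000000000000000) := D_26 (nat_lit 123) (nat_lit 122) (nat_lit 124) (nat_lit 0) (nat_lit 7) (nat_lit 8) (nat_lit 0) (nat_lit 8) (nat_lit 8) (by decide +kernel)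
theorem L8104 : W_26 (nat_lit 3) (nat_lit 0xc000340000001e00080000000000000000000000000000000) (nat_lit 0x0) (nat_lit 0x10005c000000000000000000000000000000) := T_26 (nat_lit 140) (nat_lit 126) (nat_lit 2) (nat_lit 4) (nat_lit 8) L8103 (by decide +kernel)
theorem L8105 : W_26 (nat_lit 4) (nat_lit 0xc000340000001c00080000000000000000000000000000000) (nat_lit 0x0) (nat_lit 0x30015c000000000000000000000000000000) := T_26 (nat_lit 141) (nat_lit 128) (nat_lit 2) (nat_lit 5) (nat_lit 8) L8104 (by decide +kernel)
theorem L8106 : W_26 (nat_lit 5) (nat_lit 0xc000300000001c00080000000000000000000000000000000) (nat_lit 0x0) (nat_lit 0xc000000030015c000000000000000000000000000000) := T_26 (nat_lit 174) (nat_lit 175) (nat_lit 3) (nat_lit 4) (nat_lit 10) L8105 (by decide +kernel)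
theorem L8107 : W_26 (nat_lit 6) (nat_lit 0xc000300000001400080000000000000000000000000000000) (nat_lit 0x0) (nat_lit 0xc0010000b0015c000000000000000000000000000000) := T_26 (nat_lit 143) (nat_lit 160) (nat_lit 6) (nat_lit 7) (nat_lit 11) L8106 (by decide +kernel)
theorem L8108 : W_26 (nat_lit 8) (nat_lit 0xc000300000001000080000000000000000000000000000000) (nat_lit 0x0) (nat_lit 0x10000800020000c0018000f0017c000000000000000000000000000000) := Q_26 (nat_lit 142) (C_26 L5318 (C_26 L5360 (C_26 L8102 (C_26 L8107 N_26)))) (by decide +kernel)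
theorem L8109 : W_26 (nat_lit 9) (nat_lit 0xc000200000001000080000000000000000000000000000000) (nat_lit 0x0) (nat_lit 0x10000800320005c0018000f0017c000000000000000000000000000000) := Q_26 (nat_lit 176) (C_26 L5377 (C_26 L7950 (C_26 L8108 N_26))) (by decide +kernel)
theorem L8110 : W_26 (nat_lit 14) (nat_lit 0x4000200000001000080000000000000000000000000000000) (nat_lit 0x0) (nat_lit 0x1c002e001f801fe03ffe1fbe0fde005c000f0017c000000000000000000000000000000) := Q_26 (nat_lit 195) (C_26 L7903 (C_26 L7951 (C_26 L7981 (C_26 L8023 (C_26 L8025 (C_26 L8058 (C_26 L8067 (C_26 L8096 (C_26 L8109 N_26))))))))) (by decide +kernel)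
theorem L8111 : W_26 (nat_lit 2) (nat_lit 0x4000300000001f00080000000000000000000000000000000) (nat_lit 0x0) (nat_lit 0x1c000000000000000000000000000000) := D_26 (nat_lit 123) (nat_lit 122) (nat_lit 124) (nat_lit 0) (nat_lit 7) (nat_lit 8) (nat_lit 0) (nat_lit 8) (nat_lit 8) (by decide +kernel)
theorem L8112 : W_26 (nat_lit 3) (nat_lit 0x4000300000001e00080000000000000000000000000000000) (nat_lit 0x0) (nat_lit 0x10005c000000000000000000000000000000) := T_26 (nat_lit 140) (nat_lit 126) (nat_lit 2) (nat_lit 4) (nat_lit 8) L8111 (by decide +kernel)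
theorem L8113 : W_26 (nat_lit 4) (nat_lit 0x4000300000001c00080000000000000000000000000000000) (nat_lit 0x0) (nat_lit 0x30015c000000000000000000000000000000) := T_26 (nat_lit 141) (nat_lit 128) (nat_lit 2) (nat_lit 5) (nat_lit 8) L8112 (by decide +kernel)
theorem L8114 : W_26 (nat_lit 2) (nat_lit 0x1000000025000f800340028001e00080000000000000000000000000000000) (nat_lit 0x0) (nat_lit 0x400030000000000000000000000000000000000000000000000000) := D_26 (nat_lit 196) (nat_lit 197) (nat_lit 214) (nat_lit 0) (nat_lit 10) (nat_lit 11) (nat_lit 3) (nat_lit 6) (nat_lit 11) (by decide +kernel)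
theorem L8115 : W_26 (nat_lit 3) (nat_lit 0x1000000005000f800340028001e00080000000000000000000000000000000) (nat_lit 0x0) (nat_lit 0x700030000000000000000000000000000000000000000000000000) := T_26 (nat_lit 213) (nat_lit 212) (nat_lit 3) (nat_lit 5) (nat_lit 11) L8114 (by decide +kernel)
theorem L8116 : W_26 (nat_lit 4) (nat_lit 0x1000000004000f800340028001e00080000000000000000000000000000000) (nat_lit 0x0) (nat_lit 0x718030000000000000000000000000000000000000000000000000) := T_26 (nat_lit 208) (nat_lit 207) (nat_lit 1) (nat_lit 7) (nat_lit 11) L8115 (by decide +kernel)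
theorem L8117 : W_26 (nat_lit 5) (nat_lit 0x10000000040007800340028001e00080000000000000000000000000000000) (nat_lit 0x0) (nat_lit 0x718038000080000000000000000000000000000000000000000000) := T_26 (nat_lit 195) (nat_lit 175) (nat_lit 3) (nat_lit 4) (nat_lit 10) L8116 (by decide +kernel)
theorem L8118 : W_26 (nat_lit 6) (nat_lit 0x40007800340028001e00080000000000000000000000000000000) (nat_lit 0x0) (nat_lit 0x10000800718038000080000000000000000000000000000000000000000000) := T_26 (nat_lit 244) (nat_lit 227) (nat_lit 6) (nat_lit 6) (nat_lit 14) L8117 (by decide +kernel)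
theorem L8119 : W_26 (nat_lit 7) (nat_lit 0x40007800300028001e00080000000000000000000000000000000) (nat_lit 0x0) (nat_lit 0x100008007180380000e0000000000000000000000000000000000000000000) := T_26 (nat_lit 174) (nat_lit 173) (nat_lit 0) (nat_lit 7) (nat_lit 11) L8118 (by decide +kernel)
theorem L8120 : W_26 (nat_lit 8) (nat_lit 0x7800300028001e00080000000000000000000000000000000) (nat_lit 0x0) (nat_lit 0x100008007580380000e0004000000000000000000000000000000000000000) := T_26 (nat_lit 210) (nat_lit 158) (nat_lit 4) (nat_lit 6) (nat_lit 12) L8119 (by decide +kernel)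
theorem L8121 : W_26 (nat_lit 9) (nat_lit 0x7800300008001e00080000000000000000000000000000000) (nat_lit 0x0) (nat_lit 0x100008007580380000e0064000000000000000000000000000000000000000) := T_26 (nat_lit 161) (nat_lit 162) (nat_lit 3) (nat_lit 5) (nat_lit 8) L8120 (by decide +kernel)
theorem L8122 : W_26 (nat_lit 10) (nat_lit 0x7800300008001c00080000000000000000000000000000000) (nat_lit 0x0) (nat_lit 0x100008007580380000e0064000200010000000000000000000000000000000) := T_26 (nat_lit 141) (nat_lit 124) (nat_lit 4) (nat_lit 6) (nat_lit 11) L8121 (by decide +kernel)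
theorem L8123 : W_26 (nat_lit 11) (nat_lit 0x7000300008001c00080000000000000000000000000000000) (nat_lit 0x0) (nat_lit 0x10000800758038c000e0064000200010000000000000000000000000000000) := T_26 (nat_lit 191) (nat_lit 190) (nat_lit 2) (nat_lit 3) (nat_lit 11) L8122 (by decide +kernel)
theorem L8124 : W_26 (nat_lit 12) (nat_lit 0x6000300008001c00080000000000000000000000000000000) (nat_lit 0x0) (nat_lit 0x10000800778039c000e0064000200010000000000000000000000000000000) := T_26 (nat_lit 192) (nat_lit 209) (nat_lit 5) (nat_lit 6) (nat_lit 8) L8123 (by decide +kernel)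
theorem L8125 : W_26 (nat_lit 13) (nat_lit 0x4000300008001c00080000000000000000000000000000000) (nat_lit 0x0) (nat_lit 0x1000080077803bc000e0064000200050000000000000000000000000000000) := T_26 (nat_lit 193) (nat_lit 126) (nat_lit 6) (nat_lit 6) (nat_lit 11) L8124 (by decide +kernel)
theorem L8126 : W_26 (nat_lit 14) (nat_lit 0x4000300000001c00080000000000000000000000000000000) (nat_lit 0x0) (nat_lit 0x1000080077803bc000e006c000200070000000000000000000000000000000) := T_26 (nat_lit 159) (nat_lit 125) (nat_lit 7) (nat_lit 6) (nat_lit 7) L8125 (by decide +kernel)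
theorem L8139 : W_26 (nat_lit 15) (nat_lit 0x4000300000001800080000000000000000000000000000000) (nat_lit 0x0) (nat_lit 0x1000080077803bc000e006c00070017c000000000000000000000000000000) := Q_26 (nat_lit 142) (C_26 L8113 (C_26 L8126 (C_26 L8129 (C_26 L8138 N_26)))) (by decide +kernel)
theorem L8140 : W_26 (nat_lit 16) (nat_lit 0x4000300000001000080000000000000000000000000000000) (nat_lit 0x0) (nat_lit 0x1000080077803bc000e007c000f0017c000000000000000000000000000000) := T_26 (nat_lit 143) (nat_lit 160) (nat_lit 6) (nat_lit 7) (nat_lit 11) L8139 (by decide +kernel)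
theorem L8141 : W_26 (nat_lit 2) (nat_lit 0x24001e000300020001000080000000000000000000000000000000) (nat_lit 0x0) (nat_lit 0x1800040000000000000000000000000000000000000000) := D_26 (nat_lit 179) (nat_lit 180) (nat_lit 162) (nat_lit 2) (nat_lit 6) (nat_lit 11) (nat_lit 4) (nat_lit 9) (nat_lit 12) (by decide +kernel)
theorem L8142 : W_26 (nat_lit 3) (nat_lit 0x4001e000300020001000080000000000000000000000000000000) (nat_lit 0x0) (nat_lit 0x600000001800040000000000000000000000000000000000000000) := T_26 (nat_lit 213) (nat_lit 214) (nat_lit 3) (nat_lit 6) (nat_lit 11) L8141 (by decide +kernel)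
theorem L8143 : W_26 (nat_lit 4) (nat_lit 0x1e000300020001000080000000000000000000000000000000) (nat_lit 0x0) (nat_lit 0x660000001800040000000000000000000000000000000000000000) := T_26 (nat_lit 210) (nat_lit 209) (nat_lit 1) (nat_lit 9) (nat_lit 11) L8142 (by decide +kernel)
theorem L8144 : W_26 (nat_lit 5) (nat_lit 0xe000300020001000080000000000000000000000000000000) (nat_lit 0x0) (nat_lit 0x660030001800040000000000000000000000000000000000000000) := T_26 (nat_lit 196) (nat_lit 197) (nat_lit 0) (nat_lit 10) (nat_lit 11) L8143 (by decide +kernel)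
theorem L8145 : W_26 (nat_lit 6) (nat_lit 0xe000300000001000080000000000000000000000000000000) (nat_lit 0x0) (nat_lit 0x660030001c00060000000000000000000000000000000000000000) := T_26 (nat_lit 161) (nat_lit 178) (nat_lit 5) (nat_lit 8) (nat_lit 7) L8144 (by decide +kernel)
theorem L8146 : W_26 (nat_lit 6) (nat_lit 0xe000300000001000080000000000000000000000000000000) (nat_lit 0x0) (nat_lit 0x2000700031001800060000000000000000000000000000000000000000) := T_26 (nat_lit 196) (nat_lit 197) (nat_lit 0) (nat_lit 10) (nat_lit 11) L7844 (by decide +kernel)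
theorem L8147 : W_26 (nat_lit 5) (nat_lit 0xe000300000001000080000000000000000000000000000000) (nat_lit 0x0) (nat_lit 0x700031800c00000000000000000000000000000000000000000000) := T_26 (nat_lit 196) (nat_lit 197) (nat_lit 0) (nat_lit 10) (nat_lit 11) L7798 (by decide +kernel)
theorem L8150 : W_26 (nat_lit 2) (nat_lit 0x280034001e000300020001000080000000000000000000000000000000) (nat_lit 0x0) (nat_lit 0x20001400000000000000000000000000000000000000000000000000000000) := D_26 (nat_lit 228) (nat_lit 245) (nat_lit 226) (nat_lit 7) (nat_lit 6) (nat_lit 10) (nat_lit 2) (nat_lit 5) (nat_lit 13) (by decide +kernel)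
theorem L8151 : W_26 (nat_lit 3) (nat_lit 0x80034001e000300020001000080000000000000000000000000000000) (nat_lit 0x0) (nat_lit 0x60003400000000000000000000000000000000000000000000000000000000) := T_26 (nat_lit 229) (nat_lit 246) (nat_lit 4) (nat_lit 8) (nat_lit 14) L8150 (by decide +kernel)
theorem L8152 : W_26 (nat_lit 4) (nat_lit 0x34001e000300020001000080000000000000000000000000000000) (nat_lit 0x0) (nat_lit 0x70003c00000000000000000000000000000000000000000000000000000000) := T_26 (nat_lit 227) (nat_lit 244) (nat_lit 6) (nat_lit 6) (nat_lit 14) L8151 (by decide +kernel)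
theorem L8153 : W_26 (nat_lit 5) (nat_lit 0x24001e000300020001000080000000000000000000000000000000) (nat_lit 0x0) (nat_lit 0x70003c00100001000000000000000000000000000000000000000000000000) := T_26 (nat_lit 212) (nat_lit 192) (nat_lit 3) (nat_lit 5) (nat_lit 11) L8152 (by decide +kernel)
theorem L8154 : W_26 (nat_lit 6) (nat_lit 0x4001e000300020001000080000000000000000000000000000000) (nat_lit 0x0) (nat_lit 0x70003c00700001000000000000000000000000000000000000000000000000) := T_26 (nat_lit 213) (nat_lit 214) (nat_lit 3) (nat_lit 6) (nat_lit 11) L8153 (by decide +kernel)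
theorem L8155 : W_26 (nat_lit 7) (nat_lit 0x1e000300020001000080000000000000000000000000000000) (nat_lit 0x0) (nat_lit 0x70003c00760001000000000000000000000000000000000000000000000000) := T_26 (nat_lit 210) (nat_lit 209) (nat_lit 1) (nat_lit 9) (nat_lit 11) L8154 (by decide +kernel)
theorem L8156 : W_26 (nat_lit 8) (nat_lit 0xe000300020001000080000000000000000000000000000000) (nat_lit 0x0) (nat_lit 0x70003c00760031000000000000000000000000000000000000000000000000) := T_26 (nat_lit 196) (nat_lit 197) (nat_lit 0) (nat_lit 10) (nat_lit 11) L8155 (by decide +kernel)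
theorem L8157 : W_26 (nat_lit 9) (nat_lit 0xe000300000001000080000000000000000000000000000000) (nat_lit 0x0) (nat_lit 0x70003c00760031000400020000000000000000000000000000000000000000) := T_26 (nat_lit 161) (nat_lit 178) (nat_lit 5) (nat_lit 8) (nat_lit 7) L8156 (by decide +kernel)
theorem L8158 : W_26 (nat_lit 10) (nat_lit 0xc000300000001000080000000000000000000000000000000) (nat_lit 0x0) (nat_lit 0x70003c00760033801c00060000000000000000000000000000000000000000) := Q_26 (nat_lit 193) (C_26 L8145 (C_26 L8146 (C_26 L8147 (C_26 L8149 (C_26 L8157 N_26))))) (by decide +kernel)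
theorem L8159 : W_26 (nat_lit 2) (nat_lit 0xd001f80008001000080000000000000000000000000000000) (nat_lit 0x0) (nat_lit 0x1c0000000000000000000000000000000000000000) := D_26 (nat_lit 163) (nat_lit 162) (nat_lit 164) (nat_lit 2) (nat_lit 6) (nat_lit 10) (nat_lit 2) (nat_lit 7) (nat_lit 10) (by decide +kernel)
theorem L8160 : W_26 (nat_lit 3) (nat_lit 0xd000f80008001000080000000000000000000000000000000) (nat_lit 0x0) (nat_lit 0x30001c0000000000000000000000000000000000000000) := T_26 (nat_lit 180) (nat_lit 181) (nat_lit 1) (nat_lit 11) (nat_lit 10) L8159 (by decide +kernel)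
theorem L8161 : W_26 (nat_lit 4) (nat_lit 0xd000f80000001000080000000000000000000000000000000) (nat_lit 0x0) (nat_lit 0x30001cc000000000000000000000000000000000000000) := T_26 (nat_lit 159) (nat_lit 158) (nat_lit 0) (nat_lit 9) (nat_lit 10) L8160 (by decide +kernel)
theorem L8162 : W_26 (nat_lit 5) (nat_lit 0xd000780000001000080000000000000000000000000000000) (nat_lit 0x0) (nat_lit 0x20038001cc000000000000000000000000000000000000000) := T_26 (nat_lit 179) (nat_lit 193) (nat_lit 2) (nat_lit 5) (nat_lit 11) L8161 (by decide +kernel)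
theorem L8163 : W_26 (nat_lit 6) (nat_lit 0xc000780000001000080000000000000000000000000000000) (nat_lit 0x0) (nat_lit 0x38038001cc000000000000000000000000000000000000000) := T_26 (nat_lit 192) (nat_lit 191) (nat_lit 1) (nat_lit 8) (nat_lit 10) L8162 (by decide +kernel)
theorem L8164 : W_26 (nat_lit 7) (nat_lit 0xc000700000001000080000000000000000000000000000000) (nat_lit 0x0) (nat_lit 0x38038c01cc000000000000000000000000000000000000000) := T_26 (nat_lit 175) (nat_lit 174) (nat_lit 3) (nat_lit 4) (nat_lit 10) L8163 (by decide +kernel)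
theorem L8165 : W_26 (nat_lit 8) (nat_lit 0xc000300000001000080000000000000000000000000000000) (nat_lit 0x0) (nat_lit 0x3803cc01ec000000000000000000000000000000000000000) := T_26 (nat_lit 178) (nat_lit 161) (nat_lit 5) (nat_lit 8) (nat_lit 7) L8164 (by decide +kernel)
theorem L8166 : W_26 (nat_lit 11) (nat_lit 0x4000300000001000080000000000000000000000000000000) (nat_lit 0x0) (nat_lit 0x70003c0076003b803cc01ec000000000000000000000000000000000000000) := Q_26 (nat_lit 195) (C_26 L5377 (C_26 L8158 (C_26 L5316 (C_26 L8165 N_26)))) (by decide +kernel)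
theorem L8177 : W_26 (nat_lit 8) (nat_lit 0xc000380000001000080000000000000000000000000000000) (nat_lit 0x0) (nat_lit 0x2000100003803c001f0000800000000000000000000000000000000000) := T_26 (nat_lit 178) (nat_lit 161) (nat_lit 5) (nat_lit 8) (nat_lit 7) L8176 (by decide +kernel)
theorem L8178 : W_26 (nat_lit 9) (nat_lit 0xc000300000001000080000000000000000000000000000000) (nat_lit 0x0) (nat_lit 0x2000100003803cc01f0000800000000000000000000000000000000000) := T_26 (nat_lit 175) (nat_lit 174) (nat_lit 3) (nat_lit 4) (nat_lit 10) L8177 (by decide +kernel)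
theorem L8179 : W_26 (nat_lit 11) (nat_lit 0x4000300000001000080000000000000000000000000000000) (nat_lit 0x0) (nat_lit 0x70003c0076003b803cc01f0000800000000000000000000000000000000000) := Q_26 (nat_lit 195) (C_26 L8158 (C_26 L5377 (C_26 L5316 (C_26 L8178 N_26)))) (by decide +kernel)
theorem L8180 : W_26 (nat_lit 2) (nat_lit 0x4001f000480010000a0000000000000000000000000000000) (nat_lit 0x0) (nat_lit 0x70000000000000000000000000000000000000000000000000) := D_26 (nat_lit 197) (nat_lit 196) (nat_lit 198) (nat_lit 3) (nat_lit 6) (nat_lit 10) (nat_lit 3) (nat_lit 7) (nat_lit 10) (by decide +kernel)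
theorem L8181 : W_26 (nat_lit 3) (nat_lit 0x4000f000480010000a0000000000000000000000000000000) (nat_lit 0x0) (nat_lit 0x70001000010000000000000000000000000000000000000000) := T_26 (nat_lit 180) (nat_lit 160) (nat_lit 0) (nat_lit 10) (nat_lit 10) L8180 (by decide +kernel)
theorem L8182 : W_26 (nat_lit 4) (nat_lit 0x4000f00048001000080000000000000000000000000000000) (nat_lit 0x0) (nat_lit 0x70001000010000400020000000000000000000000000000000) := T_26 (nat_lit 125) (nat_lit 142) (nat_lit 7) (nat_lit 6) (nat_lit 7) L8181 (by decide +kernel)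
theorem L8183 : W_26 (nat_lit 5) (nat_lit 0x4000f00008001000080000000000000000000000000000000) (nat_lit 0x0) (nat_lit 0x700010000d0000400020000000000000000000000000000000) := T_26 (nat_lit 162) (nat_lit 163) (nat_lit 2) (nat_lit 6) (nat_lit 10) L8182 (by decide +kernel)
theorem L8184 : W_26 (nat_lit 6) (nat_lit 0x4000f00000001000080000000000000000000000000000000) (nat_lit 0x0) (nat_lit 0x700010000dc000400020000000000000000000000000000000) := T_26 (nat_lit 159) (nat_lit 158) (nat_lit 0) (nat_lit 9) (nat_lit 10) L8183 (by decide +kernel)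
theorem L8186 : W_26 (nat_lit 7) (nat_lit 0x4000700000001000080000000000000000000000000000000) (nat_lit 0x0) (nat_lit 0x7b8018800dc000400020000000000000000000000000000000) := Q_26 (nat_lit 179) (C_26 L8184 (C_26 L8185 (C_26 L5538 N_26))) (by decide +kernel)
theorem L8187 : W_26 (nat_lit 2) (nat_lit 0x200024001e000f000580010000a0000000000000000000000000000000) (nat_lit 0x0) (nat_lit 0xc0004000000000000000000000000000000000000000000000000000000000) := D_26 (nat_lit 230) (nat_lit 247) (nat_lit 246) (nat_lit 4) (nat_lit 9) (nat_lit 14) (nat_lit 5) (nat_lit 9) (nat_lit 10) (by decide +kernel)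
theorem L8188 : W_26 (nat_lit 3) (nat_lit 0x200004001e000f000580010000a0000000000000000000000000000000) (nat_lit 0x0) (nat_lit 0xc0004000600000000000000000000000000000000000000000000000000000) := T_26 (nat_lit 213) (nat_lit 214) (nat_lit 3) (nat_lit 6) (nat_lit 11) L8187 (by decide +kernel)
theorem L8189 : W_26 (nat_lit 4) (nat_lit 0x200004001e000f00058001000080000000000000000000000000000000) (nat_lit 0x0) (nat_lit 0xc0004000600000000000000000400020000000000000000000000000000000) := T_26 (nat_lit 125) (nat_lit 142) (nat_lit 7) (nat_lit 6) (nat_lit 7) L8188 (by decide +kernel)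
theorem L8190 : W_26 (nat_lit 5) (nat_lit 0x4001e000f00058001000080000000000000000000000000000000) (nat_lit 0x0) (nat_lit 0xc0006000700000000000000000400020000000000000000000000000000000) := T_26 (nat_lit 229) (nat_lit 212) (nat_lit 6) (nat_lit 8) (nat_lit 13) L8189 (by decide +kernel)
theorem L8191 : W_26 (nat_lit 6) (nat_lit 0x4001e000f00050001000080000000000000000000000000000000) (nat_lit 0x0) (nat_lit 0xc000600070000000000000c000400020000000000000000000000000000000) := T_26 (nat_lit 159) (nat_lit 158) (nat_lit 0) (nat_lit 9) (nat_lit 10) L8190 (by decide +kernel)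
theorem L8192 : W_26 (nat_lit 7) (nat_lit 0x40016000f00050001000080000000000000000000000000000000) (nat_lit 0x0) (nat_lit 0xc000600072000800000000c000400020000000000000000000000000000000) := T_26 (nat_lit 195) (nat_lit 209) (nat_lit 1) (nat_lit 9) (nat_lit 11) L8191 (by decide +kernel)
theorem L8193 : W_26 (nat_lit 8) (nat_lit 0x40006000f00050001000080000000000000000000000000000000) (nat_lit 0x0) (nat_lit 0xc000600072003800000000c000400020000000000000000000000000000000) := T_26 (nat_lit 196) (nat_lit 197) (nat_lit 3) (nat_lit 6) (nat_lit 10) L8192 (by decide +kernel)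
theorem L8194 : W_26 (nat_lit 9) (nat_lit 0x6000f00050001000080000000000000000000000000000000) (nat_lit 0x0) (nat_lit 0xc000680076003800000000c000400020000000000000000000000000000000) := T_26 (nat_lit 210) (nat_lit 227) (nat_lit 6) (nat_lit 6) (nat_lit 13) L8193 (by decide +kernel)
theorem L8195 : W_26 (nat_lit 10) (nat_lit 0x6000f00010001000080000000000000000000000000000000) (nat_lit 0x0) (nat_lit 0xc00068007600380000000cc000400020000000000000000000000000000000) := T_26 (nat_lit 162) (nat_lit 163) (nat_lit 2) (nat_lit 6) (nat_lit 10) L8194 (by decide +kernel)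
theorem L8196 : W_26 (nat_lit 11) (nat_lit 0x4000f00010001000080000000000000000000000000000000) (nat_lit 0x0) (nat_lit 0xc000680076003b0000000cc000400020000000000000000000000000000000) := T_26 (nat_lit 193) (nat_lit 192) (nat_lit 1) (nat_lit 9) (nat_lit 10) L8195 (by decide +kernel)
theorem L8197 : W_26 (nat_lit 12) (nat_lit 0x4000f00000001000080000000000000000000000000000000) (nat_lit 0x0) (nat_lit 0xc000680076003b0000000dc000c00020000000000000000000000000000000) := T_26 (nat_lit 160) (nat_lit 143) (nat_lit 6) (nat_lit 7) (nat_lit 11) L8196 (by decide +kernel)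
theorem L8198 : W_26 (nat_lit 13) (nat_lit 0x4000700000001000080000000000000000000000000000000) (nat_lit 0x0) (nat_lit 0xc000680076007b0018000dc000c00020000000000000000000000000000000) := Q_26 (nat_lit 179) (C_26 L8184 (C_26 L8185 (C_26 L8197 N_26))) (by decide +kernel)
theorem L8199 : W_26 (nat_lit 2) (nat_lit 0x4001f000880010000a0000000000000000000000000000000) (nat_lit 0x0) (nat_lit 0x70000000000000000000000000000000000000000000000000) := D_26 (nat_lit 197) (nat_lit 196) (nat_lit 198) (nat_lit 3) (nat_lit 6) (nat_lit 10) (nat_lit 3) (nat_lit 7) (nat_lit 10) (by decide +kernel)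
theorem L8200 : W_26 (nat_lit 3) (nat_lit 0x4000f000880010000a0000000000000000000000000000000) (nat_lit 0x0) (nat_lit 0x70001000100000000000000000000000000000000000000000) := T_26 (nat_lit 180) (nat_lit 164) (nat_lit 2) (nat_lit 7) (nat_lit 10) L8199 (by decide +kernel)
theorem L8201 : W_26 (nat_lit 4) (nat_lit 0x4000f00088001000080000000000000000000000000000000) (nat_lit 0x0) (nat_lit 0x70001000100000400020000000000000000000000000000000) := T_26 (nat_lit 125) (nat_lit 142) (nat_lit 7) (nat_lit 6) (nat_lit 7) L8200 (by decide +kernel)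
theorem L8202 : W_26 (nat_lit 5) (nat_lit 0x4000f00008001000080000000000000000000000000000000) (nat_lit 0x0) (nat_lit 0x700010001c0000400020000000000000000000000000000000) := T_26 (nat_lit 163) (nat_lit 162) (nat_lit 2) (nat_lit 6) (nat_lit 10) L8201 (by decide +kernel)
theorem L8203 : W_26 (nat_lit 6) (nat_lit 0x4000f00000001000080000000000000000000000000000000) (nat_lit 0x0) (nat_lit 0x700010001cc000400020000000000000000000000000000000) := T_26 (nat_lit 159) (nat_lit 158) (nat_lit 0) (nat_lit 9) (nat_lit 10) L8202 (by decide +kernel)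
theorem L8204 : W_26 (nat_lit 7) (nat_lit 0x4000700000001000080000000000000000000000000000000) (nat_lit 0x0) (nat_lit 0x7b8018801cc000400020000000000000000000000000000000) := Q_26 (nat_lit 179) (C_26 L8203 (C_26 L5538 (C_26 L8185 N_26))) (by decide +kernel)
theorem L8205 : W_26 (nat_lit 2) (nat_lit 0x1c000f00090001000080000000000000000000000000000000) (nat_lit 0x0) (nat_lit 0x3000100000000000000000000000000000000000000000) := D_26 (nat_lit 180) (nat_lit 164) (nat_lit 181) (nat_lit 2) (nat_lit 7) (nat_lit 10) (nat_lit 1) (nat_lit 11) (nat_lit 10) (by decide +kernel)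
theorem L8206 : W_26 (nat_lit 3) (nat_lit 0x14000f00090001000080000000000000000000000000000000) (nat_lit 0x0) (nat_lit 0x8003080100000000000000000000000000000000000000000) := T_26 (nat_lit 195) (nat_lit 175) (nat_lit 3) (nat_lit 5) (nat_lit 10) L8205 (by decide +kernel)
theorem L8207 : W_26 (nat_lit 4) (nat_lit 0x4000f00090001000080000000000000000000000000000000) (nat_lit 0x0) (nat_lit 0x38003080100000000000000000000000000000000000000000) := T_26 (nat_lit 196) (nat_lit 197) (nat_lit 3) (nat_lit 6) (nat_lit 10) L8206 (by decide +kernel)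
theorem L8208 : W_26 (nat_lit 5) (nat_lit 0x4000f00010001000080000000000000000000000000000000) (nat_lit 0x0) (nat_lit 0x380030801c0000000000000000000000000000000000000000) := T_26 (nat_lit 163) (nat_lit 162) (nat_lit 2) (nat_lit 6) (nat_lit 10) L8207 (by decide +kernel)
theorem L8209 : W_26 (nat_lit 6) (nat_lit 0x4000f00000001000080000000000000000000000000000000) (nat_lit 0x0) (nat_lit 0x380030801d0000800000000000000000000000000000000000) := T_26 (nat_lit 160) (nat_lit 143) (nat_lit 6) (nat_lit 7) (nat_lit 11) L8208 (by decide +kernel)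
theorem L8210 : W_26 (nat_lit 2) (nat_lit 0x4000f00050001000080000000000000000000000000000000) (nat_lit 0x0) (nat_lit 0x100000c000000000000000000000000000000000000000) := D_26 (nat_lit 159) (nat_lit 180) (nat_lit 158) (nat_lit 0) (nat_lit 10) (nat_lit 10) (nat_lit 0) (nat_lit 9) (nat_lit 10) (by decide +kernel)
theorem L8211 : W_26 (nat_lit 3) (nat_lit 0x4000f00040001000080000000000000000000000000000000) (nat_lit 0x0) (nat_lit 0x100001c000800000000000000000000000000000000000) := T_26 (nat_lit 160) (nat_lit 143) (nat_lit 6) (nat_lit 7) (nat_lit 11) L8210 (by decide +kernel)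
theorem L8212 : W_26 (nat_lit 4) (nat_lit 0x4000f00000001000080000000000000000000000000000000) (nat_lit 0x0) (nat_lit 0x10000dc000800000000000000000000000000000000000) := T_26 (nat_lit 162) (nat_lit 163) (nat_lit 2) (nat_lit 6) (nat_lit 10) L8211 (by decide +kernel)
theorem L8213 : W_26 (nat_lit 2) (nat_lit 0x400000015000f80048001f00080000000000000000000000000000000) (nat_lit 0x0) (nat_lit 0x1c000000000000000000000000000000) := D_26 (nat_lit 123) (nat_lit 122) (nat_lit 124) (nat_lit 0) (nat_lit 7) (nat_lit 8) (nat_lit 0) (nat_lit 8) (nat_lit 8) (by decide +kernel)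
theorem L8214 : W_26 (nat_lit 3) (nat_lit 0x400000015000f80048001e00080000000000000000000000000000000) (nat_lit 0x0) (nat_lit 0x10005c000000000000000000000000000000) := T_26 (nat_lit 140) (nat_lit 126) (nat_lit 2) (nat_lit 4) (nat_lit 8) L8213 (by decide +kernel)
theorem L8215 : W_26 (nat_lit 4) (nat_lit 0x400000015000f80048001c00080000000000000000000000000000000) (nat_lit 0x0) (nat_lit 0x30015c000000000000000000000000000000) := T_26 (nat_lit 141) (nat_lit 128) (nat_lit 2) (nat_lit 5) (nat_lit 8) L8214 (by decide +kernel)
theorem L8216 : W_26 (nat_lit 5) (nat_lit 0x400000015000f80048001400080000000000000000000000000000000) (nat_lit 0x0) (nat_lit 0x10000b0015c000000000000000000000000000000) := T_26 (nat_lit 143) (nat_lit 160) (nat_lit 6) (nat_lit 7) (nat_lit 11) L8215 (by decide +kernel)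
theorem L8217 : W_26 (nat_lit 6) (nat_lit 0x400000015000f80008001400080000000000000000000000000000000) (nat_lit 0x0) (nat_lit 0xd0000b0015c000000000000000000000000000000) := T_26 (nat_lit 162) (nat_lit 163) (nat_lit 2) (nat_lit 6) (nat_lit 10) L8216 (by decide +kernel)
theorem L8218 : W_26 (nat_lit 7) (nat_lit 0x15000f80008001400080000000000000000000000000000000) (nat_lit 0x0) (nat_lit 0x4000200000000000d0000b0015c000000000000000000000000000000) := T_26 (nat_lit 226) (nat_lit 209) (nat_lit 6) (nat_lit 5) (nat_lit 13) L8217 (by decide +kernel)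
theorem L8219 : W_26 (nat_lit 8) (nat_lit 0x15000f80008001000080000000000000000000000000000000) (nat_lit 0x0) (nat_lit 0x4000200000000000d0000f0017c000000000000000000000000000000) := T_26 (nat_lit 142) (nat_lit 125) (nat_lit 7) (nat_lit 6) (nat_lit 7) L8218 (by decide +kernel)
theorem L8220 : W_26 (nat_lit 9) (nat_lit 0x14000f80008001000080000000000000000000000000000000) (nat_lit 0x0) (nat_lit 0x4000200018000000d0000f0017c000000000000000000000000000000) := T_26 (nat_lit 192) (nat_lit 191) (nat_lit 1) (nat_lit 8) (nat_lit 10) L8219 (by decide +kernel)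
theorem L8221 : W_26 (nat_lit 10) (nat_lit 0x14000f00008001000080000000000000000000000000000000) (nat_lit 0x0) (nat_lit 0x4000200098000800d0000f0017c000000000000000000000000000000) := T_26 (nat_lit 175) (nat_lit 195) (nat_lit 3) (nat_lit 5) (nat_lit 10) L8220 (by decide +kernel)
theorem L8222 : W_26 (nat_lit 11) (nat_lit 0x4000f00008001000080000000000000000000000000000000) (nat_lit 0x0) (nat_lit 0x4000200398000800d0000f0017c000000000000000000000000000000) := T_26 (nat_lit 196) (nat_lit 197) (nat_lit 3) (nat_lit 6) (nat_lit 10) L8221 (by decide +kernel)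
theorem L8223 : W_26 (nat_lit 12) (nat_lit 0x4000f00000001000080000000000000000000000000000000) (nat_lit 0x0) (nat_lit 0x4000200398000800dc000f0017c000000000000000000000000000000) := T_26 (nat_lit 159) (nat_lit 158) (nat_lit 0) (nat_lit 9) (nat_lit 10) L8222 (by decide +kernel)
theorem L8224 : W_26 (nat_lit 2) (nat_lit 0x4000f00010001000080000000000000000000000000000000) (nat_lit 0x0) (nat_lit 0x100000c000000000000000000000000000000000000000) := D_26 (nat_lit 159) (nat_lit 180) (nat_lit 158) (nat_lit 0) (nat_lit 10) (nat_lit 10) (nat_lit 0) (nat_lit 9) (nat_lit 10) (by decide +kernel)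
theorem L8225 : W_26 (nat_lit 3) (nat_lit 0x4000f00000001000080000000000000000000000000000000) (nat_lit 0x0) (nat_lit 0x100001c000800000000000000000000000000000000000) := T_26 (nat_lit 160) (nat_lit 143) (nat_lit 6) (nat_lit 7) (nat_lit 11) L8224 (by decide +kernel)
theorem L8226 : W_26 (nat_lit 13) (nat_lit 0x4000700000001000080000000000000000000000000000000) (nat_lit 0x0) (nat_lit 0x4000200798038801dc000f0017c000000000000000000000000000000) := Q_26 (nat_lit 179) (C_26 L8203 (C_26 L8209 (C_26 L8212 (C_26 L8223 (C_26 L8225 N_26))))) (by decide +kernel)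
theorem L8227 : W_26 (nat_lit 2) (nat_lit 0x16000f80048001c00080000000000000000000000000000000) (nat_lit 0x0) (nat_lit 0x200110000000000000000000000000000000) := D_26 (nat_lit 141) (nat_lit 124) (nat_lit 128) (nat_lit 4) (nat_lit 6) (nat_lit 11) (nat_lit 2) (nat_lit 5) (nat_lit 8) (by decide +kernel)
theorem L8228 : W_26 (nat_lit 3) (nat_lit 0x14000f80048001c00080000000000000000000000000000000) (nat_lit 0x0) (nat_lit 0x2000000000000200150000000000000000000000000000000) := T_26 (nat_lit 193) (nat_lit 126) (nat_lit 6) (nat_lit 6) (nat_lit 11) L8227 (by decide +kernel)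
theorem L8229 : W_26 (nat_lit 4) (nat_lit 0x14000f80048001400080000000000000000000000000000000) (nat_lit 0x0) (nat_lit 0x2000000010000a00150000000000000000000000000000000) := T_26 (nat_lit 143) (nat_lit 160) (nat_lit 6) (nat_lit 7) (nat_lit 11) L8228 (by decide +kernel)
theorem L8230 : W_26 (nat_lit 5) (nat_lit 0x14000f00048001400080000000000000000000000000000000) (nat_lit 0x0) (nat_lit 0xa000080010000a00150000000000000000000000000000000) := T_26 (nat_lit 175) (nat_lit 195) (nat_lit 3) (nat_lit 5) (nat_lit 10) L8229 (by decide +kernel)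
theorem L8231 : W_26 (nat_lit 6) (nat_lit 0x4000f00048001400080000000000000000000000000000000) (nat_lit 0x0) (nat_lit 0x3a000080010000a00150000000000000000000000000000000) := T_26 (nat_lit 196) (nat_lit 197) (nat_lit 3) (nat_lit 6) (nat_lit 10) L8230 (by decide +kernel)
theorem L8232 : W_26 (nat_lit 7) (nat_lit 0x4000f00048001000080000000000000000000000000000000) (nat_lit 0x0) (nat_lit 0x3a000080010000e00170000000000000000000000000000000) := T_26 (nat_lit 142) (nat_lit 125) (nat_lit 7) (nat_lit 6) (nat_lit 7) L8231 (by decide +kernel)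
theorem L8233 : W_26 (nat_lit 8) (nat_lit 0x4000f00008001000080000000000000000000000000000000) (nat_lit 0x0) (nat_lit 0x3a0000800d0000e00170000000000000000000000000000000) := T_26 (nat_lit 162) (nat_lit 163) (nat_lit 2) (nat_lit 6) (nat_lit 10) L8232 (by decide +kernel)
theorem L8234 : W_26 (nat_lit 9) (nat_lit 0x4000f00000001000080000000000000000000000000000000) (nat_lit 0x0) (nat_lit 0x3a0000800dc000e00170000000000000000000000000000000) := T_26 (nat_lit 159) (nat_lit 158) (nat_lit 0) (nat_lit 9) (nat_lit 10) L8233 (by decide +kernel)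
theorem L8235 : W_26 (nat_lit 10) (nat_lit 0x4000700000001000080000000000000000000000000000000) (nat_lit 0x0) (nat_lit 0x7a0038801dc000e00170000000000000000000000000000000) := Q_26 (nat_lit 179) (C_26 L8225 (C_26 L8203 (C_26 L8209 (C_26 L8234 N_26)))) (by decide +kernel)
theorem L8236 : W_26 (nat_lit 2) (nat_lit 0x6000f00008001400080000000000000000000000000000000) (nat_lit 0x0) (nat_lit 0x10000800040000000000000000000000000000000) := D_26 (nat_lit 143) (nat_lit 160) (nat_lit 126) (nat_lit 6) (nat_lit 7) (nat_lit 11) (nat_lit 6) (nat_lit 6) (nat_lit 11) (by decide +kernel)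
theorem L8237 : W_26 (nat_lit 3) (nat_lit 0x6000f00008001000080000000000000000000000000000000) (nat_lit 0x0) (nat_lit 0x10000c00060000000000000000000000000000000) := T_26 (nat_lit 142) (nat_lit 125) (nat_lit 7) (nat_lit 6) (nat_lit 7) L8236 (by decide +kernel)
theorem L8238 : W_26 (nat_lit 4) (nat_lit 0x4000f00008001000080000000000000000000000000000000) (nat_lit 0x0) (nat_lit 0x3000000010000c00060000000000000000000000000000000) := T_26 (nat_lit 193) (nat_lit 192) (nat_lit 1) (nat_lit 9) (nat_lit 10) L8237 (by decide +kernel)
theorem L8239 : W_26 (nat_lit 5) (nat_lit 0x4000f00000001000080000000000000000000000000000000) (nat_lit 0x0) (nat_lit 0x300000001c000c00060000000000000000000000000000000) := T_26 (nat_lit 159) (nat_lit 158) (nat_lit 0) (nat_lit 9) (nat_lit 10) L8238 (by decide +kernel)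
theorem L8240 : W_26 (nat_lit 7) (nat_lit 0x4000700000001000080000000000000000000000000000000) (nat_lit 0x0) (nat_lit 0x730018001dc000c00060000000000000000000000000000000) := Q_26 (nat_lit 179) (C_26 L8225 (C_26 L8203 (C_26 L8185 (C_26 L8239 N_26)))) (by decide +kernel)
theorem L8241 : W_26 (nat_lit 7) (nat_lit 0x4000700000001000080000000000000000000000000000000) (nat_lit 0x0) (nat_lit 0x3b8038801d0000800000000000000000000000000000000000) := Q_26 (nat_lit 179) (C_26 L8209 (C_26 L5538 (C_26 L8185 N_26))) (by decide +kernel)
theorem L8243 : W_26 (nat_lit 6) (nat_lit 0x4000700000001000080000000000000000000000000000000) (nat_lit 0x0) (nat_lit 0x300180001c000c00060000000000000000000000000000000) := Q_26 (nat_lit 179) (C_26 L8225 (C_26 L8239 (C_26 L8185 N_26))) (by decide +kernel)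
theorem L8245 : W_26 (nat_lit 2) (nat_lit 0x48007c0010001000080000000000000000000000000000000) (nat_lit 0x0) (nat_lit 0x2000020008000000000000000000000000000000000000000) := D_26 (nat_lit 173) (nat_lit 159) (nat_lit 193) (nat_lit 2) (nat_lit 3) (nat_lit 10) (nat_lit 3) (nat_lit 3) (nat_lit 10) (by decide +kernel)
theorem L8246 : W_26 (nat_lit 3) (nat_lit 0x4800780010001000080000000000000000000000000000000) (nat_lit 0x0) (nat_lit 0x2400060008000000000000000000000000000000000000000) := T_26 (nat_lit 174) (nat_lit 190) (nat_lit 1) (nat_lit 7) (nat_lit 10) L8245 (by decide +kernel)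
theorem L8247 : W_26 (nat_lit 4) (nat_lit 0x4000780010001000080000000000000000000000000000000) (nat_lit 0x0) (nat_lit 0x3c00060008000000000000000000000000000000000000000) := T_26 (nat_lit 191) (nat_lit 192) (nat_lit 1) (nat_lit 8) (nat_lit 10) L8246 (by decide +kernel)
theorem L8248 : W_26 (nat_lit 5) (nat_lit 0x4000780000001000080000000000000000000000000000000) (nat_lit 0x0) (nat_lit 0x3c00060018000800000000000000000000000000000000000) := T_26 (nat_lit 160) (nat_lit 143) (nat_lit 6) (nat_lit 7) (nat_lit 11) L8247 (by decide +kernel)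
theorem L8251 : W_26 (nat_lit 4) (nat_lit 0x10000d000780010001000080000000000000000000000000000000) (nat_lit 0x0) (nat_lit 0x400230002000000008000400000000000000000000000000000000000) := T_26 (nat_lit 193) (nat_lit 213) (nat_lit 3) (nat_lit 5) (nat_lit 11) L8250 (by decide +kernel)
theorem L8252 : W_26 (nat_lit 5) (nat_lit 0xd000780010001000080000000000000000000000000000000) (nat_lit 0x0) (nat_lit 0x2400330002000000008000400000000000000000000000000000000000) := T_26 (nat_lit 212) (nat_lit 229) (nat_lit 4) (nat_lit 8) (nat_lit 13) L8251 (by decide +kernel)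
theorem L8253 : W_26 (nat_lit 6) (nat_lit 0xd000780000001000080000000000000000000000000000000) (nat_lit 0x0) (nat_lit 0x2400330002000000018000c00000000000000000000000000000000000) := T_26 (nat_lit 160) (nat_lit 143) (nat_lit 6) (nat_lit 7) (nat_lit 11) L8252 (by decide +kernel)
theorem L8254 : W_26 (nat_lit 7) (nat_lit 0x5000780000001000080000000000000000000000000000000) (nat_lit 0x0) (nat_lit 0x240033001a000000018000c00000000000000000000000000000000000) := T_26 (nat_lit 195) (nat_lit 196) (nat_lit 3) (nat_lit 5) (nat_lit 10) L8253 (by decide +kernel)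
theorem L8255 : W_26 (nat_lit 8) (nat_lit 0x4000780000001000080000000000000000000000000000000) (nat_lit 0x0) (nat_lit 0x240033001b800000018000c00000000000000000000000000000000000) := T_26 (nat_lit 192) (nat_lit 191) (nat_lit 1) (nat_lit 8) (nat_lit 10) L8254 (by decide +kernel)
theorem L8256 : W_26 (nat_lit 9) (nat_lit 0x4000700000001000080000000000000000000000000000000) (nat_lit 0x0) (nat_lit 0x240033001bc000e0018000c00000000000000000000000000000000000) := Q_26 (nat_lit 175) (C_26 L8244 (C_26 L8248 (C_26 L8255 N_26))) (by decide +kernel)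
theorem L8257 : W_26 (nat_lit 14) (nat_lit 0x4000300000001000080000000000000000000000000000000) (nat_lit 0x0) (nat_lit 0xc0006c0077007bc03ce01dc000f0017c000000000000000000000000000000) := Q_26 (nat_lit 178) (C_26 L8186 (C_26 L8198 (C_26 L8204 (C_26 L8226 (C_26 L8235 (C_26 L8240 (C_26 L8241 (C_26 L8243 (C_26 L8256 N_26))))))))) (by decide +kernel)
theorem L8258 : W_26 (nat_lit 3) (nat_lit 0x6000300000001000080000000000000000000000000000000) (nat_lit 0x0) (nat_lit 0x1001c00020000000000000000000000000000000000000000) := T_26 (nat_lit 178) (nat_lit 161) (nat_lit 5) (nat_lit 8) (nat_lit 7) L8242 (by decide +kernel)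
theorem L8259 : W_26 (nat_lit 2) (nat_lit 0x800000007400300018001700080000000000000000000000000000000) (nat_lit 0x0) (nat_lit 0x64000000000000000000000000000000000000000) := D_26 (nat_lit 161) (nat_lit 162) (nat_lit 158) (nat_lit 0) (nat_lit 9) (nat_lit 9) (nat_lit 0) (nat_lit 8) (nat_lit 9) (by decide +kernel)
theorem L8260 : W_26 (nat_lit 3) (nat_lit 0x800000007400300018001600080000000000000000000000000000000) (nat_lit 0x0) (nat_lit 0x64000180000000000000000000000000000000000) := T_26 (nat_lit 140) (nat_lit 139) (nat_lit 3) (nat_lit 3) (nat_lit 8) L8259 (by decide +kernel)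
theorem L8261 : W_26 (nat_lit 4) (nat_lit 0x800000007400300018001400080000000000000000000000000000000) (nat_lit 0x0) (nat_lit 0x64000380010000000000000000000000000000000) := T_26 (nat_lit 141) (nat_lit 124) (nat_lit 4) (nat_lit 6) (nat_lit 11) L8260 (by decide +kernel)
theorem L8262 : W_26 (nat_lit 5) (nat_lit 0x800000007000300018001400080000000000000000000000000000000) (nat_lit 0x0) (nat_lit 0xc00000064000380010000000000000000000000000000000) := T_26 (nat_lit 190) (nat_lit 191) (nat_lit 2) (nat_lit 3) (nat_lit 11) L8261 (by decide +kernel)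
theorem L8263 : W_26 (nat_lit 6) (nat_lit 0x800000006000300018001400080000000000000000000000000000000) (nat_lit 0x0) (nat_lit 0x20001c00000064000380010000000000000000000000000000000) := T_26 (nat_lit 192) (nat_lit 209) (nat_lit 5) (nat_lit 6) (nat_lit 8) L8262 (by decide +kernel)
theorem L8264 : W_26 (nat_lit 7) (nat_lit 0x800000006000300010001400080000000000000000000000000000000) (nat_lit 0x0) (nat_lit 0x20001c0000006c000380030000000000000000000000000000000) := T_26 (nat_lit 159) (nat_lit 125) (nat_lit 7) (nat_lit 6) (nat_lit 7) L8263 (by decide +kernel)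
theorem L8265 : W_26 (nat_lit 8) (nat_lit 0x6000300010001400080000000000000000000000000000000) (nat_lit 0x0) (nat_lit 0x800060001c0000006c000380030000000000000000000000000000000) := T_26 (nat_lit 227) (nat_lit 210) (nat_lit 6) (nat_lit 6) (nat_lit 13) L8264 (by decide +kernel)
theorem L8266 : W_26 (nat_lit 9) (nat_lit 0x6000300000001400080000000000000000000000000000000) (nat_lit 0x0) (nat_lit 0x800060001c0000007c000b80030000000000000000000000000000000) := T_26 (nat_lit 160) (nat_lit 143) (nat_lit 6) (nat_lit 7) (nat_lit 11) L8265 (by decide +kernel)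
theorem L8269 : W_26 (nat_lit 4) (nat_lit 0x6000300000001400080000000000000000000000000000000) (nat_lit 0x0) (nat_lit 0x8000a00170000000000000000000000000000000) := T_26 (nat_lit 159) (nat_lit 125) (nat_lit 7) (nat_lit 6) (nat_lit 7) L8268 (by decide +kernel)
theorem L8275 : W_26 (nat_lit 7) (nat_lit 0x6000300000001400080000000000000000000000000000000) (nat_lit 0x0) (nat_lit 0x10000800060001c0000001c000200030000000000000000000000000000000) := T_26 (nat_lit 159) (nat_lit 125) (nat_lit 7) (nat_lit 6) (nat_lit 7) L8274 (by decide +kernel)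
theorem L8276 : W_26 (nat_lit 2) (nat_lit 0x6000300000001f00080000000000000000000000000000000) (nat_lit 0x0) (nat_lit 0x1c000000000000000000000000000000) := D_26 (nat_lit 123) (nat_lit 122) (nat_lit 124) (nat_lit 0) (nat_lit 7) (nat_lit 8) (nat_lit 0) (nat_lit 8) (nat_lit 8) (by decide +kernel)
theorem L8277 : W_26 (nat_lit 3) (nat_lit 0x6000300000001e00080000000000000000000000000000000) (nat_lit 0x0) (nat_lit 0x10005c000000000000000000000000000000) := T_26 (nat_lit 140) (nat_lit 126) (nat_lit 2) (nat_lit 4) (nat_lit 8) L8276 (by decide +kernel)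
theorem L8278 : W_26 (nat_lit 4) (nat_lit 0x6000300000001c00080000000000000000000000000000000) (nat_lit 0x0) (nat_lit 0x30015c000000000000000000000000000000) := T_26 (nat_lit 141) (nat_lit 128) (nat_lit 2) (nat_lit 5) (nat_lit 8) L8277 (by decide +kernel)
theorem L8279 : W_26 (nat_lit 5) (nat_lit 0x6000300000001400080000000000000000000000000000000) (nat_lit 0x0) (nat_lit 0x10000b0015c000000000000000000000000000000) := T_26 (nat_lit 143) (nat_lit 160) (nat_lit 6) (nat_lit 7) (nat_lit 11) L8278 (by decide +kernel)
theorem L8280 : W_26 (nat_lit 2) (nat_lit 0x40006000300018001400080000000000000000000000000000000) (nat_lit 0x0) (nat_lit 0x400020001000000000000000000000000000000000000000000000000) := D_26 (nat_lit 209) (nat_lit 226) (nat_lit 192) (nat_lit 5) (nat_lit 6) (nat_lit 9) (nat_lit 5) (nat_lit 6) (nat_lit 8) (by decide +kernel)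
theorem L8281 : W_26 (nat_lit 3) (nat_lit 0x40006000300010001400080000000000000000000000000000000) (nat_lit 0x0) (nat_lit 0x400020001000000008000000020000000000000000000000000000000) := T_26 (nat_lit 159) (nat_lit 125) (nat_lit 7) (nat_lit 6) (nat_lit 7) L8280 (by decide +kernel)
theorem L8282 : W_26 (nat_lit 4) (nat_lit 0x6000300010001400080000000000000000000000000000000) (nat_lit 0x0) (nat_lit 0xc00060001000000008000000020000000000000000000000000000000) := T_26 (nat_lit 210) (nat_lit 227) (nat_lit 6) (nat_lit 6) (nat_lit 13) L8281 (by decide +kernel)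
theorem L8283 : W_26 (nat_lit 5) (nat_lit 0x6000300000001400080000000000000000000000000000000) (nat_lit 0x0) (nat_lit 0xc00060001000000018000800020000000000000000000000000000000) := T_26 (nat_lit 160) (nat_lit 143) (nat_lit 6) (nat_lit 7) (nat_lit 11) L8282 (by decide +kernel)
theorem L8284 : W_26 (nat_lit 10) (nat_lit 0x6000300000001000080000000000000000000000000000000) (nat_lit 0x0) (nat_lit 0x10000c00060001c0000007c000f8017c000000000000000000000000000000) := Q_26 (nat_lit 142) (C_26 L8266 (C_26 L8269 (C_26 L8275 (C_26 L8279 (C_26 L8283 N_26))))) (by decide +kernel)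
theorem L8285 : W_26 (nat_lit 7) (nat_lit 0x4001e000f00010001000080000000000000000000000000000000) (nat_lit 0x0) (nat_lit 0xc00060007000000000000cc000400020000000000000000000000000000000) := T_26 (nat_lit 162) (nat_lit 163) (nat_lit 2) (nat_lit 6) (nat_lit 10) L8191 (by decide +kernel)
theorem L8286 : W_26 (nat_lit 8) (nat_lit 0x40016000f00010001000080000000000000000000000000000000) (nat_lit 0x0) (nat_lit 0xc00060007200080000000cc000400020000000000000000000000000000000) := T_26 (nat_lit 195) (nat_lit 209) (nat_lit 1) (nat_lit 9) (nat_lit 11) L8285 (by decide +kernel)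
theorem L8287 : W_26 (nat_lit 9) (nat_lit 0x40006000f00010001000080000000000000000000000000000000) (nat_lit 0x0) (nat_lit 0xc00060007200380000000cc000400020000000000000000000000000000000) := T_26 (nat_lit 196) (nat_lit 197) (nat_lit 3) (nat_lit 6) (nat_lit 10) L8286 (by decide +kernel)
theorem L8288 : W_26 (nat_lit 10) (nat_lit 0x40006000700010001000080000000000000000000000000000000) (nat_lit 0x0) (nat_lit 0xc00060007200380018000cc000400020000000000000000000000000000000) := T_26 (nat_lit 179) (nat_lit 180) (nat_lit 1) (nat_lit 10) (nat_lit 10) L8287 (by decide +kernel)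
theorem L8289 : W_26 (nat_lit 11) (nat_lit 0x40006000300010001000080000000000000000000000000000000) (nat_lit 0x0) (nat_lit 0xc0006000720038001c000ec000400020000000000000000000000000000000) := T_26 (nat_lit 178) (nat_lit 161) (nat_lit 5) (nat_lit 8) (nat_lit 7) L8288 (by decide +kernel)
theorem L8290 : W_26 (nat_lit 12) (nat_lit 0x6000300010001000080000000000000000000000000000000) (nat_lit 0x0) (nat_lit 0xc0006800760038001c000ec000400020000000000000000000000000000000) := T_26 (nat_lit 210) (nat_lit 227) (nat_lit 6) (nat_lit 6) (nat_lit 13) L8289 (by decide +kernel)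
theorem L8291 : W_26 (nat_lit 13) (nat_lit 0x6000300000001000080000000000000000000000000000000) (nat_lit 0x0) (nat_lit 0xc0006800760038001c000fc000c00020000000000000000000000000000000) := T_26 (nat_lit 160) (nat_lit 143) (nat_lit 6) (nat_lit 7) (nat_lit 11) L8290 (by decide +kernel)
theorem L8299 : W_26 (nat_lit 2) (nat_lit 0x16800e00070001c001000080000000000000000000000000000000) (nat_lit 0x0) (nat_lit 0x200001800000000000000000000000000000000000000000000000) := D_26 (nat_lit 192) (nat_lit 191) (nat_lit 213) (nat_lit 2) (nat_lit 4) (nat_lit 11) (nat_lit 3) (nat_lit 5) (nat_lit 11) (by decide +kernel)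
theorem L8300 : W_26 (nat_lit 3) (nat_lit 0x6800e00070001c001000080000000000000000000000000000000) (nat_lit 0x0) (nat_lit 0x2000300001800000000000000000000000000000000000000000000000) := T_26 (nat_lit 212) (nat_lit 229) (nat_lit 4) (nat_lit 8) (nat_lit 13) L8299 (by decide +kernel)
theorem L8301 : W_26 (nat_lit 4) (nat_lit 0x6800e00030001c001000080000000000000000000000000000000) (nat_lit 0x0) (nat_lit 0x2000300001800c00000000000000000000000000000000000000000000) := T_26 (nat_lit 178) (nat_lit 179) (nat_lit 0) (nat_lit 9) (nat_lit 10) L8300 (by decide +kernel)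
theorem L8302 : W_26 (nat_lit 5) (nat_lit 0x6800e000300018001000080000000000000000000000000000000) (nat_lit 0x0) (nat_lit 0x2000300001800c00004000200000000000000000000000000000000000) := T_26 (nat_lit 158) (nat_lit 141) (nat_lit 4) (nat_lit 6) (nat_lit 12) L8301 (by decide +kernel)
theorem L8303 : W_26 (nat_lit 6) (nat_lit 0x68006000300018001000080000000000000000000000000000000) (nat_lit 0x0) (nat_lit 0x2000300019800c00004000200000000000000000000000000000000000) := T_26 (nat_lit 195) (nat_lit 196) (nat_lit 1) (nat_lit 9) (nat_lit 11) L8302 (by decide +kernel)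
theorem L8304 : W_26 (nat_lit 7) (nat_lit 0x60006000300018001000080000000000000000000000000000000) (nat_lit 0x0) (nat_lit 0x2000318019800c00004000200000000000000000000000000000000000) := T_26 (nat_lit 207) (nat_lit 208) (nat_lit 2) (nat_lit 3) (nat_lit 12) L8303 (by decide +kernel)
theorem L8305 : W_26 (nat_lit 8) (nat_lit 0x40006000300018001000080000000000000000000000000000000) (nat_lit 0x0) (nat_lit 0x2400338019800c00004000200000000000000000000000000000000000) := T_26 (nat_lit 209) (nat_lit 226) (nat_lit 5) (nat_lit 6) (nat_lit 9) L8304 (by decide +kernel)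
theorem L8306 : W_26 (nat_lit 9) (nat_lit 0x6000300018001000080000000000000000000000000000000) (nat_lit 0x0) (nat_lit 0x2c00378019800c00004000200000000000000000000000000000000000) := T_26 (nat_lit 210) (nat_lit 227) (nat_lit 6) (nat_lit 6) (nat_lit 13) L8305 (by decide +kernel)
theorem L8307 : W_26 (nat_lit 10) (nat_lit 0x6000300008001000080000000000000000000000000000000) (nat_lit 0x0) (nat_lit 0x2c00378019800c00014000a00000000000000000000000000000000000) := T_26 (nat_lit 160) (nat_lit 143) (nat_lit 6) (nat_lit 7) (nat_lit 11) L8306 (by decide +kernel)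
theorem L8308 : W_26 (nat_lit 11) (nat_lit 0x6000300000001000080000000000000000000000000000000) (nat_lit 0x0) (nat_lit 0x10002c00378019c00c0001c000e00170000000000000000000000000000000) := Q_26 (nat_lit 159) (C_26 L8296 (C_26 L8297 (C_26 L8298 (C_26 L8307 N_26)))) (by decide +kernel)
theorem L8309 : W_26 (nat_lit 14) (nat_lit 0x4000300000001000080000000000000000000000000000000) (nat_lit 0x0) (nat_lit 0xd0006c0077803bc01c000fc000f8017c000000000000000000000000000000) := Q_26 (nat_lit 193) (C_26 L8258 (C_26 L8284 (C_26 L8291 (C_26 L8308 N_26)))) (by decide +kernel)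
theorem L8310 : W_26 (nat_lit 10) (nat_lit 0x4000300000001000080000000000000000000000000000000) (nat_lit 0x0) (nat_lit 0x240033001bc004e0038000c00000000000000000000000000000000000) := T_26 (nat_lit 178) (nat_lit 161) (nat_lit 5) (nat_lit 8) (nat_lit 7) L8256 (by decide +kernel)
theorem L8311 : W_26 (nat_lit 17) (nat_lit 0x4000200000001000080000000000000000000000000000000) (nat_lit 0x0) (nat_lit 0xf0007c0077807bc03de01fc000f8017c000000000000000000000000000000) := Q_26 (nat_lit 176) (C_26 L8140 (C_26 L8166 (C_26 L8170 (C_26 L8179 (C_26 L8257 (C_26 L8309 (C_26 L8310 N_26))))))) (by decide +kernel)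
theorem L8312 : W_26 (nat_lit 18) (nat_lit 0x200000001000080000000000000000000000000000000) (nat_lit 0x0) (nat_lit 0x1c002e001f801fe07ffe1ffe0fde01fc004f8037c000000000000000000000000000000) := Q_26 (nat_lit 194) (C_26 L7902 (C_26 L8110 (C_26 L5483 (C_26 L5489 (C_26 L8311 N_26))))) (by decide +kernel)
theorem L8313 : W_26 (nat_lit 2) (nat_lit 0x2000700000001f00080000000000000000000000000000000) (nat_lit 0x0) (nat_lit 0x1c000000000000000000000000000000) := D_26 (nat_lit 123) (nat_lit 124) (nat_lit 122) (nat_lit 0) (nat_lit 8) (nat_lit 8) (nat_lit 0) (nat_lit 7) (nat_lit 8) (by decide +kernel)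
theorem L8314 : W_26 (nat_lit 3) (nat_lit 0x2000700000001e00080000000000000000000000000000000) (nat_lit 0x0) (nat_lit 0x10005c000000000000000000000000000000) := T_26 (nat_lit 140) (nat_lit 126) (nat_lit 2) (nat_lit 4) (nat_lit 8) L8313 (by decide +kernel)
theorem L8315 : W_26 (nat_lit 4) (nat_lit 0x2000700000001c00080000000000000000000000000000000) (nat_lit 0x0) (nat_lit 0x30015c000000000000000000000000000000) := T_26 (nat_lit 141) (nat_lit 128) (nat_lit 2) (nat_lit 5) (nat_lit 8) L8314 (by decide +kernel)
theorem L8316 : W_26 (nat_lit 2) (nat_lit 0x2000700000001e00080000000000000000000000000000000) (nat_lit 0x0) (nat_lit 0x8000000018000000000000000000000000000000) := D_26 (nat_lit 124) (nat_lit 123) (nat_lit 159) (nat_lit 0) (nat_lit 8) (nat_lit 8) (nat_lit 4) (nat_lit 6) (nat_lit 11) (by decide +kernel)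
theorem L8317 : W_26 (nat_lit 3) (nat_lit 0x2000700000001c00080000000000000000000000000000000) (nat_lit 0x0) (nat_lit 0x8000200118000000000000000000000000000000) := T_26 (nat_lit 141) (nat_lit 128) (nat_lit 2) (nat_lit 5) (nat_lit 8) L8316 (by decide +kernel)
theorem L8319 : W_26 (nat_lit 3) (nat_lit 0x2000700000001c00080000000000000000000000000000000) (nat_lit 0x0) (nat_lit 0x80004000000008000000060000000000000000000000000000000) := T_26 (nat_lit 159) (nat_lit 126) (nat_lit 6) (nat_lit 6) (nat_lit 11) L8318 (by decide +kernel)
theorem L8320 : W_26 (nat_lit 5) (nat_lit 0x2000700000001800080000000000000000000000000000000) (nat_lit 0x0) (nat_lit 0x8000400000000800070017c000000000000000000000000000000) := Q_26 (nat_lit 142) (C_26 L8315 (C_26 L8317 (C_26 L8319 N_26))) (by decide +kernel)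
theorem L8321 : W_26 (nat_lit 2) (nat_lit 0x2000700010001800080000000000000000000000000000000) (nat_lit 0x0) (nat_lit 0x800040000000000008000000000000000000000000000000000000000) := D_26 (nat_lit 210) (nat_lit 227) (nat_lit 159) (nat_lit 6) (nat_lit 6) (nat_lit 13) (nat_lit 6) (nat_lit 6) (nat_lit 12) (by decide +kernel)
theorem L8322 : W_26 (nat_lit 3) (nat_lit 0x2000700000001800080000000000000000000000000000000) (nat_lit 0x0) (nat_lit 0x800040004000000018000000000000000000000000000000000000000) := T_26 (nat_lit 160) (nat_lit 194) (nat_lit 6) (nat_lit 7) (nat_lit 11) L8321 (by decide +kernel)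
theorem L8323 : W_26 (nat_lit 2) (nat_lit 0x2000700000001c000c0000000000000000000000000000000) (nat_lit 0x0) (nat_lit 0x300100000000000000000000000000000000) := D_26 (nat_lit 141) (nat_lit 128) (nat_lit 140) (nat_lit 2) (nat_lit 5) (nat_lit 8) (nat_lit 2) (nat_lit 4) (nat_lit 8) (by decide +kernel)
theorem L8324 : W_26 (nat_lit 3) (nat_lit 0x20007000000018000c0000000000000000000000000000000) (nat_lit 0x0) (nat_lit 0x8000700100000000000000000000000000000000) := T_26 (nat_lit 142) (nat_lit 159) (nat_lit 6) (nat_lit 6) (nat_lit 11) L8323 (by decide +kernel)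
theorem L8325 : W_26 (nat_lit 4) (nat_lit 0x2000700000001800080000000000000000000000000000000) (nat_lit 0x0) (nat_lit 0x18000700140000000000000000000000000000000) := T_26 (nat_lit 126) (nat_lit 160) (nat_lit 5) (nat_lit 7) (nat_lit 7) L8324 (by decide +kernel)
theorem L8326 : W_26 (nat_lit 2) (nat_lit 0x2000700000001800080000000000000000000000000000000) (nat_lit 0x0) (nat_lit 0x4000000010000000040000000000000000000000000000000) := D_26 (nat_lit 160) (nat_lit 126) (nat_lit 194) (nat_lit 5) (nat_lit 7) (nat_lit 7) (nat_lit 6) (nat_lit 7) (nat_lit 11) (by decide +kernel)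
theorem L8327 : W_26 (nat_lit 6) (nat_lit 0x2000700000001000080000000000000000000000000000000) (nat_lit 0x0) (nat_lit 0x8000c0004000000018000f0017c000000000000000000000000000000) := Q_26 (nat_lit 143) (C_26 L8320 (C_26 L8322 (C_26 L8325 (C_26 L8326 N_26)))) (by decide +kernel)
theorem L8328 : W_26 (nat_lit 2) (nat_lit 0x2001f00000001000080000000000000000000000000000000) (nat_lit 0x0) (nat_lit 0x1c0000000000000000000000000000000000000000) := D_26 (nat_lit 163) (nat_lit 162) (nat_lit 164) (nat_lit 2) (nat_lit 6) (nat_lit 10) (nat_lit 2) (nat_lit 7) (nat_lit 10) (by decide +kernel)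
theorem L8329 : W_26 (nat_lit 3) (nat_lit 0x2000f00000001000080000000000000000000000000000000) (nat_lit 0x0) (nat_lit 0x40010001c0000000000000000000000000000000000000000) := T_26 (nat_lit 180) (nat_lit 194) (nat_lit 1) (nat_lit 10) (nat_lit 10) L8328 (by decide +kernel)
theorem L8330 : W_26 (nat_lit 4) (nat_lit 0x2000700000001000080000000000000000000000000000000) (nat_lit 0x0) (nat_lit 0x50018001c0000000000000000000000000000000000000000) := T_26 (nat_lit 179) (nat_lit 192) (nat_lit 1) (nat_lit 9) (nat_lit 10) L8329 (by decide +kernel)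
theorem L8331 : W_26 (nat_lit 2) (nat_lit 0x22000f00080001000080000000000000000000000000000000) (nat_lit 0x0) (nat_lit 0x40001000100000000000000000000000000000000000000000) := D_26 (nat_lit 180) (nat_lit 164) (nat_lit 198) (nat_lit 2) (nat_lit 7) (nat_lit 10) (nat_lit 3) (nat_lit 7) (nat_lit 10) (by decide +kernel)
theorem L8332 : W_26 (nat_lit 3) (nat_lit 0x2000f00080001000080000000000000000000000000000000) (nat_lit 0x0) (nat_lit 0x70001000100000000000000000000000000000000000000000) := T_26 (nat_lit 197) (nat_lit 196) (nat_lit 3) (nat_lit 6) (nat_lit 10) L8331 (by decide +kernel)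
theorem L8333 : W_26 (nat_lit 4) (nat_lit 0x2000f00000001000080000000000000000000000000000000) (nat_lit 0x0) (nat_lit 0x700010001c0000000000000000000000000000000000000000) := T_26 (nat_lit 163) (nat_lit 162) (nat_lit 2) (nat_lit 6) (nat_lit 10) L8332 (by decide +kernel)
theorem L8334 : W_26 (nat_lit 5) (nat_lit 0x2000700000001000080000000000000000000000000000000) (nat_lit 0x0) (nat_lit 0x710018001c0000000000000000000000000000000000000000) := T_26 (nat_lit 179) (nat_lit 192) (nat_lit 1) (nat_lit 9) (nat_lit 10) L8333 (by decide +kernel)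
theorem L8335 : W_26 (nat_lit 7) (nat_lit 0x700000001000080000000000000000000000000000000) (nat_lit 0x0) (nat_lit 0x8000c00770018001d8000f0017c000000000000000000000000000000) := Q_26 (nat_lit 193) (C_26 L8327 (C_26 L8330 (C_26 L8334 N_26))) (by decide +kernel)
theorem L8336 : W_26 (nat_lit 2) (nat_lit 0x8000780010001000080000000000000000000000000000000) (nat_lit 0x0) (nat_lit 0x4000040000000800000000000000000000000000000000000) := D_26 (nat_lit 194) (nat_lit 174) (nat_lit 143) (nat_lit 3) (nat_lit 4) (nat_lit 10) (nat_lit 6) (nat_lit 7) (nat_lit 11) (by decide +kernel)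
theorem L8337 : W_26 (nat_lit 3) (nat_lit 0x780010001000080000000000000000000000000000000) (nat_lit 0x0) (nat_lit 0x1c000040000000800000000000000000000000000000000000) := T_26 (nat_lit 195) (nat_lit 196) (nat_lit 3) (nat_lit 5) (nat_lit 10) L8336 (by decide +kernel)
theorem L8338 : W_26 (nat_lit 2) (nat_lit 0x80007e0010001000080000000000000000000000000000000) (nat_lit 0x0) (nat_lit 0x3800000000000000000000000000000000000000) := D_26 (nat_lit 156) (nat_lit 157) (nat_lit 155) (nat_lit 0) (nat_lit 7) (nat_lit 10) (nat_lit 0) (nat_lit 6) (nat_lit 10) (by decide +kernel)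
theorem L8339 : W_26 (nat_lit 3) (nat_lit 0x80007c0010001000080000000000000000000000000000000) (nat_lit 0x0) (nat_lit 0x2000b800000000000000000000000000000000000000) := T_26 (nat_lit 173) (nat_lit 159) (nat_lit 2) (nat_lit 3) (nat_lit 10) L8338 (by decide +kernel)
theorem L8340 : W_26 (nat_lit 4) (nat_lit 0x8000780010001000080000000000000000000000000000000) (nat_lit 0x0) (nat_lit 0x400006000b800000000000000000000000000000000000000) := T_26 (nat_lit 174) (nat_lit 194) (nat_lit 3) (nat_lit 4) (nat_lit 10) L8339 (by decide +kernel)
theorem L8341 : W_26 (nat_lit 5) (nat_lit 0x780010001000080000000000000000000000000000000) (nat_lit 0x0) (nat_lit 0x1c00006000b800000000000000000000000000000000000000) := T_26 (nat_lit 195) (nat_lit 196) (nat_lit 3) (nat_lit 5) (nat_lit 10) L8340 (by decide +kernel)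
theorem L8342 : W_26 (nat_lit 2) (nat_lit 0x7800100018000c0002000000000000000000000000000) (nat_lit 0x0) (nat_lit 0x20001000080000000000000000000000) := D_26 (nat_lit 108) (nat_lit 91) (nat_lit 125) (nat_lit 4) (nat_lit 7) (nat_lit 9) (nat_lit 4) (nat_lit 7) (nat_lit 10) (by decide +kernel)
theorem L8343 : W_26 (nat_lit 3) (nat_lit 0x7800100018000c0000000000000000000000000000000) (nat_lit 0x0) (nat_lit 0x8000000020003000080000000000000000000000) := T_26 (nat_lit 109) (nat_lit 159) (nat_lit 5) (nat_lit 7) (nat_lit 6) L8342 (by decide +kernel)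
theorem L8344 : W_26 (nat_lit 4) (nat_lit 0x780010001800080000000000000000000000000000000) (nat_lit 0x0) (nat_lit 0x2000000008000000060003000080000000000000000000000) := T_26 (nat_lit 126) (nat_lit 193) (nat_lit 5) (nat_lit 7) (nat_lit 7) L8343 (by decide +kernel)
theorem L8345 : W_26 (nat_lit 5) (nat_lit 0x780010001000080000000000000000000000000000000) (nat_lit 0x0) (nat_lit 0x6000000008000800060003000080000000000000000000000) := T_26 (nat_lit 143) (nat_lit 194) (nat_lit 6) (nat_lit 7) (nat_lit 11) L8344 (by decide +kernel)
theorem L8346 : W_26 (nat_lit 2) (nat_lit 0x12000f80050001800080000000000000000000000000000000) (nat_lit 0x0) (nat_lit 0x800040000000000008000000000000000000000000000000000000000) := D_26 (nat_lit 210) (nat_lit 227) (nat_lit 159) (nat_lit 6) (nat_lit 6) (nat_lit 13) (nat_lit 6) (nat_lit 6) (nat_lit 12) (by decide +kernel)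
theorem L8347 : W_26 (nat_lit 3) (nat_lit 0x12000f80050001000080000000000000000000000000000000) (nat_lit 0x0) (nat_lit 0x800040000000000008000800040000000000000000000000000000000) := T_26 (nat_lit 143) (nat_lit 126) (nat_lit 5) (nat_lit 7) (nat_lit 7) L8346 (by decide +kernel)
theorem L8348 : W_26 (nat_lit 4) (nat_lit 0x10000f80050001000080000000000000000000000000000000) (nat_lit 0x0) (nat_lit 0x800040003000000008000800040000000000000000000000000000000) := T_26 (nat_lit 193) (nat_lit 192) (nat_lit 1) (nat_lit 9) (nat_lit 10) L8347 (by decide +kernel)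
theorem L8349 : W_26 (nat_lit 5) (nat_lit 0x10000f80010001000080000000000000000000000000000000) (nat_lit 0x0) (nat_lit 0x8000400030000000c8000800040000000000000000000000000000000) := T_26 (nat_lit 162) (nat_lit 163) (nat_lit 2) (nat_lit 6) (nat_lit 10) L8348 (by decide +kernel)
theorem L8350 : W_26 (nat_lit 6) (nat_lit 0x10000780010001000080000000000000000000000000000000) (nat_lit 0x0) (nat_lit 0x8000400230008000c8000800040000000000000000000000000000000) := T_26 (nat_lit 179) (nat_lit 197) (nat_lit 3) (nat_lit 6) (nat_lit 10) L8349 (by decide +kernel)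
theorem L8351 : W_26 (nat_lit 7) (nat_lit 0x780010001000080000000000000000000000000000000) (nat_lit 0x0) (nat_lit 0x80004003b0008000c8000800040000000000000000000000000000000) := T_26 (nat_lit 196) (nat_lit 195) (nat_lit 3) (nat_lit 5) (nat_lit 10) L8350 (by decide +kernel)
theorem L8352 : W_26 (nat_lit 8) (nat_lit 0x780000001000080000000000000000000000000000000) (nat_lit 0x0) (nat_lit 0x80004003f0008600db800800060003000080000000000000000000000) := Q_26 (nat_lit 160) (C_26 L8337 (C_26 L8341 (C_26 L8345 (C_26 L8351 N_26)))) (by decide +kernel)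
theorem L8356 : W_26 (nat_lit 2) (nat_lit 0x8007e0011001000080000000000000000000000000000000) (nat_lit 0x0) (nat_lit 0x6000000000000800000000000000000000000000000000000) := D_26 (nat_lit 194) (nat_lit 193) (nat_lit 143) (nat_lit 3) (nat_lit 3) (nat_lit 10) (nat_lit 6) (nat_lit 7) (nat_lit 11) (by decide +kernel)
theorem L8357 : W_26 (nat_lit 3) (nat_lit 0x8007e0001001000080000000000000000000000000000000) (nat_lit 0x0) (nat_lit 0x6000000018000800000000000000000000000000000000000) := T_26 (nat_lit 160) (nat_lit 159) (nat_lit 2) (nat_lit 3) (nat_lit 10) L8356 (by decide +kernel)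
theorem L8358 : W_26 (nat_lit 4) (nat_lit 0x8007c0001001000080000000000000000000000000000000) (nat_lit 0x0) (nat_lit 0x6000020018800800000000000000000000000000000000000) := T_26 (nat_lit 173) (nat_lit 155) (nat_lit 0) (nat_lit 6) (nat_lit 10) L8357 (by decide +kernel)
theorem L8359 : W_26 (nat_lit 5) (nat_lit 0x8007c0000001000080000000000000000000000000000000) (nat_lit 0x0) (nat_lit 0x600002001b800800000000000000000000000000000000000) := T_26 (nat_lit 156) (nat_lit 157) (nat_lit 0) (nat_lit 7) (nat_lit 10) L8358 (by decide +kernel)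
theorem L8360 : W_26 (nat_lit 6) (nat_lit 0x800780000001000080000000000000000000000000000000) (nat_lit 0x0) (nat_lit 0x640006001b800800000000000000000000000000000000000) := T_26 (nat_lit 174) (nat_lit 190) (nat_lit 1) (nat_lit 7) (nat_lit 10) L8359 (by decide +kernel)
theorem L8361 : W_26 (nat_lit 7) (nat_lit 0x780000001000080000000000000000000000000000000) (nat_lit 0x0) (nat_lit 0x7c0006001b800800000000000000000000000000000000000) := T_26 (nat_lit 191) (nat_lit 192) (nat_lit 1) (nat_lit 8) (nat_lit 10) L8360 (by decide +kernel)
theorem L8362 : W_26 (nat_lit 2) (nat_lit 0x11000780000001000080000000000000000000000000000000) (nat_lit 0x0) (nat_lit 0x22000800000000000000000000000000000000000000000000) := D_26 (nat_lit 179) (nat_lit 193) (nat_lit 197) (nat_lit 1) (nat_lit 9) (nat_lit 10) (nat_lit 3) (nat_lit 6) (nat_lit 10) (by decide +kernel)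
theorem L8363 : W_26 (nat_lit 3) (nat_lit 0x1000780000001000080000000000000000000000000000000) (nat_lit 0x0) (nat_lit 0x3a000800000000000000000000000000000000000000000000) := T_26 (nat_lit 196) (nat_lit 195) (nat_lit 3) (nat_lit 5) (nat_lit 10) L8362 (by decide +kernel)
theorem L8364 : W_26 (nat_lit 4) (nat_lit 0x780000001000080000000000000000000000000000000) (nat_lit 0x0) (nat_lit 0x3b800800000000000000000000000000000000000000000000) := T_26 (nat_lit 192) (nat_lit 191) (nat_lit 1) (nat_lit 8) (nat_lit 10) L8363 (by decide +kernel)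
theorem L8365 : W_26 (nat_lit 2) (nat_lit 0x84007e0000001000080000000000000000000000000000000) (nat_lit 0x0) (nat_lit 0x3800000000000000000000000000000000000000) := D_26 (nat_lit 156) (nat_lit 155) (nat_lit 157) (nat_lit 0) (nat_lit 6) (nat_lit 10) (nat_lit 0) (nat_lit 7) (nat_lit 10) (by decide +kernel)
theorem L8366 : W_26 (nat_lit 3) (nat_lit 0x84007c0000001000080000000000000000000000000000000) (nat_lit 0x0) (nat_lit 0x200020003800000000000000000000000000000000000000) := T_26 (nat_lit 173) (nat_lit 189) (nat_lit 1) (nat_lit 6) (nat_lit 10) L8365 (by decide +kernel)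
theorem L8367 : W_26 (nat_lit 4) (nat_lit 0x80007c0000001000080000000000000000000000000000000) (nat_lit 0x0) (nat_lit 0xe00020003800000000000000000000000000000000000000) := T_26 (nat_lit 190) (nat_lit 191) (nat_lit 1) (nat_lit 7) (nat_lit 10) L8366 (by decide +kernel)
theorem L8368 : W_26 (nat_lit 5) (nat_lit 0x8000780000001000080000000000000000000000000000000) (nat_lit 0x0) (nat_lit 0x4e00060003800000000000000000000000000000000000000) := T_26 (nat_lit 174) (nat_lit 194) (nat_lit 3) (nat_lit 4) (nat_lit 10) L8367 (by decide +kernel)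
theorem L8369 : W_26 (nat_lit 6) (nat_lit 0x780000001000080000000000000000000000000000000) (nat_lit 0x0) (nat_lit 0x1ce00060003800000000000000000000000000000000000000) := T_26 (nat_lit 195) (nat_lit 196) (nat_lit 3) (nat_lit 5) (nat_lit 10) L8368 (by decide +kernel)
theorem L8370 : W_26 (nat_lit 9) (nat_lit 0x700000001000080000000000000000000000000000000) (nat_lit 0x0) (nat_lit 0x80004003fe008e00db800800060003000080000000000000000000000) := Q_26 (nat_lit 175) (C_26 L8352 (C_26 L8355 (C_26 L8361 (C_26 L8364 (C_26 L8369 N_26))))) (by decide +kernel)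
theorem L8371 : W_26 (nat_lit 2) (nat_lit 0x11000f00000001000080000000000000000000000000000000) (nat_lit 0x0) (nat_lit 0x8800080000000000000000000000000000000000000000000) := D_26 (nat_lit 175) (nat_lit 195) (nat_lit 191) (nat_lit 3) (nat_lit 5) (nat_lit 10) (nat_lit 1) (nat_lit 8) (nat_lit 10) (by decide +kernel)
theorem L8372 : W_26 (nat_lit 3) (nat_lit 0x1000f00000001000080000000000000000000000000000000) (nat_lit 0x0) (nat_lit 0x38800080000000000000000000000000000000000000000000) := T_26 (nat_lit 196) (nat_lit 197) (nat_lit 3) (nat_lit 6) (nat_lit 10) L8371 (by decide +kernel)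
theorem L8373 : W_26 (nat_lit 4) (nat_lit 0xf00000001000080000000000000000000000000000000) (nat_lit 0x0) (nat_lit 0x3b800080000000000000000000000000000000000000000000) := T_26 (nat_lit 192) (nat_lit 193) (nat_lit 1) (nat_lit 9) (nat_lit 10) L8372 (by decide +kernel)
theorem L8383 : W_26 (nat_lit 4) (nat_lit 0xf00000001000080000000000000000000000000000000) (nat_lit 0x0) (nat_lit 0x70010001c0000000000000000000000000000000000000000) := T_26 (nat_lit 193) (nat_lit 192) (nat_lit 1) (nat_lit 9) (nat_lit 10) L8329 (by decide +kernel)
theorem L8384 : W_26 (nat_lit 7) (nat_lit 0x700000001000080000000000000000000000000000000) (nat_lit 0x0) (nat_lit 0x7f8078801c0000000000000000000000000000000000000000) := Q_26 (nat_lit 179) (C_26 L8373 (C_26 L8378 (C_26 L8382 (C_26 L8383 N_26)))) (by decide +kernel)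
theorem L8385 : W_26 (nat_lit 2) (nat_lit 0x20001f00090001a001f0008800000000000000000000000000) (nat_lit 0x0) (nat_lit 0x4000600000000000000000000000000000000) := D_26 (nat_lit 129) (nat_lit 130) (nat_lit 146) (nat_lit 1) (nat_lit 11) (nat_lit 7) (nat_lit 4) (nat_lit 10) (nat_lit 10) (by decide +kernel)
theorem L8386 : W_26 (nat_lit 3) (nat_lit 0x20001f00090001a001f0000800000000000000000000000000) (nat_lit 0x0) (nat_lit 0x4000600018000000000000000000000000000) := T_26 (nat_lit 111) (nat_lit 112) (nat_lit 2) (nat_lit 6) (nat_lit 7) L8385 (by decide +kernel)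
theorem L8387 : W_26 (nat_lit 4) (nat_lit 0x20001f00090001a000f0000800000000000000000000000000) (nat_lit 0x0) (nat_lit 0x4400700018000000000000000000000000000) := T_26 (nat_lit 128) (nat_lit 142) (nat_lit 2) (nat_lit 5) (nat_lit 8) L8386 (by decide +kernel)
theorem L8388 : W_26 (nat_lit 5) (nat_lit 0x20001f00090001a000f0000000000000000000000000000000) (nat_lit 0x0) (nat_lit 0x4400700018c00000000000000000000000000) := T_26 (nat_lit 107) (nat_lit 106) (nat_lit 0) (nat_lit 8) (nat_lit 7) L8387 (by decide +kernel)
theorem L8389 : W_26 (nat_lit 6) (nat_lit 0x20001f000900018000f0000000000000000000000000000000) (nat_lit 0x0) (nat_lit 0x4700700018c00000000000000000000000000) := T_26 (nat_lit 141) (nat_lit 140) (nat_lit 1) (nat_lit 8) (nat_lit 7) L8388 (by decide +kernel)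
theorem L8390 : W_26 (nat_lit 7) (nat_lit 0x20001f000900018000e0000000000000000000000000000000) (nat_lit 0x0) (nat_lit 0x4700718018c00000000000000000000000000) := T_26 (nat_lit 124) (nat_lit 123) (nat_lit 3) (nat_lit 4) (nat_lit 7) L8389 (by decide +kernel)
theorem L8391 : W_26 (nat_lit 8) (nat_lit 0x20001f000900018000c0000000000000000000000000000000) (nat_lit 0x0) (nat_lit 0x4700738019c00000000000000000000000000) := T_26 (nat_lit 125) (nat_lit 108) (nat_lit 4) (nat_lit 7) (nat_lit 10) L8390 (by decide +kernel)
theorem L8392 : W_26 (nat_lit 9) (nat_lit 0x20001f00090001800080000000000000000000000000000000) (nat_lit 0x0) (nat_lit 0x8000000000004700778019c00000000000000000000000000) := T_26 (nat_lit 126) (nat_lit 195) (nat_lit 7) (nat_lit 7) (nat_lit 7) L8391 (by decide +kernel)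
theorem L8393 : W_26 (nat_lit 10) (nat_lit 0x20001f00090001000080000000000000000000000000000000) (nat_lit 0x0) (nat_lit 0xc000000000004f00778019c00000000000000000000000000) := T_26 (nat_lit 143) (nat_lit 194) (nat_lit 6) (nat_lit 7) (nat_lit 11) L8392 (by decide +kernel)
theorem L8394 : W_26 (nat_lit 11) (nat_lit 0x1f00090001000080000000000000000000000000000000) (nat_lit 0x0) (nat_lit 0x6c000000000004f00778019c00000000000000000000000000) := T_26 (nat_lit 197) (nat_lit 198) (nat_lit 3) (nat_lit 7) (nat_lit 10) L8393 (by decide +kernel)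
theorem L8395 : W_26 (nat_lit 12) (nat_lit 0x1f00080001000080000000000000000000000000000000) (nat_lit 0x0) (nat_lit 0x6c000000018004f00778019c00000000000000000000000000) := T_26 (nat_lit 160) (nat_lit 159) (nat_lit 0) (nat_lit 10) (nat_lit 10) L8394 (by decide +kernel)
theorem L8396 : W_26 (nat_lit 13) (nat_lit 0xf00080001000080000000000000000000000000000000) (nat_lit 0x0) (nat_lit 0x6c001000118004f00778019c00000000000000000000000000) := T_26 (nat_lit 180) (nat_lit 164) (nat_lit 2) (nat_lit 7) (nat_lit 10) L8395 (by decide +kernel)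
theorem L8397 : W_26 (nat_lit 2) (nat_lit 0x1f00080001000080000000000000000000000000000000) (nat_lit 0x0) (nat_lit 0x70000000000000000000000000000000000000000000000000) := D_26 (nat_lit 197) (nat_lit 196) (nat_lit 198) (nat_lit 3) (nat_lit 6) (nat_lit 10) (nat_lit 3) (nat_lit 7) (nat_lit 10) (by decide +kernel)
theorem L8398 : W_26 (nat_lit 3) (nat_lit 0xf00080001000080000000000000000000000000000000) (nat_lit 0x0) (nat_lit 0x70001000100000000000000000000000000000000000000000) := T_26 (nat_lit 180) (nat_lit 164) (nat_lit 2) (nat_lit 7) (nat_lit 10) L8397 (by decide +kernel)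
theorem L8399 : W_26 (nat_lit 2) (nat_lit 0xa000200011000f80040001000080000000000000000000000000000000) (nat_lit 0x0) (nat_lit 0x140004000000000000000000000000000000000000000000000000000000000) := D_26 (nat_lit 230) (nat_lit 248) (nat_lit 246) (nat_lit 7) (nat_lit 9) (nat_lit 10) (nat_lit 5) (nat_lit 9) (nat_lit 10) (by decide +kernel)
theorem L8400 : W_26 (nat_lit 3) (nat_lit 0x8000200011000f80040001000080000000000000000000000000000000) (nat_lit 0x0) (nat_lit 0x140006000100000000000000000000000000000000000000000000000000000) := T_26 (nat_lit 229) (nat_lit 212) (nat_lit 5) (nat_lit 9) (nat_lit 9) L8399 (by decide +kernel)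
theorem L8401 : W_26 (nat_lit 4) (nat_lit 0x200011000f80040001000080000000000000000000000000000000) (nat_lit 0x0) (nat_lit 0x14000e000500000000000000000000000000000000000000000000000000000) := T_26 (nat_lit 231) (nat_lit 214) (nat_lit 7) (nat_lit 9) (nat_lit 9) L8400 (by decide +kernel)
theorem L8402 : W_26 (nat_lit 5) (nat_lit 0x200010000f80040001000080000000000000000000000000000000) (nat_lit 0x0) (nat_lit 0x14000e000500001800000000000000000000000000000000000000000000000) := T_26 (nat_lit 192) (nat_lit 191) (nat_lit 1) (nat_lit 8) (nat_lit 10) L8401 (by decide +kernel)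
theorem L8403 : W_26 (nat_lit 6) (nat_lit 0x200010000f00040001000080000000000000000000000000000000) (nat_lit 0x0) (nat_lit 0x14000e000500009800080000000000000000000000000000000000000000000) := T_26 (nat_lit 175) (nat_lit 195) (nat_lit 3) (nat_lit 5) (nat_lit 10) L8402 (by decide +kernel)
theorem L8404 : W_26 (nat_lit 7) (nat_lit 0x200010000f00000001000080000000000000000000000000000000) (nat_lit 0x0) (nat_lit 0x14000e0005000098000800c0000000000000000000000000000000000000000) := T_26 (nat_lit 162) (nat_lit 163) (nat_lit 2) (nat_lit 6) (nat_lit 10) L8403 (by decide +kernel)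
theorem L8405 : W_26 (nat_lit 2) (nat_lit 0xa000200010000f00040001000080000000000000000000000000000000) (nat_lit 0x0) (nat_lit 0x140004000000000000000000000000000000000000000000000000000000000) := D_26 (nat_lit 230) (nat_lit 246) (nat_lit 248) (nat_lit 5) (nat_lit 9) (nat_lit 10) (nat_lit 7) (nat_lit 9) (nat_lit 10) (by decide +kernel)
theorem L8406 : W_26 (nat_lit 3) (nat_lit 0x2000200010000f00040001000080000000000000000000000000000000) (nat_lit 0x0) (nat_lit 0x14000c000400000000000000000000000000000000000000000000000000000) := T_26 (nat_lit 231) (nat_lit 214) (nat_lit 7) (nat_lit 9) (nat_lit 9) L8405 (by decide +kernel)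
theorem L8407 : W_26 (nat_lit 4) (nat_lit 0x200010000f00040001000080000000000000000000000000000000) (nat_lit 0x0) (nat_lit 0x14000e000500000000000000000000000000000000000000000000000000000) := T_26 (nat_lit 229) (nat_lit 212) (nat_lit 5) (nat_lit 9) (nat_lit 9) L8406 (by decide +kernel)
theorem L8408 : W_26 (nat_lit 5) (nat_lit 0x200010000f00000001000080000000000000000000000000000000) (nat_lit 0x0) (nat_lit 0x14000e0005000000000000c0000000000000000000000000000000000000000) := T_26 (nat_lit 162) (nat_lit 163) (nat_lit 2) (nat_lit 6) (nat_lit 10) L8407 (by decide +kernel)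
theorem L8409 : W_26 (nat_lit 2) (nat_lit 0x8000200018000f00040001000080000000000000000000000000000000) (nat_lit 0x0) (nat_lit 0x180004000000000000000000000000000000000000000000000000000000000) := D_26 (nat_lit 230) (nat_lit 247) (nat_lit 248) (nat_lit 4) (nat_lit 9) (nat_lit 14) (nat_lit 7) (nat_lit 9) (nat_lit 10) (by decide +kernel)
theorem L8410 : W_26 (nat_lit 3) (nat_lit 0x200018000f00040001000080000000000000000000000000000000) (nat_lit 0x0) (nat_lit 0x18000c000400000000000000000000000000000000000000000000000000000) := T_26 (nat_lit 231) (nat_lit 214) (nat_lit 7) (nat_lit 9) (nat_lit 9) L8409 (by decide +kernel)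
theorem L8411 : W_26 (nat_lit 4) (nat_lit 0x200010000f00040001000080000000000000000000000000000000) (nat_lit 0x0) (nat_lit 0x18000c000400008000080000000000000000000000000000000000000000000) := T_26 (nat_lit 195) (nat_lit 175) (nat_lit 3) (nat_lit 5) (nat_lit 10) L8410 (by decide +kernel)
theorem L8412 : W_26 (nat_lit 5) (nat_lit 0x200010000f00000001000080000000000000000000000000000000) (nat_lit 0x0) (nat_lit 0x18000c0004000080000800c0000000000000000000000000000000000000000) := T_26 (nat_lit 162) (nat_lit 163) (nat_lit 2) (nat_lit 6) (nat_lit 10) L8411 (by decide +kernel)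
theorem L8413 : W_26 (nat_lit 2) (nat_lit 0xe000300018000f00000001000080000000000000000000000000000000) (nat_lit 0x0) (nat_lit 0x100000c0000000000000000000000000000000000000000000000000000) := D_26 (nat_lit 211) (nat_lit 210) (nat_lit 232) (nat_lit 3) (nat_lit 6) (nat_lit 12) (nat_lit 0) (nat_lit 11) (nat_lit 13) (by decide +kernel)
theorem L8414 : W_26 (nat_lit 3) (nat_lit 0x6000300018000f00000001000080000000000000000000000000000000) (nat_lit 0x0) (nat_lit 0x1000180000c0000000000000000000000000000000000000000000000000000) := T_26 (nat_lit 231) (nat_lit 248) (nat_lit 7) (nat_lit 9) (nat_lit 10) L8413 (by decide +kernel)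
theorem L8415 : W_26 (nat_lit 4) (nat_lit 0x6000200018000f00000001000080000000000000000000000000000000) (nat_lit 0x0) (nat_lit 0x1000180001c0000000000010000000000000000000000000000000000000000) := T_26 (nat_lit 212) (nat_lit 160) (nat_lit 4) (nat_lit 8) (nat_lit 13) L8414 (by decide +kernel)
theorem L8416 : W_26 (nat_lit 5) (nat_lit 0x4000200018000f00000001000080000000000000000000000000000000) (nat_lit 0x0) (nat_lit 0x14001a0001c0000000000010000000000000000000000000000000000000000) := T_26 (nat_lit 229) (nat_lit 246) (nat_lit 5) (nat_lit 9) (nat_lit 10) L8415 (by decide +kernel)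
theorem L8417 : W_26 (nat_lit 6) (nat_lit 0x200018000f00000001000080000000000000000000000000000000) (nat_lit 0x0) (nat_lit 0x1c001e0001c0000000000010000000000000000000000000000000000000000) := T_26 (nat_lit 230) (nat_lit 247) (nat_lit 4) (nat_lit 9) (nat_lit 14) L8416 (by decide +kernel)
theorem L8418 : W_26 (nat_lit 7) (nat_lit 0x200010000f00000001000080000000000000000000000000000000) (nat_lit 0x0) (nat_lit 0x1c001e0001c0008000080010000000000000000000000000000000000000000) := T_26 (nat_lit 195) (nat_lit 175) (nat_lit 3) (nat_lit 5) (nat_lit 10) L8417 (by decide +kernel)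
theorem L8419 : W_26 (nat_lit 2) (nat_lit 0x700018000f00040001000080000000000000000000000000000000) (nat_lit 0x0) (nat_lit 0x1800004000000000000000000000000000000000000000000000000) := D_26 (nat_lit 215) (nat_lit 216) (nat_lit 194) (nat_lit 0) (nat_lit 12) (nat_lit 12) (nat_lit 0) (nat_lit 11) (nat_lit 12) (by decide +kernel)
theorem L8420 : W_26 (nat_lit 3) (nat_lit 0x300018000f00040001000080000000000000000000000000000000) (nat_lit 0x0) (nat_lit 0x8001c00004000000000000000000000000000000000000000000000000) := T_26 (nat_lit 214) (nat_lit 231) (nat_lit 7) (nat_lit 9) (nat_lit 9) L8419 (by decide +kernel)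
theorem L8421 : W_26 (nat_lit 4) (nat_lit 0x200018000f00040001000080000000000000000000000000000000) (nat_lit 0x0) (nat_lit 0xa001d00004000000000000000000000000000000000000000000000000) := T_26 (nat_lit 212) (nat_lit 229) (nat_lit 6) (nat_lit 8) (nat_lit 13) L8420 (by decide +kernel)
theorem L8422 : W_26 (nat_lit 5) (nat_lit 0x200018000f00000001000080000000000000000000000000000000) (nat_lit 0x0) (nat_lit 0xa001d000040000000c0000000000000000000000000000000000000000) := T_26 (nat_lit 162) (nat_lit 163) (nat_lit 2) (nat_lit 6) (nat_lit 10) L8421 (by decide +kernel)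
theorem L8423 : W_26 (nat_lit 6) (nat_lit 0x200010000f00000001000080000000000000000000000000000000) (nat_lit 0x0) (nat_lit 0xa001d0000c0000800c0000000000000000000000000000000000000000) := T_26 (nat_lit 195) (nat_lit 175) (nat_lit 3) (nat_lit 5) (nat_lit 10) L8422 (by decide +kernel)
theorem L8424 : W_26 (nat_lit 2) (nat_lit 0x2000200018000f00040001000080000000000000000000000000000000) (nat_lit 0x0) (nat_lit 0xc0004000000000000000000000000000000000000000000000000000000000) := D_26 (nat_lit 230) (nat_lit 246) (nat_lit 247) (nat_lit 5) (nat_lit 9) (nat_lit 10) (nat_lit 4) (nat_lit 9) (nat_lit 14) (by decide +kernel)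
theorem L8425 : W_26 (nat_lit 3) (nat_lit 0x200018000f00040001000080000000000000000000000000000000) (nat_lit 0x0) (nat_lit 0xc0006000100000000000000000000000000000000000000000000000000000) := T_26 (nat_lit 229) (nat_lit 212) (nat_lit 6) (nat_lit 8) (nat_lit 13) L8424 (by decide +kernel)
theorem L8426 : W_26 (nat_lit 4) (nat_lit 0x200010000f00040001000080000000000000000000000000000000) (nat_lit 0x0) (nat_lit 0xc0006000100008000080000000000000000000000000000000000000000000) := T_26 (nat_lit 195) (nat_lit 175) (nat_lit 3) (nat_lit 5) (nat_lit 10) L8425 (by decide +kernel)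
theorem L8427 : W_26 (nat_lit 5) (nat_lit 0x200010000f00000001000080000000000000000000000000000000) (nat_lit 0x0) (nat_lit 0xc00060001000080000800c0000000000000000000000000000000000000000) := T_26 (nat_lit 162) (nat_lit 163) (nat_lit 2) (nat_lit 6) (nat_lit 10) L8426 (by decide +kernel)
theorem L8428 : W_26 (nat_lit 8) (nat_lit 0x10000f00000001000080000000000000000000000000000000) (nat_lit 0x0) (nat_lit 0x1c001e001fc000d8000800d0000000000000000000000000000000000000000) := Q_26 (nat_lit 213) (C_26 L8404 (C_26 L8408 (C_26 L8412 (C_26 L8418 (C_26 L8423 (C_26 L8427 N_26)))))) (by decide +kernel)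
theorem L8429 : W_26 (nat_lit 9) (nat_lit 0xf00000001000080000000000000000000000000000000) (nat_lit 0x0) (nat_lit 0x1c001e001fc003d8000800d0000000000000000000000000000000000000000) := T_26 (nat_lit 196) (nat_lit 197) (nat_lit 3) (nat_lit 6) (nat_lit 10) L8428 (by decide +kernel)
theorem L8430 : W_26 (nat_lit 4) (nat_lit 0xf00000001000080000000000000000000000000000000) (nat_lit 0x0) (nat_lit 0x700010001c0000000000000000000000000000000000000000) := T_26 (nat_lit 163) (nat_lit 162) (nat_lit 2) (nat_lit 6) (nat_lit 10) L8398 (by decide +kernel)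
theorem L8431 : W_26 (nat_lit 14) (nat_lit 0xf00000001000080000000000000000000000000000000) (nat_lit 0x0) (nat_lit 0x6c0010001d8004f00778019c00000000000000000000000000) := T_26 (nat_lit 163) (nat_lit 162) (nat_lit 2) (nat_lit 6) (nat_lit 10) L8396 (by decide +kernel)
theorem L8432 : W_26 (nat_lit 5) (nat_lit 0x1f00080001000080000000000000000000000000000000) (nat_lit 0x0) (nat_lit 0x1c0020c0018000800000000000000000000000000000000000) := T_26 (nat_lit 160) (nat_lit 159) (nat_lit 0) (nat_lit 10) (nat_lit 10) L4810 (by decide +kernel)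
theorem L8433 : W_26 (nat_lit 6) (nat_lit 0xf00080001000080000000000000000000000000000000) (nat_lit 0x0) (nat_lit 0x1c0030c0118000800000000000000000000000000000000000) := T_26 (nat_lit 180) (nat_lit 164) (nat_lit 2) (nat_lit 7) (nat_lit 10) L8432 (by decide +kernel)
theorem L8434 : W_26 (nat_lit 7) (nat_lit 0xf00000001000080000000000000000000000000000000) (nat_lit 0x0) (nat_lit 0x1c0030c01d8000800000000000000000000000000000000000) := T_26 (nat_lit 163) (nat_lit 162) (nat_lit 2) (nat_lit 6) (nat_lit 10) L8433 (by decide +kernel)
theorem L8435 : W_26 (nat_lit 11) (nat_lit 0x20001f00080001000080000000000000000000000000000000) (nat_lit 0x0) (nat_lit 0xc000000018004f00778019c00000000000000000000000000) := T_26 (nat_lit 160) (nat_lit 159) (nat_lit 0) (nat_lit 10) (nat_lit 10) L8393 (by decide +kernel)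
theorem L8436 : W_26 (nat_lit 12) (nat_lit 0x20001f00000001000080000000000000000000000000000000) (nat_lit 0x0) (nat_lit 0xc000000198004f00778019c00000000000000000000000000) := T_26 (nat_lit 163) (nat_lit 164) (nat_lit 2) (nat_lit 7) (nat_lit 10) L8435 (by decide +kernel)
theorem L8437 : W_26 (nat_lit 13) (nat_lit 0x20000f00000001000080000000000000000000000000000000) (nat_lit 0x0) (nat_lit 0x4c001000198004f00778019c00000000000000000000000000) := T_26 (nat_lit 180) (nat_lit 198) (nat_lit 3) (nat_lit 7) (nat_lit 10) L8436 (by decide +kernel)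
theorem L8438 : W_26 (nat_lit 14) (nat_lit 0xf00000001000080000000000000000000000000000000) (nat_lit 0x0) (nat_lit 0x7c001000198004f00778019c00000000000000000000000000) := T_26 (nat_lit 197) (nat_lit 196) (nat_lit 3) (nat_lit 6) (nat_lit 10) L8437 (by decide +kernel)
theorem L8448 : W_26 (nat_lit 11) (nat_lit 0x20001f00000001000080000000000000000000000000000000) (nat_lit 0x0) (nat_lit 0xc000000018000f00778039c00000000000000000000000000) := T_26 (nat_lit 160) (nat_lit 159) (nat_lit 0) (nat_lit 10) (nat_lit 10) L8447 (by decide +kernel)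
theorem L8449 : W_26 (nat_lit 12) (nat_lit 0x20000f00000001000080000000000000000000000000000000) (nat_lit 0x0) (nat_lit 0x4c001000018000f00778039c00000000000000000000000000) := T_26 (nat_lit 180) (nat_lit 198) (nat_lit 3) (nat_lit 7) (nat_lit 10) L8448 (by decide +kernel)
theorem L8450 : W_26 (nat_lit 13) (nat_lit 0xf00000001000080000000000000000000000000000000) (nat_lit 0x0) (nat_lit 0x7c001000018000f00778039c00000000000000000000000000) := T_26 (nat_lit 197) (nat_lit 196) (nat_lit 3) (nat_lit 6) (nat_lit 10) L8449 (by decide +kernel)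
theorem L8451 : W_26 (nat_lit 15) (nat_lit 0x700000001000080000000000000000000000000000000) (nat_lit 0x0) (nat_lit 0x1c001e001fc007d8038c01d8004f00778039c00000000000000000000000000) := Q_26 (nat_lit 179) (C_26 L8429 (C_26 L8430 (C_26 L8431 (C_26 L8434 (C_26 L8438 (C_26 L8450 N_26)))))) (by decide +kernel)
theorem L8461 : W_26 (nat_lit 6) (nat_lit 0x400000021001f80088001800080000000000000000000000000000000) (nat_lit 0x0) (nat_lit 0x4000300070013c000000000000000000000000000000) := T_26 (nat_lit 142) (nat_lit 125) (nat_lit 5) (nat_lit 6) (nat_lit 7) L8460 (by decide +kernel)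
theorem L8462 : W_26 (nat_lit 7) (nat_lit 0x21001f80088001800080000000000000000000000000000000) (nat_lit 0x0) (nat_lit 0x40002000000004000300070013c000000000000000000000000000000) := T_26 (nat_lit 226) (nat_lit 209) (nat_lit 6) (nat_lit 5) (nat_lit 13) L8461 (by decide +kernel)
theorem L8463 : W_26 (nat_lit 8) (nat_lit 0x1001f80088001800080000000000000000000000000000000) (nat_lit 0x0) (nat_lit 0x40002006000004000300070013c000000000000000000000000000000) := T_26 (nat_lit 197) (nat_lit 198) (nat_lit 3) (nat_lit 7) (nat_lit 10) L8462 (by decide +kernel)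
theorem L8464 : W_26 (nat_lit 9) (nat_lit 0x1001f80080001800080000000000000000000000000000000) (nat_lit 0x0) (nat_lit 0x40002006000004001b00070013c000000000000000000000000000000) := T_26 (nat_lit 159) (nat_lit 160) (nat_lit 0) (nat_lit 10) (nat_lit 10) L8463 (by decide +kernel)
theorem L8465 : W_26 (nat_lit 10) (nat_lit 0x1000f80080001800080000000000000000000000000000000) (nat_lit 0x0) (nat_lit 0x40002006000104011b00070013c000000000000000000000000000000) := T_26 (nat_lit 180) (nat_lit 164) (nat_lit 2) (nat_lit 7) (nat_lit 10) L8464 (by decide +kernel)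
theorem L8466 : W_26 (nat_lit 11) (nat_lit 0x1000f80000001800080000000000000000000000000000000) (nat_lit 0x0) (nat_lit 0x4000200600010401db00070013c000000000000000000000000000000) := T_26 (nat_lit 163) (nat_lit 162) (nat_lit 2) (nat_lit 6) (nat_lit 10) L8465 (by decide +kernel)
theorem L8467 : W_26 (nat_lit 12) (nat_lit 0x1000f00000001800080000000000000000000000000000000) (nat_lit 0x0) (nat_lit 0x4000200608010c01db00070013c000000000000000000000000000000) := T_26 (nat_lit 175) (nat_lit 191) (nat_lit 1) (nat_lit 8) (nat_lit 10) L8466 (by decide +kernel)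
theorem L8468 : W_26 (nat_lit 13) (nat_lit 0xf00000001800080000000000000000000000000000000) (nat_lit 0x0) (nat_lit 0x4000200638010c01db00070013c000000000000000000000000000000) := T_26 (nat_lit 192) (nat_lit 193) (nat_lit 1) (nat_lit 9) (nat_lit 10) L8467 (by decide +kernel)
theorem L8478 : W_26 (nat_lit 10) (nat_lit 0x1f00090001800080000000000000000000000000000000) (nat_lit 0x0) (nat_lit 0x68000000000004700778019c00000000000000000000000000) := T_26 (nat_lit 197) (nat_lit 198) (nat_lit 3) (nat_lit 7) (nat_lit 10) L8392 (by decide +kernel)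
theorem L8479 : W_26 (nat_lit 11) (nat_lit 0x1f00080001800080000000000000000000000000000000) (nat_lit 0x0) (nat_lit 0x68000000018004700778019c00000000000000000000000000) := T_26 (nat_lit 160) (nat_lit 159) (nat_lit 0) (nat_lit 10) (nat_lit 10) L8478 (by decide +kernel)
theorem L8480 : W_26 (nat_lit 12) (nat_lit 0xf00080001800080000000000000000000000000000000) (nat_lit 0x0) (nat_lit 0x68001000118004700778019c00000000000000000000000000) := T_26 (nat_lit 180) (nat_lit 164) (nat_lit 2) (nat_lit 7) (nat_lit 10) L8479 (by decide +kernel)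
theorem L8481 : W_26 (nat_lit 13) (nat_lit 0xf00000001800080000000000000000000000000000000) (nat_lit 0x0) (nat_lit 0x680010001d8004700778019c00000000000000000000000000) := T_26 (nat_lit 163) (nat_lit 162) (nat_lit 2) (nat_lit 6) (nat_lit 10) L8480 (by decide +kernel)
theorem L8490 : W_26 (nat_lit 14) (nat_lit 0xf00000001000080000000000000000000000000000000) (nat_lit 0x0) (nat_lit 0x104008600eb8030c01db004f0077c019c00000000000000000000000000) := Q_26 (nat_lit 143) (C_26 L8456 (C_26 L8468 (C_26 L8477 (C_26 L8481 (C_26 L8485 (C_26 L8489 N_26)))))) (by decide +kernel)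
theorem L8491 : W_26 (nat_lit 2) (nat_lit 0x3000700000001000080000000000000000000000000000000) (nat_lit 0x0) (nat_lit 0xc00080000000000000000000000000000000000000000000) := D_26 (nat_lit 191) (nat_lit 175) (nat_lit 190) (nat_lit 1) (nat_lit 8) (nat_lit 10) (nat_lit 2) (nat_lit 3) (nat_lit 11) (by decide +kernel)
theorem L8492 : W_26 (nat_lit 3) (nat_lit 0x2000700000001000080000000000000000000000000000000) (nat_lit 0x0) (nat_lit 0x1c00880000000000000000000000000000000000000000000) := T_26 (nat_lit 192) (nat_lit 179) (nat_lit 1) (nat_lit 9) (nat_lit 10) L8491 (by decide +kernel)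
theorem L8493 : W_26 (nat_lit 7) (nat_lit 0x700000001000080000000000000000000000000000000) (nat_lit 0x0) (nat_lit 0x8000c0007c018801d8000f0017c000000000000000000000000000000) := Q_26 (nat_lit 193) (C_26 L8327 (C_26 L8330 (C_26 L8492 N_26))) (by decide +kernel)
theorem L8501 : W_26 (nat_lit 9) (nat_lit 0x1001f80080001800080000000000000000000000000000000) (nat_lit 0x0) (nat_lit 0x40002001800004001b00070013c000000000000000000000000000000) := T_26 (nat_lit 159) (nat_lit 160) (nat_lit 0) (nat_lit 10) (nat_lit 10) L8500 (by decide +kernel)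
theorem L8502 : W_26 (nat_lit 10) (nat_lit 0x1000f80080001800080000000000000000000000000000000) (nat_lit 0x0) (nat_lit 0x40002001800104011b00070013c000000000000000000000000000000) := T_26 (nat_lit 180) (nat_lit 164) (nat_lit 2) (nat_lit 7) (nat_lit 10) L8501 (by decide +kernel)
theorem L8503 : W_26 (nat_lit 11) (nat_lit 0x1000f00080001800080000000000000000000000000000000) (nat_lit 0x0) (nat_lit 0x4000200188010c011b00070013c000000000000000000000000000000) := T_26 (nat_lit 175) (nat_lit 191) (nat_lit 1) (nat_lit 8) (nat_lit 10) L8502 (by decide +kernel)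
theorem L8504 : W_26 (nat_lit 12) (nat_lit 0x1000f00000001800080000000000000000000000000000000) (nat_lit 0x0) (nat_lit 0x4000200188010c01db00070013c000000000000000000000000000000) := T_26 (nat_lit 163) (nat_lit 162) (nat_lit 2) (nat_lit 6) (nat_lit 10) L8503 (by decide +kernel)
theorem L8505 : W_26 (nat_lit 13) (nat_lit 0xf00000001800080000000000000000000000000000000) (nat_lit 0x0) (nat_lit 0x40002001b8010c01db00070013c000000000000000000000000000000) := T_26 (nat_lit 192) (nat_lit 193) (nat_lit 1) (nat_lit 9) (nat_lit 10) L8504 (by decide +kernel)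
theorem L8510 : W_26 (nat_lit 6) (nat_lit 0x1000f80080001800080000000000000000000000000000000) (nat_lit 0x0) (nat_lit 0x18001000100004600740000000000000000000000000000000) := T_26 (nat_lit 180) (nat_lit 164) (nat_lit 2) (nat_lit 7) (nat_lit 10) L8509 (by decide +kernel)
theorem L8511 : W_26 (nat_lit 7) (nat_lit 0x1000f00080001800080000000000000000000000000000000) (nat_lit 0x0) (nat_lit 0x18801080100004600740000000000000000000000000000000) := T_26 (nat_lit 175) (nat_lit 191) (nat_lit 1) (nat_lit 8) (nat_lit 10) L8510 (by decide +kernel)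
theorem L8512 : W_26 (nat_lit 8) (nat_lit 0xf00080001800080000000000000000000000000000000) (nat_lit 0x0) (nat_lit 0x1b801080100004600740000000000000000000000000000000) := T_26 (nat_lit 192) (nat_lit 193) (nat_lit 1) (nat_lit 9) (nat_lit 10) L8511 (by decide +kernel)
theorem L8513 : W_26 (nat_lit 9) (nat_lit 0xf00000001800080000000000000000000000000000000) (nat_lit 0x0) (nat_lit 0x1b8010801c0004600740000000000000000000000000000000) := T_26 (nat_lit 163) (nat_lit 162) (nat_lit 2) (nat_lit 6) (nat_lit 10) L8512 (by decide +kernel)
theorem L8525 : W_26 (nat_lit 14) (nat_lit 0xf00000001000080000000000000000000000000000000) (nat_lit 0x0) (nat_lit 0x40006001b8010c01db004f0077c019c00000000000000000000000000) := Q_26 (nat_lit 143) (C_26 L8489 (C_26 L8505 (C_26 L8513 (C_26 L8524 (C_26 L8485 N_26))))) (by decide +kernel)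
theorem L8526 : W_26 (nat_lit 15) (nat_lit 0x700000001000080000000000000000000000000000000) (nat_lit 0x0) (nat_lit 0x104008600fb8038c01db004f0077c019c00000000000000000000000000) := Q_26 (nat_lit 179) (C_26 L8525 (C_26 L8430 (C_26 L8490 (C_26 L8373 N_26)))) (by decide +kernel)
theorem L8527 : W_26 (nat_lit 8) (nat_lit 0x10000f00000001000080000000000000000000000000000000) (nat_lit 0x0) (nat_lit 0x1c001e001fc000c0000800d0000000000000000000000000000000000000000) := Q_26 (nat_lit 213) (C_26 L8427 (C_26 L8408 (C_26 L8412 (C_26 L8418 (C_26 L8423 N_26))))) (by decide +kernel)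
theorem L8528 : W_26 (nat_lit 9) (nat_lit 0xf00000001000080000000000000000000000000000000) (nat_lit 0x0) (nat_lit 0x1c001e001fc003c0000800d0000000000000000000000000000000000000000) := T_26 (nat_lit 196) (nat_lit 197) (nat_lit 3) (nat_lit 6) (nat_lit 10) L8527 (by decide +kernel)
theorem L8529 : W_26 (nat_lit 15) (nat_lit 0x700000001000080000000000000000000000000000000) (nat_lit 0x0) (nat_lit 0x1c001e001fc007c0038c01d8004f00778039c00000000000000000000000000) := Q_26 (nat_lit 179) (C_26 L8528 (C_26 L8430 (C_26 L8431 (C_26 L8434 (C_26 L8450 N_26))))) (by decide +kernel)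
theorem L8534 : W_26 (nat_lit 2) (nat_lit 0x8000780008001e00090000000000000000000000000000000) (nat_lit 0x0) (nat_lit 0x1000000000000000020000800000000000000000000000000) := D_26 (nat_lit 125) (nat_lit 107) (nat_lit 192) (nat_lit 4) (nat_lit 6) (nat_lit 10) (nat_lit 5) (nat_lit 6) (nat_lit 7) (by decide +kernel)
theorem L8535 : W_26 (nat_lit 3) (nat_lit 0x8000780000001e00090000000000000000000000000000000) (nat_lit 0x0) (nat_lit 0x3000000008000000020000800000000000000000000000000) := T_26 (nat_lit 159) (nat_lit 193) (nat_lit 4) (nat_lit 6) (nat_lit 11) L8534 (by decide +kernel)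
theorem L8536 : W_26 (nat_lit 4) (nat_lit 0x780000001e00090000000000000000000000000000000) (nat_lit 0x0) (nat_lit 0x1b000000008000000020000800000000000000000000000000) := T_26 (nat_lit 195) (nat_lit 196) (nat_lit 3) (nat_lit 5) (nat_lit 10) L8535 (by decide +kernel)
theorem L8537 : W_26 (nat_lit 5) (nat_lit 0x780000001e00080000000000000000000000000000000) (nat_lit 0x0) (nat_lit 0x1b000000008000000038000800000000000000000000000000) := T_26 (nat_lit 124) (nat_lit 123) (nat_lit 0) (nat_lit 8) (nat_lit 8) L8536 (by decide +kernel)
theorem L8538 : W_26 (nat_lit 6) (nat_lit 0x780000001c00080000000000000000000000000000000) (nat_lit 0x0) (nat_lit 0x1b000000008000200138000800000000000000000000000000) := T_26 (nat_lit 141) (nat_lit 128) (nat_lit 2) (nat_lit 5) (nat_lit 8) L8537 (by decide +kernel)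
theorem L8546 : W_26 (nat_lit 7) (nat_lit 0x780000001800080000000000000000000000000000000) (nat_lit 0x0) (nat_lit 0x1b00000001800070017c002800000000000000000000000000) := Q_26 (nat_lit 142) (C_26 L8533 (C_26 L8538 (C_26 L8541 (C_26 L8545 N_26)))) (by decide +kernel)
theorem L8547 : W_26 (nat_lit 4) (nat_lit 0x8000780000001a00080000000000000000000000000000000) (nat_lit 0x0) (nat_lit 0x50015c000000000000000000000000000000) := T_26 (nat_lit 142) (nat_lit 128) (nat_lit 2) (nat_lit 5) (nat_lit 8) L8531 (by decide +kernel)
theorem L8548 : W_26 (nat_lit 5) (nat_lit 0x780000001a00080000000000000000000000000000000) (nat_lit 0x0) (nat_lit 0x1800000000000050015c000000000000000000000000000000) := T_26 (nat_lit 195) (nat_lit 196) (nat_lit 3) (nat_lit 5) (nat_lit 10) L8547 (by decide +kernel)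
theorem L8549 : W_26 (nat_lit 2) (nat_lit 0x9000780000001f00088000000000000000000000000000000) (nat_lit 0x0) (nat_lit 0x40003000000000000000000000000000000000000000) := D_26 (nat_lit 157) (nat_lit 156) (nat_lit 174) (nat_lit 1) (nat_lit 7) (nat_lit 8) (nat_lit 7) (nat_lit 4) (nat_lit 7) (by decide +kernel)
theorem L8550 : W_26 (nat_lit 3) (nat_lit 0x9000780000001e00088000000000000000000000000000000) (nat_lit 0x0) (nat_lit 0x40003000100004000000000000000000000000000000) := T_26 (nat_lit 140) (nat_lit 122) (nat_lit 0) (nat_lit 7) (nat_lit 8) L8549 (by decide +kernel)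
theorem L8551 : W_26 (nat_lit 4) (nat_lit 0x9000780000001e00080000000000000000000000000000000) (nat_lit 0x0) (nat_lit 0x4000300010001c000000000000000000000000000000) := T_26 (nat_lit 123) (nat_lit 124) (nat_lit 0) (nat_lit 8) (nat_lit 8) L8550 (by decide +kernel)
theorem L8552 : W_26 (nat_lit 5) (nat_lit 0x9000780000001a00080000000000000000000000000000000) (nat_lit 0x0) (nat_lit 0x4000300050011c000000000000000000000000000000) := T_26 (nat_lit 142) (nat_lit 128) (nat_lit 2) (nat_lit 5) (nat_lit 8) L8551 (by decide +kernel)
theorem L8553 : W_26 (nat_lit 6) (nat_lit 0x1000780000001a00080000000000000000000000000000000) (nat_lit 0x0) (nat_lit 0x1800004000300050011c000000000000000000000000000000) := T_26 (nat_lit 195) (nat_lit 196) (nat_lit 3) (nat_lit 5) (nat_lit 10) L8552 (by decide +kernel)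
theorem L8554 : W_26 (nat_lit 7) (nat_lit 0x780000001a00080000000000000000000000000000000) (nat_lit 0x0) (nat_lit 0x1980004000300050011c000000000000000000000000000000) := T_26 (nat_lit 192) (nat_lit 191) (nat_lit 1) (nat_lit 8) (nat_lit 10) L8553 (by decide +kernel)
theorem L8571 : W_26 (nat_lit 11) (nat_lit 0x8000780000001a00080000000000000000000000000000000) (nat_lit 0x0) (nat_lit 0x1c00040013000100778039c00000000000000000000000000) := T_26 (nat_lit 191) (nat_lit 192) (nat_lit 1) (nat_lit 8) (nat_lit 10) L8570 (by decide +kernel)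
theorem L8572 : W_26 (nat_lit 12) (nat_lit 0x780000001a00080000000000000000000000000000000) (nat_lit 0x0) (nat_lit 0x19c00040013000100778039c00000000000000000000000000) := T_26 (nat_lit 195) (nat_lit 196) (nat_lit 3) (nat_lit 5) (nat_lit 10) L8571 (by decide +kernel)
theorem L8576 : W_26 (nat_lit 2) (nat_lit 0x8000780000005a003e0010000000000000000000000000000) (nat_lit 0x0) (nat_lit 0x3800000000000000000000000000) := D_26 (nat_lit 108) (nat_lit 107) (nat_lit 109) (nat_lit 0) (nat_lit 9) (nat_lit 7) (nat_lit 0) (nat_lit 10) (nat_lit 7) (by decide +kernel)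
theorem L8577 : W_26 (nat_lit 3) (nat_lit 0x8000780000005a003c0010000000000000000000000000000) (nat_lit 0x0) (nat_lit 0x2000b800000000000000000000000000) := T_26 (nat_lit 125) (nat_lit 111) (nat_lit 2) (nat_lit 6) (nat_lit 7) L8576 (by decide +kernel)
theorem L8578 : W_26 (nat_lit 4) (nat_lit 0x8000780000005a003c0000000000000000000000000000000) (nat_lit 0x0) (nat_lit 0x2003b800000000000000000000000000) := T_26 (nat_lit 112) (nat_lit 113) (nat_lit 2) (nat_lit 7) (nat_lit 7) L8577 (by decide +kernel)
theorem L8579 : W_26 (nat_lit 5) (nat_lit 0x8000780000001a003c0000000000000000000000000000000) (nat_lit 0x0) (nat_lit 0xc00002003b800000000000000000000000000) := T_26 (nat_lit 146) (nat_lit 147) (nat_lit 3) (nat_lit 7) (nat_lit 7) L8578 (by decide +kernel)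
theorem L8580 : W_26 (nat_lit 6) (nat_lit 0x8000780000001a00380000000000000000000000000000000) (nat_lit 0x0) (nat_lit 0x1000c00006003b800000000000000000000000000) := T_26 (nat_lit 126) (nat_lit 160) (nat_lit 7) (nat_lit 7) (nat_lit 7) L8579 (by decide +kernel)
theorem L8581 : W_26 (nat_lit 7) (nat_lit 0x8000780000001a00180000000000000000000000000000000) (nat_lit 0x0) (nat_lit 0x1000c00066003b800000000000000000000000000) := T_26 (nat_lit 129) (nat_lit 130) (nat_lit 1) (nat_lit 11) (nat_lit 7) L8580 (by decide +kernel)
theorem L8582 : W_26 (nat_lit 8) (nat_lit 0x8000780000001a00080000000000000000000000000000000) (nat_lit 0x0) (nat_lit 0x1000c40076003b800000000000000000000000000) := T_26 (nat_lit 128) (nat_lit 142) (nat_lit 2) (nat_lit 5) (nat_lit 8) L8581 (by decide +kernel)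
theorem L8583 : W_26 (nat_lit 9) (nat_lit 0x780000001a00080000000000000000000000000000000) (nat_lit 0x0) (nat_lit 0x1800000001000c40076003b800000000000000000000000000) := T_26 (nat_lit 195) (nat_lit 196) (nat_lit 3) (nat_lit 5) (nat_lit 10) L8582 (by decide +kernel)
theorem L8584 : W_26 (nat_lit 13) (nat_lit 0x780000001800080000000000000000000000000000000) (nat_lit 0x0) (nat_lit 0x19c0004001300c70077c03bc00000000000000000000000000) := Q_26 (nat_lit 141) (C_26 L8548 (C_26 L8554 (C_26 L8555 (C_26 L8561 (C_26 L8572 (C_26 L8575 (C_26 L8583 N_26))))))) (by decide +kernel)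
theorem L8586 : W_26 (nat_lit 2) (nat_lit 0x4007e0000001800080000000000000000000000000000000) (nat_lit 0x0) (nat_lit 0x3800000000000000000000000000000000000000) := D_26 (nat_lit 156) (nat_lit 155) (nat_lit 157) (nat_lit 0) (nat_lit 6) (nat_lit 10) (nat_lit 0) (nat_lit 7) (nat_lit 10) (by decide +kernel)
theorem L8587 : W_26 (nat_lit 3) (nat_lit 0x4007c0000001800080000000000000000000000000000000) (nat_lit 0x0) (nat_lit 0x200020003800000000000000000000000000000000000000) := T_26 (nat_lit 173) (nat_lit 189) (nat_lit 1) (nat_lit 6) (nat_lit 10) L8586 (by decide +kernel)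
theorem L8588 : W_26 (nat_lit 4) (nat_lit 0x7c0000001800080000000000000000000000000000000) (nat_lit 0x0) (nat_lit 0xe00020003800000000000000000000000000000000000000) := T_26 (nat_lit 190) (nat_lit 191) (nat_lit 1) (nat_lit 7) (nat_lit 10) L8587 (by decide +kernel)
theorem L8589 : W_26 (nat_lit 2) (nat_lit 0x800000092007f0009001e00084000000000000000000000000000000) (nat_lit 0x0) (nat_lit 0x100018000000000000000000000000000000) := D_26 (nat_lit 123) (nat_lit 124) (nat_lit 140) (nat_lit 0) (nat_lit 8) (nat_lit 8) (nat_lit 0) (nat_lit 7) (nat_lit 8) (by decide +kernel)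
theorem L8590 : W_26 (nat_lit 3) (nat_lit 0x800000092007f0009001c00084000000000000000000000000000000) (nat_lit 0x0) (nat_lit 0x300118000000000000000000000000000000) := T_26 (nat_lit 141) (nat_lit 128) (nat_lit 2) (nat_lit 5) (nat_lit 8) L8589 (by decide +kernel)
theorem L8591 : W_26 (nat_lit 4) (nat_lit 0x800000092007f0009001800084000000000000000000000000000000) (nat_lit 0x0) (nat_lit 0x700138000000000000000000000000000000) := T_26 (nat_lit 142) (nat_lit 125) (nat_lit 5) (nat_lit 6) (nat_lit 7) L8590 (by decide +kernel)
theorem L8592 : W_26 (nat_lit 5) (nat_lit 0x800000082007f0009001800084000000000000000000000000000000) (nat_lit 0x0) (nat_lit 0x3000000000000700138000000000000000000000000000000) := T_26 (nat_lit 192) (nat_lit 193) (nat_lit 3) (nat_lit 2) (nat_lit 10) L8591 (by decide +kernel)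
theorem L8593 : W_26 (nat_lit 6) (nat_lit 0x800000082007f0009001800080000000000000000000000000000000) (nat_lit 0x0) (nat_lit 0x300000000000078013c000000000000000000000000000000) := T_26 (nat_lit 122) (nat_lit 139) (nat_lit 5) (nat_lit 3) (nat_lit 7) L8592 (by decide +kernel)
theorem L8594 : W_26 (nat_lit 7) (nat_lit 0x82007f0009001800080000000000000000000000000000000) (nat_lit 0x0) (nat_lit 0x8000400300000000000078013c000000000000000000000000000000) := T_26 (nat_lit 223) (nat_lit 206) (nat_lit 6) (nat_lit 2) (nat_lit 13) L8593 (by decide +kernel)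
theorem L8595 : W_26 (nat_lit 8) (nat_lit 0x82007f0001001800080000000000000000000000000000000) (nat_lit 0x0) (nat_lit 0x8000400300000001800078013c000000000000000000000000000000) := T_26 (nat_lit 159) (nat_lit 160) (nat_lit 2) (nat_lit 3) (nat_lit 10) L8594 (by decide +kernel)
theorem L8596 : W_26 (nat_lit 9) (nat_lit 0x82007e0001001800080000000000000000000000000000000) (nat_lit 0x0) (nat_lit 0x8000400310001001800078013c000000000000000000000000000000) := T_26 (nat_lit 172) (nat_lit 188) (nat_lit 1) (nat_lit 5) (nat_lit 10) L8595 (by decide +kernel)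
theorem L8597 : W_26 (nat_lit 10) (nat_lit 0x80007e0001001800080000000000000000000000000000000) (nat_lit 0x0) (nat_lit 0x8000400370001001800078013c000000000000000000000000000000) := T_26 (nat_lit 189) (nat_lit 190) (nat_lit 1) (nat_lit 6) (nat_lit 10) L8596 (by decide +kernel)
theorem L8598 : W_26 (nat_lit 11) (nat_lit 0x80007c0001001800080000000000000000000000000000000) (nat_lit 0x0) (nat_lit 0x8000400370003001880078013c000000000000000000000000000000) := T_26 (nat_lit 173) (nat_lit 155) (nat_lit 0) (nat_lit 6) (nat_lit 10) L8597 (by decide +kernel)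
theorem L8599 : W_26 (nat_lit 12) (nat_lit 0x7c0001001800080000000000000000000000000000000) (nat_lit 0x0) (nat_lit 0x8000401b70003001880078013c000000000000000000000000000000) := T_26 (nat_lit 195) (nat_lit 196) (nat_lit 3) (nat_lit 5) (nat_lit 10) L8598 (by decide +kernel)
theorem L8600 : W_26 (nat_lit 13) (nat_lit 0x7c0000001800080000000000000000000000000000000) (nat_lit 0x0) (nat_lit 0x8000401b70003001b80078013c000000000000000000000000000000) := T_26 (nat_lit 156) (nat_lit 157) (nat_lit 0) (nat_lit 7) (nat_lit 10) L8599 (by decide +kernel)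
theorem L8601 : W_26 (nat_lit 2) (nat_lit 0x4000000092007f0009001e00084000000000000000000000000000000) (nat_lit 0x0) (nat_lit 0x100018000000000000000000000000000000) := D_26 (nat_lit 123) (nat_lit 124) (nat_lit 140) (nat_lit 0) (nat_lit 8) (nat_lit 8) (nat_lit 0) (nat_lit 7) (nat_lit 8) (by decide +kernel)
theorem L8602 : W_26 (nat_lit 3) (nat_lit 0x4000000092007f0009001c00084000000000000000000000000000000) (nat_lit 0x0) (nat_lit 0x300118000000000000000000000000000000) := T_26 (nat_lit 141) (nat_lit 128) (nat_lit 2) (nat_lit 5) (nat_lit 8) L8601 (by decide +kernel)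
theorem L8603 : W_26 (nat_lit 4) (nat_lit 0x4000000092007f0009001c00080000000000000000000000000000000) (nat_lit 0x0) (nat_lit 0x38011c000000000000000000000000000000) := T_26 (nat_lit 122) (nat_lit 139) (nat_lit 5) (nat_lit 3) (nat_lit 7) L8602 (by decide +kernel)
theorem L8604 : W_26 (nat_lit 5) (nat_lit 0x4000000092007f0009001800080000000000000000000000000000000) (nat_lit 0x0) (nat_lit 0x78013c000000000000000000000000000000) := T_26 (nat_lit 142) (nat_lit 125) (nat_lit 5) (nat_lit 6) (nat_lit 7) L8603 (by decide +kernel)
theorem L8605 : W_26 (nat_lit 6) (nat_lit 0x92007f0009001800080000000000000000000000000000000) (nat_lit 0x0) (nat_lit 0x40002000000000000000078013c000000000000000000000000000000) := T_26 (nat_lit 226) (nat_lit 209) (nat_lit 6) (nat_lit 5) (nat_lit 13) L8604 (by decide +kernel)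
theorem L8606 : W_26 (nat_lit 7) (nat_lit 0x90007f0009001800080000000000000000000000000000000) (nat_lit 0x0) (nat_lit 0x40002000030000000000078013c000000000000000000000000000000) := T_26 (nat_lit 189) (nat_lit 188) (nat_lit 1) (nat_lit 5) (nat_lit 10) L8605 (by decide +kernel)
theorem L8607 : W_26 (nat_lit 8) (nat_lit 0x90007e0009001800080000000000000000000000000000000) (nat_lit 0x0) (nat_lit 0x40002000230001000000078013c000000000000000000000000000000) := T_26 (nat_lit 172) (nat_lit 193) (nat_lit 3) (nat_lit 2) (nat_lit 10) L8606 (by decide +kernel)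
theorem L8608 : W_26 (nat_lit 9) (nat_lit 0x90007e0001001800080000000000000000000000000000000) (nat_lit 0x0) (nat_lit 0x40002000230001001800078013c000000000000000000000000000000) := T_26 (nat_lit 159) (nat_lit 160) (nat_lit 2) (nat_lit 3) (nat_lit 10) L8607 (by decide +kernel)
theorem L8609 : W_26 (nat_lit 10) (nat_lit 0x90007c0001001800080000000000000000000000000000000) (nat_lit 0x0) (nat_lit 0x40002000230003001880078013c000000000000000000000000000000) := T_26 (nat_lit 173) (nat_lit 155) (nat_lit 0) (nat_lit 6) (nat_lit 10) L8608 (by decide +kernel)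
theorem L8610 : W_26 (nat_lit 11) (nat_lit 0x90007c0000001800080000000000000000000000000000000) (nat_lit 0x0) (nat_lit 0x40002000230003001b80078013c000000000000000000000000000000) := T_26 (nat_lit 156) (nat_lit 157) (nat_lit 0) (nat_lit 7) (nat_lit 10) L8609 (by decide +kernel)
theorem L8611 : W_26 (nat_lit 12) (nat_lit 0x80007c0000001800080000000000000000000000000000000) (nat_lit 0x0) (nat_lit 0x400020003b0003001b80078013c000000000000000000000000000000) := T_26 (nat_lit 192) (nat_lit 191) (nat_lit 1) (nat_lit 8) (nat_lit 10) L8610 (by decide +kernel)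
theorem L8612 : W_26 (nat_lit 13) (nat_lit 0x7c0000001800080000000000000000000000000000000) (nat_lit 0x0) (nat_lit 0x40002001bb0003001b80078013c000000000000000000000000000000) := T_26 (nat_lit 195) (nat_lit 196) (nat_lit 3) (nat_lit 5) (nat_lit 10) L8611 (by decide +kernel)
theorem L8613 : W_26 (nat_lit 14) (nat_lit 0x780000001800080000000000000000000000000000000) (nat_lit 0x0) (nat_lit 0x48002401bf0007001b80078013c000000000000000000000000000000) := Q_26 (nat_lit 174) (C_26 L8585 (C_26 L8588 (C_26 L8600 (C_26 L8612 N_26)))) (by decide +kernel)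
theorem L8616 : W_26 (nat_lit 4) (nat_lit 0x8000780000001c00080000000000000000000000000000000) (nat_lit 0x0) (nat_lit 0x20003800000008000000060000000000000000000000000000000) := T_26 (nat_lit 192) (nat_lit 191) (nat_lit 1) (nat_lit 8) (nat_lit 10) L8615 (by decide +kernel)
theorem L8617 : W_26 (nat_lit 5) (nat_lit 0x780000001c00080000000000000000000000000000000) (nat_lit 0x0) (nat_lit 0x2001b800000008000000060000000000000000000000000000000) := T_26 (nat_lit 195) (nat_lit 196) (nat_lit 3) (nat_lit 5) (nat_lit 10) L8616 (by decide +kernel)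
theorem L8618 : W_26 (nat_lit 7) (nat_lit 0x780000001800080000000000000000000000000000000) (nat_lit 0x0) (nat_lit 0x2001b80000000800070017c000800000000000000000000000000) := Q_26 (nat_lit 142) (C_26 L8541 (C_26 L8538 (C_26 L8617 N_26))) (by decide +kernel)
theorem L8619 : W_26 (nat_lit 2) (nat_lit 0x8007e0011001a001f4010000000000000000000000000000) (nat_lit 0x0) (nat_lit 0x600020000000000000000000000000000) := D_26 (nat_lit 129) (nat_lit 130) (nat_lit 113) (nat_lit 1) (nat_lit 11) (nat_lit 7) (nat_lit 2) (nat_lit 7) (nat_lit 7) (by decide +kernel)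
theorem L8620 : W_26 (nat_lit 3) (nat_lit 0x8007e0011001a001f4000000000000000000000000000000) (nat_lit 0x0) (nat_lit 0x600038000000000000000000000000000) := T_26 (nat_lit 112) (nat_lit 111) (nat_lit 2) (nat_lit 6) (nat_lit 7) L8619 (by decide +kernel)
theorem L8621 : W_26 (nat_lit 4) (nat_lit 0x8007e0011001a000f4000000000000000000000000000000) (nat_lit 0x0) (nat_lit 0x400700038000000000000000000000000000) := T_26 (nat_lit 128) (nat_lit 142) (nat_lit 2) (nat_lit 5) (nat_lit 8) L8620 (by decide +kernel)
theorem L8622 : W_26 (nat_lit 5) (nat_lit 0x8007e00110018000f4000000000000000000000000000000) (nat_lit 0x0) (nat_lit 0x700700038000000000000000000000000000) := T_26 (nat_lit 141) (nat_lit 140) (nat_lit 1) (nat_lit 8) (nat_lit 7) L8621 (by decide +kernel)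
theorem L8623 : W_26 (nat_lit 6) (nat_lit 0x8007e00110018000e4000000000000000000000000000000) (nat_lit 0x0) (nat_lit 0x700718038000000000000000000000000000) := T_26 (nat_lit 124) (nat_lit 123) (nat_lit 3) (nat_lit 4) (nat_lit 7) L8622 (by decide +kernel)
theorem L8624 : W_26 (nat_lit 7) (nat_lit 0x8007e00110018000c4000000000000000000000000000000) (nat_lit 0x0) (nat_lit 0x700738039000000000000000000000000000) := T_26 (nat_lit 125) (nat_lit 108) (nat_lit 4) (nat_lit 7) (nat_lit 10) L8623 (by decide +kernel)
theorem L8625 : W_26 (nat_lit 8) (nat_lit 0x8007e0011001800084000000000000000000000000000000) (nat_lit 0x0) (nat_lit 0x2000000000000700778039000000000000000000000000000) := T_26 (nat_lit 126) (nat_lit 193) (nat_lit 5) (nat_lit 7) (nat_lit 7) L8624 (by decide +kernel)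
theorem L8626 : W_26 (nat_lit 9) (nat_lit 0x8007e0011001800080000000000000000000000000000000) (nat_lit 0x0) (nat_lit 0x200000000000078077c039000000000000000000000000000) := T_26 (nat_lit 122) (nat_lit 139) (nat_lit 7) (nat_lit 3) (nat_lit 7) L8625 (by decide +kernel)
theorem L8627 : W_26 (nat_lit 10) (nat_lit 0x8007e0001001800080000000000000000000000000000000) (nat_lit 0x0) (nat_lit 0x200000001800078077c039000000000000000000000000000) := T_26 (nat_lit 160) (nat_lit 159) (nat_lit 2) (nat_lit 3) (nat_lit 10) L8626 (by decide +kernel)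
theorem L8628 : W_26 (nat_lit 11) (nat_lit 0x8007c0001001800080000000000000000000000000000000) (nat_lit 0x0) (nat_lit 0x200002001880078077c039000000000000000000000000000) := T_26 (nat_lit 173) (nat_lit 155) (nat_lit 0) (nat_lit 6) (nat_lit 10) L8627 (by decide +kernel)
theorem L8629 : W_26 (nat_lit 12) (nat_lit 0x8007c0000001800080000000000000000000000000000000) (nat_lit 0x0) (nat_lit 0x200002001b80078077c039000000000000000000000000000) := T_26 (nat_lit 156) (nat_lit 157) (nat_lit 0) (nat_lit 7) (nat_lit 10) L8628 (by decide +kernel)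
theorem L8630 : W_26 (nat_lit 13) (nat_lit 0x800780000001800080000000000000000000000000000000) (nat_lit 0x0) (nat_lit 0x240006001b80078077c039000000000000000000000000000) := T_26 (nat_lit 174) (nat_lit 190) (nat_lit 1) (nat_lit 7) (nat_lit 10) L8629 (by decide +kernel)
theorem L8631 : W_26 (nat_lit 14) (nat_lit 0x780000001800080000000000000000000000000000000) (nat_lit 0x0) (nat_lit 0x3c0006001b80078077c039000000000000000000000000000) := T_26 (nat_lit 191) (nat_lit 192) (nat_lit 1) (nat_lit 8) (nat_lit 10) L8630 (by decide +kernel)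
theorem L8632 : W_26 (nat_lit 2) (nat_lit 0x88007c0011001800080000000000000000000000000000000) (nat_lit 0x0) (nat_lit 0x20008800000000000000000000000000000000000000) := D_26 (nat_lit 173) (nat_lit 155) (nat_lit 159) (nat_lit 0) (nat_lit 6) (nat_lit 10) (nat_lit 2) (nat_lit 3) (nat_lit 10) (by decide +kernel)
theorem L8633 : W_26 (nat_lit 3) (nat_lit 0x88007c0001001800080000000000000000000000000000000) (nat_lit 0x0) (nat_lit 0x20018800000040000000000000000000000000000000) := T_26 (nat_lit 160) (nat_lit 126) (nat_lit 7) (nat_lit 7) (nat_lit 7) L8632 (by decide +kernel)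
theorem L8634 : W_26 (nat_lit 4) (nat_lit 0x88007c0000001800080000000000000000000000000000000) (nat_lit 0x0) (nat_lit 0x2001b800000040000000000000000000000000000000) := T_26 (nat_lit 156) (nat_lit 157) (nat_lit 0) (nat_lit 7) (nat_lit 10) L8633 (by decide +kernel)
theorem L8635 : W_26 (nat_lit 5) (nat_lit 0x8800780000001800080000000000000000000000000000000) (nat_lit 0x0) (nat_lit 0x40006001b800000040000000000000000000000000000000) := T_26 (nat_lit 174) (nat_lit 190) (nat_lit 1) (nat_lit 7) (nat_lit 10) L8634 (by decide +kernel)
theorem L8636 : W_26 (nat_lit 6) (nat_lit 0x800780000001800080000000000000000000000000000000) (nat_lit 0x0) (nat_lit 0x1840006001b800000040000000000000000000000000000000) := T_26 (nat_lit 195) (nat_lit 196) (nat_lit 3) (nat_lit 5) (nat_lit 10) L8635 (by decide +kernel)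
theorem L8637 : W_26 (nat_lit 7) (nat_lit 0x780000001800080000000000000000000000000000000) (nat_lit 0x0) (nat_lit 0x19c0006001b800000040000000000000000000000000000000) := T_26 (nat_lit 191) (nat_lit 192) (nat_lit 1) (nat_lit 8) (nat_lit 10) L8636 (by decide +kernel)
theorem L8638 : W_26 (nat_lit 2) (nat_lit 0x8000780008001e00090000000000000000000000000000000) (nat_lit 0x0) (nat_lit 0x20000800040000000000000000000000) := D_26 (nat_lit 107) (nat_lit 125) (nat_lit 90) (nat_lit 4) (nat_lit 6) (nat_lit 10) (nat_lit 7) (nat_lit 5) (nat_lit 5) (by decide +kernel)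
theorem L8639 : W_26 (nat_lit 3) (nat_lit 0x8000780000001e00090000000000000000000000000000000) (nat_lit 0x0) (nat_lit 0x2000000008000000020000800040000000000000000000000) := T_26 (nat_lit 159) (nat_lit 193) (nat_lit 4) (nat_lit 6) (nat_lit 11) L8638 (by decide +kernel)
theorem L8640 : W_26 (nat_lit 4) (nat_lit 0x8000780000001e00080000000000000000000000000000000) (nat_lit 0x0) (nat_lit 0x2000000008000000038000800040000000000000000000000) := T_26 (nat_lit 124) (nat_lit 123) (nat_lit 0) (nat_lit 8) (nat_lit 8) L8639 (by decide +kernel)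
theorem L8641 : W_26 (nat_lit 5) (nat_lit 0x8000780000001c00080000000000000000000000000000000) (nat_lit 0x0) (nat_lit 0x2000000008000200138000800040000000000000000000000) := T_26 (nat_lit 141) (nat_lit 128) (nat_lit 2) (nat_lit 5) (nat_lit 8) L8640 (by decide +kernel)
theorem L8642 : W_26 (nat_lit 6) (nat_lit 0x780000001c00080000000000000000000000000000000) (nat_lit 0x0) (nat_lit 0x1a000000008000200138000800040000000000000000000000) := T_26 (nat_lit 195) (nat_lit 196) (nat_lit 3) (nat_lit 5) (nat_lit 10) L8641 (by decide +kernel)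
theorem L8647 : W_26 (nat_lit 7) (nat_lit 0x780000001800080000000000000000000000000000000) (nat_lit 0x0) (nat_lit 0x1a00000001800070017c002800140000000000000000000000) := Q_26 (nat_lit 142) (C_26 L8541 (C_26 L8642 (C_26 L8646 N_26))) (by decide +kernel)
theorem L8648 : W_26 (nat_lit 15) (nat_lit 0x780000001000080000000000000000000000000000000) (nat_lit 0x0) (nat_lit 0x48002401bf0007001b80cf8077c03bc00140000000000000000000000) := Q_26 (nat_lit 143) (C_26 L8546 (C_26 L8584 (C_26 L8613 (C_26 L8618 (C_26 L8631 (C_26 L8637 (C_26 L8647 N_26))))))) (by decide +kernel)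
theorem L8649 : W_26 (nat_lit 2) (nat_lit 0x4000780008001400080000000000000000000000000000000) (nat_lit 0x0) (nat_lit 0x1000080002000000000000000000000000000000000000000000000000) := D_26 (nat_lit 211) (nat_lit 193) (nat_lit 228) (nat_lit 7) (nat_lit 6) (nat_lit 8) (nat_lit 4) (nat_lit 7) (nat_lit 13) (by decide +kernel)
theorem L8650 : W_26 (nat_lit 3) (nat_lit 0x4000780000001400080000000000000000000000000000000) (nat_lit 0x0) (nat_lit 0x1000080002000000008000000020000000000000000000000000000000) := T_26 (nat_lit 159) (nat_lit 125) (nat_lit 7) (nat_lit 6) (nat_lit 7) L8649 (by decide +kernel)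
theorem L8653 : W_26 (nat_lit 4) (nat_lit 0x4000780000001c00080000000000000000000000000000000) (nat_lit 0x0) (nat_lit 0x30015c000000000000000000000000000000) := T_26 (nat_lit 141) (nat_lit 128) (nat_lit 2) (nat_lit 5) (nat_lit 8) L8652 (by decide +kernel)
theorem L8654 : W_26 (nat_lit 5) (nat_lit 0x4000780000001400080000000000000000000000000000000) (nat_lit 0x0) (nat_lit 0x10000b0015c000000000000000000000000000000) := T_26 (nat_lit 143) (nat_lit 160) (nat_lit 6) (nat_lit 7) (nat_lit 11) L8653 (by decide +kernel)
theorem L8655 : W_26 (nat_lit 6) (nat_lit 0x4000780000001000080000000000000000000000000000000) (nat_lit 0x0) (nat_lit 0x1000080002000000018000f0017c000000000000000000000000000000) := Q_26 (nat_lit 142) (C_26 L8650 (C_26 L8654 N_26)) (by decide +kernel)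
theorem L8656 : W_26 (nat_lit 7) (nat_lit 0x780000001000080000000000000000000000000000000) (nat_lit 0x0) (nat_lit 0x100008001e000040018000f0017c000000000000000000000000000000) := Q_26 (nat_lit 194) (C_26 L8655 (C_26 L8244 N_26)) (by decide +kernel)
theorem L8657 : W_26 (nat_lit 2) (nat_lit 0x9000780008001c00080000000000000000000000000000000) (nat_lit 0x0) (nat_lit 0x400020002000000000000000000000000000000000000000000000000) := D_26 (nat_lit 209) (nat_lit 226) (nat_lit 193) (nat_lit 6) (nat_lit 5) (nat_lit 13) (nat_lit 5) (nat_lit 6) (nat_lit 8) (by decide +kernel)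
theorem L8658 : W_26 (nat_lit 3) (nat_lit 0x9000780008001800080000000000000000000000000000000) (nat_lit 0x0) (nat_lit 0x400020002000000000000400020000000000000000000000000000000) := T_26 (nat_lit 142) (nat_lit 125) (nat_lit 5) (nat_lit 6) (nat_lit 7) L8657 (by decide +kernel)
theorem L8659 : W_26 (nat_lit 4) (nat_lit 0x8000780008001800080000000000000000000000000000000) (nat_lit 0x0) (nat_lit 0x400020003800000000000400020000000000000000000000000000000) := T_26 (nat_lit 192) (nat_lit 191) (nat_lit 1) (nat_lit 8) (nat_lit 10) L8658 (by decide +kernel)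
theorem L8660 : W_26 (nat_lit 5) (nat_lit 0x780008001800080000000000000000000000000000000) (nat_lit 0x0) (nat_lit 0x40002001b800000000000400020000000000000000000000000000000) := T_26 (nat_lit 195) (nat_lit 196) (nat_lit 3) (nat_lit 5) (nat_lit 10) L8659 (by decide +kernel)
theorem L8661 : W_26 (nat_lit 2) (nat_lit 0x400000001000780018001e00088000000000000000000000000000000) (nat_lit 0x0) (nat_lit 0x180004000000000000000000000000000000) := D_26 (nat_lit 140) (nat_lit 139) (nat_lit 122) (nat_lit 3) (nat_lit 3) (nat_lit 8) (nat_lit 0) (nat_lit 7) (nat_lit 8) (by decide +kernel)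
theorem L8662 : W_26 (nat_lit 3) (nat_lit 0x400000001000780018001e00080000000000000000000000000000000) (nat_lit 0x0) (nat_lit 0x18001c000000000000000000000000000000) := T_26 (nat_lit 123) (nat_lit 124) (nat_lit 0) (nat_lit 8) (nat_lit 8) L8661 (by decide +kernel)
theorem L8663 : W_26 (nat_lit 4) (nat_lit 0x400000001000780018001c00080000000000000000000000000000000) (nat_lit 0x0) (nat_lit 0x38011c000000000000000000000000000000) := T_26 (nat_lit 141) (nat_lit 128) (nat_lit 2) (nat_lit 5) (nat_lit 8) L8662 (by decide +kernel)
theorem L8664 : W_26 (nat_lit 5) (nat_lit 0x400000001000780018001800080000000000000000000000000000000) (nat_lit 0x0) (nat_lit 0x78013c000000000000000000000000000000) := T_26 (nat_lit 142) (nat_lit 125) (nat_lit 5) (nat_lit 6) (nat_lit 7) L8663 (by decide +kernel)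
theorem L8665 : W_26 (nat_lit 6) (nat_lit 0x1000780018001800080000000000000000000000000000000) (nat_lit 0x0) (nat_lit 0x40002000000000000000078013c000000000000000000000000000000) := T_26 (nat_lit 226) (nat_lit 209) (nat_lit 6) (nat_lit 5) (nat_lit 13) L8664 (by decide +kernel)
theorem L8666 : W_26 (nat_lit 7) (nat_lit 0x1000780008001800080000000000000000000000000000000) (nat_lit 0x0) (nat_lit 0x40002000400000001000078013c000000000000000000000000000000) := T_26 (nat_lit 160) (nat_lit 194) (nat_lit 6) (nat_lit 7) (nat_lit 11) L8665 (by decide +kernel)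
theorem L8667 : W_26 (nat_lit 8) (nat_lit 0x780008001800080000000000000000000000000000000) (nat_lit 0x0) (nat_lit 0x40002000580000001000078013c000000000000000000000000000000) := T_26 (nat_lit 192) (nat_lit 191) (nat_lit 1) (nat_lit 8) (nat_lit 10) L8666 (by decide +kernel)
theorem L8668 : W_26 (nat_lit 2) (nat_lit 0x100012000f000780008001800080000000000000000000000000000000) (nat_lit 0x0) (nat_lit 0x60002000000000000000000000000000000000000000000000000000000000) := D_26 (nat_lit 229) (nat_lit 246) (nat_lit 245) (nat_lit 4) (nat_lit 8) (nat_lit 14) (nat_lit 5) (nat_lit 8) (nat_lit 10) (by decide +kernel)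
theorem L8669 : W_26 (nat_lit 3) (nat_lit 0x100002000f000780008001800080000000000000000000000000000000) (nat_lit 0x0) (nat_lit 0x60002000300000000000000000000000000000000000000000000000000000) := T_26 (nat_lit 212) (nat_lit 213) (nat_lit 3) (nat_lit 5) (nat_lit 11) L8668 (by decide +kernel)
theorem L8670 : W_26 (nat_lit 4) (nat_lit 0x100002000d000780008001800080000000000000000000000000000000) (nat_lit 0x0) (nat_lit 0x60002000310002000000000000000000000000000000000000000000000000) := T_26 (nat_lit 193) (nat_lit 208) (nat_lit 1) (nat_lit 8) (nat_lit 11) L8669 (by decide +kernel)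
theorem L8671 : W_26 (nat_lit 5) (nat_lit 0x1000020005000780008001800080000000000000000000000000000000) (nat_lit 0x0) (nat_lit 0x6000200031001a000000000000000000000000000000000000000000000000) := T_26 (nat_lit 195) (nat_lit 196) (nat_lit 3) (nat_lit 5) (nat_lit 10) L8670 (by decide +kernel)
theorem L8672 : W_26 (nat_lit 6) (nat_lit 0x1000000005000780008001800080000000000000000000000000000000) (nat_lit 0x0) (nat_lit 0x6000240033001a000000000000000000000000000000000000000000000000) := T_26 (nat_lit 209) (nat_lit 226) (nat_lit 6) (nat_lit 5) (nat_lit 13) L8671 (by decide +kernel)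
theorem L8673 : W_26 (nat_lit 7) (nat_lit 0x5000780008001800080000000000000000000000000000000) (nat_lit 0x0) (nat_lit 0x600034003b001a000000000000000000000000000000000000000000000000) := T_26 (nat_lit 228) (nat_lit 211) (nat_lit 4) (nat_lit 7) (nat_lit 13) L8672 (by decide +kernel)
theorem L8674 : W_26 (nat_lit 8) (nat_lit 0x1000780008001800080000000000000000000000000000000) (nat_lit 0x0) (nat_lit 0x600034003b001e000000010000000000000000000000000000000000000000) := T_26 (nat_lit 194) (nat_lit 160) (nat_lit 6) (nat_lit 7) (nat_lit 11) L8673 (by decide +kernel)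
theorem L8675 : W_26 (nat_lit 9) (nat_lit 0x780008001800080000000000000000000000000000000) (nat_lit 0x0) (nat_lit 0x600034003b001f800000010000000000000000000000000000000000000000) := T_26 (nat_lit 192) (nat_lit 191) (nat_lit 1) (nat_lit 8) (nat_lit 10) L8674 (by decide +kernel)
theorem L8676 : W_26 (nat_lit 2) (nat_lit 0x100000000c000780008001e00080000000000000000000000000000000) (nat_lit 0x0) (nat_lit 0x2000000000000000018000000000000000000000000000000) := D_26 (nat_lit 124) (nat_lit 123) (nat_lit 193) (nat_lit 0) (nat_lit 8) (nat_lit 8) (nat_lit 4) (nat_lit 6) (nat_lit 11) (by decide +kernel)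
theorem L8677 : W_26 (nat_lit 3) (nat_lit 0x100000000c000780008001c00080000000000000000000000000000000) (nat_lit 0x0) (nat_lit 0x2000000000000200118000000000000000000000000000000) := T_26 (nat_lit 141) (nat_lit 128) (nat_lit 2) (nat_lit 5) (nat_lit 8) L8676 (by decide +kernel)
theorem L8678 : W_26 (nat_lit 4) (nat_lit 0x100000000c000780008001800080000000000000000000000000000000) (nat_lit 0x0) (nat_lit 0x2000000000000600138000000000000000000000000000000) := T_26 (nat_lit 142) (nat_lit 125) (nat_lit 7) (nat_lit 6) (nat_lit 7) L8677 (by decide +kernel)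
theorem L8679 : W_26 (nat_lit 5) (nat_lit 0xc000780008001800080000000000000000000000000000000) (nat_lit 0x0) (nat_lit 0x1000080002000000000000600138000000000000000000000000000000) := T_26 (nat_lit 228) (nat_lit 211) (nat_lit 4) (nat_lit 7) (nat_lit 13) L8678 (by decide +kernel)
theorem L8680 : W_26 (nat_lit 6) (nat_lit 0x8000780008001800080000000000000000000000000000000) (nat_lit 0x0) (nat_lit 0x1000080006000000010000600138000000000000000000000000000000) := T_26 (nat_lit 194) (nat_lit 160) (nat_lit 6) (nat_lit 7) (nat_lit 11) L8679 (by decide +kernel)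
theorem L8681 : W_26 (nat_lit 7) (nat_lit 0x780008001800080000000000000000000000000000000) (nat_lit 0x0) (nat_lit 0x100008001e000000010000600138000000000000000000000000000000) := T_26 (nat_lit 195) (nat_lit 196) (nat_lit 3) (nat_lit 5) (nat_lit 10) L8680 (by decide +kernel)
theorem L8682 : W_26 (nat_lit 10) (nat_lit 0x780000001800080000000000000000000000000000000) (nat_lit 0x0) (nat_lit 0x600034003b001f80000001800078013c000000000000000000000000000000) := Q_26 (nat_lit 159) (C_26 L8660 (C_26 L8667 (C_26 L8675 (C_26 L8681 N_26)))) (by decide +kernel)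
theorem L8683 : W_26 (nat_lit 2) (nat_lit 0x780010001800080000000000000000000000000000000) (nat_lit 0x0) (nat_lit 0x18000000000000000040000000000000000000000000000000) := D_26 (nat_lit 195) (nat_lit 196) (nat_lit 126) (nat_lit 3) (nat_lit 5) (nat_lit 10) (nat_lit 7) (nat_lit 7) (nat_lit 7) (by decide +kernel)
theorem L8684 : W_26 (nat_lit 3) (nat_lit 0x780000001800080000000000000000000000000000000) (nat_lit 0x0) (nat_lit 0x1c000000010000000040000000000000000000000000000000) := T_26 (nat_lit 160) (nat_lit 194) (nat_lit 6) (nat_lit 7) (nat_lit 11) L8683 (by decide +kernel)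
theorem L8685 : W_26 (nat_lit 2) (nat_lit 0x10007800100018000c0002000000000000000000000000000) (nat_lit 0x0) (nat_lit 0x20001000080000000000000000000000) := D_26 (nat_lit 108) (nat_lit 91) (nat_lit 125) (nat_lit 4) (nat_lit 7) (nat_lit 9) (nat_lit 4) (nat_lit 7) (nat_lit 10) (by decide +kernel)
theorem L8686 : W_26 (nat_lit 3) (nat_lit 0x10007800100018000c0000000000000000000000000000000) (nat_lit 0x0) (nat_lit 0x8000000020003000080000000000000000000000) := T_26 (nat_lit 109) (nat_lit 159) (nat_lit 5) (nat_lit 7) (nat_lit 6) L8685 (by decide +kernel)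
theorem L8687 : W_26 (nat_lit 4) (nat_lit 0x1000780010001800080000000000000000000000000000000) (nat_lit 0x0) (nat_lit 0x2000000008000000060003000080000000000000000000000) := T_26 (nat_lit 126) (nat_lit 193) (nat_lit 5) (nat_lit 7) (nat_lit 7) L8686 (by decide +kernel)
theorem L8688 : W_26 (nat_lit 5) (nat_lit 0x1000780000001800080000000000000000000000000000000) (nat_lit 0x0) (nat_lit 0x6000000018000000060003000080000000000000000000000) := T_26 (nat_lit 160) (nat_lit 194) (nat_lit 6) (nat_lit 7) (nat_lit 11) L8687 (by decide +kernel)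
theorem L8689 : W_26 (nat_lit 6) (nat_lit 0x780000001800080000000000000000000000000000000) (nat_lit 0x0) (nat_lit 0x7800000018000000060003000080000000000000000000000) := T_26 (nat_lit 192) (nat_lit 191) (nat_lit 1) (nat_lit 8) (nat_lit 10) L8688 (by decide +kernel)
theorem L8690 : W_26 (nat_lit 11) (nat_lit 0x780000001000080000000000000000000000000000000) (nat_lit 0x0) (nat_lit 0x600034003b001f800000018000f8017c003800080000000000000000000000) := Q_26 (nat_lit 143) (C_26 L8682 (C_26 L8684 (C_26 L8618 (C_26 L8689 N_26)))) (by decide +kernel)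
theorem L8691 : W_26 (nat_lit 16) (nat_lit 0x700000001000080000000000000000000000000000000) (nat_lit 0x0) (nat_lit 0x600034803b401ff000f001b80cf8077c03bc001c0000000000000000000000) := Q_26 (nat_lit 175) (C_26 L8648 (C_26 L8369 (C_26 L8361 (C_26 L8656 (C_26 L8690 N_26))))) (by decide +kernel)
theorem L8692 : W_26 (nat_lit 17) (nat_lit 0x600000001000080000000000000000000000000000000) (nat_lit 0x0) (nat_lit 0x1e001fc81ff40fff079f01db80cf8077c03bc001c0000000000000000000000) := Q_26 (nat_lit 176) (C_26 L8335 (C_26 L8370 (C_26 L8384 (C_26 L8451 (C_26 L8493 (C_26 L8526 (C_26 L8529 (C_26 L8691 N_26)))))))) (by decide +kernel)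
theorem L8693 : W_26 (nat_lit 5) (nat_lit 0xe00000001000080000000000000000000000000000000) (nat_lit 0x0) (nat_lit 0x760011001d8000800000000000000000000000000000000000) := Q_26 (nat_lit 180) (C_26 L4777 (C_26 L5617 N_26)) (by decide +kernel)
theorem L8694 : W_26 (nat_lit 6) (nat_lit 0x600000001000080000000000000000000000000000000) (nat_lit 0x0) (nat_lit 0x7f8019801f8000800000000000000000000000000000000000) := Q_26 (nat_lit 179) (C_26 L4870 (C_26 L5798 (C_26 L5919 (C_26 L8693 N_26)))) (by decide +kernel)
theorem L8695 : W_26 (nat_lit 2) (nat_lit 0x50002c001e000d0001000080000000000000000000000000000000) (nat_lit 0x0) (nat_lit 0x4000a00000000000000000000000000000000000000000000000000000) := D_26 (nat_lit 213) (nat_lit 230) (nat_lit 215) (nat_lit 5) (nat_lit 10) (nat_lit 9) (nat_lit 0) (nat_lit 11) (nat_lit 12) (by decide +kernel)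
theorem L8696 : W_26 (nat_lit 3) (nat_lit 0x40002c001e000d0001000080000000000000000000000000000000) (nat_lit 0x0) (nat_lit 0x6000b00000000000000000000000000000000000000000000000000000) := T_26 (nat_lit 212) (nat_lit 229) (nat_lit 6) (nat_lit 8) (nat_lit 13) L8695 (by decide +kernel)
theorem L8697 : W_26 (nat_lit 4) (nat_lit 0x2c001e000d0001000080000000000000000000000000000000) (nat_lit 0x0) (nat_lit 0xe000f00000000000000000000000000000000000000000000000000000) := T_26 (nat_lit 214) (nat_lit 231) (nat_lit 4) (nat_lit 10) (nat_lit 13) L8696 (by decide +kernel)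
theorem L8698 : W_26 (nat_lit 5) (nat_lit 0x24001e000d0001000080000000000000000000000000000000) (nat_lit 0x0) (nat_lit 0xe000f00008002000000000000000000000000000000000000000000000) := T_26 (nat_lit 195) (nat_lit 181) (nat_lit 1) (nat_lit 11) (nat_lit 10) L8697 (by decide +kernel)
theorem L8699 : W_26 (nat_lit 6) (nat_lit 0x24001e00090001000080000000000000000000000000000000) (nat_lit 0x0) (nat_lit 0xe000f00008002100040000000000000000000000000000000000000000) := T_26 (nat_lit 162) (nat_lit 176) (nat_lit 2) (nat_lit 6) (nat_lit 10) L8698 (by decide +kernel)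
theorem L8700 : W_26 (nat_lit 7) (nat_lit 0x24001e00010001000080000000000000000000000000000000) (nat_lit 0x0) (nat_lit 0xe000f000080021001c0000000000000000000000000000000000000000) := T_26 (nat_lit 163) (nat_lit 164) (nat_lit 2) (nat_lit 7) (nat_lit 10) L8699 (by decide +kernel)
theorem L8701 : W_26 (nat_lit 8) (nat_lit 0x4001e00010001000080000000000000000000000000000000) (nat_lit 0x0) (nat_lit 0xe000f000680021001c0000000000000000000000000000000000000000) := T_26 (nat_lit 197) (nat_lit 198) (nat_lit 3) (nat_lit 7) (nat_lit 10) L8700 (by decide +kernel)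
theorem L8702 : W_26 (nat_lit 9) (nat_lit 0x4001e00000001000080000000000000000000000000000000) (nat_lit 0x0) (nat_lit 0xe000f000680021001d8000000000000000000000000000000000000000) := T_26 (nat_lit 160) (nat_lit 159) (nat_lit 0) (nat_lit 10) (nat_lit 10) L8701 (by decide +kernel)
theorem L8703 : W_26 (nat_lit 10) (nat_lit 0x4000e00000001000080000000000000000000000000000000) (nat_lit 0x0) (nat_lit 0xe000f0006a0031001d8000000000000000000000000000000000000000) := T_26 (nat_lit 180) (nat_lit 193) (nat_lit 1) (nat_lit 10) (nat_lit 10) L8702 (by decide +kernel)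
theorem L8704 : W_26 (nat_lit 11) (nat_lit 0xe00000001000080000000000000000000000000000000) (nat_lit 0x0) (nat_lit 0xe000f0006e0031001f8000000000000000000000000000000000000000) := T_26 (nat_lit 194) (nat_lit 161) (nat_lit 5) (nat_lit 8) (nat_lit 7) L8703 (by decide +kernel)
theorem L8710 : W_26 (nat_lit 2) (nat_lit 0x20001f00010001000080000000000000000000000000000000) (nat_lit 0x0) (nat_lit 0x7000000000000000000000000000000000000000000000000) := D_26 (nat_lit 193) (nat_lit 194) (nat_lit 192) (nat_lit 1) (nat_lit 10) (nat_lit 10) (nat_lit 1) (nat_lit 9) (nat_lit 10) (by decide +kernel)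
theorem L8711 : W_26 (nat_lit 3) (nat_lit 0x20001e00010001000080000000000000000000000000000000) (nat_lit 0x0) (nat_lit 0x17000100000000000000000000000000000000000000000000) := T_26 (nat_lit 176) (nat_lit 196) (nat_lit 3) (nat_lit 6) (nat_lit 10) L8710 (by decide +kernel)
theorem L8712 : W_26 (nat_lit 4) (nat_lit 0x1e00010001000080000000000000000000000000000000) (nat_lit 0x0) (nat_lit 0x77000100000000000000000000000000000000000000000000) := T_26 (nat_lit 197) (nat_lit 198) (nat_lit 3) (nat_lit 7) (nat_lit 10) L8711 (by decide +kernel)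
theorem L8713 : W_26 (nat_lit 5) (nat_lit 0x1e00000001000080000000000000000000000000000000) (nat_lit 0x0) (nat_lit 0x77000100018000000000000000000000000000000000000000) := T_26 (nat_lit 160) (nat_lit 159) (nat_lit 0) (nat_lit 10) (nat_lit 10) L8712 (by decide +kernel)
theorem L8714 : W_26 (nat_lit 7) (nat_lit 0xe00000001000080000000000000000000000000000000) (nat_lit 0x0) (nat_lit 0x7f0031003d8000000000000000000000000000000000000000) := Q_26 (nat_lit 180) (C_26 L5617 (C_26 L8709 (C_26 L5620 (C_26 L8713 N_26)))) (by decide +kernel)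
theorem L8715 : W_26 (nat_lit 12) (nat_lit 0x600000001000080000000000000000000000000000000) (nat_lit 0x0) (nat_lit 0xe000f0007f8039803f8000000000000000000000000000000000000000) := Q_26 (nat_lit 179) (C_26 L5919 (C_26 L4870 (C_26 L8704 (C_26 L8714 N_26)))) (by decide +kernel)
theorem L8716 : W_26 (nat_lit 2) (nat_lit 0x30000e00000001000080000000000000000000000000000000) (nat_lit 0x0) (nat_lit 0xc0001000000000000000000000000000000000000000000000) := D_26 (nat_lit 198) (nat_lit 199) (nat_lit 180) (nat_lit 0) (nat_lit 12) (nat_lit 11) (nat_lit 3) (nat_lit 7) (nat_lit 10) (by decide +kernel)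
theorem L8717 : W_26 (nat_lit 3) (nat_lit 0x10000e00000001000080000000000000000000000000000000) (nat_lit 0x0) (nat_lit 0xe0001100000000000000000000000000000000000000000000) := T_26 (nat_lit 197) (nat_lit 176) (nat_lit 3) (nat_lit 6) (nat_lit 10) L8716 (by decide +kernel)
theorem L8718 : W_26 (nat_lit 4) (nat_lit 0xe00000001000080000000000000000000000000000000) (nat_lit 0x0) (nat_lit 0xf0001100020000000000000000000000000000000000000000) := T_26 (nat_lit 196) (nat_lit 161) (nat_lit 7) (nat_lit 8) (nat_lit 7) L8717 (by decide +kernel)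
theorem L8719 : W_26 (nat_lit 6) (nat_lit 0x600000001000080000000000000000000000000000000) (nat_lit 0x0) (nat_lit 0xf60019001f8000800000000000000000000000000000000000) := Q_26 (nat_lit 179) (C_26 L4870 (C_26 L8693 (C_26 L5798 (C_26 L8718 N_26)))) (by decide +kernel)
theorem L8723 : W_26 (nat_lit 5) (nat_lit 0xf000600010000c0000000000000000000000000000000) (nat_lit 0x0) (nat_lit 0x3000000010000e00300008000000000000000000000000000) := T_26 (nat_lit 193) (nat_lit 192) (nat_lit 1) (nat_lit 9) (nat_lit 10) L8722 (by decide +kernel)
theorem L8724 : W_26 (nat_lit 6) (nat_lit 0xf000200010000c0000000000000000000000000000000) (nat_lit 0x0) (nat_lit 0x30000000d0000e00300008000000000000000000000000000) := T_26 (nat_lit 162) (nat_lit 163) (nat_lit 2) (nat_lit 6) (nat_lit 10) L8723 (by decide +kernel)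
theorem L8725 : W_26 (nat_lit 7) (nat_lit 0x7000200010000c0000000000000000000000000000000) (nat_lit 0x0) (nat_lit 0x130008000d0000e00300008000000000000000000000000000) := T_26 (nat_lit 179) (nat_lit 196) (nat_lit 7) (nat_lit 8) (nat_lit 7) L8724 (by decide +kernel)
theorem L8726 : W_26 (nat_lit 8) (nat_lit 0x700020001000080000000000000000000000000000000) (nat_lit 0x0) (nat_lit 0x130008000d0000e0034000a000000000000000000000000000) := T_26 (nat_lit 126) (nat_lit 109) (nat_lit 4) (nat_lit 8) (nat_lit 10) L8725 (by decide +kernel)
theorem L8731 : W_26 (nat_lit 6) (nat_lit 0x700020001000180000000000000000000000000000000) (nat_lit 0x0) (nat_lit 0x13000800010000e00240002000000000000000000000000000) := T_26 (nat_lit 126) (nat_lit 109) (nat_lit 4) (nat_lit 8) (nat_lit 10) L8730 (by decide +kernel)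
theorem L8732 : W_26 (nat_lit 7) (nat_lit 0x700020001000080000000000000000000000000000000) (nat_lit 0x0) (nat_lit 0x13000800010000e0034000a000000000000000000000000000) := T_26 (nat_lit 128) (nat_lit 111) (nat_lit 6) (nat_lit 8) (nat_lit 10) L8731 (by decide +kernel)
theorem L8733 : W_26 (nat_lit 9) (nat_lit 0x600020001000080000000000000000000000000000000) (nat_lit 0x0) (nat_lit 0x13c009c00d0000e0034000a000000000000000000000000000) := Q_26 (nat_lit 176) (C_26 L4938 (C_26 L5675 (C_26 L8726 (C_26 L8732 N_26)))) (by decide +kernel)
theorem L8734 : W_26 (nat_lit 2) (nat_lit 0x2001f000a0001000080000000000000000000000000000000) (nat_lit 0x0) (nat_lit 0x2000018000000000000000000000000000000000000000) := D_26 (nat_lit 160) (nat_lit 181) (nat_lit 159) (nat_lit 0) (nat_lit 11) (nat_lit 10) (nat_lit 0) (nat_lit 10) (nat_lit 10) (by decide +kernel)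
theorem L8735 : W_26 (nat_lit 3) (nat_lit 0x2000f000a0001000080000000000000000000000000000000) (nat_lit 0x0) (nat_lit 0x3000118000000000000000000000000000000000000000) := T_26 (nat_lit 180) (nat_lit 164) (nat_lit 2) (nat_lit 7) (nat_lit 10) L8734 (by decide +kernel)
theorem L8736 : W_26 (nat_lit 4) (nat_lit 0xf000a0001000080000000000000000000000000000000) (nat_lit 0x0) (nat_lit 0x3003000118000000000000000000000000000000000000000) := T_26 (nat_lit 193) (nat_lit 192) (nat_lit 1) (nat_lit 9) (nat_lit 10) L8735 (by decide +kernel)
theorem L8737 : W_26 (nat_lit 5) (nat_lit 0xf00020001000080000000000000000000000000000000) (nat_lit 0x0) (nat_lit 0x30030001d8000000000000000000000000000000000000000) := T_26 (nat_lit 163) (nat_lit 162) (nat_lit 2) (nat_lit 6) (nat_lit 10) L8736 (by decide +kernel)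
theorem L8738 : W_26 (nat_lit 6) (nat_lit 0x700020001000080000000000000000000000000000000) (nat_lit 0x0) (nat_lit 0x130038001d8000000000000000000000000000000000000000) := T_26 (nat_lit 179) (nat_lit 196) (nat_lit 7) (nat_lit 8) (nat_lit 7) L8737 (by decide +kernel)
theorem L8739 : W_26 (nat_lit 2) (nat_lit 0x1000f80030001000180000000000000000000000000000000) (nat_lit 0x0) (nat_lit 0x3000008000000000000000000000000000000000000000) := D_26 (nat_lit 180) (nat_lit 181) (nat_lit 159) (nat_lit 0) (nat_lit 11) (nat_lit 10) (nat_lit 0) (nat_lit 10) (nat_lit 10) (by decide +kernel)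
theorem L8740 : W_26 (nat_lit 3) (nat_lit 0x1000f80020001000180000000000000000000000000000000) (nat_lit 0x0) (nat_lit 0x3040018000000000000000000000000000000000000000) := T_26 (nat_lit 160) (nat_lit 174) (nat_lit 2) (nat_lit 4) (nat_lit 10) L8739 (by decide +kernel)
theorem L8741 : W_26 (nat_lit 4) (nat_lit 0x1000f00020001000180000000000000000000000000000000) (nat_lit 0x0) (nat_lit 0x8030c0018000000000000000000000000000000000000000) := T_26 (nat_lit 175) (nat_lit 191) (nat_lit 1) (nat_lit 8) (nat_lit 10) L8740 (by decide +kernel)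
theorem L8742 : W_26 (nat_lit 5) (nat_lit 0xf00020001000180000000000000000000000000000000) (nat_lit 0x0) (nat_lit 0x38030c0018000000000000000000000000000000000000000) := T_26 (nat_lit 192) (nat_lit 193) (nat_lit 1) (nat_lit 9) (nat_lit 10) L8741 (by decide +kernel)
theorem L8743 : W_26 (nat_lit 6) (nat_lit 0x700020001000180000000000000000000000000000000) (nat_lit 0x0) (nat_lit 0x138038c0018000000000000000000000000000000000000000) := T_26 (nat_lit 179) (nat_lit 196) (nat_lit 7) (nat_lit 8) (nat_lit 7) L8742 (by decide +kernel)
theorem L8744 : W_26 (nat_lit 7) (nat_lit 0x700020001000080000000000000000000000000000000) (nat_lit 0x0) (nat_lit 0x138038c0018000000100008000000000000000000000000000) := T_26 (nat_lit 128) (nat_lit 111) (nat_lit 6) (nat_lit 8) (nat_lit 10) L8743 (by decide +kernel)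
theorem L8745 : W_26 (nat_lit 8) (nat_lit 0x600020001000080000000000000000000000000000000) (nat_lit 0x0) (nat_lit 0x13c039c01d8000000100008000000000000000000000000000) := Q_26 (nat_lit 176) (C_26 L4938 (C_26 L5675 (C_26 L8738 (C_26 L8744 N_26)))) (by decide +kernel)
theorem L8746 : W_26 (nat_lit 10) (nat_lit 0x600000001000080000000000000000000000000000000) (nat_lit 0x0) (nat_lit 0x20001bc039c01f8000e0034000a000000000000000000000000000) := Q_26 (nat_lit 161) (C_26 L8733 (C_26 L8745 (C_26 L4895 (C_26 L4960 N_26)))) (by decide +kernel)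
theorem L8747 : W_26 (nat_lit 18) (nat_lit 0x200000001000080000000000000000000000000000000) (nat_lit 0x0) (nat_lit 0x1e001fc81ff40fff07df03fb80cf8077c03bc001c0000000000000000000000) := Q_26 (nat_lit 178) (C_26 L8692 (C_26 L4869 (C_26 L8694 (C_26 L8715 (C_26 L8719 (C_26 L4896 (C_26 L8746 N_26))))))) (by decide +kernel)
theorem L16497 : W_26 (nat_lit 5) (nat_lit 0x1e000200000001000080000000000000000000000000000000) (nat_lit 0x0) (nat_lit 0x760001001c00000000000000000000000000000000000000000000) := T_26 (nat_lit 210) (nat_lit 209) (nat_lit 1) (nat_lit 9) (nat_lit 11) L10465 (by decide +kernel)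
theorem L16498 : W_26 (nat_lit 2) (nat_lit 0x180004001e000b00008001000080000000000000000000000000000000) (nat_lit 0x0) (nat_lit 0x400004000200000000000000000000000000000000000) := D_26 (nat_lit 158) (nat_lit 141) (nat_lit 178) (nat_lit 4) (nat_lit 6) (nat_lit 12) (nat_lit 0) (nat_lit 9) (nat_lit 10) (by decide +kernel)
theorem L16499 : W_26 (nat_lit 3) (nat_lit 0x180004001e000b00000001000080000000000000000000000000000000) (nat_lit 0x0) (nat_lit 0x8000000040000c000200000000000000000000000000000000000) := T_26 (nat_lit 159) (nat_lit 211) (nat_lit 7) (nat_lit 6) (nat_lit 9) L16498 (by decide +kernel)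
theorem L16500 : W_26 (nat_lit 4) (nat_lit 0x80004001e000b00000001000080000000000000000000000000000000) (nat_lit 0x0) (nat_lit 0x2000100008000000040000c000200000000000000000000000000000000000) := T_26 (nat_lit 228) (nat_lit 245) (nat_lit 7) (nat_lit 6) (nat_lit 10) L16499 (by decide +kernel)
theorem L16501 : W_26 (nat_lit 5) (nat_lit 0x80004001e000300000001000080000000000000000000000000000000) (nat_lit 0x0) (nat_lit 0x20001000080000001c0000c000200000000000000000000000000000000000) := T_26 (nat_lit 179) (nat_lit 180) (nat_lit 2) (nat_lit 6) (nat_lit 11) L16500 (by decide +kernel)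
theorem L16502 : W_26 (nat_lit 6) (nat_lit 0x4001e000300000001000080000000000000000000000000000000) (nat_lit 0x0) (nat_lit 0x30001800080000001c0000c000200000000000000000000000000000000000) := T_26 (nat_lit 227) (nat_lit 244) (nat_lit 6) (nat_lit 6) (nat_lit 14) L16501 (by decide +kernel)
theorem L16503 : W_26 (nat_lit 7) (nat_lit 0x4001e000200000001000080000000000000000000000000000000) (nat_lit 0x0) (nat_lit 0x30001800080000001d8000c000200000000000000000000000000000000000) := T_26 (nat_lit 176) (nat_lit 175) (nat_lit 0) (nat_lit 9) (nat_lit 11) L16502 (by decide +kernel)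
theorem L16504 : W_26 (nat_lit 8) (nat_lit 0x1e000200000001000080000000000000000000000000000000) (nat_lit 0x0) (nat_lit 0x300018000e0000001d8000c000200000000000000000000000000000000000) := T_26 (nat_lit 210) (nat_lit 209) (nat_lit 1) (nat_lit 9) (nat_lit 11) L16503 (by decide +kernel)
theorem L16505 : W_26 (nat_lit 6) (nat_lit 0x1e000200000001000080000000000000000000000000000000) (nat_lit 0x0) (nat_lit 0x760001c00580000000000000000000000000000000000000000000) := T_26 (nat_lit 176) (nat_lit 175) (nat_lit 0) (nat_lit 9) (nat_lit 11) L11650 (by decide +kernel)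
theorem L16506 : W_26 (nat_lit 9) (nat_lit 0x1c000200000001000080000000000000000000000000000000) (nat_lit 0x0) (nat_lit 0x300018007f0003c01d8000c000200000000000000000000000000000000000) := Q_26 (nat_lit 193) (C_26 L7799 (C_26 L16496 (C_26 L16497 (C_26 L16504 (C_26 L16505 N_26))))) (by decide +kernel)
theorem L16507 : W_26 (nat_lit 6) (nat_lit 0x1c000200000001000080000000000000000000000000000000) (nat_lit 0x0) (nat_lit 0x1ec0062007c00000000000000000000000000000000000000000000) := Q_26 (nat_lit 197) (C_26 L5038 (C_26 L7816 (C_26 L7819 N_26))) (by decide +kernel)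
theorem L16508 : W_26 (nat_lit 10) (nat_lit 0x14000200000001000080000000000000000000000000000000) (nat_lit 0x0) (nat_lit 0x30001801ff006bc07d8000c000200000000000000000000000000000000000) := Q_26 (nat_lit 195) (C_26 L16506 (C_26 L7817 (C_26 L5039 (C_26 L16507 (C_26 L7821 N_26))))) (by decide +kernel)
theorem L16509 : W_26 (nat_lit 7) (nat_lit 0x1c000200000001000080000000000000000000000000000000) (nat_lit 0x0) (nat_lit 0xfe0063807800000000000000000000000000000000000000000000) := Q_26 (nat_lit 197) (C_26 L5038 (C_26 L5043 (C_26 L5046 (C_26 L5049 (C_26 L5059 N_26))))) (by decide +kernel)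
theorem L16510 : W_26 (nat_lit 7) (nat_lit 0x1e000b00000001000080000000000000000000000000000000) (nat_lit 0x0) (nat_lit 0x38003c007e0000000000000000000000000000000000000000000000000000) := T_26 (nat_lit 213) (nat_lit 214) (nat_lit 3) (nat_lit 6) (nat_lit 11) L7810 (by decide +kernel)
theorem L16511 : W_26 (nat_lit 8) (nat_lit 0x1e000a00000001000080000000000000000000000000000000) (nat_lit 0x0) (nat_lit 0x38003c007e0000000180000000000000000000000000000000000000000000) := T_26 (nat_lit 176) (nat_lit 175) (nat_lit 0) (nat_lit 9) (nat_lit 11) L16510 (by decide +kernel)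
theorem L16512 : W_26 (nat_lit 9) (nat_lit 0x1e000200000001000080000000000000000000000000000000) (nat_lit 0x0) (nat_lit 0x38003c007e0000001980000000000000000000000000000000000000000000) := T_26 (nat_lit 179) (nat_lit 180) (nat_lit 2) (nat_lit 6) (nat_lit 11) L16511 (by decide +kernel)
theorem L16513 : W_26 (nat_lit 2) (nat_lit 0x1c0024001e000b00008001400080000000000000000000000000000000) (nat_lit 0x0) (nat_lit 0x4000200010000000000000000000000000000000) := D_26 (nat_lit 141) (nat_lit 158) (nat_lit 124) (nat_lit 4) (nat_lit 6) (nat_lit 12) (nat_lit 4) (nat_lit 6) (nat_lit 11) (by decide +kernel)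
theorem L16514 : W_26 (nat_lit 3) (nat_lit 0x1c0024001e000b00008001000080000000000000000000000000000000) (nat_lit 0x0) (nat_lit 0x4000600030000000000000000000000000000000) := T_26 (nat_lit 142) (nat_lit 125) (nat_lit 7) (nat_lit 6) (nat_lit 7) L16513 (by decide +kernel)
theorem L16515 : W_26 (nat_lit 4) (nat_lit 0x1c0024001e000b00000001000080000000000000000000000000000000) (nat_lit 0x0) (nat_lit 0x8000000000000c000600030000000000000000000000000000000) := T_26 (nat_lit 159) (nat_lit 211) (nat_lit 7) (nat_lit 6) (nat_lit 9) L16514 (by decide +kernel)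
theorem L16516 : W_26 (nat_lit 5) (nat_lit 0xc0024001e000b00000001000080000000000000000000000000000000) (nat_lit 0x0) (nat_lit 0x2000100008000000000000c000600030000000000000000000000000000000) := T_26 (nat_lit 228) (nat_lit 245) (nat_lit 7) (nat_lit 6) (nat_lit 10) L16515 (by decide +kernel)
theorem L16517 : W_26 (nat_lit 6) (nat_lit 0x80024001e000b00000001000080000000000000000000000000000000) (nat_lit 0x0) (nat_lit 0x2800140008000000000000c000600030000000000000000000000000000000) := T_26 (nat_lit 226) (nat_lit 243) (nat_lit 5) (nat_lit 6) (nat_lit 10) L16516 (by decide +kernel)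
theorem L16518 : W_26 (nat_lit 7) (nat_lit 0x80004001e000b00000001000080000000000000000000000000000000) (nat_lit 0x0) (nat_lit 0x2800140068000000000000c000600030000000000000000000000000000000) := T_26 (nat_lit 213) (nat_lit 214) (nat_lit 3) (nat_lit 6) (nat_lit 11) L16517 (by decide +kernel)
theorem L16519 : W_26 (nat_lit 8) (nat_lit 0x80004001e000a00000001000080000000000000000000000000000000) (nat_lit 0x0) (nat_lit 0x2800140068000000018000c000600030000000000000000000000000000000) := T_26 (nat_lit 176) (nat_lit 175) (nat_lit 0) (nat_lit 9) (nat_lit 11) L16518 (by decide +kernel)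
theorem L16520 : W_26 (nat_lit 9) (nat_lit 0x4001e000a00000001000080000000000000000000000000000000) (nat_lit 0x0) (nat_lit 0x38001c0068000000018000c000600030000000000000000000000000000000) := T_26 (nat_lit 227) (nat_lit 244) (nat_lit 6) (nat_lit 6) (nat_lit 14) L16519 (by decide +kernel)
theorem L16521 : W_26 (nat_lit 10) (nat_lit 0x4001e000200000001000080000000000000000000000000000000) (nat_lit 0x0) (nat_lit 0x38001c0068000000198000c000600030000000000000000000000000000000) := T_26 (nat_lit 179) (nat_lit 180) (nat_lit 2) (nat_lit 6) (nat_lit 11) L16520 (by decide +kernel)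
theorem L16522 : W_26 (nat_lit 11) (nat_lit 0x1e000200000001000080000000000000000000000000000000) (nat_lit 0x0) (nat_lit 0x38001c006e000000198000c000600030000000000000000000000000000000) := T_26 (nat_lit 210) (nat_lit 209) (nat_lit 1) (nat_lit 9) (nat_lit 11) L16521 (by decide +kernel)
theorem L16523 : W_26 (nat_lit 12) (nat_lit 0x1c000200000001000080000000000000000000000000000000) (nat_lit 0x0) (nat_lit 0x38003c007f00030019c000c000600030000000000000000000000000000000) := Q_26 (nat_lit 193) (C_26 L16496 (C_26 L7805 (C_26 L16512 (C_26 L16522 (C_26 L5030 (C_26 L5033 N_26)))))) (by decide +kernel)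
theorem L16524 : W_26 (nat_lit 13) (nat_lit 0x14000200000001000080000000000000000000000000000000) (nat_lit 0x0) (nat_lit 0x38003c00ff006b8079c000c000600030000000000000000000000000000000) := Q_26 (nat_lit 195) (C_26 L5039 (C_26 L16509 (C_26 L5061 (C_26 L5062 (C_26 L16523 (C_26 L5063 (C_26 L5064 N_26))))))) (by decide +kernel)
theorem L16525 : W_26 (nat_lit 2) (nat_lit 0xc0002c001e000e00000001000080000000000000000000000000000000) (nat_lit 0x0) (nat_lit 0x40003000000000000000000000000000000000000000000000000000000000) := D_26 (nat_lit 229) (nat_lit 228) (nat_lit 246) (nat_lit 0) (nat_lit 10) (nat_lit 13) (nat_lit 5) (nat_lit 9) (nat_lit 10) (by decide +kernel)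
theorem L16526 : W_26 (nat_lit 3) (nat_lit 0xc00024001e000e00000001000080000000000000000000000000000000) (nat_lit 0x0) (nat_lit 0x40003000180000000000000000000000000000000000000000000000000000) := T_26 (nat_lit 211) (nat_lit 212) (nat_lit 3) (nat_lit 6) (nat_lit 12) L16525 (by decide +kernel)
theorem L16527 : W_26 (nat_lit 4) (nat_lit 0x400024001e000e00000001000080000000000000000000000000000000) (nat_lit 0x0) (nat_lit 0x14000b000180000000000000000000000000000000000000000000000000000) := T_26 (nat_lit 231) (nat_lit 248) (nat_lit 7) (nat_lit 9) (nat_lit 10) L16526 (by decide +kernel)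
theorem L16528 : W_26 (nat_lit 5) (nat_lit 0x400020001e000e00000001000080000000000000000000000000000000) (nat_lit 0x0) (nat_lit 0x14000b0001e0000000000000000000000000000000000000000000000000000) := T_26 (nat_lit 210) (nat_lit 209) (nat_lit 1) (nat_lit 9) (nat_lit 11) L16527 (by decide +kernel)
theorem L16529 : W_26 (nat_lit 6) (nat_lit 0x20001e000e00000001000080000000000000000000000000000000) (nat_lit 0x0) (nat_lit 0x1c000f0001e0000000000000000000000000000000000000000000000000000) := T_26 (nat_lit 230) (nat_lit 247) (nat_lit 4) (nat_lit 9) (nat_lit 14) L16528 (by decide +kernel)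
theorem L16530 : W_26 (nat_lit 7) (nat_lit 0x20001e000600000001000080000000000000000000000000000000) (nat_lit 0x0) (nat_lit 0x1c000f0001e0000001800000000000000000000000000000000000000000000) := T_26 (nat_lit 179) (nat_lit 180) (nat_lit 2) (nat_lit 6) (nat_lit 11) L16529 (by decide +kernel)
theorem L16531 : W_26 (nat_lit 8) (nat_lit 0x1e000600000001000080000000000000000000000000000000) (nat_lit 0x0) (nat_lit 0x1c000f0007e0000001800000000000000000000000000000000000000000000) := T_26 (nat_lit 213) (nat_lit 214) (nat_lit 3) (nat_lit 6) (nat_lit 11) L16530 (by decide +kernel)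
theorem L16532 : W_26 (nat_lit 9) (nat_lit 0x1e000200000001000080000000000000000000000000000000) (nat_lit 0x0) (nat_lit 0x1c000f0007e0000001c00020000000000000000000000000000000000000000) := T_26 (nat_lit 178) (nat_lit 161) (nat_lit 5) (nat_lit 8) (nat_lit 7) L16531 (by decide +kernel)
theorem L16533 : W_26 (nat_lit 2) (nat_lit 0x4001e000a00000001000080000000000000000000000000000000) (nat_lit 0x0) (nat_lit 0x1000400020000000000000000000000000000000000000000) := D_26 (nat_lit 178) (nat_lit 192) (nat_lit 161) (nat_lit 2) (nat_lit 5) (nat_lit 11) (nat_lit 7) (nat_lit 8) (nat_lit 7) (by decide +kernel)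
theorem L16534 : W_26 (nat_lit 3) (nat_lit 0x4001e000200000001000080000000000000000000000000000000) (nat_lit 0x0) (nat_lit 0x1001c00020000000000000000000000000000000000000000) := T_26 (nat_lit 179) (nat_lit 180) (nat_lit 2) (nat_lit 6) (nat_lit 11) L16533 (by decide +kernel)
theorem L16535 : W_26 (nat_lit 4) (nat_lit 0x1e000200000001000080000000000000000000000000000000) (nat_lit 0x0) (nat_lit 0x60001001c00020000000000000000000000000000000000000000) := T_26 (nat_lit 210) (nat_lit 209) (nat_lit 1) (nat_lit 9) (nat_lit 11) L16534 (by decide +kernel)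
theorem L16536 : W_26 (nat_lit 10) (nat_lit 0x1c000200000001000080000000000000000000000000000000) (nat_lit 0x0) (nat_lit 0x1c000f0007f0003001c00020000000000000000000000000000000000000000) := Q_26 (nat_lit 193) (C_26 L7805 (C_26 L16532 (C_26 L16535 (C_26 L7899 N_26)))) (by decide +kernel)
theorem L16537 : W_26 (nat_lit 2) (nat_lit 0x2001c00048003c001e00080001000280000000000000000000000000000000) (nat_lit 0x0) (nat_lit 0x40002000100000000000000000000000000000000000000000000000000000) := D_26 (nat_lit 229) (nat_lit 246) (nat_lit 212) (nat_lit 1) (nat_lit 11) (nat_lit 13) (nat_lit 0) (nat_lit 11) (nat_lit 13) (by decide +kernel)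
theorem L16538 : W_26 (nat_lit 3) (nat_lit 0x2001800048003c001e00080001000280000000000000000000000000000000) (nat_lit 0x0) (nat_lit 0xc0006000100000000000000000000000000000000000000000000000000000) := T_26 (nat_lit 230) (nat_lit 247) (nat_lit 5) (nat_lit 10) (nat_lit 10) L16537 (by decide +kernel)
theorem L16539 : W_26 (nat_lit 4) (nat_lit 0x2001800048003c001e00080001000080000000000000000000000000000000) (nat_lit 0x0) (nat_lit 0xc0006000100000000000000004000200000000000000000000000000000000) := T_26 (nat_lit 129) (nat_lit 146) (nat_lit 5) (nat_lit 10) (nat_lit 7) L16538 (by decide +kernel)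
theorem L16540 : W_26 (nat_lit 5) (nat_lit 0x2000800048003c001e00080001000080000000000000000000000000000000) (nat_lit 0x0) (nat_lit 0x2c0016000100000000000000004000200000000000000000000000000000000) := T_26 (nat_lit 232) (nat_lit 249) (nat_lit 7) (nat_lit 10) (nat_lit 10) L16539 (by decide +kernel)
theorem L16541 : W_26 (nat_lit 6) (nat_lit 0x2000800048003c001e00000001000080000000000000000000000000000000) (nat_lit 0x0) (nat_lit 0x2c0016000100000000000180004000200000000000000000000000000000000) := T_26 (nat_lit 163) (nat_lit 164) (nat_lit 2) (nat_lit 7) (nat_lit 10) L16540 (by decide +kernel)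
theorem L16542 : W_26 (nat_lit 7) (nat_lit 0x2000000048003c001e00000001000080000000000000000000000000000000) (nat_lit 0x0) (nat_lit 0x3c001e000100000000000180004000200000000000000000000000000000000) := T_26 (nat_lit 231) (nat_lit 248) (nat_lit 4) (nat_lit 10) (nat_lit 14) L16541 (by decide +kernel)
theorem L16543 : W_26 (nat_lit 8) (nat_lit 0x2000000048003c001600000001000080000000000000000000000000000000) (nat_lit 0x0) (nat_lit 0x3c001e000100002000800180004000200000000000000000000000000000000) := T_26 (nat_lit 179) (nat_lit 193) (nat_lit 2) (nat_lit 6) (nat_lit 11) L16542 (by decide +kernel)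
theorem L16544 : W_26 (nat_lit 9) (nat_lit 0x2000000048003c000600000001000080000000000000000000000000000000) (nat_lit 0x0) (nat_lit 0x3c001e000100002003800180004000200000000000000000000000000000000) := T_26 (nat_lit 180) (nat_lit 181) (nat_lit 2) (nat_lit 7) (nat_lit 11) L16543 (by decide +kernel)
theorem L16545 : W_26 (nat_lit 10) (nat_lit 0x48003c000600000001000080000000000000000000000000000000) (nat_lit 0x0) (nat_lit 0x3e001f000100002003800180004000200000000000000000000000000000000) := T_26 (nat_lit 245) (nat_lit 228) (nat_lit 6) (nat_lit 7) (nat_lit 14) L16544 (by decide +kernel)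
theorem L16546 : W_26 (nat_lit 11) (nat_lit 0x8003c000600000001000080000000000000000000000000000000) (nat_lit 0x0) (nat_lit 0x3e001f000d00002003800180004000200000000000000000000000000000000) := T_26 (nat_lit 214) (nat_lit 215) (nat_lit 3) (nat_lit 7) (nat_lit 11) L16545 (by decide +kernel)
theorem L16547 : W_26 (nat_lit 12) (nat_lit 0x3c000600000001000080000000000000000000000000000000) (nat_lit 0x0) (nat_lit 0x3e001f000dc0002003800180004000200000000000000000000000000000000) := T_26 (nat_lit 211) (nat_lit 210) (nat_lit 1) (nat_lit 10) (nat_lit 11) L16546 (by decide +kernel)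
theorem L16548 : W_26 (nat_lit 13) (nat_lit 0x1c000600000001000080000000000000000000000000000000) (nat_lit 0x0) (nat_lit 0x3e001f000dc0062003800180004000200000000000000000000000000000000) := T_26 (nat_lit 197) (nat_lit 198) (nat_lit 0) (nat_lit 11) (nat_lit 11) L16547 (by decide +kernel)
theorem L16549 : W_26 (nat_lit 14) (nat_lit 0x1c000200000001000080000000000000000000000000000000) (nat_lit 0x0) (nat_lit 0x3e001f000dc0062003c001a0004000200000000000000000000000000000000) := T_26 (nat_lit 178) (nat_lit 161) (nat_lit 5) (nat_lit 8) (nat_lit 7) L16548 (by decide +kernel)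
theorem L16550 : W_26 (nat_lit 15) (nat_lit 0x14000200000001000080000000000000000000000000000000) (nat_lit 0x0) (nat_lit 0x3f001f800ff006b807c001a0004000200000000000000000000000000000000) := Q_26 (nat_lit 195) (C_26 L16509 (C_26 L5080 (C_26 L5085 (C_26 L16536 (C_26 L5091 (C_26 L16549 (C_26 L5117 N_26))))))) (by decide +kernel)
theorem L16551 : W_26 (nat_lit 11) (nat_lit 0x14000200000001000080000000000000000000000000000000) (nat_lit 0x0) (nat_lit 0x70007807fc01e800fd00020000000000000000000000000000000000000000) := Q_26 (nat_lit 197) (C_26 L5124 (C_26 L5128 (C_26 L5127 (C_26 L5131 (C_26 L5140 (C_26 L5142 N_26)))))) (by decide +kernel)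
theorem L16552 : W_26 (nat_lit 2) (nat_lit 0x3c0024001e000b00020001000080000000000000000000000000000000) (nat_lit 0x0) (nat_lit 0xc0004000000000000000000000000000000000000000000000000000000000) := D_26 (nat_lit 246) (nat_lit 247) (nat_lit 230) (nat_lit 3) (nat_lit 5) (nat_lit 13) (nat_lit 5) (nat_lit 9) (nat_lit 10) (by decide +kernel)
theorem L16553 : W_26 (nat_lit 3) (nat_lit 0x1c0024001e000b00020001000080000000000000000000000000000000) (nat_lit 0x0) (nat_lit 0xc0006000100000000000000000000000000000000000000000000000000000) := T_26 (nat_lit 229) (nat_lit 212) (nat_lit 2) (nat_lit 5) (nat_lit 13) L16552 (by decide +kernel)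
theorem L16554 : W_26 (nat_lit 4) (nat_lit 0xc0024001e000b00020001000080000000000000000000000000000000) (nat_lit 0x0) (nat_lit 0xe0007000100000000000000000000000000000000000000000000000000000) := T_26 (nat_lit 228) (nat_lit 245) (nat_lit 7) (nat_lit 6) (nat_lit 10) L16553 (by decide +kernel)
theorem L16555 : W_26 (nat_lit 5) (nat_lit 0x80024001e000b00020001000080000000000000000000000000000000) (nat_lit 0x0) (nat_lit 0xe8007400100000000000000000000000000000000000000000000000000000) := T_26 (nat_lit 226) (nat_lit 243) (nat_lit 5) (nat_lit 6) (nat_lit 10) L16554 (by decide +kernel)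
theorem L16556 : W_26 (nat_lit 6) (nat_lit 0x24001e000b00020001000080000000000000000000000000000000) (nat_lit 0x0) (nat_lit 0xf8007c00100000000000000000000000000000000000000000000000000000) := T_26 (nat_lit 227) (nat_lit 244) (nat_lit 6) (nat_lit 6) (nat_lit 14) L16555 (by decide +kernel)
theorem L16557 : W_26 (nat_lit 7) (nat_lit 0x24001e000a00020001000080000000000000000000000000000000) (nat_lit 0x0) (nat_lit 0xf8007c00100000000180000000000000000000000000000000000000000000) := T_26 (nat_lit 176) (nat_lit 175) (nat_lit 0) (nat_lit 9) (nat_lit 11) L16556 (by decide +kernel)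
theorem L16558 : W_26 (nat_lit 8) (nat_lit 0x20001e000a00020001000080000000000000000000000000000000) (nat_lit 0x0) (nat_lit 0xf8007c00160000000180000000000000000000000000000000000000000000) := T_26 (nat_lit 210) (nat_lit 209) (nat_lit 1) (nat_lit 9) (nat_lit 11) L16557 (by decide +kernel)
theorem L16559 : W_26 (nat_lit 9) (nat_lit 0x20001e000200020001000080000000000000000000000000000000) (nat_lit 0x0) (nat_lit 0xf8007c00160000001980000000000000000000000000000000000000000000) := T_26 (nat_lit 179) (nat_lit 180) (nat_lit 2) (nat_lit 6) (nat_lit 11) L16558 (by decide +kernel)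
theorem L16560 : W_26 (nat_lit 10) (nat_lit 0x20001e000200000001000080000000000000000000000000000000) (nat_lit 0x0) (nat_lit 0xf8007c00160000001d80020000000000000000000000000000000000000000) := T_26 (nat_lit 161) (nat_lit 178) (nat_lit 7) (nat_lit 8) (nat_lit 8) L16559 (by decide +kernel)
theorem L16561 : W_26 (nat_lit 11) (nat_lit 0x1e000200000001000080000000000000000000000000000000) (nat_lit 0x0) (nat_lit 0xf8007c00760000001d80020000000000000000000000000000000000000000) := T_26 (nat_lit 213) (nat_lit 214) (nat_lit 3) (nat_lit 6) (nat_lit 11) L16560 (by decide +kernel)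
theorem L16562 : W_26 (nat_lit 12) (nat_lit 0x1c000200000001000080000000000000000000000000000000) (nat_lit 0x0) (nat_lit 0xf8007c00760003001dc0020000000000000000000000000000000000000000) := Q_26 (nat_lit 193) (C_26 L7899 (C_26 L5033 (C_26 L16561 N_26))) (by decide +kernel)
theorem L16563 : W_26 (nat_lit 13) (nat_lit 0x14000200000001000080000000000000000000000000000000) (nat_lit 0x0) (nat_lit 0xf8007c01f6006b007dc0020000000000000000000000000000000000000000) := Q_26 (nat_lit 195) (C_26 L16562 (C_26 L5062 (C_26 L5085 (C_26 L7821 (C_26 L7817 N_26))))) (by decide +kernel)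
theorem L16564 : W_26 (nat_lit 2) (nat_lit 0x24001e000f00008001000080000000000000000000000000000000) (nat_lit 0x0) (nat_lit 0x80000000000000000400020000000000000000000000000000000) := D_26 (nat_lit 142) (nat_lit 211) (nat_lit 125) (nat_lit 7) (nat_lit 6) (nat_lit 8) (nat_lit 7) (nat_lit 6) (nat_lit 7) (by decide +kernel)
theorem L16565 : W_26 (nat_lit 3) (nat_lit 0x24001e000f00000001000080000000000000000000000000000000) (nat_lit 0x0) (nat_lit 0x8000000000000c000400020000000000000000000000000000000) := T_26 (nat_lit 159) (nat_lit 158) (nat_lit 0) (nat_lit 9) (nat_lit 10) L16564 (by decide +kernel)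
theorem L16566 : W_26 (nat_lit 4) (nat_lit 0x20001e000f00000001000080000000000000000000000000000000) (nat_lit 0x0) (nat_lit 0xe000000000000c000400020000000000000000000000000000000) := T_26 (nat_lit 210) (nat_lit 209) (nat_lit 1) (nat_lit 9) (nat_lit 11) L16565 (by decide +kernel)
theorem L16567 : W_26 (nat_lit 5) (nat_lit 0x20001e000e00000001000080000000000000000000000000000000) (nat_lit 0x0) (nat_lit 0xe000000018000c000400020000000000000000000000000000000) := T_26 (nat_lit 176) (nat_lit 175) (nat_lit 3) (nat_lit 5) (nat_lit 10) L16566 (by decide +kernel)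
theorem L16568 : W_26 (nat_lit 6) (nat_lit 0x20001e000600000001000080000000000000000000000000000000) (nat_lit 0x0) (nat_lit 0xe000000198000c000400020000000000000000000000000000000) := T_26 (nat_lit 179) (nat_lit 180) (nat_lit 2) (nat_lit 6) (nat_lit 11) L16567 (by decide +kernel)
theorem L16569 : W_26 (nat_lit 7) (nat_lit 0x20001e000200000001000080000000000000000000000000000000) (nat_lit 0x0) (nat_lit 0xe0000001d8002c000400020000000000000000000000000000000) := T_26 (nat_lit 178) (nat_lit 161) (nat_lit 7) (nat_lit 8) (nat_lit 8) L16568 (by decide +kernel)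
theorem L16570 : W_26 (nat_lit 8) (nat_lit 0x1e000200000001000080000000000000000000000000000000) (nat_lit 0x0) (nat_lit 0x6e0000001d8002c000400020000000000000000000000000000000) := T_26 (nat_lit 213) (nat_lit 214) (nat_lit 3) (nat_lit 6) (nat_lit 11) L16569 (by decide +kernel)
theorem L16571 : W_26 (nat_lit 9) (nat_lit 0x1c000200000001000080000000000000000000000000000000) (nat_lit 0x0) (nat_lit 0x7e0003001dc002c000400020000000000000000000000000000000) := Q_26 (nat_lit 193) (C_26 L7899 (C_26 L5033 (C_26 L16570 N_26))) (by decide +kernel)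
theorem L16572 : W_26 (nat_lit 10) (nat_lit 0x14000200000001000080000000000000000000000000000000) (nat_lit 0x0) (nat_lit 0xfe006b807dc01ac004400220000000000000000000000000000000) := Q_26 (nat_lit 195) (C_26 L16571 (C_26 L5064 (C_26 L5117 (C_26 L5061 (C_26 L5085 (C_26 L5091 N_26)))))) (by decide +kernel)
theorem L16573 : W_26 (nat_lit 2) (nat_lit 0x16000e00000001000080000000000000000000000000000000) (nat_lit 0x0) (nat_lit 0x1800100000000000000000000000000000000000000000000) := D_26 (nat_lit 192) (nat_lit 176) (nat_lit 191) (nat_lit 1) (nat_lit 9) (nat_lit 10) (nat_lit 2) (nat_lit 4) (nat_lit 11) (by decide +kernel)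
theorem L16574 : W_26 (nat_lit 3) (nat_lit 0x14000e00000001000080000000000000000000000000000000) (nat_lit 0x0) (nat_lit 0x3801100000000000000000000000000000000000000000000) := T_26 (nat_lit 193) (nat_lit 180) (nat_lit 1) (nat_lit 10) (nat_lit 10) L16573 (by decide +kernel)
theorem L16577 : W_26 (nat_lit 4) (nat_lit 0x14000f00000001000080000000000000000000000000000000) (nat_lit 0x0) (nat_lit 0x100008000300000000c000400000000000000000000000000000000000) := T_26 (nat_lit 193) (nat_lit 192) (nat_lit 1) (nat_lit 9) (nat_lit 10) L16576 (by decide +kernel)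
theorem L16578 : W_26 (nat_lit 5) (nat_lit 0x14000e00000001000080000000000000000000000000000000) (nat_lit 0x0) (nat_lit 0x100008002300010000c000400000000000000000000000000000000000) := T_26 (nat_lit 176) (nat_lit 197) (nat_lit 3) (nat_lit 6) (nat_lit 10) L16577 (by decide +kernel)
theorem L16579 : W_26 (nat_lit 6) (nat_lit 0x14000600000001000080000000000000000000000000000000) (nat_lit 0x0) (nat_lit 0x10002800e380190018c004400200000000000000000000000000000000) := Q_26 (nat_lit 179) (C_26 L5145 (C_26 L5149 (C_26 L5150 (C_26 L16574 (C_26 L16578 N_26))))) (by decide +kernel)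
theorem L16580 : W_26 (nat_lit 7) (nat_lit 0x14000200000001000080000000000000000000000000000000) (nat_lit 0x0) (nat_lit 0x10002800e3801d001ac004400200000000000000000000000000000000) := T_26 (nat_lit 178) (nat_lit 161) (nat_lit 5) (nat_lit 8) (nat_lit 7) L16579 (by decide +kernel)
theorem L16581 : W_26 (nat_lit 11) (nat_lit 0x16000200000001000080000000000000000000000000000000) (nat_lit 0x0) (nat_lit 0x38001c007f00090019c000c000600030000000000000000000000000000000) := Q_26 (nat_lit 195) (C_26 L5033 (C_26 L7805 (C_26 L5030 N_26))) (by decide +kernel)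
theorem L16582 : W_26 (nat_lit 6) (nat_lit 0x20001e000300020001000080000000000000000000000000000000) (nat_lit 0x0) (nat_lit 0x38003c001e0000000000000000000000000000000000000000000000000000) := T_26 (nat_lit 210) (nat_lit 209) (nat_lit 1) (nat_lit 9) (nat_lit 11) L5172 (by decide +kernel)
theorem L16583 : W_26 (nat_lit 7) (nat_lit 0x20001e000300000001000080000000000000000000000000000000) (nat_lit 0x0) (nat_lit 0x38003c001e0000000400020000000000000000000000000000000000000000) := T_26 (nat_lit 161) (nat_lit 178) (nat_lit 7) (nat_lit 8) (nat_lit 8) L16582 (by decide +kernel)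
theorem L16584 : W_26 (nat_lit 8) (nat_lit 0x20001e000200000001000080000000000000000000000000000000) (nat_lit 0x0) (nat_lit 0x38003c001e0000000580020000000000000000000000000000000000000000) := T_26 (nat_lit 176) (nat_lit 175) (nat_lit 0) (nat_lit 9) (nat_lit 11) L16583 (by decide +kernel)
theorem L16585 : W_26 (nat_lit 9) (nat_lit 0x1e000200000001000080000000000000000000000000000000) (nat_lit 0x0) (nat_lit 0x38003c007e0000000580020000000000000000000000000000000000000000) := T_26 (nat_lit 213) (nat_lit 214) (nat_lit 3) (nat_lit 6) (nat_lit 11) L16584 (by decide +kernel)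
theorem L16586 : W_26 (nat_lit 2) (nat_lit 0x8000000020001e000f00008001000080000000000000000000000000000000) (nat_lit 0x0) (nat_lit 0x1000080000000000000000400000000000000000000000000000000000) := D_26 (nat_lit 211) (nat_lit 228) (nat_lit 142) (nat_lit 4) (nat_lit 7) (nat_lit 13) (nat_lit 7) (nat_lit 6) (nat_lit 8) (by decide +kernel)
theorem L16587 : W_26 (nat_lit 3) (nat_lit 0x8000000020001e000f00000001000080000000000000000000000000000000) (nat_lit 0x0) (nat_lit 0x100008000000000000c000400000000000000000000000000000000000) := T_26 (nat_lit 159) (nat_lit 158) (nat_lit 0) (nat_lit 9) (nat_lit 10) L16586 (by decide +kernel)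
theorem L16588 : W_26 (nat_lit 4) (nat_lit 0x20001e000f00000001000080000000000000000000000000000000) (nat_lit 0x0) (nat_lit 0x8000500008000000000000c000400000000000000000000000000000000000) := T_26 (nat_lit 247) (nat_lit 230) (nat_lit 4) (nat_lit 9) (nat_lit 14) L16587 (by decide +kernel)
theorem L16589 : W_26 (nat_lit 5) (nat_lit 0x20001e000e00000001000080000000000000000000000000000000) (nat_lit 0x0) (nat_lit 0x8000500008000000018000c000400000000000000000000000000000000000) := T_26 (nat_lit 176) (nat_lit 175) (nat_lit 3) (nat_lit 5) (nat_lit 10) L16588 (by decide +kernel)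
theorem L16590 : W_26 (nat_lit 6) (nat_lit 0x1e000e00000001000080000000000000000000000000000000) (nat_lit 0x0) (nat_lit 0x8000500068000000018000c000400000000000000000000000000000000000) := T_26 (nat_lit 213) (nat_lit 214) (nat_lit 3) (nat_lit 6) (nat_lit 11) L16589 (by decide +kernel)
theorem L16591 : W_26 (nat_lit 7) (nat_lit 0x1e000a00000001000080000000000000000000000000000000) (nat_lit 0x0) (nat_lit 0x8000500068000000058002c000400000000000000000000000000000000000) := T_26 (nat_lit 178) (nat_lit 161) (nat_lit 7) (nat_lit 8) (nat_lit 7) L16590 (by decide +kernel)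
theorem L16592 : W_26 (nat_lit 8) (nat_lit 0x1e000200000001000080000000000000000000000000000000) (nat_lit 0x0) (nat_lit 0x80005000680000001d8002c000400000000000000000000000000000000000) := T_26 (nat_lit 179) (nat_lit 180) (nat_lit 2) (nat_lit 6) (nat_lit 11) L16591 (by decide +kernel)
theorem L16593 : W_26 (nat_lit 12) (nat_lit 0x16000200000001000080000000000000000000000000000000) (nat_lit 0x0) (nat_lit 0x1f800fc007e0008001d8002c000600030000000000000000000000000000000) := Q_26 (nat_lit 195) (C_26 L16570 (C_26 L5030 (C_26 L16532 (C_26 L16561 (C_26 L16585 (C_26 L16592 N_26)))))) (by decide +kernel)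
theorem L16594 : W_26 (nat_lit 2) (nat_lit 0x1c0024001e000300028001400080000000000000000000000000000000) (nat_lit 0x0) (nat_lit 0x4000200010000000000000000000000000000000) := D_26 (nat_lit 141) (nat_lit 158) (nat_lit 124) (nat_lit 4) (nat_lit 6) (nat_lit 12) (nat_lit 4) (nat_lit 6) (nat_lit 11) (by decide +kernel)
theorem L16595 : W_26 (nat_lit 3) (nat_lit 0x1c0024001e000300028001000080000000000000000000000000000000) (nat_lit 0x0) (nat_lit 0x4000600030000000000000000000000000000000) := T_26 (nat_lit 142) (nat_lit 125) (nat_lit 7) (nat_lit 6) (nat_lit 7) L16594 (by decide +kernel)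
theorem L16596 : W_26 (nat_lit 4) (nat_lit 0x1c0024001e000300020001000080000000000000000000000000000000) (nat_lit 0x0) (nat_lit 0x8000000000000c000600030000000000000000000000000000000) := T_26 (nat_lit 159) (nat_lit 211) (nat_lit 7) (nat_lit 6) (nat_lit 9) L16595 (by decide +kernel)
theorem L16597 : W_26 (nat_lit 5) (nat_lit 0xc0024001e000300020001000080000000000000000000000000000000) (nat_lit 0x0) (nat_lit 0x2000100008000000000000c000600030000000000000000000000000000000) := T_26 (nat_lit 228) (nat_lit 245) (nat_lit 7) (nat_lit 6) (nat_lit 10) L16596 (by decide +kernel)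
theorem L16598 : W_26 (nat_lit 6) (nat_lit 0x80024001e000300020001000080000000000000000000000000000000) (nat_lit 0x0) (nat_lit 0x2800140008000000000000c000600030000000000000000000000000000000) := T_26 (nat_lit 226) (nat_lit 243) (nat_lit 5) (nat_lit 6) (nat_lit 10) L16597 (by decide +kernel)
theorem L16599 : W_26 (nat_lit 7) (nat_lit 0x24001e000300020001000080000000000000000000000000000000) (nat_lit 0x0) (nat_lit 0x38001c0008000000000000c000600030000000000000000000000000000000) := T_26 (nat_lit 227) (nat_lit 244) (nat_lit 6) (nat_lit 6) (nat_lit 14) L16598 (by decide +kernel)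
theorem L16600 : W_26 (nat_lit 8) (nat_lit 0x4001e000300020001000080000000000000000000000000000000) (nat_lit 0x0) (nat_lit 0x38001c0068000000000000c000600030000000000000000000000000000000) := T_26 (nat_lit 213) (nat_lit 214) (nat_lit 3) (nat_lit 6) (nat_lit 11) L16599 (by decide +kernel)
theorem L16601 : W_26 (nat_lit 9) (nat_lit 0x1e000300020001000080000000000000000000000000000000) (nat_lit 0x0) (nat_lit 0x38001c006e000000000000c000600030000000000000000000000000000000) := T_26 (nat_lit 210) (nat_lit 209) (nat_lit 1) (nat_lit 9) (nat_lit 11) L16600 (by decide +kernel)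
theorem L16602 : W_26 (nat_lit 10) (nat_lit 0x1e000200020001000080000000000000000000000000000000) (nat_lit 0x0) (nat_lit 0x38001c006e000000018000c000600030000000000000000000000000000000) := T_26 (nat_lit 176) (nat_lit 175) (nat_lit 0) (nat_lit 9) (nat_lit 11) L16601 (by decide +kernel)
theorem L16603 : W_26 (nat_lit 11) (nat_lit 0x1e000200000001000080000000000000000000000000000000) (nat_lit 0x0) (nat_lit 0x38001c006e000000058002c000600030000000000000000000000000000000) := T_26 (nat_lit 161) (nat_lit 178) (nat_lit 5) (nat_lit 8) (nat_lit 7) L16602 (by decide +kernel)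
theorem L16612 : W_26 (nat_lit 12) (nat_lit 0x16000200000001000080000000000000000000000000000000) (nat_lit 0x0) (nat_lit 0x38003c007f00090005c002c000600030000000000000000000000000000000) := Q_26 (nat_lit 195) (C_26 L5033 (C_26 L16585 (C_26 L7805 (C_26 L16603 (C_26 L16611 N_26))))) (by decide +kernel)
theorem L16613 : W_26 (nat_lit 13) (nat_lit 0x14000200000001000080000000000000000000000000000000) (nat_lit 0x0) (nat_lit 0x1f800fc007f000b801dc002c000600030000000000000000000000000000000) := Q_26 (nat_lit 193) (C_26 L5204 (C_26 L16581 (C_26 L5200 (C_26 L16593 (C_26 L16612 N_26))))) (by decide +kernel)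
theorem L16614 : W_26 (nat_lit 10) (nat_lit 0x1c000200000001000080000000000000000000000000000000) (nat_lit 0x0) (nat_lit 0x300018007f00030005c002c000600030000000000000000000000000000000) := Q_26 (nat_lit 193) (C_26 L5033 (C_26 L16611 (C_26 L7805 N_26))) (by decide +kernel)
theorem L16615 : W_26 (nat_lit 11) (nat_lit 0x14000200000001000080000000000000000000000000000000) (nat_lit 0x0) (nat_lit 0x70007800ff006b0075c002c000600030000000000000000000000000000000) := Q_26 (nat_lit 195) (C_26 L16614 (C_26 L5063 (C_26 L5080 (C_26 L7821 N_26)))) (by decide +kernel)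
theorem L16616 : W_26 (nat_lit 11) (nat_lit 0x14000200000001000080000000000000000000000000000000) (nat_lit 0x0) (nat_lit 0x30001803ff00eb80edc002c000600030000000000000000000000000000000) := Q_26 (nat_lit 195) (C_26 L16614 (C_26 L5063 (C_26 L5091 (C_26 L7817 (C_26 L7896 N_26))))) (by decide +kernel)
theorem L16617 : W_26 (nat_lit 11) (nat_lit 0x1c000200000001000080000000000000000000000000000000) (nat_lit 0x0) (nat_lit 0x38001c000e0003001d8002c000600030000000000000000000000000000000) := Q_26 (nat_lit 193) (C_26 L7899 (C_26 L16611 (C_26 L5030 N_26))) (by decide +kernel)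
theorem L16618 : W_26 (nat_lit 15) (nat_lit 0x14000200000001000080000000000000000000000000000000) (nat_lit 0x0) (nat_lit 0x3f801fc03de00eb00fd801ac004600230000000000000000000000000000000) := Q_26 (nat_lit 195) (C_26 L16617 (C_26 L5061 (C_26 L16549 (C_26 L7821 (C_26 L7896 N_26))))) (by decide +kernel)
theorem L16619 : W_26 (nat_lit 16) (nat_lit 0x4000200000001000080000000000000000000000000000000) (nat_lit 0x0) (nat_lit 0x3f801fc07ff01fbc0fdc01ac004600230000000000000000000000000000000) := Q_26 (nat_lit 196) (C_26 L16508 (C_26 L16524 (C_26 L16550 (C_26 L16551 (C_26 L16563 (C_26 L16572 (C_26 L16580 (C_26 L16613 (C_26 L16615 (C_26 L16616 (C_26 L16618 N_26))))))))))) (by decide +kernel)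
theorem L16620 : W_26 (nat_lit 13) (nat_lit 0xc000200000001000080000000000000000000000000000000) (nat_lit 0x0) (nat_lit 0x38003c00ff00738079c000c000600030000000000000000000000000000000) := Q_26 (nat_lit 196) (C_26 L16509 (C_26 L16523 (C_26 L5064 (C_26 L5061 (C_26 L5062 (C_26 L5063 N_26)))))) (by decide +kernel)
theorem L16621 : W_26 (nat_lit 9) (nat_lit 0xe000200000001000080000000000000000000000000000000) (nat_lit 0x0) (nat_lit 0x400028003f8011800cc0004000200000000000000000000000000000000000) := Q_26 (nat_lit 192) (C_26 L5213 (C_26 L5217 (C_26 L5224 N_26))) (by decide +kernel)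
theorem L16627 : W_26 (nat_lit 2) (nat_lit 0x10000f000200000001000080000000000000000000000000000000) (nat_lit 0x0) (nat_lit 0x800c00000000000000000000000000000000000000000000) := D_26 (nat_lit 178) (nat_lit 179) (nat_lit 191) (nat_lit 2) (nat_lit 5) (nat_lit 11) (nat_lit 2) (nat_lit 4) (nat_lit 11) (by decide +kernel)
theorem L16628 : W_26 (nat_lit 3) (nat_lit 0x10000e000200000001000080000000000000000000000000000000) (nat_lit 0x0) (nat_lit 0x200001800c00000000000000000000000000000000000000000000) := T_26 (nat_lit 192) (nat_lit 213) (nat_lit 3) (nat_lit 5) (nat_lit 11) L16627 (by decide +kernel)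
theorem L16629 : W_26 (nat_lit 5) (nat_lit 0xe000200000001000080000000000000000000000000000000) (nat_lit 0x0) (nat_lit 0x40002000380001800c00010000800000000000000000000000000000000000) := Q_26 (nat_lit 212) (C_26 L16623 (C_26 L16626 (C_26 L16628 N_26))) (by decide +kernel)
theorem L16630 : W_26 (nat_lit 2) (nat_lit 0x44001e001200010001000080000000000000000000000000000000) (nat_lit 0x0) (nat_lit 0x800020002000000000000000000000000000000000000000000000) := D_26 (nat_lit 197) (nat_lit 181) (nat_lit 215) (nat_lit 2) (nat_lit 7) (nat_lit 11) (nat_lit 3) (nat_lit 7) (nat_lit 11) (by decide +kernel)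
theorem L16631 : W_26 (nat_lit 3) (nat_lit 0x4001e001200010001000080000000000000000000000000000000) (nat_lit 0x0) (nat_lit 0xe00020002000000000000000000000000000000000000000000000) := T_26 (nat_lit 214) (nat_lit 213) (nat_lit 3) (nat_lit 6) (nat_lit 11) L16630 (by decide +kernel)
theorem L16632 : W_26 (nat_lit 4) (nat_lit 0x4001e000200010001000080000000000000000000000000000000) (nat_lit 0x0) (nat_lit 0xe00020003800000000000000000000000000000000000000000000) := T_26 (nat_lit 180) (nat_lit 179) (nat_lit 2) (nat_lit 6) (nat_lit 11) L16631 (by decide +kernel)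
theorem L16633 : W_26 (nat_lit 5) (nat_lit 0x4001e000200000001000080000000000000000000000000000000) (nat_lit 0x0) (nat_lit 0xe00020003800010000800000000000000000000000000000000000) := T_26 (nat_lit 160) (nat_lit 143) (nat_lit 6) (nat_lit 7) (nat_lit 11) L16632 (by decide +kernel)
theorem L16634 : W_26 (nat_lit 6) (nat_lit 0x4000e000200000001000080000000000000000000000000000000) (nat_lit 0x0) (nat_lit 0xe20030003800010000800000000000000000000000000000000000) := T_26 (nat_lit 196) (nat_lit 209) (nat_lit 1) (nat_lit 9) (nat_lit 11) L16633 (by decide +kernel)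
theorem L16635 : W_26 (nat_lit 7) (nat_lit 0xe000200000001000080000000000000000000000000000000) (nat_lit 0x0) (nat_lit 0x10000800ee0030003800010000800000000000000000000000000000000000) := Q_26 (nat_lit 210) (C_26 L5231 (C_26 L5229 (C_26 L16634 N_26))) (by decide +kernel)
theorem L16642 : W_26 (nat_lit 9) (nat_lit 0xe000200000001000080000000000000000000000000000000) (nat_lit 0x0) (nat_lit 0x50002800370011800cc0014000a00000000000000000000000000000000000) := Q_26 (nat_lit 192) (C_26 L5224 (C_26 L16641 (C_26 L5213 N_26))) (by decide +kernel)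
theorem L16643 : W_26 (nat_lit 9) (nat_lit 0xe000200000001000080000000000000000000000000000000) (nat_lit 0x0) (nat_lit 0x500028003f80118004c0014000800000000000000000000000000000000000) := Q_26 (nat_lit 192) (C_26 L16641 (C_26 L5217 (C_26 L5291 (C_26 L5294 N_26)))) (by decide +kernel)
theorem L16644 : W_26 (nat_lit 7) (nat_lit 0xe000200000001000080000000000000000000000000000000) (nat_lit 0x0) (nat_lit 0x100008000f8011800cc0010000800000000000000000000000000000000000) := Q_26 (nat_lit 192) (C_26 L5294 (C_26 L5308 (C_26 L5213 N_26))) (by decide +kernel)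
theorem L16645 : W_26 (nat_lit 10) (nat_lit 0xc000200000001000080000000000000000000000000000000) (nat_lit 0x0) (nat_lit 0x50002800ff8033803cc0014000a00000000000000000000000000000000000) := Q_26 (nat_lit 193) (C_26 L16621 (C_26 L16629 (C_26 L16635 (C_26 L16642 (C_26 L16643 (C_26 L16644 N_26)))))) (by decide +kernel)
theorem L16646 : W_26 (nat_lit 4) (nat_lit 0x80008002c000300010001000080000000000000000000000000000000) (nat_lit 0x0) (nat_lit 0x400030003000100000000400000000000000000000000000000000000000000000) := T_26 (nat_lit 212) (nat_lit 229) (nat_lit 7) (nat_lit 7) (nat_lit 9) L11954 (by decide +kernel)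
theorem L16647 : W_26 (nat_lit 5) (nat_lit 0x8002c000300010001000080000000000000000000000000000000) (nat_lit 0x0) (nat_lit 0x400030003800140000000400000000000000000000000000000000000000000000) := T_26 (nat_lit 227) (nat_lit 210) (nat_lit 5) (nat_lit 7) (nat_lit 9) L16646 (by decide +kernel)
theorem L16648 : W_26 (nat_lit 6) (nat_lit 0x8002c000300000001000080000000000000000000000000000000) (nat_lit 0x0) (nat_lit 0x400030003800140000000400010000800000000000000000000000000000000000) := T_26 (nat_lit 160) (nat_lit 143) (nat_lit 6) (nat_lit 7) (nat_lit 11) L16647 (by decide +kernel)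
theorem L16649 : W_26 (nat_lit 7) (nat_lit 0x8000c000300000001000080000000000000000000000000000000) (nat_lit 0x0) (nat_lit 0x400030003800140030000400010000800000000000000000000000000000000000) := T_26 (nat_lit 197) (nat_lit 196) (nat_lit 0) (nat_lit 10) (nat_lit 11) L16648 (by decide +kernel)
theorem L16650 : W_26 (nat_lit 8) (nat_lit 0xc000300000001000080000000000000000000000000000000) (nat_lit 0x0) (nat_lit 0x6000700038001f0030000400018000c00000000000000000000000000000000000) := Q_26 (nat_lit 211) (C_26 L16649 (C_26 L5344 (C_26 L7975 (C_26 L7979 (C_26 L5339 N_26))))) (by decide +kernel)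
theorem L16651 : W_26 (nat_lit 2) (nat_lit 0xe0005a0038001c000340000001000080000000000000000000000000000000) (nat_lit 0x0) (nat_lit 0x8000060000000000000000000000000000000000000000000000000000) := D_26 (nat_lit 210) (nat_lit 209) (nat_lit 231) (nat_lit 2) (nat_lit 5) (nat_lit 12) (nat_lit 3) (nat_lit 6) (nat_lit 12) (by decide +kernel)
theorem L16652 : W_26 (nat_lit 3) (nat_lit 0xe0001a0038001c000340000001000080000000000000000000000000000000) (nat_lit 0x0) (nat_lit 0x100000000c000060000000000000000000000000000000000000000000000000000) := T_26 (nat_lit 230) (nat_lit 264) (nat_lit 4) (nat_lit 9) (nat_lit 15) L16651 (by decide +kernel)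
theorem L16653 : W_26 (nat_lit 4) (nat_lit 0xe0001a0038000c000340000001000080000000000000000000000000000000) (nat_lit 0x0) (nat_lit 0x100000000c000060030000000000000000000000000000000000000000000000000) := T_26 (nat_lit 196) (nat_lit 197) (nat_lit 0) (nat_lit 10) (nat_lit 11) L16652 (by decide +kernel)
theorem L16654 : W_26 (nat_lit 5) (nat_lit 0x60001a0038000c000340000001000080000000000000000000000000000000) (nat_lit 0x0) (nat_lit 0x100018000c000060030000000000000000000000000000000000000000000000000) := T_26 (nat_lit 247) (nat_lit 248) (nat_lit 0) (nat_lit 10) (nat_lit 14) L16653 (by decide +kernel)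
theorem L16655 : W_26 (nat_lit 6) (nat_lit 0x60001a0018000c000340000001000080000000000000000000000000000000) (nat_lit 0x0) (nat_lit 0x100018000c000660030000000000000000000000000000000000000000000000000) := T_26 (nat_lit 213) (nat_lit 214) (nat_lit 1) (nat_lit 10) (nat_lit 12) L16654 (by decide +kernel)
theorem L16656 : W_26 (nat_lit 7) (nat_lit 0x6000180018000c000340000001000080000000000000000000000000000000) (nat_lit 0x0) (nat_lit 0x100018000c600660030000000000000000000000000000000000000000000000000) := T_26 (nat_lit 225) (nat_lit 226) (nat_lit 3) (nat_lit 4) (nat_lit 13) L16655 (by decide +kernel)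
theorem L16657 : W_26 (nat_lit 8) (nat_lit 0x6000180008000c000340000001000080000000000000000000000000000000) (nat_lit 0x0) (nat_lit 0x140018000c600760030000000000000000000000000000000000000000000000000) := T_26 (nat_lit 212) (nat_lit 262) (nat_lit 6) (nat_lit 7) (nat_lit 15) L16656 (by decide +kernel)
theorem L16658 : W_26 (nat_lit 9) (nat_lit 0x4000180008000c000340000001000080000000000000000000000000000000) (nat_lit 0x0) (nat_lit 0x1c001a000c600760030000000000000000000000000000000000000000000000000) := T_26 (nat_lit 245) (nat_lit 263) (nat_lit 7) (nat_lit 7) (nat_lit 11) L16657 (by decide +kernel)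
theorem L16659 : W_26 (nat_lit 10) (nat_lit 0x4000100008000c000340000001000080000000000000000000000000000000) (nat_lit 0x0) (nat_lit 0x1c001b000ce00760030000000000000000000000000000000000000000000000000) := T_26 (nat_lit 227) (nat_lit 244) (nat_lit 5) (nat_lit 7) (nat_lit 10) L16658 (by decide +kernel)
theorem L16660 : W_26 (nat_lit 11) (nat_lit 0x100008000c000340000001000080000000000000000000000000000000) (nat_lit 0x0) (nat_lit 0x1c001f000ee00760030000000000000000000000000000000000000000000000000) := T_26 (nat_lit 246) (nat_lit 229) (nat_lit 7) (nat_lit 7) (nat_lit 10) L16659 (by decide +kernel)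
theorem L16661 : W_26 (nat_lit 12) (nat_lit 0x100008000c000300000001000080000000000000000000000000000000) (nat_lit 0x0) (nat_lit 0x1c001f000ee007600300000c0000000000000000000000000000000000000000000) := T_26 (nat_lit 174) (nat_lit 175) (nat_lit 3) (nat_lit 4) (nat_lit 10) L16660 (by decide +kernel)
theorem L16662 : W_26 (nat_lit 13) (nat_lit 0x8000c000300000001000080000000000000000000000000000000) (nat_lit 0x0) (nat_lit 0x1c001f000fe007600300000c0008000000000000000000000000000000000000000) := T_26 (nat_lit 228) (nat_lit 159) (nat_lit 4) (nat_lit 7) (nat_lit 13) L16661 (by decide +kernel)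
theorem L16663 : W_26 (nat_lit 14) (nat_lit 0xc000300000001000080000000000000000000000000000000) (nat_lit 0x0) (nat_lit 0x1c001f000fe007f00300000c0018000c00000000000000000000000000000000000) := Q_26 (nat_lit 211) (C_26 L7979 (C_26 L5339 (C_26 L5344 (C_26 L16662 N_26)))) (by decide +kernel)
theorem L16664 : W_26 (nat_lit 4) (nat_lit 0x80008000c000340010001000080000000000000000000000000000000) (nat_lit 0x0) (nat_lit 0x400030003000100000000400000000000000000000000000000000000000000000) := T_26 (nat_lit 212) (nat_lit 229) (nat_lit 7) (nat_lit 7) (nat_lit 9) L11997 (by decide +kernel)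
theorem L16665 : W_26 (nat_lit 5) (nat_lit 0x8000c000340010001000080000000000000000000000000000000) (nat_lit 0x0) (nat_lit 0x400030003800140000000400000000000000000000000000000000000000000000) := T_26 (nat_lit 227) (nat_lit 210) (nat_lit 5) (nat_lit 7) (nat_lit 9) L16664 (by decide +kernel)
theorem L16666 : W_26 (nat_lit 6) (nat_lit 0x8000c000340000001000080000000000000000000000000000000) (nat_lit 0x0) (nat_lit 0x400030003800140000000400010000800000000000000000000000000000000000) := T_26 (nat_lit 160) (nat_lit 143) (nat_lit 6) (nat_lit 7) (nat_lit 11) L16665 (by decide +kernel)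
theorem L16667 : W_26 (nat_lit 7) (nat_lit 0x8000c000300000001000080000000000000000000000000000000) (nat_lit 0x0) (nat_lit 0x4000300038001400000004c0010000800000000000000000000000000000000000) := T_26 (nat_lit 174) (nat_lit 175) (nat_lit 3) (nat_lit 4) (nat_lit 10) L16666 (by decide +kernel)
theorem L16668 : W_26 (nat_lit 9) (nat_lit 0xc000300000001000080000000000000000000000000000000) (nat_lit 0x0) (nat_lit 0x600070003e001f00018004c0018000c00000000000000000000000000000000000) := Q_26 (nat_lit 211) (C_26 L7956 (C_26 L5339 (C_26 L16667 (C_26 L5405 N_26)))) (by decide +kernel)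
theorem L16669 : W_26 (nat_lit 15) (nat_lit 0xc000200000001000080000000000000000000000000000000) (nat_lit 0x0) (nat_lit 0x1e001f000fe007f00318005c0018000c00000000000000000000000000000000000) := Q_26 (nat_lit 176) (C_26 L5377 (C_26 L16650 (C_26 L16663 (C_26 L16668 N_26)))) (by decide +kernel)
theorem L16681 : W_26 (nat_lit 8) (nat_lit 0xc000300000001000080000000000000000000000000000000) (nat_lit 0x0) (nat_lit 0x10000800020000c001f000f00160000000000000000000000000000000) := Q_26 (nat_lit 142) (C_26 L5360 (C_26 L16675 (C_26 L16680 N_26))) (by decide +kernel)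
theorem L16682 : W_26 (nat_lit 15) (nat_lit 0xc000200000001000080000000000000000000000000000000) (nat_lit 0x0) (nat_lit 0x1e001f000fe007f00320005c001f000f00160000000000000000000000000000000) := Q_26 (nat_lit 176) (C_26 L5377 (C_26 L16650 (C_26 L16663 (C_26 L16681 N_26)))) (by decide +kernel)
theorem L16683 : W_26 (nat_lit 2) (nat_lit 0xf000680010001000080000000000000000000000000000000) (nat_lit 0x0) (nat_lit 0x2000300000000000000000000000000000000000000000000000000000) := D_26 (nat_lit 212) (nat_lit 229) (nat_lit 213) (nat_lit 4) (nat_lit 8) (nat_lit 13) (nat_lit 3) (nat_lit 5) (nat_lit 11) (by decide +kernel)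
theorem L16684 : W_26 (nat_lit 3) (nat_lit 0xf000680000001000080000000000000000000000000000000) (nat_lit 0x0) (nat_lit 0x2000300000000000010000800000000000000000000000000000000000) := T_26 (nat_lit 160) (nat_lit 143) (nat_lit 6) (nat_lit 7) (nat_lit 11) L16683 (by decide +kernel)
theorem L16685 : W_26 (nat_lit 4) (nat_lit 0xf000600000001000080000000000000000000000000000000) (nat_lit 0x0) (nat_lit 0x20003000000000c0010000800000000000000000000000000000000000) := T_26 (nat_lit 175) (nat_lit 174) (nat_lit 0) (nat_lit 8) (nat_lit 11) L16684 (by decide +kernel)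
theorem L16686 : W_26 (nat_lit 5) (nat_lit 0xf000200000001000080000000000000000000000000000000) (nat_lit 0x0) (nat_lit 0x2000300000000cc0010000800000000000000000000000000000000000) := T_26 (nat_lit 178) (nat_lit 179) (nat_lit 2) (nat_lit 5) (nat_lit 11) L16685 (by decide +kernel)
theorem L16687 : W_26 (nat_lit 11) (nat_lit 0xe000200000001000080000000000000000000000000000000) (nat_lit 0x0) (nat_lit 0x4000200037e001e00de0010000800000000000000000000000000000000000) := Q_26 (nat_lit 192) (C_26 L5294 (C_26 L8046 (C_26 L5213 (C_26 L16686 N_26)))) (by decide +kernel)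
theorem L16688 : W_26 (nat_lit 5) (nat_lit 0xe000200000001000080000000000000000000000000000000) (nat_lit 0x0) (nat_lit 0x7700310001c0000000000000000000000000000000000000000000) := Q_26 (nat_lit 196) (C_26 L5033 (C_26 L7805 (C_26 L8031 N_26))) (by decide +kernel)
theorem L16689 : W_26 (nat_lit 2) (nat_lit 0x9000000124007e001200000001000080000000000000000000000000000000) (nat_lit 0x0) (nat_lit 0x2100080000000000000000000000000000000000000000000000000) := D_26 (nat_lit 199) (nat_lit 212) (nat_lit 217) (nat_lit 1) (nat_lit 12) (nat_lit 11) (nat_lit 3) (nat_lit 9) (nat_lit 11) (by decide +kernel)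
theorem L16690 : W_26 (nat_lit 3) (nat_lit 0x9000000024007e001200000001000080000000000000000000000000000000) (nat_lit 0x0) (nat_lit 0x3900080000000000000000000000000000000000000000000000000) := T_26 (nat_lit 216) (nat_lit 215) (nat_lit 3) (nat_lit 8) (nat_lit 11) L16689 (by decide +kernel)
theorem L16691 : W_26 (nat_lit 4) (nat_lit 0x1000000024007e001200000001000080000000000000000000000000000000) (nat_lit 0x0) (nat_lit 0x80004003900080000000000000000000000000000000000000000000000000) := T_26 (nat_lit 247) (nat_lit 230) (nat_lit 6) (nat_lit 9) (nat_lit 14) L16690 (by decide +kernel)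
theorem L16692 : W_26 (nat_lit 5) (nat_lit 0x1000000024003e001200000001000080000000000000000000000000000000) (nat_lit 0x0) (nat_lit 0x800040039000c0000400000000000000000000000000000000000000000000) := T_26 (nat_lit 198) (nat_lit 178) (nat_lit 0) (nat_lit 11) (nat_lit 11) L16691 (by decide +kernel)
theorem L16693 : W_26 (nat_lit 6) (nat_lit 0x1000000024001e001200000001000080000000000000000000000000000000) (nat_lit 0x0) (nat_lit 0x800040039000e0002400000000000000000000000000000000000000000000) := T_26 (nat_lit 197) (nat_lit 181) (nat_lit 2) (nat_lit 7) (nat_lit 11) L16692 (by decide +kernel)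
theorem L16694 : W_26 (nat_lit 7) (nat_lit 0x24001e001200000001000080000000000000000000000000000000) (nat_lit 0x0) (nat_lit 0x900048039000e0002400000000000000000000000000000000000000000000) := T_26 (nat_lit 244) (nat_lit 227) (nat_lit 6) (nat_lit 6) (nat_lit 14) L16693 (by decide +kernel)
theorem L16695 : W_26 (nat_lit 8) (nat_lit 0x24001e000200000001000080000000000000000000000000000000) (nat_lit 0x0) (nat_lit 0x900048039000e0003c00000000000000000000000000000000000000000000) := T_26 (nat_lit 180) (nat_lit 179) (nat_lit 2) (nat_lit 6) (nat_lit 11) L16694 (by decide +kernel)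
theorem L16696 : W_26 (nat_lit 9) (nat_lit 0x20001e000200000001000080000000000000000000000000000000) (nat_lit 0x0) (nat_lit 0x900048039600e0003c00000000000000000000000000000000000000000000) := T_26 (nat_lit 210) (nat_lit 209) (nat_lit 1) (nat_lit 9) (nat_lit 11) L16695 (by decide +kernel)
theorem L16697 : W_26 (nat_lit 10) (nat_lit 0x1e000200000001000080000000000000000000000000000000) (nat_lit 0x0) (nat_lit 0x90004803f600e0003c00000000000000000000000000000000000000000000) := T_26 (nat_lit 213) (nat_lit 214) (nat_lit 3) (nat_lit 6) (nat_lit 11) L16696 (by decide +kernel)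
theorem L16698 : W_26 (nat_lit 11) (nat_lit 0xe000200000001000080000000000000000000000000000000) (nat_lit 0x0) (nat_lit 0x90004803f600f0003d80010000800000000000000000000000000000000000) := Q_26 (nat_lit 196) (C_26 L8031 (C_26 L16697 (C_26 L11229 N_26))) (by decide +kernel)
theorem L16699 : W_26 (nat_lit 2) (nat_lit 0x4000000012003f000200010001000080000000000000000000000000000000) (nat_lit 0x0) (nat_lit 0x3800000000000000000000000000000000000000000000) := D_26 (nat_lit 180) (nat_lit 179) (nat_lit 181) (nat_lit 2) (nat_lit 6) (nat_lit 11) (nat_lit 2) (nat_lit 7) (nat_lit 11) (by decide +kernel)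
theorem L16700 : W_26 (nat_lit 3) (nat_lit 0x4000000012001f000200010001000080000000000000000000000000000000) (nat_lit 0x0) (nat_lit 0x20003900000000000000000000000000000000000000000000) := T_26 (nat_lit 197) (nat_lit 176) (nat_lit 0) (nat_lit 10) (nat_lit 11) L16699 (by decide +kernel)
theorem L16701 : W_26 (nat_lit 4) (nat_lit 0x4000000012000f000200010001000080000000000000000000000000000000) (nat_lit 0x0) (nat_lit 0x40030003900000000000000000000000000000000000000000000) := T_26 (nat_lit 196) (nat_lit 210) (nat_lit 1) (nat_lit 9) (nat_lit 11) L16700 (by decide +kernel)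
theorem L16702 : W_26 (nat_lit 5) (nat_lit 0x4000000010000f000200010001000080000000000000000000000000000000) (nat_lit 0x0) (nat_lit 0x70030003900000000000000000000000000000000000000000000) := T_26 (nat_lit 209) (nat_lit 208) (nat_lit 1) (nat_lit 8) (nat_lit 11) L16701 (by decide +kernel)
theorem L16703 : W_26 (nat_lit 6) (nat_lit 0x10000f000200010001000080000000000000000000000000000000) (nat_lit 0x0) (nat_lit 0x40002000070030003900000000000000000000000000000000000000000000) := T_26 (nat_lit 246) (nat_lit 229) (nat_lit 4) (nat_lit 8) (nat_lit 14) L16702 (by decide +kernel)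
theorem L16704 : W_26 (nat_lit 7) (nat_lit 0x10000f000200000001000080000000000000000000000000000000) (nat_lit 0x0) (nat_lit 0x40002000070030003900010000800000000000000000000000000000000000) := T_26 (nat_lit 160) (nat_lit 143) (nat_lit 7) (nat_lit 7) (nat_lit 8) L16703 (by decide +kernel)
theorem L16705 : W_26 (nat_lit 8) (nat_lit 0xf000200000001000080000000000000000000000000000000) (nat_lit 0x0) (nat_lit 0x40002000370030003900010000800000000000000000000000000000000000) := T_26 (nat_lit 212) (nat_lit 213) (nat_lit 3) (nat_lit 5) (nat_lit 11) L16704 (by decide +kernel)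
theorem L16706 : W_26 (nat_lit 2) (nat_lit 0x2000fc00200000001000080000000000000000000000000000000) (nat_lit 0x0) (nat_lit 0x40010200000000000000000000000000000000000000000000000) := D_26 (nat_lit 210) (nat_lit 196) (nat_lit 189) (nat_lit 1) (nat_lit 9) (nat_lit 11) (nat_lit 3) (nat_lit 2) (nat_lit 11) (by decide +kernel)
theorem L16707 : W_26 (nat_lit 3) (nat_lit 0x2000f800200000001000080000000000000000000000000000000) (nat_lit 0x0) (nat_lit 0x40010600100000000000000000000000000000000000000000000) := T_26 (nat_lit 190) (nat_lit 176) (nat_lit 2) (nat_lit 3) (nat_lit 11) L16706 (by decide +kernel)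
theorem L16708 : W_26 (nat_lit 4) (nat_lit 0x2000f000200000001000080000000000000000000000000000000) (nat_lit 0x0) (nat_lit 0x40010e00500000000000000000000000000000000000000000000) := T_26 (nat_lit 191) (nat_lit 178) (nat_lit 2) (nat_lit 4) (nat_lit 11) L16707 (by decide +kernel)
theorem L16709 : W_26 (nat_lit 5) (nat_lit 0xf000200000001000080000000000000000000000000000000) (nat_lit 0x0) (nat_lit 0x70010e00500000000000000000000000000000000000000000000) := T_26 (nat_lit 209) (nat_lit 208) (nat_lit 1) (nat_lit 8) (nat_lit 11) L16708 (by decide +kernel)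
theorem L16710 : W_26 (nat_lit 9) (nat_lit 0xe000200000001000080000000000000000000000000000000) (nat_lit 0x0) (nat_lit 0x40002000370031e03d00010000800000000000000000000000000000000000) := Q_26 (nat_lit 192) (C_26 L5213 (C_26 L16705 (C_26 L16709 N_26))) (by decide +kernel)
theorem L16714 : W_26 (nat_lit 5) (nat_lit 0x1000000024001f000a80000001200080000000000000000000000000000000) (nat_lit 0x0) (nat_lit 0x10000d0015c000000000000000000000000000000) := T_26 (nat_lit 143) (nat_lit 160) (nat_lit 6) (nat_lit 7) (nat_lit 11) L16713 (by decide +kernel)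
theorem L16715 : W_26 (nat_lit 6) (nat_lit 0x1000000024001f000a80000001000080000000000000000000000000000000) (nat_lit 0x0) (nat_lit 0x14000f0015c000000000000000000000000000000) := T_26 (nat_lit 141) (nat_lit 158) (nat_lit 7) (nat_lit 5) (nat_lit 8) L16714 (by decide +kernel)
theorem L16716 : W_26 (nat_lit 7) (nat_lit 0x24001f000a80000001000080000000000000000000000000000000) (nat_lit 0x0) (nat_lit 0x10000800000000000000014000f0015c000000000000000000000000000000) := T_26 (nat_lit 244) (nat_lit 227) (nat_lit 6) (nat_lit 6) (nat_lit 14) L16715 (by decide +kernel)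
theorem L16717 : W_26 (nat_lit 8) (nat_lit 0x24001f000a00000001000080000000000000000000000000000000) (nat_lit 0x0) (nat_lit 0x100008000000000000c0014000f0015c000000000000000000000000000000) := T_26 (nat_lit 175) (nat_lit 174) (nat_lit 0) (nat_lit 8) (nat_lit 11) L16716 (by decide +kernel)
theorem L16718 : W_26 (nat_lit 9) (nat_lit 0x24001e000a00000001000080000000000000000000000000000000) (nat_lit 0x0) (nat_lit 0x100008000000010004c0014000f0015c000000000000000000000000000000) := T_26 (nat_lit 192) (nat_lit 178) (nat_lit 2) (nat_lit 5) (nat_lit 11) L16717 (by decide +kernel)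
theorem L16719 : W_26 (nat_lit 10) (nat_lit 0x24001e000200000001000080000000000000000000000000000000) (nat_lit 0x0) (nat_lit 0x10000800000001001cc0014000f0015c000000000000000000000000000000) := T_26 (nat_lit 179) (nat_lit 180) (nat_lit 2) (nat_lit 6) (nat_lit 11) L16718 (by decide +kernel)
theorem L16720 : W_26 (nat_lit 11) (nat_lit 0x20001e000200000001000080000000000000000000000000000000) (nat_lit 0x0) (nat_lit 0x10000800060001001cc0014000f0015c000000000000000000000000000000) := T_26 (nat_lit 210) (nat_lit 209) (nat_lit 1) (nat_lit 9) (nat_lit 11) L16719 (by decide +kernel)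
theorem L16721 : W_26 (nat_lit 12) (nat_lit 0x1e000200000001000080000000000000000000000000000000) (nat_lit 0x0) (nat_lit 0x10000800660001001cc0014000f0015c000000000000000000000000000000) := T_26 (nat_lit 213) (nat_lit 214) (nat_lit 3) (nat_lit 6) (nat_lit 11) L16720 (by decide +kernel)
theorem L16722 : W_26 (nat_lit 6) (nat_lit 0x1e000200000001000080000000000000000000000000000000) (nat_lit 0x0) (nat_lit 0xe60020003800010000800000000000000000000000000000000000) := T_26 (nat_lit 210) (nat_lit 209) (nat_lit 1) (nat_lit 9) (nat_lit 11) L16633 (by decide +kernel)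
theorem L16723 : W_26 (nat_lit 13) (nat_lit 0xe000200000001000080000000000000000000000000000000) (nat_lit 0x0) (nat_lit 0x10000800e60031003dc0014000f0015c000000000000000000000000000000) := Q_26 (nat_lit 196) (C_26 L8031 (C_26 L11229 (C_26 L16721 (C_26 L16722 N_26)))) (by decide +kernel)
theorem L16724 : W_26 (nat_lit 6) (nat_lit 0xe000200000001000080000000000000000000000000000000) (nat_lit 0x0) (nat_lit 0x78011e00dc0010000800000000000000000000000000000000000) := Q_26 (nat_lit 192) (C_26 L5294 (C_26 L16709 (C_26 L8056 (C_26 L5213 N_26)))) (by decide +kernel)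
theorem L16725 : W_26 (nat_lit 5) (nat_lit 0xe000200000001000080000000000000000000000000000000) (nat_lit 0x0) (nat_lit 0x700031800d80000000000000000000000000000000000000000000) := Q_26 (nat_lit 196) (C_26 L8031 (C_26 L8050 N_26)) (by decide +kernel)
theorem L16726 : W_26 (nat_lit 14) (nat_lit 0xc000200000001000080000000000000000000000000000000) (nat_lit 0x0) (nat_lit 0xd0006803f7e0f3e03de0014000f0015c000000000000000000000000000000) := Q_26 (nat_lit 193) (C_26 L16687 (C_26 L16688 (C_26 L16642 (C_26 L16698 (C_26 L16710 (C_26 L16723 (C_26 L16724 (C_26 L16725 N_26)))))))) (by decide +kernel)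
theorem L16727 : W_26 (nat_lit 10) (nat_lit 0xc000200010001000080000000000000000000000000000000) (nat_lit 0x0) (nat_lit 0x4000e0007001fe00ff0003800500008000400000000000000000000000000000000000) := Q_26 (nat_lit 211) (C_26 L5425 (C_26 L5433 (C_26 L5441 (C_26 L5445 (C_26 L5457 (C_26 L5451 N_26)))))) (by decide +kernel)
theorem L16728 : W_26 (nat_lit 11) (nat_lit 0xc000200000001000080000000000000000000000000000000) (nat_lit 0x0) (nat_lit 0x4000e0007001fe00ff0003800500018000c00000000000000000000000000000000000) := T_26 (nat_lit 160) (nat_lit 143) (nat_lit 6) (nat_lit 7) (nat_lit 11) L16727 (by decide +kernel)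
theorem L16729 : W_26 (nat_lit 10) (nat_lit 0xc000200010001000080000000000000000000000000000000) (nat_lit 0x0) (nat_lit 0xc0006001fe00ff0003800500008000400000000000000000000000000000000000) := Q_26 (nat_lit 211) (C_26 L5451 (C_26 L5441 (C_26 L5457 (C_26 L5445 N_26)))) (by decide +kernel)
theorem L16730 : W_26 (nat_lit 11) (nat_lit 0xc000200000001000080000000000000000000000000000000) (nat_lit 0x0) (nat_lit 0xc0006001fe00ff0003800500018000c00000000000000000000000000000000000) := T_26 (nat_lit 160) (nat_lit 143) (nat_lit 6) (nat_lit 7) (nat_lit 11) L16729 (by decide +kernel)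
theorem L16734 : W_26 (nat_lit 5) (nat_lit 0x2c000300000001400080000000000000000000000000000000) (nat_lit 0x0) (nat_lit 0x17000b00140000000000000000000000000000000) := T_26 (nat_lit 143) (nat_lit 160) (nat_lit 6) (nat_lit 7) (nat_lit 11) L16733 (by decide +kernel)
theorem L16735 : W_26 (nat_lit 6) (nat_lit 0xc000300000001400080000000000000000000000000000000) (nat_lit 0x0) (nat_lit 0x30000000017000b00140000000000000000000000000000000) := T_26 (nat_lit 197) (nat_lit 196) (nat_lit 0) (nat_lit 10) (nat_lit 11) L16734 (by decide +kernel)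
theorem L16736 : W_26 (nat_lit 7) (nat_lit 0xc000300000001000080000000000000000000000000000000) (nat_lit 0x0) (nat_lit 0x100008003200000001f000f00160000000000000000000000000000000) := Q_26 (nat_lit 142) (C_26 L5360 (C_26 L15779 (C_26 L16735 N_26))) (by decide +kernel)
theorem L16737 : W_26 (nat_lit 9) (nat_lit 0xc000200000001000080000000000000000000000000000000) (nat_lit 0x0) (nat_lit 0x10000800320005c001f000f00160000000000000000000000000000000) := Q_26 (nat_lit 176) (C_26 L16681 (C_26 L5377 (C_26 L16736 N_26))) (by decide +kernel)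
theorem L16738 : W_26 (nat_lit 16) (nat_lit 0x4000200000001000080000000000000000000000000000000) (nat_lit 0x0) (nat_lit 0x4001e001f801fe03ffe0fbe07de001f000f0017c000000000000000000000000000000) := Q_26 (nat_lit 195) (C_26 L16620 (C_26 L16645 (C_26 L16669 (C_26 L16682 (C_26 L16726 (C_26 L16728 (C_26 L16730 (C_26 L16737 N_26)))))))) (by decide +kernel)
theorem L16742 : W_26 (nat_lit 2) (nat_lit 0x4000300004001e000b0000000000000000000000000000000) (nat_lit 0x0) (nat_lit 0x3000080000000000000000000000000000000000000000000) := D_26 (nat_lit 175) (nat_lit 192) (nat_lit 193) (nat_lit 6) (nat_lit 5) (nat_lit 11) (nat_lit 7) (nat_lit 5) (nat_lit 7) (by decide +kernel)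
theorem L16743 : W_26 (nat_lit 3) (nat_lit 0x4000300004001e000a0000000000000000000000000000000) (nat_lit 0x0) (nat_lit 0x3000080000000000018000000000000000000000000000000) := T_26 (nat_lit 124) (nat_lit 123) (nat_lit 0) (nat_lit 8) (nat_lit 8) L16742 (by decide +kernel)
theorem L16744 : W_26 (nat_lit 4) (nat_lit 0x4000300000001e000a0000000000000000000000000000000) (nat_lit 0x0) (nat_lit 0x3000080006000000018000000000000000000000000000000) := T_26 (nat_lit 158) (nat_lit 157) (nat_lit 1) (nat_lit 8) (nat_lit 8) L16743 (by decide +kernel)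
theorem L16745 : W_26 (nat_lit 5) (nat_lit 0x4000300000001c000a0000000000000000000000000000000) (nat_lit 0x0) (nat_lit 0x3000080006000200118000000000000000000000000000000) := T_26 (nat_lit 141) (nat_lit 128) (nat_lit 2) (nat_lit 5) (nat_lit 8) L16744 (by decide +kernel)
theorem L16746 : W_26 (nat_lit 6) (nat_lit 0x4000300000001c00080000000000000000000000000000000) (nat_lit 0x0) (nat_lit 0x300008000e000200138000000000000000000000000000000) := T_26 (nat_lit 125) (nat_lit 159) (nat_lit 7) (nat_lit 6) (nat_lit 7) L16745 (by decide +kernel)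
theorem L16747 : W_26 (nat_lit 11) (nat_lit 0x4000300000001800080000000000000000000000000000000) (nat_lit 0x0) (nat_lit 0x73803bc000e000f000700178000000000000000000000000000000) := Q_26 (nat_lit 142) (C_26 L16741 (C_26 L8138 (C_26 L16746 N_26))) (by decide +kernel)
theorem L16748 : W_26 (nat_lit 12) (nat_lit 0x4000300000001000080000000000000000000000000000000) (nat_lit 0x0) (nat_lit 0x73803bc000e001f000f00178000000000000000000000000000000) := T_26 (nat_lit 143) (nat_lit 160) (nat_lit 6) (nat_lit 7) (nat_lit 11) L16747 (by decide +kernel)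
theorem L16749 : W_26 (nat_lit 2) (nat_lit 0x40003e0000001000080000000000000000000000000000000) (nat_lit 0x0) (nat_lit 0x38000000000000000000000000000000000000000) := D_26 (nat_lit 160) (nat_lit 159) (nat_lit 161) (nat_lit 2) (nat_lit 3) (nat_lit 10) (nat_lit 2) (nat_lit 4) (nat_lit 10) (by decide +kernel)
theorem L16750 : W_26 (nat_lit 3) (nat_lit 0x40003c0000001000080000000000000000000000000000000) (nat_lit 0x0) (nat_lit 0x2000020038000000000000000000000000000000000000000) := T_26 (nat_lit 173) (nat_lit 193) (nat_lit 3) (nat_lit 3) (nat_lit 10) L16749 (by decide +kernel)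
theorem L16751 : W_26 (nat_lit 4) (nat_lit 0x4000380000001000080000000000000000000000000000000) (nat_lit 0x0) (nat_lit 0xa000060038000000000000000000000000000000000000000) := T_26 (nat_lit 174) (nat_lit 195) (nat_lit 3) (nat_lit 4) (nat_lit 10) L16750 (by decide +kernel)
theorem L16753 : W_26 (nat_lit 2) (nat_lit 0x48003e0020001000080000000000000000000000000000000) (nat_lit 0x0) (nat_lit 0x3800000000000000000000000000000000000000) := D_26 (nat_lit 156) (nat_lit 155) (nat_lit 157) (nat_lit 0) (nat_lit 6) (nat_lit 10) (nat_lit 0) (nat_lit 7) (nat_lit 10) (by decide +kernel)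
theorem L16754 : W_26 (nat_lit 3) (nat_lit 0x48003c0020001000080000000000000000000000000000000) (nat_lit 0x0) (nat_lit 0x2000020003800000000000000000000000000000000000000) := T_26 (nat_lit 173) (nat_lit 193) (nat_lit 3) (nat_lit 3) (nat_lit 10) L16753 (by decide +kernel)
theorem L16755 : W_26 (nat_lit 4) (nat_lit 0x40003c0020001000080000000000000000000000000000000) (nat_lit 0x0) (nat_lit 0x2c00020003800000000000000000000000000000000000000) := T_26 (nat_lit 191) (nat_lit 190) (nat_lit 1) (nat_lit 7) (nat_lit 10) L16754 (by decide +kernel)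
theorem L16756 : W_26 (nat_lit 5) (nat_lit 0x4000380020001000080000000000000000000000000000000) (nat_lit 0x0) (nat_lit 0x2c00060013800000000000000000000000000000000000000) := T_26 (nat_lit 174) (nat_lit 160) (nat_lit 2) (nat_lit 4) (nat_lit 10) L16755 (by decide +kernel)
theorem L16757 : W_26 (nat_lit 6) (nat_lit 0x4000380000001000080000000000000000000000000000000) (nat_lit 0x0) (nat_lit 0x2c00460033800000000000000000000000000000000000000) := T_26 (nat_lit 161) (nat_lit 178) (nat_lit 5) (nat_lit 8) (nat_lit 7) L16756 (by decide +kernel)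
theorem L16758 : W_26 (nat_lit 2) (nat_lit 0xd000780004001000080000000000000000000000000000000) (nat_lit 0x0) (nat_lit 0x2000800008000000000000000000000000000000000000000) := D_26 (nat_lit 179) (nat_lit 193) (nat_lit 159) (nat_lit 2) (nat_lit 5) (nat_lit 11) (nat_lit 0) (nat_lit 9) (nat_lit 10) (by decide +kernel)
theorem L16759 : W_26 (nat_lit 3) (nat_lit 0xd000780000001000080000000000000000000000000000000) (nat_lit 0x0) (nat_lit 0x200080000e000000000000000000000000000000000000000) := T_26 (nat_lit 158) (nat_lit 157) (nat_lit 0) (nat_lit 8) (nat_lit 10) L16758 (by decide +kernel)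
theorem L16760 : W_26 (nat_lit 4) (nat_lit 0xc000780000001000080000000000000000000000000000000) (nat_lit 0x0) (nat_lit 0x380080000e000000000000000000000000000000000000000) := T_26 (nat_lit 192) (nat_lit 191) (nat_lit 1) (nat_lit 8) (nat_lit 10) L16759 (by decide +kernel)
theorem L16761 : W_26 (nat_lit 5) (nat_lit 0x4000780000001000080000000000000000000000000000000) (nat_lit 0x0) (nat_lit 0x1b80080000e000000000000000000000000000000000000000) := T_26 (nat_lit 195) (nat_lit 196) (nat_lit 3) (nat_lit 5) (nat_lit 10) L16760 (by decide +kernel)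
theorem L16762 : W_26 (nat_lit 6) (nat_lit 0x4000380000001000080000000000000000000000000000000) (nat_lit 0x0) (nat_lit 0x1b800c0002e000000000000000000000000000000000000000) := T_26 (nat_lit 178) (nat_lit 161) (nat_lit 5) (nat_lit 8) (nat_lit 7) L16761 (by decide +kernel)
theorem L16763 : W_26 (nat_lit 7) (nat_lit 0x4000300000001000080000000000000000000000000000000) (nat_lit 0x0) (nat_lit 0x1be00ce003f800000000000000000000000000000000000000) := Q_26 (nat_lit 175) (C_26 L7406 (C_26 L16751 (C_26 L16752 (C_26 L16757 (C_26 L16762 N_26))))) (by decide +kernel)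
theorem L16764 : W_26 (nat_lit 2) (nat_lit 0x280034001e000300000001000080000000000000000000000000000000) (nat_lit 0x0) (nat_lit 0x20001400000000000000000000000000000000000000000000000000000000) := D_26 (nat_lit 228) (nat_lit 245) (nat_lit 226) (nat_lit 7) (nat_lit 6) (nat_lit 10) (nat_lit 2) (nat_lit 5) (nat_lit 13) (by decide +kernel)
theorem L16765 : W_26 (nat_lit 3) (nat_lit 0x80034001e000300000001000080000000000000000000000000000000) (nat_lit 0x0) (nat_lit 0x60003400000000000000000000000000000000000000000000000000000000) := T_26 (nat_lit 229) (nat_lit 246) (nat_lit 4) (nat_lit 8) (nat_lit 14) L16764 (by decide +kernel)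
theorem L16766 : W_26 (nat_lit 4) (nat_lit 0x34001e000300000001000080000000000000000000000000000000) (nat_lit 0x0) (nat_lit 0x70003c00000000000000000000000000000000000000000000000000000000) := T_26 (nat_lit 227) (nat_lit 244) (nat_lit 6) (nat_lit 6) (nat_lit 14) L16765 (by decide +kernel)
theorem L16767 : W_26 (nat_lit 5) (nat_lit 0x24001e000300000001000080000000000000000000000000000000) (nat_lit 0x0) (nat_lit 0x70003c00100001000000000000000000000000000000000000000000000000) := T_26 (nat_lit 212) (nat_lit 192) (nat_lit 3) (nat_lit 5) (nat_lit 11) L16766 (by decide +kernel)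
theorem L16768 : W_26 (nat_lit 6) (nat_lit 0x4001e000300000001000080000000000000000000000000000000) (nat_lit 0x0) (nat_lit 0x70003c00700001000000000000000000000000000000000000000000000000) := T_26 (nat_lit 213) (nat_lit 214) (nat_lit 3) (nat_lit 6) (nat_lit 11) L16767 (by decide +kernel)
theorem L16769 : W_26 (nat_lit 7) (nat_lit 0x1e000300000001000080000000000000000000000000000000) (nat_lit 0x0) (nat_lit 0x70003c00760001000000000000000000000000000000000000000000000000) := T_26 (nat_lit 210) (nat_lit 209) (nat_lit 1) (nat_lit 9) (nat_lit 11) L16768 (by decide +kernel)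
theorem L16770 : W_26 (nat_lit 8) (nat_lit 0xe000300000001000080000000000000000000000000000000) (nat_lit 0x0) (nat_lit 0x70003c00760031000000000000000000000000000000000000000000000000) := T_26 (nat_lit 196) (nat_lit 197) (nat_lit 0) (nat_lit 10) (nat_lit 11) L16769 (by decide +kernel)
theorem L16771 : W_26 (nat_lit 2) (nat_lit 0x2e000f00008001c00080000000000000000000000000000000) (nat_lit 0x0) (nat_lit 0x200110000000000000000000000000000000) := D_26 (nat_lit 141) (nat_lit 128) (nat_lit 124) (nat_lit 2) (nat_lit 5) (nat_lit 8) (nat_lit 4) (nat_lit 6) (nat_lit 11) (by decide +kernel)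
theorem L16772 : W_26 (nat_lit 3) (nat_lit 0x2e000f00008001400080000000000000000000000000000000) (nat_lit 0x0) (nat_lit 0xa00150000000000000000000000000000000) := T_26 (nat_lit 143) (nat_lit 126) (nat_lit 6) (nat_lit 6) (nat_lit 11) L16771 (by decide +kernel)
theorem L16773 : W_26 (nat_lit 4) (nat_lit 0x2e000f00008001000080000000000000000000000000000000) (nat_lit 0x0) (nat_lit 0xe00170000000000000000000000000000000) := T_26 (nat_lit 142) (nat_lit 125) (nat_lit 7) (nat_lit 6) (nat_lit 7) L16772 (by decide +kernel)
theorem L16774 : W_26 (nat_lit 5) (nat_lit 0x2e000f00000001000080000000000000000000000000000000) (nat_lit 0x0) (nat_lit 0xc000e00170000000000000000000000000000000) := T_26 (nat_lit 159) (nat_lit 158) (nat_lit 0) (nat_lit 9) (nat_lit 10) L16773 (by decide +kernel)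
theorem L16775 : W_26 (nat_lit 6) (nat_lit 0x2e000700000001000080000000000000000000000000000000) (nat_lit 0x0) (nat_lit 0x180000c000e00170000000000000000000000000000000) := T_26 (nat_lit 179) (nat_lit 180) (nat_lit 1) (nat_lit 10) (nat_lit 10) L16774 (by decide +kernel)
theorem L16776 : W_26 (nat_lit 7) (nat_lit 0x2e000300000001000080000000000000000000000000000000) (nat_lit 0x0) (nat_lit 0x1c0002c000e00170000000000000000000000000000000) := T_26 (nat_lit 178) (nat_lit 161) (nat_lit 5) (nat_lit 8) (nat_lit 7) L16775 (by decide +kernel)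
theorem L16777 : W_26 (nat_lit 8) (nat_lit 0xe000300000001000080000000000000000000000000000000) (nat_lit 0x0) (nat_lit 0x30001c0002c000e00170000000000000000000000000000000) := T_26 (nat_lit 197) (nat_lit 196) (nat_lit 0) (nat_lit 10) (nat_lit 11) L16776 (by decide +kernel)
theorem L16778 : W_26 (nat_lit 9) (nat_lit 0xc000300000001000080000000000000000000000000000000) (nat_lit 0x0) (nat_lit 0x70003c00760033801c0002c000e00170000000000000000000000000000000) := Q_26 (nat_lit 193) (C_26 L8149 (C_26 L16770 (C_26 L16777 N_26))) (by decide +kernel)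
theorem L16779 : W_26 (nat_lit 5) (nat_lit 0xc000700000001000080000000000000000000000000000000) (nat_lit 0x0) (nat_lit 0x38008c000e000000000000000000000000000000000000000) := T_26 (nat_lit 175) (nat_lit 174) (nat_lit 3) (nat_lit 4) (nat_lit 10) L16760 (by decide +kernel)
theorem L16780 : W_26 (nat_lit 6) (nat_lit 0xc000300000001000080000000000000000000000000000000) (nat_lit 0x0) (nat_lit 0x3800cc002e000000000000000000000000000000000000000) := T_26 (nat_lit 178) (nat_lit 161) (nat_lit 5) (nat_lit 8) (nat_lit 7) L16779 (by decide +kernel)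
theorem L16781 : W_26 (nat_lit 10) (nat_lit 0x4000300000001000080000000000000000000000000000000) (nat_lit 0x0) (nat_lit 0x70003c0076003b801cc002e000e00170000000000000000000000000000000) := Q_26 (nat_lit 195) (C_26 L5377 (C_26 L16778 (C_26 L5316 (C_26 L16780 N_26)))) (by decide +kernel)
theorem L16782 : W_26 (nat_lit 2) (nat_lit 0x2c000f00008001400080000000000000000000000000000000) (nat_lit 0x0) (nat_lit 0x40003000000000000000000000000000000000000000000000) := D_26 (nat_lit 180) (nat_lit 181) (nat_lit 198) (nat_lit 1) (nat_lit 11) (nat_lit 10) (nat_lit 3) (nat_lit 7) (nat_lit 10) (by decide +kernel)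
theorem L16783 : W_26 (nat_lit 3) (nat_lit 0x2c000700008001400080000000000000000000000000000000) (nat_lit 0x0) (nat_lit 0x40003800004000000000000000000000000000000000000000) := T_26 (nat_lit 179) (nat_lit 158) (nat_lit 0) (nat_lit 9) (nat_lit 10) L16782 (by decide +kernel)
theorem L16784 : W_26 (nat_lit 4) (nat_lit 0x2c000300008001400080000000000000000000000000000000) (nat_lit 0x0) (nat_lit 0x40003c00024000000000000000000000000000000000000000) := T_26 (nat_lit 178) (nat_lit 161) (nat_lit 5) (nat_lit 8) (nat_lit 7) L16783 (by decide +kernel)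
theorem L16785 : W_26 (nat_lit 5) (nat_lit 0xc000300008001400080000000000000000000000000000000) (nat_lit 0x0) (nat_lit 0x70003c00024000000000000000000000000000000000000000) := T_26 (nat_lit 197) (nat_lit 196) (nat_lit 0) (nat_lit 10) (nat_lit 11) L16784 (by decide +kernel)
theorem L16786 : W_26 (nat_lit 6) (nat_lit 0xc000300000001400080000000000000000000000000000000) (nat_lit 0x0) (nat_lit 0x70003c0002c000000020000000000000000000000000000000) := T_26 (nat_lit 159) (nat_lit 125) (nat_lit 7) (nat_lit 6) (nat_lit 7) L16785 (by decide +kernel)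
theorem L16787 : W_26 (nat_lit 2) (nat_lit 0xc000300020001f000a0000000000000000000000000000000) (nat_lit 0x0) (nat_lit 0x7000000000000000000000000000000000000000) := D_26 (nat_lit 157) (nat_lit 156) (nat_lit 158) (nat_lit 1) (nat_lit 7) (nat_lit 8) (nat_lit 1) (nat_lit 8) (nat_lit 8) (by decide +kernel)
theorem L16788 : W_26 (nat_lit 3) (nat_lit 0xc000300020001e000a0000000000000000000000000000000) (nat_lit 0x0) (nat_lit 0x7000100040000000000000000000000000000000) := T_26 (nat_lit 140) (nat_lit 126) (nat_lit 2) (nat_lit 4) (nat_lit 8) L16787 (by decide +kernel)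
theorem L16789 : W_26 (nat_lit 4) (nat_lit 0xc000300020001c000a0000000000000000000000000000000) (nat_lit 0x0) (nat_lit 0x7000300140000000000000000000000000000000) := T_26 (nat_lit 141) (nat_lit 128) (nat_lit 2) (nat_lit 5) (nat_lit 8) L16788 (by decide +kernel)
theorem L16790 : W_26 (nat_lit 5) (nat_lit 0xc0003000200014000a0000000000000000000000000000000) (nat_lit 0x0) (nat_lit 0x17000b00140000000000000000000000000000000) := T_26 (nat_lit 143) (nat_lit 160) (nat_lit 6) (nat_lit 7) (nat_lit 11) L16789 (by decide +kernel)
theorem L16791 : W_26 (nat_lit 6) (nat_lit 0xc000300020001400080000000000000000000000000000000) (nat_lit 0x0) (nat_lit 0x1f000b00160000000000000000000000000000000) := T_26 (nat_lit 125) (nat_lit 159) (nat_lit 7) (nat_lit 6) (nat_lit 7) L16790 (by decide +kernel)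
theorem L16792 : W_26 (nat_lit 7) (nat_lit 0xc000300000001400080000000000000000000000000000000) (nat_lit 0x0) (nat_lit 0x40003f000b00160000000000000000000000000000000) := T_26 (nat_lit 161) (nat_lit 178) (nat_lit 5) (nat_lit 8) (nat_lit 7) L16791 (by decide +kernel)
theorem L16793 : W_26 (nat_lit 2) (nat_lit 0xc000300020001f00080000000000000000000000000000000) (nat_lit 0x0) (nat_lit 0x1c000000000000000000000000000000) := D_26 (nat_lit 123) (nat_lit 124) (nat_lit 122) (nat_lit 0) (nat_lit 8) (nat_lit 8) (nat_lit 0) (nat_lit 7) (nat_lit 8) (by decide +kernel)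
theorem L16794 : W_26 (nat_lit 3) (nat_lit 0xc000300020001e00080000000000000000000000000000000) (nat_lit 0x0) (nat_lit 0x10005c000000000000000000000000000000) := T_26 (nat_lit 140) (nat_lit 126) (nat_lit 2) (nat_lit 4) (nat_lit 8) L16793 (by decide +kernel)
theorem L16795 : W_26 (nat_lit 4) (nat_lit 0xc000300020001c00080000000000000000000000000000000) (nat_lit 0x0) (nat_lit 0x30015c000000000000000000000000000000) := T_26 (nat_lit 141) (nat_lit 128) (nat_lit 2) (nat_lit 5) (nat_lit 8) L16794 (by decide +kernel)
theorem L16796 : W_26 (nat_lit 5) (nat_lit 0xc000300000001c00080000000000000000000000000000000) (nat_lit 0x0) (nat_lit 0x40002000030015c000000000000000000000000000000) := T_26 (nat_lit 161) (nat_lit 178) (nat_lit 5) (nat_lit 8) (nat_lit 7) L16795 (by decide +kernel)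
theorem L16797 : W_26 (nat_lit 6) (nat_lit 0xc000300000001400080000000000000000000000000000000) (nat_lit 0x0) (nat_lit 0x400030000b0015c000000000000000000000000000000) := T_26 (nat_lit 143) (nat_lit 160) (nat_lit 6) (nat_lit 7) (nat_lit 11) L16796 (by decide +kernel)
theorem L16798 : W_26 (nat_lit 8) (nat_lit 0xc000300000001000080000000000000000000000000000000) (nat_lit 0x0) (nat_lit 0x70003c0003f000f0017c000000000000000000000000000000) := Q_26 (nat_lit 142) (C_26 L16786 (C_26 L16792 (C_26 L16735 (C_26 L16797 N_26)))) (by decide +kernel)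
theorem L16799 : W_26 (nat_lit 2) (nat_lit 0x40003c0000001000080000000000000000000000000000000) (nat_lit 0x0) (nat_lit 0x30000800000000000000000000000000000000000) := D_26 (nat_lit 160) (nat_lit 161) (nat_lit 143) (nat_lit 2) (nat_lit 4) (nat_lit 10) (nat_lit 6) (nat_lit 7) (nat_lit 11) (by decide +kernel)
theorem L16800 : W_26 (nat_lit 3) (nat_lit 0x4000380000001000080000000000000000000000000000000) (nat_lit 0x0) (nat_lit 0x8000040030000800000000000000000000000000000000000) := T_26 (nat_lit 174) (nat_lit 195) (nat_lit 3) (nat_lit 4) (nat_lit 10) L16799 (by decide +kernel)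
theorem L16801 : W_26 (nat_lit 2) (nat_lit 0x4000380010001000080000000000000000000000000000000) (nat_lit 0x0) (nat_lit 0x440020000000000000000000000000000000000000000) := D_26 (nat_lit 161) (nat_lit 174) (nat_lit 178) (nat_lit 2) (nat_lit 4) (nat_lit 10) (nat_lit 5) (nat_lit 8) (nat_lit 7) (by decide +kernel)
theorem L16802 : W_26 (nat_lit 3) (nat_lit 0x4000380000001000080000000000000000000000000000000) (nat_lit 0x0) (nat_lit 0x440030000800000000000000000000000000000000000) := T_26 (nat_lit 160) (nat_lit 143) (nat_lit 6) (nat_lit 7) (nat_lit 11) L16801 (by decide +kernel)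
theorem L16803 : W_26 (nat_lit 2) (nat_lit 0x200000000d00078001c001000080000000000000000000000000000000) (nat_lit 0x0) (nat_lit 0x20000000000000000400020000000000000000000000000000000) := D_26 (nat_lit 142) (nat_lit 125) (nat_lit 209) (nat_lit 7) (nat_lit 6) (nat_lit 7) (nat_lit 6) (nat_lit 5) (nat_lit 12) (by decide +kernel)
theorem L16804 : W_26 (nat_lit 3) (nat_lit 0x200000000d000780014001000080000000000000000000000000000000) (nat_lit 0x0) (nat_lit 0x20000000800008000400020000000000000000000000000000000) := T_26 (nat_lit 159) (nat_lit 179) (nat_lit 0) (nat_lit 9) (nat_lit 10) L16803 (by decide +kernel)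
theorem L16805 : W_26 (nat_lit 4) (nat_lit 0x200000000d000780010001000080000000000000000000000000000000) (nat_lit 0x0) (nat_lit 0x2000000080000e000400020000000000000000000000000000000) := T_26 (nat_lit 158) (nat_lit 157) (nat_lit 0) (nat_lit 8) (nat_lit 10) L16804 (by decide +kernel)
theorem L16806 : W_26 (nat_lit 5) (nat_lit 0x200000000c000780010001000080000000000000000000000000000000) (nat_lit 0x0) (nat_lit 0x2000180080000e000400020000000000000000000000000000000) := T_26 (nat_lit 192) (nat_lit 191) (nat_lit 1) (nat_lit 8) (nat_lit 10) L16805 (by decide +kernel)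
theorem L16807 : W_26 (nat_lit 6) (nat_lit 0xc000780010001000080000000000000000000000000000000) (nat_lit 0x0) (nat_lit 0x200012000180080000e000400020000000000000000000000000000000) := T_26 (nat_lit 229) (nat_lit 212) (nat_lit 4) (nat_lit 8) (nat_lit 13) L16806 (by decide +kernel)
theorem L16808 : W_26 (nat_lit 7) (nat_lit 0x4000780010001000080000000000000000000000000000000) (nat_lit 0x0) (nat_lit 0x200012001980080000e000400020000000000000000000000000000000) := T_26 (nat_lit 195) (nat_lit 196) (nat_lit 3) (nat_lit 5) (nat_lit 10) L16807 (by decide +kernel)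
theorem L16809 : W_26 (nat_lit 8) (nat_lit 0x4000380010001000080000000000000000000000000000000) (nat_lit 0x0) (nat_lit 0x2000120019800c0002e000400020000000000000000000000000000000) := T_26 (nat_lit 178) (nat_lit 161) (nat_lit 5) (nat_lit 8) (nat_lit 7) L16808 (by decide +kernel)
theorem L16810 : W_26 (nat_lit 9) (nat_lit 0x4000380000001000080000000000000000000000000000000) (nat_lit 0x0) (nat_lit 0x2000120019800c0003e000c00020000000000000000000000000000000) := T_26 (nat_lit 160) (nat_lit 143) (nat_lit 6) (nat_lit 7) (nat_lit 11) L16809 (by decide +kernel)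
theorem L16811 : W_26 (nat_lit 10) (nat_lit 0x4000300000001000080000000000000000000000000000000) (nat_lit 0x0) (nat_lit 0x2000120019e00ce003f800c00020000000000000000000000000000000) := Q_26 (nat_lit 175) (C_26 L16800 (C_26 L7406 (C_26 L7393 (C_26 L16802 (C_26 L7397 (C_26 L16810 N_26)))))) (by decide +kernel)
theorem L16812 : W_26 (nat_lit 2) (nat_lit 0x200000000f000780014001000080000000000000000000000000000000) (nat_lit 0x0) (nat_lit 0x40000000000000000200010000000000000000000000000000000) := D_26 (nat_lit 141) (nat_lit 210) (nat_lit 124) (nat_lit 7) (nat_lit 5) (nat_lit 8) (nat_lit 7) (nat_lit 5) (nat_lit 7) (by decide +kernel)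
theorem L16813 : W_26 (nat_lit 3) (nat_lit 0x200000000d000780014001000080000000000000000000000000000000) (nat_lit 0x0) (nat_lit 0x40002000800000000200010000000000000000000000000000000) := T_26 (nat_lit 193) (nat_lit 179) (nat_lit 2) (nat_lit 5) (nat_lit 11) L16812 (by decide +kernel)
theorem L16814 : W_26 (nat_lit 4) (nat_lit 0x200000000c000780014001000080000000000000000000000000000000) (nat_lit 0x0) (nat_lit 0x40003800800000000200010000000000000000000000000000000) := T_26 (nat_lit 192) (nat_lit 191) (nat_lit 1) (nat_lit 8) (nat_lit 10) L16813 (by decide +kernel)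
theorem L16815 : W_26 (nat_lit 5) (nat_lit 0x200000000c000780010001000080000000000000000000000000000000) (nat_lit 0x0) (nat_lit 0x40003800800006000200010000000000000000000000000000000) := T_26 (nat_lit 158) (nat_lit 157) (nat_lit 0) (nat_lit 8) (nat_lit 10) L16814 (by decide +kernel)
theorem L16816 : W_26 (nat_lit 6) (nat_lit 0xc000780010001000080000000000000000000000000000000) (nat_lit 0x0) (nat_lit 0x2000140003800800006000200010000000000000000000000000000000) := T_26 (nat_lit 229) (nat_lit 212) (nat_lit 4) (nat_lit 8) (nat_lit 13) L16815 (by decide +kernel)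
theorem L16817 : W_26 (nat_lit 7) (nat_lit 0xc000780000001000080000000000000000000000000000000) (nat_lit 0x0) (nat_lit 0x2000140003800800016000a00010000000000000000000000000000000) := T_26 (nat_lit 160) (nat_lit 143) (nat_lit 6) (nat_lit 7) (nat_lit 11) L16816 (by decide +kernel)
theorem L16818 : W_26 (nat_lit 8) (nat_lit 0xc000380000001000080000000000000000000000000000000) (nat_lit 0x0) (nat_lit 0x2000140003800c00036000a00010000000000000000000000000000000) := T_26 (nat_lit 178) (nat_lit 161) (nat_lit 5) (nat_lit 8) (nat_lit 7) L16817 (by decide +kernel)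
theorem L16819 : W_26 (nat_lit 9) (nat_lit 0xc000300000001000080000000000000000000000000000000) (nat_lit 0x0) (nat_lit 0x2000140003800cc0036000a00010000000000000000000000000000000) := T_26 (nat_lit 175) (nat_lit 174) (nat_lit 3) (nat_lit 4) (nat_lit 10) L16818 (by decide +kernel)
theorem L16820 : W_26 (nat_lit 2) (nat_lit 0x480020001e000f00010001000080000000000000000000000000000000) (nat_lit 0x0) (nat_lit 0x40002000100000000000000000000000000000000000000000000000000000) := D_26 (nat_lit 229) (nat_lit 212) (nat_lit 246) (nat_lit 4) (nat_lit 8) (nat_lit 13) (nat_lit 5) (nat_lit 9) (nat_lit 10) (by decide +kernel)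
theorem L16821 : W_26 (nat_lit 3) (nat_lit 0x80020001e000f00010001000080000000000000000000000000000000) (nat_lit 0x0) (nat_lit 0xc0006000100000000000000000000000000000000000000000000000000000) := T_26 (nat_lit 230) (nat_lit 247) (nat_lit 4) (nat_lit 9) (nat_lit 14) L16820 (by decide +kernel)
theorem L16822 : W_26 (nat_lit 4) (nat_lit 0x80020001e000700010001000080000000000000000000000000000000) (nat_lit 0x0) (nat_lit 0xc0006000100000001800000000000000000000000000000000000000000000) := T_26 (nat_lit 179) (nat_lit 180) (nat_lit 2) (nat_lit 6) (nat_lit 11) L16821 (by decide +kernel)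
theorem L16823 : W_26 (nat_lit 5) (nat_lit 0x80000001e000700010001000080000000000000000000000000000000) (nat_lit 0x0) (nat_lit 0xc0006000700000001800000000000000000000000000000000000000000000) := T_26 (nat_lit 213) (nat_lit 214) (nat_lit 3) (nat_lit 6) (nat_lit 11) L16822 (by decide +kernel)
theorem L16824 : W_26 (nat_lit 6) (nat_lit 0x80000001e000300010001000080000000000000000000000000000000) (nat_lit 0x0) (nat_lit 0xc0006000700000001c00020000000000000000000000000000000000000000) := T_26 (nat_lit 178) (nat_lit 161) (nat_lit 5) (nat_lit 8) (nat_lit 7) L16823 (by decide +kernel)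
theorem L16825 : W_26 (nat_lit 7) (nat_lit 0x80000000e000300010001000080000000000000000000000000000000) (nat_lit 0x0) (nat_lit 0xc0006000700030001c00020000000000000000000000000000000000000000) := T_26 (nat_lit 196) (nat_lit 197) (nat_lit 0) (nat_lit 10) (nat_lit 11) L16824 (by decide +kernel)
theorem L16826 : W_26 (nat_lit 8) (nat_lit 0xe000300010001000080000000000000000000000000000000) (nat_lit 0x0) (nat_lit 0xc0006800740030001c00020000000000000000000000000000000000000000) := T_26 (nat_lit 227) (nat_lit 210) (nat_lit 6) (nat_lit 6) (nat_lit 13) L16825 (by decide +kernel)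
theorem L16827 : W_26 (nat_lit 9) (nat_lit 0xe000300000001000080000000000000000000000000000000) (nat_lit 0x0) (nat_lit 0xc0006800740030001c00030000800000000000000000000000000000000000) := T_26 (nat_lit 160) (nat_lit 143) (nat_lit 6) (nat_lit 7) (nat_lit 11) L16826 (by decide +kernel)
theorem L16828 : W_26 (nat_lit 10) (nat_lit 0xc000300000001000080000000000000000000000000000000) (nat_lit 0x0) (nat_lit 0xf0007c00760033801c00030000800000000000000000000000000000000000) := Q_26 (nat_lit 193) (C_26 L16770 (C_26 L8149 (C_26 L16827 N_26))) (by decide +kernel)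
theorem L16829 : W_26 (nat_lit 11) (nat_lit 0x4000300000001000080000000000000000000000000000000) (nat_lit 0x0) (nat_lit 0xf0007c0076003b801cc0036000a00010000000000000000000000000000000) := Q_26 (nat_lit 195) (C_26 L5316 (C_26 L5377 (C_26 L16819 (C_26 L16828 N_26)))) (by decide +kernel)
theorem L16830 : W_26 (nat_lit 2) (nat_lit 0x200000000c000f80014001000080000000000000000000000000000000) (nat_lit 0x0) (nat_lit 0x2003000000000000000000000000000000000000000000000) := D_26 (nat_lit 180) (nat_lit 181) (nat_lit 193) (nat_lit 1) (nat_lit 11) (nat_lit 10) (nat_lit 1) (nat_lit 10) (nat_lit 10) (by decide +kernel)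
theorem L16831 : W_26 (nat_lit 3) (nat_lit 0x200000000c000780014001000080000000000000000000000000000000) (nat_lit 0x0) (nat_lit 0x2003800008000000000000000000000000000000000000000) := T_26 (nat_lit 179) (nat_lit 159) (nat_lit 0) (nat_lit 9) (nat_lit 10) L16830 (by decide +kernel)
theorem L16832 : W_26 (nat_lit 4) (nat_lit 0x200000000c000780010001000080000000000000000000000000000000) (nat_lit 0x0) (nat_lit 0x200380000e000000000000000000000000000000000000000) := T_26 (nat_lit 158) (nat_lit 157) (nat_lit 0) (nat_lit 8) (nat_lit 10) L16831 (by decide +kernel)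
theorem L16833 : W_26 (nat_lit 5) (nat_lit 0xc000780010001000080000000000000000000000000000000) (nat_lit 0x0) (nat_lit 0x200010000200380000e000000000000000000000000000000000000000) := T_26 (nat_lit 229) (nat_lit 212) (nat_lit 4) (nat_lit 8) (nat_lit 13) L16832 (by decide +kernel)
theorem L16834 : W_26 (nat_lit 6) (nat_lit 0xc000780000001000080000000000000000000000000000000) (nat_lit 0x0) (nat_lit 0x200010000200380001e000800000000000000000000000000000000000) := T_26 (nat_lit 160) (nat_lit 143) (nat_lit 6) (nat_lit 7) (nat_lit 11) L16833 (by decide +kernel)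
theorem L16835 : W_26 (nat_lit 7) (nat_lit 0xc000380000001000080000000000000000000000000000000) (nat_lit 0x0) (nat_lit 0x2000100002003c0003e000800000000000000000000000000000000000) := T_26 (nat_lit 178) (nat_lit 161) (nat_lit 5) (nat_lit 8) (nat_lit 7) L16834 (by decide +kernel)
theorem L16836 : W_26 (nat_lit 8) (nat_lit 0xc000300000001000080000000000000000000000000000000) (nat_lit 0x0) (nat_lit 0x2000100002003cc003e000800000000000000000000000000000000000) := T_26 (nat_lit 175) (nat_lit 174) (nat_lit 3) (nat_lit 4) (nat_lit 10) L16835 (by decide +kernel)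
theorem L16837 : W_26 (nat_lit 9) (nat_lit 0x4000300000001000080000000000000000000000000000000) (nat_lit 0x0) (nat_lit 0x200010007a003cc003f000f0017c000000000000000000000000000000) := Q_26 (nat_lit 195) (C_26 L5316 (C_26 L16798 (C_26 L16836 N_26))) (by decide +kernel)
theorem L16838 : W_26 (nat_lit 2) (nat_lit 0x6800600034001e001000080000000000000000000000000000000) (nat_lit 0x0) (nat_lit 0x8000080020000000000000000000000000000000000000000) := D_26 (nat_lit 175) (nat_lit 161) (nat_lit 195) (nat_lit 2) (nat_lit 4) (nat_lit 10) (nat_lit 3) (nat_lit 4) (nat_lit 10) (by decide +kernel)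
theorem L16839 : W_26 (nat_lit 3) (nat_lit 0x6800600030001e001000080000000000000000000000000000000) (nat_lit 0x0) (nat_lit 0x80000e0020000000000000000000000000000000000000000) := T_26 (nat_lit 174) (nat_lit 173) (nat_lit 1) (nat_lit 7) (nat_lit 9) L16838 (by decide +kernel)
theorem L16840 : W_26 (nat_lit 4) (nat_lit 0x6800600030001c001000080000000000000000000000000000000) (nat_lit 0x0) (nat_lit 0x80000e0023000000000000000000000000000000000000000) := T_26 (nat_lit 157) (nat_lit 156) (nat_lit 3) (nat_lit 3) (nat_lit 9) L16839 (by decide +kernel)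
theorem L16841 : W_26 (nat_lit 5) (nat_lit 0x68006000300018001000080000000000000000000000000000000) (nat_lit 0x0) (nat_lit 0x80000e0027000200000000000000000000000000000000000) := T_26 (nat_lit 158) (nat_lit 141) (nat_lit 4) (nat_lit 6) (nat_lit 12) L16840 (by decide +kernel)
theorem L16842 : W_26 (nat_lit 6) (nat_lit 0x60006000300018001000080000000000000000000000000000000) (nat_lit 0x0) (nat_lit 0x180080000e0027000200000000000000000000000000000000000) := T_26 (nat_lit 207) (nat_lit 208) (nat_lit 2) (nat_lit 3) (nat_lit 12) L16841 (by decide +kernel)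
theorem L16843 : W_26 (nat_lit 7) (nat_lit 0x40006000300018001000080000000000000000000000000000000) (nat_lit 0x0) (nat_lit 0x4000380080000e0027000200000000000000000000000000000000000) := T_26 (nat_lit 209) (nat_lit 226) (nat_lit 5) (nat_lit 6) (nat_lit 9) L16842 (by decide +kernel)
theorem L16844 : W_26 (nat_lit 8) (nat_lit 0x6000300018001000080000000000000000000000000000000) (nat_lit 0x0) (nat_lit 0xc000780080000e0027000200000000000000000000000000000000000) := T_26 (nat_lit 210) (nat_lit 227) (nat_lit 6) (nat_lit 6) (nat_lit 13) L16843 (by decide +kernel)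
theorem L16845 : W_26 (nat_lit 9) (nat_lit 0x6000300008001000080000000000000000000000000000000) (nat_lit 0x0) (nat_lit 0xc000780080000e0037000a00000000000000000000000000000000000) := T_26 (nat_lit 160) (nat_lit 143) (nat_lit 6) (nat_lit 7) (nat_lit 11) L16844 (by decide +kernel)
theorem L16846 : W_26 (nat_lit 2) (nat_lit 0x800010007800340018001400080000000000000000000000000000000) (nat_lit 0x0) (nat_lit 0x8000080020000000000000000000000000000000000000000) := D_26 (nat_lit 175) (nat_lit 195) (nat_lit 161) (nat_lit 3) (nat_lit 4) (nat_lit 10) (nat_lit 2) (nat_lit 4) (nat_lit 10) (by decide +kernel)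
theorem L16847 : W_26 (nat_lit 3) (nat_lit 0x800010007800300018001400080000000000000000000000000000000) (nat_lit 0x0) (nat_lit 0x80000e0020000000000000000000000000000000000000000) := T_26 (nat_lit 174) (nat_lit 173) (nat_lit 0) (nat_lit 7) (nat_lit 11) L16846 (by decide +kernel)
theorem L16848 : W_26 (nat_lit 4) (nat_lit 0x800000007800300018001400080000000000000000000000000000000) (nat_lit 0x0) (nat_lit 0x180080000e0020000000000000000000000000000000000000000) := T_26 (nat_lit 208) (nat_lit 207) (nat_lit 1) (nat_lit 7) (nat_lit 11) L16847 (by decide +kernel)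
theorem L16849 : W_26 (nat_lit 5) (nat_lit 0x800000007000300018001400080000000000000000000000000000000) (nat_lit 0x0) (nat_lit 0x18008c000e0020000000000000000000000000000000000000000) := T_26 (nat_lit 191) (nat_lit 190) (nat_lit 2) (nat_lit 3) (nat_lit 11) L16848 (by decide +kernel)
theorem L16850 : W_26 (nat_lit 6) (nat_lit 0x800000006000300018001400080000000000000000000000000000000) (nat_lit 0x0) (nat_lit 0x38009c000e0020000000000000000000000000000000000000000) := T_26 (nat_lit 192) (nat_lit 209) (nat_lit 5) (nat_lit 6) (nat_lit 8) L16849 (by decide +kernel)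
theorem L16851 : W_26 (nat_lit 7) (nat_lit 0x800000006000300018001000080000000000000000000000000000000) (nat_lit 0x0) (nat_lit 0x38009c000e0020000400020000000000000000000000000000000) := T_26 (nat_lit 142) (nat_lit 125) (nat_lit 7) (nat_lit 6) (nat_lit 7) L16850 (by decide +kernel)
theorem L16852 : W_26 (nat_lit 8) (nat_lit 0x6000300018001000080000000000000000000000000000000) (nat_lit 0x0) (nat_lit 0x800078009c000e0020000400020000000000000000000000000000000) := T_26 (nat_lit 227) (nat_lit 210) (nat_lit 6) (nat_lit 6) (nat_lit 13) L16851 (by decide +kernel)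
theorem L16853 : W_26 (nat_lit 9) (nat_lit 0x6000300008001000080000000000000000000000000000000) (nat_lit 0x0) (nat_lit 0x800078009c000e0030000c00020000000000000000000000000000000) := T_26 (nat_lit 160) (nat_lit 143) (nat_lit 6) (nat_lit 7) (nat_lit 11) L16852 (by decide +kernel)
theorem L16854 : W_26 (nat_lit 10) (nat_lit 0x6000300000001000080000000000000000000000000000000) (nat_lit 0x0) (nat_lit 0x10000c00078009c000e003f000e00170000000000000000000000000000000) := Q_26 (nat_lit 159) (C_26 L8297 (C_26 L8298 (C_26 L16845 (C_26 L16853 N_26)))) (by decide +kernel)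
theorem L16860 : W_26 (nat_lit 5) (nat_lit 0x800000006000700010001000080000000000000000000000000000000) (nat_lit 0x0) (nat_lit 0x80018e000e000000000000000000000000000000000000000) := T_26 (nat_lit 179) (nat_lit 180) (nat_lit 1) (nat_lit 10) (nat_lit 10) L16859 (by decide +kernel)
theorem L16861 : W_26 (nat_lit 6) (nat_lit 0x6000700010001000080000000000000000000000000000000) (nat_lit 0x0) (nat_lit 0x8000400080018e000e000000000000000000000000000000000000000) := T_26 (nat_lit 227) (nat_lit 210) (nat_lit 6) (nat_lit 6) (nat_lit 13) L16860 (by decide +kernel)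
theorem L16862 : W_26 (nat_lit 7) (nat_lit 0x6000700000001000080000000000000000000000000000000) (nat_lit 0x0) (nat_lit 0x8000400080018e001e000800000000000000000000000000000000000) := T_26 (nat_lit 160) (nat_lit 143) (nat_lit 6) (nat_lit 7) (nat_lit 11) L16861 (by decide +kernel)
theorem L16863 : W_26 (nat_lit 8) (nat_lit 0x6000300000001000080000000000000000000000000000000) (nat_lit 0x0) (nat_lit 0x800040008001ce003e000800000000000000000000000000000000000) := T_26 (nat_lit 178) (nat_lit 161) (nat_lit 5) (nat_lit 8) (nat_lit 7) L16862 (by decide +kernel)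
theorem L16866 : W_26 (nat_lit 6) (nat_lit 0x6000300018001000080000000000000000000000000000000) (nat_lit 0x0) (nat_lit 0xc00078000000400007000200000000000000000000000000000000000) := T_26 (nat_lit 210) (nat_lit 227) (nat_lit 6) (nat_lit 6) (nat_lit 13) L16865 (by decide +kernel)
theorem L16867 : W_26 (nat_lit 7) (nat_lit 0x6000300008001000080000000000000000000000000000000) (nat_lit 0x0) (nat_lit 0xc00078000000400017000a00000000000000000000000000000000000) := T_26 (nat_lit 160) (nat_lit 143) (nat_lit 6) (nat_lit 7) (nat_lit 11) L16866 (by decide +kernel)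
theorem L16868 : W_26 (nat_lit 8) (nat_lit 0x6000300000001000080000000000000000000000000000000) (nat_lit 0x0) (nat_lit 0x10000c00078001c0040001f000e00170000000000000000000000000000000) := Q_26 (nat_lit 159) (C_26 L8297 (C_26 L8298 (C_26 L16867 (C_26 L8296 N_26)))) (by decide +kernel)
theorem L16869 : W_26 (nat_lit 11) (nat_lit 0x4000300000001000080000000000000000000000000000000) (nat_lit 0x0) (nat_lit 0x10000c0007800bc01ce003f000e00170000000000000000000000000000000) := Q_26 (nat_lit 193) (C_26 L16854 (C_26 L16856 (C_26 L16863 (C_26 L16868 N_26)))) (by decide +kernel)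
theorem L16870 : W_26 (nat_lit 2) (nat_lit 0x6800600034001e001100080000000000000000000000000000000) (nat_lit 0x0) (nat_lit 0x1000080020000000000000000000000000000000000000000) := D_26 (nat_lit 175) (nat_lit 161) (nat_lit 192) (nat_lit 2) (nat_lit 4) (nat_lit 10) (nat_lit 4) (nat_lit 5) (nat_lit 12) (by decide +kernel)
theorem L16871 : W_26 (nat_lit 3) (nat_lit 0x6800600034001e001000080000000000000000000000000000000) (nat_lit 0x0) (nat_lit 0x1000080020000180000000000000000000000000000000000) := T_26 (nat_lit 140) (nat_lit 139) (nat_lit 0) (nat_lit 7) (nat_lit 9) L16870 (by decide +kernel)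
theorem L16872 : W_26 (nat_lit 4) (nat_lit 0x6800600030001e001000080000000000000000000000000000000) (nat_lit 0x0) (nat_lit 0x10000e0020000180000000000000000000000000000000000) := T_26 (nat_lit 174) (nat_lit 173) (nat_lit 1) (nat_lit 7) (nat_lit 9) L16871 (by decide +kernel)
theorem L16873 : W_26 (nat_lit 5) (nat_lit 0x6800600030001c001000080000000000000000000000000000000) (nat_lit 0x0) (nat_lit 0x10000e0023000180000000000000000000000000000000000) := T_26 (nat_lit 157) (nat_lit 156) (nat_lit 3) (nat_lit 3) (nat_lit 9) L16872 (by decide +kernel)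
theorem L16874 : W_26 (nat_lit 6) (nat_lit 0x68006000300018001000080000000000000000000000000000000) (nat_lit 0x0) (nat_lit 0x10000e0027000380000000000000000000000000000000000) := T_26 (nat_lit 158) (nat_lit 141) (nat_lit 4) (nat_lit 6) (nat_lit 12) L16873 (by decide +kernel)
theorem L16875 : W_26 (nat_lit 7) (nat_lit 0x60006000300018001000080000000000000000000000000000000) (nat_lit 0x0) (nat_lit 0x180010000e0027000380000000000000000000000000000000000) := T_26 (nat_lit 207) (nat_lit 208) (nat_lit 2) (nat_lit 3) (nat_lit 12) L16874 (by decide +kernel)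
theorem L16876 : W_26 (nat_lit 8) (nat_lit 0x40006000300018001000080000000000000000000000000000000) (nat_lit 0x0) (nat_lit 0x4000380010000e0027000380000000000000000000000000000000000) := T_26 (nat_lit 209) (nat_lit 226) (nat_lit 5) (nat_lit 6) (nat_lit 9) L16875 (by decide +kernel)
theorem L16877 : W_26 (nat_lit 9) (nat_lit 0x6000300018001000080000000000000000000000000000000) (nat_lit 0x0) (nat_lit 0xc000780010000e0027000380000000000000000000000000000000000) := T_26 (nat_lit 210) (nat_lit 227) (nat_lit 6) (nat_lit 6) (nat_lit 13) L16876 (by decide +kernel)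
theorem L16878 : W_26 (nat_lit 10) (nat_lit 0x6000300008001000080000000000000000000000000000000) (nat_lit 0x0) (nat_lit 0xc000780010000e0037000b80000000000000000000000000000000000) := T_26 (nat_lit 160) (nat_lit 143) (nat_lit 6) (nat_lit 7) (nat_lit 11) L16877 (by decide +kernel)
theorem L16879 : W_26 (nat_lit 2) (nat_lit 0x8000100078003c0018001400080000000000000000000000000000000) (nat_lit 0x0) (nat_lit 0x4000200000000000000004000000000000000000000000000000000000000) := D_26 (nat_lit 225) (nat_lit 242) (nat_lit 158) (nat_lit 6) (nat_lit 4) (nat_lit 14) (nat_lit 6) (nat_lit 4) (nat_lit 13) (by decide +kernel)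
theorem L16880 : W_26 (nat_lit 3) (nat_lit 0x800010007800340018001400080000000000000000000000000000000) (nat_lit 0x0) (nat_lit 0x4000200000000000080024000000000000000000000000000000000000000) := T_26 (nat_lit 175) (nat_lit 161) (nat_lit 2) (nat_lit 4) (nat_lit 10) L16879 (by decide +kernel)
theorem L16881 : W_26 (nat_lit 4) (nat_lit 0x800010007800300018001400080000000000000000000000000000000) (nat_lit 0x0) (nat_lit 0x40002000000000000e0024000000000000000000000000000000000000000) := T_26 (nat_lit 174) (nat_lit 173) (nat_lit 0) (nat_lit 7) (nat_lit 11) L16880 (by decide +kernel)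
theorem L16882 : W_26 (nat_lit 5) (nat_lit 0x800000007800300018001400080000000000000000000000000000000) (nat_lit 0x0) (nat_lit 0x40002000180000000e0024000000000000000000000000000000000000000) := T_26 (nat_lit 208) (nat_lit 207) (nat_lit 1) (nat_lit 7) (nat_lit 11) L16881 (by decide +kernel)
theorem L16883 : W_26 (nat_lit 6) (nat_lit 0x800000007000300018001400080000000000000000000000000000000) (nat_lit 0x0) (nat_lit 0x4000200018000c000e0024000000000000000000000000000000000000000) := T_26 (nat_lit 191) (nat_lit 190) (nat_lit 2) (nat_lit 3) (nat_lit 11) L16882 (by decide +kernel)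
theorem L16884 : W_26 (nat_lit 7) (nat_lit 0x800000006000300018001400080000000000000000000000000000000) (nat_lit 0x0) (nat_lit 0x4000200038001c000e0024000000000000000000000000000000000000000) := T_26 (nat_lit 192) (nat_lit 209) (nat_lit 5) (nat_lit 6) (nat_lit 8) L16883 (by decide +kernel)
theorem L16885 : W_26 (nat_lit 8) (nat_lit 0x800000006000300018001000080000000000000000000000000000000) (nat_lit 0x0) (nat_lit 0x4000200038001c000e0024000400020000000000000000000000000000000) := T_26 (nat_lit 142) (nat_lit 125) (nat_lit 7) (nat_lit 6) (nat_lit 7) L16884 (by decide +kernel)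
theorem L16886 : W_26 (nat_lit 9) (nat_lit 0x6000300018001000080000000000000000000000000000000) (nat_lit 0x0) (nat_lit 0x4000a00078001c000e0024000400020000000000000000000000000000000) := T_26 (nat_lit 227) (nat_lit 210) (nat_lit 6) (nat_lit 6) (nat_lit 13) L16885 (by decide +kernel)
theorem L16887 : W_26 (nat_lit 10) (nat_lit 0x6000300008001000080000000000000000000000000000000) (nat_lit 0x0) (nat_lit 0x4000a00078001c000e0034000c00020000000000000000000000000000000) := T_26 (nat_lit 160) (nat_lit 143) (nat_lit 6) (nat_lit 7) (nat_lit 11) L16886 (by decide +kernel)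
theorem L16888 : W_26 (nat_lit 11) (nat_lit 0x6000300000001000080000000000000000000000000000000) (nat_lit 0x0) (nat_lit 0x14000e00078001c000e003f000f80170000000000000000000000000000000) := Q_26 (nat_lit 159) (C_26 L8297 (C_26 L8298 (C_26 L16878 (C_26 L16887 N_26)))) (by decide +kernel)
theorem L16892 : W_26 (nat_lit 5) (nat_lit 0x6000700000001000080000000000000000000000000000000) (nat_lit 0x0) (nat_lit 0x180001c000c00060000000000000000000000000000000) := T_26 (nat_lit 143) (nat_lit 160) (nat_lit 6) (nat_lit 7) (nat_lit 11) L16891 (by decide +kernel)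
theorem L16893 : W_26 (nat_lit 6) (nat_lit 0x6000300000001000080000000000000000000000000000000) (nat_lit 0x0) (nat_lit 0x1c0003c000c00060000000000000000000000000000000) := T_26 (nat_lit 178) (nat_lit 161) (nat_lit 5) (nat_lit 8) (nat_lit 7) L16892 (by decide +kernel)
theorem L16894 : W_26 (nat_lit 12) (nat_lit 0x4000300000001000080000000000000000000000000000000) (nat_lit 0x0) (nat_lit 0x14000e00078003c01ce003f000f80170000000000000000000000000000000) := Q_26 (nat_lit 193) (C_26 L16888 (C_26 L16856 (C_26 L16893 (C_26 L16868 N_26)))) (by decide +kernel)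
theorem L16895 : W_26 (nat_lit 2) (nat_lit 0x6801600034001e001100080000000000000000000000000000000) (nat_lit 0x0) (nat_lit 0x1c00000000000000000000000000000000000000000000000) := D_26 (nat_lit 191) (nat_lit 190) (nat_lit 192) (nat_lit 5) (nat_lit 4) (nat_lit 8) (nat_lit 7) (nat_lit 4) (nat_lit 8) (by decide +kernel)
theorem L16896 : W_26 (nat_lit 3) (nat_lit 0x6801600034001e001000080000000000000000000000000000000) (nat_lit 0x0) (nat_lit 0x1c00000000000180000000000000000000000000000000000) := T_26 (nat_lit 140) (nat_lit 139) (nat_lit 0) (nat_lit 7) (nat_lit 9) L16895 (by decide +kernel)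
theorem L16897 : W_26 (nat_lit 4) (nat_lit 0x6801600030001e001000080000000000000000000000000000000) (nat_lit 0x0) (nat_lit 0x1c00060000000180000000000000000000000000000000000) := T_26 (nat_lit 174) (nat_lit 173) (nat_lit 1) (nat_lit 7) (nat_lit 9) L16896 (by decide +kernel)
theorem L16898 : W_26 (nat_lit 5) (nat_lit 0x6801600030001c001000080000000000000000000000000000000) (nat_lit 0x0) (nat_lit 0x1c00060003000180000000000000000000000000000000000) := T_26 (nat_lit 157) (nat_lit 156) (nat_lit 3) (nat_lit 3) (nat_lit 9) L16897 (by decide +kernel)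
theorem L16899 : W_26 (nat_lit 6) (nat_lit 0x68016000300018001000080000000000000000000000000000000) (nat_lit 0x0) (nat_lit 0x1c00060007000380000000000000000000000000000000000) := T_26 (nat_lit 158) (nat_lit 141) (nat_lit 4) (nat_lit 6) (nat_lit 12) L16898 (by decide +kernel)
theorem L16900 : W_26 (nat_lit 7) (nat_lit 0x68006000300018001000080000000000000000000000000000000) (nat_lit 0x0) (nat_lit 0x19c00060007000380000000000000000000000000000000000) := T_26 (nat_lit 196) (nat_lit 195) (nat_lit 1) (nat_lit 9) (nat_lit 11) L16899 (by decide +kernel)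
theorem L16901 : W_26 (nat_lit 8) (nat_lit 0x60006000300018001000080000000000000000000000000000000) (nat_lit 0x0) (nat_lit 0x18019c00060007000380000000000000000000000000000000000) := T_26 (nat_lit 207) (nat_lit 208) (nat_lit 2) (nat_lit 3) (nat_lit 12) L16900 (by decide +kernel)
theorem L16902 : W_26 (nat_lit 9) (nat_lit 0x40006000300018001000080000000000000000000000000000000) (nat_lit 0x0) (nat_lit 0x400038019c00060007000380000000000000000000000000000000000) := T_26 (nat_lit 209) (nat_lit 226) (nat_lit 5) (nat_lit 6) (nat_lit 9) L16901 (by decide +kernel)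
theorem L16903 : W_26 (nat_lit 10) (nat_lit 0x6000300018001000080000000000000000000000000000000) (nat_lit 0x0) (nat_lit 0xc00078019c00060007000380000000000000000000000000000000000) := T_26 (nat_lit 210) (nat_lit 227) (nat_lit 6) (nat_lit 6) (nat_lit 13) L16902 (by decide +kernel)
theorem L16904 : W_26 (nat_lit 11) (nat_lit 0x6000300008001000080000000000000000000000000000000) (nat_lit 0x0) (nat_lit 0xc00078019c00060017000b80000000000000000000000000000000000) := T_26 (nat_lit 160) (nat_lit 143) (nat_lit 6) (nat_lit 7) (nat_lit 11) L16903 (by decide +kernel)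
theorem L16905 : W_26 (nat_lit 2) (nat_lit 0x700060003000180010000a0000000000000000000000000000000) (nat_lit 0x0) (nat_lit 0x19000000000000000000000000000000000000000000000000) := D_26 (nat_lit 195) (nat_lit 196) (nat_lit 192) (nat_lit 1) (nat_lit 9) (nat_lit 11) (nat_lit 1) (nat_lit 8) (nat_lit 11) (by decide +kernel)
theorem L16906 : W_26 (nat_lit 3) (nat_lit 0x600060003000180010000a0000000000000000000000000000000) (nat_lit 0x0) (nat_lit 0x18019000000000000000000000000000000000000000000000000) := T_26 (nat_lit 208) (nat_lit 207) (nat_lit 2) (nat_lit 3) (nat_lit 12) L16905 (by decide +kernel)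
theorem L16907 : W_26 (nat_lit 4) (nat_lit 0x400060003000180010000a0000000000000000000000000000000) (nat_lit 0x0) (nat_lit 0x400038019000000000000000000000000000000000000000000000000) := T_26 (nat_lit 209) (nat_lit 226) (nat_lit 5) (nat_lit 6) (nat_lit 9) L16906 (by decide +kernel)
theorem L16908 : W_26 (nat_lit 5) (nat_lit 0x40006000300018001000080000000000000000000000000000000) (nat_lit 0x0) (nat_lit 0x400038019000000000000400020000000000000000000000000000000) := T_26 (nat_lit 125) (nat_lit 142) (nat_lit 7) (nat_lit 6) (nat_lit 7) L16907 (by decide +kernel)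
theorem L16909 : W_26 (nat_lit 6) (nat_lit 0x6000300018001000080000000000000000000000000000000) (nat_lit 0x0) (nat_lit 0xc00078019000000000000400020000000000000000000000000000000) := T_26 (nat_lit 210) (nat_lit 227) (nat_lit 6) (nat_lit 6) (nat_lit 13) L16908 (by decide +kernel)
theorem L16910 : W_26 (nat_lit 7) (nat_lit 0x6000300008001000080000000000000000000000000000000) (nat_lit 0x0) (nat_lit 0xc00078019000000010000c00020000000000000000000000000000000) := T_26 (nat_lit 160) (nat_lit 143) (nat_lit 6) (nat_lit 7) (nat_lit 11) L16909 (by decide +kernel)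
theorem L16911 : W_26 (nat_lit 12) (nat_lit 0x6000300000001000080000000000000000000000000000000) (nat_lit 0x0) (nat_lit 0x10000c00078019c0006001f000f80170000000000000000000000000000000) := Q_26 (nat_lit 159) (C_26 L8297 (C_26 L8298 (C_26 L16904 (C_26 L16910 N_26)))) (by decide +kernel)
theorem L16912 : W_26 (nat_lit 13) (nat_lit 0x4000300000001000080000000000000000000000000000000) (nat_lit 0x0) (nat_lit 0x10000c0007801bc01c6003f000f80170000000000000000000000000000000) := Q_26 (nat_lit 193) (C_26 L16911 (C_26 L16856 (C_26 L16893 N_26))) (by decide +kernel)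
theorem L16913 : W_26 (nat_lit 8) (nat_lit 0x6000300000001000080000000000000000000000000000000) (nat_lit 0x0) (nat_lit 0x10000c00078019c0000001c000e00170000000000000000000000000000000) := Q_26 (nat_lit 159) (C_26 L8297 (C_26 L16910 (C_26 L8298 (C_26 L15489 N_26)))) (by decide +kernel)
theorem L16914 : W_26 (nat_lit 9) (nat_lit 0x4000300000001000080000000000000000000000000000000) (nat_lit 0x0) (nat_lit 0x10000c0007801bc01c0003c000e00170000000000000000000000000000000) := Q_26 (nat_lit 193) (C_26 L16913 (C_26 L16856 (C_26 L16893 N_26))) (by decide +kernel)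
theorem L16915 : W_26 (nat_lit 2) (nat_lit 0x200000000d000f80010001000080000000000000000000000000000000) (nat_lit 0x0) (nat_lit 0x3000008000000000000000000000000000000000000000) := D_26 (nat_lit 180) (nat_lit 159) (nat_lit 181) (nat_lit 0) (nat_lit 10) (nat_lit 10) (nat_lit 1) (nat_lit 11) (nat_lit 10) (by decide +kernel)
theorem L16916 : W_26 (nat_lit 3) (nat_lit 0x200000000d000780010001000080000000000000000000000000000000) (nat_lit 0x0) (nat_lit 0x2003800008000000000000000000000000000000000000000) := T_26 (nat_lit 179) (nat_lit 193) (nat_lit 2) (nat_lit 5) (nat_lit 11) L16915 (by decide +kernel)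
theorem L16917 : W_26 (nat_lit 4) (nat_lit 0x200000000c000780010001000080000000000000000000000000000000) (nat_lit 0x0) (nat_lit 0x3803800008000000000000000000000000000000000000000) := T_26 (nat_lit 192) (nat_lit 191) (nat_lit 1) (nat_lit 8) (nat_lit 10) L16916 (by decide +kernel)
theorem L16918 : W_26 (nat_lit 5) (nat_lit 0xc000780010001000080000000000000000000000000000000) (nat_lit 0x0) (nat_lit 0x2000100003803800008000000000000000000000000000000000000000) := T_26 (nat_lit 229) (nat_lit 212) (nat_lit 4) (nat_lit 8) (nat_lit 13) L16917 (by decide +kernel)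
theorem L16919 : W_26 (nat_lit 6) (nat_lit 0xc000780000001000080000000000000000000000000000000) (nat_lit 0x0) (nat_lit 0x2000100003803800018000800000000000000000000000000000000000) := T_26 (nat_lit 160) (nat_lit 143) (nat_lit 6) (nat_lit 7) (nat_lit 11) L16918 (by decide +kernel)
theorem L16920 : W_26 (nat_lit 7) (nat_lit 0xc000380000001000080000000000000000000000000000000) (nat_lit 0x0) (nat_lit 0x2000100003803c00038000800000000000000000000000000000000000) := T_26 (nat_lit 178) (nat_lit 161) (nat_lit 5) (nat_lit 8) (nat_lit 7) L16919 (by decide +kernel)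
theorem L16921 : W_26 (nat_lit 8) (nat_lit 0xc000300000001000080000000000000000000000000000000) (nat_lit 0x0) (nat_lit 0x2000100003803cc0038000800000000000000000000000000000000000) := T_26 (nat_lit 175) (nat_lit 174) (nat_lit 3) (nat_lit 4) (nat_lit 10) L16920 (by decide +kernel)
theorem L16922 : W_26 (nat_lit 11) (nat_lit 0x4000300000001000080000000000000000000000000000000) (nat_lit 0x0) (nat_lit 0xf0007c0076003b803cc0038000800000000000000000000000000000000000) := Q_26 (nat_lit 195) (C_26 L5316 (C_26 L16828 (C_26 L5377 (C_26 L16921 N_26)))) (by decide +kernel)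
theorem L16923 : W_26 (nat_lit 14) (nat_lit 0x4000200000001000080000000000000000000000000000000) (nat_lit 0x0) (nat_lit 0xf4007e0077807be03de003f800f8017c000000000000000000000000000000) := Q_26 (nat_lit 176) (C_26 L16748 (C_26 L16763 (C_26 L16781 (C_26 L16811 (C_26 L16829 (C_26 L16837 (C_26 L16869 (C_26 L16894 (C_26 L16912 (C_26 L16914 (C_26 L16922 N_26))))))))))) (by decide +kernel)
theorem L16924 : W_26 (nat_lit 17) (nat_lit 0x200000001000080000000000000000000000000000000) (nat_lit 0x0) (nat_lit 0x4001e003fc01fe07ffe1ffe0fde01bf804f8037c000000000000000000000000000000) := Q_26 (nat_lit 194) (C_26 L16619 (C_26 L16738 (C_26 L5489 (C_26 L5483 (C_26 L16923 N_26))))) (by decide +kernel)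
theorem L16925 : W_26 (nat_lit 2) (nat_lit 0x1f00000001000080000000000000000000000000000000) (nat_lit 0x0) (nat_lit 0x70000000000000000000000000000000000000000000000000) := D_26 (nat_lit 197) (nat_lit 196) (nat_lit 198) (nat_lit 3) (nat_lit 6) (nat_lit 10) (nat_lit 3) (nat_lit 7) (nat_lit 10) (by decide +kernel)
theorem L16926 : W_26 (nat_lit 2) (nat_lit 0x44001f00000001000080000000000000000000000000000000) (nat_lit 0x0) (nat_lit 0x88002000000000000000000000000000000000000000000000) := D_26 (nat_lit 181) (nat_lit 195) (nat_lit 199) (nat_lit 1) (nat_lit 11) (nat_lit 10) (nat_lit 3) (nat_lit 8) (nat_lit 10) (by decide +kernel)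
theorem L16927 : W_26 (nat_lit 3) (nat_lit 0x4001f00000001000080000000000000000000000000000000) (nat_lit 0x0) (nat_lit 0xe8002000000000000000000000000000000000000000000000) := T_26 (nat_lit 198) (nat_lit 197) (nat_lit 3) (nat_lit 7) (nat_lit 10) L16926 (by decide +kernel)
theorem L16928 : W_26 (nat_lit 4) (nat_lit 0x1f00000001000080000000000000000000000000000000) (nat_lit 0x0) (nat_lit 0xee002000000000000000000000000000000000000000000000) := T_26 (nat_lit 194) (nat_lit 193) (nat_lit 1) (nat_lit 10) (nat_lit 10) L16927 (by decide +kernel)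
theorem L16929 : W_26 (nat_lit 2) (nat_lit 0x84003f00210001000080000000000000000000000000000000) (nat_lit 0x0) (nat_lit 0x100004000400000000000000000000000000000000000000000) := D_26 (nat_lit 182) (nat_lit 200) (nat_lit 166) (nat_lit 3) (nat_lit 9) (nat_lit 10) (nat_lit 2) (nat_lit 9) (nat_lit 10) (by decide +kernel)
theorem L16930 : W_26 (nat_lit 3) (nat_lit 0x84003f00010001000080000000000000000000000000000000) (nat_lit 0x0) (nat_lit 0x100004000700000000000000000000000000000000000000000) := T_26 (nat_lit 165) (nat_lit 164) (nat_lit 2) (nat_lit 8) (nat_lit 10) L16929 (by decide +kernel)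
theorem L16931 : W_26 (nat_lit 4) (nat_lit 0x4003f00010001000080000000000000000000000000000000) (nat_lit 0x0) (nat_lit 0x1c0004000700000000000000000000000000000000000000000) := T_26 (nat_lit 199) (nat_lit 198) (nat_lit 3) (nat_lit 8) (nat_lit 10) L16930 (by decide +kernel)
theorem L16932 : W_26 (nat_lit 5) (nat_lit 0x4003f00000001000080000000000000000000000000000000) (nat_lit 0x0) (nat_lit 0x1c0004000710000800000000000000000000000000000000000) := T_26 (nat_lit 160) (nat_lit 143) (nat_lit 6) (nat_lit 7) (nat_lit 11) L16931 (by decide +kernel)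
theorem L16933 : W_26 (nat_lit 6) (nat_lit 0x4001f00000001000080000000000000000000000000000000) (nat_lit 0x0) (nat_lit 0x1c8006000710000800000000000000000000000000000000000) := T_26 (nat_lit 181) (nat_lit 195) (nat_lit 1) (nat_lit 11) (nat_lit 10) L16932 (by decide +kernel)
theorem L16934 : W_26 (nat_lit 7) (nat_lit 0x1f00000001000080000000000000000000000000000000) (nat_lit 0x0) (nat_lit 0x1ce006000710000800000000000000000000000000000000000) := T_26 (nat_lit 194) (nat_lit 193) (nat_lit 1) (nat_lit 10) (nat_lit 10) L16933 (by decide +kernel)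
theorem L16935 : W_26 (nat_lit 2) (nat_lit 0x14001f00000001000080000000000000000000000000000000) (nat_lit 0x0) (nat_lit 0x8002080000000000000000000000000000000000000000000) := D_26 (nat_lit 195) (nat_lit 175) (nat_lit 181) (nat_lit 3) (nat_lit 5) (nat_lit 10) (nat_lit 1) (nat_lit 11) (nat_lit 10) (by decide +kernel)
theorem L16936 : W_26 (nat_lit 3) (nat_lit 0x4001f00000001000080000000000000000000000000000000) (nat_lit 0x0) (nat_lit 0x38002080000000000000000000000000000000000000000000) := T_26 (nat_lit 196) (nat_lit 197) (nat_lit 3) (nat_lit 6) (nat_lit 10) L16935 (by decide +kernel)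
theorem L16937 : W_26 (nat_lit 4) (nat_lit 0x1f00000001000080000000000000000000000000000000) (nat_lit 0x0) (nat_lit 0x3e002080000000000000000000000000000000000000000000) := T_26 (nat_lit 194) (nat_lit 193) (nat_lit 1) (nat_lit 10) (nat_lit 10) L16936 (by decide +kernel)
theorem L16938 : W_26 (nat_lit 8) (nat_lit 0xf00000001000080000000000000000000000000000000) (nat_lit 0x0) (nat_lit 0x1fe007080710000800000000000000000000000000000000000) := Q_26 (nat_lit 180) (C_26 L16925 (C_26 L16928 (C_26 L16934 (C_26 L16937 N_26)))) (by decide +kernel)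
theorem L16939 : W_26 (nat_lit 2) (nat_lit 0x200024001e000f00010001000080000000000000000000000000000000) (nat_lit 0x0) (nat_lit 0xc0004000000000000000000000000000000000000000000000000000000000) := D_26 (nat_lit 230) (nat_lit 247) (nat_lit 246) (nat_lit 4) (nat_lit 9) (nat_lit 14) (nat_lit 5) (nat_lit 9) (nat_lit 10) (by decide +kernel)
theorem L16940 : W_26 (nat_lit 3) (nat_lit 0x24001e000f00010001000080000000000000000000000000000000) (nat_lit 0x0) (nat_lit 0xc0006000100000000000000000000000000000000000000000000000000000) := T_26 (nat_lit 229) (nat_lit 212) (nat_lit 4) (nat_lit 8) (nat_lit 13) L16939 (by decide +kernel)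
theorem L16941 : W_26 (nat_lit 4) (nat_lit 0x4001e000f00010001000080000000000000000000000000000000) (nat_lit 0x0) (nat_lit 0xc0006000700000000000000000000000000000000000000000000000000000) := T_26 (nat_lit 213) (nat_lit 214) (nat_lit 3) (nat_lit 6) (nat_lit 11) L16940 (by decide +kernel)
theorem L16942 : W_26 (nat_lit 5) (nat_lit 0x40016000f00010001000080000000000000000000000000000000) (nat_lit 0x0) (nat_lit 0xc0006000720008000000000000000000000000000000000000000000000000) := T_26 (nat_lit 195) (nat_lit 209) (nat_lit 1) (nat_lit 9) (nat_lit 11) L16941 (by decide +kernel)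
theorem L16943 : W_26 (nat_lit 6) (nat_lit 0x16000f00010001000080000000000000000000000000000000) (nat_lit 0x0) (nat_lit 0xc0006800760008000000000000000000000000000000000000000000000000) := T_26 (nat_lit 210) (nat_lit 227) (nat_lit 6) (nat_lit 6) (nat_lit 13) L16942 (by decide +kernel)
theorem L16944 : W_26 (nat_lit 7) (nat_lit 0x16000f00000001000080000000000000000000000000000000) (nat_lit 0x0) (nat_lit 0xc0006800760008000000010000800000000000000000000000000000000000) := T_26 (nat_lit 160) (nat_lit 143) (nat_lit 6) (nat_lit 7) (nat_lit 11) L16943 (by decide +kernel)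
theorem L16945 : W_26 (nat_lit 8) (nat_lit 0x12000f00000001000080000000000000000000000000000000) (nat_lit 0x0) (nat_lit 0xc000680076000c001000010000800000000000000000000000000000000000) := T_26 (nat_lit 194) (nat_lit 180) (nat_lit 1) (nat_lit 10) (nat_lit 10) L16944 (by decide +kernel)
theorem L16946 : W_26 (nat_lit 9) (nat_lit 0x10000f00000001000080000000000000000000000000000000) (nat_lit 0x0) (nat_lit 0xc000680076000f001000010000800000000000000000000000000000000000) := T_26 (nat_lit 193) (nat_lit 192) (nat_lit 1) (nat_lit 9) (nat_lit 10) L16945 (by decide +kernel)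
theorem L16947 : W_26 (nat_lit 10) (nat_lit 0xf00000001000080000000000000000000000000000000) (nat_lit 0x0) (nat_lit 0xc000680076003f001000010000800000000000000000000000000000000000) := T_26 (nat_lit 196) (nat_lit 197) (nat_lit 3) (nat_lit 6) (nat_lit 10) L16946 (by decide +kernel)
theorem L16948 : W_26 (nat_lit 2) (nat_lit 0x22000f00000001000080000000000000000000000000000000) (nat_lit 0x0) (nat_lit 0x44001000000000000000000000000000000000000000000000) := D_26 (nat_lit 180) (nat_lit 194) (nat_lit 198) (nat_lit 1) (nat_lit 10) (nat_lit 10) (nat_lit 3) (nat_lit 7) (nat_lit 10) (by decide +kernel)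
theorem L16949 : W_26 (nat_lit 3) (nat_lit 0x2000f00000001000080000000000000000000000000000000) (nat_lit 0x0) (nat_lit 0x74001000000000000000000000000000000000000000000000) := T_26 (nat_lit 197) (nat_lit 196) (nat_lit 3) (nat_lit 6) (nat_lit 10) L16948 (by decide +kernel)
theorem L16950 : W_26 (nat_lit 4) (nat_lit 0xf00000001000080000000000000000000000000000000) (nat_lit 0x0) (nat_lit 0x77001000000000000000000000000000000000000000000000) := T_26 (nat_lit 193) (nat_lit 192) (nat_lit 1) (nat_lit 9) (nat_lit 10) L16949 (by decide +kernel)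
theorem L16951 : W_26 (nat_lit 2) (nat_lit 0x200000004800fc0004001f80084000000000000000000000000000000) (nat_lit 0x0) (nat_lit 0x20001800000000000000000000000000000000000000) := D_26 (nat_lit 156) (nat_lit 155) (nat_lit 173) (nat_lit 1) (nat_lit 6) (nat_lit 8) (nat_lit 7) (nat_lit 3) (nat_lit 7) (by decide +kernel)
theorem L16952 : W_26 (nat_lit 3) (nat_lit 0x200000004800fc0004001f00084000000000000000000000000000000) (nat_lit 0x0) (nat_lit 0x20001800080002000000000000000000000000000000) := T_26 (nat_lit 139) (nat_lit 121) (nat_lit 0) (nat_lit 6) (nat_lit 8) L16951 (by decide +kernel)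
theorem L16953 : W_26 (nat_lit 4) (nat_lit 0x200000004800fc0004001f00080000000000000000000000000000000) (nat_lit 0x0) (nat_lit 0x2000180008000e000000000000000000000000000000) := T_26 (nat_lit 122) (nat_lit 123) (nat_lit 0) (nat_lit 7) (nat_lit 8) L16952 (by decide +kernel)
theorem L16954 : W_26 (nat_lit 5) (nat_lit 0x200000004800fc0004001e00080000000000000000000000000000000) (nat_lit 0x0) (nat_lit 0x2000180018004e000000000000000000000000000000) := T_26 (nat_lit 140) (nat_lit 126) (nat_lit 2) (nat_lit 4) (nat_lit 8) L16953 (by decide +kernel)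
theorem L16955 : W_26 (nat_lit 6) (nat_lit 0x200000004800fc0004001a00080000000000000000000000000000000) (nat_lit 0x0) (nat_lit 0x2000180058014e000000000000000000000000000000) := T_26 (nat_lit 142) (nat_lit 128) (nat_lit 2) (nat_lit 5) (nat_lit 8) L16954 (by decide +kernel)
theorem L16956 : W_26 (nat_lit 7) (nat_lit 0x200000004800fc0004001800080000000000000000000000000000000) (nat_lit 0x0) (nat_lit 0x2000180078015e000000000000000000000000000000) := T_26 (nat_lit 141) (nat_lit 124) (nat_lit 5) (nat_lit 5) (nat_lit 7) L16955 (by decide +kernel)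
theorem L16957 : W_26 (nat_lit 8) (nat_lit 0x200000004800fc0004001000080000000000000000000000000000000) (nat_lit 0x0) (nat_lit 0x20011800f8015e000000000000000000000000000000) := T_26 (nat_lit 143) (nat_lit 160) (nat_lit 6) (nat_lit 7) (nat_lit 11) L16956 (by decide +kernel)
theorem L16958 : W_26 (nat_lit 9) (nat_lit 0x4800fc0004001000080000000000000000000000000000000) (nat_lit 0x0) (nat_lit 0x200010000000020011800f8015e000000000000000000000000000000) := T_26 (nat_lit 225) (nat_lit 208) (nat_lit 6) (nat_lit 4) (nat_lit 13) L16957 (by decide +kernel)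
theorem L16959 : W_26 (nat_lit 10) (nat_lit 0x800fc0004001000080000000000000000000000000000000) (nat_lit 0x0) (nat_lit 0x20001000c000020011800f8015e000000000000000000000000000000) := T_26 (nat_lit 194) (nat_lit 195) (nat_lit 3) (nat_lit 4) (nat_lit 10) L16958 (by decide +kernel)
theorem L16960 : W_26 (nat_lit 11) (nat_lit 0x800f80004001000080000000000000000000000000000000) (nat_lit 0x0) (nat_lit 0x20001000c400060011800f8015e000000000000000000000000000000) := T_26 (nat_lit 174) (nat_lit 190) (nat_lit 1) (nat_lit 7) (nat_lit 10) L16959 (by decide +kernel)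
theorem L16961 : W_26 (nat_lit 12) (nat_lit 0x800f80000001000080000000000000000000000000000000) (nat_lit 0x0) (nat_lit 0x20001000c400060017800f8015e000000000000000000000000000000) := T_26 (nat_lit 158) (nat_lit 157) (nat_lit 0) (nat_lit 8) (nat_lit 10) L16960 (by decide +kernel)
theorem L16962 : W_26 (nat_lit 13) (nat_lit 0xf80000001000080000000000000000000000000000000) (nat_lit 0x0) (nat_lit 0x20001000dc00060017800f8015e000000000000000000000000000000) := T_26 (nat_lit 191) (nat_lit 192) (nat_lit 1) (nat_lit 8) (nat_lit 10) L16961 (by decide +kernel)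
theorem L16963 : W_26 (nat_lit 2) (nat_lit 0x4800fc0002001000080000000000000000000000000000000) (nat_lit 0x0) (nat_lit 0x2001020000000000000000000000000000000000000000000) := D_26 (nat_lit 193) (nat_lit 173) (nat_lit 180) (nat_lit 3) (nat_lit 3) (nat_lit 10) (nat_lit 1) (nat_lit 10) (nat_lit 10) (by decide +kernel)
theorem L16964 : W_26 (nat_lit 3) (nat_lit 0x800fc0002001000080000000000000000000000000000000) (nat_lit 0x0) (nat_lit 0xe001020000000000000000000000000000000000000000000) := T_26 (nat_lit 194) (nat_lit 195) (nat_lit 3) (nat_lit 4) (nat_lit 10) L16963 (by decide +kernel)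
theorem L16965 : W_26 (nat_lit 4) (nat_lit 0xfc0002001000080000000000000000000000000000000) (nat_lit 0x0) (nat_lit 0xec01020000000000000000000000000000000000000000000) := T_26 (nat_lit 191) (nat_lit 190) (nat_lit 1) (nat_lit 7) (nat_lit 10) L16964 (by decide +kernel)
theorem L16966 : W_26 (nat_lit 5) (nat_lit 0xf80002001000080000000000000000000000000000000) (nat_lit 0x0) (nat_lit 0xec01060001000000000000000000000000000000000000000) := T_26 (nat_lit 174) (nat_lit 156) (nat_lit 0) (nat_lit 7) (nat_lit 10) L16965 (by decide +kernel)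
theorem L16967 : W_26 (nat_lit 6) (nat_lit 0xf80000001000080000000000000000000000000000000) (nat_lit 0x0) (nat_lit 0xec01060007000000000000000000000000000000000000000) := T_26 (nat_lit 157) (nat_lit 158) (nat_lit 0) (nat_lit 8) (nat_lit 10) L16966 (by decide +kernel)
theorem L16968 : W_26 (nat_lit 2) (nat_lit 0xf80000001000080000000000000000000000000000000) (nat_lit 0x0) (nat_lit 0x3800000000000000000000000000000000000000000000000) := D_26 (nat_lit 192) (nat_lit 191) (nat_lit 193) (nat_lit 1) (nat_lit 8) (nat_lit 10) (nat_lit 1) (nat_lit 9) (nat_lit 10) (by decide +kernel)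
theorem L16969 : W_26 (nat_lit 2) (nat_lit 0x6000f80004001000080000000000000000000000000000000) (nat_lit 0x0) (nat_lit 0x8000060000000000000000000000000000000000000000000) := D_26 (nat_lit 174) (nat_lit 173) (nat_lit 195) (nat_lit 3) (nat_lit 3) (nat_lit 10) (nat_lit 3) (nat_lit 4) (nat_lit 10) (by decide +kernel)
theorem L16970 : W_26 (nat_lit 3) (nat_lit 0x2000f80004001000080000000000000000000000000000000) (nat_lit 0x0) (nat_lit 0xc001060000000000000000000000000000000000000000000) := T_26 (nat_lit 194) (nat_lit 180) (nat_lit 1) (nat_lit 10) (nat_lit 10) L16969 (by decide +kernel)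
theorem L16971 : W_26 (nat_lit 4) (nat_lit 0xf80004001000080000000000000000000000000000000) (nat_lit 0x0) (nat_lit 0xf001060000000000000000000000000000000000000000000) := T_26 (nat_lit 193) (nat_lit 192) (nat_lit 1) (nat_lit 9) (nat_lit 10) L16970 (by decide +kernel)
theorem L16972 : W_26 (nat_lit 5) (nat_lit 0xf80000001000080000000000000000000000000000000) (nat_lit 0x0) (nat_lit 0xf001060006000000000000000000000000000000000000000) := T_26 (nat_lit 158) (nat_lit 157) (nat_lit 0) (nat_lit 8) (nat_lit 10) L16971 (by decide +kernel)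
theorem L16973 : W_26 (nat_lit 14) (nat_lit 0xf00000001000080000000000000000000000000000000) (nat_lit 0x0) (nat_lit 0x20001000fc010e0017800f8015e000000000000000000000000000000) := Q_26 (nat_lit 175) (C_26 L16962 (C_26 L16967 (C_26 L16968 (C_26 L16972 N_26)))) (by decide +kernel)
theorem L16974 : W_26 (nat_lit 15) (nat_lit 0xe00000001000080000000000000000000000000000000) (nat_lit 0x0) (nat_lit 0xc0006a007701ffc071e0717800f8015e000000000000000000000000000000) := Q_26 (nat_lit 176) (C_26 L16938 (C_26 L11372 (C_26 L16947 (C_26 L16950 (C_26 L16973 N_26))))) (by decide +kernel)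
theorem L16975 : W_26 (nat_lit 2) (nat_lit 0x10000f00004001000080000000000000000000000000000000) (nat_lit 0x0) (nat_lit 0x8000080002000000000000000000000000000000000000000) := D_26 (nat_lit 175) (nat_lit 195) (nat_lit 157) (nat_lit 3) (nat_lit 5) (nat_lit 10) (nat_lit 0) (nat_lit 8) (nat_lit 10) (by decide +kernel)
theorem L16976 : W_26 (nat_lit 3) (nat_lit 0xf00004001000080000000000000000000000000000000) (nat_lit 0x0) (nat_lit 0x38000080002000000000000000000000000000000000000000) := T_26 (nat_lit 196) (nat_lit 197) (nat_lit 3) (nat_lit 6) (nat_lit 10) L16975 (by decide +kernel)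
theorem L16977 : W_26 (nat_lit 4) (nat_lit 0xf00000001000080000000000000000000000000000000) (nat_lit 0x0) (nat_lit 0x3800008000e000000000000000000000000000000000000000) := T_26 (nat_lit 158) (nat_lit 159) (nat_lit 0) (nat_lit 9) (nat_lit 10) L16976 (by decide +kernel)
theorem L16979 : W_26 (nat_lit 3) (nat_lit 0x2000f00008001000080000000000000000000000000000000) (nat_lit 0x0) (nat_lit 0x1000080004001000000000400000000000000000000000000000000000) := T_26 (nat_lit 194) (nat_lit 180) (nat_lit 1) (nat_lit 10) (nat_lit 10) L16978 (by decide +kernel)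
theorem L16980 : W_26 (nat_lit 4) (nat_lit 0x2000f00000001000080000000000000000000000000000000) (nat_lit 0x0) (nat_lit 0x100008000400100000c000400000000000000000000000000000000000) := T_26 (nat_lit 159) (nat_lit 158) (nat_lit 0) (nat_lit 9) (nat_lit 10) L16979 (by decide +kernel)
theorem L16981 : W_26 (nat_lit 5) (nat_lit 0xf00000001000080000000000000000000000000000000) (nat_lit 0x0) (nat_lit 0x100008000700100000c000400000000000000000000000000000000000) := T_26 (nat_lit 193) (nat_lit 192) (nat_lit 1) (nat_lit 9) (nat_lit 10) L16980 (by decide +kernel)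
theorem L16982 : W_26 (nat_lit 7) (nat_lit 0xe00000001000080000000000000000000000000000000) (nat_lit 0x0) (nat_lit 0x100008007fc011c000f000400000000000000000000000000000000000) := Q_26 (nat_lit 176) (C_26 L11372 (C_26 L16950 (C_26 L16977 (C_26 L16981 N_26)))) (by decide +kernel)
theorem L16983 : W_26 (nat_lit 2) (nat_lit 0x2400fe00210001000080000000000000000000000000000000) (nat_lit 0x0) (nat_lit 0x380000000000000000000000000000000000000000000000000) := D_26 (nat_lit 200) (nat_lit 199) (nat_lit 201) (nat_lit 3) (nat_lit 9) (nat_lit 10) (nat_lit 3) (nat_lit 10) (nat_lit 10) (by decide +kernel)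
theorem L16984 : W_26 (nat_lit 3) (nat_lit 0x24007e00210001000080000000000000000000000000000000) (nat_lit 0x0) (nat_lit 0x390008000000000000000000000000000000000000000000000) := T_26 (nat_lit 183) (nat_lit 196) (nat_lit 1) (nat_lit 13) (nat_lit 10) L16983 (by decide +kernel)
theorem L16985 : W_26 (nat_lit 4) (nat_lit 0x24003e00210001000080000000000000000000000000000000) (nat_lit 0x0) (nat_lit 0x39000c000400000000000000000000000000000000000000000) := T_26 (nat_lit 182) (nat_lit 166) (nat_lit 2) (nat_lit 9) (nat_lit 10) L16984 (by decide +kernel)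
theorem L16986 : W_26 (nat_lit 5) (nat_lit 0x24003e00010001000080000000000000000000000000000000) (nat_lit 0x0) (nat_lit 0x39000c000700000000000000000000000000000000000000000) := T_26 (nat_lit 165) (nat_lit 164) (nat_lit 2) (nat_lit 8) (nat_lit 10) L16985 (by decide +kernel)
theorem L16987 : W_26 (nat_lit 6) (nat_lit 0x24001e00010001000080000000000000000000000000000000) (nat_lit 0x0) (nat_lit 0x39800e000700000000000000000000000000000000000000000) := T_26 (nat_lit 181) (nat_lit 195) (nat_lit 1) (nat_lit 11) (nat_lit 10) L16986 (by decide +kernel)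
theorem L16988 : W_26 (nat_lit 7) (nat_lit 0x20001e00010001000080000000000000000000000000000000) (nat_lit 0x0) (nat_lit 0x39c00e000700000800000000000000000000000000000000000) := T_26 (nat_lit 194) (nat_lit 143) (nat_lit 6) (nat_lit 7) (nat_lit 11) L16987 (by decide +kernel)
theorem L16989 : W_26 (nat_lit 8) (nat_lit 0x1e00010001000080000000000000000000000000000000) (nat_lit 0x0) (nat_lit 0x3fc00e000700000800000000000000000000000000000000000) := T_26 (nat_lit 197) (nat_lit 198) (nat_lit 3) (nat_lit 7) (nat_lit 10) L16988 (by decide +kernel)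
theorem L16990 : W_26 (nat_lit 9) (nat_lit 0x1e00000001000080000000000000000000000000000000) (nat_lit 0x0) (nat_lit 0x3fc00e000718000800000000000000000000000000000000000) := T_26 (nat_lit 160) (nat_lit 159) (nat_lit 0) (nat_lit 10) (nat_lit 10) L16989 (by decide +kernel)
theorem L16992 : W_26 (nat_lit 2) (nat_lit 0x80003e00210001000080000000000000000000000000000000) (nat_lit 0x0) (nat_lit 0x100004000400000000000000000000000000000000000000000) := D_26 (nat_lit 182) (nat_lit 166) (nat_lit 200) (nat_lit 2) (nat_lit 9) (nat_lit 10) (nat_lit 3) (nat_lit 9) (nat_lit 10) (by decide +kernel)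
theorem L16993 : W_26 (nat_lit 3) (nat_lit 0x3e00210001000080000000000000000000000000000000) (nat_lit 0x0) (nat_lit 0x1c0004000400000000000000000000000000000000000000000) := T_26 (nat_lit 199) (nat_lit 198) (nat_lit 3) (nat_lit 8) (nat_lit 10) L16992 (by decide +kernel)
theorem L16994 : W_26 (nat_lit 4) (nat_lit 0x3e00010001000080000000000000000000000000000000) (nat_lit 0x0) (nat_lit 0x1c0004000700000000000000000000000000000000000000000) := T_26 (nat_lit 165) (nat_lit 164) (nat_lit 2) (nat_lit 8) (nat_lit 10) L16993 (by decide +kernel)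
theorem L16995 : W_26 (nat_lit 5) (nat_lit 0x3e00000001000080000000000000000000000000000000) (nat_lit 0x0) (nat_lit 0x1c0004000718000000000000000000000000000000000000000) := T_26 (nat_lit 160) (nat_lit 159) (nat_lit 0) (nat_lit 10) (nat_lit 10) L16994 (by decide +kernel)
theorem L16996 : W_26 (nat_lit 2) (nat_lit 0x110007e00210001000080000000000000000000000000000000) (nat_lit 0x0) (nat_lit 0x220008000000000000000000000000000000000000000000000) := D_26 (nat_lit 183) (nat_lit 197) (nat_lit 201) (nat_lit 1) (nat_lit 13) (nat_lit 10) (nat_lit 3) (nat_lit 10) (nat_lit 10) (by decide +kernel)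
theorem L16997 : W_26 (nat_lit 3) (nat_lit 0x10007e00210001000080000000000000000000000000000000) (nat_lit 0x0) (nat_lit 0x3a0008000000000000000000000000000000000000000000000) := T_26 (nat_lit 200) (nat_lit 199) (nat_lit 3) (nat_lit 9) (nat_lit 10) L16996 (by decide +kernel)
theorem L16998 : W_26 (nat_lit 4) (nat_lit 0x7e00210001000080000000000000000000000000000000) (nat_lit 0x0) (nat_lit 0x3b8008000000000000000000000000000000000000000000000) := T_26 (nat_lit 196) (nat_lit 195) (nat_lit 1) (nat_lit 12) (nat_lit 10) L16997 (by decide +kernel)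
theorem L16999 : W_26 (nat_lit 5) (nat_lit 0x3e00210001000080000000000000000000000000000000) (nat_lit 0x0) (nat_lit 0x3b800c000400000000000000000000000000000000000000000) := T_26 (nat_lit 182) (nat_lit 166) (nat_lit 2) (nat_lit 9) (nat_lit 10) L16998 (by decide +kernel)
theorem L17000 : W_26 (nat_lit 6) (nat_lit 0x3e00200001000080000000000000000000000000000000) (nat_lit 0x0) (nat_lit 0x3b800c000418000000000000000000000000000000000000000) := T_26 (nat_lit 160) (nat_lit 159) (nat_lit 0) (nat_lit 10) (nat_lit 10) L16999 (by decide +kernel)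
theorem L17001 : W_26 (nat_lit 7) (nat_lit 0x3e00000001000080000000000000000000000000000000) (nat_lit 0x0) (nat_lit 0x3b800c000718000000000000000000000000000000000000000) := T_26 (nat_lit 165) (nat_lit 164) (nat_lit 2) (nat_lit 8) (nat_lit 10) L17000 (by decide +kernel)
theorem L17002 : W_26 (nat_lit 2) (nat_lit 0x20007e00200001000080000000000000000000000000000000) (nat_lit 0x0) (nat_lit 0x18008000000000000000000000000000000000000000000000) := D_26 (nat_lit 196) (nat_lit 183) (nat_lit 195) (nat_lit 1) (nat_lit 13) (nat_lit 10) (nat_lit 1) (nat_lit 12) (nat_lit 10) (by decide +kernel)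
theorem L17003 : W_26 (nat_lit 3) (nat_lit 0x20003e00200001000080000000000000000000000000000000) (nat_lit 0x0) (nat_lit 0x1800c000400000000000000000000000000000000000000000) := T_26 (nat_lit 182) (nat_lit 166) (nat_lit 2) (nat_lit 9) (nat_lit 10) L17002 (by decide +kernel)
theorem L17004 : W_26 (nat_lit 4) (nat_lit 0x3e00200001000080000000000000000000000000000000) (nat_lit 0x0) (nat_lit 0x7800c000400000000000000000000000000000000000000000) := T_26 (nat_lit 197) (nat_lit 198) (nat_lit 3) (nat_lit 7) (nat_lit 10) L17003 (by decide +kernel)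
theorem L17005 : W_26 (nat_lit 5) (nat_lit 0x3e00000001000080000000000000000000000000000000) (nat_lit 0x0) (nat_lit 0x7800c000700000000000000000000000000000000000000000) := T_26 (nat_lit 165) (nat_lit 164) (nat_lit 2) (nat_lit 8) (nat_lit 10) L17004 (by decide +kernel)
theorem L17006 : W_26 (nat_lit 8) (nat_lit 0x1e00000001000080000000000000000000000000000000) (nat_lit 0x0) (nat_lit 0x3f800e000718000000000000000000000000000000000000000) := Q_26 (nat_lit 181) (C_26 L16991 (C_26 L16995 (C_26 L17001 (C_26 L17005 N_26)))) (by decide +kernel)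
theorem L17007 : W_26 (nat_lit 2) (nat_lit 0x2400fe00200001000080000000000000000000000000000000) (nat_lit 0x0) (nat_lit 0x380000000000000000000000000000000000000000000000000) := D_26 (nat_lit 200) (nat_lit 199) (nat_lit 201) (nat_lit 3) (nat_lit 9) (nat_lit 10) (nat_lit 3) (nat_lit 10) (nat_lit 10) (by decide +kernel)
theorem L17008 : W_26 (nat_lit 3) (nat_lit 0x24007e00200001000080000000000000000000000000000000) (nat_lit 0x0) (nat_lit 0x390008000000000000000000000000000000000000000000000) := T_26 (nat_lit 183) (nat_lit 196) (nat_lit 1) (nat_lit 13) (nat_lit 10) L17007 (by decide +kernel)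
theorem L17009 : W_26 (nat_lit 4) (nat_lit 0x24003e00200001000080000000000000000000000000000000) (nat_lit 0x0) (nat_lit 0x39000c000400000000000000000000000000000000000000000) := T_26 (nat_lit 182) (nat_lit 166) (nat_lit 2) (nat_lit 9) (nat_lit 10) L17008 (by decide +kernel)
theorem L17010 : W_26 (nat_lit 5) (nat_lit 0x24003e00000001000080000000000000000000000000000000) (nat_lit 0x0) (nat_lit 0x39000c000700000000000000000000000000000000000000000) := T_26 (nat_lit 165) (nat_lit 164) (nat_lit 2) (nat_lit 8) (nat_lit 10) L17009 (by decide +kernel)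
theorem L17011 : W_26 (nat_lit 6) (nat_lit 0x24001e00000001000080000000000000000000000000000000) (nat_lit 0x0) (nat_lit 0x39800e000700000000000000000000000000000000000000000) := T_26 (nat_lit 181) (nat_lit 195) (nat_lit 1) (nat_lit 11) (nat_lit 10) L17010 (by decide +kernel)
theorem L17012 : W_26 (nat_lit 7) (nat_lit 0x4001e00000001000080000000000000000000000000000000) (nat_lit 0x0) (nat_lit 0x3f800e000700000000000000000000000000000000000000000) := T_26 (nat_lit 197) (nat_lit 198) (nat_lit 3) (nat_lit 7) (nat_lit 10) L17011 (by decide +kernel)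
theorem L17013 : W_26 (nat_lit 8) (nat_lit 0x1e00000001000080000000000000000000000000000000) (nat_lit 0x0) (nat_lit 0x3fe00e000700000000000000000000000000000000000000000) := T_26 (nat_lit 194) (nat_lit 193) (nat_lit 1) (nat_lit 10) (nat_lit 10) L17012 (by decide +kernel)
theorem L17015 : W_26 (nat_lit 10) (nat_lit 0xe00000001000080000000000000000000000000000000) (nat_lit 0x0) (nat_lit 0x3fe00f000718000800000000000000000000000000000000000) := Q_26 (nat_lit 180) (C_26 L16990 (C_26 L17006 (C_26 L17013 (C_26 L17014 N_26)))) (by decide +kernel)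
theorem L17016 : W_26 (nat_lit 2) (nat_lit 0xe00018001000080000000000000000000000000000000) (nat_lit 0x0) (nat_lit 0x100006000000000000000000000000000000000000000) := D_26 (nat_lit 158) (nat_lit 176) (nat_lit 157) (nat_lit 0) (nat_lit 9) (nat_lit 10) (nat_lit 3) (nat_lit 4) (nat_lit 9) (by decide +kernel)
theorem L17017 : W_26 (nat_lit 3) (nat_lit 0xe00010001000080000000000000000000000000000000) (nat_lit 0x0) (nat_lit 0x110000e000000000000000000000000000000000000000) := T_26 (nat_lit 159) (nat_lit 180) (nat_lit 0) (nat_lit 10) (nat_lit 10) L17016 (by decide +kernel)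
theorem L17018 : W_26 (nat_lit 9) (nat_lit 0xe00010001000080000000000000000000000000000000) (nat_lit 0x0) (nat_lit 0x3fc00f000708000800000000000000000000000000000000000) := T_26 (nat_lit 180) (nat_lit 159) (nat_lit 0) (nat_lit 10) (nat_lit 10) L16989 (by decide +kernel)
theorem L17019 : W_26 (nat_lit 2) (nat_lit 0xe00010001a001f0010800000000000000000000000000) (nat_lit 0x0) (nat_lit 0x600020000000000000000000000000000) := D_26 (nat_lit 129) (nat_lit 130) (nat_lit 113) (nat_lit 1) (nat_lit 11) (nat_lit 7) (nat_lit 2) (nat_lit 7) (nat_lit 7) (by decide +kernel)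
theorem L17020 : W_26 (nat_lit 3) (nat_lit 0xe00010001a001f0000800000000000000000000000000) (nat_lit 0x0) (nat_lit 0x600038000000000000000000000000000) := T_26 (nat_lit 112) (nat_lit 111) (nat_lit 2) (nat_lit 6) (nat_lit 7) L17019 (by decide +kernel)
theorem L17021 : W_26 (nat_lit 4) (nat_lit 0xe00010001a000f0000800000000000000000000000000) (nat_lit 0x0) (nat_lit 0x400700038000000000000000000000000000) := T_26 (nat_lit 128) (nat_lit 142) (nat_lit 2) (nat_lit 5) (nat_lit 8) L17020 (by decide +kernel)
theorem L17022 : W_26 (nat_lit 5) (nat_lit 0xe00010001a000f0000000000000000000000000000000) (nat_lit 0x0) (nat_lit 0x400700038c00000000000000000000000000) := T_26 (nat_lit 107) (nat_lit 106) (nat_lit 0) (nat_lit 8) (nat_lit 7) L17021 (by decide +kernel)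
theorem L17023 : W_26 (nat_lit 6) (nat_lit 0xe000100018000f0000000000000000000000000000000) (nat_lit 0x0) (nat_lit 0x700700038c00000000000000000000000000) := T_26 (nat_lit 141) (nat_lit 140) (nat_lit 1) (nat_lit 8) (nat_lit 7) L17022 (by decide +kernel)
theorem L17024 : W_26 (nat_lit 7) (nat_lit 0xe000100018000e0000000000000000000000000000000) (nat_lit 0x0) (nat_lit 0x700718038c00000000000000000000000000) := T_26 (nat_lit 124) (nat_lit 123) (nat_lit 3) (nat_lit 4) (nat_lit 7) L17023 (by decide +kernel)
theorem L17025 : W_26 (nat_lit 8) (nat_lit 0xe000100018000c0000000000000000000000000000000) (nat_lit 0x0) (nat_lit 0x700738039c00000000000000000000000000) := T_26 (nat_lit 125) (nat_lit 108) (nat_lit 4) (nat_lit 7) (nat_lit 10) L17024 (by decide +kernel)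
theorem L17026 : W_26 (nat_lit 9) (nat_lit 0xe00010001800080000000000000000000000000000000) (nat_lit 0x0) (nat_lit 0x8000000000000700778039c00000000000000000000000000) := T_26 (nat_lit 126) (nat_lit 195) (nat_lit 7) (nat_lit 7) (nat_lit 7) L17025 (by decide +kernel)
theorem L17027 : W_26 (nat_lit 10) (nat_lit 0xe00010001000080000000000000000000000000000000) (nat_lit 0x0) (nat_lit 0xc000000000000f00778039c00000000000000000000000000) := T_26 (nat_lit 143) (nat_lit 194) (nat_lit 6) (nat_lit 7) (nat_lit 11) L17026 (by decide +kernel)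
theorem L17028 : W_26 (nat_lit 11) (nat_lit 0xe00000001000080000000000000000000000000000000) (nat_lit 0x0) (nat_lit 0x3fc00f10071e000f00778039c00000000000000000000000000) := Q_26 (nat_lit 160) (C_26 L17017 (C_26 L17018 (C_26 L17027 N_26))) (by decide +kernel)
theorem L17029 : W_26 (nat_lit 2) (nat_lit 0x14000f00018001000080000000000000000000000000000000) (nat_lit 0x0) (nat_lit 0x1000080000000000000000400000000000000000000000000000000000) := D_26 (nat_lit 211) (nat_lit 228) (nat_lit 142) (nat_lit 4) (nat_lit 7) (nat_lit 13) (nat_lit 4) (nat_lit 7) (nat_lit 12) (by decide +kernel)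
theorem L17030 : W_26 (nat_lit 3) (nat_lit 0x10000f00018001000080000000000000000000000000000000) (nat_lit 0x0) (nat_lit 0x1000080004000000000000c00000000000000000000000000000000000) := T_26 (nat_lit 194) (nat_lit 143) (nat_lit 6) (nat_lit 7) (nat_lit 11) L17029 (by decide +kernel)
theorem L17031 : W_26 (nat_lit 4) (nat_lit 0x10000f00008001000080000000000000000000000000000000) (nat_lit 0x0) (nat_lit 0x1000080004001000010000c00000000000000000000000000000000000) := T_26 (nat_lit 160) (nat_lit 180) (nat_lit 0) (nat_lit 10) (nat_lit 10) L17030 (by decide +kernel)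
theorem L17032 : W_26 (nat_lit 5) (nat_lit 0xf00008001000080000000000000000000000000000000) (nat_lit 0x0) (nat_lit 0x1000080034001000010000c00000000000000000000000000000000000) := T_26 (nat_lit 196) (nat_lit 197) (nat_lit 3) (nat_lit 6) (nat_lit 10) L17031 (by decide +kernel)
theorem L17033 : W_26 (nat_lit 6) (nat_lit 0xf00000001000080000000000000000000000000000000) (nat_lit 0x0) (nat_lit 0x100008003400100001c000c00000000000000000000000000000000000) := T_26 (nat_lit 159) (nat_lit 158) (nat_lit 0) (nat_lit 9) (nat_lit 10) L17032 (by decide +kernel)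
theorem L17037 : W_26 (nat_lit 7) (nat_lit 0xe00000001000080000000000000000000000000000000) (nat_lit 0x0) (nat_lit 0x100008007780118001e000c00000000000000000000000000000000000) := Q_26 (nat_lit 176) (C_26 L17033 (C_26 L17036 (C_26 L16981 (C_26 L16950 (C_26 L5750 N_26))))) (by decide +kernel)
theorem L17038 : W_26 (nat_lit 4) (nat_lit 0x4001e00000001000080000000000000000000000000000000) (nat_lit 0x0) (nat_lit 0xe8002000018000000000000000000000000000000000000000) := T_26 (nat_lit 160) (nat_lit 159) (nat_lit 0) (nat_lit 10) (nat_lit 10) L5494 (by decide +kernel)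
theorem L17039 : W_26 (nat_lit 5) (nat_lit 0x4000e00000001000080000000000000000000000000000000) (nat_lit 0x0) (nat_lit 0xea003000018000000000000000000000000000000000000000) := T_26 (nat_lit 180) (nat_lit 193) (nat_lit 1) (nat_lit 10) (nat_lit 10) L17038 (by decide +kernel)
theorem L17040 : W_26 (nat_lit 3) (nat_lit 0x4000f00008001000080000000000000000000000000000000) (nat_lit 0x0) (nat_lit 0x1000080003000000000000400000000000000000000000000000000000) := T_26 (nat_lit 193) (nat_lit 192) (nat_lit 1) (nat_lit 9) (nat_lit 10) L16978 (by decide +kernel)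
theorem L17041 : W_26 (nat_lit 4) (nat_lit 0x4000f00000001000080000000000000000000000000000000) (nat_lit 0x0) (nat_lit 0x100008000300000000c000400000000000000000000000000000000000) := T_26 (nat_lit 159) (nat_lit 158) (nat_lit 0) (nat_lit 9) (nat_lit 10) L17040 (by decide +kernel)
theorem L17042 : W_26 (nat_lit 5) (nat_lit 0x6000f00010001000080000000000000000000000000000000) (nat_lit 0x0) (nat_lit 0x8000400080000e000e000000000000000000000000000000000000000) := T_26 (nat_lit 227) (nat_lit 210) (nat_lit 6) (nat_lit 6) (nat_lit 13) L16859 (by decide +kernel)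
theorem L17043 : W_26 (nat_lit 6) (nat_lit 0x6000f00000001000080000000000000000000000000000000) (nat_lit 0x0) (nat_lit 0x8000400080000e001e000800000000000000000000000000000000000) := T_26 (nat_lit 160) (nat_lit 143) (nat_lit 6) (nat_lit 7) (nat_lit 11) L17042 (by decide +kernel)
theorem L17044 : W_26 (nat_lit 7) (nat_lit 0x4000f00000001000080000000000000000000000000000000) (nat_lit 0x0) (nat_lit 0x80004000b0000e001e000800000000000000000000000000000000000) := T_26 (nat_lit 193) (nat_lit 192) (nat_lit 1) (nat_lit 9) (nat_lit 10) L17043 (by decide +kernel)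
theorem L17045 : W_26 (nat_lit 2) (nat_lit 0x5000f80012001000080000000000000000000000000000000) (nat_lit 0x0) (nat_lit 0x8000040001000000000000000000000000000000000000000) := D_26 (nat_lit 174) (nat_lit 195) (nat_lit 156) (nat_lit 3) (nat_lit 4) (nat_lit 10) (nat_lit 0) (nat_lit 7) (nat_lit 10) (by decide +kernel)
theorem L17046 : W_26 (nat_lit 3) (nat_lit 0x5000f80010001000080000000000000000000000000000000) (nat_lit 0x0) (nat_lit 0x8000040007000000000000000000000000000000000000000) := T_26 (nat_lit 157) (nat_lit 158) (nat_lit 0) (nat_lit 8) (nat_lit 10) L17045 (by decide +kernel)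
theorem L17047 : W_26 (nat_lit 4) (nat_lit 0x5000f00010001000080000000000000000000000000000000) (nat_lit 0x0) (nat_lit 0x88000c0007000000000000000000000000000000000000000) := T_26 (nat_lit 175) (nat_lit 191) (nat_lit 1) (nat_lit 8) (nat_lit 10) L17046 (by decide +kernel)
theorem L17048 : W_26 (nat_lit 5) (nat_lit 0x5000f00000001000080000000000000000000000000000000) (nat_lit 0x0) (nat_lit 0x88000c0017000800000000000000000000000000000000000) := T_26 (nat_lit 160) (nat_lit 143) (nat_lit 6) (nat_lit 7) (nat_lit 11) L17047 (by decide +kernel)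
theorem L17049 : W_26 (nat_lit 6) (nat_lit 0x4000f00000001000080000000000000000000000000000000) (nat_lit 0x0) (nat_lit 0xb8000c0017000800000000000000000000000000000000000) := T_26 (nat_lit 192) (nat_lit 193) (nat_lit 1) (nat_lit 9) (nat_lit 10) L17048 (by decide +kernel)
theorem L17050 : W_26 (nat_lit 2) (nat_lit 0x5000fe0010001000080000000000000000000000000000000) (nat_lit 0x0) (nat_lit 0x3800000000000000000000000000000000000000) := D_26 (nat_lit 156) (nat_lit 157) (nat_lit 155) (nat_lit 0) (nat_lit 7) (nat_lit 10) (nat_lit 0) (nat_lit 6) (nat_lit 10) (by decide +kernel)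
theorem L17051 : W_26 (nat_lit 3) (nat_lit 0x5000fc0010001000080000000000000000000000000000000) (nat_lit 0x0) (nat_lit 0x2000b800000000000000000000000000000000000000) := T_26 (nat_lit 173) (nat_lit 159) (nat_lit 2) (nat_lit 3) (nat_lit 10) L17050 (by decide +kernel)
theorem L17052 : W_26 (nat_lit 4) (nat_lit 0x5000f80010001000080000000000000000000000000000000) (nat_lit 0x0) (nat_lit 0x800006000b800000000000000000000000000000000000000) := T_26 (nat_lit 174) (nat_lit 195) (nat_lit 3) (nat_lit 4) (nat_lit 10) L17051 (by decide +kernel)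
theorem L17053 : W_26 (nat_lit 5) (nat_lit 0x5000f00010001000080000000000000000000000000000000) (nat_lit 0x0) (nat_lit 0x88000e000b800000000000000000000000000000000000000) := T_26 (nat_lit 175) (nat_lit 191) (nat_lit 1) (nat_lit 8) (nat_lit 10) L17052 (by decide +kernel)
theorem L17054 : W_26 (nat_lit 6) (nat_lit 0x5000f00000001000080000000000000000000000000000000) (nat_lit 0x0) (nat_lit 0x88000e001b800800000000000000000000000000000000000) := T_26 (nat_lit 160) (nat_lit 143) (nat_lit 6) (nat_lit 7) (nat_lit 11) L17053 (by decide +kernel)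
theorem L17055 : W_26 (nat_lit 7) (nat_lit 0x4000f00000001000080000000000000000000000000000000) (nat_lit 0x0) (nat_lit 0xb8000e001b800800000000000000000000000000000000000) := T_26 (nat_lit 192) (nat_lit 193) (nat_lit 1) (nat_lit 9) (nat_lit 10) L17054 (by decide +kernel)
theorem L17056 : W_26 (nat_lit 8) (nat_lit 0x4000e00000001000080000000000000000000000000000000) (nat_lit 0x0) (nat_lit 0x18000c000b8001e001f800c00020000000000000000000000000000000) := Q_26 (nat_lit 176) (C_26 L5561 (C_26 L17041 (C_26 L17044 (C_26 L17049 (C_26 L17055 N_26))))) (by decide +kernel)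
theorem L17057 : W_26 (nat_lit 9) (nat_lit 0xe00000001000080000000000000000000000000000000) (nat_lit 0x0) (nat_lit 0x18000c00ef8031e001f800c00020000000000000000000000000000000) := Q_26 (nat_lit 194) (C_26 L5496 (C_26 L17039 (C_26 L5492 (C_26 L5797 (C_26 L17056 N_26))))) (by decide +kernel)
theorem L17058 : W_26 (nat_lit 2) (nat_lit 0x84003e00210001000080000000000000000000000000000000) (nat_lit 0x0) (nat_lit 0x100004000400000000000000000000000000000000000000000) := D_26 (nat_lit 182) (nat_lit 166) (nat_lit 200) (nat_lit 2) (nat_lit 9) (nat_lit 10) (nat_lit 3) (nat_lit 9) (nat_lit 10) (by decide +kernel)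
theorem L17059 : W_26 (nat_lit 3) (nat_lit 0x4003e00210001000080000000000000000000000000000000) (nat_lit 0x0) (nat_lit 0x1c0004000400000000000000000000000000000000000000000) := T_26 (nat_lit 199) (nat_lit 198) (nat_lit 3) (nat_lit 8) (nat_lit 10) L17058 (by decide +kernel)
theorem L17060 : W_26 (nat_lit 4) (nat_lit 0x4003e00010001000080000000000000000000000000000000) (nat_lit 0x0) (nat_lit 0x1c0004000700000000000000000000000000000000000000000) := T_26 (nat_lit 165) (nat_lit 164) (nat_lit 2) (nat_lit 8) (nat_lit 10) L17059 (by decide +kernel)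
theorem L17061 : W_26 (nat_lit 5) (nat_lit 0x4001e00010001000080000000000000000000000000000000) (nat_lit 0x0) (nat_lit 0x1c8006000700000000000000000000000000000000000000000) := T_26 (nat_lit 181) (nat_lit 195) (nat_lit 1) (nat_lit 11) (nat_lit 10) L17060 (by decide +kernel)
theorem L17062 : W_26 (nat_lit 6) (nat_lit 0x4000e00010001000080000000000000000000000000000000) (nat_lit 0x0) (nat_lit 0x1c8007000708000000000000000000000000000000000000000) := T_26 (nat_lit 180) (nat_lit 159) (nat_lit 0) (nat_lit 10) (nat_lit 10) L17061 (by decide +kernel)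
theorem L17063 : W_26 (nat_lit 7) (nat_lit 0x4000e00000001000080000000000000000000000000000000) (nat_lit 0x0) (nat_lit 0x1c8007000718000800000000000000000000000000000000000) := T_26 (nat_lit 160) (nat_lit 143) (nat_lit 6) (nat_lit 7) (nat_lit 11) L17062 (by decide +kernel)
theorem L17064 : W_26 (nat_lit 6) (nat_lit 0x4001e00000001000080000000000000000000000000000000) (nat_lit 0x0) (nat_lit 0x1c8006000718000000000000000000000000000000000000000) := T_26 (nat_lit 160) (nat_lit 159) (nat_lit 0) (nat_lit 10) (nat_lit 10) L17061 (by decide +kernel)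
theorem L17065 : W_26 (nat_lit 7) (nat_lit 0x4000e00000001000080000000000000000000000000000000) (nat_lit 0x0) (nat_lit 0x1ca007000718000000000000000000000000000000000000000) := T_26 (nat_lit 180) (nat_lit 193) (nat_lit 1) (nat_lit 10) (nat_lit 10) L17064 (by decide +kernel)
theorem L17066 : W_26 (nat_lit 2) (nat_lit 0x84003e00200001000080000000000000000000000000000000) (nat_lit 0x0) (nat_lit 0x100004000400000000000000000000000000000000000000000) := D_26 (nat_lit 182) (nat_lit 166) (nat_lit 200) (nat_lit 2) (nat_lit 9) (nat_lit 10) (nat_lit 3) (nat_lit 9) (nat_lit 10) (by decide +kernel)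
theorem L17067 : W_26 (nat_lit 3) (nat_lit 0x4003e00200001000080000000000000000000000000000000) (nat_lit 0x0) (nat_lit 0x1c0004000400000000000000000000000000000000000000000) := T_26 (nat_lit 199) (nat_lit 198) (nat_lit 3) (nat_lit 8) (nat_lit 10) L17066 (by decide +kernel)
theorem L17068 : W_26 (nat_lit 4) (nat_lit 0x4003e00000001000080000000000000000000000000000000) (nat_lit 0x0) (nat_lit 0x1c0004000700000000000000000000000000000000000000000) := T_26 (nat_lit 165) (nat_lit 164) (nat_lit 2) (nat_lit 8) (nat_lit 10) L17067 (by decide +kernel)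
theorem L17069 : W_26 (nat_lit 5) (nat_lit 0x4001e00000001000080000000000000000000000000000000) (nat_lit 0x0) (nat_lit 0x1c8006000700000000000000000000000000000000000000000) := T_26 (nat_lit 181) (nat_lit 195) (nat_lit 1) (nat_lit 11) (nat_lit 10) L17068 (by decide +kernel)
theorem L17070 : W_26 (nat_lit 6) (nat_lit 0x4000e00000001000080000000000000000000000000000000) (nat_lit 0x0) (nat_lit 0x1ca007000700000000000000000000000000000000000000000) := T_26 (nat_lit 180) (nat_lit 193) (nat_lit 1) (nat_lit 10) (nat_lit 10) L17069 (by decide +kernel)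
theorem L17071 : W_26 (nat_lit 9) (nat_lit 0xe00000001000080000000000000000000000000000000) (nat_lit 0x0) (nat_lit 0x18000c01cf8071e071f800c00020000000000000000000000000000000) := Q_26 (nat_lit 194) (C_26 L17063 (C_26 L17065 (C_26 L17070 (C_26 L5797 (C_26 L17056 N_26))))) (by decide +kernel)
theorem L17072 : W_26 (nat_lit 2) (nat_lit 0x1000040016000f00018001000080000000000000000000000000000000) (nat_lit 0x0) (nat_lit 0x400020008000000000000000000000000000000000000000000000000) := D_26 (nat_lit 209) (nat_lit 195) (nat_lit 226) (nat_lit 1) (nat_lit 9) (nat_lit 11) (nat_lit 5) (nat_lit 6) (nat_lit 9) (by decide +kernel)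
theorem L17073 : W_26 (nat_lit 3) (nat_lit 0x1000040006000f00018001000080000000000000000000000000000000) (nat_lit 0x0) (nat_lit 0x400020038000000000000000000000000000000000000000000000000) := T_26 (nat_lit 196) (nat_lit 197) (nat_lit 3) (nat_lit 6) (nat_lit 10) L17072 (by decide +kernel)
theorem L17074 : W_26 (nat_lit 4) (nat_lit 0x1000000006000f00018001000080000000000000000000000000000000) (nat_lit 0x0) (nat_lit 0xc00060038000000000000000000000000000000000000000000000000) := T_26 (nat_lit 210) (nat_lit 227) (nat_lit 6) (nat_lit 6) (nat_lit 13) L17073 (by decide +kernel)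
theorem L17075 : W_26 (nat_lit 5) (nat_lit 0x1000000006000f00008001000080000000000000000000000000000000) (nat_lit 0x0) (nat_lit 0xc00060038000000010000800000000000000000000000000000000000) := T_26 (nat_lit 160) (nat_lit 143) (nat_lit 6) (nat_lit 7) (nat_lit 11) L17074 (by decide +kernel)
theorem L17076 : W_26 (nat_lit 6) (nat_lit 0x6000f00008001000080000000000000000000000000000000) (nat_lit 0x0) (nat_lit 0x1c000e0038000000010000800000000000000000000000000000000000) := T_26 (nat_lit 228) (nat_lit 211) (nat_lit 4) (nat_lit 7) (nat_lit 13) L17075 (by decide +kernel)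
theorem L17077 : W_26 (nat_lit 7) (nat_lit 0x4000f00008001000080000000000000000000000000000000) (nat_lit 0x0) (nat_lit 0x1c000e003b000000010000800000000000000000000000000000000000) := T_26 (nat_lit 193) (nat_lit 192) (nat_lit 1) (nat_lit 9) (nat_lit 10) L17076 (by decide +kernel)
theorem L17078 : W_26 (nat_lit 8) (nat_lit 0x4000f00000001000080000000000000000000000000000000) (nat_lit 0x0) (nat_lit 0x1c000e003b00000001c000800000000000000000000000000000000000) := T_26 (nat_lit 159) (nat_lit 158) (nat_lit 0) (nat_lit 9) (nat_lit 10) L17077 (by decide +kernel)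
theorem L17079 : W_26 (nat_lit 7) (nat_lit 0x6000f00010001000080000000000000000000000000000000) (nat_lit 0x0) (nat_lit 0xc0006800760038000000000000000000000000000000000000000000000000) := T_26 (nat_lit 196) (nat_lit 197) (nat_lit 3) (nat_lit 6) (nat_lit 10) L16943 (by decide +kernel)
theorem L17080 : W_26 (nat_lit 8) (nat_lit 0x4000f00010001000080000000000000000000000000000000) (nat_lit 0x0) (nat_lit 0xc000680076003b000000000000000000000000000000000000000000000000) := T_26 (nat_lit 193) (nat_lit 192) (nat_lit 1) (nat_lit 9) (nat_lit 10) L17079 (by decide +kernel)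
theorem L17081 : W_26 (nat_lit 9) (nat_lit 0x4000f00000001000080000000000000000000000000000000) (nat_lit 0x0) (nat_lit 0xc000680076003b000000010000800000000000000000000000000000000000) := T_26 (nat_lit 160) (nat_lit 143) (nat_lit 6) (nat_lit 7) (nat_lit 11) L17080 (by decide +kernel)
theorem L17082 : W_26 (nat_lit 10) (nat_lit 0xf00000001000080000000000000000000000000000000) (nat_lit 0x0) (nat_lit 0xc0007c007e003f00000001c000c00020000000000000000000000000000000) := Q_26 (nat_lit 194) (C_26 L5561 (C_26 L17041 (C_26 L17078 (C_26 L17081 N_26)))) (by decide +kernel)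
theorem L17086 : W_26 (nat_lit 11) (nat_lit 0xe00000001000080000000000000000000000000000000) (nat_lit 0x0) (nat_lit 0xc0007c007e003fc001c001f000c00020000000000000000000000000000000) := Q_26 (nat_lit 176) (C_26 L16977 (C_26 L5750 (C_26 L17082 (C_26 L11372 (C_26 L17085 (C_26 L4774 N_26)))))) (by decide +kernel)
theorem L17087 : W_26 (nat_lit 6) (nat_lit 0xe00000001000080000000000000000000000000000000) (nat_lit 0x0) (nat_lit 0x7b80118001e000000000000000000000000000000000000000) := Q_26 (nat_lit 176) (C_26 L16977 (C_26 L4774 (C_26 L17036 (C_26 L17085 N_26)))) (by decide +kernel)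
theorem L17088 : W_26 (nat_lit 16) (nat_lit 0x600000001000080000000000000000000000000000000) (nat_lit 0x0) (nat_lit 0xc0007e007f03ffc0f9e071f800f8077e039c00000000000000000000000000) := Q_26 (nat_lit 179) (C_26 L16974 (C_26 L16982 (C_26 L17015 (C_26 L17028 (C_26 L17037 (C_26 L17057 (C_26 L17071 (C_26 L17086 (C_26 L17087 N_26))))))))) (by decide +kernel)
theorem L17089 : W_26 (nat_lit 7) (nat_lit 0xe00000001000080000000000000000000000000000000) (nat_lit 0x0) (nat_lit 0x1ce007000720000000000000000000000000000000000000000) := T_26 (nat_lit 194) (nat_lit 161) (nat_lit 5) (nat_lit 8) (nat_lit 7) L17070 (by decide +kernel)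
theorem L17090 : W_26 (nat_lit 8) (nat_lit 0x600000001000080000000000000000000000000000000) (nat_lit 0x0) (nat_lit 0x10000801ffc079c073f000400000000000000000000000000000000000) := Q_26 (nat_lit 179) (C_26 L16982 (C_26 L17087 (C_26 L4870 (C_26 L17089 N_26)))) (by decide +kernel)
theorem L17091 : W_26 (nat_lit 5) (nat_lit 0x600000001000080000000000000000000000000000000) (nat_lit 0x0) (nat_lit 0x20001c000800020000800040002000000000000000000000000000) := T_26 (nat_lit 161) (nat_lit 194) (nat_lit 5) (nat_lit 8) (nat_lit 7) L994 (by decide +kernel)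
theorem L17092 : W_26 (nat_lit 5) (nat_lit 0x10000e00000001000080000000000000000000000000000000) (nat_lit 0x0) (nat_lit 0x2380018000e000000000000000000000000000000000000000) := T_26 (nat_lit 176) (nat_lit 197) (nat_lit 3) (nat_lit 6) (nat_lit 10) L5749 (by decide +kernel)
theorem L17093 : W_26 (nat_lit 6) (nat_lit 0xe00000001000080000000000000000000000000000000) (nat_lit 0x0) (nat_lit 0x3380018002e000000000000000000000000000000000000000) := T_26 (nat_lit 196) (nat_lit 161) (nat_lit 7) (nat_lit 8) (nat_lit 7) L17092 (by decide +kernel)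
theorem L17094 : W_26 (nat_lit 8) (nat_lit 0x600000001000080000000000000000000000000000000) (nat_lit 0x0) (nat_lit 0x100008007780198003e000c00000000000000000000000000000000000) := Q_26 (nat_lit 179) (C_26 L4870 (C_26 L17037 (C_26 L5798 (C_26 L17093 N_26)))) (by decide +kernel)
theorem L17095 : W_26 (nat_lit 6) (nat_lit 0x2000f000280010001c0000000000000000000000000000000) (nat_lit 0x0) (nat_lit 0xe0007000750000000000000000000000000000000000000000) := T_26 (nat_lit 180) (nat_lit 160) (nat_lit 0) (nat_lit 10) (nat_lit 10) L11489 (by decide +kernel)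
theorem L17096 : W_26 (nat_lit 7) (nat_lit 0x2000f000280010000c0000000000000000000000000000000) (nat_lit 0x0) (nat_lit 0xe0007000750000000100008000000000000000000000000000) := T_26 (nat_lit 128) (nat_lit 111) (nat_lit 6) (nat_lit 8) (nat_lit 10) L17095 (by decide +kernel)
theorem L17097 : W_26 (nat_lit 8) (nat_lit 0x2000f000200010000c0000000000000000000000000000000) (nat_lit 0x0) (nat_lit 0xe000700075c000000100008000000000000000000000000000) := T_26 (nat_lit 159) (nat_lit 158) (nat_lit 0) (nat_lit 9) (nat_lit 10) L17096 (by decide +kernel)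
theorem L17098 : W_26 (nat_lit 9) (nat_lit 0xf000200010000c0000000000000000000000000000000) (nat_lit 0x0) (nat_lit 0xe300700075c000000100008000000000000000000000000000) := T_26 (nat_lit 193) (nat_lit 192) (nat_lit 1) (nat_lit 9) (nat_lit 10) L17097 (by decide +kernel)
theorem L17099 : W_26 (nat_lit 10) (nat_lit 0x7000200010000c0000000000000000000000000000000) (nat_lit 0x0) (nat_lit 0xf300780075c000000100008000000000000000000000000000) := T_26 (nat_lit 179) (nat_lit 196) (nat_lit 7) (nat_lit 8) (nat_lit 7) L17098 (by decide +kernel)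
theorem L17100 : W_26 (nat_lit 11) (nat_lit 0x700020001000080000000000000000000000000000000) (nat_lit 0x0) (nat_lit 0xf300780075c00000014000a000000000000000000000000000) := T_26 (nat_lit 126) (nat_lit 109) (nat_lit 4) (nat_lit 8) (nat_lit 10) L17099 (by decide +kernel)
theorem L17101 : W_26 (nat_lit 2) (nat_lit 0x1000f80028001000180000000000000000000000000000000) (nat_lit 0x0) (nat_lit 0x1040010000000000000000000000000000000000000000) := D_26 (nat_lit 160) (nat_lit 180) (nat_lit 174) (nat_lit 0) (nat_lit 10) (nat_lit 10) (nat_lit 2) (nat_lit 4) (nat_lit 10) (by decide +kernel)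
theorem L17102 : W_26 (nat_lit 3) (nat_lit 0x1000f00028001000180000000000000000000000000000000) (nat_lit 0x0) (nat_lit 0x8010c0010000000000000000000000000000000000000000) := T_26 (nat_lit 175) (nat_lit 191) (nat_lit 1) (nat_lit 8) (nat_lit 10) L17101 (by decide +kernel)
theorem L17103 : W_26 (nat_lit 4) (nat_lit 0x1000f00020001000180000000000000000000000000000000) (nat_lit 0x0) (nat_lit 0x8010c001c000000000000000000000000000000000000000) := T_26 (nat_lit 159) (nat_lit 158) (nat_lit 0) (nat_lit 9) (nat_lit 10) L17102 (by decide +kernel)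
theorem L17104 : W_26 (nat_lit 5) (nat_lit 0xf00020001000180000000000000000000000000000000) (nat_lit 0x0) (nat_lit 0x38010c001c000000000000000000000000000000000000000) := T_26 (nat_lit 192) (nat_lit 193) (nat_lit 1) (nat_lit 9) (nat_lit 10) L17103 (by decide +kernel)
theorem L17105 : W_26 (nat_lit 6) (nat_lit 0x700020001000180000000000000000000000000000000) (nat_lit 0x0) (nat_lit 0x138018c001c000000000000000000000000000000000000000) := T_26 (nat_lit 179) (nat_lit 196) (nat_lit 7) (nat_lit 8) (nat_lit 7) L17104 (by decide +kernel)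
theorem L17106 : W_26 (nat_lit 7) (nat_lit 0x700020001000080000000000000000000000000000000) (nat_lit 0x0) (nat_lit 0x138018c001c000000100008000000000000000000000000000) := T_26 (nat_lit 128) (nat_lit 111) (nat_lit 6) (nat_lit 8) (nat_lit 10) L17105 (by decide +kernel)
theorem L17107 : W_26 (nat_lit 12) (nat_lit 0x600020001000080000000000000000000000000000000) (nat_lit 0x0) (nat_lit 0xfbc079c075c00000014000a000000000000000000000000000) := Q_26 (nat_lit 176) (C_26 L11464 (C_26 L17100 (C_26 L4935 (C_26 L4938 (C_26 L17106 N_26))))) (by decide +kernel)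
theorem L17112 : W_26 (nat_lit 2) (nat_lit 0x7c0020001000180000000000000000000000000000000) (nat_lit 0x0) (nat_lit 0x7000000000000000000000000000000000000000) := D_26 (nat_lit 157) (nat_lit 158) (nat_lit 156) (nat_lit 0) (nat_lit 8) (nat_lit 10) (nat_lit 0) (nat_lit 7) (nat_lit 10) (by decide +kernel)
theorem L17113 : W_26 (nat_lit 3) (nat_lit 0x780020001000180000000000000000000000000000000) (nat_lit 0x0) (nat_lit 0x40017000000000000000000000000000000000000000) := T_26 (nat_lit 174) (nat_lit 160) (nat_lit 2) (nat_lit 4) (nat_lit 10) L17112 (by decide +kernel)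
theorem L17114 : W_26 (nat_lit 4) (nat_lit 0x700020001000180000000000000000000000000000000) (nat_lit 0x0) (nat_lit 0xc0057000000000000000000000000000000000000000) := T_26 (nat_lit 175) (nat_lit 162) (nat_lit 2) (nat_lit 5) (nat_lit 10) L17113 (by decide +kernel)
theorem L17115 : W_26 (nat_lit 5) (nat_lit 0x700020001000080000000000000000000000000000000) (nat_lit 0x0) (nat_lit 0xc0057000000100008000000000000000000000000000) := T_26 (nat_lit 128) (nat_lit 111) (nat_lit 6) (nat_lit 8) (nat_lit 10) L17114 (by decide +kernel)
theorem L17116 : W_26 (nat_lit 12) (nat_lit 0x600020001000080000000000000000000000000000000) (nat_lit 0x0) (nat_lit 0xf3c079c075f00000014000a000000000000000000000000000) := Q_26 (nat_lit 176) (C_26 L4938 (C_26 L17106 (C_26 L17111 (C_26 L17100 (C_26 L17115 N_26))))) (by decide +kernel)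
theorem L17117 : W_26 (nat_lit 2) (nat_lit 0x42003f00228001000180000000000000000000000000000000) (nat_lit 0x0) (nat_lit 0x4000440000000000000000000000000000000000000000) := D_26 (nat_lit 182) (nat_lit 162) (nat_lit 166) (nat_lit 0) (nat_lit 12) (nat_lit 10) (nat_lit 2) (nat_lit 9) (nat_lit 10) (by decide +kernel)
theorem L17118 : W_26 (nat_lit 3) (nat_lit 0x42003f00028001000180000000000000000000000000000000) (nat_lit 0x0) (nat_lit 0x4000740000000000000000000000000000000000000000) := T_26 (nat_lit 165) (nat_lit 164) (nat_lit 2) (nat_lit 8) (nat_lit 10) L17117 (by decide +kernel)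
theorem L17119 : W_26 (nat_lit 4) (nat_lit 0x42001f00028001000180000000000000000000000000000000) (nat_lit 0x0) (nat_lit 0x80006000740000000000000000000000000000000000000000) := T_26 (nat_lit 181) (nat_lit 199) (nat_lit 3) (nat_lit 8) (nat_lit 10) L17118 (by decide +kernel)
theorem L17120 : W_26 (nat_lit 5) (nat_lit 0x2001f00028001000180000000000000000000000000000000) (nat_lit 0x0) (nat_lit 0xe0006000740000000000000000000000000000000000000000) := T_26 (nat_lit 198) (nat_lit 197) (nat_lit 3) (nat_lit 7) (nat_lit 10) L17119 (by decide +kernel)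
theorem L17121 : W_26 (nat_lit 6) (nat_lit 0x2000f00028001000180000000000000000000000000000000) (nat_lit 0x0) (nat_lit 0xe0007000750000000000000000000000000000000000000000) := T_26 (nat_lit 180) (nat_lit 160) (nat_lit 0) (nat_lit 10) (nat_lit 10) L17120 (by decide +kernel)
theorem L17122 : W_26 (nat_lit 7) (nat_lit 0x2000f00020001000180000000000000000000000000000000) (nat_lit 0x0) (nat_lit 0xe000700075c000000000000000000000000000000000000000) := T_26 (nat_lit 159) (nat_lit 158) (nat_lit 0) (nat_lit 9) (nat_lit 10) L17121 (by decide +kernel)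
theorem L17123 : W_26 (nat_lit 8) (nat_lit 0xf00020001000180000000000000000000000000000000) (nat_lit 0x0) (nat_lit 0xe300700075c000000000000000000000000000000000000000) := T_26 (nat_lit 193) (nat_lit 192) (nat_lit 1) (nat_lit 9) (nat_lit 10) L17122 (by decide +kernel)
theorem L17124 : W_26 (nat_lit 9) (nat_lit 0x700020001000180000000000000000000000000000000) (nat_lit 0x0) (nat_lit 0xf300780075c000000000000000000000000000000000000000) := T_26 (nat_lit 179) (nat_lit 196) (nat_lit 7) (nat_lit 8) (nat_lit 7) L17123 (by decide +kernel)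
theorem L17125 : W_26 (nat_lit 10) (nat_lit 0x700020001000080000000000000000000000000000000) (nat_lit 0x0) (nat_lit 0xf300780075c000000100008000000000000000000000000000) := T_26 (nat_lit 128) (nat_lit 111) (nat_lit 6) (nat_lit 8) (nat_lit 10) L17124 (by decide +kernel)
theorem L17126 : W_26 (nat_lit 11) (nat_lit 0x600020001000080000000000000000000000000000000) (nat_lit 0x0) (nat_lit 0xfbc079c075f000000100008000000000000000000000000000) := Q_26 (nat_lit 176) (C_26 L17115 (C_26 L4935 (C_26 L4938 (C_26 L17125 (C_26 L17106 N_26))))) (by decide +kernel)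
theorem L17127 : W_26 (nat_lit 13) (nat_lit 0x600000001000080000000000000000000000000000000) (nat_lit 0x0) (nat_lit 0x2000fbc079c077f000e0034000a000000000000000000000000000) := Q_26 (nat_lit 161) (C_26 L4895 (C_26 L17107 (C_26 L994 (C_26 L17116 (C_26 L17126 N_26))))) (by decide +kernel)
theorem L17128 : W_26 (nat_lit 17) (nat_lit 0x200000001000080000000000000000000000000000000) (nat_lit 0x0) (nat_lit 0xc0007e007f03ffc0fde077f800f8077e03bc00000000000000000000000000) := Q_26 (nat_lit 178) (C_26 L17088 (C_26 L4869 (C_26 L17090 (C_26 L17091 (C_26 L17094 (C_26 L4896 (C_26 L17127 N_26))))))) (by decide +kernel)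
theorem L17129 : W_26 (nat_lit 5) (nat_lit 0x80004001e000b00000001000080000000000000000000000000000000) (nat_lit 0x0) (nat_lit 0x28003400780000000000000000000000000000000000000000000000000000) := T_26 (nat_lit 213) (nat_lit 214) (nat_lit 3) (nat_lit 6) (nat_lit 11) L7808 (by decide +kernel)
theorem L17130 : W_26 (nat_lit 6) (nat_lit 0x80004001e000a00000001000080000000000000000000000000000000) (nat_lit 0x0) (nat_lit 0x28003400780000000180000000000000000000000000000000000000000000) := T_26 (nat_lit 176) (nat_lit 175) (nat_lit 0) (nat_lit 9) (nat_lit 11) L17129 (by decide +kernel)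
theorem L17131 : W_26 (nat_lit 7) (nat_lit 0x4001e000a00000001000080000000000000000000000000000000) (nat_lit 0x0) (nat_lit 0x38003c00780000000180000000000000000000000000000000000000000000) := T_26 (nat_lit 227) (nat_lit 244) (nat_lit 6) (nat_lit 6) (nat_lit 14) L17130 (by decide +kernel)
theorem L17132 : W_26 (nat_lit 8) (nat_lit 0x4001e000200000001000080000000000000000000000000000000) (nat_lit 0x0) (nat_lit 0x38003c00780000001980000000000000000000000000000000000000000000) := T_26 (nat_lit 179) (nat_lit 180) (nat_lit 2) (nat_lit 6) (nat_lit 11) L17131 (by decide +kernel)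
theorem L17133 : W_26 (nat_lit 9) (nat_lit 0x1e000200000001000080000000000000000000000000000000) (nat_lit 0x0) (nat_lit 0x38003c007e0000001980000000000000000000000000000000000000000000) := T_26 (nat_lit 210) (nat_lit 209) (nat_lit 1) (nat_lit 9) (nat_lit 11) L17132 (by decide +kernel)
theorem L17134 : W_26 (nat_lit 2) (nat_lit 0x20001f000200000001000080000000000000000000000000000000) (nat_lit 0x0) (nat_lit 0x70000000000000000000000000000000000000000000000000000) := D_26 (nat_lit 209) (nat_lit 210) (nat_lit 208) (nat_lit 1) (nat_lit 9) (nat_lit 11) (nat_lit 1) (nat_lit 8) (nat_lit 11) (by decide +kernel)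
theorem L17135 : W_26 (nat_lit 3) (nat_lit 0x20001e000200000001000080000000000000000000000000000000) (nat_lit 0x0) (nat_lit 0x170001000000000000000000000000000000000000000000000000) := T_26 (nat_lit 192) (nat_lit 212) (nat_lit 3) (nat_lit 5) (nat_lit 11) L17134 (by decide +kernel)
theorem L17136 : W_26 (nat_lit 4) (nat_lit 0x1e000200000001000080000000000000000000000000000000) (nat_lit 0x0) (nat_lit 0x770001000000000000000000000000000000000000000000000000) := T_26 (nat_lit 213) (nat_lit 214) (nat_lit 3) (nat_lit 6) (nat_lit 11) L17135 (by decide +kernel)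
theorem L17137 : W_26 (nat_lit 2) (nat_lit 0x100000000d001f800b00000001000080000000000000000000000000000000) (nat_lit 0x0) (nat_lit 0x20001000000000000000008000000000000000000000000000000000000000) := D_26 (nat_lit 228) (nat_lit 159) (nat_lit 245) (nat_lit 7) (nat_lit 6) (nat_lit 9) (nat_lit 4) (nat_lit 7) (nat_lit 14) (by decide +kernel)
theorem L17138 : W_26 (nat_lit 3) (nat_lit 0x1000000005001f800b00000001000080000000000000000000000000000000) (nat_lit 0x0) (nat_lit 0x20001000180000000000008000000000000000000000000000000000000000) := T_26 (nat_lit 211) (nat_lit 212) (nat_lit 3) (nat_lit 4) (nat_lit 11) L17137 (by decide +kernel)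
theorem L17139 : W_26 (nat_lit 4) (nat_lit 0x1000000004001f800b00000001000080000000000000000000000000000000) (nat_lit 0x0) (nat_lit 0x20001000198000000000008000000000000000000000000000000000000000) := T_26 (nat_lit 208) (nat_lit 207) (nat_lit 1) (nat_lit 7) (nat_lit 11) L17138 (by decide +kernel)
theorem L17140 : W_26 (nat_lit 5) (nat_lit 0x1000000004001f000b00000001000080000000000000000000000000000000) (nat_lit 0x0) (nat_lit 0x20001000198000c00000008000000000000000000000000000000000000000) := T_26 (nat_lit 191) (nat_lit 190) (nat_lit 2) (nat_lit 3) (nat_lit 11) L17139 (by decide +kernel)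
theorem L17141 : W_26 (nat_lit 6) (nat_lit 0x1000000004001f000a00000001000080000000000000000000000000000000) (nat_lit 0x0) (nat_lit 0x20001000198000c00180008000000000000000000000000000000000000000) := T_26 (nat_lit 176) (nat_lit 175) (nat_lit 0) (nat_lit 9) (nat_lit 11) L17140 (by decide +kernel)
theorem L17142 : W_26 (nat_lit 7) (nat_lit 0x4001f000a00000001000080000000000000000000000000000000) (nat_lit 0x0) (nat_lit 0x30001800198000c00180008000000000000000000000000000000000000000) := T_26 (nat_lit 244) (nat_lit 227) (nat_lit 6) (nat_lit 6) (nat_lit 14) L17141 (by decide +kernel)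
theorem L17143 : W_26 (nat_lit 8) (nat_lit 0x4001e000a00000001000080000000000000000000000000000000) (nat_lit 0x0) (nat_lit 0x30001800198001c00580008000000000000000000000000000000000000000) := T_26 (nat_lit 192) (nat_lit 178) (nat_lit 2) (nat_lit 5) (nat_lit 11) L17142 (by decide +kernel)
theorem L17144 : W_26 (nat_lit 9) (nat_lit 0x4001e000200000001000080000000000000000000000000000000) (nat_lit 0x0) (nat_lit 0x30001800198001c01d80008000000000000000000000000000000000000000) := T_26 (nat_lit 179) (nat_lit 180) (nat_lit 2) (nat_lit 6) (nat_lit 11) L17143 (by decide +kernel)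
theorem L17145 : W_26 (nat_lit 10) (nat_lit 0x1e000200000001000080000000000000000000000000000000) (nat_lit 0x0) (nat_lit 0x300018001f8001c01d80008000000000000000000000000000000000000000) := T_26 (nat_lit 210) (nat_lit 209) (nat_lit 1) (nat_lit 9) (nat_lit 11) L17144 (by decide +kernel)
theorem L17146 : W_26 (nat_lit 3) (nat_lit 0x20001e000b00000001000080000000000000000000000000000000) (nat_lit 0x0) (nat_lit 0x70001000400000000000000000000000000000000000000000000) := T_26 (nat_lit 192) (nat_lit 178) (nat_lit 2) (nat_lit 5) (nat_lit 11) L16492 (by decide +kernel)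
theorem L17147 : W_26 (nat_lit 4) (nat_lit 0x20001e000300000001000080000000000000000000000000000000) (nat_lit 0x0) (nat_lit 0x70001001c00000000000000000000000000000000000000000000) := T_26 (nat_lit 179) (nat_lit 180) (nat_lit 2) (nat_lit 6) (nat_lit 11) L17146 (by decide +kernel)
theorem L17148 : W_26 (nat_lit 5) (nat_lit 0x1e000300000001000080000000000000000000000000000000) (nat_lit 0x0) (nat_lit 0x670001001c00000000000000000000000000000000000000000000) := T_26 (nat_lit 213) (nat_lit 214) (nat_lit 3) (nat_lit 6) (nat_lit 11) L17147 (by decide +kernel)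
theorem L17149 : W_26 (nat_lit 6) (nat_lit 0x1e000200000001000080000000000000000000000000000000) (nat_lit 0x0) (nat_lit 0x670001001d80000000000000000000000000000000000000000000) := T_26 (nat_lit 176) (nat_lit 175) (nat_lit 0) (nat_lit 9) (nat_lit 11) L17148 (by decide +kernel)
theorem L17150 : W_26 (nat_lit 11) (nat_lit 0x1c000200000001000080000000000000000000000000000000) (nat_lit 0x0) (nat_lit 0x38003c007f8003c01d80008000000000000000000000000000000000000000) := Q_26 (nat_lit 193) (C_26 L8050 (C_26 L16496 (C_26 L17133 (C_26 L17136 (C_26 L17145 (C_26 L17149 N_26)))))) (by decide +kernel)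
theorem L17151 : W_26 (nat_lit 2) (nat_lit 0x3e001200000001000080000000000000000000000000000000) (nat_lit 0x0) (nat_lit 0xe0000000000000000000000000000000000000000000000000000) := D_26 (nat_lit 210) (nat_lit 209) (nat_lit 211) (nat_lit 1) (nat_lit 9) (nat_lit 11) (nat_lit 1) (nat_lit 10) (nat_lit 11) (by decide +kernel)
theorem L17152 : W_26 (nat_lit 3) (nat_lit 0x3c001200000001000080000000000000000000000000000000) (nat_lit 0x0) (nat_lit 0xe0002000800000000000000000000000000000000000000000000) := T_26 (nat_lit 193) (nat_lit 179) (nat_lit 2) (nat_lit 6) (nat_lit 11) L17151 (by decide +kernel)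
theorem L17153 : W_26 (nat_lit 4) (nat_lit 0x3c000200000001000080000000000000000000000000000000) (nat_lit 0x0) (nat_lit 0xe0002003800000000000000000000000000000000000000000000) := T_26 (nat_lit 180) (nat_lit 181) (nat_lit 2) (nat_lit 7) (nat_lit 11) L17152 (by decide +kernel)
theorem L17154 : W_26 (nat_lit 5) (nat_lit 0x1c000200000001000080000000000000000000000000000000) (nat_lit 0x0) (nat_lit 0x1ee0062003c00000000000000000000000000000000000000000000) := Q_26 (nat_lit 197) (C_26 L7816 (C_26 L7825 (C_26 L17153 N_26))) (by decide +kernel)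
theorem L17155 : W_26 (nat_lit 5) (nat_lit 0x1c000200000001000080000000000000000000000000000000) (nat_lit 0x0) (nat_lit 0xe0022003900000000000000000000000000000000000000000000) := T_26 (nat_lit 197) (nat_lit 176) (nat_lit 0) (nat_lit 10) (nat_lit 11) L17153 (by decide +kernel)
theorem L17156 : W_26 (nat_lit 12) (nat_lit 0x14000200000001000080000000000000000000000000000000) (nat_lit 0x0) (nat_lit 0x38003c01ff806bc03d80008000000000000000000000000000000000000000) := Q_26 (nat_lit 195) (C_26 L17150 (C_26 L7817 (C_26 L17154 (C_26 L17155 N_26)))) (by decide +kernel)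
theorem L17157 : W_26 (nat_lit 9) (nat_lit 0x1c000200000001000080000000000000000000000000000000) (nat_lit 0x0) (nat_lit 0x2000100019800fe01e200f800000000000000000000000000000000000000000000) := Q_26 (nat_lit 197) (C_26 L5043 (C_26 L7825 (C_26 L7831 (C_26 L17153 (C_26 L7838 N_26))))) (by decide +kernel)
theorem L17158 : W_26 (nat_lit 2) (nat_lit 0x30001e000a00000001000080000000000000000000000000000000) (nat_lit 0x0) (nat_lit 0x40002000000000000000040000000000000000000000000000000000000000) := D_26 (nat_lit 229) (nat_lit 246) (nat_lit 162) (nat_lit 6) (nat_lit 8) (nat_lit 14) (nat_lit 5) (nat_lit 9) (nat_lit 9) (by decide +kernel)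
theorem L17159 : W_26 (nat_lit 3) (nat_lit 0x30001e000200000001000080000000000000000000000000000000) (nat_lit 0x0) (nat_lit 0x40002000000000001800040000000000000000000000000000000000000000) := T_26 (nat_lit 179) (nat_lit 180) (nat_lit 2) (nat_lit 6) (nat_lit 11) L17158 (by decide +kernel)
theorem L17160 : W_26 (nat_lit 4) (nat_lit 0x20001e000200000001000080000000000000000000000000000000) (nat_lit 0x0) (nat_lit 0x40002000100001001800040000000000000000000000000000000000000000) := T_26 (nat_lit 212) (nat_lit 192) (nat_lit 3) (nat_lit 5) (nat_lit 11) L17159 (by decide +kernel)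
theorem L17161 : W_26 (nat_lit 5) (nat_lit 0x1e000200000001000080000000000000000000000000000000) (nat_lit 0x0) (nat_lit 0x40002000700001001800040000000000000000000000000000000000000000) := T_26 (nat_lit 213) (nat_lit 214) (nat_lit 3) (nat_lit 6) (nat_lit 11) L17160 (by decide +kernel)
theorem L17162 : W_26 (nat_lit 11) (nat_lit 0x1c000200000001000080000000000000000000000000000000) (nat_lit 0x0) (nat_lit 0x78003c007f000300198004c000600030000000000000000000000000000000) := Q_26 (nat_lit 193) (C_26 L17136 (C_26 L17133 (C_26 L17161 (C_26 L5030 N_26)))) (by decide +kernel)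
theorem L17163 : W_26 (nat_lit 12) (nat_lit 0x14000200000001000080000000000000000000000000000000) (nat_lit 0x0) (nat_lit 0x200017801bc00ff01eb00f98004c000600030000000000000000000000000000000) := Q_26 (nat_lit 195) (C_26 L17155 (C_26 L17157 (C_26 L5061 (C_26 L7840 (C_26 L7855 (C_26 L17162 N_26)))))) (by decide +kernel)
theorem L17166 : W_26 (nat_lit 6) (nat_lit 0x1c000200000001000080000000000000000000000000000000) (nat_lit 0x0) (nat_lit 0x40002000770003001c00060000000000000000000000000000000000000000) := Q_26 (nat_lit 193) (C_26 L17161 (C_26 L5094 (C_26 L17136 (C_26 L17165 N_26)))) (by decide +kernel)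
theorem L17167 : W_26 (nat_lit 11) (nat_lit 0x14000200000001000080000000000000000000000000000000) (nat_lit 0x0) (nat_lit 0x200017001f801ff01eb80fc001e0004000200000000000000000000000000000000) := Q_26 (nat_lit 195) (C_26 L17157 (C_26 L5080 (C_26 L17154 (C_26 L5085 (C_26 L5091 (C_26 L17166 (C_26 L5110 (C_26 L5117 N_26)))))))) (by decide +kernel)
theorem L17168 : W_26 (nat_lit 7) (nat_lit 0x14000600000001000080000000000000000000000000000000) (nat_lit 0x0) (nat_lit 0x50002800e30019001cc004400200000000000000000000000000000000) := Q_26 (nat_lit 179) (C_26 L5149 (C_26 L5150 (C_26 L5155 (C_26 L5159 N_26)))) (by decide +kernel)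
theorem L17169 : W_26 (nat_lit 8) (nat_lit 0x14000200000001000080000000000000000000000000000000) (nat_lit 0x0) (nat_lit 0x50002800e3001d001ec004400200000000000000000000000000000000) := T_26 (nat_lit 178) (nat_lit 161) (nat_lit 5) (nat_lit 8) (nat_lit 7) L17168 (by decide +kernel)
theorem L17170 : W_26 (nat_lit 9) (nat_lit 0x14000200000001000080000000000000000000000000000000) (nat_lit 0x0) (nat_lit 0x40002000ff006b807d001e0004000200000000000000000000000000000000) := Q_26 (nat_lit 195) (C_26 L17166 (C_26 L5117 (C_26 L7840 (C_26 L5061 (C_26 L5091 N_26))))) (by decide +kernel)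
theorem L17171 : W_26 (nat_lit 7) (nat_lit 0x14000200000001000080000000000000000000000000000000) (nat_lit 0x0) (nat_lit 0x40002001f7006b003d00060000000000000000000000000000000000000000) := Q_26 (nat_lit 195) (C_26 L17166 (C_26 L5085 (C_26 L7840 (C_26 L7817 (C_26 L5194 N_26))))) (by decide +kernel)
theorem L17172 : W_26 (nat_lit 6) (nat_lit 0x4001e000300020001000080000000000000000000000000000000) (nat_lit 0x0) (nat_lit 0x38003c00780000000000000000000000000000000000000000000000000000) := T_26 (nat_lit 213) (nat_lit 214) (nat_lit 3) (nat_lit 6) (nat_lit 11) L5172 (by decide +kernel)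
theorem L17173 : W_26 (nat_lit 7) (nat_lit 0x1e000300020001000080000000000000000000000000000000) (nat_lit 0x0) (nat_lit 0x38003c007e0000000000000000000000000000000000000000000000000000) := T_26 (nat_lit 210) (nat_lit 209) (nat_lit 1) (nat_lit 9) (nat_lit 11) L17172 (by decide +kernel)
theorem L17174 : W_26 (nat_lit 8) (nat_lit 0x1e000200020001000080000000000000000000000000000000) (nat_lit 0x0) (nat_lit 0x38003c007e0000000180000000000000000000000000000000000000000000) := T_26 (nat_lit 176) (nat_lit 175) (nat_lit 0) (nat_lit 9) (nat_lit 11) L17173 (by decide +kernel)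
theorem L17175 : W_26 (nat_lit 9) (nat_lit 0x1e000200000001000080000000000000000000000000000000) (nat_lit 0x0) (nat_lit 0x38003c007e0000000580020000000000000000000000000000000000000000) := T_26 (nat_lit 161) (nat_lit 178) (nat_lit 5) (nat_lit 8) (nat_lit 7) L17174 (by decide +kernel)
theorem L17176 : W_26 (nat_lit 2) (nat_lit 0x1f000700000001000080000000000000000000000000000000) (nat_lit 0x0) (nat_lit 0x700000000000000000000000000000000000000000000000000000) := D_26 (nat_lit 213) (nat_lit 214) (nat_lit 212) (nat_lit 3) (nat_lit 6) (nat_lit 11) (nat_lit 3) (nat_lit 5) (nat_lit 11) (by decide +kernel)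
theorem L17177 : W_26 (nat_lit 3) (nat_lit 0x1e000700000001000080000000000000000000000000000000) (nat_lit 0x0) (nat_lit 0x700001800000000000000000000000000000000000000000000000) := T_26 (nat_lit 192) (nat_lit 191) (nat_lit 2) (nat_lit 4) (nat_lit 11) L17176 (by decide +kernel)
theorem L17178 : W_26 (nat_lit 4) (nat_lit 0x1e000600000001000080000000000000000000000000000000) (nat_lit 0x0) (nat_lit 0x700001800180000000000000000000000000000000000000000000) := T_26 (nat_lit 176) (nat_lit 175) (nat_lit 3) (nat_lit 5) (nat_lit 10) L17177 (by decide +kernel)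
theorem L17179 : W_26 (nat_lit 5) (nat_lit 0x1e000200000001000080000000000000000000000000000000) (nat_lit 0x0) (nat_lit 0x700001800580020000000000000000000000000000000000000000) := T_26 (nat_lit 178) (nat_lit 161) (nat_lit 5) (nat_lit 8) (nat_lit 7) L17178 (by decide +kernel)
theorem L17180 : W_26 (nat_lit 10) (nat_lit 0x1c000200000001000080000000000000000000000000000000) (nat_lit 0x0) (nat_lit 0x38003c007f000380058002c000600030000000000000000000000000000000) := Q_26 (nat_lit 193) (C_26 L17136 (C_26 L17175 (C_26 L17179 (C_26 L16611 N_26)))) (by decide +kernel)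
theorem L17181 : W_26 (nat_lit 11) (nat_lit 0x14000200000001000080000000000000000000000000000000) (nat_lit 0x0) (nat_lit 0x78007c00ff006b80758002c000600030000000000000000000000000000000) := Q_26 (nat_lit 195) (C_26 L17180 (C_26 L5194 (C_26 L5080 (C_26 L5061 N_26)))) (by decide +kernel)
theorem L17182 : W_26 (nat_lit 11) (nat_lit 0x16000200000001000080000000000000000000000000000000) (nat_lit 0x0) (nat_lit 0x38001c006e0008001d8006c000600030000000000000000000000000000000) := Q_26 (nat_lit 195) (C_26 L5094 (C_26 L16611 (C_26 L5030 N_26))) (by decide +kernel)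
theorem L17183 : W_26 (nat_lit 11) (nat_lit 0x16000200000001000080000000000000000000000000000000) (nat_lit 0x0) (nat_lit 0x78003c007f000900198004c000600030000000000000000000000000000000) := Q_26 (nat_lit 195) (C_26 L17161 (C_26 L5030 (C_26 L17136 N_26))) (by decide +kernel)
theorem L17184 : W_26 (nat_lit 10) (nat_lit 0x16000200000001000080000000000000000000000000000000) (nat_lit 0x0) (nat_lit 0x300018007f000980058002c000600030000000000000000000000000000000) := Q_26 (nat_lit 195) (C_26 L17136 (C_26 L16611 (C_26 L17179 N_26))) (by decide +kernel)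
theorem L17185 : W_26 (nat_lit 12) (nat_lit 0x14000200000001000080000000000000000000000000000000) (nat_lit 0x0) (nat_lit 0x78003c007f000b801d8006c000600030000000000000000000000000000000) := Q_26 (nat_lit 193) (C_26 L17182 (C_26 L5200 (C_26 L17183 (C_26 L5204 (C_26 L17184 N_26))))) (by decide +kernel)
theorem L17186 : W_26 (nat_lit 11) (nat_lit 0x14000200000001000080000000000000000000000000000000) (nat_lit 0x0) (nat_lit 0x200013801bc00ff006b800d8002c000600030000000000000000000000000000000) := Q_26 (nat_lit 195) (C_26 L17180 (C_26 L5194 (C_26 L5091 (C_26 L7855 N_26)))) (by decide +kernel)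
theorem L17187 : W_26 (nat_lit 11) (nat_lit 0x1c000200000001000080000000000000000000000000000000) (nat_lit 0x0) (nat_lit 0x38001c000e0003001d8002c000600030000000000000000000000000000000) := Q_26 (nat_lit 193) (C_26 L17165 (C_26 L16611 (C_26 L5030 N_26))) (by decide +kernel)
theorem L17188 : W_26 (nat_lit 12) (nat_lit 0x14000200000001000080000000000000000000000000000000) (nat_lit 0x0) (nat_lit 0x138009c00de006b007d8006c000600030000000000000000000000000000000) := Q_26 (nat_lit 195) (C_26 L17187 (C_26 L5194 (C_26 L5110 (C_26 L5061 N_26)))) (by decide +kernel)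
theorem L17189 : W_26 (nat_lit 13) (nat_lit 0x4000200000001000080000000000000000000000000000000) (nat_lit 0x0) (nat_lit 0x200017801fc07ff81fbc0fd801ec004600230000000000000000000000000000000) := Q_26 (nat_lit 196) (C_26 L17156 (C_26 L17163 (C_26 L17167 (C_26 L5143 (C_26 L17169 (C_26 L17170 (C_26 L17171 (C_26 L17181 (C_26 L17185 (C_26 L17186 (C_26 L17188 N_26))))))))))) (by decide +kernel)
theorem L17190 : W_26 (nat_lit 12) (nat_lit 0xc000200000001000080000000000000000000000000000000) (nat_lit 0x0) (nat_lit 0x200017801bc00ff01f300f98004c000600030000000000000000000000000000000) := Q_26 (nat_lit 196) (C_26 L17157 (C_26 L17162 (C_26 L5061 (C_26 L7840 (C_26 L7855 (C_26 L17155 N_26)))))) (by decide +kernel)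
theorem L17197 : W_26 (nat_lit 2) (nat_lit 0x2000f800200000001000080000000000000000000000000000000) (nat_lit 0x0) (nat_lit 0x380000000000000000000000000000000000000000000000000000) := D_26 (nat_lit 212) (nat_lit 213) (nat_lit 211) (nat_lit 3) (nat_lit 5) (nat_lit 11) (nat_lit 3) (nat_lit 4) (nat_lit 11) (by decide +kernel)
theorem L17198 : W_26 (nat_lit 3) (nat_lit 0x2000f000200000001000080000000000000000000000000000000) (nat_lit 0x0) (nat_lit 0x380000800400000000000000000000000000000000000000000000) := T_26 (nat_lit 191) (nat_lit 178) (nat_lit 2) (nat_lit 4) (nat_lit 11) L17197 (by decide +kernel)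
theorem L17199 : W_26 (nat_lit 4) (nat_lit 0xf000200000001000080000000000000000000000000000000) (nat_lit 0x0) (nat_lit 0x3b0000800400000000000000000000000000000000000000000000) := T_26 (nat_lit 209) (nat_lit 208) (nat_lit 1) (nat_lit 8) (nat_lit 11) L17198 (by decide +kernel)
theorem L17200 : W_26 (nat_lit 2) (nat_lit 0x2001f000600000001000080000000000000000000000000000000) (nat_lit 0x0) (nat_lit 0x700000000000000000000000000000000000000000000000000000) := D_26 (nat_lit 213) (nat_lit 212) (nat_lit 214) (nat_lit 3) (nat_lit 5) (nat_lit 11) (nat_lit 3) (nat_lit 6) (nat_lit 11) (by decide +kernel)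
theorem L17201 : W_26 (nat_lit 3) (nat_lit 0x2000f000600000001000080000000000000000000000000000000) (nat_lit 0x0) (nat_lit 0x740010000000000000000000000000000000000000000000000000) := T_26 (nat_lit 196) (nat_lit 210) (nat_lit 1) (nat_lit 9) (nat_lit 11) L17200 (by decide +kernel)
theorem L17202 : W_26 (nat_lit 4) (nat_lit 0x2000f000200000001000080000000000000000000000000000000) (nat_lit 0x0) (nat_lit 0x740010000c00000000000000000000000000000000000000000000) := T_26 (nat_lit 178) (nat_lit 179) (nat_lit 2) (nat_lit 5) (nat_lit 11) L17201 (by decide +kernel)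
theorem L17203 : W_26 (nat_lit 5) (nat_lit 0xf000200000001000080000000000000000000000000000000) (nat_lit 0x0) (nat_lit 0x770010000c00000000000000000000000000000000000000000000) := T_26 (nat_lit 209) (nat_lit 208) (nat_lit 1) (nat_lit 8) (nat_lit 11) L17202 (by decide +kernel)
theorem L17204 : W_26 (nat_lit 8) (nat_lit 0xe000200000001000080000000000000000000000000000000) (nat_lit 0x0) (nat_lit 0x7f0071803c00000000000000000000000000000000000000000000) := Q_26 (nat_lit 192) (C_26 L5213 (C_26 L17196 (C_26 L17199 (C_26 L17203 N_26)))) (by decide +kernel)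
theorem L17205 : W_26 (nat_lit 2) (nat_lit 0x10000f000200010001000080000000000000000000000000000000) (nat_lit 0x0) (nat_lit 0x2000080000800000000000000000000000000000000000000000000000) := D_26 (nat_lit 211) (nat_lit 191) (nat_lit 229) (nat_lit 3) (nat_lit 4) (nat_lit 11) (nat_lit 7) (nat_lit 7) (nat_lit 9) (by decide +kernel)
theorem L17206 : W_26 (nat_lit 3) (nat_lit 0xf000200010001000080000000000000000000000000000000) (nat_lit 0x0) (nat_lit 0x2000380000800000000000000000000000000000000000000000000000) := T_26 (nat_lit 212) (nat_lit 213) (nat_lit 3) (nat_lit 5) (nat_lit 11) L17205 (by decide +kernel)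
theorem L17207 : W_26 (nat_lit 4) (nat_lit 0xf000200000001000080000000000000000000000000000000) (nat_lit 0x0) (nat_lit 0x2000380000800000010000800000000000000000000000000000000000) := T_26 (nat_lit 160) (nat_lit 143) (nat_lit 6) (nat_lit 7) (nat_lit 11) L17206 (by decide +kernel)
theorem L17208 : W_26 (nat_lit 6) (nat_lit 0xe000200000001000080000000000000000000000000000000) (nat_lit 0x0) (nat_lit 0x20007f0011800c00010000800000000000000000000000000000000000) := Q_26 (nat_lit 192) (C_26 L17203 (C_26 L17207 (C_26 L5213 N_26))) (by decide +kernel)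
theorem L17209 : W_26 (nat_lit 8) (nat_lit 0xe000200000001000080000000000000000000000000000000) (nat_lit 0x0) (nat_lit 0x50002800fe0031001800050000800000000000000000000000000000000000) := Q_26 (nat_lit 210) (C_26 L5231 (C_26 L5229 (C_26 L7988 N_26))) (by decide +kernel)
theorem L17210 : W_26 (nat_lit 5) (nat_lit 0xe000200000001000080000000000000000000000000000000) (nat_lit 0x0) (nat_lit 0x400020003b0001800c00010000800000000000000000000000000000000000) := Q_26 (nat_lit 192) (C_26 L17207 (C_26 L17199 (C_26 L5213 (C_26 L5280 N_26)))) (by decide +kernel)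
theorem L17228 : W_26 (nat_lit 4) (nat_lit 0x20001e000a00000001000080000000000000000000000000000000) (nat_lit 0x0) (nat_lit 0x100008000e0000000000010000800000000000000000000000000000000000) := T_26 (nat_lit 160) (nat_lit 143) (nat_lit 6) (nat_lit 7) (nat_lit 11) L7996 (by decide +kernel)
theorem L17229 : W_26 (nat_lit 5) (nat_lit 0x20001e000200000001000080000000000000000000000000000000) (nat_lit 0x0) (nat_lit 0x100008000e0000001800010000800000000000000000000000000000000000) := T_26 (nat_lit 179) (nat_lit 180) (nat_lit 2) (nat_lit 6) (nat_lit 11) L17228 (by decide +kernel)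
theorem L17230 : W_26 (nat_lit 6) (nat_lit 0x1e000200000001000080000000000000000000000000000000) (nat_lit 0x0) (nat_lit 0x100008006e0000001800010000800000000000000000000000000000000000) := T_26 (nat_lit 213) (nat_lit 214) (nat_lit 3) (nat_lit 6) (nat_lit 11) L17229 (by decide +kernel)
theorem L17231 : W_26 (nat_lit 2) (nat_lit 0x28003e001200010001000080000000000000000000000000000000) (nat_lit 0x0) (nat_lit 0x100040000400000000000000000000000000000000000000000000) := D_26 (nat_lit 198) (nat_lit 178) (nat_lit 212) (nat_lit 0) (nat_lit 11) (nat_lit 11) (nat_lit 1) (nat_lit 11) (nat_lit 11) (by decide +kernel)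
theorem L17232 : W_26 (nat_lit 3) (nat_lit 0x20003e001200010001000080000000000000000000000000000000) (nat_lit 0x0) (nat_lit 0x1c0040000400000000000000000000000000000000000000000000) := T_26 (nat_lit 211) (nat_lit 210) (nat_lit 1) (nat_lit 10) (nat_lit 11) L17231 (by decide +kernel)
theorem L17233 : W_26 (nat_lit 4) (nat_lit 0x20001e001200010001000080000000000000000000000000000000) (nat_lit 0x0) (nat_lit 0x1c0060002400000000000000000000000000000000000000000000) := T_26 (nat_lit 197) (nat_lit 181) (nat_lit 2) (nat_lit 7) (nat_lit 11) L17232 (by decide +kernel)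
theorem L17234 : W_26 (nat_lit 5) (nat_lit 0x20001e001200000001000080000000000000000000000000000000) (nat_lit 0x0) (nat_lit 0x1c0060002400010000800000000000000000000000000000000000) := T_26 (nat_lit 160) (nat_lit 143) (nat_lit 6) (nat_lit 7) (nat_lit 11) L17233 (by decide +kernel)
theorem L17235 : W_26 (nat_lit 6) (nat_lit 0x20001e000200000001000080000000000000000000000000000000) (nat_lit 0x0) (nat_lit 0x1c0060003c00010000800000000000000000000000000000000000) := T_26 (nat_lit 180) (nat_lit 179) (nat_lit 2) (nat_lit 6) (nat_lit 11) L17234 (by decide +kernel)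
theorem L17236 : W_26 (nat_lit 7) (nat_lit 0x1e000200000001000080000000000000000000000000000000) (nat_lit 0x0) (nat_lit 0x7c0060003c00010000800000000000000000000000000000000000) := T_26 (nat_lit 213) (nat_lit 214) (nat_lit 3) (nat_lit 6) (nat_lit 11) L17235 (by decide +kernel)
theorem L17237 : W_26 (nat_lit 2) (nat_lit 0x20007e001200000001000080000000000000000000000000000000) (nat_lit 0x0) (nat_lit 0x180080000000000000000000000000000000000000000000000000) := D_26 (nat_lit 212) (nat_lit 211) (nat_lit 199) (nat_lit 1) (nat_lit 11) (nat_lit 11) (nat_lit 1) (nat_lit 12) (nat_lit 11) (by decide +kernel)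
theorem L17238 : W_26 (nat_lit 3) (nat_lit 0x20003e001200000001000080000000000000000000000000000000) (nat_lit 0x0) (nat_lit 0x1800c0000400000000000000000000000000000000000000000000) := T_26 (nat_lit 198) (nat_lit 178) (nat_lit 0) (nat_lit 11) (nat_lit 11) L17237 (by decide +kernel)
theorem L17239 : W_26 (nat_lit 4) (nat_lit 0x20001e001200000001000080000000000000000000000000000000) (nat_lit 0x0) (nat_lit 0x1800e0002400000000000000000000000000000000000000000000) := T_26 (nat_lit 197) (nat_lit 181) (nat_lit 2) (nat_lit 7) (nat_lit 11) L17238 (by decide +kernel)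
theorem L17240 : W_26 (nat_lit 5) (nat_lit 0x1e001200000001000080000000000000000000000000000000) (nat_lit 0x0) (nat_lit 0x7800e0002400000000000000000000000000000000000000000000) := T_26 (nat_lit 213) (nat_lit 214) (nat_lit 3) (nat_lit 6) (nat_lit 11) L17239 (by decide +kernel)
theorem L17241 : W_26 (nat_lit 6) (nat_lit 0x1e000200000001000080000000000000000000000000000000) (nat_lit 0x0) (nat_lit 0x7800e0003c00000000000000000000000000000000000000000000) := T_26 (nat_lit 180) (nat_lit 179) (nat_lit 2) (nat_lit 6) (nat_lit 11) L17240 (by decide +kernel)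
theorem L17242 : W_26 (nat_lit 12) (nat_lit 0xe000200000001000080000000000000000000000000000000) (nat_lit 0x0) (nat_lit 0x90004803fe00f0003c00010000800000000000000000000000000000000000) := Q_26 (nat_lit 196) (C_26 L17215 (C_26 L17220 (C_26 L17224 (C_26 L17227 (C_26 L17230 (C_26 L17236 (C_26 L17241 N_26))))))) (by decide +kernel)
theorem L17243 : W_26 (nat_lit 2) (nat_lit 0x22000f000200010001000080000000000000000000000000000000) (nat_lit 0x0) (nat_lit 0x440010000000000000000000000000000000000000000000000000) := D_26 (nat_lit 196) (nat_lit 214) (nat_lit 210) (nat_lit 3) (nat_lit 6) (nat_lit 11) (nat_lit 1) (nat_lit 9) (nat_lit 11) (by decide +kernel)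
theorem L17244 : W_26 (nat_lit 3) (nat_lit 0x20000f000200010001000080000000000000000000000000000000) (nat_lit 0x0) (nat_lit 0x470010000000000000000000000000000000000000000000000000) := T_26 (nat_lit 209) (nat_lit 208) (nat_lit 1) (nat_lit 8) (nat_lit 11) L17243 (by decide +kernel)
theorem L17245 : W_26 (nat_lit 4) (nat_lit 0xf000200010001000080000000000000000000000000000000) (nat_lit 0x0) (nat_lit 0x770010000000000000000000000000000000000000000000000000) := T_26 (nat_lit 213) (nat_lit 212) (nat_lit 3) (nat_lit 5) (nat_lit 11) L17244 (by decide +kernel)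
theorem L17246 : W_26 (nat_lit 5) (nat_lit 0xf000200000001000080000000000000000000000000000000) (nat_lit 0x0) (nat_lit 0x770010000000010000800000000000000000000000000000000000) := T_26 (nat_lit 160) (nat_lit 143) (nat_lit 6) (nat_lit 7) (nat_lit 11) L17245 (by decide +kernel)
theorem L17247 : W_26 (nat_lit 6) (nat_lit 0xe000200000001000080000000000000000000000000000000) (nat_lit 0x0) (nat_lit 0x40002000770011800c00010000800000000000000000000000000000000000) := Q_26 (nat_lit 192) (C_26 L5280 (C_26 L17246 (C_26 L17203 (C_26 L5213 N_26)))) (by decide +kernel)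
theorem L17249 : W_26 (nat_lit 3) (nat_lit 0x10000f000200000001000080000000000000000000000000000000) (nat_lit 0x0) (nat_lit 0x38000800400000000000000000000000000000000000000000000) := T_26 (nat_lit 191) (nat_lit 178) (nat_lit 2) (nat_lit 4) (nat_lit 11) L17248 (by decide +kernel)
theorem L17250 : W_26 (nat_lit 4) (nat_lit 0x10000e000200000001000080000000000000000000000000000000) (nat_lit 0x0) (nat_lit 0x238001800400000000000000000000000000000000000000000000) := T_26 (nat_lit 192) (nat_lit 213) (nat_lit 3) (nat_lit 5) (nat_lit 11) L17249 (by decide +kernel)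
theorem L17251 : W_26 (nat_lit 5) (nat_lit 0xe000200000001000080000000000000000000000000000000) (nat_lit 0x0) (nat_lit 0x400020003b8001800400010000800000000000000000000000000000000000) := Q_26 (nat_lit 212) (C_26 L16623 (C_26 L16626 (C_26 L17250 N_26))) (by decide +kernel)
theorem L17252 : W_26 (nat_lit 5) (nat_lit 0xe000200000001000080000000000000000000000000000000) (nat_lit 0x0) (nat_lit 0x40002000380001800c00010000800000000000000000000000000000000000) := Q_26 (nat_lit 192) (C_26 L5280 (C_26 L17207 (C_26 L5213 N_26))) (by decide +kernel)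
theorem L17253 : W_26 (nat_lit 2) (nat_lit 0x1000000004003e000200000001000080000000000000000000000000000000) (nat_lit 0x0) (nat_lit 0x3800000000000000000000000000000000000000000000) := D_26 (nat_lit 180) (nat_lit 179) (nat_lit 181) (nat_lit 2) (nat_lit 6) (nat_lit 11) (nat_lit 2) (nat_lit 7) (nat_lit 11) (by decide +kernel)
theorem L17254 : W_26 (nat_lit 3) (nat_lit 0x1000000004001e000200000001000080000000000000000000000000000000) (nat_lit 0x0) (nat_lit 0x80020003800000000000000000000000000000000000000000000) := T_26 (nat_lit 197) (nat_lit 211) (nat_lit 1) (nat_lit 10) (nat_lit 11) L17253 (by decide +kernel)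
theorem L17255 : W_26 (nat_lit 4) (nat_lit 0x1000000004000e000200000001000080000000000000000000000000000000) (nat_lit 0x0) (nat_lit 0xa0030003800000000000000000000000000000000000000000000) := T_26 (nat_lit 196) (nat_lit 209) (nat_lit 1) (nat_lit 9) (nat_lit 11) L17254 (by decide +kernel)
theorem L17256 : W_26 (nat_lit 5) (nat_lit 0x4000e000200000001000080000000000000000000000000000000) (nat_lit 0x0) (nat_lit 0x100008000a0030003800000000000000000000000000000000000000000000) := T_26 (nat_lit 244) (nat_lit 227) (nat_lit 6) (nat_lit 6) (nat_lit 14) L17255 (by decide +kernel)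
theorem L17264 : W_26 (nat_lit 3) (nat_lit 0x4001e000200000001000080000000000000000000000000000000) (nat_lit 0x0) (nat_lit 0x800080020000000010000800000000000000000000000000000000000) := T_26 (nat_lit 160) (nat_lit 143) (nat_lit 6) (nat_lit 7) (nat_lit 11) L17225 (by decide +kernel)
theorem L17265 : W_26 (nat_lit 4) (nat_lit 0x4000e000200000001000080000000000000000000000000000000) (nat_lit 0x0) (nat_lit 0x8000a0030000000010000800000000000000000000000000000000000) := T_26 (nat_lit 196) (nat_lit 209) (nat_lit 1) (nat_lit 9) (nat_lit 11) L17264 (by decide +kernel)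
theorem L17266 : W_26 (nat_lit 2) (nat_lit 0x4003e000200000001800080000000000000000000000000000000) (nat_lit 0x0) (nat_lit 0x3800000000000000000000000000000000000000000000) := D_26 (nat_lit 180) (nat_lit 179) (nat_lit 181) (nat_lit 2) (nat_lit 6) (nat_lit 11) (nat_lit 2) (nat_lit 7) (nat_lit 11) (by decide +kernel)
theorem L17267 : W_26 (nat_lit 3) (nat_lit 0x4001e000200000001800080000000000000000000000000000000) (nat_lit 0x0) (nat_lit 0x80020003800000000000000000000000000000000000000000000) := T_26 (nat_lit 197) (nat_lit 211) (nat_lit 1) (nat_lit 10) (nat_lit 11) L17266 (by decide +kernel)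
theorem L17268 : W_26 (nat_lit 4) (nat_lit 0x4000e000200000001800080000000000000000000000000000000) (nat_lit 0x0) (nat_lit 0xa0030003800000000000000000000000000000000000000000000) := T_26 (nat_lit 196) (nat_lit 209) (nat_lit 1) (nat_lit 9) (nat_lit 11) L17267 (by decide +kernel)
theorem L17269 : W_26 (nat_lit 5) (nat_lit 0x4000e000200000001000080000000000000000000000000000000) (nat_lit 0x0) (nat_lit 0xa0030003800010000800000000000000000000000000000000000) := T_26 (nat_lit 143) (nat_lit 160) (nat_lit 6) (nat_lit 7) (nat_lit 11) L17268 (by decide +kernel)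
theorem L17270 : W_26 (nat_lit 9) (nat_lit 0xe000200000001000080000000000000000000000000000000) (nat_lit 0x0) (nat_lit 0x10000801ce0070003c00010000800000000000000000000000000000000000) := Q_26 (nat_lit 210) (C_26 L5231 (C_26 L17256 (C_26 L17263 (C_26 L17265 (C_26 L17269 N_26))))) (by decide +kernel)
theorem L17271 : W_26 (nat_lit 13) (nat_lit 0xc000200000001000080000000000000000000000000000000) (nat_lit 0x0) (nat_lit 0xd0006803ff80f3803c00050000800000000000000000000000000000000000) := Q_26 (nat_lit 193) (C_26 L17204 (C_26 L17208 (C_26 L17209 (C_26 L17210 (C_26 L17242 (C_26 L17247 (C_26 L17251 (C_26 L17252 (C_26 L17270 N_26))))))))) (by decide +kernel)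
theorem L17272 : W_26 (nat_lit 2) (nat_lit 0x1c000c000200018001000080000000000000000000000000000000) (nat_lit 0x0) (nat_lit 0x30010000000000000000000000000000000000000000000000000) := D_26 (nat_lit 209) (nat_lit 196) (nat_lit 208) (nat_lit 2) (nat_lit 5) (nat_lit 12) (nat_lit 2) (nat_lit 4) (nat_lit 12) (by decide +kernel)
theorem L17273 : W_26 (nat_lit 3) (nat_lit 0x18000c000200018001000080000000000000000000000000000000) (nat_lit 0x0) (nat_lit 0x800070010000000000000000000000000000000000000000000000000) := T_26 (nat_lit 210) (nat_lit 227) (nat_lit 5) (nat_lit 7) (nat_lit 9) L17272 (by decide +kernel)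
theorem L17274 : W_26 (nat_lit 4) (nat_lit 0x8000c000200018001000080000000000000000000000000000000) (nat_lit 0x0) (nat_lit 0x2800170010000000000000000000000000000000000000000000000000) := T_26 (nat_lit 212) (nat_lit 229) (nat_lit 7) (nat_lit 7) (nat_lit 9) L17273 (by decide +kernel)
theorem L17275 : W_26 (nat_lit 5) (nat_lit 0x8000c000200010001000080000000000000000000000000000000) (nat_lit 0x0) (nat_lit 0x2800170010000000008000400000000000000000000000000000000000) := T_26 (nat_lit 159) (nat_lit 142) (nat_lit 4) (nat_lit 7) (nat_lit 12) L17274 (by decide +kernel)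
theorem L17276 : W_26 (nat_lit 2) (nat_lit 0xe000c000200010001000080000000000000000000000000000000) (nat_lit 0x0) (nat_lit 0x100030000000000000000000000000000000000000000000000000) := D_26 (nat_lit 196) (nat_lit 197) (nat_lit 212) (nat_lit 1) (nat_lit 10) (nat_lit 11) (nat_lit 2) (nat_lit 5) (nat_lit 12) (by decide +kernel)
theorem L17277 : W_26 (nat_lit 3) (nat_lit 0xc000c000200010001000080000000000000000000000000000000) (nat_lit 0x0) (nat_lit 0x130030000000000000000000000000000000000000000000000000) := T_26 (nat_lit 209) (nat_lit 208) (nat_lit 2) (nat_lit 4) (nat_lit 12) L17276 (by decide +kernel)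
theorem L17278 : W_26 (nat_lit 4) (nat_lit 0x8000c000200010001000080000000000000000000000000000000) (nat_lit 0x0) (nat_lit 0x800170030000000000000000000000000000000000000000000000000) := T_26 (nat_lit 210) (nat_lit 227) (nat_lit 5) (nat_lit 7) (nat_lit 9) L17277 (by decide +kernel)
theorem L17279 : W_26 (nat_lit 2) (nat_lit 0x10001d000c000200018001000080000000000000000000000000000000) (nat_lit 0x0) (nat_lit 0x400020000000000000000400000000000000000000000000000000000000000000) := D_26 (nat_lit 245) (nat_lit 178) (nat_lit 262) (nat_lit 6) (nat_lit 7) (nat_lit 14) (nat_lit 6) (nat_lit 7) (nat_lit 15) (by decide +kernel)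
theorem L17280 : W_26 (nat_lit 3) (nat_lit 0x1d000c000200018001000080000000000000000000000000000000) (nat_lit 0x0) (nat_lit 0x400020001000000000000500000000000000000000000000000000000000000000) := T_26 (nat_lit 228) (nat_lit 176) (nat_lit 4) (nat_lit 7) (nat_lit 13) L17279 (by decide +kernel)
theorem L17281 : W_26 (nat_lit 4) (nat_lit 0x1c000c000200018001000080000000000000000000000000000000) (nat_lit 0x0) (nat_lit 0x400020001000030000000500000000000000000000000000000000000000000000) := T_26 (nat_lit 208) (nat_lit 209) (nat_lit 2) (nat_lit 4) (nat_lit 12) L17280 (by decide +kernel)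
theorem L17282 : W_26 (nat_lit 5) (nat_lit 0x18000c000200018001000080000000000000000000000000000000) (nat_lit 0x0) (nat_lit 0x400020001800070000000500000000000000000000000000000000000000000000) := T_26 (nat_lit 210) (nat_lit 227) (nat_lit 5) (nat_lit 7) (nat_lit 9) L17281 (by decide +kernel)
theorem L17283 : W_26 (nat_lit 6) (nat_lit 0x18000c000200010001000080000000000000000000000000000000) (nat_lit 0x0) (nat_lit 0x400020001800070000000500008000400000000000000000000000000000000000) := T_26 (nat_lit 159) (nat_lit 142) (nat_lit 4) (nat_lit 7) (nat_lit 12) L17282 (by decide +kernel)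
theorem L17284 : W_26 (nat_lit 7) (nat_lit 0x8000c000200010001000080000000000000000000000000000000) (nat_lit 0x0) (nat_lit 0x400020003800170000000500008000400000000000000000000000000000000000) := T_26 (nat_lit 212) (nat_lit 229) (nat_lit 7) (nat_lit 7) (nat_lit 9) L17283 (by decide +kernel)
theorem L17287 : W_26 (nat_lit 2) (nat_lit 0x200010000d002c000200018001000080000000000000000000000000000000) (nat_lit 0x0) (nat_lit 0x800040002000000000000000000000000000000000000000000000000000000000) := D_26 (nat_lit 246) (nat_lit 229) (nat_lit 263) (nat_lit 7) (nat_lit 7) (nat_lit 10) (nat_lit 7) (nat_lit 7) (nat_lit 11) (by decide +kernel)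
theorem L17288 : W_26 (nat_lit 3) (nat_lit 0x10000d002c000200018001000080000000000000000000000000000000) (nat_lit 0x0) (nat_lit 0x800060002000000000000400000000000000000000000000000000000000000000) := T_26 (nat_lit 245) (nat_lit 178) (nat_lit 6) (nat_lit 7) (nat_lit 14) L17287 (by decide +kernel)
theorem L17289 : W_26 (nat_lit 4) (nat_lit 0xd002c000200018001000080000000000000000000000000000000) (nat_lit 0x0) (nat_lit 0x800060003000000000000500000000000000000000000000000000000000000000) := T_26 (nat_lit 228) (nat_lit 176) (nat_lit 4) (nat_lit 7) (nat_lit 13) L17288 (by decide +kernel)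
theorem L17290 : W_26 (nat_lit 5) (nat_lit 0xd000c000200018001000080000000000000000000000000000000) (nat_lit 0x0) (nat_lit 0x800060003000000030000500000000000000000000000000000000000000000000) := T_26 (nat_lit 197) (nat_lit 196) (nat_lit 1) (nat_lit 10) (nat_lit 11) L17289 (by decide +kernel)
theorem L17291 : W_26 (nat_lit 6) (nat_lit 0xc000c000200018001000080000000000000000000000000000000) (nat_lit 0x0) (nat_lit 0x800060003000030030000500000000000000000000000000000000000000000000) := T_26 (nat_lit 208) (nat_lit 209) (nat_lit 2) (nat_lit 4) (nat_lit 12) L17290 (by decide +kernel)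
theorem L17292 : W_26 (nat_lit 7) (nat_lit 0x8000c000200018001000080000000000000000000000000000000) (nat_lit 0x0) (nat_lit 0x800060003800070030000500000000000000000000000000000000000000000000) := T_26 (nat_lit 210) (nat_lit 227) (nat_lit 5) (nat_lit 7) (nat_lit 9) L17291 (by decide +kernel)
theorem L17293 : W_26 (nat_lit 8) (nat_lit 0x8000c000200010001000080000000000000000000000000000000) (nat_lit 0x0) (nat_lit 0x800060003800070030000500008000400000000000000000000000000000000000) := T_26 (nat_lit 159) (nat_lit 142) (nat_lit 4) (nat_lit 7) (nat_lit 12) L17292 (by decide +kernel)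
theorem L17294 : W_26 (nat_lit 9) (nat_lit 0xc000200010001000080000000000000000000000000000000) (nat_lit 0x0) (nat_lit 0xc000700038001f0030000500008000400000000000000000000000000000000000) := Q_26 (nat_lit 211) (C_26 L17275 (C_26 L17278 (C_26 L17284 (C_26 L5425 (C_26 L17286 (C_26 L17293 N_26)))))) (by decide +kernel)
theorem L17295 : W_26 (nat_lit 10) (nat_lit 0xc000200000001000080000000000000000000000000000000) (nat_lit 0x0) (nat_lit 0xc000700038001f0030000500018000c00000000000000000000000000000000000) := T_26 (nat_lit 160) (nat_lit 143) (nat_lit 6) (nat_lit 7) (nat_lit 11) L17294 (by decide +kernel)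
theorem L17296 : W_26 (nat_lit 2) (nat_lit 0x4007e000d000200018001000080000000000000000000000000000000) (nat_lit 0x0) (nat_lit 0x1c000000000000000000000000000000000000000000000000000000000) := D_26 (nat_lit 231) (nat_lit 230) (nat_lit 232) (nat_lit 3) (nat_lit 6) (nat_lit 12) (nat_lit 3) (nat_lit 7) (nat_lit 12) (by decide +kernel)
theorem L17297 : W_26 (nat_lit 3) (nat_lit 0x4003e000d000200018001000080000000000000000000000000000000) (nat_lit 0x0) (nat_lit 0x1c000c00000000000000000000000000000000000000000000000000000) := T_26 (nat_lit 214) (nat_lit 215) (nat_lit 0) (nat_lit 11) (nat_lit 12) L17296 (by decide +kernel)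
theorem L17298 : W_26 (nat_lit 4) (nat_lit 0x4001e000d000200018001000080000000000000000000000000000000) (nat_lit 0x0) (nat_lit 0x1c000e00002000000000000000000000000000000000000000000000000) := T_26 (nat_lit 213) (nat_lit 193) (nat_lit 3) (nat_lit 5) (nat_lit 11) L17297 (by decide +kernel)
theorem L17299 : W_26 (nat_lit 5) (nat_lit 0x4001e000c000200018001000080000000000000000000000000000000) (nat_lit 0x0) (nat_lit 0x1c000e00003800000000000000000000000000000000000000000000000) := T_26 (nat_lit 192) (nat_lit 191) (nat_lit 0) (nat_lit 8) (nat_lit 12) L17298 (by decide +kernel)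
theorem L17300 : W_26 (nat_lit 6) (nat_lit 0x1e000c000200018001000080000000000000000000000000000000) (nat_lit 0x0) (nat_lit 0x1c600e00003800000000000000000000000000000000000000000000000) := T_26 (nat_lit 226) (nat_lit 225) (nat_lit 1) (nat_lit 8) (nat_lit 12) L17299 (by decide +kernel)
theorem L17301 : W_26 (nat_lit 7) (nat_lit 0x1c000c000200018001000080000000000000000000000000000000) (nat_lit 0x0) (nat_lit 0x1c600e30003800000000000000000000000000000000000000000000000) := T_26 (nat_lit 209) (nat_lit 208) (nat_lit 2) (nat_lit 4) (nat_lit 12) L17300 (by decide +kernel)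
theorem L17302 : W_26 (nat_lit 8) (nat_lit 0x18000c000200018001000080000000000000000000000000000000) (nat_lit 0x0) (nat_lit 0x1ce00e70003800000000000000000000000000000000000000000000000) := T_26 (nat_lit 210) (nat_lit 227) (nat_lit 5) (nat_lit 7) (nat_lit 9) L17301 (by decide +kernel)
theorem L17303 : W_26 (nat_lit 9) (nat_lit 0x8000c000200018001000080000000000000000000000000000000) (nat_lit 0x0) (nat_lit 0x1ee00f70003800000000000000000000000000000000000000000000000) := T_26 (nat_lit 212) (nat_lit 229) (nat_lit 7) (nat_lit 7) (nat_lit 9) L17302 (by decide +kernel)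
theorem L17304 : W_26 (nat_lit 10) (nat_lit 0x8000c000200010001000080000000000000000000000000000000) (nat_lit 0x0) (nat_lit 0x1ee00f70003800000008000400000000000000000000000000000000000) := T_26 (nat_lit 159) (nat_lit 142) (nat_lit 4) (nat_lit 7) (nat_lit 12) L17303 (by decide +kernel)
theorem L17305 : W_26 (nat_lit 2) (nat_lit 0x200030000d000c000200010001000080000000000000000000000000000000) (nat_lit 0x0) (nat_lit 0x400000000000000002000100000000000000000000000000000000000000000000) := D_26 (nat_lit 193) (nat_lit 176) (nat_lit 262) (nat_lit 4) (nat_lit 7) (nat_lit 14) (nat_lit 4) (nat_lit 7) (nat_lit 15) (by decide +kernel)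
theorem L17306 : W_26 (nat_lit 3) (nat_lit 0x30000d000c000200010001000080000000000000000000000000000000) (nat_lit 0x0) (nat_lit 0x400020000000000002000500000000000000000000000000000000000000000000) := T_26 (nat_lit 245) (nat_lit 178) (nat_lit 6) (nat_lit 7) (nat_lit 14) L17305 (by decide +kernel)
theorem L17307 : W_26 (nat_lit 4) (nat_lit 0x20000d000c000200010001000080000000000000000000000000000000) (nat_lit 0x0) (nat_lit 0x400060001000000002000500000000000000000000000000000000000000000000) := T_26 (nat_lit 228) (nat_lit 246) (nat_lit 7) (nat_lit 7) (nat_lit 10) L17306 (by decide +kernel)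
theorem L17308 : W_26 (nat_lit 5) (nat_lit 0xd000c000200010001000080000000000000000000000000000000) (nat_lit 0x0) (nat_lit 0x400060003000100002000500000000000000000000000000000000000000000000) := T_26 (nat_lit 229) (nat_lit 212) (nat_lit 7) (nat_lit 7) (nat_lit 9) L17307 (by decide +kernel)
theorem L17309 : W_26 (nat_lit 6) (nat_lit 0xc000c000200010001000080000000000000000000000000000000) (nat_lit 0x0) (nat_lit 0x400060003000130002000500000000000000000000000000000000000000000000) := T_26 (nat_lit 208) (nat_lit 209) (nat_lit 2) (nat_lit 4) (nat_lit 12) L17308 (by decide +kernel)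
theorem L17310 : W_26 (nat_lit 7) (nat_lit 0x8000c000200010001000080000000000000000000000000000000) (nat_lit 0x0) (nat_lit 0x400060003800170002000500000000000000000000000000000000000000000000) := T_26 (nat_lit 210) (nat_lit 227) (nat_lit 5) (nat_lit 7) (nat_lit 9) L17309 (by decide +kernel)
theorem L17311 : W_26 (nat_lit 11) (nat_lit 0xc000200010001000080000000000000000000000000000000) (nat_lit 0x0) (nat_lit 0xc0006001fe00ff0003800500008000400000000000000000000000000000000000) := Q_26 (nat_lit 211) (C_26 L17304 (C_26 L17286 (C_26 L17310 (C_26 L5451 (C_26 L5457 N_26))))) (by decide +kernel)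
theorem L17312 : W_26 (nat_lit 12) (nat_lit 0xc000200000001000080000000000000000000000000000000) (nat_lit 0x0) (nat_lit 0xc0006001fe00ff0003800500018000c00000000000000000000000000000000000) := T_26 (nat_lit 160) (nat_lit 143) (nat_lit 6) (nat_lit 7) (nat_lit 11) L17311 (by decide +kernel)
theorem L17313 : W_26 (nat_lit 6) (nat_lit 0x1c000200000001000080000000000000000000000000000000) (nat_lit 0x0) (nat_lit 0x40002800760003001980050000800000000000000000000000000000000000) := Q_26 (nat_lit 193) (C_26 L17161 (C_26 L11229 N_26)) (by decide +kernel)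
theorem L17314 : W_26 (nat_lit 2) (nat_lit 0x24003f001200010001000080000000000000000000000000000000) (nat_lit 0x0) (nat_lit 0x40800400000000000000000000000000000000000000000000) := D_26 (nat_lit 178) (nat_lit 191) (nat_lit 198) (nat_lit 2) (nat_lit 4) (nat_lit 11) (nat_lit 0) (nat_lit 11) (nat_lit 11) (by decide +kernel)
theorem L17315 : W_26 (nat_lit 3) (nat_lit 0x24003e001200010001000080000000000000000000000000000000) (nat_lit 0x0) (nat_lit 0x100041800400000000000000000000000000000000000000000000) := T_26 (nat_lit 192) (nat_lit 212) (nat_lit 3) (nat_lit 5) (nat_lit 11) L17314 (by decide +kernel)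
theorem L17316 : W_26 (nat_lit 4) (nat_lit 0x4003e001200010001000080000000000000000000000000000000) (nat_lit 0x0) (nat_lit 0x700041800400000000000000000000000000000000000000000000) := T_26 (nat_lit 213) (nat_lit 214) (nat_lit 3) (nat_lit 6) (nat_lit 11) L17315 (by decide +kernel)
theorem L17317 : W_26 (nat_lit 5) (nat_lit 0x3e001200010001000080000000000000000000000000000000) (nat_lit 0x0) (nat_lit 0x760041800400000000000000000000000000000000000000000000) := T_26 (nat_lit 210) (nat_lit 209) (nat_lit 1) (nat_lit 9) (nat_lit 11) L17316 (by decide +kernel)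
theorem L17318 : W_26 (nat_lit 6) (nat_lit 0x3c001200010001000080000000000000000000000000000000) (nat_lit 0x0) (nat_lit 0x760043800c00000000000000000000000000000000000000000000) := T_26 (nat_lit 193) (nat_lit 179) (nat_lit 2) (nat_lit 6) (nat_lit 11) L17317 (by decide +kernel)
theorem L17319 : W_26 (nat_lit 7) (nat_lit 0x3c000200010001000080000000000000000000000000000000) (nat_lit 0x0) (nat_lit 0x760043803c00000000000000000000000000000000000000000000) := T_26 (nat_lit 180) (nat_lit 181) (nat_lit 2) (nat_lit 7) (nat_lit 11) L17318 (by decide +kernel)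
theorem L17320 : W_26 (nat_lit 8) (nat_lit 0x3c000200000001000080000000000000000000000000000000) (nat_lit 0x0) (nat_lit 0x760043803c00010000800000000000000000000000000000000000) := T_26 (nat_lit 160) (nat_lit 143) (nat_lit 6) (nat_lit 7) (nat_lit 11) L17319 (by decide +kernel)
theorem L17321 : W_26 (nat_lit 9) (nat_lit 0x1c000200000001000080000000000000000000000000000000) (nat_lit 0x0) (nat_lit 0x1f60063807c00010000800000000000000000000000000000000000) := Q_26 (nat_lit 197) (C_26 L7816 (C_26 L7825 (C_26 L17320 (C_26 L7819 N_26)))) (by decide +kernel)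
theorem L17322 : W_26 (nat_lit 10) (nat_lit 0xc000200000001000080000000000000000000000000000000) (nat_lit 0x0) (nat_lit 0x40002801f60073807d80050000800000000000000000000000000000000000) := Q_26 (nat_lit 196) (C_26 L7840 (C_26 L17313 (C_26 L17321 (C_26 L7817 (C_26 L5478 N_26))))) (by decide +kernel)
theorem L17323 : W_26 (nat_lit 2) (nat_lit 0xc000300000001f00080000000000000000000000000000000) (nat_lit 0x0) (nat_lit 0x7000000000000000000000000000000000000000) := D_26 (nat_lit 157) (nat_lit 156) (nat_lit 158) (nat_lit 1) (nat_lit 7) (nat_lit 8) (nat_lit 1) (nat_lit 8) (nat_lit 8) (by decide +kernel)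
theorem L17324 : W_26 (nat_lit 3) (nat_lit 0xc000300000001e00080000000000000000000000000000000) (nat_lit 0x0) (nat_lit 0x7000100040000000000000000000000000000000) := T_26 (nat_lit 140) (nat_lit 126) (nat_lit 2) (nat_lit 4) (nat_lit 8) L17323 (by decide +kernel)
theorem L17325 : W_26 (nat_lit 4) (nat_lit 0xc000300000001c00080000000000000000000000000000000) (nat_lit 0x0) (nat_lit 0x7000300140000000000000000000000000000000) := T_26 (nat_lit 141) (nat_lit 128) (nat_lit 2) (nat_lit 5) (nat_lit 8) L17324 (by decide +kernel)
theorem L17326 : W_26 (nat_lit 5) (nat_lit 0xc000300000001400080000000000000000000000000000000) (nat_lit 0x0) (nat_lit 0x17000b00140000000000000000000000000000000) := T_26 (nat_lit 143) (nat_lit 160) (nat_lit 6) (nat_lit 7) (nat_lit 11) L17325 (by decide +kernel)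
theorem L17327 : W_26 (nat_lit 6) (nat_lit 0xc000300000001000080000000000000000000000000000000) (nat_lit 0x0) (nat_lit 0x100008000200000001f000f00160000000000000000000000000000000) := Q_26 (nat_lit 142) (C_26 L5318 (C_26 L5320 (C_26 L17326 (C_26 L5360 N_26)))) (by decide +kernel)
theorem L17328 : W_26 (nat_lit 2) (nat_lit 0xc000300018001000080000000000000000000000000000000) (nat_lit 0x0) (nat_lit 0x1000080000000000000000400000000000000000000000000000000000) := D_26 (nat_lit 211) (nat_lit 142) (nat_lit 228) (nat_lit 4) (nat_lit 7) (nat_lit 12) (nat_lit 4) (nat_lit 7) (nat_lit 13) (by decide +kernel)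
theorem L17329 : W_26 (nat_lit 3) (nat_lit 0xc000300008001000080000000000000000000000000000000) (nat_lit 0x0) (nat_lit 0x1000080000000000010000c00000000000000000000000000000000000) := T_26 (nat_lit 160) (nat_lit 143) (nat_lit 6) (nat_lit 7) (nat_lit 11) L17328 (by decide +kernel)
theorem L17330 : W_26 (nat_lit 2) (nat_lit 0x100000001c000f000080010000a0000000000000000000000000000000) (nat_lit 0x0) (nat_lit 0x3000010000000000000000000000000000000000000000) := D_26 (nat_lit 180) (nat_lit 160) (nat_lit 181) (nat_lit 0) (nat_lit 10) (nat_lit 10) (nat_lit 1) (nat_lit 11) (nat_lit 10) (by decide +kernel)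
theorem L17331 : W_26 (nat_lit 3) (nat_lit 0x100000001c0007000080010000a0000000000000000000000000000000) (nat_lit 0x0) (nat_lit 0x3800014000000000000000000000000000000000000000) := T_26 (nat_lit 179) (nat_lit 158) (nat_lit 0) (nat_lit 9) (nat_lit 10) L17330 (by decide +kernel)
theorem L17332 : W_26 (nat_lit 4) (nat_lit 0x100000001c0003000080010000a0000000000000000000000000000000) (nat_lit 0x0) (nat_lit 0x3c80014000000000000000000000000000000000000000) := T_26 (nat_lit 178) (nat_lit 175) (nat_lit 3) (nat_lit 5) (nat_lit 10) L17331 (by decide +kernel)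
theorem L17333 : W_26 (nat_lit 5) (nat_lit 0x100000000c0003000080010000a0000000000000000000000000000000) (nat_lit 0x0) (nat_lit 0x30003c80014000000000000000000000000000000000000000) := T_26 (nat_lit 196) (nat_lit 197) (nat_lit 0) (nat_lit 10) (nat_lit 11) L17332 (by decide +kernel)
theorem L17334 : W_26 (nat_lit 6) (nat_lit 0xc0003000080010000a0000000000000000000000000000000) (nat_lit 0x0) (nat_lit 0x1000080030003c80014000000000000000000000000000000000000000) := T_26 (nat_lit 228) (nat_lit 211) (nat_lit 4) (nat_lit 7) (nat_lit 13) L17333 (by decide +kernel)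
theorem L17335 : W_26 (nat_lit 7) (nat_lit 0xc000300008001000080000000000000000000000000000000) (nat_lit 0x0) (nat_lit 0x1000080030003c80014000400020000000000000000000000000000000) := T_26 (nat_lit 125) (nat_lit 142) (nat_lit 7) (nat_lit 6) (nat_lit 7) L17334 (by decide +kernel)
theorem L17336 : W_26 (nat_lit 2) (nat_lit 0x100000001c001f000080010000a0000000000000000000000000000000) (nat_lit 0x0) (nat_lit 0x1c0000000000000000000000000000000000000000) := D_26 (nat_lit 163) (nat_lit 162) (nat_lit 164) (nat_lit 2) (nat_lit 6) (nat_lit 10) (nat_lit 2) (nat_lit 7) (nat_lit 10) (by decide +kernel)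
theorem L17337 : W_26 (nat_lit 3) (nat_lit 0x100000001c000f000080010000a0000000000000000000000000000000) (nat_lit 0x0) (nat_lit 0x30001c0000000000000000000000000000000000000000) := T_26 (nat_lit 180) (nat_lit 181) (nat_lit 1) (nat_lit 11) (nat_lit 10) L17336 (by decide +kernel)
theorem L17338 : W_26 (nat_lit 4) (nat_lit 0x100000001c0007000080010000a0000000000000000000000000000000) (nat_lit 0x0) (nat_lit 0x38001c4000000000000000000000000000000000000000) := T_26 (nat_lit 179) (nat_lit 158) (nat_lit 0) (nat_lit 9) (nat_lit 10) L17337 (by decide +kernel)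
theorem L17339 : W_26 (nat_lit 5) (nat_lit 0x1c0007000080010000a0000000000000000000000000000000) (nat_lit 0x0) (nat_lit 0x10000800000038001c4000000000000000000000000000000000000000) := T_26 (nat_lit 228) (nat_lit 211) (nat_lit 4) (nat_lit 7) (nat_lit 13) L17338 (by decide +kernel)
theorem L17340 : W_26 (nat_lit 6) (nat_lit 0x1c0003000080010000a0000000000000000000000000000000) (nat_lit 0x0) (nat_lit 0x1000080000003c801c4000000000000000000000000000000000000000) := T_26 (nat_lit 178) (nat_lit 175) (nat_lit 3) (nat_lit 5) (nat_lit 10) L17339 (by decide +kernel)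
theorem L17341 : W_26 (nat_lit 7) (nat_lit 0x1c000300008001000080000000000000000000000000000000) (nat_lit 0x0) (nat_lit 0x1000080000003c801c4000400020000000000000000000000000000000) := T_26 (nat_lit 125) (nat_lit 142) (nat_lit 7) (nat_lit 6) (nat_lit 7) L17340 (by decide +kernel)
theorem L17342 : W_26 (nat_lit 8) (nat_lit 0xc000300008001000080000000000000000000000000000000) (nat_lit 0x0) (nat_lit 0x1000080030003c801c4000400020000000000000000000000000000000) := T_26 (nat_lit 196) (nat_lit 197) (nat_lit 0) (nat_lit 10) (nat_lit 11) L17341 (by decide +kernel)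
theorem L17343 : W_26 (nat_lit 2) (nat_lit 0x100000001c000700018001000080000000000000000000000000000000) (nat_lit 0x0) (nat_lit 0x800006000000000000000000000000000000000000000) := D_26 (nat_lit 158) (nat_lit 157) (nat_lit 179) (nat_lit 3) (nat_lit 4) (nat_lit 9) (nat_lit 0) (nat_lit 9) (nat_lit 10) (by decide +kernel)
theorem L17344 : W_26 (nat_lit 3) (nat_lit 0x100000001c000300018001000080000000000000000000000000000000) (nat_lit 0x0) (nat_lit 0xc80006000000000000000000000000000000000000000) := T_26 (nat_lit 178) (nat_lit 175) (nat_lit 3) (nat_lit 5) (nat_lit 10) L17343 (by decide +kernel)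
theorem L17345 : W_26 (nat_lit 4) (nat_lit 0x100000000c000300018001000080000000000000000000000000000000) (nat_lit 0x0) (nat_lit 0x30000c80006000000000000000000000000000000000000000) := T_26 (nat_lit 196) (nat_lit 197) (nat_lit 0) (nat_lit 10) (nat_lit 11) L17344 (by decide +kernel)
theorem L17346 : W_26 (nat_lit 5) (nat_lit 0x100000000c000300008001000080000000000000000000000000000000) (nat_lit 0x0) (nat_lit 0x30000c80016000800000000000000000000000000000000000) := T_26 (nat_lit 160) (nat_lit 143) (nat_lit 6) (nat_lit 7) (nat_lit 11) L17345 (by decide +kernel)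
theorem L17347 : W_26 (nat_lit 6) (nat_lit 0xc000300008001000080000000000000000000000000000000) (nat_lit 0x0) (nat_lit 0x1000080030000c80016000800000000000000000000000000000000000) := T_26 (nat_lit 228) (nat_lit 211) (nat_lit 4) (nat_lit 7) (nat_lit 13) L17346 (by decide +kernel)
theorem L17348 : W_26 (nat_lit 2) (nat_lit 0x2c000300008001400080000000000000000000000000000000) (nat_lit 0x0) (nat_lit 0x80000000000010000800000000000000000000000000000000000) := D_26 (nat_lit 160) (nat_lit 143) (nat_lit 211) (nat_lit 6) (nat_lit 7) (nat_lit 11) (nat_lit 4) (nat_lit 7) (nat_lit 12) (by decide +kernel)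
theorem L17349 : W_26 (nat_lit 3) (nat_lit 0x2c000300008001000080000000000000000000000000000000) (nat_lit 0x0) (nat_lit 0x80000000000010000c00020000000000000000000000000000000) := T_26 (nat_lit 142) (nat_lit 125) (nat_lit 7) (nat_lit 6) (nat_lit 7) L17348 (by decide +kernel)
theorem L17350 : W_26 (nat_lit 4) (nat_lit 0xc000300008001000080000000000000000000000000000000) (nat_lit 0x0) (nat_lit 0x80030000000010000c00020000000000000000000000000000000) := T_26 (nat_lit 197) (nat_lit 196) (nat_lit 0) (nat_lit 10) (nat_lit 11) L17349 (by decide +kernel)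
theorem L17351 : W_26 (nat_lit 2) (nat_lit 0x1c0007000180010000a0000000000000000000000000000000) (nat_lit 0x0) (nat_lit 0x800006000000000000000000000000000000000000000) := D_26 (nat_lit 158) (nat_lit 157) (nat_lit 179) (nat_lit 3) (nat_lit 4) (nat_lit 9) (nat_lit 0) (nat_lit 9) (nat_lit 10) (by decide +kernel)
theorem L17352 : W_26 (nat_lit 3) (nat_lit 0x1c0003000180010000a0000000000000000000000000000000) (nat_lit 0x0) (nat_lit 0xc80006000000000000000000000000000000000000000) := T_26 (nat_lit 178) (nat_lit 175) (nat_lit 3) (nat_lit 5) (nat_lit 10) L17351 (by decide +kernel)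
theorem L17353 : W_26 (nat_lit 4) (nat_lit 0x1c000300018001000080000000000000000000000000000000) (nat_lit 0x0) (nat_lit 0xc80006000400020000000000000000000000000000000) := T_26 (nat_lit 125) (nat_lit 142) (nat_lit 7) (nat_lit 6) (nat_lit 7) L17352 (by decide +kernel)
theorem L17354 : W_26 (nat_lit 5) (nat_lit 0xc000300018001000080000000000000000000000000000000) (nat_lit 0x0) (nat_lit 0x30000c80006000400020000000000000000000000000000000) := T_26 (nat_lit 196) (nat_lit 197) (nat_lit 0) (nat_lit 10) (nat_lit 11) L17353 (by decide +kernel)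
theorem L17355 : W_26 (nat_lit 6) (nat_lit 0xc000300008001000080000000000000000000000000000000) (nat_lit 0x0) (nat_lit 0x30000c80016000c00020000000000000000000000000000000) := T_26 (nat_lit 160) (nat_lit 143) (nat_lit 6) (nat_lit 7) (nat_lit 11) L17354 (by decide +kernel)
theorem L17356 : W_26 (nat_lit 9) (nat_lit 0xc000300000001000080000000000000000000000000000000) (nat_lit 0x0) (nat_lit 0x1000080030003c801de000c00020000000000000000000000000000000) := Q_26 (nat_lit 159) (C_26 L17329 (C_26 L17335 (C_26 L17342 (C_26 L17347 (C_26 L17350 (C_26 L17355 N_26)))))) (by decide +kernel)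
theorem L17357 : W_26 (nat_lit 10) (nat_lit 0xc000200000001000080000000000000000000000000000000) (nat_lit 0x0) (nat_lit 0x1000080032003d801df000f00160000000000000000000000000000000) := Q_26 (nat_lit 176) (C_26 L14831 (C_26 L17327 (C_26 L17356 N_26))) (by decide +kernel)
theorem L17358 : W_26 (nat_lit 14) (nat_lit 0x4000200000001000080000000000000000000000000000000) (nat_lit 0x0) (nat_lit 0x2c001f801fe03ff81fb80fd801df000f00170000000000000000000000000000000) := Q_26 (nat_lit 195) (C_26 L17190 (C_26 L17271 (C_26 L17295 (C_26 L17312 (C_26 L17322 (C_26 L17357 N_26)))))) (by decide +kernel)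
theorem L17359 : W_26 (nat_lit 2) (nat_lit 0x4001e000f000480010000a0000000000000000000000000000000) (nat_lit 0x0) (nat_lit 0x10000800000000000000010000000000000000000000000000000000000000) := D_26 (nat_lit 227) (nat_lit 244) (nat_lit 160) (nat_lit 6) (nat_lit 6) (nat_lit 14) (nat_lit 6) (nat_lit 6) (nat_lit 13) (by decide +kernel)
theorem L17360 : W_26 (nat_lit 3) (nat_lit 0x1e000f000480010000a0000000000000000000000000000000) (nat_lit 0x0) (nat_lit 0x10000800060000000000010000000000000000000000000000000000000000) := T_26 (nat_lit 210) (nat_lit 209) (nat_lit 1) (nat_lit 9) (nat_lit 11) L17359 (by decide +kernel)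
theorem L17361 : W_26 (nat_lit 4) (nat_lit 0x16000f000480010000a0000000000000000000000000000000) (nat_lit 0x0) (nat_lit 0x10000800060008000080010000000000000000000000000000000000000000) := T_26 (nat_lit 195) (nat_lit 175) (nat_lit 3) (nat_lit 5) (nat_lit 10) L17360 (by decide +kernel)
theorem L17362 : W_26 (nat_lit 5) (nat_lit 0x6000f000480010000a0000000000000000000000000000000) (nat_lit 0x0) (nat_lit 0x10000800060038000080010000000000000000000000000000000000000000) := T_26 (nat_lit 196) (nat_lit 197) (nat_lit 3) (nat_lit 6) (nat_lit 10) L17361 (by decide +kernel)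
theorem L17363 : W_26 (nat_lit 6) (nat_lit 0x6000f000080010000a0000000000000000000000000000000) (nat_lit 0x0) (nat_lit 0x100008000600380000800d0000000000000000000000000000000000000000) := T_26 (nat_lit 162) (nat_lit 163) (nat_lit 2) (nat_lit 6) (nat_lit 10) L17362 (by decide +kernel)
theorem L17364 : W_26 (nat_lit 7) (nat_lit 0x6000f00008001000080000000000000000000000000000000) (nat_lit 0x0) (nat_lit 0x100008000600380000800d0000400020000000000000000000000000000000) := T_26 (nat_lit 125) (nat_lit 142) (nat_lit 7) (nat_lit 6) (nat_lit 7) L17363 (by decide +kernel)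
theorem L17365 : W_26 (nat_lit 8) (nat_lit 0x4000f00008001000080000000000000000000000000000000) (nat_lit 0x0) (nat_lit 0x1000080006003b0000800d0000400020000000000000000000000000000000) := T_26 (nat_lit 193) (nat_lit 192) (nat_lit 1) (nat_lit 9) (nat_lit 10) L17364 (by decide +kernel)
theorem L17366 : W_26 (nat_lit 9) (nat_lit 0x4000f00000001000080000000000000000000000000000000) (nat_lit 0x0) (nat_lit 0x1000080006003b0000800dc000400020000000000000000000000000000000) := T_26 (nat_lit 159) (nat_lit 158) (nat_lit 0) (nat_lit 9) (nat_lit 10) L17365 (by decide +kernel)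
theorem L17367 : W_26 (nat_lit 3) (nat_lit 0x6000f00008001000080000000000000000000000000000000) (nat_lit 0x0) (nat_lit 0x10000c00060000000000000000000000000000000) := T_26 (nat_lit 143) (nat_lit 160) (nat_lit 6) (nat_lit 7) (nat_lit 11) L16889 (by decide +kernel)
theorem L17368 : W_26 (nat_lit 4) (nat_lit 0x6000f00000001000080000000000000000000000000000000) (nat_lit 0x0) (nat_lit 0x1c000c00060000000000000000000000000000000) := T_26 (nat_lit 159) (nat_lit 158) (nat_lit 0) (nat_lit 9) (nat_lit 10) L17367 (by decide +kernel)
theorem L17369 : W_26 (nat_lit 5) (nat_lit 0x4000f00000001000080000000000000000000000000000000) (nat_lit 0x0) (nat_lit 0x300000001c000c00060000000000000000000000000000000) := T_26 (nat_lit 193) (nat_lit 192) (nat_lit 1) (nat_lit 9) (nat_lit 10) L17368 (by decide +kernel)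
theorem L17370 : W_26 (nat_lit 10) (nat_lit 0x4000e00000001000080000000000000000000000000000000) (nat_lit 0x0) (nat_lit 0x1000080006003b8001800de000c00060000000000000000000000000000000) := Q_26 (nat_lit 176) (C_26 L5503 (C_26 L17366 (C_26 L5538 (C_26 L17369 N_26)))) (by decide +kernel)
theorem L17371 : W_26 (nat_lit 11) (nat_lit 0x4000600000001000080000000000000000000000000000000) (nat_lit 0x0) (nat_lit 0x100008000600fb8039800de000c00060000000000000000000000000000000) := Q_26 (nat_lit 179) (C_26 L5492 (C_26 L5797 (C_26 L5496 (C_26 L17370 N_26)))) (by decide +kernel)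
theorem L17372 : W_26 (nat_lit 12) (nat_lit 0x4000200000001000080000000000000000000000000000000) (nat_lit 0x0) (nat_lit 0x100008000600fb803d800fe000c00060000000000000000000000000000000) := T_26 (nat_lit 178) (nat_lit 161) (nat_lit 5) (nat_lit 8) (nat_lit 7) L17371 (by decide +kernel)
theorem L17373 : W_26 (nat_lit 15) (nat_lit 0x200000001000080000000000000000000000000000000) (nat_lit 0x0) (nat_lit 0x2c001f801fe07ff81ffc0fd801ff004f00370000000000000000000000000000000) := Q_26 (nat_lit 194) (C_26 L17189 (C_26 L17358 (C_26 L5483 (C_26 L5489 (C_26 L17372 N_26))))) (by decide +kernel)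
theorem L66331 : W_26 (nat_lit 2) (nat_lit 0x20001f000300000001000080000000000000000000000000000000) (nat_lit 0x0) (nat_lit 0x1c00000000000000000000000000000000000000000000) := D_26 (nat_lit 179) (nat_lit 178) (nat_lit 180) (nat_lit 2) (nat_lit 5) (nat_lit 11) (nat_lit 2) (nat_lit 6) (nat_lit 11) (by decide +kernel)
theorem L66332 : W_26 (nat_lit 3) (nat_lit 0x20001e000300000001000080000000000000000000000000000000) (nat_lit 0x0) (nat_lit 0x100001001c00000000000000000000000000000000000000000000) := T_26 (nat_lit 192) (nat_lit 212) (nat_lit 3) (nat_lit 5) (nat_lit 11) L66331 (by decide +kernel)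
theorem L66333 : W_26 (nat_lit 4) (nat_lit 0x1e000300000001000080000000000000000000000000000000) (nat_lit 0x0) (nat_lit 0x700001001c00000000000000000000000000000000000000000000) := T_26 (nat_lit 213) (nat_lit 214) (nat_lit 3) (nat_lit 6) (nat_lit 11) L66332 (by decide +kernel)
theorem L66334 : W_26 (nat_lit 5) (nat_lit 0x1e000200000001000080000000000000000000000000000000) (nat_lit 0x0) (nat_lit 0x700001001d80000000000000000000000000000000000000000000) := T_26 (nat_lit 176) (nat_lit 175) (nat_lit 0) (nat_lit 9) (nat_lit 11) L66333 (by decide +kernel)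
theorem L66335 : W_26 (nat_lit 2) (nat_lit 0x20001f000b00000001000080000000000000000000000000000000) (nat_lit 0x0) (nat_lit 0x70000000000000000000000000000000000000000000000000000) := D_26 (nat_lit 209) (nat_lit 208) (nat_lit 210) (nat_lit 1) (nat_lit 8) (nat_lit 11) (nat_lit 1) (nat_lit 9) (nat_lit 11) (by decide +kernel)
theorem L66336 : W_26 (nat_lit 3) (nat_lit 0x20001e000b00000001000080000000000000000000000000000000) (nat_lit 0x0) (nat_lit 0x170001000000000000000000000000000000000000000000000000) := T_26 (nat_lit 192) (nat_lit 212) (nat_lit 3) (nat_lit 5) (nat_lit 11) L66335 (by decide +kernel)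
theorem L66337 : W_26 (nat_lit 4) (nat_lit 0x1e000b00000001000080000000000000000000000000000000) (nat_lit 0x0) (nat_lit 0x770001000000000000000000000000000000000000000000000000) := T_26 (nat_lit 213) (nat_lit 214) (nat_lit 3) (nat_lit 6) (nat_lit 11) L66336 (by decide +kernel)
theorem L66338 : W_26 (nat_lit 5) (nat_lit 0x1e000a00000001000080000000000000000000000000000000) (nat_lit 0x0) (nat_lit 0x770001000180000000000000000000000000000000000000000000) := T_26 (nat_lit 176) (nat_lit 175) (nat_lit 0) (nat_lit 9) (nat_lit 11) L66337 (by decide +kernel)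
theorem L66339 : W_26 (nat_lit 6) (nat_lit 0x1e000200000001000080000000000000000000000000000000) (nat_lit 0x0) (nat_lit 0x770001001980000000000000000000000000000000000000000000) := T_26 (nat_lit 179) (nat_lit 180) (nat_lit 2) (nat_lit 6) (nat_lit 11) L66338 (by decide +kernel)
theorem L66340 : W_26 (nat_lit 2) (nat_lit 0x4001f000a00000001000080000000000000000000000000000000) (nat_lit 0x0) (nat_lit 0x700000000000000000000000000000000000000000000000000000) := D_26 (nat_lit 213) (nat_lit 214) (nat_lit 212) (nat_lit 3) (nat_lit 6) (nat_lit 11) (nat_lit 3) (nat_lit 5) (nat_lit 11) (by decide +kernel)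
theorem L66341 : W_26 (nat_lit 3) (nat_lit 0x4001e000a00000001000080000000000000000000000000000000) (nat_lit 0x0) (nat_lit 0x700001000400000000000000000000000000000000000000000000) := T_26 (nat_lit 192) (nat_lit 178) (nat_lit 2) (nat_lit 5) (nat_lit 11) L66340 (by decide +kernel)
theorem L66342 : W_26 (nat_lit 4) (nat_lit 0x4001e000200000001000080000000000000000000000000000000) (nat_lit 0x0) (nat_lit 0x700001001c00000000000000000000000000000000000000000000) := T_26 (nat_lit 179) (nat_lit 180) (nat_lit 2) (nat_lit 6) (nat_lit 11) L66341 (by decide +kernel)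
theorem L66343 : W_26 (nat_lit 5) (nat_lit 0x1e000200000001000080000000000000000000000000000000) (nat_lit 0x0) (nat_lit 0x760001001c00000000000000000000000000000000000000000000) := T_26 (nat_lit 210) (nat_lit 209) (nat_lit 1) (nat_lit 9) (nat_lit 11) L66342 (by decide +kernel)
theorem L66344 : W_26 (nat_lit 2) (nat_lit 0x180024001f000300008001400080000000000000000000000000000000) (nat_lit 0x0) (nat_lit 0x4000200010000000000000000000000000000000) := D_26 (nat_lit 141) (nat_lit 158) (nat_lit 124) (nat_lit 4) (nat_lit 6) (nat_lit 12) (nat_lit 4) (nat_lit 6) (nat_lit 11) (by decide +kernel)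
theorem L66345 : W_26 (nat_lit 3) (nat_lit 0x180024001f000300008001000080000000000000000000000000000000) (nat_lit 0x0) (nat_lit 0x4000600030000000000000000000000000000000) := T_26 (nat_lit 142) (nat_lit 125) (nat_lit 7) (nat_lit 6) (nat_lit 7) L66344 (by decide +kernel)
theorem L66346 : W_26 (nat_lit 4) (nat_lit 0x180024001f000300000001000080000000000000000000000000000000) (nat_lit 0x0) (nat_lit 0x8000000000000c000600030000000000000000000000000000000) := T_26 (nat_lit 159) (nat_lit 211) (nat_lit 7) (nat_lit 6) (nat_lit 9) L66345 (by decide +kernel)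
theorem L66347 : W_26 (nat_lit 5) (nat_lit 0x80024001f000300000001000080000000000000000000000000000000) (nat_lit 0x0) (nat_lit 0x2000100008000000000000c000600030000000000000000000000000000000) := T_26 (nat_lit 228) (nat_lit 245) (nat_lit 7) (nat_lit 6) (nat_lit 10) L66346 (by decide +kernel)
theorem L66348 : W_26 (nat_lit 6) (nat_lit 0x80024001e000300000001000080000000000000000000000000000000) (nat_lit 0x0) (nat_lit 0x2000100018000100000000c000600030000000000000000000000000000000) := T_26 (nat_lit 192) (nat_lit 212) (nat_lit 3) (nat_lit 5) (nat_lit 11) L66347 (by decide +kernel)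
theorem L66349 : W_26 (nat_lit 7) (nat_lit 0x80004001e000300000001000080000000000000000000000000000000) (nat_lit 0x0) (nat_lit 0x2000100078000100000000c000600030000000000000000000000000000000) := T_26 (nat_lit 213) (nat_lit 214) (nat_lit 3) (nat_lit 6) (nat_lit 11) L66348 (by decide +kernel)
theorem L66350 : W_26 (nat_lit 8) (nat_lit 0x4001e000300000001000080000000000000000000000000000000) (nat_lit 0x0) (nat_lit 0x3000180078000100000000c000600030000000000000000000000000000000) := T_26 (nat_lit 227) (nat_lit 244) (nat_lit 6) (nat_lit 6) (nat_lit 14) L66349 (by decide +kernel)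
theorem L66351 : W_26 (nat_lit 9) (nat_lit 0x4001e000200000001000080000000000000000000000000000000) (nat_lit 0x0) (nat_lit 0x3000180078000100018000c000600030000000000000000000000000000000) := T_26 (nat_lit 176) (nat_lit 175) (nat_lit 0) (nat_lit 9) (nat_lit 11) L66350 (by decide +kernel)
theorem L66352 : W_26 (nat_lit 10) (nat_lit 0x1e000200000001000080000000000000000000000000000000) (nat_lit 0x0) (nat_lit 0x300018007e000100018000c000600030000000000000000000000000000000) := T_26 (nat_lit 210) (nat_lit 209) (nat_lit 1) (nat_lit 9) (nat_lit 11) L66351 (by decide +kernel)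
theorem L66353 : W_26 (nat_lit 11) (nat_lit 0x1c000200000001000080000000000000000000000000000000) (nat_lit 0x0) (nat_lit 0x38003c007f0003001d8000c000600030000000000000000000000000000000) := Q_26 (nat_lit 193) (C_26 L66334 (C_26 L66339 (C_26 L66343 (C_26 L66352 (C_26 L7802 (C_26 L7813 N_26)))))) (by decide +kernel)
theorem L66354 : W_26 (nat_lit 3) (nat_lit 0x3c000200000001000080000000000000000000000000000000) (nat_lit 0x0) (nat_lit 0x1c0040000400000000000000000000000000000000000000000000) := T_26 (nat_lit 211) (nat_lit 210) (nat_lit 1) (nat_lit 10) (nat_lit 11) L9118 (by decide +kernel)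
theorem L66355 : W_26 (nat_lit 6) (nat_lit 0x1c000200000001000080000000000000000000000000000000) (nat_lit 0x0) (nat_lit 0xfc0062007c00000000000000000000000000000000000000000000) := Q_26 (nat_lit 197) (C_26 L5038 (C_26 L7819 (C_26 L66354 N_26))) (by decide +kernel)
theorem L66356 : W_26 (nat_lit 4) (nat_lit 0x1c000200000001000080000000000000000000000000000000) (nat_lit 0x0) (nat_lit 0x1c0060000500000000000000000000000000000000000000000000) := T_26 (nat_lit 197) (nat_lit 176) (nat_lit 0) (nat_lit 10) (nat_lit 11) L66354 (by decide +kernel)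
theorem L66357 : W_26 (nat_lit 12) (nat_lit 0x14000200000001000080000000000000000000000000000000) (nat_lit 0x0) (nat_lit 0x38003c00ff006b007d8000c000600030000000000000000000000000000000) := Q_26 (nat_lit 195) (C_26 L66353 (C_26 L5039 (C_26 L66355 (C_26 L7821 (C_26 L66356 N_26))))) (by decide +kernel)
theorem L66358 : W_26 (nat_lit 2) (nat_lit 0x68003c001200000001000080000000000000000000000000000000) (nat_lit 0x0) (nat_lit 0x80004000000000000000080000000000000000000000000000000000000000) := D_26 (nat_lit 230) (nat_lit 247) (nat_lit 163) (nat_lit 6) (nat_lit 9) (nat_lit 14) (nat_lit 5) (nat_lit 10) (nat_lit 9) (by decide +kernel)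
theorem L66359 : W_26 (nat_lit 3) (nat_lit 0x48003c001200000001000080000000000000000000000000000000) (nat_lit 0x0) (nat_lit 0x80004000200002000000080000000000000000000000000000000000000000) := T_26 (nat_lit 213) (nat_lit 193) (nat_lit 3) (nat_lit 6) (nat_lit 11) L66358 (by decide +kernel)
theorem L66360 : W_26 (nat_lit 4) (nat_lit 0x8003c001200000001000080000000000000000000000000000000) (nat_lit 0x0) (nat_lit 0x80004000e00002000000080000000000000000000000000000000000000000) := T_26 (nat_lit 214) (nat_lit 215) (nat_lit 3) (nat_lit 7) (nat_lit 11) L66359 (by decide +kernel)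
theorem L66361 : W_26 (nat_lit 5) (nat_lit 0x3c001200000001000080000000000000000000000000000000) (nat_lit 0x0) (nat_lit 0x80004000ec0002000000080000000000000000000000000000000000000000) := T_26 (nat_lit 211) (nat_lit 210) (nat_lit 1) (nat_lit 10) (nat_lit 11) L66360 (by decide +kernel)
theorem L66362 : W_26 (nat_lit 6) (nat_lit 0x3c000200000001000080000000000000000000000000000000) (nat_lit 0x0) (nat_lit 0x80004000ec0002003000080000000000000000000000000000000000000000) := T_26 (nat_lit 180) (nat_lit 181) (nat_lit 2) (nat_lit 7) (nat_lit 11) L66361 (by decide +kernel)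
theorem L66363 : W_26 (nat_lit 2) (nat_lit 0x8007e001200000001000080000000000000000000000000000000) (nat_lit 0x0) (nat_lit 0x1c00000000000000000000000000000000000000000000000000000) := D_26 (nat_lit 215) (nat_lit 214) (nat_lit 216) (nat_lit 3) (nat_lit 7) (nat_lit 11) (nat_lit 3) (nat_lit 8) (nat_lit 11) (by decide +kernel)
theorem L66364 : W_26 (nat_lit 3) (nat_lit 0x8003e001200000001000080000000000000000000000000000000) (nat_lit 0x0) (nat_lit 0x1d00040000000000000000000000000000000000000000000000000) := T_26 (nat_lit 198) (nat_lit 212) (nat_lit 1) (nat_lit 11) (nat_lit 11) L66363 (by decide +kernel)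
theorem L66365 : W_26 (nat_lit 4) (nat_lit 0x8003c001200000001000080000000000000000000000000000000) (nat_lit 0x0) (nat_lit 0x1d00042000800000000000000000000000000000000000000000000) := T_26 (nat_lit 193) (nat_lit 179) (nat_lit 2) (nat_lit 6) (nat_lit 11) L66364 (by decide +kernel)
theorem L66366 : W_26 (nat_lit 5) (nat_lit 0x8003c000200000001000080000000000000000000000000000000) (nat_lit 0x0) (nat_lit 0x1d00042003800000000000000000000000000000000000000000000) := T_26 (nat_lit 180) (nat_lit 181) (nat_lit 2) (nat_lit 7) (nat_lit 11) L66365 (by decide +kernel)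
theorem L66367 : W_26 (nat_lit 6) (nat_lit 0x3c000200000001000080000000000000000000000000000000) (nat_lit 0x0) (nat_lit 0x1dc0042003800000000000000000000000000000000000000000000) := T_26 (nat_lit 211) (nat_lit 210) (nat_lit 1) (nat_lit 10) (nat_lit 11) L66366 (by decide +kernel)
theorem L66368 : W_26 (nat_lit 2) (nat_lit 0x48003c002200000001000080000000000000000000000000000000) (nat_lit 0x0) (nat_lit 0x100040004000000000000000000000000000000000000000000000) := D_26 (nat_lit 198) (nat_lit 182) (nat_lit 212) (nat_lit 2) (nat_lit 8) (nat_lit 11) (nat_lit 1) (nat_lit 11) (nat_lit 11) (by decide +kernel)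
theorem L66369 : W_26 (nat_lit 3) (nat_lit 0x40003c002200000001000080000000000000000000000000000000) (nat_lit 0x0) (nat_lit 0x1c0040004000000000000000000000000000000000000000000000) := T_26 (nat_lit 211) (nat_lit 210) (nat_lit 1) (nat_lit 10) (nat_lit 11) L66368 (by decide +kernel)
theorem L66370 : W_26 (nat_lit 4) (nat_lit 0x40003c000200000001000080000000000000000000000000000000) (nat_lit 0x0) (nat_lit 0x1c0040007000000000000000000000000000000000000000000000) := T_26 (nat_lit 181) (nat_lit 180) (nat_lit 2) (nat_lit 7) (nat_lit 11) L66369 (by decide +kernel)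
theorem L66371 : W_26 (nat_lit 5) (nat_lit 0x3c000200000001000080000000000000000000000000000000) (nat_lit 0x0) (nat_lit 0xdc0040007000000000000000000000000000000000000000000000) := T_26 (nat_lit 214) (nat_lit 215) (nat_lit 3) (nat_lit 7) (nat_lit 11) L66370 (by decide +kernel)
theorem L66372 : W_26 (nat_lit 2) (nat_lit 0x800fc001a00000001000080000000000000000000000000000000) (nat_lit 0x0) (nat_lit 0x3800000000000000000000000000000000000000000000000000000) := D_26 (nat_lit 216) (nat_lit 215) (nat_lit 217) (nat_lit 3) (nat_lit 8) (nat_lit 11) (nat_lit 3) (nat_lit 9) (nat_lit 11) (by decide +kernel)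
theorem L66373 : W_26 (nat_lit 3) (nat_lit 0x8007c001a00000001000080000000000000000000000000000000) (nat_lit 0x0) (nat_lit 0x3800180000000000000000000000000000000000000000000000000) := T_26 (nat_lit 199) (nat_lit 200) (nat_lit 0) (nat_lit 13) (nat_lit 11) L66372 (by decide +kernel)
theorem L66374 : W_26 (nat_lit 4) (nat_lit 0x8003c001a00000001000080000000000000000000000000000000) (nat_lit 0x0) (nat_lit 0x39001c0000000000000000000000000000000000000000000000000) := T_26 (nat_lit 198) (nat_lit 212) (nat_lit 1) (nat_lit 11) (nat_lit 11) L66373 (by decide +kernel)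
theorem L66375 : W_26 (nat_lit 5) (nat_lit 0x8003c001200000001000080000000000000000000000000000000) (nat_lit 0x0) (nat_lit 0x39001c2000800000000000000000000000000000000000000000000) := T_26 (nat_lit 179) (nat_lit 193) (nat_lit 2) (nat_lit 6) (nat_lit 11) L66374 (by decide +kernel)
theorem L66376 : W_26 (nat_lit 6) (nat_lit 0x8003c000200000001000080000000000000000000000000000000) (nat_lit 0x0) (nat_lit 0x39001c2003800000000000000000000000000000000000000000000) := T_26 (nat_lit 180) (nat_lit 181) (nat_lit 2) (nat_lit 7) (nat_lit 11) L66375 (by decide +kernel)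
theorem L66377 : W_26 (nat_lit 7) (nat_lit 0x3c000200000001000080000000000000000000000000000000) (nat_lit 0x0) (nat_lit 0x39c01c2003800000000000000000000000000000000000000000000) := T_26 (nat_lit 211) (nat_lit 210) (nat_lit 1) (nat_lit 10) (nat_lit 11) L66376 (by decide +kernel)
theorem L66378 : W_26 (nat_lit 8) (nat_lit 0x1c000200000001000080000000000000000000000000000000) (nat_lit 0x0) (nat_lit 0x80004003fe01e3007800080000000000000000000000000000000000000000) := Q_26 (nat_lit 197) (C_26 L5038 (C_26 L7825 (C_26 L66362 (C_26 L66367 (C_26 L66371 (C_26 L5049 (C_26 L5054 (C_26 L66377 N_26)))))))) (by decide +kernel)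
theorem L66379 : W_26 (nat_lit 8) (nat_lit 0x1c000200000001000080000000000000000000000000000000) (nat_lit 0x0) (nat_lit 0x39c01e2003900000000000000000000000000000000000000000000) := T_26 (nat_lit 197) (nat_lit 176) (nat_lit 0) (nat_lit 10) (nat_lit 11) L66377 (by decide +kernel)
theorem L66380 : W_26 (nat_lit 6) (nat_lit 0x1c000200000001000080000000000000000000000000000000) (nat_lit 0x0) (nat_lit 0xdc0060007100000000000000000000000000000000000000000000) := T_26 (nat_lit 197) (nat_lit 176) (nat_lit 0) (nat_lit 10) (nat_lit 11) L66371 (by decide +kernel)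
theorem L66381 : W_26 (nat_lit 2) (nat_lit 0x20001f000a00000001000080000000000000000000000000000000) (nat_lit 0x0) (nat_lit 0x1c0000000000000000000000000000000000000000000) := D_26 (nat_lit 175) (nat_lit 176) (nat_lit 174) (nat_lit 0) (nat_lit 9) (nat_lit 11) (nat_lit 0) (nat_lit 8) (nat_lit 11) (by decide +kernel)
theorem L66382 : W_26 (nat_lit 3) (nat_lit 0x20001e000a00000001000080000000000000000000000000000000) (nat_lit 0x0) (nat_lit 0x1000010001c0000000000000000000000000000000000000000000) := T_26 (nat_lit 192) (nat_lit 212) (nat_lit 3) (nat_lit 5) (nat_lit 11) L66381 (by decide +kernel)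
theorem L66383 : W_26 (nat_lit 4) (nat_lit 0x1e000a00000001000080000000000000000000000000000000) (nat_lit 0x0) (nat_lit 0x7000010001c0000000000000000000000000000000000000000000) := T_26 (nat_lit 213) (nat_lit 214) (nat_lit 3) (nat_lit 6) (nat_lit 11) L66382 (by decide +kernel)
theorem L66384 : W_26 (nat_lit 5) (nat_lit 0x1e000200000001000080000000000000000000000000000000) (nat_lit 0x0) (nat_lit 0x7000010019c0000000000000000000000000000000000000000000) := T_26 (nat_lit 179) (nat_lit 180) (nat_lit 2) (nat_lit 6) (nat_lit 11) L66383 (by decide +kernel)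
theorem L66385 : W_26 (nat_lit 6) (nat_lit 0x80004001e000a00000001000080000000000000000000000000000000) (nat_lit 0x0) (nat_lit 0x2000100008000000018000c000600030000000000000000000000000000000) := T_26 (nat_lit 176) (nat_lit 175) (nat_lit 0) (nat_lit 9) (nat_lit 11) L7849 (by decide +kernel)
theorem L66386 : W_26 (nat_lit 7) (nat_lit 0x4001e000a00000001000080000000000000000000000000000000) (nat_lit 0x0) (nat_lit 0x3000180008000000018000c000600030000000000000000000000000000000) := T_26 (nat_lit 227) (nat_lit 244) (nat_lit 6) (nat_lit 6) (nat_lit 14) L66385 (by decide +kernel)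
theorem L66387 : W_26 (nat_lit 8) (nat_lit 0x4001e000200000001000080000000000000000000000000000000) (nat_lit 0x0) (nat_lit 0x3000180008000000198000c000600030000000000000000000000000000000) := T_26 (nat_lit 179) (nat_lit 180) (nat_lit 2) (nat_lit 6) (nat_lit 11) L66386 (by decide +kernel)
theorem L66388 : W_26 (nat_lit 9) (nat_lit 0x1e000200000001000080000000000000000000000000000000) (nat_lit 0x0) (nat_lit 0x300018000e000000198000c000600030000000000000000000000000000000) := T_26 (nat_lit 210) (nat_lit 209) (nat_lit 1) (nat_lit 9) (nat_lit 11) L66387 (by decide +kernel)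
theorem L66389 : W_26 (nat_lit 10) (nat_lit 0x1c000200000001000080000000000000000000000000000000) (nat_lit 0x0) (nat_lit 0x38003c007f00030019c000c000600030000000000000000000000000000000) := Q_26 (nat_lit 193) (C_26 L7813 (C_26 L7805 (C_26 L66384 (C_26 L66388 N_26)))) (by decide +kernel)
theorem L66390 : W_26 (nat_lit 11) (nat_lit 0x14000200000001000080000000000000000000000000000000) (nat_lit 0x0) (nat_lit 0xb8007c03ff01eb0079c008c000600030000000000000000000000000000000) := Q_26 (nat_lit 195) (C_26 L5039 (C_26 L66378 (C_26 L7840 (C_26 L5063 (C_26 L66379 (C_26 L66380 (C_26 L66389 N_26))))))) (by decide +kernel)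
theorem L66391 : W_26 (nat_lit 2) (nat_lit 0x2000400068003c000600000001000080000000000000000000000000000000) (nat_lit 0x0) (nat_lit 0x3000080000000000000000000000000000000000000000) := D_26 (nat_lit 180) (nat_lit 181) (nat_lit 163) (nat_lit 2) (nat_lit 7) (nat_lit 11) (nat_lit 5) (nat_lit 10) (nat_lit 9) (by decide +kernel)
theorem L66392 : W_26 (nat_lit 3) (nat_lit 0x2000000068003c000600000001000080000000000000000000000000000000) (nat_lit 0x0) (nat_lit 0x80004000000000003000080000000000000000000000000000000000000000) := T_26 (nat_lit 230) (nat_lit 247) (nat_lit 4) (nat_lit 9) (nat_lit 14) L66391 (by decide +kernel)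
theorem L66393 : W_26 (nat_lit 4) (nat_lit 0x68003c000600000001000080000000000000000000000000000000) (nat_lit 0x0) (nat_lit 0xa0005000000000003000080000000000000000000000000000000000000000) := T_26 (nat_lit 245) (nat_lit 228) (nat_lit 6) (nat_lit 7) (nat_lit 14) L66392 (by decide +kernel)
theorem L66394 : W_26 (nat_lit 5) (nat_lit 0x48003c000600000001000080000000000000000000000000000000) (nat_lit 0x0) (nat_lit 0xa0005000200002003000080000000000000000000000000000000000000000) := T_26 (nat_lit 213) (nat_lit 193) (nat_lit 3) (nat_lit 6) (nat_lit 11) L66393 (by decide +kernel)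
theorem L66395 : W_26 (nat_lit 6) (nat_lit 0x8003c000600000001000080000000000000000000000000000000) (nat_lit 0x0) (nat_lit 0xa0005000e00002003000080000000000000000000000000000000000000000) := T_26 (nat_lit 214) (nat_lit 215) (nat_lit 3) (nat_lit 7) (nat_lit 11) L66394 (by decide +kernel)
theorem L66396 : W_26 (nat_lit 7) (nat_lit 0x3c000600000001000080000000000000000000000000000000) (nat_lit 0x0) (nat_lit 0xa0005000ec0002003000080000000000000000000000000000000000000000) := T_26 (nat_lit 211) (nat_lit 210) (nat_lit 1) (nat_lit 10) (nat_lit 11) L66395 (by decide +kernel)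
theorem L66397 : W_26 (nat_lit 8) (nat_lit 0x1c000600000001000080000000000000000000000000000000) (nat_lit 0x0) (nat_lit 0xa0005000ec0062003000080000000000000000000000000000000000000000) := T_26 (nat_lit 197) (nat_lit 198) (nat_lit 0) (nat_lit 11) (nat_lit 11) L66396 (by decide +kernel)
theorem L66398 : W_26 (nat_lit 9) (nat_lit 0x1c000200000001000080000000000000000000000000000000) (nat_lit 0x0) (nat_lit 0xa0005000ec00620034000a0000000000000000000000000000000000000000) := T_26 (nat_lit 178) (nat_lit 161) (nat_lit 5) (nat_lit 8) (nat_lit 7) L66397 (by decide +kernel)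
theorem L66399 : W_26 (nat_lit 2) (nat_lit 0xb00058003e000e00000001000080000000000000000000000000000000) (nat_lit 0x0) (nat_lit 0x80014000000000000000000000000000000000000000000000000000000000) := D_26 (nat_lit 230) (nat_lit 232) (nat_lit 247) (nat_lit 0) (nat_lit 11) (nat_lit 13) (nat_lit 7) (nat_lit 8) (nat_lit 10) (by decide +kernel)
theorem L66400 : W_26 (nat_lit 3) (nat_lit 0xb00048003e000e00000001000080000000000000000000000000000000) (nat_lit 0x0) (nat_lit 0x80014000100000000000040000000000000000000000000000000000000000) := T_26 (nat_lit 212) (nat_lit 162) (nat_lit 6) (nat_lit 8) (nat_lit 13) L66399 (by decide +kernel)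
theorem L66401 : W_26 (nat_lit 4) (nat_lit 0x900048003e000e00000001000080000000000000000000000000000000) (nat_lit 0x0) (nat_lit 0xc0016000100000000000040000000000000000000000000000000000000000) := T_26 (nat_lit 229) (nat_lit 246) (nat_lit 7) (nat_lit 7) (nat_lit 10) L66400 (by decide +kernel)
theorem L66402 : W_26 (nat_lit 5) (nat_lit 0x100048003e000e00000001000080000000000000000000000000000000) (nat_lit 0x0) (nat_lit 0x1c001e000100000000000040000000000000000000000000000000000000000) := T_26 (nat_lit 231) (nat_lit 248) (nat_lit 4) (nat_lit 10) (nat_lit 14) L66401 (by decide +kernel)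
theorem L66403 : W_26 (nat_lit 6) (nat_lit 0x48003e000e00000001000080000000000000000000000000000000) (nat_lit 0x0) (nat_lit 0x1e001f000100000000000040000000000000000000000000000000000000000) := T_26 (nat_lit 228) (nat_lit 245) (nat_lit 6) (nat_lit 7) (nat_lit 14) L66402 (by decide +kernel)
theorem L66404 : W_26 (nat_lit 7) (nat_lit 0x48003e000600000001000080000000000000000000000000000000) (nat_lit 0x0) (nat_lit 0x1e001f000100001000800040000000000000000000000000000000000000000) := T_26 (nat_lit 179) (nat_lit 192) (nat_lit 2) (nat_lit 5) (nat_lit 11) L66403 (by decide +kernel)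
theorem L66405 : W_26 (nat_lit 8) (nat_lit 0x48003c000600000001000080000000000000000000000000000000) (nat_lit 0x0) (nat_lit 0x1e001f000300003000800040000000000000000000000000000000000000000) := T_26 (nat_lit 193) (nat_lit 213) (nat_lit 3) (nat_lit 6) (nat_lit 11) L66404 (by decide +kernel)
theorem L66406 : W_26 (nat_lit 9) (nat_lit 0x8003c000600000001000080000000000000000000000000000000) (nat_lit 0x0) (nat_lit 0x1e001f000f00003000800040000000000000000000000000000000000000000) := T_26 (nat_lit 214) (nat_lit 215) (nat_lit 3) (nat_lit 7) (nat_lit 11) L66405 (by decide +kernel)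
theorem L66407 : W_26 (nat_lit 10) (nat_lit 0x3c000600000001000080000000000000000000000000000000) (nat_lit 0x0) (nat_lit 0x1e001f000fc0003000800040000000000000000000000000000000000000000) := T_26 (nat_lit 211) (nat_lit 210) (nat_lit 1) (nat_lit 10) (nat_lit 11) L66406 (by decide +kernel)
theorem L66408 : W_26 (nat_lit 11) (nat_lit 0x1c000600000001000080000000000000000000000000000000) (nat_lit 0x0) (nat_lit 0x1e001f000fc0063000800040000000000000000000000000000000000000000) := T_26 (nat_lit 197) (nat_lit 198) (nat_lit 0) (nat_lit 11) (nat_lit 11) L66407 (by decide +kernel)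
theorem L66409 : W_26 (nat_lit 12) (nat_lit 0x1c000200000001000080000000000000000000000000000000) (nat_lit 0x0) (nat_lit 0x1e001f000fc0063000c00060000000000000000000000000000000000000000) := T_26 (nat_lit 178) (nat_lit 161) (nat_lit 5) (nat_lit 8) (nat_lit 7) L66408 (by decide +kernel)
theorem L66410 : W_26 (nat_lit 2) (nat_lit 0x1e000a00020001000080000000000000000000000000000000) (nat_lit 0x0) (nat_lit 0x600000000000040000000000000000000000000000000000000000) := D_26 (nat_lit 213) (nat_lit 214) (nat_lit 162) (nat_lit 3) (nat_lit 6) (nat_lit 11) (nat_lit 4) (nat_lit 9) (nat_lit 12) (by decide +kernel)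
theorem L66411 : W_26 (nat_lit 3) (nat_lit 0x1e000200020001000080000000000000000000000000000000) (nat_lit 0x0) (nat_lit 0x600000001800040000000000000000000000000000000000000000) := T_26 (nat_lit 179) (nat_lit 180) (nat_lit 2) (nat_lit 6) (nat_lit 11) L66410 (by decide +kernel)
theorem L66412 : W_26 (nat_lit 4) (nat_lit 0x1e000200000001000080000000000000000000000000000000) (nat_lit 0x0) (nat_lit 0x600000001c00060000000000000000000000000000000000000000) := T_26 (nat_lit 161) (nat_lit 178) (nat_lit 5) (nat_lit 8) (nat_lit 7) L66411 (by decide +kernel)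
theorem L66413 : W_26 (nat_lit 5) (nat_lit 0x1c000200000001000080000000000000000000000000000000) (nat_lit 0x0) (nat_lit 0x770003001c00060000000000000000000000000000000000000000) := Q_26 (nat_lit 193) (C_26 L7805 (C_26 L66412 (C_26 L7802 N_26))) (by decide +kernel)
theorem L66414 : W_26 (nat_lit 2) (nat_lit 0x2000000008003c001e00080001000080000000000000000000000000000000) (nat_lit 0x0) (nat_lit 0x200000000000000004000200000000000000000000000000000000) := D_26 (nat_lit 146) (nat_lit 129) (nat_lit 213) (nat_lit 5) (nat_lit 10) (nat_lit 7) (nat_lit 5) (nat_lit 10) (nat_lit 8) (by decide +kernel)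
theorem L66415 : W_26 (nat_lit 3) (nat_lit 0x2000000008003c001e00000001000080000000000000000000000000000000) (nat_lit 0x0) (nat_lit 0x200000000000180004000200000000000000000000000000000000) := T_26 (nat_lit 163) (nat_lit 164) (nat_lit 2) (nat_lit 7) (nat_lit 10) L66414 (by decide +kernel)
theorem L66416 : W_26 (nat_lit 4) (nat_lit 0x8003c001e00000001000080000000000000000000000000000000) (nat_lit 0x0) (nat_lit 0x20001000200000000000180004000200000000000000000000000000000000) := T_26 (nat_lit 245) (nat_lit 228) (nat_lit 6) (nat_lit 7) (nat_lit 14) L66415 (by decide +kernel)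
theorem L66417 : W_26 (nat_lit 5) (nat_lit 0x8003c001600000001000080000000000000000000000000000000) (nat_lit 0x0) (nat_lit 0x20001000200002000800180004000200000000000000000000000000000000) := T_26 (nat_lit 179) (nat_lit 193) (nat_lit 2) (nat_lit 6) (nat_lit 11) L66416 (by decide +kernel)
theorem L66418 : W_26 (nat_lit 6) (nat_lit 0x8003c000600000001000080000000000000000000000000000000) (nat_lit 0x0) (nat_lit 0x20001000200002003800180004000200000000000000000000000000000000) := T_26 (nat_lit 180) (nat_lit 181) (nat_lit 2) (nat_lit 7) (nat_lit 11) L66417 (by decide +kernel)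
theorem L66419 : W_26 (nat_lit 7) (nat_lit 0x3c000600000001000080000000000000000000000000000000) (nat_lit 0x0) (nat_lit 0x200010002c0002003800180004000200000000000000000000000000000000) := T_26 (nat_lit 211) (nat_lit 210) (nat_lit 1) (nat_lit 10) (nat_lit 11) L66418 (by decide +kernel)
theorem L66420 : W_26 (nat_lit 8) (nat_lit 0x1c000600000001000080000000000000000000000000000000) (nat_lit 0x0) (nat_lit 0x200010002c0062003800180004000200000000000000000000000000000000) := T_26 (nat_lit 197) (nat_lit 198) (nat_lit 0) (nat_lit 11) (nat_lit 11) L66419 (by decide +kernel)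
theorem L66421 : W_26 (nat_lit 9) (nat_lit 0x1c000200000001000080000000000000000000000000000000) (nat_lit 0x0) (nat_lit 0x200010002c0062003c001a0004000200000000000000000000000000000000) := T_26 (nat_lit 178) (nat_lit 161) (nat_lit 5) (nat_lit 8) (nat_lit 7) L66420 (by decide +kernel)
theorem L66422 : W_26 (nat_lit 13) (nat_lit 0x14000200000001000080000000000000000000000000000000) (nat_lit 0x0) (nat_lit 0x1f001f803ff01eb007c001e0004000200000000000000000000000000000000) := Q_26 (nat_lit 195) (C_26 L66378 (C_26 L5085 (C_26 L66398 (C_26 L5110 (C_26 L5080 (C_26 L66409 (C_26 L66413 (C_26 L66421 N_26)))))))) (by decide +kernel)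
theorem L66423 : W_26 (nat_lit 7) (nat_lit 0x14000600000001000080000000000000000000000000000000) (nat_lit 0x0) (nat_lit 0x50002800e30019001cc004400200000000000000000000000000000000) := Q_26 (nat_lit 179) (C_26 L5145 (C_26 L5149 (C_26 L5150 (C_26 L5155 (C_26 L5159 N_26))))) (by decide +kernel)
theorem L66424 : W_26 (nat_lit 8) (nat_lit 0x14000200000001000080000000000000000000000000000000) (nat_lit 0x0) (nat_lit 0x50002800e3001d001ec004400200000000000000000000000000000000) := T_26 (nat_lit 178) (nat_lit 161) (nat_lit 5) (nat_lit 8) (nat_lit 7) L66423 (by decide +kernel)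
theorem L66425 : W_26 (nat_lit 8) (nat_lit 0x34000200000001000080000000000000000000000000000000) (nat_lit 0x0) (nat_lit 0x39c01ca003900000000000000000000000000000000000000000000) := T_26 (nat_lit 195) (nat_lit 176) (nat_lit 0) (nat_lit 10) (nat_lit 11) L66377 (by decide +kernel)
theorem L66426 : W_26 (nat_lit 2) (nat_lit 0x48007e000200020001000080000000000000000000000000000000) (nat_lit 0x0) (nat_lit 0x7000000000000000000000000000000000000000000000) := D_26 (nat_lit 181) (nat_lit 180) (nat_lit 182) (nat_lit 2) (nat_lit 7) (nat_lit 11) (nat_lit 2) (nat_lit 8) (nat_lit 11) (by decide +kernel)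
theorem L66427 : W_26 (nat_lit 3) (nat_lit 0x48003e000200020001000080000000000000000000000000000000) (nat_lit 0x0) (nat_lit 0x100040007000000000000000000000000000000000000000000000) := T_26 (nat_lit 198) (nat_lit 212) (nat_lit 1) (nat_lit 11) (nat_lit 11) L66426 (by decide +kernel)
theorem L66428 : W_26 (nat_lit 4) (nat_lit 0x48003c000200020001000080000000000000000000000000000000) (nat_lit 0x0) (nat_lit 0x300042007000000000000000000000000000000000000000000000) := T_26 (nat_lit 193) (nat_lit 213) (nat_lit 3) (nat_lit 6) (nat_lit 11) L66427 (by decide +kernel)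
theorem L66429 : W_26 (nat_lit 5) (nat_lit 0x8003c000200020001000080000000000000000000000000000000) (nat_lit 0x0) (nat_lit 0xf00042007000000000000000000000000000000000000000000000) := T_26 (nat_lit 214) (nat_lit 215) (nat_lit 3) (nat_lit 7) (nat_lit 11) L66428 (by decide +kernel)
theorem L66430 : W_26 (nat_lit 6) (nat_lit 0x3c000200020001000080000000000000000000000000000000) (nat_lit 0x0) (nat_lit 0xfc0042007000000000000000000000000000000000000000000000) := T_26 (nat_lit 211) (nat_lit 210) (nat_lit 1) (nat_lit 10) (nat_lit 11) L66429 (by decide +kernel)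
theorem L66431 : W_26 (nat_lit 7) (nat_lit 0x34000200020001000080000000000000000000000000000000) (nat_lit 0x0) (nat_lit 0xfc004a007100000000000000000000000000000000000000000000) := T_26 (nat_lit 195) (nat_lit 176) (nat_lit 0) (nat_lit 10) (nat_lit 11) L66430 (by decide +kernel)
theorem L66432 : W_26 (nat_lit 8) (nat_lit 0x34000200000001000080000000000000000000000000000000) (nat_lit 0x0) (nat_lit 0xfc004a007500020000000000000000000000000000000000000000) := T_26 (nat_lit 161) (nat_lit 178) (nat_lit 5) (nat_lit 8) (nat_lit 7) L66431 (by decide +kernel)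
theorem L66433 : W_26 (nat_lit 5) (nat_lit 0x34000200000001000080000000000000000000000000000000) (nat_lit 0x0) (nat_lit 0xee000a000100000000000000000000000000000000000000000000) := T_26 (nat_lit 195) (nat_lit 176) (nat_lit 0) (nat_lit 10) (nat_lit 11) L5049 (by decide +kernel)
theorem L66434 : W_26 (nat_lit 9) (nat_lit 0x14000200000001000080000000000000000000000000000000) (nat_lit 0x0) (nat_lit 0x3fe01ea007d00020000000000000000000000000000000000000000) := Q_26 (nat_lit 197) (C_26 L66425 (C_26 L5127 (C_26 L5131 (C_26 L66432 (C_26 L66433 N_26))))) (by decide +kernel)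
theorem L66435 : W_26 (nat_lit 6) (nat_lit 0x14000200000001000080000000000000000000000000000000) (nat_lit 0x0) (nat_lit 0xf7006b007d00060000000000000000000000000000000000000000) := Q_26 (nat_lit 195) (C_26 L7840 (C_26 L66413 (C_26 L7821 (C_26 L5194 N_26)))) (by decide +kernel)
theorem L66436 : W_26 (nat_lit 2) (nat_lit 0x20001f000200020001000080000000000000000000000000000000) (nat_lit 0x0) (nat_lit 0x1c0000000000000000000000000000000000000000000) := D_26 (nat_lit 175) (nat_lit 176) (nat_lit 174) (nat_lit 0) (nat_lit 9) (nat_lit 11) (nat_lit 0) (nat_lit 8) (nat_lit 11) (by decide +kernel)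
theorem L66437 : W_26 (nat_lit 3) (nat_lit 0x20001e000200020001000080000000000000000000000000000000) (nat_lit 0x0) (nat_lit 0x1000010001c0000000000000000000000000000000000000000000) := T_26 (nat_lit 192) (nat_lit 212) (nat_lit 3) (nat_lit 5) (nat_lit 11) L66436 (by decide +kernel)
theorem L66438 : W_26 (nat_lit 4) (nat_lit 0x1e000200020001000080000000000000000000000000000000) (nat_lit 0x0) (nat_lit 0x7000010001c0000000000000000000000000000000000000000000) := T_26 (nat_lit 213) (nat_lit 214) (nat_lit 3) (nat_lit 6) (nat_lit 11) L66437 (by decide +kernel)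
theorem L66439 : W_26 (nat_lit 5) (nat_lit 0x1e000200000001000080000000000000000000000000000000) (nat_lit 0x0) (nat_lit 0x7000010005c0020000000000000000000000000000000000000000) := T_26 (nat_lit 161) (nat_lit 178) (nat_lit 5) (nat_lit 8) (nat_lit 7) L66438 (by decide +kernel)
theorem L66440 : W_26 (nat_lit 11) (nat_lit 0x1c000200000001000080000000000000000000000000000000) (nat_lit 0x0) (nat_lit 0x38001c007f00030005c002c000600030000000000000000000000000000000) := Q_26 (nat_lit 193) (C_26 L7805 (C_26 L66439 (C_26 L7882 N_26))) (by decide +kernel)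
theorem L66441 : W_26 (nat_lit 12) (nat_lit 0x14000200000001000080000000000000000000000000000000) (nat_lit 0x0) (nat_lit 0x78007c00ff006b0075c002c000600030000000000000000000000000000000) := Q_26 (nat_lit 195) (C_26 L66380 (C_26 L5194 (C_26 L5080 (C_26 L66440 N_26)))) (by decide +kernel)
theorem L66442 : W_26 (nat_lit 3) (nat_lit 0x34000200000001000080000000000000000000000000000000) (nat_lit 0x0) (nat_lit 0x48000500020000000000000000000000000000000000000000) := T_26 (nat_lit 195) (nat_lit 176) (nat_lit 0) (nat_lit 10) (nat_lit 11) L5193 (by decide +kernel)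
theorem L66443 : W_26 (nat_lit 2) (nat_lit 0x48003c001a00020001000080000000000000000000000000000000) (nat_lit 0x0) (nat_lit 0x100008000000000000000040000000000000000000000000000000000000000) := D_26 (nat_lit 231) (nat_lit 162) (nat_lit 248) (nat_lit 4) (nat_lit 10) (nat_lit 13) (nat_lit 4) (nat_lit 10) (nat_lit 14) (by decide +kernel)
theorem L66444 : W_26 (nat_lit 3) (nat_lit 0x48003c001200020001000080000000000000000000000000000000) (nat_lit 0x0) (nat_lit 0x100008000000002000800040000000000000000000000000000000000000000) := T_26 (nat_lit 179) (nat_lit 193) (nat_lit 2) (nat_lit 6) (nat_lit 11) L66443 (by decide +kernel)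
theorem L66445 : W_26 (nat_lit 4) (nat_lit 0x48003c000200020001000080000000000000000000000000000000) (nat_lit 0x0) (nat_lit 0x100008000000002003800040000000000000000000000000000000000000000) := T_26 (nat_lit 180) (nat_lit 181) (nat_lit 2) (nat_lit 7) (nat_lit 11) L66444 (by decide +kernel)
theorem L66446 : W_26 (nat_lit 5) (nat_lit 0x8003c000200020001000080000000000000000000000000000000) (nat_lit 0x0) (nat_lit 0x100008000c00002003800040000000000000000000000000000000000000000) := T_26 (nat_lit 214) (nat_lit 215) (nat_lit 3) (nat_lit 7) (nat_lit 11) L66445 (by decide +kernel)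
theorem L66447 : W_26 (nat_lit 6) (nat_lit 0x3c000200020001000080000000000000000000000000000000) (nat_lit 0x0) (nat_lit 0x100008000cc0002003800040000000000000000000000000000000000000000) := T_26 (nat_lit 211) (nat_lit 210) (nat_lit 1) (nat_lit 10) (nat_lit 11) L66446 (by decide +kernel)
theorem L66448 : W_26 (nat_lit 7) (nat_lit 0x34000200020001000080000000000000000000000000000000) (nat_lit 0x0) (nat_lit 0x100008000cc000a003900040000000000000000000000000000000000000000) := T_26 (nat_lit 195) (nat_lit 176) (nat_lit 0) (nat_lit 10) (nat_lit 11) L66447 (by decide +kernel)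
theorem L66449 : W_26 (nat_lit 8) (nat_lit 0x34000200000001000080000000000000000000000000000000) (nat_lit 0x0) (nat_lit 0x100008000cc000a003d00060000000000000000000000000000000000000000) := T_26 (nat_lit 161) (nat_lit 178) (nat_lit 5) (nat_lit 8) (nat_lit 7) L66448 (by decide +kernel)
theorem L66450 : W_26 (nat_lit 9) (nat_lit 0x14000200000001000080000000000000000000000000000000) (nat_lit 0x0) (nat_lit 0x100008003dc01ea007d00060000000000000000000000000000000000000000) := Q_26 (nat_lit 197) (C_26 L66425 (C_26 L5131 (C_26 L5127 (C_26 L5124 (C_26 L66442 (C_26 L66449 N_26)))))) (by decide +kernel)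
theorem L66451 : W_26 (nat_lit 6) (nat_lit 0x34000200000001000080000000000000000000000000000000) (nat_lit 0x0) (nat_lit 0xdc0048007100000000000000000000000000000000000000000000) := T_26 (nat_lit 195) (nat_lit 176) (nat_lit 0) (nat_lit 10) (nat_lit 11) L66371 (by decide +kernel)
theorem L66452 : W_26 (nat_lit 2) (nat_lit 0x34000600000001000080000000000000000000000000000000) (nat_lit 0x0) (nat_lit 0x8000900000000000000000000000000000000000000000000) := D_26 (nat_lit 176) (nat_lit 195) (nat_lit 179) (nat_lit 0) (nat_lit 10) (nat_lit 11) (nat_lit 3) (nat_lit 6) (nat_lit 10) (by decide +kernel)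
theorem L66453 : W_26 (nat_lit 3) (nat_lit 0x34000200000001000080000000000000000000000000000000) (nat_lit 0x0) (nat_lit 0x8000d00020000000000000000000000000000000000000000) := T_26 (nat_lit 178) (nat_lit 161) (nat_lit 5) (nat_lit 8) (nat_lit 7) L66452 (by decide +kernel)
theorem L66454 : W_26 (nat_lit 7) (nat_lit 0x14000200000001000080000000000000000000000000000000) (nat_lit 0x0) (nat_lit 0xdc00e8007d00020000000000000000000000000000000000000000) := Q_26 (nat_lit 197) (C_26 L66451 (C_26 L5127 (C_26 L5131 (C_26 L66442 (C_26 L66453 N_26))))) (by decide +kernel)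
theorem L66455 : W_26 (nat_lit 13) (nat_lit 0x14000200000001000080000000000000000000000000000000) (nat_lit 0x0) (nat_lit 0x1f801fc00ff006b000dc006c000600030000000000000000000000000000000) := Q_26 (nat_lit 195) (C_26 L5063 (C_26 L66440 (C_26 L66409 (C_26 L5194 N_26)))) (by decide +kernel)
theorem L66456 : W_26 (nat_lit 10) (nat_lit 0x16000200000001000080000000000000000000000000000000) (nat_lit 0x0) (nat_lit 0x300018007f00090019c000c000600030000000000000000000000000000000) := Q_26 (nat_lit 195) (C_26 L66388 (C_26 L7805 (C_26 L66384 N_26))) (by decide +kernel)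
theorem L66457 : W_26 (nat_lit 2) (nat_lit 0x1000e00024001e000e002c0001000080000000000000000000000000000000) (nat_lit 0x0) (nat_lit 0x20001000080000000000000000000000000000000000000000000000000000) := D_26 (nat_lit 228) (nat_lit 245) (nat_lit 211) (nat_lit 1) (nat_lit 10) (nat_lit 13) (nat_lit 0) (nat_lit 10) (nat_lit 13) (by decide +kernel)
theorem L66458 : W_26 (nat_lit 3) (nat_lit 0x1000600024001e000e002c0001000080000000000000000000000000000000) (nat_lit 0x0) (nat_lit 0x120009000080000000000000000000000000000000000000000000000000000) := T_26 (nat_lit 231) (nat_lit 248) (nat_lit 7) (nat_lit 9) (nat_lit 10) L66457 (by decide +kernel)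
theorem L66459 : W_26 (nat_lit 4) (nat_lit 0x1000600024001e000e000c0001000080000000000000000000000000000000) (nat_lit 0x0) (nat_lit 0x120009000080000000000300000000000000000000000000000000000000000) := T_26 (nat_lit 165) (nat_lit 164) (nat_lit 1) (nat_lit 12) (nat_lit 9) L66458 (by decide +kernel)
theorem L66460 : W_26 (nat_lit 5) (nat_lit 0x1000600024001e000e00040001000080000000000000000000000000000000) (nat_lit 0x0) (nat_lit 0x120009000080000000000380004000000000000000000000000000000000000) := T_26 (nat_lit 163) (nat_lit 146) (nat_lit 6) (nat_lit 9) (nat_lit 12) L66459 (by decide +kernel)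
theorem L66461 : W_26 (nat_lit 6) (nat_lit 0x1000600024001e000e00000001000080000000000000000000000000000000) (nat_lit 0x0) (nat_lit 0x1200090001800000000003c0004000000000000000000000000000000000000) := T_26 (nat_lit 162) (nat_lit 212) (nat_lit 6) (nat_lit 8) (nat_lit 13) L66460 (by decide +kernel)
theorem L66462 : W_26 (nat_lit 7) (nat_lit 0x1000400024001e000e00000001000080000000000000000000000000000000) (nat_lit 0x0) (nat_lit 0x16000b0001800000000003c0004000000000000000000000000000000000000) := T_26 (nat_lit 229) (nat_lit 246) (nat_lit 5) (nat_lit 9) (nat_lit 10) L66461 (by decide +kernel)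
theorem L66463 : W_26 (nat_lit 8) (nat_lit 0x1000000024001e000e00000001000080000000000000000000000000000000) (nat_lit 0x0) (nat_lit 0x1e000f0001800000000003c0004000000000000000000000000000000000000) := T_26 (nat_lit 230) (nat_lit 247) (nat_lit 4) (nat_lit 9) (nat_lit 14) L66462 (by decide +kernel)
theorem L66464 : W_26 (nat_lit 9) (nat_lit 0x24001e000e00000001000080000000000000000000000000000000) (nat_lit 0x0) (nat_lit 0x1f000f8001800000000003c0004000000000000000000000000000000000000) := T_26 (nat_lit 244) (nat_lit 227) (nat_lit 6) (nat_lit 6) (nat_lit 14) L66463 (by decide +kernel)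
theorem L66465 : W_26 (nat_lit 10) (nat_lit 0x4001e000e00000001000080000000000000000000000000000000) (nat_lit 0x0) (nat_lit 0x1f000f8007800000000003c0004000000000000000000000000000000000000) := T_26 (nat_lit 213) (nat_lit 214) (nat_lit 3) (nat_lit 6) (nat_lit 11) L66464 (by decide +kernel)
theorem L66466 : W_26 (nat_lit 11) (nat_lit 0x1e000e00000001000080000000000000000000000000000000) (nat_lit 0x0) (nat_lit 0x1f000f8007e00000000003c0004000000000000000000000000000000000000) := T_26 (nat_lit 210) (nat_lit 209) (nat_lit 1) (nat_lit 9) (nat_lit 11) L66465 (by decide +kernel)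
theorem L66467 : W_26 (nat_lit 12) (nat_lit 0x16000e00000001000080000000000000000000000000000000) (nat_lit 0x0) (nat_lit 0x1f000f8007e00090000003c0004000000000000000000000000000000000000) := T_26 (nat_lit 195) (nat_lit 192) (nat_lit 2) (nat_lit 5) (nat_lit 11) L66466 (by decide +kernel)
theorem L66468 : W_26 (nat_lit 13) (nat_lit 0x16000600000001000080000000000000000000000000000000) (nat_lit 0x0) (nat_lit 0x1f000f8007e00090018003c0004000000000000000000000000000000000000) := T_26 (nat_lit 179) (nat_lit 180) (nat_lit 1) (nat_lit 10) (nat_lit 10) L66467 (by decide +kernel)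
theorem L66469 : W_26 (nat_lit 14) (nat_lit 0x16000200000001000080000000000000000000000000000000) (nat_lit 0x0) (nat_lit 0x1f000f8007e0009001c003e0004000000000000000000000000000000000000) := T_26 (nat_lit 178) (nat_lit 161) (nat_lit 5) (nat_lit 8) (nat_lit 7) L66468 (by decide +kernel)
theorem L66470 : W_26 (nat_lit 4) (nat_lit 0x16000e00000001000080000000000000000000000000000000) (nat_lit 0x0) (nat_lit 0x100008000100010000c000400000000000000000000000000000000000) := T_26 (nat_lit 176) (nat_lit 192) (nat_lit 1) (nat_lit 9) (nat_lit 10) L16576 (by decide +kernel)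
theorem L66471 : W_26 (nat_lit 5) (nat_lit 0x16000600000001000080000000000000000000000000000000) (nat_lit 0x0) (nat_lit 0x100008000100190000c000400000000000000000000000000000000000) := T_26 (nat_lit 179) (nat_lit 180) (nat_lit 1) (nat_lit 10) (nat_lit 10) L66470 (by decide +kernel)
theorem L66472 : W_26 (nat_lit 6) (nat_lit 0x16000200000001000080000000000000000000000000000000) (nat_lit 0x0) (nat_lit 0x1000080001001d0002c000400000000000000000000000000000000000) := T_26 (nat_lit 178) (nat_lit 161) (nat_lit 5) (nat_lit 8) (nat_lit 7) L66471 (by decide +kernel)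
theorem L66473 : W_26 (nat_lit 2) (nat_lit 0x16000e00000001000080000000000000000000000000000000) (nat_lit 0x0) (nat_lit 0x9000100000000000000000000000000000000000000000000) := D_26 (nat_lit 192) (nat_lit 176) (nat_lit 195) (nat_lit 1) (nat_lit 9) (nat_lit 10) (nat_lit 2) (nat_lit 5) (nat_lit 11) (by decide +kernel)
theorem L66474 : W_26 (nat_lit 3) (nat_lit 0x16000600000001000080000000000000000000000000000000) (nat_lit 0x0) (nat_lit 0x9001900000000000000000000000000000000000000000000) := T_26 (nat_lit 179) (nat_lit 180) (nat_lit 1) (nat_lit 10) (nat_lit 10) L66473 (by decide +kernel)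
theorem L66475 : W_26 (nat_lit 4) (nat_lit 0x16000200000001000080000000000000000000000000000000) (nat_lit 0x0) (nat_lit 0x9001d00020000000000000000000000000000000000000000) := T_26 (nat_lit 178) (nat_lit 161) (nat_lit 5) (nat_lit 8) (nat_lit 7) L66474 (by decide +kernel)
theorem L66476 : W_26 (nat_lit 11) (nat_lit 0x16000200000001000080000000000000000000000000000000) (nat_lit 0x0) (nat_lit 0x38001c007f00090005c002c000600030000000000000000000000000000000) := Q_26 (nat_lit 195) (C_26 L7882 (C_26 L7805 (C_26 L66439 N_26))) (by decide +kernel)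
theorem L66477 : W_26 (nat_lit 11) (nat_lit 0x16000200000001000080000000000000000000000000000000) (nat_lit 0x0) (nat_lit 0x38001c006e0008001d8006c000600030000000000000000000000000000000) := Q_26 (nat_lit 195) (C_26 L7882 (C_26 L66388 (C_26 L66412 N_26))) (by decide +kernel)
theorem L66478 : W_26 (nat_lit 15) (nat_lit 0x14000200000001000080000000000000000000000000000000) (nat_lit 0x0) (nat_lit 0x1f800fc007f000b001dc03ec004600030000000000000000000000000000000) := Q_26 (nat_lit 193) (C_26 L66456 (C_26 L66469 (C_26 L66472 (C_26 L66475 (C_26 L66476 (C_26 L66477 N_26)))))) (by decide +kernel)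
theorem L66479 : W_26 (nat_lit 16) (nat_lit 0x4000200000001000080000000000000000000000000000000) (nat_lit 0x0) (nat_lit 0x1f801fc03ff01fb007dc03ec004600230000000000000000000000000000000) := Q_26 (nat_lit 196) (C_26 L66357 (C_26 L66390 (C_26 L66422 (C_26 L66424 (C_26 L66434 (C_26 L66435 (C_26 L66441 (C_26 L66450 (C_26 L66454 (C_26 L66455 (C_26 L66478 N_26))))))))))) (by decide +kernel)
theorem L66480 : W_26 (nat_lit 11) (nat_lit 0xc000200000001000080000000000000000000000000000000) (nat_lit 0x0) (nat_lit 0xb8007c03ff01f30079c008c000600030000000000000000000000000000000) := Q_26 (nat_lit 196) (C_26 L66378 (C_26 L66389 (C_26 L7840 (C_26 L66380 (C_26 L5063 (C_26 L66379 N_26)))))) (by decide +kernel)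
theorem L66481 : W_26 (nat_lit 2) (nat_lit 0x20001f000200000001000080000000000000000000000000000000) (nat_lit 0x0) (nat_lit 0x1c00000000000000000000000000000000000000000000) := D_26 (nat_lit 179) (nat_lit 178) (nat_lit 180) (nat_lit 2) (nat_lit 5) (nat_lit 11) (nat_lit 2) (nat_lit 6) (nat_lit 11) (by decide +kernel)
theorem L66482 : W_26 (nat_lit 3) (nat_lit 0x20001e000200000001000080000000000000000000000000000000) (nat_lit 0x0) (nat_lit 0x100001001c00000000000000000000000000000000000000000000) := T_26 (nat_lit 192) (nat_lit 212) (nat_lit 3) (nat_lit 5) (nat_lit 11) L66481 (by decide +kernel)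
theorem L66483 : W_26 (nat_lit 4) (nat_lit 0x1e000200000001000080000000000000000000000000000000) (nat_lit 0x0) (nat_lit 0x700001001c00000000000000000000000000000000000000000000) := T_26 (nat_lit 213) (nat_lit 214) (nat_lit 3) (nat_lit 6) (nat_lit 11) L66482 (by decide +kernel)
theorem L66484 : W_26 (nat_lit 9) (nat_lit 0x1e000a00000001000080000000000000000000000000000000) (nat_lit 0x0) (nat_lit 0x10000803fe00e0006400000000000000000000000000000000000000000000) := T_26 (nat_lit 213) (nat_lit 214) (nat_lit 3) (nat_lit 6) (nat_lit 11) L5251 (by decide +kernel)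
theorem L66485 : W_26 (nat_lit 10) (nat_lit 0x1e000200000001000080000000000000000000000000000000) (nat_lit 0x0) (nat_lit 0x10000803fe00e0007c00000000000000000000000000000000000000000000) := T_26 (nat_lit 179) (nat_lit 180) (nat_lit 2) (nat_lit 6) (nat_lit 11) L66484 (by decide +kernel)
theorem L66486 : W_26 (nat_lit 11) (nat_lit 0xe000200000001000080000000000000000000000000000000) (nat_lit 0x0) (nat_lit 0x10000803ff00f1007c00000000000000000000000000000000000000000000) := Q_26 (nat_lit 196) (C_26 L7805 (C_26 L66483 (C_26 L7802 (C_26 L66485 N_26)))) (by decide +kernel)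
theorem L66494 : W_26 (nat_lit 2) (nat_lit 0x1000000034001e000a00010001000080000000000000000000000000000000) (nat_lit 0x0) (nat_lit 0x40002000000000000000040000000000000000000000000000000000000000) := D_26 (nat_lit 229) (nat_lit 246) (nat_lit 162) (nat_lit 6) (nat_lit 8) (nat_lit 14) (nat_lit 5) (nat_lit 9) (nat_lit 9) (by decide +kernel)
theorem L66495 : W_26 (nat_lit 3) (nat_lit 0x1000000024001e000a00010001000080000000000000000000000000000000) (nat_lit 0x0) (nat_lit 0x40002000100001000000040000000000000000000000000000000000000000) := T_26 (nat_lit 212) (nat_lit 192) (nat_lit 3) (nat_lit 5) (nat_lit 11) L66494 (by decide +kernel)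
theorem L66496 : W_26 (nat_lit 4) (nat_lit 0x1000000004001e000a00010001000080000000000000000000000000000000) (nat_lit 0x0) (nat_lit 0x40002000700001000000040000000000000000000000000000000000000000) := T_26 (nat_lit 213) (nat_lit 214) (nat_lit 3) (nat_lit 6) (nat_lit 11) L66495 (by decide +kernel)
theorem L66497 : W_26 (nat_lit 5) (nat_lit 0x1000000004001e000200010001000080000000000000000000000000000000) (nat_lit 0x0) (nat_lit 0x40002000700001001800040000000000000000000000000000000000000000) := T_26 (nat_lit 179) (nat_lit 180) (nat_lit 2) (nat_lit 6) (nat_lit 11) L66496 (by decide +kernel)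
theorem L66498 : W_26 (nat_lit 6) (nat_lit 0x1000000004000e000200010001000080000000000000000000000000000000) (nat_lit 0x0) (nat_lit 0x40002000720011001800040000000000000000000000000000000000000000) := T_26 (nat_lit 196) (nat_lit 209) (nat_lit 1) (nat_lit 9) (nat_lit 11) L66497 (by decide +kernel)
theorem L66499 : W_26 (nat_lit 7) (nat_lit 0x1000000004000e000200000001000080000000000000000000000000000000) (nat_lit 0x0) (nat_lit 0x40002000720011001800050000800000000000000000000000000000000000) := T_26 (nat_lit 160) (nat_lit 143) (nat_lit 6) (nat_lit 7) (nat_lit 11) L66498 (by decide +kernel)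
theorem L66500 : W_26 (nat_lit 8) (nat_lit 0x4000e000200000001000080000000000000000000000000000000) (nat_lit 0x0) (nat_lit 0x50002800720011001800050000800000000000000000000000000000000000) := T_26 (nat_lit 244) (nat_lit 227) (nat_lit 6) (nat_lit 6) (nat_lit 14) L66499 (by decide +kernel)
theorem L66501 : W_26 (nat_lit 2) (nat_lit 0x24003f000280000001800080000000000000000000000000000000) (nat_lit 0x0) (nat_lit 0x3800000000000000000000000000000000000000000000) := D_26 (nat_lit 180) (nat_lit 179) (nat_lit 181) (nat_lit 2) (nat_lit 6) (nat_lit 11) (nat_lit 2) (nat_lit 7) (nat_lit 11) (by decide +kernel)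
theorem L66502 : W_26 (nat_lit 3) (nat_lit 0x24001f000280000001800080000000000000000000000000000000) (nat_lit 0x0) (nat_lit 0x80020003800000000000000000000000000000000000000000000) := T_26 (nat_lit 197) (nat_lit 211) (nat_lit 1) (nat_lit 10) (nat_lit 11) L66501 (by decide +kernel)
theorem L66503 : W_26 (nat_lit 4) (nat_lit 0x24001f000200000001800080000000000000000000000000000000) (nat_lit 0x0) (nat_lit 0x800200038c0000000000000000000000000000000000000000000) := T_26 (nat_lit 175) (nat_lit 174) (nat_lit 0) (nat_lit 8) (nat_lit 11) L66502 (by decide +kernel)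
theorem L66504 : W_26 (nat_lit 5) (nat_lit 0x24001e000200000001800080000000000000000000000000000000) (nat_lit 0x0) (nat_lit 0x1800210038c0000000000000000000000000000000000000000000) := T_26 (nat_lit 192) (nat_lit 212) (nat_lit 3) (nat_lit 5) (nat_lit 11) L66503 (by decide +kernel)
theorem L66505 : W_26 (nat_lit 6) (nat_lit 0x4001e000200000001800080000000000000000000000000000000) (nat_lit 0x0) (nat_lit 0x7800210038c0000000000000000000000000000000000000000000) := T_26 (nat_lit 213) (nat_lit 214) (nat_lit 3) (nat_lit 6) (nat_lit 11) L66504 (by decide +kernel)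
theorem L66506 : W_26 (nat_lit 7) (nat_lit 0x4001e000200000001000080000000000000000000000000000000) (nat_lit 0x0) (nat_lit 0x7800210038c0010000800000000000000000000000000000000000) := T_26 (nat_lit 143) (nat_lit 160) (nat_lit 6) (nat_lit 7) (nat_lit 11) L66505 (by decide +kernel)
theorem L66507 : W_26 (nat_lit 8) (nat_lit 0x4000e000200000001000080000000000000000000000000000000) (nat_lit 0x0) (nat_lit 0x7a00310038c0010000800000000000000000000000000000000000) := T_26 (nat_lit 196) (nat_lit 209) (nat_lit 1) (nat_lit 9) (nat_lit 11) L66506 (by decide +kernel)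
theorem L66508 : W_26 (nat_lit 9) (nat_lit 0xe000200000001000080000000000000000000000000000000) (nat_lit 0x0) (nat_lit 0x500028007e00310038c0050000800000000000000000000000000000000000) := Q_26 (nat_lit 210) (C_26 L5231 (C_26 L66493 (C_26 L66500 (C_26 L66507 N_26)))) (by decide +kernel)
theorem L66512 : W_26 (nat_lit 3) (nat_lit 0xf000600000001000080000000000000000000000000000000) (nat_lit 0x0) (nat_lit 0x40002000300000000000010000000000000000000000000000000000000000) := T_26 (nat_lit 212) (nat_lit 213) (nat_lit 3) (nat_lit 5) (nat_lit 11) L5278 (by decide +kernel)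
theorem L66513 : W_26 (nat_lit 4) (nat_lit 0xf000200000001000080000000000000000000000000000000) (nat_lit 0x0) (nat_lit 0x40002000300000000c00010000000000000000000000000000000000000000) := T_26 (nat_lit 178) (nat_lit 179) (nat_lit 2) (nat_lit 5) (nat_lit 11) L66512 (by decide +kernel)
theorem L66518 : W_26 (nat_lit 6) (nat_lit 0x10000f000600000001000080000000000000000000000000000000) (nat_lit 0x0) (nat_lit 0x500028000700100000c0004000000000000000000000000000000000000000) := T_26 (nat_lit 246) (nat_lit 229) (nat_lit 4) (nat_lit 8) (nat_lit 14) L66517 (by decide +kernel)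
theorem L66519 : W_26 (nat_lit 7) (nat_lit 0x10000f000200000001000080000000000000000000000000000000) (nat_lit 0x0) (nat_lit 0x50002800070010000cc0004000000000000000000000000000000000000000) := T_26 (nat_lit 178) (nat_lit 179) (nat_lit 2) (nat_lit 5) (nat_lit 11) L66518 (by decide +kernel)
theorem L66520 : W_26 (nat_lit 8) (nat_lit 0xf000200000001000080000000000000000000000000000000) (nat_lit 0x0) (nat_lit 0x50002800370010000cc0004000000000000000000000000000000000000000) := T_26 (nat_lit 212) (nat_lit 213) (nat_lit 3) (nat_lit 5) (nat_lit 11) L66519 (by decide +kernel)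
theorem L66521 : W_26 (nat_lit 2) (nat_lit 0x1000200006000f000680014001000080000000000000000000000000000000) (nat_lit 0x0) (nat_lit 0xa000400000000000000000000000000000000000) := D_26 (nat_lit 159) (nat_lit 142) (nat_lit 157) (nat_lit 6) (nat_lit 5) (nat_lit 12) (nat_lit 3) (nat_lit 4) (nat_lit 9) (by decide +kernel)
theorem L66522 : W_26 (nat_lit 3) (nat_lit 0x1000200006000f000680010001000080000000000000000000000000000000) (nat_lit 0x0) (nat_lit 0xe000600000000000000000000000000000000000) := T_26 (nat_lit 158) (nat_lit 141) (nat_lit 7) (nat_lit 5) (nat_lit 8) L66521 (by decide +kernel)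
theorem L66523 : W_26 (nat_lit 4) (nat_lit 0x1000200006000f000600010001000080000000000000000000000000000000) (nat_lit 0x0) (nat_lit 0xc000e000600000000000000000000000000000000000) := T_26 (nat_lit 175) (nat_lit 174) (nat_lit 0) (nat_lit 8) (nat_lit 11) L66522 (by decide +kernel)
theorem L66524 : W_26 (nat_lit 5) (nat_lit 0x1000000006000f000600010001000080000000000000000000000000000000) (nat_lit 0x0) (nat_lit 0x20001000000000c000e000600000000000000000000000000000000000) := T_26 (nat_lit 229) (nat_lit 212) (nat_lit 4) (nat_lit 8) (nat_lit 13) L66523 (by decide +kernel)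
theorem L66525 : W_26 (nat_lit 6) (nat_lit 0x6000f000600010001000080000000000000000000000000000000) (nat_lit 0x0) (nat_lit 0x100028001000000000c000e000600000000000000000000000000000000000) := T_26 (nat_lit 244) (nat_lit 227) (nat_lit 6) (nat_lit 6) (nat_lit 14) L66524 (by decide +kernel)
theorem L66526 : W_26 (nat_lit 7) (nat_lit 0x6000f000600000001000080000000000000000000000000000000) (nat_lit 0x0) (nat_lit 0x100028001000000000c001e000e00000000000000000000000000000000000) := T_26 (nat_lit 160) (nat_lit 143) (nat_lit 6) (nat_lit 7) (nat_lit 11) L66525 (by decide +kernel)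
theorem L66527 : W_26 (nat_lit 8) (nat_lit 0x2000f000600000001000080000000000000000000000000000000) (nat_lit 0x0) (nat_lit 0x100028001400100000c001e000e00000000000000000000000000000000000) := T_26 (nat_lit 210) (nat_lit 196) (nat_lit 1) (nat_lit 9) (nat_lit 11) L66526 (by decide +kernel)
theorem L66528 : W_26 (nat_lit 9) (nat_lit 0x2000f000200000001000080000000000000000000000000000000) (nat_lit 0x0) (nat_lit 0x10002800140010000cc001e000e00000000000000000000000000000000000) := T_26 (nat_lit 178) (nat_lit 179) (nat_lit 2) (nat_lit 5) (nat_lit 11) L66527 (by decide +kernel)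
theorem L66529 : W_26 (nat_lit 10) (nat_lit 0xf000200000001000080000000000000000000000000000000) (nat_lit 0x0) (nat_lit 0x10002800170010000cc001e000e00000000000000000000000000000000000) := T_26 (nat_lit 209) (nat_lit 208) (nat_lit 1) (nat_lit 8) (nat_lit 11) L66528 (by decide +kernel)
theorem L66530 : W_26 (nat_lit 6) (nat_lit 0xf000680000001000080000000000000000000000000000000) (nat_lit 0x0) (nat_lit 0xe70070000000010000800000000000000000000000000000000000) := T_26 (nat_lit 160) (nat_lit 143) (nat_lit 6) (nat_lit 7) (nat_lit 11) L23848 (by decide +kernel)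
theorem L66531 : W_26 (nat_lit 7) (nat_lit 0xf000280000001000080000000000000000000000000000000) (nat_lit 0x0) (nat_lit 0xe70070000c00010000800000000000000000000000000000000000) := T_26 (nat_lit 178) (nat_lit 179) (nat_lit 2) (nat_lit 5) (nat_lit 11) L66530 (by decide +kernel)
theorem L66532 : W_26 (nat_lit 8) (nat_lit 0xf000200000001000080000000000000000000000000000000) (nat_lit 0x0) (nat_lit 0xe70070000cc0010000800000000000000000000000000000000000) := T_26 (nat_lit 175) (nat_lit 174) (nat_lit 0) (nat_lit 8) (nat_lit 11) L66531 (by decide +kernel)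
theorem L66533 : W_26 (nat_lit 11) (nat_lit 0xe000200000001000080000000000000000000000000000000) (nat_lit 0x0) (nat_lit 0x50002800f70071000cc001e000e00000000000000000000000000000000000) := Q_26 (nat_lit 192) (C_26 L66511 (C_26 L66513 (C_26 L10288 (C_26 L66520 (C_26 L66529 (C_26 L66532 N_26)))))) (by decide +kernel)
theorem L66537 : W_26 (nat_lit 4) (nat_lit 0x10000e000200000001000080000000000000000000000000000000) (nat_lit 0x0) (nat_lit 0x40002000200001000c00010000000000000000000000000000000000000000) := T_26 (nat_lit 192) (nat_lit 213) (nat_lit 3) (nat_lit 5) (nat_lit 11) L5279 (by decide +kernel)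
theorem L66538 : W_26 (nat_lit 2) (nat_lit 0x30000e000200000001800080000000000000000000000000000000) (nat_lit 0x0) (nat_lit 0xc80000000000000000000000000000000000000000000000000000) := D_26 (nat_lit 214) (nat_lit 215) (nat_lit 211) (nat_lit 0) (nat_lit 11) (nat_lit 12) (nat_lit 0) (nat_lit 10) (nat_lit 12) (by decide +kernel)
theorem L66539 : W_26 (nat_lit 3) (nat_lit 0x10000e000200000001800080000000000000000000000000000000) (nat_lit 0x0) (nat_lit 0xe80001000000000000000000000000000000000000000000000000) := T_26 (nat_lit 213) (nat_lit 192) (nat_lit 3) (nat_lit 5) (nat_lit 11) L66538 (by decide +kernel)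
theorem L66540 : W_26 (nat_lit 4) (nat_lit 0x10000e000200000001000080000000000000000000000000000000) (nat_lit 0x0) (nat_lit 0xe80001000000010000800000000000000000000000000000000000) := T_26 (nat_lit 143) (nat_lit 160) (nat_lit 7) (nat_lit 7) (nat_lit 8) L66539 (by decide +kernel)
theorem L66541 : W_26 (nat_lit 5) (nat_lit 0xe000200000001000080000000000000000000000000000000) (nat_lit 0x0) (nat_lit 0x40002000f80001000c00010000800000000000000000000000000000000000) := Q_26 (nat_lit 212) (C_26 L16623 (C_26 L66536 (C_26 L66537 (C_26 L66540 N_26)))) (by decide +kernel)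
theorem L66542 : W_26 (nat_lit 2) (nat_lit 0x4000000016000f000280000001800080000000000000000000000000000000) (nat_lit 0x0) (nat_lit 0x10000800000000000000004000000000000000000000000000000000000000) := D_26 (nat_lit 227) (nat_lit 244) (nat_lit 158) (nat_lit 6) (nat_lit 6) (nat_lit 14) (nat_lit 7) (nat_lit 5) (nat_lit 9) (by decide +kernel)
theorem L66543 : W_26 (nat_lit 3) (nat_lit 0x4000000012000f000280000001800080000000000000000000000000000000) (nat_lit 0x0) (nat_lit 0x10000800040010000000004000000000000000000000000000000000000000) := T_26 (nat_lit 210) (nat_lit 196) (nat_lit 1) (nat_lit 9) (nat_lit 11) L66542 (by decide +kernel)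
theorem L66544 : W_26 (nat_lit 4) (nat_lit 0x4000000012000f000200000001800080000000000000000000000000000000) (nat_lit 0x0) (nat_lit 0x100008000400100000c0004000000000000000000000000000000000000000) := T_26 (nat_lit 175) (nat_lit 174) (nat_lit 0) (nat_lit 8) (nat_lit 11) L66543 (by decide +kernel)
theorem L66545 : W_26 (nat_lit 5) (nat_lit 0x4000000010000f000200000001800080000000000000000000000000000000) (nat_lit 0x0) (nat_lit 0x100008000700100000c0004000000000000000000000000000000000000000) := T_26 (nat_lit 209) (nat_lit 208) (nat_lit 1) (nat_lit 8) (nat_lit 11) L66544 (by decide +kernel)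
theorem L66546 : W_26 (nat_lit 6) (nat_lit 0x4000000010000e000200000001800080000000000000000000000000000000) (nat_lit 0x0) (nat_lit 0x100008002700110000c0004000000000000000000000000000000000000000) := T_26 (nat_lit 192) (nat_lit 213) (nat_lit 3) (nat_lit 5) (nat_lit 11) L66545 (by decide +kernel)
theorem L66547 : W_26 (nat_lit 7) (nat_lit 0x4000000010000e000200000001000080000000000000000000000000000000) (nat_lit 0x0) (nat_lit 0x100008002700110000c0014000800000000000000000000000000000000000) := T_26 (nat_lit 143) (nat_lit 160) (nat_lit 7) (nat_lit 7) (nat_lit 8) L66546 (by decide +kernel)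
theorem L66548 : W_26 (nat_lit 8) (nat_lit 0x10000e000200000001000080000000000000000000000000000000) (nat_lit 0x0) (nat_lit 0x500028002700110000c0014000800000000000000000000000000000000000) := T_26 (nat_lit 246) (nat_lit 229) (nat_lit 4) (nat_lit 8) (nat_lit 14) L66547 (by decide +kernel)
theorem L66549 : W_26 (nat_lit 9) (nat_lit 0xe000200000001000080000000000000000000000000000000) (nat_lit 0x0) (nat_lit 0x50002800ff00110000c0014000800000000000000000000000000000000000) := Q_26 (nat_lit 212) (C_26 L66540 (C_26 L66536 (C_26 L66548 (C_26 L16623 N_26)))) (by decide +kernel)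
theorem L66550 : W_26 (nat_lit 2) (nat_lit 0x1000000004001e000e00000001000080000000000000000000000000000000) (nat_lit 0x0) (nat_lit 0x80060000000000000000000000000000000000000000000000000) := D_26 (nat_lit 197) (nat_lit 211) (nat_lit 198) (nat_lit 1) (nat_lit 10) (nat_lit 11) (nat_lit 0) (nat_lit 11) (nat_lit 11) (by decide +kernel)
theorem L66551 : W_26 (nat_lit 3) (nat_lit 0x1000000004001e000a00000001000080000000000000000000000000000000) (nat_lit 0x0) (nat_lit 0x80061000400000000000000000000000000000000000000000000) := T_26 (nat_lit 178) (nat_lit 192) (nat_lit 2) (nat_lit 5) (nat_lit 11) L66550 (by decide +kernel)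
theorem L66552 : W_26 (nat_lit 4) (nat_lit 0x1000000004001e000200000001000080000000000000000000000000000000) (nat_lit 0x0) (nat_lit 0x80061001c00000000000000000000000000000000000000000000) := T_26 (nat_lit 179) (nat_lit 180) (nat_lit 2) (nat_lit 6) (nat_lit 11) L66551 (by decide +kernel)
theorem L66553 : W_26 (nat_lit 5) (nat_lit 0x4001e000200000001000080000000000000000000000000000000) (nat_lit 0x0) (nat_lit 0x10000800080061001c00000000000000000000000000000000000000000000) := T_26 (nat_lit 244) (nat_lit 227) (nat_lit 6) (nat_lit 6) (nat_lit 14) L66552 (by decide +kernel)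
theorem L66554 : W_26 (nat_lit 6) (nat_lit 0x4000e000200000001000080000000000000000000000000000000) (nat_lit 0x0) (nat_lit 0x100008000a0071001c00000000000000000000000000000000000000000000) := T_26 (nat_lit 196) (nat_lit 209) (nat_lit 1) (nat_lit 9) (nat_lit 11) L66553 (by decide +kernel)
theorem L66557 : W_26 (nat_lit 4) (nat_lit 0x4001e000200000001000080000000000000000000000000000000) (nat_lit 0x0) (nat_lit 0x80020003800010000800000000000000000000000000000000000) := T_26 (nat_lit 160) (nat_lit 143) (nat_lit 6) (nat_lit 7) (nat_lit 11) L66556 (by decide +kernel)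
theorem L66558 : W_26 (nat_lit 5) (nat_lit 0x4000e000200000001000080000000000000000000000000000000) (nat_lit 0x0) (nat_lit 0xa0030003800010000800000000000000000000000000000000000) := T_26 (nat_lit 196) (nat_lit 209) (nat_lit 1) (nat_lit 9) (nat_lit 11) L66557 (by decide +kernel)
theorem L66559 : W_26 (nat_lit 9) (nat_lit 0xe000200000001000080000000000000000000000000000000) (nat_lit 0x0) (nat_lit 0x10000801ce0071003c00010000800000000000000000000000000000000000) := Q_26 (nat_lit 210) (C_26 L5231 (C_26 L66554 (C_26 L17263 (C_26 L66558 N_26)))) (by decide +kernel)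
theorem L66560 : W_26 (nat_lit 8) (nat_lit 0x1e000200000001000080000000000000000000000000000000) (nat_lit 0x0) (nat_lit 0x10000801c60060003c00010000800000000000000000000000000000000000) := T_26 (nat_lit 210) (nat_lit 209) (nat_lit 1) (nat_lit 9) (nat_lit 11) L17262 (by decide +kernel)
theorem L66561 : W_26 (nat_lit 11) (nat_lit 0xe000200000001000080000000000000000000000000000000) (nat_lit 0x0) (nat_lit 0x10000803fe00f0007c00010000800000000000000000000000000000000000) := Q_26 (nat_lit 196) (C_26 L66485 (C_26 L17215 (C_26 L66560 (C_26 L5268 (C_26 L5272 (C_26 L5276 N_26)))))) (by decide +kernel)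
theorem L66562 : W_26 (nat_lit 2) (nat_lit 0x14001f000a80000001f00080000000000000000000000000000000) (nat_lit 0x0) (nat_lit 0x1c000000000000000000000000000000) := D_26 (nat_lit 123) (nat_lit 124) (nat_lit 122) (nat_lit 0) (nat_lit 8) (nat_lit 8) (nat_lit 0) (nat_lit 7) (nat_lit 8) (by decide +kernel)
theorem L66563 : W_26 (nat_lit 3) (nat_lit 0x14001f000a80000001e00080000000000000000000000000000000) (nat_lit 0x0) (nat_lit 0x10005c000000000000000000000000000000) := T_26 (nat_lit 140) (nat_lit 126) (nat_lit 2) (nat_lit 4) (nat_lit 8) L66562 (by decide +kernel)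
theorem L66564 : W_26 (nat_lit 4) (nat_lit 0x14001f000a80000001a00080000000000000000000000000000000) (nat_lit 0x0) (nat_lit 0x50015c000000000000000000000000000000) := T_26 (nat_lit 142) (nat_lit 128) (nat_lit 2) (nat_lit 5) (nat_lit 8) L66563 (by decide +kernel)
theorem L66565 : W_26 (nat_lit 5) (nat_lit 0x14001f000a80000001800080000000000000000000000000000000) (nat_lit 0x0) (nat_lit 0x400070015c000000000000000000000000000000) := T_26 (nat_lit 141) (nat_lit 158) (nat_lit 7) (nat_lit 5) (nat_lit 8) L66564 (by decide +kernel)
theorem L66566 : W_26 (nat_lit 6) (nat_lit 0x4001f000a80000001800080000000000000000000000000000000) (nat_lit 0x0) (nat_lit 0x30000000000000400070015c000000000000000000000000000000) := T_26 (nat_lit 212) (nat_lit 213) (nat_lit 3) (nat_lit 5) (nat_lit 11) L66565 (by decide +kernel)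
theorem L66567 : W_26 (nat_lit 7) (nat_lit 0x4001f000a00000001800080000000000000000000000000000000) (nat_lit 0x0) (nat_lit 0x3000000000c000400070015c000000000000000000000000000000) := T_26 (nat_lit 175) (nat_lit 174) (nat_lit 0) (nat_lit 8) (nat_lit 11) L66566 (by decide +kernel)
theorem L66568 : W_26 (nat_lit 8) (nat_lit 0x4001e000a00000001800080000000000000000000000000000000) (nat_lit 0x0) (nat_lit 0x3000010004c000400070015c000000000000000000000000000000) := T_26 (nat_lit 192) (nat_lit 178) (nat_lit 2) (nat_lit 5) (nat_lit 11) L66567 (by decide +kernel)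
theorem L66569 : W_26 (nat_lit 9) (nat_lit 0x4001e000200000001800080000000000000000000000000000000) (nat_lit 0x0) (nat_lit 0x300001001cc000400070015c000000000000000000000000000000) := T_26 (nat_lit 179) (nat_lit 180) (nat_lit 2) (nat_lit 6) (nat_lit 11) L66568 (by decide +kernel)
theorem L66570 : W_26 (nat_lit 10) (nat_lit 0x4001e000200000001000080000000000000000000000000000000) (nat_lit 0x0) (nat_lit 0x300001001cc0014000f0015c000000000000000000000000000000) := T_26 (nat_lit 143) (nat_lit 160) (nat_lit 6) (nat_lit 7) (nat_lit 11) L66569 (by decide +kernel)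
theorem L66571 : W_26 (nat_lit 11) (nat_lit 0x4000e000200000001000080000000000000000000000000000000) (nat_lit 0x0) (nat_lit 0x320011001cc0014000f0015c000000000000000000000000000000) := T_26 (nat_lit 196) (nat_lit 209) (nat_lit 1) (nat_lit 9) (nat_lit 11) L66570 (by decide +kernel)
theorem L66572 : W_26 (nat_lit 12) (nat_lit 0xe000200000001000080000000000000000000000000000000) (nat_lit 0x0) (nat_lit 0x100008003e0071003cc0014000f0015c000000000000000000000000000000) := Q_26 (nat_lit 210) (C_26 L5231 (C_26 L66558 (C_26 L66554 (C_26 L66571 N_26)))) (by decide +kernel)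
theorem L66573 : W_26 (nat_lit 13) (nat_lit 0xc000200000001000080000000000000000000000000000000) (nat_lit 0x0) (nat_lit 0x50002803ff00f3007cc005e000f0015c000000000000000000000000000000) := Q_26 (nat_lit 193) (C_26 L66486 (C_26 L66508 (C_26 L66533 (C_26 L66541 (C_26 L66549 (C_26 L66559 (C_26 L66561 (C_26 L66572 N_26)))))))) (by decide +kernel)
theorem L66574 : W_26 (nat_lit 6) (nat_lit 0x1c000200000001000080000000000000000000000000000000) (nat_lit 0x0) (nat_lit 0x100008007f0003001c00010000800000000000000000000000000000000000) := Q_26 (nat_lit 193) (C_26 L5276 (C_26 L66483 (C_26 L7805 N_26))) (by decide +kernel)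
theorem L66575 : W_26 (nat_lit 9) (nat_lit 0xc000200000001000080000000000000000000000000000000) (nat_lit 0x0) (nat_lit 0x90004803ff01f3007d00090000800000000000000000000000000000000000) := Q_26 (nat_lit 196) (C_26 L66380 (C_26 L66378 (C_26 L7840 (C_26 L5063 (C_26 L66574 (C_26 L66379 N_26)))))) (by decide +kernel)
theorem L66576 : W_26 (nat_lit 9) (nat_lit 0x1c000200000001000080000000000000000000000000000000) (nat_lit 0x0) (nat_lit 0x10000801f70063003c00010000800000000000000000000000000000000000) := Q_26 (nat_lit 193) (C_26 L5272 (C_26 L66483 (C_26 L7805 (C_26 L66560 (C_26 L7802 N_26))))) (by decide +kernel)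
theorem L66577 : W_26 (nat_lit 5) (nat_lit 0x1e000200010001000080000000000000000000000000000000) (nat_lit 0x0) (nat_lit 0x800660000001980000000000000000000000000000000000000000000) := T_26 (nat_lit 213) (nat_lit 214) (nat_lit 3) (nat_lit 6) (nat_lit 11) L5471 (by decide +kernel)
theorem L66578 : W_26 (nat_lit 6) (nat_lit 0x1e000200000001000080000000000000000000000000000000) (nat_lit 0x0) (nat_lit 0x800660000001980010000800000000000000000000000000000000000) := T_26 (nat_lit 160) (nat_lit 143) (nat_lit 6) (nat_lit 7) (nat_lit 11) L66577 (by decide +kernel)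
theorem L66579 : W_26 (nat_lit 7) (nat_lit 0x1c000200000001000080000000000000000000000000000000) (nat_lit 0x0) (nat_lit 0x800770003001dc0010000800000000000000000000000000000000000) := Q_26 (nat_lit 193) (C_26 L66483 (C_26 L66384 (C_26 L7805 (C_26 L7802 (C_26 L66578 N_26))))) (by decide +kernel)
theorem L66580 : W_26 (nat_lit 10) (nat_lit 0xc000200000001000080000000000000000000000000000000) (nat_lit 0x0) (nat_lit 0x10000801f70073007dc0010000800000000000000000000000000000000000) := Q_26 (nat_lit 196) (C_26 L7840 (C_26 L66576 (C_26 L7821 (C_26 L5468 (C_26 L66579 N_26))))) (by decide +kernel)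
theorem L66581 : W_26 (nat_lit 2) (nat_lit 0x180018000c000200010001000080000000000000000000000000000000) (nat_lit 0x0) (nat_lit 0x400020000000000000000400000000000000000000000000000000000000000000) := D_26 (nat_lit 245) (nat_lit 178) (nat_lit 262) (nat_lit 6) (nat_lit 7) (nat_lit 14) (nat_lit 6) (nat_lit 7) (nat_lit 15) (by decide +kernel)
theorem L66582 : W_26 (nat_lit 3) (nat_lit 0x80018000c000200010001000080000000000000000000000000000000) (nat_lit 0x0) (nat_lit 0x400030001000000000000400000000000000000000000000000000000000000000) := T_26 (nat_lit 228) (nat_lit 244) (nat_lit 5) (nat_lit 7) (nat_lit 10) L66581 (by decide +kernel)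
theorem L66583 : W_26 (nat_lit 4) (nat_lit 0x18000c000200010001000080000000000000000000000000000000) (nat_lit 0x0) (nat_lit 0x400030001800040000000400000000000000000000000000000000000000000000) := T_26 (nat_lit 227) (nat_lit 210) (nat_lit 5) (nat_lit 7) (nat_lit 9) L66582 (by decide +kernel)
theorem L66584 : W_26 (nat_lit 5) (nat_lit 0x8000c000200010001000080000000000000000000000000000000) (nat_lit 0x0) (nat_lit 0x400030003800140000000400000000000000000000000000000000000000000000) := T_26 (nat_lit 212) (nat_lit 229) (nat_lit 7) (nat_lit 7) (nat_lit 9) L66583 (by decide +kernel)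
theorem L66588 : W_26 (nat_lit 5) (nat_lit 0xe000c000200018001000080000000000000000000000000000000) (nat_lit 0x0) (nat_lit 0x26001000030001c0000000000000000000000000000000000000000000) := T_26 (nat_lit 212) (nat_lit 229) (nat_lit 7) (nat_lit 7) (nat_lit 9) L66587 (by decide +kernel)
theorem L66589 : W_26 (nat_lit 6) (nat_lit 0xe000c000200010001000080000000000000000000000000000000) (nat_lit 0x0) (nat_lit 0x26001000030001c0008000400000000000000000000000000000000000) := T_26 (nat_lit 159) (nat_lit 142) (nat_lit 4) (nat_lit 7) (nat_lit 12) L66588 (by decide +kernel)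
theorem L66590 : W_26 (nat_lit 7) (nat_lit 0xc000c000200010001000080000000000000000000000000000000) (nat_lit 0x0) (nat_lit 0x26001300030001c0008000400000000000000000000000000000000000) := T_26 (nat_lit 209) (nat_lit 208) (nat_lit 2) (nat_lit 4) (nat_lit 12) L66589 (by decide +kernel)
theorem L66591 : W_26 (nat_lit 8) (nat_lit 0x8000c000200010001000080000000000000000000000000000000) (nat_lit 0x0) (nat_lit 0x2e001700030001c0008000400000000000000000000000000000000000) := T_26 (nat_lit 210) (nat_lit 227) (nat_lit 5) (nat_lit 7) (nat_lit 9) L66590 (by decide +kernel)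
theorem L66592 : W_26 (nat_lit 10) (nat_lit 0xc000200010001000080000000000000000000000000000000) (nat_lit 0x0) (nat_lit 0x4000e00070003e001f00030005c0008000400000000000000000000000000000000000) := Q_26 (nat_lit 211) (C_26 L5425 (C_26 L5433 (C_26 L66584 (C_26 L66591 (C_26 L17286 (C_26 L5457 (C_26 L5451 N_26))))))) (by decide +kernel)
theorem L66593 : W_26 (nat_lit 11) (nat_lit 0xc000200000001000080000000000000000000000000000000) (nat_lit 0x0) (nat_lit 0x4000e00070003e001f00030005c0018000c00000000000000000000000000000000000) := T_26 (nat_lit 160) (nat_lit 143) (nat_lit 6) (nat_lit 7) (nat_lit 11) L66592 (by decide +kernel)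
theorem L66594 : W_26 (nat_lit 8) (nat_lit 0xc000300000001000080000000000000000000000000000000) (nat_lit 0x0) (nat_lit 0x10000800020000c001f000f00160000000000000000000000000000000) := Q_26 (nat_lit 142) (C_26 L5318 (C_26 L5320 (C_26 L5323 (C_26 L16675 (C_26 L16680 N_26))))) (by decide +kernel)
theorem L66595 : W_26 (nat_lit 2) (nat_lit 0x2c000300000001f000a0000000000000000000000000000000) (nat_lit 0x0) (nat_lit 0x7000000000000000000000000000000000000000) := D_26 (nat_lit 157) (nat_lit 156) (nat_lit 158) (nat_lit 1) (nat_lit 7) (nat_lit 8) (nat_lit 1) (nat_lit 8) (nat_lit 8) (by decide +kernel)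
theorem L66596 : W_26 (nat_lit 3) (nat_lit 0x2c000300000001e000a0000000000000000000000000000000) (nat_lit 0x0) (nat_lit 0x7000100040000000000000000000000000000000) := T_26 (nat_lit 140) (nat_lit 126) (nat_lit 2) (nat_lit 4) (nat_lit 8) L66595 (by decide +kernel)
theorem L66597 : W_26 (nat_lit 4) (nat_lit 0x2c000300000001c000a0000000000000000000000000000000) (nat_lit 0x0) (nat_lit 0x7000300140000000000000000000000000000000) := T_26 (nat_lit 141) (nat_lit 128) (nat_lit 2) (nat_lit 5) (nat_lit 8) L66596 (by decide +kernel)
theorem L66598 : W_26 (nat_lit 5) (nat_lit 0x2c000300000001c00080000000000000000000000000000000) (nat_lit 0x0) (nat_lit 0xf000300160000000000000000000000000000000) := T_26 (nat_lit 125) (nat_lit 159) (nat_lit 7) (nat_lit 6) (nat_lit 7) L66597 (by decide +kernel)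
theorem L66599 : W_26 (nat_lit 6) (nat_lit 0x2c000300000001400080000000000000000000000000000000) (nat_lit 0x0) (nat_lit 0x1f000b00160000000000000000000000000000000) := T_26 (nat_lit 143) (nat_lit 160) (nat_lit 6) (nat_lit 7) (nat_lit 11) L66598 (by decide +kernel)
theorem L66600 : W_26 (nat_lit 7) (nat_lit 0xc000300000001400080000000000000000000000000000000) (nat_lit 0x0) (nat_lit 0x3000000001f000b00160000000000000000000000000000000) := T_26 (nat_lit 197) (nat_lit 196) (nat_lit 0) (nat_lit 10) (nat_lit 11) L66599 (by decide +kernel)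
theorem L66601 : W_26 (nat_lit 5) (nat_lit 0xc000300000001c00080000000000000000000000000000000) (nat_lit 0x0) (nat_lit 0x30000000007000300140000000000000000000000000000000) := T_26 (nat_lit 197) (nat_lit 196) (nat_lit 0) (nat_lit 10) (nat_lit 11) L16733 (by decide +kernel)
theorem L66602 : W_26 (nat_lit 6) (nat_lit 0xc000300000001400080000000000000000000000000000000) (nat_lit 0x0) (nat_lit 0x30000000017000b00140000000000000000000000000000000) := T_26 (nat_lit 143) (nat_lit 160) (nat_lit 6) (nat_lit 7) (nat_lit 11) L66601 (by decide +kernel)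
theorem L66603 : W_26 (nat_lit 8) (nat_lit 0xc000300000001000080000000000000000000000000000000) (nat_lit 0x0) (nat_lit 0x100008003200000001f000f00160000000000000000000000000000000) := Q_26 (nat_lit 142) (C_26 L5318 (C_26 L5320 (C_26 L5360 (C_26 L66600 (C_26 L66602 N_26))))) (by decide +kernel)
theorem L66604 : W_26 (nat_lit 3) (nat_lit 0xc000300010001000080000000000000000000000000000000) (nat_lit 0x0) (nat_lit 0x300004c0000000000000000000000000000000000000000000) := T_26 (nat_lit 175) (nat_lit 174) (nat_lit 3) (nat_lit 4) (nat_lit 10) L12925 (by decide +kernel)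
theorem L66605 : W_26 (nat_lit 4) (nat_lit 0xc000300000001000080000000000000000000000000000000) (nat_lit 0x0) (nat_lit 0x300004c0010000800000000000000000000000000000000000) := T_26 (nat_lit 160) (nat_lit 143) (nat_lit 6) (nat_lit 7) (nat_lit 11) L66604 (by decide +kernel)
theorem L66606 : W_26 (nat_lit 9) (nat_lit 0xc000200000001000080000000000000000000000000000000) (nat_lit 0x0) (nat_lit 0x10000800320005c001f000f00160000000000000000000000000000000) := Q_26 (nat_lit 176) (C_26 L5316 (C_26 L66594 (C_26 L66603 (C_26 L66605 N_26)))) (by decide +kernel)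
theorem L66607 : W_26 (nat_lit 2) (nat_lit 0x1e002c000380018001000080000000000000000000000000000000) (nat_lit 0x0) (nat_lit 0x600000001000000000000000000000000000000000000000000000000) := D_26 (nat_lit 226) (nat_lit 225) (nat_lit 192) (nat_lit 1) (nat_lit 8) (nat_lit 12) (nat_lit 6) (nat_lit 5) (nat_lit 13) (by decide +kernel)
theorem L66608 : W_26 (nat_lit 3) (nat_lit 0xe002c000380018001000080000000000000000000000000000000) (nat_lit 0x0) (nat_lit 0x2600100001000000000000000000000000000000000000000000000000) := T_26 (nat_lit 212) (nat_lit 229) (nat_lit 7) (nat_lit 7) (nat_lit 9) L66607 (by decide +kernel)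
theorem L66609 : W_26 (nat_lit 4) (nat_lit 0xe002c000380010001000080000000000000000000000000000000) (nat_lit 0x0) (nat_lit 0x2600100001000000008000400000000000000000000000000000000000) := T_26 (nat_lit 159) (nat_lit 142) (nat_lit 4) (nat_lit 7) (nat_lit 12) L66608 (by decide +kernel)
theorem L66610 : W_26 (nat_lit 5) (nat_lit 0xe002c000300010001000080000000000000000000000000000000) (nat_lit 0x0) (nat_lit 0x26001000010000c0008000400000000000000000000000000000000000) := T_26 (nat_lit 175) (nat_lit 174) (nat_lit 3) (nat_lit 4) (nat_lit 10) L66609 (by decide +kernel)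
theorem L66611 : W_26 (nat_lit 6) (nat_lit 0xc002c000300010001000080000000000000000000000000000000) (nat_lit 0x0) (nat_lit 0x26001300010000c0008000400000000000000000000000000000000000) := T_26 (nat_lit 209) (nat_lit 208) (nat_lit 2) (nat_lit 4) (nat_lit 12) L66610 (by decide +kernel)
theorem L66612 : W_26 (nat_lit 7) (nat_lit 0x8002c000300010001000080000000000000000000000000000000) (nat_lit 0x0) (nat_lit 0x2e001700010000c0008000400000000000000000000000000000000000) := T_26 (nat_lit 210) (nat_lit 227) (nat_lit 5) (nat_lit 7) (nat_lit 9) L66611 (by decide +kernel)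
theorem L66613 : W_26 (nat_lit 8) (nat_lit 0x8002c000300000001000080000000000000000000000000000000) (nat_lit 0x0) (nat_lit 0x2e001700010000c0018000c00000000000000000000000000000000000) := T_26 (nat_lit 160) (nat_lit 143) (nat_lit 6) (nat_lit 7) (nat_lit 11) L66612 (by decide +kernel)
theorem L66614 : W_26 (nat_lit 9) (nat_lit 0x8000c000300000001000080000000000000000000000000000000) (nat_lit 0x0) (nat_lit 0x2e001700310000c0018000c00000000000000000000000000000000000) := T_26 (nat_lit 197) (nat_lit 196) (nat_lit 0) (nat_lit 10) (nat_lit 11) L66613 (by decide +kernel)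
theorem L66615 : W_26 (nat_lit 2) (nat_lit 0x10000d002c000300010001000080000000000000000000000000000000) (nat_lit 0x0) (nat_lit 0x40002000100000000000000000000000000000000000000000000000000000) := D_26 (nat_lit 229) (nat_lit 212) (nat_lit 246) (nat_lit 7) (nat_lit 7) (nat_lit 9) (nat_lit 7) (nat_lit 7) (nat_lit 10) (by decide +kernel)
theorem L66616 : W_26 (nat_lit 3) (nat_lit 0xd002c000300010001000080000000000000000000000000000000) (nat_lit 0x0) (nat_lit 0x40003000100000000000008000000000000000000000000000000000000000) := T_26 (nat_lit 228) (nat_lit 159) (nat_lit 4) (nat_lit 7) (nat_lit 13) L66615 (by decide +kernel)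
theorem L66617 : W_26 (nat_lit 4) (nat_lit 0xd000c000300010001000080000000000000000000000000000000) (nat_lit 0x0) (nat_lit 0x40003000100030000000008000000000000000000000000000000000000000) := T_26 (nat_lit 197) (nat_lit 196) (nat_lit 1) (nat_lit 10) (nat_lit 11) L66616 (by decide +kernel)
theorem L66618 : W_26 (nat_lit 5) (nat_lit 0xc000c000300010001000080000000000000000000000000000000) (nat_lit 0x0) (nat_lit 0x40003000130030000000008000000000000000000000000000000000000000) := T_26 (nat_lit 208) (nat_lit 209) (nat_lit 2) (nat_lit 4) (nat_lit 12) L66617 (by decide +kernel)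
theorem L66619 : W_26 (nat_lit 6) (nat_lit 0x8000c000300010001000080000000000000000000000000000000) (nat_lit 0x0) (nat_lit 0x40003800170030000000008000000000000000000000000000000000000000) := T_26 (nat_lit 210) (nat_lit 227) (nat_lit 5) (nat_lit 7) (nat_lit 9) L66618 (by decide +kernel)
theorem L66620 : W_26 (nat_lit 7) (nat_lit 0x8000c000300000001000080000000000000000000000000000000) (nat_lit 0x0) (nat_lit 0x40003800170030000000018000800000000000000000000000000000000000) := T_26 (nat_lit 160) (nat_lit 143) (nat_lit 6) (nat_lit 7) (nat_lit 11) L66619 (by decide +kernel)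
theorem L66621 : W_26 (nat_lit 2) (nat_lit 0x300008002c000340010001000080000000000000000000000000000000) (nat_lit 0x0) (nat_lit 0x10000800040000000000000000000000000000000000000000000000000000) := D_26 (nat_lit 227) (nat_lit 210) (nat_lit 244) (nat_lit 5) (nat_lit 7) (nat_lit 9) (nat_lit 5) (nat_lit 7) (nat_lit 10) (by decide +kernel)
theorem L66622 : W_26 (nat_lit 3) (nat_lit 0x300008002c000340000001000080000000000000000000000000000000) (nat_lit 0x0) (nat_lit 0x10000800140000000000010000000000000000000000000000000000000000) := T_26 (nat_lit 160) (nat_lit 212) (nat_lit 7) (nat_lit 7) (nat_lit 9) L66621 (by decide +kernel)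
theorem L66623 : W_26 (nat_lit 4) (nat_lit 0x100008002c000340000001000080000000000000000000000000000000) (nat_lit 0x0) (nat_lit 0x50002800140000000000010000000000000000000000000000000000000000) := T_26 (nat_lit 229) (nat_lit 246) (nat_lit 7) (nat_lit 7) (nat_lit 10) L66622 (by decide +kernel)
theorem L66624 : W_26 (nat_lit 5) (nat_lit 0x100008002c000300000001000080000000000000000000000000000000) (nat_lit 0x0) (nat_lit 0x500028001400000000c0010000000000000000000000000000000000000000) := T_26 (nat_lit 174) (nat_lit 175) (nat_lit 3) (nat_lit 4) (nat_lit 10) L66623 (by decide +kernel)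
theorem L66625 : W_26 (nat_lit 6) (nat_lit 0x8002c000300000001000080000000000000000000000000000000) (nat_lit 0x0) (nat_lit 0x500038001400000000c0018000000000000000000000000000000000000000) := T_26 (nat_lit 228) (nat_lit 159) (nat_lit 4) (nat_lit 7) (nat_lit 13) L66624 (by decide +kernel)
theorem L66626 : W_26 (nat_lit 7) (nat_lit 0x8000c000300000001000080000000000000000000000000000000) (nat_lit 0x0) (nat_lit 0x500038001400300000c0018000000000000000000000000000000000000000) := T_26 (nat_lit 197) (nat_lit 196) (nat_lit 0) (nat_lit 10) (nat_lit 11) L66625 (by decide +kernel)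
theorem L66627 : W_26 (nat_lit 2) (nat_lit 0x300008000c000340000001000080000000000000000000000000000000) (nat_lit 0x0) (nat_lit 0x100000000000010000800000000000000000000000000000000000) := D_26 (nat_lit 160) (nat_lit 212) (nat_lit 143) (nat_lit 7) (nat_lit 7) (nat_lit 9) (nat_lit 6) (nat_lit 7) (nat_lit 11) (by decide +kernel)
theorem L66628 : W_26 (nat_lit 3) (nat_lit 0x100008000c000340000001000080000000000000000000000000000000) (nat_lit 0x0) (nat_lit 0x40002000100000000000010000800000000000000000000000000000000000) := T_26 (nat_lit 229) (nat_lit 246) (nat_lit 7) (nat_lit 7) (nat_lit 10) L66627 (by decide +kernel)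
theorem L66629 : W_26 (nat_lit 4) (nat_lit 0x100008000c000300000001000080000000000000000000000000000000) (nat_lit 0x0) (nat_lit 0x400020001000000000c0010000800000000000000000000000000000000000) := T_26 (nat_lit 174) (nat_lit 175) (nat_lit 3) (nat_lit 4) (nat_lit 10) L66628 (by decide +kernel)
theorem L66630 : W_26 (nat_lit 5) (nat_lit 0x8000c000300000001000080000000000000000000000000000000) (nat_lit 0x0) (nat_lit 0x400030001000000000c0018000800000000000000000000000000000000000) := T_26 (nat_lit 228) (nat_lit 159) (nat_lit 4) (nat_lit 7) (nat_lit 13) L66629 (by decide +kernel)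
theorem L66631 : W_26 (nat_lit 10) (nat_lit 0xc000300000001000080000000000000000000000000000000) (nat_lit 0x0) (nat_lit 0xc00070003e007f00310000c0018000c00000000000000000000000000000000000) := Q_26 (nat_lit 211) (C_26 L66614 (C_26 L66620 (C_26 L66626 (C_26 L5352 (C_26 L5357 (C_26 L66630 (C_26 L11823 N_26))))))) (by decide +kernel)
theorem L66632 : W_26 (nat_lit 2) (nat_lit 0x4001e000c000380010001000080000000000000000000000000000000) (nat_lit 0x0) (nat_lit 0x1000000008000400000000000000000000000000000000000) := D_26 (nat_lit 159) (nat_lit 142) (nat_lit 192) (nat_lit 4) (nat_lit 7) (nat_lit 12) (nat_lit 6) (nat_lit 5) (nat_lit 13) (by decide +kernel)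
theorem L66633 : W_26 (nat_lit 3) (nat_lit 0x1e000c000380010001000080000000000000000000000000000000) (nat_lit 0x0) (nat_lit 0x600000001000000008000400000000000000000000000000000000000) := T_26 (nat_lit 226) (nat_lit 225) (nat_lit 1) (nat_lit 8) (nat_lit 12) L66632 (by decide +kernel)
theorem L66634 : W_26 (nat_lit 4) (nat_lit 0xe000c000380010001000080000000000000000000000000000000) (nat_lit 0x0) (nat_lit 0x2600100001000000008000400000000000000000000000000000000000) := T_26 (nat_lit 212) (nat_lit 229) (nat_lit 7) (nat_lit 7) (nat_lit 9) L66633 (by decide +kernel)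
theorem L66635 : W_26 (nat_lit 5) (nat_lit 0xc000c000380010001000080000000000000000000000000000000) (nat_lit 0x0) (nat_lit 0x2600130001000000008000400000000000000000000000000000000000) := T_26 (nat_lit 209) (nat_lit 208) (nat_lit 2) (nat_lit 4) (nat_lit 12) L66634 (by decide +kernel)
theorem L66636 : W_26 (nat_lit 6) (nat_lit 0x8000c000380010001000080000000000000000000000000000000) (nat_lit 0x0) (nat_lit 0x2e00170001000000008000400000000000000000000000000000000000) := T_26 (nat_lit 210) (nat_lit 227) (nat_lit 5) (nat_lit 7) (nat_lit 9) L66635 (by decide +kernel)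
theorem L66637 : W_26 (nat_lit 7) (nat_lit 0x8000c000380000001000080000000000000000000000000000000) (nat_lit 0x0) (nat_lit 0x2e00170001000000018000c00000000000000000000000000000000000) := T_26 (nat_lit 160) (nat_lit 143) (nat_lit 6) (nat_lit 7) (nat_lit 11) L66636 (by decide +kernel)
theorem L66638 : W_26 (nat_lit 8) (nat_lit 0x8000c000300000001000080000000000000000000000000000000) (nat_lit 0x0) (nat_lit 0x2e001700010000c0018000c00000000000000000000000000000000000) := T_26 (nat_lit 175) (nat_lit 174) (nat_lit 3) (nat_lit 4) (nat_lit 10) L66637 (by decide +kernel)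
theorem L66639 : W_26 (nat_lit 12) (nat_lit 0xc000300000001000080000000000000000000000000000000) (nat_lit 0x0) (nat_lit 0x1c000e00070007e001f00010004c0018000c00000000000000000000000000000000000) := Q_26 (nat_lit 211) (C_26 L66638 (C_26 L66630 (C_26 L5388 (C_26 L5398 (C_26 L5410 (C_26 L5339 N_26)))))) (by decide +kernel)
theorem L66640 : W_26 (nat_lit 10) (nat_lit 0xc000300000001000080000000000000000000000000000000) (nat_lit 0x0) (nat_lit 0xc00070003e007f0030000000018000c00000000000000000000000000000000000) := Q_26 (nat_lit 211) (C_26 L5382 (C_26 L5352 (C_26 L5339 N_26))) (by decide +kernel)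
theorem L66641 : W_26 (nat_lit 13) (nat_lit 0xc000200000001000080000000000000000000000000000000) (nat_lit 0x0) (nat_lit 0x1c000e00070007e007f00310005c0018000c00000000000000000000000000000000000) := Q_26 (nat_lit 176) (C_26 L5377 (C_26 L66631 (C_26 L66639 (C_26 L66640 N_26)))) (by decide +kernel)
theorem L66642 : W_26 (nat_lit 14) (nat_lit 0x4000200000001000080000000000000000000000000000000) (nat_lit 0x0) (nat_lit 0x1c000e000f8007e03ff01fb007dc00df000f0017c000000000000000000000000000000) := Q_26 (nat_lit 195) (C_26 L66480 (C_26 L66573 (C_26 L66575 (C_26 L66580 (C_26 L66593 (C_26 L66606 (C_26 L66641 N_26))))))) (by decide +kernel)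
theorem L66643 : W_26 (nat_lit 2) (nat_lit 0x7000300008001e00080000000000000000000000000000000) (nat_lit 0x0) (nat_lit 0x40000000000006000000000000000000000000000000000000000) := D_26 (nat_lit 158) (nat_lit 210) (nat_lit 157) (nat_lit 4) (nat_lit 6) (nat_lit 12) (nat_lit 1) (nat_lit 8) (nat_lit 8) (by decide +kernel)
theorem L66644 : W_26 (nat_lit 3) (nat_lit 0x7000300008001c00080000000000000000000000000000000) (nat_lit 0x0) (nat_lit 0x40000000000006000200010000000000000000000000000000000) := T_26 (nat_lit 141) (nat_lit 124) (nat_lit 4) (nat_lit 6) (nat_lit 11) L66643 (by decide +kernel)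
theorem L66645 : W_26 (nat_lit 4) (nat_lit 0x6000300008001c00080000000000000000000000000000000) (nat_lit 0x0) (nat_lit 0x60001000000006000200010000000000000000000000000000000) := T_26 (nat_lit 192) (nat_lit 209) (nat_lit 5) (nat_lit 6) (nat_lit 8) L66644 (by decide +kernel)
theorem L66646 : W_26 (nat_lit 5) (nat_lit 0x4000300008001c00080000000000000000000000000000000) (nat_lit 0x0) (nat_lit 0x60003000000006000200050000000000000000000000000000000) := T_26 (nat_lit 193) (nat_lit 126) (nat_lit 6) (nat_lit 6) (nat_lit 11) L66645 (by decide +kernel)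
theorem L66647 : W_26 (nat_lit 6) (nat_lit 0x4000300000001c00080000000000000000000000000000000) (nat_lit 0x0) (nat_lit 0x6000300000000e000200070000000000000000000000000000000) := T_26 (nat_lit 159) (nat_lit 125) (nat_lit 7) (nat_lit 6) (nat_lit 7) L66646 (by decide +kernel)
theorem L66654 : W_26 (nat_lit 2) (nat_lit 0x80006800e000300008001c00080000000000000000000000000000000) (nat_lit 0x0) (nat_lit 0xc0004000000000000000000000000000000000000000) := D_26 (nat_lit 175) (nat_lit 158) (nat_lit 174) (nat_lit 4) (nat_lit 6) (nat_lit 13) (nat_lit 3) (nat_lit 4) (nat_lit 10) (by decide +kernel)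
theorem L66655 : W_26 (nat_lit 3) (nat_lit 0x800068006000300008001c00080000000000000000000000000000000) (nat_lit 0x0) (nat_lit 0x180000c0004000000000000000000000000000000000000000) := T_26 (nat_lit 195) (nat_lit 196) (nat_lit 1) (nat_lit 9) (nat_lit 11) L66654 (by decide +kernel)
theorem L66656 : W_26 (nat_lit 4) (nat_lit 0x68006000300008001c00080000000000000000000000000000000) (nat_lit 0x0) (nat_lit 0x100008000000180000c0004000000000000000000000000000000000000000) := T_26 (nat_lit 227) (nat_lit 244) (nat_lit 6) (nat_lit 6) (nat_lit 14) L66655 (by decide +kernel)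
theorem L66657 : W_26 (nat_lit 5) (nat_lit 0x60006000300008001c00080000000000000000000000000000000) (nat_lit 0x0) (nat_lit 0x100008000180180000c0004000000000000000000000000000000000000000) := T_26 (nat_lit 207) (nat_lit 208) (nat_lit 2) (nat_lit 3) (nat_lit 12) L66656 (by decide +kernel)
theorem L66658 : W_26 (nat_lit 6) (nat_lit 0x20006000300008001c00080000000000000000000000000000000) (nat_lit 0x0) (nat_lit 0x10000c000580180000c0004000000000000000000000000000000000000000) := T_26 (nat_lit 210) (nat_lit 226) (nat_lit 5) (nat_lit 6) (nat_lit 9) L66657 (by decide +kernel)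
theorem L66659 : W_26 (nat_lit 7) (nat_lit 0x6000300008001c00080000000000000000000000000000000) (nat_lit 0x0) (nat_lit 0x10000c000780190000c0004000000000000000000000000000000000000000) := T_26 (nat_lit 209) (nat_lit 192) (nat_lit 5) (nat_lit 6) (nat_lit 8) L66658 (by decide +kernel)
theorem L66660 : W_26 (nat_lit 8) (nat_lit 0x4000300008001c00080000000000000000000000000000000) (nat_lit 0x0) (nat_lit 0x10000c0007801b0000c0004000000040000000000000000000000000000000) := T_26 (nat_lit 193) (nat_lit 126) (nat_lit 6) (nat_lit 6) (nat_lit 11) L66659 (by decide +kernel)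
theorem L66661 : W_26 (nat_lit 9) (nat_lit 0x4000300000001c00080000000000000000000000000000000) (nat_lit 0x0) (nat_lit 0x10000c0007801b0000c000c000000060000000000000000000000000000000) := T_26 (nat_lit 159) (nat_lit 125) (nat_lit 7) (nat_lit 6) (nat_lit 7) L66660 (by decide +kernel)
theorem L66662 : W_26 (nat_lit 2) (nat_lit 0x4000300000001f000a0000000000000000000000000000000) (nat_lit 0x0) (nat_lit 0x1c000000000000000000000000000000) := D_26 (nat_lit 123) (nat_lit 124) (nat_lit 122) (nat_lit 0) (nat_lit 8) (nat_lit 8) (nat_lit 0) (nat_lit 7) (nat_lit 8) (by decide +kernel)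
theorem L66663 : W_26 (nat_lit 3) (nat_lit 0x4000300000001e000a0000000000000000000000000000000) (nat_lit 0x0) (nat_lit 0x10005c000000000000000000000000000000) := T_26 (nat_lit 140) (nat_lit 126) (nat_lit 2) (nat_lit 4) (nat_lit 8) L66662 (by decide +kernel)
theorem L66664 : W_26 (nat_lit 4) (nat_lit 0x4000300000001c000a0000000000000000000000000000000) (nat_lit 0x0) (nat_lit 0x30015c000000000000000000000000000000) := T_26 (nat_lit 141) (nat_lit 128) (nat_lit 2) (nat_lit 5) (nat_lit 8) L66663 (by decide +kernel)
theorem L66665 : W_26 (nat_lit 5) (nat_lit 0x4000300000001c00080000000000000000000000000000000) (nat_lit 0x0) (nat_lit 0x800030017c000000000000000000000000000000) := T_26 (nat_lit 125) (nat_lit 159) (nat_lit 7) (nat_lit 6) (nat_lit 7) L66664 (by decide +kernel)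
theorem L66666 : W_26 (nat_lit 10) (nat_lit 0x4000300000001800080000000000000000000000000000000) (nat_lit 0x0) (nat_lit 0x10000c0007801b0000c006f00070017c001000080000000000000000000000) := Q_26 (nat_lit 142) (C_26 L16741 (C_26 L66647 (C_26 L66653 (C_26 L66661 (C_26 L66665 N_26))))) (by decide +kernel)
theorem L66667 : W_26 (nat_lit 11) (nat_lit 0x4000300000001000080000000000000000000000000000000) (nat_lit 0x0) (nat_lit 0x10000c0007801b0000c007f000f0017c001000080000000000000000000000) := T_26 (nat_lit 143) (nat_lit 160) (nat_lit 6) (nat_lit 7) (nat_lit 11) L66666 (by decide +kernel)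
theorem L66668 : W_26 (nat_lit 2) (nat_lit 0xc000f80004001000080000000000000000000000000000000) (nat_lit 0x0) (nat_lit 0x3001000000000000000000000000000000000000000000000) := D_26 (nat_lit 193) (nat_lit 192) (nat_lit 180) (nat_lit 2) (nat_lit 5) (nat_lit 11) (nat_lit 1) (nat_lit 10) (nat_lit 10) (by decide +kernel)
theorem L66669 : W_26 (nat_lit 3) (nat_lit 0xc000780004001000080000000000000000000000000000000) (nat_lit 0x0) (nat_lit 0x3001800008000000000000000000000000000000000000000) := T_26 (nat_lit 179) (nat_lit 159) (nat_lit 0) (nat_lit 9) (nat_lit 10) L66668 (by decide +kernel)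
theorem L66670 : W_26 (nat_lit 4) (nat_lit 0xc000780000001000080000000000000000000000000000000) (nat_lit 0x0) (nat_lit 0x300180000e000000000000000000000000000000000000000) := T_26 (nat_lit 158) (nat_lit 157) (nat_lit 0) (nat_lit 8) (nat_lit 10) L66669 (by decide +kernel)
theorem L66671 : W_26 (nat_lit 5) (nat_lit 0xc000380000001000080000000000000000000000000000000) (nat_lit 0x0) (nat_lit 0x3001c0002e000000000000000000000000000000000000000) := T_26 (nat_lit 178) (nat_lit 161) (nat_lit 5) (nat_lit 8) (nat_lit 7) L66670 (by decide +kernel)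
theorem L66672 : W_26 (nat_lit 6) (nat_lit 0xc000300000001000080000000000000000000000000000000) (nat_lit 0x0) (nat_lit 0x3001cc002e000000000000000000000000000000000000000) := T_26 (nat_lit 175) (nat_lit 174) (nat_lit 3) (nat_lit 4) (nat_lit 10) L66671 (by decide +kernel)
theorem L66673 : W_26 (nat_lit 2) (nat_lit 0x1e000b00020001000080000000000000000000000000000000) (nat_lit 0x0) (nat_lit 0x600000000000040000000000000000000000000000000000000000) := D_26 (nat_lit 213) (nat_lit 162) (nat_lit 214) (nat_lit 4) (nat_lit 9) (nat_lit 12) (nat_lit 3) (nat_lit 6) (nat_lit 11) (by decide +kernel)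
theorem L66674 : W_26 (nat_lit 3) (nat_lit 0x1c000b00020001000080000000000000000000000000000000) (nat_lit 0x0) (nat_lit 0x600002001000040000000000000000000000000000000000000000) := T_26 (nat_lit 193) (nat_lit 180) (nat_lit 2) (nat_lit 6) (nat_lit 11) L66673 (by decide +kernel)
theorem L66675 : W_26 (nat_lit 4) (nat_lit 0xc000b00020001000080000000000000000000000000000000) (nat_lit 0x0) (nat_lit 0x600032001000040000000000000000000000000000000000000000) := T_26 (nat_lit 196) (nat_lit 197) (nat_lit 0) (nat_lit 10) (nat_lit 11) L66674 (by decide +kernel)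
theorem L66676 : W_26 (nat_lit 5) (nat_lit 0xc000b00000001000080000000000000000000000000000000) (nat_lit 0x0) (nat_lit 0x600032001400060000000000000000000000000000000000000000) := T_26 (nat_lit 161) (nat_lit 178) (nat_lit 5) (nat_lit 8) (nat_lit 7) L66675 (by decide +kernel)
theorem L66677 : W_26 (nat_lit 5) (nat_lit 0x1c000b00000001000080000000000000000000000000000000) (nat_lit 0x0) (nat_lit 0x770003001000000000000000000000000000000000000000000000) := T_26 (nat_lit 193) (nat_lit 180) (nat_lit 2) (nat_lit 6) (nat_lit 11) L66337 (by decide +kernel)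
theorem L66678 : W_26 (nat_lit 6) (nat_lit 0xc000b00000001000080000000000000000000000000000000) (nat_lit 0x0) (nat_lit 0x770033001000000000000000000000000000000000000000000000) := T_26 (nat_lit 196) (nat_lit 197) (nat_lit 0) (nat_lit 10) (nat_lit 11) L66677 (by decide +kernel)
theorem L66679 : W_26 (nat_lit 2) (nat_lit 0xc000f00000001000080000000000000000000000000000000) (nat_lit 0x0) (nat_lit 0x3001000000000000000000000000000000000000000000000) := D_26 (nat_lit 193) (nat_lit 192) (nat_lit 180) (nat_lit 2) (nat_lit 5) (nat_lit 11) (nat_lit 1) (nat_lit 10) (nat_lit 10) (by decide +kernel)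
theorem L66680 : W_26 (nat_lit 3) (nat_lit 0xc000b00000001000080000000000000000000000000000000) (nat_lit 0x0) (nat_lit 0x3001400020000000000000000000000000000000000000000) := T_26 (nat_lit 178) (nat_lit 161) (nat_lit 5) (nat_lit 8) (nat_lit 7) L66679 (by decide +kernel)
theorem L66681 : W_26 (nat_lit 2) (nat_lit 0x2c000f00000001000080000000000000000000000000000000) (nat_lit 0x0) (nat_lit 0x40003000000000000000000000000000000000000000000000) := D_26 (nat_lit 180) (nat_lit 198) (nat_lit 181) (nat_lit 3) (nat_lit 7) (nat_lit 10) (nat_lit 1) (nat_lit 11) (nat_lit 10) (by decide +kernel)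
theorem L66682 : W_26 (nat_lit 3) (nat_lit 0xc000f00000001000080000000000000000000000000000000) (nat_lit 0x0) (nat_lit 0x70003000000000000000000000000000000000000000000000) := T_26 (nat_lit 197) (nat_lit 196) (nat_lit 3) (nat_lit 6) (nat_lit 10) L66681 (by decide +kernel)
theorem L66683 : W_26 (nat_lit 4) (nat_lit 0xc000b00000001000080000000000000000000000000000000) (nat_lit 0x0) (nat_lit 0x70003400020000000000000000000000000000000000000000) := T_26 (nat_lit 178) (nat_lit 161) (nat_lit 5) (nat_lit 8) (nat_lit 7) L66682 (by decide +kernel)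
theorem L66684 : W_26 (nat_lit 2) (nat_lit 0x200000002e000f00048001c00080000000000000000000000000000000) (nat_lit 0x0) (nat_lit 0x200110000000000000000000000000000000) := D_26 (nat_lit 141) (nat_lit 128) (nat_lit 124) (nat_lit 2) (nat_lit 5) (nat_lit 8) (nat_lit 4) (nat_lit 6) (nat_lit 11) (by decide +kernel)
theorem L66685 : W_26 (nat_lit 3) (nat_lit 0x200000002e000f00048001400080000000000000000000000000000000) (nat_lit 0x0) (nat_lit 0xa00150000000000000000000000000000000) := T_26 (nat_lit 143) (nat_lit 126) (nat_lit 6) (nat_lit 6) (nat_lit 11) L66684 (by decide +kernel)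
theorem L66686 : W_26 (nat_lit 4) (nat_lit 0x200000002e000f00048001000080000000000000000000000000000000) (nat_lit 0x0) (nat_lit 0xe00170000000000000000000000000000000) := T_26 (nat_lit 142) (nat_lit 125) (nat_lit 7) (nat_lit 6) (nat_lit 7) L66685 (by decide +kernel)
theorem L66687 : W_26 (nat_lit 5) (nat_lit 0x2e000f00048001000080000000000000000000000000000000) (nat_lit 0x0) (nat_lit 0x2000100000000000000000e00170000000000000000000000000000000) := T_26 (nat_lit 229) (nat_lit 212) (nat_lit 6) (nat_lit 8) (nat_lit 13) L66686 (by decide +kernel)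
theorem L66688 : W_26 (nat_lit 6) (nat_lit 0x2e000f00040001000080000000000000000000000000000000) (nat_lit 0x0) (nat_lit 0x200010000000000000c000e00170000000000000000000000000000000) := T_26 (nat_lit 159) (nat_lit 158) (nat_lit 0) (nat_lit 9) (nat_lit 10) L66687 (by decide +kernel)
theorem L66689 : W_26 (nat_lit 7) (nat_lit 0x2e000f00000001000080000000000000000000000000000000) (nat_lit 0x0) (nat_lit 0x20001000000000000cc000e00170000000000000000000000000000000) := T_26 (nat_lit 162) (nat_lit 163) (nat_lit 2) (nat_lit 6) (nat_lit 10) L66688 (by decide +kernel)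
theorem L66690 : W_26 (nat_lit 8) (nat_lit 0x2c000f00000001000080000000000000000000000000000000) (nat_lit 0x0) (nat_lit 0x20001000030000000cc000e00170000000000000000000000000000000) := T_26 (nat_lit 193) (nat_lit 192) (nat_lit 2) (nat_lit 5) (nat_lit 11) L66689 (by decide +kernel)
theorem L66691 : W_26 (nat_lit 9) (nat_lit 0x2c000b00000001000080000000000000000000000000000000) (nat_lit 0x0) (nat_lit 0x20001000030004000ec000e00170000000000000000000000000000000) := T_26 (nat_lit 178) (nat_lit 161) (nat_lit 5) (nat_lit 8) (nat_lit 7) L66690 (by decide +kernel)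
theorem L66692 : W_26 (nat_lit 10) (nat_lit 0xc000b00000001000080000000000000000000000000000000) (nat_lit 0x0) (nat_lit 0x20001000330004000ec000e00170000000000000000000000000000000) := T_26 (nat_lit 197) (nat_lit 196) (nat_lit 0) (nat_lit 10) (nat_lit 11) L66691 (by decide +kernel)
theorem L66693 : W_26 (nat_lit 11) (nat_lit 0xc000300000001000080000000000000000000000000000000) (nat_lit 0x0) (nat_lit 0x2000770073003c000ec000e00170000000000000000000000000000000) := Q_26 (nat_lit 179) (C_26 L66676 (C_26 L66678 (C_26 L66680 (C_26 L66683 (C_26 L66692 N_26))))) (by decide +kernel)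
theorem L66694 : W_26 (nat_lit 12) (nat_lit 0x4000300000001000080000000000000000000000000000000) (nat_lit 0x0) (nat_lit 0x200077007b003cc00ee000e00170000000000000000000000000000000) := Q_26 (nat_lit 195) (C_26 L5316 (C_26 L5377 (C_26 L66672 (C_26 L66693 N_26)))) (by decide +kernel)
theorem L66698 : W_26 (nat_lit 2) (nat_lit 0x2e000700000001000080000000000000000000000000000000) (nat_lit 0x0) (nat_lit 0x1001800000000000000000000000000000000000000000000) := D_26 (nat_lit 179) (nat_lit 192) (nat_lit 180) (nat_lit 2) (nat_lit 5) (nat_lit 11) (nat_lit 1) (nat_lit 10) (nat_lit 10) (by decide +kernel)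
theorem L66699 : W_26 (nat_lit 3) (nat_lit 0x2e000300000001000080000000000000000000000000000000) (nat_lit 0x0) (nat_lit 0x1001c00020000000000000000000000000000000000000000) := T_26 (nat_lit 178) (nat_lit 161) (nat_lit 5) (nat_lit 8) (nat_lit 7) L66698 (by decide +kernel)
theorem L66700 : W_26 (nat_lit 4) (nat_lit 0xe000300000001000080000000000000000000000000000000) (nat_lit 0x0) (nat_lit 0x31001c00020000000000000000000000000000000000000000) := T_26 (nat_lit 197) (nat_lit 196) (nat_lit 0) (nat_lit 10) (nat_lit 11) L66699 (by decide +kernel)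
theorem L66701 : W_26 (nat_lit 3) (nat_lit 0xe000300000001000080000000000000000000000000000000) (nat_lit 0x0) (nat_lit 0x1001c00020000000000000000000000000000000000000000) := T_26 (nat_lit 178) (nat_lit 161) (nat_lit 5) (nat_lit 8) (nat_lit 7) L16058 (by decide +kernel)
theorem L66702 : W_26 (nat_lit 6) (nat_lit 0xc000300000001000080000000000000000000000000000000) (nat_lit 0x0) (nat_lit 0x10000800060033001c00030000000000000000000000000000000000000000) := Q_26 (nat_lit 193) (C_26 L11247 (C_26 L66697 (C_26 L66700 (C_26 L66701 N_26)))) (by decide +kernel)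
theorem L66703 : W_26 (nat_lit 7) (nat_lit 0x4000300000001000080000000000000000000000000000000) (nat_lit 0x0) (nat_lit 0x1000080006003b001cc003e000000000000000000000000000000000000000) := Q_26 (nat_lit 195) (C_26 L66672 (C_26 L5316 (C_26 L66702 (C_26 L5377 N_26)))) (by decide +kernel)
theorem L66704 : W_26 (nat_lit 7) (nat_lit 0xc000700000001200080000000000000000000000000000000) (nat_lit 0x0) (nat_lit 0x20000c0006000100078001c00000000000000000000000000) := T_26 (nat_lit 175) (nat_lit 174) (nat_lit 3) (nat_lit 4) (nat_lit 10) L11084 (by decide +kernel)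
theorem L66705 : W_26 (nat_lit 8) (nat_lit 0xc000300000001200080000000000000000000000000000000) (nat_lit 0x0) (nat_lit 0x20004c0026000100078001c00000000000000000000000000) := T_26 (nat_lit 178) (nat_lit 161) (nat_lit 5) (nat_lit 8) (nat_lit 7) L66704 (by decide +kernel)
theorem L66706 : W_26 (nat_lit 4) (nat_lit 0xc000340000001a00080000000000000000000000000000000) (nat_lit 0x0) (nat_lit 0x7000500140000000000000000000000000000000) := T_26 (nat_lit 142) (nat_lit 128) (nat_lit 2) (nat_lit 5) (nat_lit 8) L16677 (by decide +kernel)
theorem L66707 : W_26 (nat_lit 5) (nat_lit 0xc000340000001200080000000000000000000000000000000) (nat_lit 0x0) (nat_lit 0x17000d00140000000000000000000000000000000) := T_26 (nat_lit 143) (nat_lit 160) (nat_lit 6) (nat_lit 7) (nat_lit 11) L66706 (by decide +kernel)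
theorem L66708 : W_26 (nat_lit 6) (nat_lit 0xc000300000001200080000000000000000000000000000000) (nat_lit 0x0) (nat_lit 0xc0017000d00140000000000000000000000000000000) := T_26 (nat_lit 174) (nat_lit 175) (nat_lit 3) (nat_lit 4) (nat_lit 10) L66707 (by decide +kernel)
theorem L66709 : W_26 (nat_lit 2) (nat_lit 0x200000000c0007800140012000b8000000000000000000000000000000) (nat_lit 0x0) (nat_lit 0x1000000000000500000000000000000000000000000000000) := D_26 (nat_lit 192) (nat_lit 142) (nat_lit 140) (nat_lit 6) (nat_lit 5) (nat_lit 11) (nat_lit 4) (nat_lit 5) (nat_lit 11) (by decide +kernel)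
theorem L66710 : W_26 (nat_lit 3) (nat_lit 0x200000000c0007800140012000b0000000000000000000000000000000) (nat_lit 0x0) (nat_lit 0x1000000000000500008000400000000000000000000000000) := T_26 (nat_lit 123) (nat_lit 106) (nat_lit 4) (nat_lit 5) (nat_lit 10) L66709 (by decide +kernel)
theorem L66711 : W_26 (nat_lit 4) (nat_lit 0x200000000c000780014001200090000000000000000000000000000000) (nat_lit 0x0) (nat_lit 0x1000000000000500028001400000000000000000000000000) := T_26 (nat_lit 125) (nat_lit 108) (nat_lit 6) (nat_lit 5) (nat_lit 10) L66710 (by decide +kernel)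
theorem L66712 : W_26 (nat_lit 5) (nat_lit 0x200000000c000780014001200080000000000000000000000000000000) (nat_lit 0x0) (nat_lit 0x3000000000000500038001400000000000000000000000000) := T_26 (nat_lit 124) (nat_lit 193) (nat_lit 7) (nat_lit 5) (nat_lit 7) L66711 (by decide +kernel)
theorem L66713 : W_26 (nat_lit 6) (nat_lit 0x200000000c000780010001200080000000000000000000000000000000) (nat_lit 0x0) (nat_lit 0x3000000006000500038001400000000000000000000000000) := T_26 (nat_lit 158) (nat_lit 157) (nat_lit 0) (nat_lit 8) (nat_lit 10) L66712 (by decide +kernel)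
theorem L66714 : W_26 (nat_lit 7) (nat_lit 0xc000780010001200080000000000000000000000000000000) (nat_lit 0x0) (nat_lit 0x2000100003000000006000500038001400000000000000000000000000) := T_26 (nat_lit 229) (nat_lit 212) (nat_lit 4) (nat_lit 8) (nat_lit 13) L66713 (by decide +kernel)
theorem L66715 : W_26 (nat_lit 8) (nat_lit 0xc000700010001200080000000000000000000000000000000) (nat_lit 0x0) (nat_lit 0x20001000030000c0006000500038001400000000000000000000000000) := T_26 (nat_lit 175) (nat_lit 174) (nat_lit 3) (nat_lit 4) (nat_lit 10) L66714 (by decide +kernel)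
theorem L66716 : W_26 (nat_lit 9) (nat_lit 0xc000300010001200080000000000000000000000000000000) (nat_lit 0x0) (nat_lit 0x20001000030004c0026000500038001400000000000000000000000000) := T_26 (nat_lit 178) (nat_lit 161) (nat_lit 5) (nat_lit 8) (nat_lit 7) L66715 (by decide +kernel)
theorem L66717 : W_26 (nat_lit 10) (nat_lit 0xc000300000001200080000000000000000000000000000000) (nat_lit 0x0) (nat_lit 0x20001000030004c0036000d00038001400000000000000000000000000) := T_26 (nat_lit 160) (nat_lit 143) (nat_lit 6) (nat_lit 7) (nat_lit 11) L66716 (by decide +kernel)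
theorem L66718 : W_26 (nat_lit 2) (nat_lit 0xc000300020001a00080000000000000000000000000000000) (nat_lit 0x0) (nat_lit 0x40000400100000000000000000000000000000000) := D_26 (nat_lit 142) (nat_lit 162) (nat_lit 128) (nat_lit 3) (nat_lit 5) (nat_lit 8) (nat_lit 2) (nat_lit 5) (nat_lit 8) (by decide +kernel)
theorem L66719 : W_26 (nat_lit 3) (nat_lit 0xc000300000001a00080000000000000000000000000000000) (nat_lit 0x0) (nat_lit 0x400060000400100000000000000000000000000000000) := T_26 (nat_lit 161) (nat_lit 178) (nat_lit 5) (nat_lit 8) (nat_lit 7) L66718 (by decide +kernel)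
theorem L66720 : W_26 (nat_lit 4) (nat_lit 0xc000300000001200080000000000000000000000000000000) (nat_lit 0x0) (nat_lit 0x400070000c00100000000000000000000000000000000) := T_26 (nat_lit 143) (nat_lit 160) (nat_lit 6) (nat_lit 7) (nat_lit 11) L66719 (by decide +kernel)
theorem L66721 : W_26 (nat_lit 11) (nat_lit 0xc000300000001000080000000000000000000000000000000) (nat_lit 0x0) (nat_lit 0x20001000030004c0077000f00178001c00000000000000000000000000) := Q_26 (nat_lit 141) (C_26 L66705 (C_26 L66708 (C_26 L66717 (C_26 L66720 N_26)))) (by decide +kernel)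
theorem L66722 : W_26 (nat_lit 12) (nat_lit 0x4000300000001000080000000000000000000000000000000) (nat_lit 0x0) (nat_lit 0x1000280016003b001cc0077000f00178001c00000000000000000000000000) := Q_26 (nat_lit 195) (C_26 L5377 (C_26 L5316 (C_26 L66702 (C_26 L66721 N_26)))) (by decide +kernel)
theorem L66723 : W_26 (nat_lit 2) (nat_lit 0x4000300004001e00090000000000000000000000000000000) (nat_lit 0x0) (nat_lit 0x2000000008000000020000000000000000000000000000000) := D_26 (nat_lit 159) (nat_lit 125) (nat_lit 193) (nat_lit 7) (nat_lit 6) (nat_lit 7) (nat_lit 4) (nat_lit 6) (nat_lit 11) (by decide +kernel)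
theorem L66724 : W_26 (nat_lit 3) (nat_lit 0x4000300004001e00080000000000000000000000000000000) (nat_lit 0x0) (nat_lit 0x2000000008000000038000000000000000000000000000000) := T_26 (nat_lit 124) (nat_lit 123) (nat_lit 0) (nat_lit 8) (nat_lit 8) L66723 (by decide +kernel)
theorem L66725 : W_26 (nat_lit 4) (nat_lit 0x4000300000001e00080000000000000000000000000000000) (nat_lit 0x0) (nat_lit 0x200000000e000000038000000000000000000000000000000) := T_26 (nat_lit 158) (nat_lit 157) (nat_lit 1) (nat_lit 8) (nat_lit 8) L66724 (by decide +kernel)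
theorem L66726 : W_26 (nat_lit 5) (nat_lit 0x4000300000001c00080000000000000000000000000000000) (nat_lit 0x0) (nat_lit 0x200000000e000200138000000000000000000000000000000) := T_26 (nat_lit 141) (nat_lit 128) (nat_lit 2) (nat_lit 5) (nat_lit 8) L66725 (by decide +kernel)
theorem L66727 : W_26 (nat_lit 10) (nat_lit 0x4000300000001800080000000000000000000000000000000) (nat_lit 0x0) (nat_lit 0x10000c0007801b0000c000f00070017c000000000000000000000000000000) := Q_26 (nat_lit 142) (C_26 L66665 (C_26 L66661 (C_26 L16741 (C_26 L66726 N_26)))) (by decide +kernel)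
theorem L66728 : W_26 (nat_lit 11) (nat_lit 0x4000300000001000080000000000000000000000000000000) (nat_lit 0x0) (nat_lit 0x10000c0007801b0000c001f000f0017c000000000000000000000000000000) := T_26 (nat_lit 143) (nat_lit 160) (nat_lit 6) (nat_lit 7) (nat_lit 11) L66727 (by decide +kernel)
theorem L66729 : W_26 (nat_lit 5) (nat_lit 0x40003000000014000a0000000000000000000000000000000) (nat_lit 0x0) (nat_lit 0x10000b0015c000000000000000000000000000000) := T_26 (nat_lit 143) (nat_lit 160) (nat_lit 6) (nat_lit 7) (nat_lit 11) L66664 (by decide +kernel)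
theorem L66730 : W_26 (nat_lit 6) (nat_lit 0x4000300000001400080000000000000000000000000000000) (nat_lit 0x0) (nat_lit 0x18000b0017c000000000000000000000000000000) := T_26 (nat_lit 125) (nat_lit 159) (nat_lit 7) (nat_lit 6) (nat_lit 7) L66729 (by decide +kernel)
theorem L66731 : W_26 (nat_lit 2) (nat_lit 0x4000f00008001400080000000000000000000000000000000) (nat_lit 0x0) (nat_lit 0x3001000000000000000000000000000000000000000000000) := D_26 (nat_lit 193) (nat_lit 192) (nat_lit 180) (nat_lit 1) (nat_lit 9) (nat_lit 10) (nat_lit 1) (nat_lit 10) (nat_lit 10) (by decide +kernel)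
theorem L66732 : W_26 (nat_lit 3) (nat_lit 0x4000700008001400080000000000000000000000000000000) (nat_lit 0x0) (nat_lit 0x3001800004000000000000000000000000000000000000000) := T_26 (nat_lit 179) (nat_lit 158) (nat_lit 0) (nat_lit 9) (nat_lit 10) L66731 (by decide +kernel)
theorem L66733 : W_26 (nat_lit 4) (nat_lit 0x4000700000001400080000000000000000000000000000000) (nat_lit 0x0) (nat_lit 0x300180000c000000020000000000000000000000000000000) := T_26 (nat_lit 159) (nat_lit 125) (nat_lit 7) (nat_lit 6) (nat_lit 7) L66732 (by decide +kernel)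
theorem L66734 : W_26 (nat_lit 5) (nat_lit 0x4000300000001400080000000000000000000000000000000) (nat_lit 0x0) (nat_lit 0x3001c0002c000000020000000000000000000000000000000) := T_26 (nat_lit 178) (nat_lit 161) (nat_lit 5) (nat_lit 8) (nat_lit 7) L66733 (by decide +kernel)
theorem L66735 : W_26 (nat_lit 5) (nat_lit 0x4000300000001400080000000000000000000000000000000) (nat_lit 0x0) (nat_lit 0x17000b00140000000000000000000000000000000) := T_26 (nat_lit 143) (nat_lit 160) (nat_lit 6) (nat_lit 7) (nat_lit 11) L16741 (by decide +kernel)
theorem L66736 : W_26 (nat_lit 7) (nat_lit 0x4000300000001000080000000000000000000000000000000) (nat_lit 0x0) (nat_lit 0x3001c0003f000f0017c000000000000000000000000000000) := Q_26 (nat_lit 142) (C_26 L66730 (C_26 L66734 (C_26 L66735 N_26))) (by decide +kernel)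
theorem L66737 : W_26 (nat_lit 13) (nat_lit 0x4000200000001000080000000000000000000000000000000) (nat_lit 0x0) (nat_lit 0x10002c0077807b003dc00ff000f0017c001c00080000000000000000000000) := Q_26 (nat_lit 176) (C_26 L66667 (C_26 L66694 (C_26 L66703 (C_26 L8170 (C_26 L66722 (C_26 L66728 (C_26 L66736 N_26))))))) (by decide +kernel)
theorem L66738 : W_26 (nat_lit 17) (nat_lit 0x200000001000080000000000000000000000000000000) (nat_lit 0x0) (nat_lit 0x1c000e001f801fe03ff81ff007dc03ff004f0037c001c00080000000000000000000000) := Q_26 (nat_lit 194) (C_26 L66479 (C_26 L66642 (C_26 L5489 (C_26 L5483 (C_26 L66737 N_26))))) (by decide +kernel)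
theorem L73876 : W_26 (nat_lit 2) (nat_lit 0x2000780024001200080000000000000000000000000000000) (nat_lit 0x0) (nat_lit 0x800040000000000008000000000000000000000000000000000000000) := D_26 (nat_lit 210) (nat_lit 227) (nat_lit 159) (nat_lit 4) (nat_lit 6) (nat_lit 13) (nat_lit 4) (nat_lit 6) (nat_lit 12) (by decide +kernel)
theorem L73877 : W_26 (nat_lit 3) (nat_lit 0x2000780024001000080000000000000000000000000000000) (nat_lit 0x0) (nat_lit 0x800040000000000008000200010000000000000000000000000000000) := T_26 (nat_lit 141) (nat_lit 124) (nat_lit 7) (nat_lit 5) (nat_lit 7) L73876 (by decide +kernel)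
theorem L73878 : W_26 (nat_lit 4) (nat_lit 0x2000780004001000080000000000000000000000000000000) (nat_lit 0x0) (nat_lit 0x800040000000000068000200010000000000000000000000000000000) := T_26 (nat_lit 161) (nat_lit 162) (nat_lit 2) (nat_lit 5) (nat_lit 10) L73877 (by decide +kernel)
theorem L73879 : W_26 (nat_lit 5) (nat_lit 0x2000780000001000080000000000000000000000000000000) (nat_lit 0x0) (nat_lit 0x80004000000000006e000200010000000000000000000000000000000) := T_26 (nat_lit 158) (nat_lit 157) (nat_lit 0) (nat_lit 8) (nat_lit 10) L73878 (by decide +kernel)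
theorem L73880 : W_26 (nat_lit 2) (nat_lit 0x3000780004001000080000000000000000000000000000000) (nat_lit 0x0) (nat_lit 0x40000000000000000200010000000000000000000000000000000) := D_26 (nat_lit 141) (nat_lit 124) (nat_lit 210) (nat_lit 7) (nat_lit 5) (nat_lit 7) (nat_lit 7) (nat_lit 5) (nat_lit 8) (by decide +kernel)
theorem L73881 : W_26 (nat_lit 3) (nat_lit 0x2000780004001000080000000000000000000000000000000) (nat_lit 0x0) (nat_lit 0x40001800000000000200010000000000000000000000000000000) := T_26 (nat_lit 192) (nat_lit 191) (nat_lit 1) (nat_lit 8) (nat_lit 10) L73880 (by decide +kernel)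
theorem L73882 : W_26 (nat_lit 4) (nat_lit 0x2000780000001000080000000000000000000000000000000) (nat_lit 0x0) (nat_lit 0x40001800000006000200010000000000000000000000000000000) := T_26 (nat_lit 158) (nat_lit 157) (nat_lit 0) (nat_lit 8) (nat_lit 10) L73881 (by decide +kernel)
theorem L73883 : W_26 (nat_lit 2) (nat_lit 0x8000000030007800240018001c0000000000000000000000000000000) (nat_lit 0x0) (nat_lit 0x400600000000000000000000000000000000) := D_26 (nat_lit 129) (nat_lit 130) (nat_lit 142) (nat_lit 1) (nat_lit 11) (nat_lit 7) (nat_lit 1) (nat_lit 10) (nat_lit 7) (by decide +kernel)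
theorem L73884 : W_26 (nat_lit 3) (nat_lit 0x8000000030007800240010001c0000000000000000000000000000000) (nat_lit 0x0) (nat_lit 0x10000c00600000000000000000000000000000000) := T_26 (nat_lit 143) (nat_lit 160) (nat_lit 5) (nat_lit 7) (nat_lit 7) L73883 (by decide +kernel)
theorem L73885 : W_26 (nat_lit 4) (nat_lit 0x800000003000780024001000180000000000000000000000000000000) (nat_lit 0x0) (nat_lit 0x10000c00640002000000000000000000000000000) := T_26 (nat_lit 126) (nat_lit 109) (nat_lit 4) (nat_lit 8) (nat_lit 10) L73884 (by decide +kernel)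
theorem L73886 : W_26 (nat_lit 5) (nat_lit 0x3000780024001000180000000000000000000000000000000) (nat_lit 0x0) (nat_lit 0x800040000000000010000c00640002000000000000000000000000000) := T_26 (nat_lit 227) (nat_lit 210) (nat_lit 4) (nat_lit 6) (nat_lit 13) L73885 (by decide +kernel)
theorem L73887 : W_26 (nat_lit 6) (nat_lit 0x3000780024001000080000000000000000000000000000000) (nat_lit 0x0) (nat_lit 0x800040000000000010000c0074000a000000000000000000000000000) := T_26 (nat_lit 128) (nat_lit 111) (nat_lit 6) (nat_lit 8) (nat_lit 10) L73886 (by decide +kernel)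
theorem L73888 : W_26 (nat_lit 7) (nat_lit 0x3000780020001000080000000000000000000000000000000) (nat_lit 0x0) (nat_lit 0x800040000000000016000c0074000a000000000000000000000000000) := T_26 (nat_lit 158) (nat_lit 157) (nat_lit 0) (nat_lit 8) (nat_lit 10) L73887 (by decide +kernel)
theorem L73889 : W_26 (nat_lit 8) (nat_lit 0x3000780000001000080000000000000000000000000000000) (nat_lit 0x0) (nat_lit 0x800040000000000076000c0074000a000000000000000000000000000) := T_26 (nat_lit 161) (nat_lit 162) (nat_lit 2) (nat_lit 5) (nat_lit 10) L73888 (by decide +kernel)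
theorem L73890 : W_26 (nat_lit 9) (nat_lit 0x2000780000001000080000000000000000000000000000000) (nat_lit 0x0) (nat_lit 0x800040001800000076000c0074000a000000000000000000000000000) := T_26 (nat_lit 192) (nat_lit 191) (nat_lit 1) (nat_lit 8) (nat_lit 10) L73889 (by decide +kernel)
theorem L73891 : W_26 (nat_lit 2) (nat_lit 0x30007800240018001c0000000000000000000000000000000) (nat_lit 0x0) (nat_lit 0x600010000000000000000000000000000000) := D_26 (nat_lit 141) (nat_lit 142) (nat_lit 124) (nat_lit 2) (nat_lit 5) (nat_lit 8) (nat_lit 7) (nat_lit 5) (nat_lit 7) (by decide +kernel)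
theorem L73892 : W_26 (nat_lit 3) (nat_lit 0x30007800240010001c0000000000000000000000000000000) (nat_lit 0x0) (nat_lit 0x10000e00010000000000000000000000000000000) := T_26 (nat_lit 143) (nat_lit 160) (nat_lit 5) (nat_lit 7) (nat_lit 7) L73891 (by decide +kernel)
theorem L73893 : W_26 (nat_lit 4) (nat_lit 0x30007800200010001c0000000000000000000000000000000) (nat_lit 0x0) (nat_lit 0x16000e00010000000000000000000000000000000) := T_26 (nat_lit 158) (nat_lit 157) (nat_lit 0) (nat_lit 8) (nat_lit 10) L73892 (by decide +kernel)
theorem L73894 : W_26 (nat_lit 5) (nat_lit 0x3000780020001000180000000000000000000000000000000) (nat_lit 0x0) (nat_lit 0x16000e00050002000000000000000000000000000) := T_26 (nat_lit 126) (nat_lit 109) (nat_lit 4) (nat_lit 8) (nat_lit 10) L73893 (by decide +kernel)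
theorem L73895 : W_26 (nat_lit 6) (nat_lit 0x3000780020001000080000000000000000000000000000000) (nat_lit 0x0) (nat_lit 0x16000e0015000a000000000000000000000000000) := T_26 (nat_lit 128) (nat_lit 111) (nat_lit 6) (nat_lit 8) (nat_lit 10) L73894 (by decide +kernel)
theorem L73896 : W_26 (nat_lit 7) (nat_lit 0x2000780020001000080000000000000000000000000000000) (nat_lit 0x0) (nat_lit 0x1800000016000e0015000a000000000000000000000000000) := T_26 (nat_lit 192) (nat_lit 191) (nat_lit 1) (nat_lit 8) (nat_lit 10) L73895 (by decide +kernel)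
theorem L73897 : W_26 (nat_lit 8) (nat_lit 0x2000780000001000080000000000000000000000000000000) (nat_lit 0x0) (nat_lit 0x1800000076000e0015000a000000000000000000000000000) := T_26 (nat_lit 161) (nat_lit 162) (nat_lit 2) (nat_lit 5) (nat_lit 10) L73896 (by decide +kernel)
theorem L73898 : W_26 (nat_lit 2) (nat_lit 0x30007800200018001c0000000000000000000000000000000) (nat_lit 0x0) (nat_lit 0x600200000000000000000000000000000000) := D_26 (nat_lit 142) (nat_lit 141) (nat_lit 129) (nat_lit 2) (nat_lit 5) (nat_lit 8) (nat_lit 1) (nat_lit 10) (nat_lit 7) (by decide +kernel)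
theorem L73899 : W_26 (nat_lit 3) (nat_lit 0x30007800200010001c0000000000000000000000000000000) (nat_lit 0x0) (nat_lit 0x10000e00200000000000000000000000000000000) := T_26 (nat_lit 143) (nat_lit 160) (nat_lit 5) (nat_lit 7) (nat_lit 7) L73898 (by decide +kernel)
theorem L73900 : W_26 (nat_lit 4) (nat_lit 0x3000780020001000180000000000000000000000000000000) (nat_lit 0x0) (nat_lit 0x10000e00240002000000000000000000000000000) := T_26 (nat_lit 126) (nat_lit 109) (nat_lit 4) (nat_lit 8) (nat_lit 10) L73899 (by decide +kernel)
theorem L73901 : W_26 (nat_lit 5) (nat_lit 0x3000780020001000080000000000000000000000000000000) (nat_lit 0x0) (nat_lit 0x10000e0034000a000000000000000000000000000) := T_26 (nat_lit 128) (nat_lit 111) (nat_lit 6) (nat_lit 8) (nat_lit 10) L73900 (by decide +kernel)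
theorem L73902 : W_26 (nat_lit 6) (nat_lit 0x2000780020001000080000000000000000000000000000000) (nat_lit 0x0) (nat_lit 0x1800000010000e0034000a000000000000000000000000000) := T_26 (nat_lit 192) (nat_lit 191) (nat_lit 1) (nat_lit 8) (nat_lit 10) L73901 (by decide +kernel)
theorem L73903 : W_26 (nat_lit 7) (nat_lit 0x2000780000001000080000000000000000000000000000000) (nat_lit 0x0) (nat_lit 0x1800000070000e0034000a000000000000000000000000000) := T_26 (nat_lit 161) (nat_lit 162) (nat_lit 2) (nat_lit 5) (nat_lit 10) L73902 (by decide +kernel)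
theorem L73904 : W_26 (nat_lit 10) (nat_lit 0x780000001000080000000000000000000000000000000) (nat_lit 0x0) (nat_lit 0x80004000380000007e000e0075000a000000000000000000000000000) := Q_26 (nat_lit 193) (C_26 L73879 (C_26 L73882 (C_26 L73890 (C_26 L73897 (C_26 L73903 N_26))))) (by decide +kernel)
theorem L73905 : W_26 (nat_lit 2) (nat_lit 0x8007c00240012001c0000000000000000000000000000000) (nat_lit 0x0) (nat_lit 0xc00020000000000000000000000000000000) := D_26 (nat_lit 142) (nat_lit 143) (nat_lit 125) (nat_lit 2) (nat_lit 5) (nat_lit 8) (nat_lit 1) (nat_lit 9) (nat_lit 7) (by decide +kernel)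
theorem L73906 : W_26 (nat_lit 3) (nat_lit 0x8007c00240010001c0000000000000000000000000000000) (nat_lit 0x0) (nat_lit 0xe00030000000000000000000000000000000) := T_26 (nat_lit 141) (nat_lit 124) (nat_lit 5) (nat_lit 5) (nat_lit 7) L73905 (by decide +kernel)
theorem L73907 : W_26 (nat_lit 4) (nat_lit 0x8007800240010001c0000000000000000000000000000000) (nat_lit 0x0) (nat_lit 0x400040000000e00030000000000000000000000000000000) := T_26 (nat_lit 174) (nat_lit 190) (nat_lit 1) (nat_lit 7) (nat_lit 10) L73906 (by decide +kernel)
theorem L73908 : W_26 (nat_lit 5) (nat_lit 0x7800240010001c0000000000000000000000000000000) (nat_lit 0x0) (nat_lit 0x1c00040000000e00030000000000000000000000000000000) := T_26 (nat_lit 191) (nat_lit 192) (nat_lit 1) (nat_lit 8) (nat_lit 10) L73907 (by decide +kernel)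
theorem L73909 : W_26 (nat_lit 6) (nat_lit 0x780024001000180000000000000000000000000000000) (nat_lit 0x0) (nat_lit 0x1c00040000000e00070002000000000000000000000000000) := T_26 (nat_lit 126) (nat_lit 109) (nat_lit 4) (nat_lit 8) (nat_lit 10) L73908 (by decide +kernel)
theorem L73910 : W_26 (nat_lit 7) (nat_lit 0x780024001000080000000000000000000000000000000) (nat_lit 0x0) (nat_lit 0x1c00040000000e0017000a000000000000000000000000000) := T_26 (nat_lit 128) (nat_lit 111) (nat_lit 6) (nat_lit 8) (nat_lit 10) L73909 (by decide +kernel)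
theorem L73911 : W_26 (nat_lit 8) (nat_lit 0x780020001000080000000000000000000000000000000) (nat_lit 0x0) (nat_lit 0x1c00040006000e0017000a000000000000000000000000000) := T_26 (nat_lit 158) (nat_lit 157) (nat_lit 0) (nat_lit 8) (nat_lit 10) L73910 (by decide +kernel)
theorem L73912 : W_26 (nat_lit 9) (nat_lit 0x780000001000080000000000000000000000000000000) (nat_lit 0x0) (nat_lit 0x1c00040066000e0017000a000000000000000000000000000) := T_26 (nat_lit 161) (nat_lit 162) (nat_lit 2) (nat_lit 5) (nat_lit 10) L73911 (by decide +kernel)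
theorem L73913 : W_26 (nat_lit 2) (nat_lit 0x2000000008007c00240012001c0000000000000000000000000000000) (nat_lit 0x0) (nat_lit 0xc00020000000000000000000000000000000) := D_26 (nat_lit 142) (nat_lit 125) (nat_lit 143) (nat_lit 1) (nat_lit 9) (nat_lit 7) (nat_lit 2) (nat_lit 5) (nat_lit 8) (by decide +kernel)
theorem L73914 : W_26 (nat_lit 3) (nat_lit 0x2000000008007c0024001200180000000000000000000000000000000) (nat_lit 0x0) (nat_lit 0xc00060002000000000000000000000000000) := T_26 (nat_lit 126) (nat_lit 109) (nat_lit 4) (nat_lit 8) (nat_lit 10) L73913 (by decide +kernel)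
theorem L73915 : W_26 (nat_lit 4) (nat_lit 0x2000000008007c0024001000180000000000000000000000000000000) (nat_lit 0x0) (nat_lit 0xe00070002000000000000000000000000000) := T_26 (nat_lit 141) (nat_lit 124) (nat_lit 5) (nat_lit 5) (nat_lit 7) L73914 (by decide +kernel)
theorem L73916 : W_26 (nat_lit 5) (nat_lit 0x8007c0024001000180000000000000000000000000000000) (nat_lit 0x0) (nat_lit 0x200010000000000000000e00070002000000000000000000000000000) := T_26 (nat_lit 225) (nat_lit 208) (nat_lit 6) (nat_lit 4) (nat_lit 13) L73915 (by decide +kernel)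
theorem L73917 : W_26 (nat_lit 6) (nat_lit 0x8007c0024001000080000000000000000000000000000000) (nat_lit 0x0) (nat_lit 0x200010000000000000000e0017000a000000000000000000000000000) := T_26 (nat_lit 128) (nat_lit 111) (nat_lit 6) (nat_lit 8) (nat_lit 10) L73916 (by decide +kernel)
theorem L73918 : W_26 (nat_lit 7) (nat_lit 0x7c0024001000080000000000000000000000000000000) (nat_lit 0x0) (nat_lit 0x200010000c00000000000e0017000a000000000000000000000000000) := T_26 (nat_lit 191) (nat_lit 190) (nat_lit 1) (nat_lit 7) (nat_lit 10) L73917 (by decide +kernel)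
theorem L73919 : W_26 (nat_lit 8) (nat_lit 0x780024001000080000000000000000000000000000000) (nat_lit 0x0) (nat_lit 0x200010000c00040010000e0017000a000000000000000000000000000) := T_26 (nat_lit 174) (nat_lit 160) (nat_lit 2) (nat_lit 4) (nat_lit 10) L73918 (by decide +kernel)
theorem L73920 : W_26 (nat_lit 9) (nat_lit 0x780004001000080000000000000000000000000000000) (nat_lit 0x0) (nat_lit 0x200010000c00040070000e0017000a000000000000000000000000000) := T_26 (nat_lit 161) (nat_lit 162) (nat_lit 2) (nat_lit 5) (nat_lit 10) L73919 (by decide +kernel)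
theorem L73921 : W_26 (nat_lit 10) (nat_lit 0x780000001000080000000000000000000000000000000) (nat_lit 0x0) (nat_lit 0x200010000c00040076000e0017000a000000000000000000000000000) := T_26 (nat_lit 158) (nat_lit 157) (nat_lit 0) (nat_lit 8) (nat_lit 10) L73920 (by decide +kernel)
theorem L73925 : W_26 (nat_lit 11) (nat_lit 0x700000001000080000000000000000000000000000000) (nat_lit 0x0) (nat_lit 0xa00050003c000c007f000e0077000a000000000000000000000000000) := Q_26 (nat_lit 175) (C_26 L73904 (C_26 L72871 (C_26 L73912 (C_26 L11313 (C_26 L73921 (C_26 L73924 N_26)))))) (by decide +kernel)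
theorem L73926 : W_26 (nat_lit 4) (nat_lit 0x11000f00000001000080000000000000000000000000000000) (nat_lit 0x0) (nat_lit 0x8000800ce000000000000000000000000000000000000000) := T_26 (nat_lit 162) (nat_lit 163) (nat_lit 2) (nat_lit 6) (nat_lit 10) L5578 (by decide +kernel)
theorem L73927 : W_26 (nat_lit 5) (nat_lit 0x10000f00000001000080000000000000000000000000000000) (nat_lit 0x0) (nat_lit 0x38000800ce000000000000000000000000000000000000000) := T_26 (nat_lit 192) (nat_lit 193) (nat_lit 1) (nat_lit 9) (nat_lit 10) L73926 (by decide +kernel)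
theorem L73928 : W_26 (nat_lit 6) (nat_lit 0xf00000001000080000000000000000000000000000000) (nat_lit 0x0) (nat_lit 0x338000800ce000000000000000000000000000000000000000) := T_26 (nat_lit 196) (nat_lit 197) (nat_lit 3) (nat_lit 6) (nat_lit 10) L73927 (by decide +kernel)
theorem L73929 : W_26 (nat_lit 5) (nat_lit 0xf00040001000080000000000000000000000000000000) (nat_lit 0x0) (nat_lit 0x4000300100001c000800040000000000000000000000000000000) := T_26 (nat_lit 193) (nat_lit 192) (nat_lit 1) (nat_lit 9) (nat_lit 10) L73587 (by decide +kernel)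
theorem L73930 : W_26 (nat_lit 6) (nat_lit 0xf00000001000080000000000000000000000000000000) (nat_lit 0x0) (nat_lit 0x400030010000dc000800040000000000000000000000000000000) := T_26 (nat_lit 162) (nat_lit 163) (nat_lit 2) (nat_lit 6) (nat_lit 10) L73929 (by decide +kernel)
theorem L73931 : W_26 (nat_lit 7) (nat_lit 0x700000001000080000000000000000000000000000000) (nat_lit 0x0) (nat_lit 0x400738018801de000800040000000000000000000000000000000) := Q_26 (nat_lit 179) (C_26 L4830 (C_26 L73928 (C_26 L72899 (C_26 L17036 (C_26 L73930 N_26))))) (by decide +kernel)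
theorem L73932 : W_26 (nat_lit 2) (nat_lit 0xf80048001000080000000000000000000000000000000) (nat_lit 0x0) (nat_lit 0x3800000000000000000000000000000000000000000000000) := D_26 (nat_lit 192) (nat_lit 191) (nat_lit 193) (nat_lit 1) (nat_lit 8) (nat_lit 10) (nat_lit 1) (nat_lit 9) (nat_lit 10) (by decide +kernel)
theorem L73933 : W_26 (nat_lit 3) (nat_lit 0xf00048001000080000000000000000000000000000000) (nat_lit 0x0) (nat_lit 0x3800080020000000000000000000000000000000000000000) := T_26 (nat_lit 175) (nat_lit 161) (nat_lit 2) (nat_lit 5) (nat_lit 10) L73932 (by decide +kernel)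
theorem L73934 : W_26 (nat_lit 4) (nat_lit 0xf00008001000080000000000000000000000000000000) (nat_lit 0x0) (nat_lit 0x38000800e0000000000000000000000000000000000000000) := T_26 (nat_lit 162) (nat_lit 163) (nat_lit 2) (nat_lit 6) (nat_lit 10) L73933 (by decide +kernel)
theorem L73935 : W_26 (nat_lit 5) (nat_lit 0xf00000001000080000000000000000000000000000000) (nat_lit 0x0) (nat_lit 0x38000800ec000000000000000000000000000000000000000) := T_26 (nat_lit 159) (nat_lit 158) (nat_lit 0) (nat_lit 9) (nat_lit 10) L73934 (by decide +kernel)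
theorem L73936 : W_26 (nat_lit 6) (nat_lit 0x700000001000080000000000000000000000000000000) (nat_lit 0x0) (nat_lit 0x738018801ec000000000000000000000000000000000000000) := Q_26 (nat_lit 179) (C_26 L72811 (C_26 L72899 (C_26 L73935 N_26))) (by decide +kernel)
theorem L73938 : W_26 (nat_lit 2) (nat_lit 0xf00020001000180000000000000000000000000000000) (nat_lit 0x0) (nat_lit 0x800c0000000000000000000000000000000000000000) := D_26 (nat_lit 162) (nat_lit 163) (nat_lit 175) (nat_lit 2) (nat_lit 6) (nat_lit 10) (nat_lit 2) (nat_lit 5) (nat_lit 10) (by decide +kernel)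
theorem L73939 : W_26 (nat_lit 3) (nat_lit 0x700020001000180000000000000000000000000000000) (nat_lit 0x0) (nat_lit 0x100008800c0000000000000000000000000000000000000000) := T_26 (nat_lit 179) (nat_lit 196) (nat_lit 7) (nat_lit 8) (nat_lit 7) L73938 (by decide +kernel)
theorem L73940 : W_26 (nat_lit 4) (nat_lit 0x700020001000080000000000000000000000000000000) (nat_lit 0x0) (nat_lit 0x100008800c0000000100008000000000000000000000000000) := T_26 (nat_lit 128) (nat_lit 111) (nat_lit 6) (nat_lit 8) (nat_lit 10) L73939 (by decide +kernel)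
theorem L73941 : W_26 (nat_lit 4) (nat_lit 0x2000f00060001000180000000000000000000000000000000) (nat_lit 0x0) (nat_lit 0x10000e00240002000000000000000000000000000) := T_26 (nat_lit 126) (nat_lit 109) (nat_lit 4) (nat_lit 8) (nat_lit 10) L8721 (by decide +kernel)
theorem L73942 : W_26 (nat_lit 5) (nat_lit 0xf00060001000180000000000000000000000000000000) (nat_lit 0x0) (nat_lit 0x3000000010000e00240002000000000000000000000000000) := T_26 (nat_lit 193) (nat_lit 192) (nat_lit 1) (nat_lit 9) (nat_lit 10) L73941 (by decide +kernel)
theorem L73943 : W_26 (nat_lit 6) (nat_lit 0xf00020001000180000000000000000000000000000000) (nat_lit 0x0) (nat_lit 0x30000000d0000e00240002000000000000000000000000000) := T_26 (nat_lit 162) (nat_lit 163) (nat_lit 2) (nat_lit 6) (nat_lit 10) L73942 (by decide +kernel)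
theorem L73944 : W_26 (nat_lit 7) (nat_lit 0x700020001000180000000000000000000000000000000) (nat_lit 0x0) (nat_lit 0x130008000d0000e00240002000000000000000000000000000) := T_26 (nat_lit 179) (nat_lit 196) (nat_lit 7) (nat_lit 8) (nat_lit 7) L73943 (by decide +kernel)
theorem L73945 : W_26 (nat_lit 8) (nat_lit 0x700020001000080000000000000000000000000000000) (nat_lit 0x0) (nat_lit 0x130008000d0000e0034000a000000000000000000000000000) := T_26 (nat_lit 128) (nat_lit 111) (nat_lit 6) (nat_lit 8) (nat_lit 10) L73944 (by decide +kernel)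
theorem L73946 : W_26 (nat_lit 6) (nat_lit 0x7000200010000c0000000000000000000000000000000) (nat_lit 0x0) (nat_lit 0x13000800010000e00300008000000000000000000000000000) := T_26 (nat_lit 128) (nat_lit 111) (nat_lit 6) (nat_lit 8) (nat_lit 10) L8730 (by decide +kernel)
theorem L73947 : W_26 (nat_lit 7) (nat_lit 0x700020001000080000000000000000000000000000000) (nat_lit 0x0) (nat_lit 0x13000800010000e0034000a000000000000000000000000000) := T_26 (nat_lit 126) (nat_lit 109) (nat_lit 4) (nat_lit 8) (nat_lit 10) L73946 (by decide +kernel)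
theorem L73948 : W_26 (nat_lit 9) (nat_lit 0x700000001000080000000000000000000000000000000) (nat_lit 0x0) (nat_lit 0x130008c00f7000e0034000a000000000000000000000000000) := Q_26 (nat_lit 161) (C_26 L73937 (C_26 L73940 (C_26 L73945 (C_26 L73947 N_26)))) (by decide +kernel)
theorem L73949 : W_26 (nat_lit 7) (nat_lit 0x700000001000080000000000000000000000000000000) (nat_lit 0x0) (nat_lit 0x400330018000fc000800040000000000000000000000000000000) := Q_26 (nat_lit 179) (C_26 L72811 (C_26 L73930 N_26)) (by decide +kernel)
theorem L73950 : W_26 (nat_lit 2) (nat_lit 0x8000000020003f001680010007c0000000000000000000000000000000) (nat_lit 0x0) (nat_lit 0x70000000000000000000000000000) := D_26 (nat_lit 113) (nat_lit 114) (nat_lit 112) (nat_lit 2) (nat_lit 8) (nat_lit 7) (nat_lit 2) (nat_lit 7) (nat_lit 7) (by decide +kernel)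
theorem L73951 : W_26 (nat_lit 3) (nat_lit 0x8000000020003f001680010005c0000000000000000000000000000000) (nat_lit 0x0) (nat_lit 0x800200070000000000000000000000000000) := T_26 (nat_lit 129) (nat_lit 143) (nat_lit 1) (nat_lit 11) (nat_lit 7) L73950 (by decide +kernel)
theorem L73952 : W_26 (nat_lit 4) (nat_lit 0x8000000020003f001680010001c0000000000000000000000000000000) (nat_lit 0x0) (nat_lit 0x8800600070000000000000000000000000000) := T_26 (nat_lit 130) (nat_lit 147) (nat_lit 5) (nat_lit 11) (nat_lit 7) L73951 (by decide +kernel)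
theorem L73953 : W_26 (nat_lit 5) (nat_lit 0x8000000020003f001680010000c0000000000000000000000000000000) (nat_lit 0x0) (nat_lit 0x8800700078000000000000000000000000000) := T_26 (nat_lit 128) (nat_lit 111) (nat_lit 6) (nat_lit 8) (nat_lit 10) L73952 (by decide +kernel)
theorem L73954 : W_26 (nat_lit 6) (nat_lit 0x8000000020003f000680010000c0000000000000000000000000000000) (nat_lit 0x0) (nat_lit 0x300008800700078000000000000000000000000000) := T_26 (nat_lit 164) (nat_lit 165) (nat_lit 2) (nat_lit 8) (nat_lit 10) L73953 (by decide +kernel)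
theorem L73955 : W_26 (nat_lit 7) (nat_lit 0x20003f000680010000c0000000000000000000000000000000) (nat_lit 0x0) (nat_lit 0x8000400000000000300008800700078000000000000000000000000000) := T_26 (nat_lit 231) (nat_lit 214) (nat_lit 4) (nat_lit 10) (nat_lit 13) L73954 (by decide +kernel)
theorem L73956 : W_26 (nat_lit 8) (nat_lit 0x20001f000680010000c0000000000000000000000000000000) (nat_lit 0x0) (nat_lit 0x8000400000006000300008800700078000000000000000000000000000) := T_26 (nat_lit 181) (nat_lit 182) (nat_lit 0) (nat_lit 12) (nat_lit 10) L73955 (by decide +kernel)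
theorem L73957 : W_26 (nat_lit 9) (nat_lit 0x1f000680010000c0000000000000000000000000000000) (nat_lit 0x0) (nat_lit 0x8000400060006000300008800700078000000000000000000000000000) := T_26 (nat_lit 197) (nat_lit 198) (nat_lit 3) (nat_lit 7) (nat_lit 10) L73956 (by decide +kernel)
theorem L73958 : W_26 (nat_lit 10) (nat_lit 0x1f00068001000080000000000000000000000000000000) (nat_lit 0x0) (nat_lit 0x800040006000600030000880074007a000000000000000000000000000) := T_26 (nat_lit 126) (nat_lit 109) (nat_lit 4) (nat_lit 8) (nat_lit 10) L73957 (by decide +kernel)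
theorem L73959 : W_26 (nat_lit 11) (nat_lit 0xf00068001000080000000000000000000000000000000) (nat_lit 0x0) (nat_lit 0x800040006000700031000880074007a000000000000000000000000000) := T_26 (nat_lit 180) (nat_lit 160) (nat_lit 3) (nat_lit 6) (nat_lit 9) L73958 (by decide +kernel)
theorem L73960 : W_26 (nat_lit 12) (nat_lit 0xf00048001000080000000000000000000000000000000) (nat_lit 0x0) (nat_lit 0x800040006000708033000880074007a000000000000000000000000000) := T_26 (nat_lit 161) (nat_lit 175) (nat_lit 2) (nat_lit 5) (nat_lit 10) L73959 (by decide +kernel)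
theorem L73961 : W_26 (nat_lit 13) (nat_lit 0xf00008001000080000000000000000000000000000000) (nat_lit 0x0) (nat_lit 0x80004000600070803f000880074007a000000000000000000000000000) := T_26 (nat_lit 162) (nat_lit 163) (nat_lit 2) (nat_lit 6) (nat_lit 10) L73960 (by decide +kernel)
theorem L73962 : W_26 (nat_lit 14) (nat_lit 0xf00000001000080000000000000000000000000000000) (nat_lit 0x0) (nat_lit 0x80004000600070803fc00880074007a000000000000000000000000000) := T_26 (nat_lit 159) (nat_lit 158) (nat_lit 0) (nat_lit 9) (nat_lit 10) L73961 (by decide +kernel)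
theorem L73963 : W_26 (nat_lit 2) (nat_lit 0xf00028001000080000000000000000000000000000000) (nat_lit 0x0) (nat_lit 0x800c0000000000000000000000000000000000000000) := D_26 (nat_lit 162) (nat_lit 163) (nat_lit 175) (nat_lit 2) (nat_lit 6) (nat_lit 10) (nat_lit 2) (nat_lit 5) (nat_lit 10) (by decide +kernel)
theorem L73964 : W_26 (nat_lit 3) (nat_lit 0xf00008001000080000000000000000000000000000000) (nat_lit 0x0) (nat_lit 0x100000800e0000000000000000000000000000000000000000) := T_26 (nat_lit 161) (nat_lit 196) (nat_lit 7) (nat_lit 8) (nat_lit 7) L73963 (by decide +kernel)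
theorem L73965 : W_26 (nat_lit 4) (nat_lit 0xf00000001000080000000000000000000000000000000) (nat_lit 0x0) (nat_lit 0x100000800ec000000000000000000000000000000000000000) := T_26 (nat_lit 159) (nat_lit 158) (nat_lit 0) (nat_lit 9) (nat_lit 10) L73964 (by decide +kernel)
theorem L73966 : W_26 (nat_lit 15) (nat_lit 0x700000001000080000000000000000000000000000000) (nat_lit 0x0) (nat_lit 0x80004000700078803fc00880074007a000000000000000000000000000) := Q_26 (nat_lit 179) (C_26 L72811 (C_26 L4830 (C_26 L73962 (C_26 L73965 N_26)))) (by decide +kernel)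
theorem L73967 : W_26 (nat_lit 2) (nat_lit 0x2001f000a80014001c0000000000000000000000000000000) (nat_lit 0x0) (nat_lit 0x200030000000000000000000000000000000) := D_26 (nat_lit 141) (nat_lit 124) (nat_lit 125) (nat_lit 4) (nat_lit 6) (nat_lit 11) (nat_lit 1) (nat_lit 9) (nat_lit 7) (by decide +kernel)
theorem L73968 : W_26 (nat_lit 3) (nat_lit 0x2001f000a80010001c0000000000000000000000000000000) (nat_lit 0x0) (nat_lit 0xe00030000000000000000000000000000000) := T_26 (nat_lit 142) (nat_lit 143) (nat_lit 6) (nat_lit 6) (nat_lit 11) L73967 (by decide +kernel)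
theorem L73969 : W_26 (nat_lit 4) (nat_lit 0x2001f000280010001c0000000000000000000000000000000) (nat_lit 0x0) (nat_lit 0x180000e00030000000000000000000000000000000) := T_26 (nat_lit 163) (nat_lit 164) (nat_lit 2) (nat_lit 7) (nat_lit 10) L73968 (by decide +kernel)
theorem L73970 : W_26 (nat_lit 5) (nat_lit 0x1f000280010001c0000000000000000000000000000000) (nat_lit 0x0) (nat_lit 0x3000000180000e00030000000000000000000000000000000) := T_26 (nat_lit 193) (nat_lit 192) (nat_lit 1) (nat_lit 9) (nat_lit 10) L73969 (by decide +kernel)
theorem L73971 : W_26 (nat_lit 6) (nat_lit 0xf000280010001c0000000000000000000000000000000) (nat_lit 0x0) (nat_lit 0x3001000190000e00030000000000000000000000000000000) := T_26 (nat_lit 180) (nat_lit 160) (nat_lit 0) (nat_lit 10) (nat_lit 10) L73970 (by decide +kernel)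
theorem L73972 : W_26 (nat_lit 7) (nat_lit 0xf00028001000180000000000000000000000000000000) (nat_lit 0x0) (nat_lit 0x3001000190000e00070002000000000000000000000000000) := T_26 (nat_lit 126) (nat_lit 109) (nat_lit 4) (nat_lit 8) (nat_lit 10) L73971 (by decide +kernel)
theorem L73973 : W_26 (nat_lit 8) (nat_lit 0xf00028001000080000000000000000000000000000000) (nat_lit 0x0) (nat_lit 0x3001000190000e0017000a000000000000000000000000000) := T_26 (nat_lit 128) (nat_lit 111) (nat_lit 6) (nat_lit 8) (nat_lit 10) L73972 (by decide +kernel)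
theorem L73974 : W_26 (nat_lit 9) (nat_lit 0xf00008001000080000000000000000000000000000000) (nat_lit 0x0) (nat_lit 0x130010001b0000e0017000a000000000000000000000000000) := T_26 (nat_lit 161) (nat_lit 196) (nat_lit 7) (nat_lit 8) (nat_lit 7) L73973 (by decide +kernel)
theorem L73975 : W_26 (nat_lit 10) (nat_lit 0xf00000001000080000000000000000000000000000000) (nat_lit 0x0) (nat_lit 0x130010001bc000e0017000a000000000000000000000000000) := T_26 (nat_lit 159) (nat_lit 158) (nat_lit 0) (nat_lit 9) (nat_lit 10) L73974 (by decide +kernel)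
theorem L73976 : W_26 (nat_lit 11) (nat_lit 0x700000001000080000000000000000000000000000000) (nat_lit 0x0) (nat_lit 0xf30038003bc000e0017000a000000000000000000000000000) := Q_26 (nat_lit 179) (C_26 L72811 (C_26 L17036 (C_26 L72885 (C_26 L73975 N_26)))) (by decide +kernel)
theorem L73977 : W_26 (nat_lit 5) (nat_lit 0x2000f00060001000080000000000000000000000000000000) (nat_lit 0x0) (nat_lit 0x10000e0034000a000000000000000000000000000) := T_26 (nat_lit 126) (nat_lit 109) (nat_lit 4) (nat_lit 8) (nat_lit 10) L8722 (by decide +kernel)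
theorem L73978 : W_26 (nat_lit 6) (nat_lit 0x2000f00040001000080000000000000000000000000000000) (nat_lit 0x0) (nat_lit 0x80030000e0034000a000000000000000000000000000) := T_26 (nat_lit 161) (nat_lit 175) (nat_lit 2) (nat_lit 5) (nat_lit 10) L73977 (by decide +kernel)
theorem L73979 : W_26 (nat_lit 7) (nat_lit 0x2000f00000001000080000000000000000000000000000000) (nat_lit 0x0) (nat_lit 0x800f0000e0034000a000000000000000000000000000) := T_26 (nat_lit 162) (nat_lit 163) (nat_lit 2) (nat_lit 6) (nat_lit 10) L73978 (by decide +kernel)
theorem L73980 : W_26 (nat_lit 8) (nat_lit 0xf00000001000080000000000000000000000000000000) (nat_lit 0x0) (nat_lit 0x30000800f0000e0034000a000000000000000000000000000) := T_26 (nat_lit 193) (nat_lit 192) (nat_lit 1) (nat_lit 9) (nat_lit 10) L73979 (by decide +kernel)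
theorem L73981 : W_26 (nat_lit 9) (nat_lit 0x700000001000080000000000000000000000000000000) (nat_lit 0x0) (nat_lit 0x730018801f0000e0034000a000000000000000000000000000) := Q_26 (nat_lit 179) (C_26 L72811 (C_26 L72899 (C_26 L73980 N_26))) (by decide +kernel)
theorem L73982 : W_26 (nat_lit 16) (nat_lit 0x300000001000080000000000000000000000000000000) (nat_lit 0x0) (nat_lit 0x8a004500f3c07cc03ff008e0077007a000000000000000000000000000) := Q_26 (nat_lit 178) (C_26 L73925 (C_26 L73931 (C_26 L73936 (C_26 L73948 (C_26 L73949 (C_26 L73966 (C_26 L73976 (C_26 L73981 N_26)))))))) (by decide +kernel)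
theorem L73983 : W_26 (nat_lit 3) (nat_lit 0x12000f00008001000080000000000000000000000000000000) (nat_lit 0x0) (nat_lit 0x1000080004001000000000400000000000000000000000000000000000) := T_26 (nat_lit 194) (nat_lit 180) (nat_lit 1) (nat_lit 10) (nat_lit 10) L16575 (by decide +kernel)
theorem L73984 : W_26 (nat_lit 4) (nat_lit 0x2000f00008001000080000000000000000000000000000000) (nat_lit 0x0) (nat_lit 0x1000080034001000000000400000000000000000000000000000000000) := T_26 (nat_lit 196) (nat_lit 197) (nat_lit 3) (nat_lit 6) (nat_lit 10) L73983 (by decide +kernel)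
theorem L73985 : W_26 (nat_lit 5) (nat_lit 0xf00008001000080000000000000000000000000000000) (nat_lit 0x0) (nat_lit 0x1000080037001000000000400000000000000000000000000000000000) := T_26 (nat_lit 193) (nat_lit 192) (nat_lit 1) (nat_lit 9) (nat_lit 10) L73984 (by decide +kernel)
theorem L73986 : W_26 (nat_lit 6) (nat_lit 0xf00000001000080000000000000000000000000000000) (nat_lit 0x0) (nat_lit 0x100008003700100000c000400000000000000000000000000000000000) := T_26 (nat_lit 159) (nat_lit 158) (nat_lit 0) (nat_lit 9) (nat_lit 10) L73985 (by decide +kernel)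
theorem L73987 : W_26 (nat_lit 7) (nat_lit 0x700000001000080000000000000000000000000000000) (nat_lit 0x0) (nat_lit 0x10000800778018801ce000400000000000000000000000000000000000) := Q_26 (nat_lit 179) (C_26 L11377 (C_26 L72899 (C_26 L73986 (C_26 L73928 (C_26 L11341 N_26))))) (by decide +kernel)
theorem L73988 : W_26 (nat_lit 5) (nat_lit 0x700000001000080000000000000000000000000000000) (nat_lit 0x0) (nat_lit 0x140008800e0000000100008000000000000000000000000000) := T_26 (nat_lit 161) (nat_lit 194) (nat_lit 5) (nat_lit 8) (nat_lit 7) L73940 (by decide +kernel)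
theorem L73989 : W_26 (nat_lit 5) (nat_lit 0x2000f000600010000c0000000000000000000000000000000) (nat_lit 0x0) (nat_lit 0xc000e00130008000000000000000000000000000) := T_26 (nat_lit 159) (nat_lit 158) (nat_lit 0) (nat_lit 9) (nat_lit 10) L11576 (by decide +kernel)
theorem L73990 : W_26 (nat_lit 6) (nat_lit 0xf000600010000c0000000000000000000000000000000) (nat_lit 0x0) (nat_lit 0x300000000c000e00130008000000000000000000000000000) := T_26 (nat_lit 193) (nat_lit 192) (nat_lit 1) (nat_lit 9) (nat_lit 10) L73989 (by decide +kernel)
theorem L73991 : W_26 (nat_lit 7) (nat_lit 0xf000200010000c0000000000000000000000000000000) (nat_lit 0x0) (nat_lit 0x30000000cc000e00130008000000000000000000000000000) := T_26 (nat_lit 162) (nat_lit 163) (nat_lit 2) (nat_lit 6) (nat_lit 10) L73990 (by decide +kernel)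
theorem L73992 : W_26 (nat_lit 8) (nat_lit 0x7000200010000c0000000000000000000000000000000) (nat_lit 0x0) (nat_lit 0x130008000cc000e00130008000000000000000000000000000) := T_26 (nat_lit 179) (nat_lit 196) (nat_lit 7) (nat_lit 8) (nat_lit 7) L73991 (by decide +kernel)
theorem L73993 : W_26 (nat_lit 9) (nat_lit 0x700020001000080000000000000000000000000000000) (nat_lit 0x0) (nat_lit 0x130008000cc000e0017000a000000000000000000000000000) := T_26 (nat_lit 126) (nat_lit 109) (nat_lit 4) (nat_lit 8) (nat_lit 10) L73992 (by decide +kernel)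
theorem L73994 : W_26 (nat_lit 10) (nat_lit 0x700000001000080000000000000000000000000000000) (nat_lit 0x0) (nat_lit 0x170008000ec000e0017000a000000000000000000000000000) := T_26 (nat_lit 161) (nat_lit 194) (nat_lit 5) (nat_lit 8) (nat_lit 7) L73993 (by decide +kernel)
theorem L73995 : W_26 (nat_lit 5) (nat_lit 0x8007800200010001c0000000000000000000000000000000) (nat_lit 0x0) (nat_lit 0x400040006000e00030000000000000000000000000000000) := T_26 (nat_lit 158) (nat_lit 157) (nat_lit 0) (nat_lit 8) (nat_lit 10) L73907 (by decide +kernel)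
theorem L73996 : W_26 (nat_lit 6) (nat_lit 0x7800200010001c0000000000000000000000000000000) (nat_lit 0x0) (nat_lit 0x1c00040006000e00030000000000000000000000000000000) := T_26 (nat_lit 191) (nat_lit 192) (nat_lit 1) (nat_lit 8) (nat_lit 10) L73995 (by decide +kernel)
theorem L73997 : W_26 (nat_lit 7) (nat_lit 0x7000200010001c0000000000000000000000000000000) (nat_lit 0x0) (nat_lit 0x1c000c0046000e00030000000000000000000000000000000) := T_26 (nat_lit 175) (nat_lit 162) (nat_lit 2) (nat_lit 5) (nat_lit 10) L73996 (by decide +kernel)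
theorem L73998 : W_26 (nat_lit 8) (nat_lit 0x7000200010000c0000000000000000000000000000000) (nat_lit 0x0) (nat_lit 0x1c000c0046000e00130008000000000000000000000000000) := T_26 (nat_lit 128) (nat_lit 111) (nat_lit 6) (nat_lit 8) (nat_lit 10) L73997 (by decide +kernel)
theorem L73999 : W_26 (nat_lit 9) (nat_lit 0x700020001000080000000000000000000000000000000) (nat_lit 0x0) (nat_lit 0x1c000c0046000e0017000a000000000000000000000000000) := T_26 (nat_lit 126) (nat_lit 109) (nat_lit 4) (nat_lit 8) (nat_lit 10) L73998 (by decide +kernel)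
theorem L74000 : W_26 (nat_lit 10) (nat_lit 0x700000001000080000000000000000000000000000000) (nat_lit 0x0) (nat_lit 0x5c000c0066000e0017000a000000000000000000000000000) := T_26 (nat_lit 161) (nat_lit 194) (nat_lit 5) (nat_lit 8) (nat_lit 7) L73999 (by decide +kernel)
theorem L74001 : W_26 (nat_lit 2) (nat_lit 0x2000f000280014001c0000000000000000000000000000000) (nat_lit 0x0) (nat_lit 0x200030000000000000000000000000000000) := D_26 (nat_lit 141) (nat_lit 124) (nat_lit 125) (nat_lit 4) (nat_lit 6) (nat_lit 11) (nat_lit 1) (nat_lit 9) (nat_lit 7) (by decide +kernel)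
theorem L74002 : W_26 (nat_lit 3) (nat_lit 0x2000f000280010001c0000000000000000000000000000000) (nat_lit 0x0) (nat_lit 0xe00030000000000000000000000000000000) := T_26 (nat_lit 142) (nat_lit 143) (nat_lit 6) (nat_lit 6) (nat_lit 11) L74001 (by decide +kernel)
theorem L74003 : W_26 (nat_lit 4) (nat_lit 0x2000f000280010000c0000000000000000000000000000000) (nat_lit 0x0) (nat_lit 0xe00130008000000000000000000000000000) := T_26 (nat_lit 128) (nat_lit 111) (nat_lit 6) (nat_lit 8) (nat_lit 10) L74002 (by decide +kernel)
theorem L74004 : W_26 (nat_lit 5) (nat_lit 0x2000f000200010000c0000000000000000000000000000000) (nat_lit 0x0) (nat_lit 0xc000e00130008000000000000000000000000000) := T_26 (nat_lit 159) (nat_lit 158) (nat_lit 0) (nat_lit 9) (nat_lit 10) L74003 (by decide +kernel)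
theorem L74005 : W_26 (nat_lit 6) (nat_lit 0xf000200010000c0000000000000000000000000000000) (nat_lit 0x0) (nat_lit 0x300000000c000e00130008000000000000000000000000000) := T_26 (nat_lit 193) (nat_lit 192) (nat_lit 1) (nat_lit 9) (nat_lit 10) L74004 (by decide +kernel)
theorem L74006 : W_26 (nat_lit 7) (nat_lit 0x7000200010000c0000000000000000000000000000000) (nat_lit 0x0) (nat_lit 0x1300080000c000e00130008000000000000000000000000000) := T_26 (nat_lit 179) (nat_lit 196) (nat_lit 7) (nat_lit 8) (nat_lit 7) L74005 (by decide +kernel)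
theorem L74007 : W_26 (nat_lit 8) (nat_lit 0x700020001000080000000000000000000000000000000) (nat_lit 0x0) (nat_lit 0x1300080000c000e0017000a000000000000000000000000000) := T_26 (nat_lit 126) (nat_lit 109) (nat_lit 4) (nat_lit 8) (nat_lit 10) L74006 (by decide +kernel)
theorem L74008 : W_26 (nat_lit 9) (nat_lit 0x700000001000080000000000000000000000000000000) (nat_lit 0x0) (nat_lit 0x1700080002c000e0017000a000000000000000000000000000) := T_26 (nat_lit 161) (nat_lit 194) (nat_lit 5) (nat_lit 8) (nat_lit 7) L74007 (by decide +kernel)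
theorem L74009 : W_26 (nat_lit 11) (nat_lit 0x300000001000080000000000000000000000000000000) (nat_lit 0x0) (nat_lit 0x1000080077c01cc01ee000e0017000a000000000000000000000000000) := Q_26 (nat_lit 178) (C_26 L73987 (C_26 L73936 (C_26 L73988 (C_26 L73994 (C_26 L74000 (C_26 L74008 N_26)))))) (by decide +kernel)
theorem L74011 : W_26 (nat_lit 2) (nat_lit 0x2000f000280010000c0000000000000000000000000000000) (nat_lit 0x0) (nat_lit 0x10000c00000000000000000000000000000000000) := D_26 (nat_lit 143) (nat_lit 160) (nat_lit 142) (nat_lit 5) (nat_lit 7) (nat_lit 7) (nat_lit 6) (nat_lit 6) (nat_lit 11) (by decide +kernel)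
theorem L74012 : W_26 (nat_lit 3) (nat_lit 0x2000f000200010000c0000000000000000000000000000000) (nat_lit 0x0) (nat_lit 0x1c000c00000000000000000000000000000000000) := T_26 (nat_lit 159) (nat_lit 158) (nat_lit 0) (nat_lit 9) (nat_lit 10) L74011 (by decide +kernel)
theorem L74013 : W_26 (nat_lit 4) (nat_lit 0xf000200010000c0000000000000000000000000000000) (nat_lit 0x0) (nat_lit 0x300000001c000c00000000000000000000000000000000000) := T_26 (nat_lit 193) (nat_lit 192) (nat_lit 1) (nat_lit 9) (nat_lit 10) L74012 (by decide +kernel)
theorem L74014 : W_26 (nat_lit 5) (nat_lit 0x7000200010000c0000000000000000000000000000000) (nat_lit 0x0) (nat_lit 0x1300080001c000c00000000000000000000000000000000000) := T_26 (nat_lit 179) (nat_lit 196) (nat_lit 7) (nat_lit 8) (nat_lit 7) L74013 (by decide +kernel)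
theorem L74015 : W_26 (nat_lit 6) (nat_lit 0x700020001000080000000000000000000000000000000) (nat_lit 0x0) (nat_lit 0x1300080001c000c00040002000000000000000000000000000) := T_26 (nat_lit 126) (nat_lit 109) (nat_lit 4) (nat_lit 8) (nat_lit 10) L74014 (by decide +kernel)
theorem L74016 : W_26 (nat_lit 7) (nat_lit 0x700000001000080000000000000000000000000000000) (nat_lit 0x0) (nat_lit 0x1700080003c000c00040002000000000000000000000000000) := T_26 (nat_lit 161) (nat_lit 194) (nat_lit 5) (nat_lit 8) (nat_lit 7) L74015 (by decide +kernel)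
theorem L74017 : W_26 (nat_lit 2) (nat_lit 0xf000200010000c0000000000000000000000000000000) (nat_lit 0x0) (nat_lit 0x800c0000000000000000000000000000000000000000) := D_26 (nat_lit 162) (nat_lit 163) (nat_lit 175) (nat_lit 2) (nat_lit 6) (nat_lit 10) (nat_lit 2) (nat_lit 5) (nat_lit 10) (by decide +kernel)
theorem L74018 : W_26 (nat_lit 3) (nat_lit 0x7000200010000c0000000000000000000000000000000) (nat_lit 0x0) (nat_lit 0x100008800c0000000000000000000000000000000000000000) := T_26 (nat_lit 179) (nat_lit 196) (nat_lit 7) (nat_lit 8) (nat_lit 7) L74017 (by decide +kernel)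
theorem L74019 : W_26 (nat_lit 4) (nat_lit 0x700020001000080000000000000000000000000000000) (nat_lit 0x0) (nat_lit 0x100008800c0000000040002000000000000000000000000000) := T_26 (nat_lit 126) (nat_lit 109) (nat_lit 4) (nat_lit 8) (nat_lit 10) L74018 (by decide +kernel)
theorem L74020 : W_26 (nat_lit 5) (nat_lit 0x700000001000080000000000000000000000000000000) (nat_lit 0x0) (nat_lit 0x140008800e0000000040002000000000000000000000000000) := T_26 (nat_lit 161) (nat_lit 194) (nat_lit 5) (nat_lit 8) (nat_lit 7) L74019 (by decide +kernel)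
theorem L74021 : W_26 (nat_lit 8) (nat_lit 0x300000001000080000000000000000000000000000000) (nat_lit 0x0) (nat_lit 0x10000c0077801cc01ff000c00040002000000000000000000000000000) := Q_26 (nat_lit 178) (C_26 L73987 (C_26 L73949 (C_26 L74010 (C_26 L74016 (C_26 L74020 N_26))))) (by decide +kernel)
theorem L74022 : W_26 (nat_lit 11) (nat_lit 0x700000001000080000000000000000000000000000000) (nat_lit 0x0) (nat_lit 0xf70078000fc00000014000a000000000000000000000000000) := T_26 (nat_lit 161) (nat_lit 194) (nat_lit 5) (nat_lit 8) (nat_lit 7) L5983 (by decide +kernel)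
theorem L74023 : W_26 (nat_lit 11) (nat_lit 0x700000001000080000000000000000000000000000000) (nat_lit 0x0) (nat_lit 0xf70038003bc00000014000a000000000000000000000000000) := T_26 (nat_lit 161) (nat_lit 194) (nat_lit 5) (nat_lit 8) (nat_lit 7) L5695 (by decide +kernel)
theorem L74024 : W_26 (nat_lit 12) (nat_lit 0x300000001000080000000000000000000000000000000) (nat_lit 0x0) (nat_lit 0x10000800f7807cc03ff00040014000a000000000000000000000000000) := Q_26 (nat_lit 178) (C_26 L73987 (C_26 L74020 (C_26 L74022 (C_26 L74010 (C_26 L74023 (C_26 L73936 N_26)))))) (by decide +kernel)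
theorem L74025 : W_26 (nat_lit 12) (nat_lit 0x300000001000080000000000000000000000000000000) (nat_lit 0x0) (nat_lit 0x400f7803cc03ff00080014000a000000000000000000000000000) := Q_26 (nat_lit 178) (C_26 L73931 (C_26 L74020 (C_26 L74023 (C_26 L74010 N_26)))) (by decide +kernel)
theorem L74028 : W_26 (nat_lit 8) (nat_lit 0x300000001c00080000000000000000000000000000000) (nat_lit 0x0) (nat_lit 0x500008007e000200130001000080000000000000000000000) := T_26 (nat_lit 194) (nat_lit 160) (nat_lit 6) (nat_lit 7) (nat_lit 11) L66653 (by decide +kernel)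
theorem L74029 : W_26 (nat_lit 6) (nat_lit 0x300000001c00080000000000000000000000000000000) (nat_lit 0x0) (nat_lit 0x200008006e000200118000000000000000000000000000000) := T_26 (nat_lit 141) (nat_lit 128) (nat_lit 2) (nat_lit 5) (nat_lit 8) L39165 (by decide +kernel)
theorem L74030 : W_26 (nat_lit 2) (nat_lit 0x300024001e00080000000000000000000000000000000) (nat_lit 0x0) (nat_lit 0x4000000010000100000000000000000000000000000000000) := D_26 (nat_lit 160) (nat_lit 140) (nat_lit 194) (nat_lit 3) (nat_lit 4) (nat_lit 8) (nat_lit 6) (nat_lit 7) (nat_lit 11) (by decide +kernel)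
theorem L74031 : W_26 (nat_lit 3) (nat_lit 0x300004001e00080000000000000000000000000000000) (nat_lit 0x0) (nat_lit 0x4000000070000100000000000000000000000000000000000) := T_26 (nat_lit 161) (nat_lit 162) (nat_lit 3) (nat_lit 5) (nat_lit 8) L74030 (by decide +kernel)
theorem L74032 : W_26 (nat_lit 4) (nat_lit 0x300000001e00080000000000000000000000000000000) (nat_lit 0x0) (nat_lit 0x4000000076000100000000000000000000000000000000000) := T_26 (nat_lit 158) (nat_lit 157) (nat_lit 1) (nat_lit 8) (nat_lit 8) L74031 (by decide +kernel)
theorem L74033 : W_26 (nat_lit 5) (nat_lit 0x300000001c00080000000000000000000000000000000) (nat_lit 0x0) (nat_lit 0x4000000076000300100000000000000000000000000000000) := T_26 (nat_lit 141) (nat_lit 128) (nat_lit 2) (nat_lit 5) (nat_lit 8) L74032 (by decide +kernel)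
theorem L74034 : W_26 (nat_lit 9) (nat_lit 0x300000001800080000000000000000000000000000000) (nat_lit 0x0) (nat_lit 0x100008000700008007e000700138001000080000000000000000000000) := Q_26 (nat_lit 142) (C_26 L74028 (C_26 L12643 (C_26 L74029 (C_26 L74033 N_26)))) (by decide +kernel)
theorem L74035 : W_26 (nat_lit 2) (nat_lit 0x2000300020001f00090000000000000000000000000000000) (nat_lit 0x0) (nat_lit 0x7000000000000000000000000000000000000000) := D_26 (nat_lit 157) (nat_lit 156) (nat_lit 158) (nat_lit 1) (nat_lit 7) (nat_lit 8) (nat_lit 1) (nat_lit 8) (nat_lit 8) (by decide +kernel)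
theorem L74036 : W_26 (nat_lit 3) (nat_lit 0x2000300020001e00090000000000000000000000000000000) (nat_lit 0x0) (nat_lit 0x7000100040000000000000000000000000000000) := T_26 (nat_lit 140) (nat_lit 126) (nat_lit 2) (nat_lit 4) (nat_lit 8) L74035 (by decide +kernel)
theorem L74037 : W_26 (nat_lit 4) (nat_lit 0x300020001e00090000000000000000000000000000000) (nat_lit 0x0) (nat_lit 0x200000000f000100040000000000000000000000000000000) := T_26 (nat_lit 193) (nat_lit 159) (nat_lit 4) (nat_lit 6) (nat_lit 11) L74036 (by decide +kernel)
theorem L74038 : W_26 (nat_lit 5) (nat_lit 0x300000001e00090000000000000000000000000000000) (nat_lit 0x0) (nat_lit 0x200000006f000100040000000000000000000000000000000) := T_26 (nat_lit 161) (nat_lit 162) (nat_lit 3) (nat_lit 5) (nat_lit 8) L74037 (by decide +kernel)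
theorem L74039 : W_26 (nat_lit 6) (nat_lit 0x300000001e00080000000000000000000000000000000) (nat_lit 0x0) (nat_lit 0x200000006f000100058000000000000000000000000000000) := T_26 (nat_lit 124) (nat_lit 123) (nat_lit 0) (nat_lit 8) (nat_lit 8) L74038 (by decide +kernel)
theorem L74040 : W_26 (nat_lit 2) (nat_lit 0x300020001f00080000000000000000000000000000000) (nat_lit 0x0) (nat_lit 0x1c000000000000000000000000000000) := D_26 (nat_lit 123) (nat_lit 122) (nat_lit 124) (nat_lit 0) (nat_lit 7) (nat_lit 8) (nat_lit 0) (nat_lit 8) (nat_lit 8) (by decide +kernel)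
theorem L74041 : W_26 (nat_lit 3) (nat_lit 0x300020001e00080000000000000000000000000000000) (nat_lit 0x0) (nat_lit 0x10005c000000000000000000000000000000) := T_26 (nat_lit 140) (nat_lit 126) (nat_lit 2) (nat_lit 4) (nat_lit 8) L74040 (by decide +kernel)
theorem L74042 : W_26 (nat_lit 4) (nat_lit 0x300000001e00080000000000000000000000000000000) (nat_lit 0x0) (nat_lit 0x6000010005c000000000000000000000000000000) := T_26 (nat_lit 161) (nat_lit 162) (nat_lit 3) (nat_lit 5) (nat_lit 8) L74041 (by decide +kernel)
theorem L74043 : W_26 (nat_lit 7) (nat_lit 0x300000001c00080000000000000000000000000000000) (nat_lit 0x0) (nat_lit 0x200008006f00030005c000000000000000000000000000000) := Q_26 (nat_lit 141) (C_26 L74039 (C_26 L39165 (C_26 L12495 (C_26 L12491 (C_26 L74042 N_26))))) (by decide +kernel)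
theorem L74044 : W_26 (nat_lit 5) (nat_lit 0x300000001c00080000000000000000000000000000000) (nat_lit 0x0) (nat_lit 0x6000030015c000000000000000000000000000000) := T_26 (nat_lit 141) (nat_lit 128) (nat_lit 2) (nat_lit 5) (nat_lit 8) L74042 (by decide +kernel)
theorem L74045 : W_26 (nat_lit 2) (nat_lit 0xa0002000300008001c00080000000000000000000000000000000) (nat_lit 0x0) (nat_lit 0x1400040000000000000000000000000000000000000000000000000000) := D_26 (nat_lit 210) (nat_lit 226) (nat_lit 228) (nat_lit 5) (nat_lit 6) (nat_lit 9) (nat_lit 7) (nat_lit 6) (nat_lit 9) (by decide +kernel)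
theorem L74046 : W_26 (nat_lit 3) (nat_lit 0x20002000300008001c00080000000000000000000000000000000) (nat_lit 0x0) (nat_lit 0x14000c0004000000000000000000000000000000000000000000000000) := T_26 (nat_lit 211) (nat_lit 194) (nat_lit 7) (nat_lit 6) (nat_lit 8) L74045 (by decide +kernel)
theorem L74047 : W_26 (nat_lit 4) (nat_lit 0x2000300008001c00080000000000000000000000000000000) (nat_lit 0x0) (nat_lit 0x14000e0005000000000000000000000000000000000000000000000000) := T_26 (nat_lit 209) (nat_lit 192) (nat_lit 5) (nat_lit 6) (nat_lit 8) L74046 (by decide +kernel)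
theorem L74048 : W_26 (nat_lit 5) (nat_lit 0x300008001c00080000000000000000000000000000000) (nat_lit 0x0) (nat_lit 0x14000e0007000000000000000040000000000000000000000000000000) := T_26 (nat_lit 193) (nat_lit 126) (nat_lit 6) (nat_lit 6) (nat_lit 11) L74047 (by decide +kernel)
theorem L74049 : W_26 (nat_lit 6) (nat_lit 0x300000001c00080000000000000000000000000000000) (nat_lit 0x0) (nat_lit 0x14000e000700008000c000000070003800140000000000000000000000) := Q_26 (nat_lit 159) (C_26 L12498 (C_26 L12515 (C_26 L74048 (C_26 L12521 N_26)))) (by decide +kernel)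
theorem L74050 : W_26 (nat_lit 8) (nat_lit 0x300000001800080000000000000000000000000000000) (nat_lit 0x0) (nat_lit 0x14000e000700008006f00070017c003800140000000000000000000000) := Q_26 (nat_lit 142) (C_26 L74043 (C_26 L74044 (C_26 L74029 (C_26 L12492 (C_26 L74049 N_26))))) (by decide +kernel)
theorem L74065 : W_26 (nat_lit 7) (nat_lit 0x40003000000018000a0000000000000000000000000000000) (nat_lit 0x0) (nat_lit 0x100008006e000600110001000080000000000000000000000) := T_26 (nat_lit 142) (nat_lit 159) (nat_lit 7) (nat_lit 6) (nat_lit 7) L66652 (by decide +kernel)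
theorem L74066 : W_26 (nat_lit 8) (nat_lit 0x3000000018000a0000000000000000000000000000000) (nat_lit 0x0) (nat_lit 0x500008007e000600110001000080000000000000000000000) := T_26 (nat_lit 194) (nat_lit 160) (nat_lit 6) (nat_lit 7) (nat_lit 11) L74065 (by decide +kernel)
theorem L74069 : W_26 (nat_lit 4) (nat_lit 0x3000100018000e0000000000000000000000000000000) (nat_lit 0x0) (nat_lit 0x28000000018002000100008000000000000000000) := T_26 (nat_lit 123) (nat_lit 124) (nat_lit 3) (nat_lit 4) (nat_lit 7) L74068 (by decide +kernel)
theorem L74070 : W_26 (nat_lit 5) (nat_lit 0x3000100018000a0000000000000000000000000000000) (nat_lit 0x0) (nat_lit 0x28000000058003000100008000000000000000000) := T_26 (nat_lit 126) (nat_lit 108) (nat_lit 4) (nat_lit 7) (nat_lit 10) L74069 (by decide +kernel)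
theorem L74071 : W_26 (nat_lit 6) (nat_lit 0x3000000018000a0000000000000000000000000000000) (nat_lit 0x0) (nat_lit 0x4000000038000000058003000100008000000000000000000) := T_26 (nat_lit 160) (nat_lit 194) (nat_lit 6) (nat_lit 7) (nat_lit 11) L74070 (by decide +kernel)
theorem L74073 : W_26 (nat_lit 6) (nat_lit 0x3000000018000a0000000000000000000000000000000) (nat_lit 0x0) (nat_lit 0x500008000f000700158003800040000000000000000000000) := Q_26 (nat_lit 142) (C_26 L74072 (C_26 L12598 (C_26 L14328 N_26))) (by decide +kernel)
theorem L74094 : W_26 (nat_lit 6) (nat_lit 0x3000000018000a0000000000000000000000000000000) (nat_lit 0x0) (nat_lit 0x38000700358003c00100008000000000000000000) := Q_26 (nat_lit 126) (C_26 L74082 (C_26 L74086 (C_26 L74090 (C_26 L74093 N_26)))) (by decide +kernel)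
theorem L74095 : W_26 (nat_lit 11) (nat_lit 0x300000001800080000000000000000000000000000000) (nat_lit 0x0) (nat_lit 0x50000c007f000700378003c001c0008000000000000000000) := Q_26 (nat_lit 125) (C_26 L74066 (C_26 L74071 (C_26 L74073 (C_26 L74075 (C_26 L74080 (C_26 L74094 N_26)))))) (by decide +kernel)
theorem L74096 : W_26 (nat_lit 6) (nat_lit 0x3000000018000c0000000000000000000000000000000) (nat_lit 0x0) (nat_lit 0x200008000e000700338002000100000000000000000000000) := Q_26 (nat_lit 142) (C_26 L12559 (C_26 L12563 (C_26 L12566 N_26))) (by decide +kernel)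
theorem L74099 : W_26 (nat_lit 4) (nat_lit 0x3000000018000c0000000000000000000000000000000) (nat_lit 0x0) (nat_lit 0x38000000020003000180008000000000000000000) := Q_26 (nat_lit 109) (C_26 L74097 (C_26 L74098 N_26)) (by decide +kernel)
theorem L74101 : W_26 (nat_lit 4) (nat_lit 0x3000000018000c0000000000000000000000000000000) (nat_lit 0x0) (nat_lit 0x2000000038000000000002000100008000000000000000000) := T_26 (nat_lit 160) (nat_lit 193) (nat_lit 5) (nat_lit 7) (nat_lit 7) L74062 (by decide +kernel)
theorem L74102 : W_26 (nat_lit 11) (nat_lit 0x300000001800080000000000000000000000000000000) (nat_lit 0x0) (nat_lit 0x30000c007e000700378003c00180008000000000000000000) := Q_26 (nat_lit 126) (C_26 L74096 (C_26 L74099 (C_26 L74100 (C_26 L74101 N_26)))) (by decide +kernel)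
theorem L74103 : W_26 (nat_lit 12) (nat_lit 0x300000001000080000000000000000000000000000000) (nat_lit 0x0) (nat_lit 0x14000e00070000c007f000f0037c003c001c0008000000000000000000) := Q_26 (nat_lit 143) (C_26 L74027 (C_26 L74034 (C_26 L74050 (C_26 L74060 (C_26 L74064 (C_26 L74095 (C_26 L74102 N_26))))))) (by decide +kernel)
theorem L74104 : W_26 (nat_lit 10) (nat_lit 0x700000001000080000000000000000000000000000000) (nat_lit 0x0) (nat_lit 0xf70078000fc000000100008000000000000000000000000000) := T_26 (nat_lit 161) (nat_lit 194) (nat_lit 5) (nat_lit 8) (nat_lit 7) L5699 (by decide +kernel)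
theorem L74105 : W_26 (nat_lit 16) (nat_lit 0x700000001000080000000000000000000000000000000) (nat_lit 0x0) (nat_lit 0x100008000f70038001bc03c800f000e8000000000000000000000000000) := T_26 (nat_lit 161) (nat_lit 194) (nat_lit 5) (nat_lit 8) (nat_lit 7) L4981 (by decide +kernel)
theorem L74106 : W_26 (nat_lit 17) (nat_lit 0x300000001000080000000000000000000000000000000) (nat_lit 0x0) (nat_lit 0x110008800f7807cc01ff03cc00f000e8000000000000000000000000000) := Q_26 (nat_lit 178) (C_26 L74010 (C_26 L73987 (C_26 L74104 (C_26 L74105 (C_26 L73936 (C_26 L73988 N_26)))))) (by decide +kernel)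
theorem L74107 : W_26 (nat_lit 4) (nat_lit 0x300004001e00090000000000000000000000000000000) (nat_lit 0x0) (nat_lit 0x7000080010000000020001000000000000000000000000000) := T_26 (nat_lit 194) (nat_lit 160) (nat_lit 6) (nat_lit 7) (nat_lit 11) L12632 (by decide +kernel)
theorem L74108 : W_26 (nat_lit 5) (nat_lit 0x300004001e00080000000000000000000000000000000) (nat_lit 0x0) (nat_lit 0x7000080010000000038001000000000000000000000000000) := T_26 (nat_lit 124) (nat_lit 123) (nat_lit 0) (nat_lit 8) (nat_lit 8) L74107 (by decide +kernel)
theorem L74109 : W_26 (nat_lit 6) (nat_lit 0x300000001e00080000000000000000000000000000000) (nat_lit 0x0) (nat_lit 0x7000080016000000038001000000000000000000000000000) := T_26 (nat_lit 158) (nat_lit 157) (nat_lit 1) (nat_lit 8) (nat_lit 8) L74108 (by decide +kernel)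
theorem L74110 : W_26 (nat_lit 7) (nat_lit 0x300000001c00080000000000000000000000000000000) (nat_lit 0x0) (nat_lit 0x7000080016000200138001000000000000000000000000000) := T_26 (nat_lit 141) (nat_lit 128) (nat_lit 2) (nat_lit 5) (nat_lit 8) L74109 (by decide +kernel)
theorem L74111 : W_26 (nat_lit 8) (nat_lit 0x300000001800080000000000000000000000000000000) (nat_lit 0x0) (nat_lit 0x100008000700008001e000600138001000000000000000000000000000) := Q_26 (nat_lit 142) (C_26 L12643 (C_26 L12574 (C_26 L12496 (C_26 L74110 N_26)))) (by decide +kernel)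
theorem L74112 : W_26 (nat_lit 7) (nat_lit 0x300000001800080000000000000000000000000000000) (nat_lit 0x0) (nat_lit 0x14000e000700008000f00070017c003800140000000000000000000000) := Q_26 (nat_lit 142) (C_26 L12496 (C_26 L12492 (C_26 L74049 (C_26 L12519 N_26)))) (by decide +kernel)
theorem L74113 : W_26 (nat_lit 2) (nat_lit 0x3000180018000f0000000000000000000000000000000) (nat_lit 0x0) (nat_lit 0x400000000c00000000000000000000000000) := D_26 (nat_lit 107) (nat_lit 106) (nat_lit 142) (nat_lit 0) (nat_lit 8) (nat_lit 7) (nat_lit 4) (nat_lit 6) (nat_lit 10) (by decide +kernel)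
theorem L74114 : W_26 (nat_lit 3) (nat_lit 0x3000100018000f0000000000000000000000000000000) (nat_lit 0x0) (nat_lit 0x8000400000002c00000000000000000000000000) := T_26 (nat_lit 159) (nat_lit 109) (nat_lit 5) (nat_lit 7) (nat_lit 6) L74113 (by decide +kernel)
theorem L74115 : W_26 (nat_lit 4) (nat_lit 0x3000100018000e0000000000000000000000000000000) (nat_lit 0x0) (nat_lit 0x8000400018002c00000000000000000000000000) := T_26 (nat_lit 124) (nat_lit 123) (nat_lit 3) (nat_lit 4) (nat_lit 7) L74114 (by decide +kernel)
theorem L74116 : W_26 (nat_lit 5) (nat_lit 0x3000100018000a0000000000000000000000000000000) (nat_lit 0x0) (nat_lit 0x8000400058003c00000000000000000000000000) := T_26 (nat_lit 126) (nat_lit 108) (nat_lit 4) (nat_lit 7) (nat_lit 10) L74115 (by decide +kernel)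
theorem L74117 : W_26 (nat_lit 6) (nat_lit 0x3000000018000a0000000000000000000000000000000) (nat_lit 0x0) (nat_lit 0x4000000018000400058003c00000000000000000000000000) := T_26 (nat_lit 160) (nat_lit 194) (nat_lit 6) (nat_lit 7) (nat_lit 11) L74116 (by decide +kernel)
theorem L74118 : W_26 (nat_lit 2) (nat_lit 0x3000180018000f0000800000000000000000000000000) (nat_lit 0x0) (nat_lit 0x6000200000000000000000000000000000000000) := D_26 (nat_lit 158) (nat_lit 157) (nat_lit 141) (nat_lit 2) (nat_lit 4) (nat_lit 9) (nat_lit 7) (nat_lit 5) (nat_lit 6) (by decide +kernel)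
theorem L74119 : W_26 (nat_lit 3) (nat_lit 0x3000180018000f0000000000000000000000000000000) (nat_lit 0x0) (nat_lit 0x6000200000000c00000000000000000000000000) := T_26 (nat_lit 107) (nat_lit 106) (nat_lit 0) (nat_lit 8) (nat_lit 7) L74118 (by decide +kernel)
theorem L74120 : W_26 (nat_lit 4) (nat_lit 0x3000100018000f0000000000000000000000000000000) (nat_lit 0x0) (nat_lit 0xe000200000002c00000000000000000000000000) := T_26 (nat_lit 159) (nat_lit 109) (nat_lit 5) (nat_lit 7) (nat_lit 6) L74119 (by decide +kernel)
theorem L74121 : W_26 (nat_lit 5) (nat_lit 0x3000100018000e0000000000000000000000000000000) (nat_lit 0x0) (nat_lit 0xe000200018002c00000000000000000000000000) := T_26 (nat_lit 124) (nat_lit 123) (nat_lit 3) (nat_lit 4) (nat_lit 7) L74120 (by decide +kernel)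
theorem L74122 : W_26 (nat_lit 6) (nat_lit 0x3000100018000a0000000000000000000000000000000) (nat_lit 0x0) (nat_lit 0xe000200058003c00000000000000000000000000) := T_26 (nat_lit 126) (nat_lit 108) (nat_lit 4) (nat_lit 7) (nat_lit 10) L74121 (by decide +kernel)
theorem L74123 : W_26 (nat_lit 7) (nat_lit 0x3000000018000a0000000000000000000000000000000) (nat_lit 0x0) (nat_lit 0x400000001e000200058003c00000000000000000000000000) := T_26 (nat_lit 160) (nat_lit 194) (nat_lit 6) (nat_lit 7) (nat_lit 11) L74122 (by decide +kernel)
theorem L74126 : W_26 (nat_lit 8) (nat_lit 0x3000100018000a0000000000000000000000000000000) (nat_lit 0x0) (nat_lit 0x700758039c00000000000000000000000000) := T_26 (nat_lit 126) (nat_lit 108) (nat_lit 4) (nat_lit 7) (nat_lit 10) L12533 (by decide +kernel)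
theorem L74127 : W_26 (nat_lit 9) (nat_lit 0x3000000018000a0000000000000000000000000000000) (nat_lit 0x0) (nat_lit 0x4000000010000700758039c00000000000000000000000000) := T_26 (nat_lit 160) (nat_lit 194) (nat_lit 6) (nat_lit 7) (nat_lit 11) L74126 (by decide +kernel)
theorem L74128 : W_26 (nat_lit 5) (nat_lit 0x3000000018000f0000000000000000000000000000000) (nat_lit 0x0) (nat_lit 0x1e000200000003c00000000000000000000000000) := T_26 (nat_lit 160) (nat_lit 108) (nat_lit 4) (nat_lit 7) (nat_lit 10) L74120 (by decide +kernel)
theorem L74129 : W_26 (nat_lit 6) (nat_lit 0x3000000018000e0000000000000000000000000000000) (nat_lit 0x0) (nat_lit 0x1e000200018003c00000000000000000000000000) := T_26 (nat_lit 124) (nat_lit 123) (nat_lit 3) (nat_lit 4) (nat_lit 7) L74128 (by decide +kernel)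
theorem L74130 : W_26 (nat_lit 2) (nat_lit 0x3000000018001e0001000000000000000000000000000) (nat_lit 0x0) (nat_lit 0x400200002000000000000000000000000000) := D_26 (nat_lit 129) (nat_lit 109) (nat_lit 142) (nat_lit 0) (nat_lit 10) (nat_lit 7) (nat_lit 1) (nat_lit 10) (nat_lit 7) (by decide +kernel)
theorem L74131 : W_26 (nat_lit 3) (nat_lit 0x3000000018000e0001000000000000000000000000000) (nat_lit 0x0) (nat_lit 0x400300002800000000000000000000000000) := T_26 (nat_lit 128) (nat_lit 107) (nat_lit 0) (nat_lit 9) (nat_lit 7) L74130 (by decide +kernel)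
theorem L74132 : W_26 (nat_lit 4) (nat_lit 0x3000000018000e0000000000000000000000000000000) (nat_lit 0x0) (nat_lit 0x10000400300003800000000000000000000000000) := T_26 (nat_lit 108) (nat_lit 160) (nat_lit 4) (nat_lit 7) (nat_lit 10) L74131 (by decide +kernel)
theorem L74133 : W_26 (nat_lit 2) (nat_lit 0x300010001a001f0012000000008000000000000000000) (nat_lit 0x0) (nat_lit 0x600020000000000000000000000000000) := D_26 (nat_lit 129) (nat_lit 130) (nat_lit 113) (nat_lit 1) (nat_lit 11) (nat_lit 7) (nat_lit 2) (nat_lit 7) (nat_lit 7) (by decide +kernel)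
theorem L74134 : W_26 (nat_lit 3) (nat_lit 0x300010001a001f0002000000008000000000000000000) (nat_lit 0x0) (nat_lit 0x600038000000000000000000000000000) := T_26 (nat_lit 112) (nat_lit 111) (nat_lit 2) (nat_lit 6) (nat_lit 7) L74133 (by decide +kernel)
theorem L74135 : W_26 (nat_lit 4) (nat_lit 0x300010001a000f0002000000008000000000000000000) (nat_lit 0x0) (nat_lit 0x400700038000000000000000000000000000) := T_26 (nat_lit 128) (nat_lit 142) (nat_lit 2) (nat_lit 5) (nat_lit 8) L74134 (by decide +kernel)
theorem L74136 : W_26 (nat_lit 5) (nat_lit 0x300010001a000f0002000000000000000000000000000) (nat_lit 0x0) (nat_lit 0x400700038000100008000000000000000000) := T_26 (nat_lit 75) (nat_lit 92) (nat_lit 7) (nat_lit 7) (nat_lit 4) L74135 (by decide +kernel)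
theorem L74137 : W_26 (nat_lit 6) (nat_lit 0x3000100018000f0002000000000000000000000000000) (nat_lit 0x0) (nat_lit 0x700700038000100008000000000000000000) := T_26 (nat_lit 141) (nat_lit 140) (nat_lit 1) (nat_lit 8) (nat_lit 7) L74136 (by decide +kernel)
theorem L74138 : W_26 (nat_lit 7) (nat_lit 0x3000100018000f0000000000000000000000000000000) (nat_lit 0x0) (nat_lit 0x800070070003a000100008000000000000000000) := T_26 (nat_lit 109) (nat_lit 159) (nat_lit 5) (nat_lit 7) (nat_lit 6) L74137 (by decide +kernel)
theorem L74139 : W_26 (nat_lit 8) (nat_lit 0x3000100018000e0000000000000000000000000000000) (nat_lit 0x0) (nat_lit 0x800070071803a000100008000000000000000000) := T_26 (nat_lit 124) (nat_lit 123) (nat_lit 3) (nat_lit 4) (nat_lit 7) L74138 (by decide +kernel)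
theorem L74140 : W_26 (nat_lit 9) (nat_lit 0x3000000018000e0000000000000000000000000000000) (nat_lit 0x0) (nat_lit 0x1800070071803b000100008000000000000000000) := T_26 (nat_lit 160) (nat_lit 108) (nat_lit 4) (nat_lit 7) (nat_lit 10) L74139 (by decide +kernel)
theorem L74141 : W_26 (nat_lit 10) (nat_lit 0x3000000018000a0000000000000000000000000000000) (nat_lit 0x0) (nat_lit 0x1e00070075803bc00100008000000000000000000) := Q_26 (nat_lit 126) (C_26 L74090 (C_26 L74129 (C_26 L74086 (C_26 L74132 (C_26 L74140 N_26))))) (by decide +kernel)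
theorem L74142 : W_26 (nat_lit 11) (nat_lit 0x300000001800080000000000000000000000000000000) (nat_lit 0x0) (nat_lit 0x500008001f00070077803bc00140008000000000000000000) := Q_26 (nat_lit 125) (C_26 L74080 (C_26 L74117 (C_26 L74123 (C_26 L74125 (C_26 L74073 (C_26 L74127 (C_26 L74141 N_26))))))) (by decide +kernel)
theorem L74143 : W_26 (nat_lit 10) (nat_lit 0x3000000018000c0000000000000000000000000000000) (nat_lit 0x0) (nat_lit 0x1e00070073803bc00100008000000000000000000) := Q_26 (nat_lit 125) (C_26 L74140 (C_26 L74129 (C_26 L74086 (C_26 L74132 N_26)))) (by decide +kernel)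
theorem L74144 : W_26 (nat_lit 11) (nat_lit 0x300000001800080000000000000000000000000000000) (nat_lit 0x0) (nat_lit 0x200008001e00070077803bc0018000c000000000000000000) := Q_26 (nat_lit 126) (C_26 L74096 (C_26 L74143 (C_26 L12558 (C_26 L12537 N_26)))) (by decide +kernel)
theorem L74145 : W_26 (nat_lit 12) (nat_lit 0x300000001000080000000000000000000000000000000) (nat_lit 0x0) (nat_lit 0x1c000e000700008001f000f0077c03bc001c000c000000000000000000) := Q_26 (nat_lit 143) (C_26 L74027 (C_26 L74111 (C_26 L74112 (C_26 L12536 (C_26 L12630 (C_26 L74142 (C_26 L12647 (C_26 L74144 N_26)))))))) (by decide +kernel)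
theorem L74146 : W_26 (nat_lit 2) (nat_lit 0x780000001000080000000000000000000000000000000) (nat_lit 0x0) (nat_lit 0x4000000060000000000000000000000000000000000000000) := D_26 (nat_lit 161) (nat_lit 194) (nat_lit 162) (nat_lit 5) (nat_lit 8) (nat_lit 7) (nat_lit 2) (nat_lit 5) (nat_lit 10) (by decide +kernel)
theorem L74147 : W_26 (nat_lit 5) (nat_lit 0x380000001000080000000000000000000000000000000) (nat_lit 0x0) (nat_lit 0x5c00440067000000000000000000000000000000000000000) := Q_26 (nat_lit 178) (C_26 L11313 (C_26 L74146 N_26)) (by decide +kernel)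
theorem L74148 : W_26 (nat_lit 2) (nat_lit 0x1000780024001000080000000000000000000000000000000) (nat_lit 0x0) (nat_lit 0x12000800000000000000000000000000000000000000000000) := D_26 (nat_lit 179) (nat_lit 196) (nat_lit 193) (nat_lit 7) (nat_lit 8) (nat_lit 7) (nat_lit 1) (nat_lit 9) (nat_lit 10) (by decide +kernel)
theorem L74149 : W_26 (nat_lit 3) (nat_lit 0x780024001000080000000000000000000000000000000) (nat_lit 0x0) (nat_lit 0x13800800000000000000000000000000000000000000000000) := T_26 (nat_lit 192) (nat_lit 191) (nat_lit 1) (nat_lit 8) (nat_lit 10) L74148 (by decide +kernel)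
theorem L74150 : W_26 (nat_lit 4) (nat_lit 0x780004001000080000000000000000000000000000000) (nat_lit 0x0) (nat_lit 0x13800800060000000000000000000000000000000000000000) := T_26 (nat_lit 161) (nat_lit 162) (nat_lit 2) (nat_lit 5) (nat_lit 10) L74149 (by decide +kernel)
theorem L74151 : W_26 (nat_lit 5) (nat_lit 0x780000001000080000000000000000000000000000000) (nat_lit 0x0) (nat_lit 0x13800800066000000000000000000000000000000000000000) := T_26 (nat_lit 158) (nat_lit 157) (nat_lit 0) (nat_lit 8) (nat_lit 10) L74150 (by decide +kernel)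
theorem L74152 : W_26 (nat_lit 6) (nat_lit 0x380000001000080000000000000000000000000000000) (nat_lit 0x0) (nat_lit 0x13c00c40077000000000000000000000000000000000000000) := Q_26 (nat_lit 178) (C_26 L73924 (C_26 L11313 (C_26 L74151 (C_26 L72871 N_26)))) (by decide +kernel)
theorem L74153 : W_26 (nat_lit 7) (nat_lit 0x8003c0012001000080000000000000000000000000000000) (nat_lit 0x0) (nat_lit 0x700000000000098007c001200000000000000000000000000) := T_26 (nat_lit 143) (nat_lit 194) (nat_lit 6) (nat_lit 7) (nat_lit 11) L12707 (by decide +kernel)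
theorem L74154 : W_26 (nat_lit 8) (nat_lit 0x3c0012001000080000000000000000000000000000000) (nat_lit 0x0) (nat_lit 0x7c0000000000098007c001200000000000000000000000000) := T_26 (nat_lit 191) (nat_lit 190) (nat_lit 1) (nat_lit 7) (nat_lit 10) L74153 (by decide +kernel)
theorem L74155 : W_26 (nat_lit 9) (nat_lit 0x3c0002001000080000000000000000000000000000000) (nat_lit 0x0) (nat_lit 0x7c0000003000098007c001200000000000000000000000000) := T_26 (nat_lit 160) (nat_lit 161) (nat_lit 2) (nat_lit 4) (nat_lit 10) L74154 (by decide +kernel)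
theorem L74156 : W_26 (nat_lit 10) (nat_lit 0x3c0000001000080000000000000000000000000000000) (nat_lit 0x0) (nat_lit 0x7c0000003300098007c001200000000000000000000000000) := T_26 (nat_lit 157) (nat_lit 156) (nat_lit 0) (nat_lit 7) (nat_lit 10) L74155 (by decide +kernel)
theorem L74157 : W_26 (nat_lit 2) (nat_lit 0x40003e0011001000080000000000000000000000000000000) (nat_lit 0x0) (nat_lit 0xe00000000000000000000000000000000000000000000000) := D_26 (nat_lit 190) (nat_lit 191) (nat_lit 189) (nat_lit 1) (nat_lit 7) (nat_lit 10) (nat_lit 1) (nat_lit 6) (nat_lit 10) (by decide +kernel)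
theorem L74158 : W_26 (nat_lit 3) (nat_lit 0x40003c0011001000080000000000000000000000000000000) (nat_lit 0x0) (nat_lit 0xe00020000800000000000000000000000000000000000000) := T_26 (nat_lit 173) (nat_lit 155) (nat_lit 0) (nat_lit 6) (nat_lit 10) L74157 (by decide +kernel)
theorem L74159 : W_26 (nat_lit 4) (nat_lit 0x3c0011001000080000000000000000000000000000000) (nat_lit 0x0) (nat_lit 0x4e00020000800800000000000000000000000000000000000) := T_26 (nat_lit 194) (nat_lit 143) (nat_lit 6) (nat_lit 7) (nat_lit 11) L74158 (by decide +kernel)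
theorem L74160 : W_26 (nat_lit 5) (nat_lit 0x3c0010001000080000000000000000000000000000000) (nat_lit 0x0) (nat_lit 0x4e00020003800800000000000000000000000000000000000) := T_26 (nat_lit 156) (nat_lit 157) (nat_lit 0) (nat_lit 7) (nat_lit 10) L74159 (by decide +kernel)
theorem L74161 : W_26 (nat_lit 6) (nat_lit 0x3c0000001000080000000000000000000000000000000) (nat_lit 0x0) (nat_lit 0x4e00020033800800000000000000000000000000000000000) := T_26 (nat_lit 160) (nat_lit 161) (nat_lit 2) (nat_lit 4) (nat_lit 10) L74160 (by decide +kernel)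
theorem L74162 : W_26 (nat_lit 2) (nat_lit 0x1000000024003f8012001000088000000000000000000000000000000) (nat_lit 0x0) (nat_lit 0xe00000000000000000000000000000000000000) := D_26 (nat_lit 154) (nat_lit 155) (nat_lit 153) (nat_lit 0) (nat_lit 5) (nat_lit 10) (nat_lit 0) (nat_lit 4) (nat_lit 10) (by decide +kernel)
theorem L74163 : W_26 (nat_lit 3) (nat_lit 0x1000000024003f0012001000088000000000000000000000000000000) (nat_lit 0x0) (nat_lit 0x8004e00000000000000000000000000000000000000) := T_26 (nat_lit 171) (nat_lit 158) (nat_lit 2) (nat_lit 1) (nat_lit 10) L74162 (by decide +kernel)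
theorem L74164 : W_26 (nat_lit 4) (nat_lit 0x1000000024003e0012001000088000000000000000000000000000000) (nat_lit 0x0) (nat_lit 0x1000018004e00000000000000000000000000000000000000) := T_26 (nat_lit 172) (nat_lit 192) (nat_lit 3) (nat_lit 2) (nat_lit 10) L74163 (by decide +kernel)
theorem L74165 : W_26 (nat_lit 5) (nat_lit 0x1000000004003e0012001000088000000000000000000000000000000) (nat_lit 0x0) (nat_lit 0x7000018004e00000000000000000000000000000000000000) := T_26 (nat_lit 193) (nat_lit 194) (nat_lit 3) (nat_lit 3) (nat_lit 10) L74164 (by decide +kernel)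
theorem L74166 : W_26 (nat_lit 6) (nat_lit 0x1000000004003e0012001000080000000000000000000000000000000) (nat_lit 0x0) (nat_lit 0x7000018004e00100008000000000000000000000000000000) := T_26 (nat_lit 123) (nat_lit 140) (nat_lit 5) (nat_lit 4) (nat_lit 7) L74165 (by decide +kernel)
theorem L74167 : W_26 (nat_lit 7) (nat_lit 0x4003e0012001000080000000000000000000000000000000) (nat_lit 0x0) (nat_lit 0x100008007000018004e00100008000000000000000000000000000000) := T_26 (nat_lit 224) (nat_lit 207) (nat_lit 6) (nat_lit 3) (nat_lit 13) L74166 (by decide +kernel)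
theorem L74168 : W_26 (nat_lit 8) (nat_lit 0x4003e0002001000080000000000000000000000000000000) (nat_lit 0x0) (nat_lit 0x100008007000018034e00100008000000000000000000000000000000) := T_26 (nat_lit 160) (nat_lit 161) (nat_lit 2) (nat_lit 4) (nat_lit 10) L74167 (by decide +kernel)
theorem L74169 : W_26 (nat_lit 9) (nat_lit 0x4003c0002001000080000000000000000000000000000000) (nat_lit 0x0) (nat_lit 0x100008007200038034e00100008000000000000000000000000000000) := T_26 (nat_lit 173) (nat_lit 189) (nat_lit 1) (nat_lit 6) (nat_lit 10) L74168 (by decide +kernel)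
theorem L74170 : W_26 (nat_lit 10) (nat_lit 0x4003c0000001000080000000000000000000000000000000) (nat_lit 0x0) (nat_lit 0x100008007200038037e00100008000000000000000000000000000000) := T_26 (nat_lit 157) (nat_lit 156) (nat_lit 0) (nat_lit 7) (nat_lit 10) L74169 (by decide +kernel)
theorem L74171 : W_26 (nat_lit 11) (nat_lit 0x3c0000001000080000000000000000000000000000000) (nat_lit 0x0) (nat_lit 0x100008007e00038037e00100008000000000000000000000000000000) := T_26 (nat_lit 190) (nat_lit 191) (nat_lit 1) (nat_lit 7) (nat_lit 10) L74170 (by decide +kernel)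
theorem L74172 : W_26 (nat_lit 7) (nat_lit 0x3c0002001000080000000000000000000000000000000) (nat_lit 0x0) (nat_lit 0x7e00038004e00000000000000000000000000000000000000) := T_26 (nat_lit 190) (nat_lit 191) (nat_lit 1) (nat_lit 7) (nat_lit 10) L12696 (by decide +kernel)
theorem L74173 : W_26 (nat_lit 8) (nat_lit 0x3c0000001000080000000000000000000000000000000) (nat_lit 0x0) (nat_lit 0x7e00038007e00000000000000000000000000000000000000) := T_26 (nat_lit 157) (nat_lit 156) (nat_lit 0) (nat_lit 7) (nat_lit 10) L74172 (by decide +kernel)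
theorem L74174 : W_26 (nat_lit 2) (nat_lit 0x4003e0010001000080000000000000000000000000000000) (nat_lit 0x0) (nat_lit 0x3800000000000000000000000000000000000000) := D_26 (nat_lit 156) (nat_lit 155) (nat_lit 157) (nat_lit 0) (nat_lit 6) (nat_lit 10) (nat_lit 0) (nat_lit 7) (nat_lit 10) (by decide +kernel)
theorem L74175 : W_26 (nat_lit 3) (nat_lit 0x4003c0010001000080000000000000000000000000000000) (nat_lit 0x0) (nat_lit 0x200020003800000000000000000000000000000000000000) := T_26 (nat_lit 173) (nat_lit 189) (nat_lit 1) (nat_lit 6) (nat_lit 10) L74174 (by decide +kernel)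
theorem L74176 : W_26 (nat_lit 4) (nat_lit 0x4003c0000001000080000000000000000000000000000000) (nat_lit 0x0) (nat_lit 0x200020033800000000000000000000000000000000000000) := T_26 (nat_lit 160) (nat_lit 161) (nat_lit 2) (nat_lit 4) (nat_lit 10) L74175 (by decide +kernel)
theorem L74177 : W_26 (nat_lit 5) (nat_lit 0x3c0000001000080000000000000000000000000000000) (nat_lit 0x0) (nat_lit 0xe00020033800000000000000000000000000000000000000) := T_26 (nat_lit 190) (nat_lit 191) (nat_lit 1) (nat_lit 7) (nat_lit 10) L74176 (by decide +kernel)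
theorem L74178 : W_26 (nat_lit 2) (nat_lit 0x3c00120019000e8000400000000000000000000000000) (nat_lit 0x0) (nat_lit 0x4000200010000000000000000000000) := D_26 (nat_lit 105) (nat_lit 122) (nat_lit 88) (nat_lit 4) (nat_lit 4) (nat_lit 10) (nat_lit 4) (nat_lit 4) (nat_lit 9) (by decide +kernel)
theorem L74179 : W_26 (nat_lit 3) (nat_lit 0x3c00120019000e8000000000000000000000000000000) (nat_lit 0x0) (nat_lit 0x4000000004000600010000000000000000000000) := T_26 (nat_lit 106) (nat_lit 158) (nat_lit 7) (nat_lit 4) (nat_lit 6) L74178 (by decide +kernel)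
theorem L74180 : W_26 (nat_lit 4) (nat_lit 0x3c00120018000e8000000000000000000000000000000) (nat_lit 0x0) (nat_lit 0x1000000004000100004000600010000000000000000000000) := T_26 (nat_lit 140) (nat_lit 192) (nat_lit 7) (nat_lit 4) (nat_lit 7) L74179 (by decide +kernel)
theorem L74181 : W_26 (nat_lit 5) (nat_lit 0x3c00120018000e0000000000000000000000000000000) (nat_lit 0x0) (nat_lit 0x100000000400010001c000600010000000000000000000000) := T_26 (nat_lit 123) (nat_lit 124) (nat_lit 3) (nat_lit 4) (nat_lit 7) L74180 (by decide +kernel)
theorem L74182 : W_26 (nat_lit 6) (nat_lit 0x3c00120018000c0000000000000000000000000000000) (nat_lit 0x0) (nat_lit 0x100000000400010003c001600010000000000000000000000) := T_26 (nat_lit 125) (nat_lit 108) (nat_lit 4) (nat_lit 7) (nat_lit 10) L74181 (by decide +kernel)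
theorem L74183 : W_26 (nat_lit 7) (nat_lit 0x3c0012001800080000000000000000000000000000000) (nat_lit 0x0) (nat_lit 0x300000000400010007c001600010000000000000000000000) := T_26 (nat_lit 126) (nat_lit 193) (nat_lit 5) (nat_lit 7) (nat_lit 7) L74182 (by decide +kernel)
theorem L74184 : W_26 (nat_lit 8) (nat_lit 0x3c0012001000080000000000000000000000000000000) (nat_lit 0x0) (nat_lit 0x700000000400090007c001600010000000000000000000000) := T_26 (nat_lit 143) (nat_lit 194) (nat_lit 6) (nat_lit 7) (nat_lit 11) L74183 (by decide +kernel)
theorem L74185 : W_26 (nat_lit 9) (nat_lit 0x3c0002001000080000000000000000000000000000000) (nat_lit 0x0) (nat_lit 0x700000003400090007c001600010000000000000000000000) := T_26 (nat_lit 160) (nat_lit 161) (nat_lit 2) (nat_lit 4) (nat_lit 10) L74184 (by decide +kernel)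
theorem L74186 : W_26 (nat_lit 10) (nat_lit 0x3c0000001000080000000000000000000000000000000) (nat_lit 0x0) (nat_lit 0x700000003700090007c001600010000000000000000000000) := T_26 (nat_lit 157) (nat_lit 156) (nat_lit 0) (nat_lit 7) (nat_lit 10) L74185 (by decide +kernel)
theorem L74187 : W_26 (nat_lit 5) (nat_lit 0x48003e0010001000080000000000000000000000000000000) (nat_lit 0x0) (nat_lit 0x1380018001c00000000000000000000000000000000000000) := T_26 (nat_lit 155) (nat_lit 156) (nat_lit 0) (nat_lit 6) (nat_lit 10) L12730 (by decide +kernel)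
theorem L74188 : W_26 (nat_lit 6) (nat_lit 0x48003c0010001000080000000000000000000000000000000) (nat_lit 0x0) (nat_lit 0x3380038001c00000000000000000000000000000000000000) := T_26 (nat_lit 173) (nat_lit 193) (nat_lit 3) (nat_lit 3) (nat_lit 10) L74187 (by decide +kernel)
theorem L74189 : W_26 (nat_lit 7) (nat_lit 0x8003c0010001000080000000000000000000000000000000) (nat_lit 0x0) (nat_lit 0x7380038001c00800000000000000000000000000000000000) := T_26 (nat_lit 194) (nat_lit 143) (nat_lit 6) (nat_lit 7) (nat_lit 11) L74188 (by decide +kernel)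
theorem L74190 : W_26 (nat_lit 8) (nat_lit 0x3c0010001000080000000000000000000000000000000) (nat_lit 0x0) (nat_lit 0x7f80038001c00800000000000000000000000000000000000) := T_26 (nat_lit 191) (nat_lit 190) (nat_lit 1) (nat_lit 7) (nat_lit 10) L74189 (by decide +kernel)
theorem L74191 : W_26 (nat_lit 9) (nat_lit 0x3c0000001000080000000000000000000000000000000) (nat_lit 0x0) (nat_lit 0x7f80038031c00800000000000000000000000000000000000) := T_26 (nat_lit 160) (nat_lit 161) (nat_lit 2) (nat_lit 4) (nat_lit 10) L74190 (by decide +kernel)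
theorem L74192 : W_26 (nat_lit 2) (nat_lit 0x8003c00100018000f0000000000000000000000000000000) (nat_lit 0x0) (nat_lit 0x4000300000000000000000000000000000000000) := D_26 (nat_lit 141) (nat_lit 140) (nat_lit 158) (nat_lit 1) (nat_lit 8) (nat_lit 7) (nat_lit 5) (nat_lit 5) (nat_lit 7) (by decide +kernel)
theorem L74193 : W_26 (nat_lit 3) (nat_lit 0x8003c00100018000e0000000000000000000000000000000) (nat_lit 0x0) (nat_lit 0x4000300018000000000000000000000000000000) := T_26 (nat_lit 124) (nat_lit 123) (nat_lit 3) (nat_lit 4) (nat_lit 7) L74192 (by decide +kernel)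
theorem L74194 : W_26 (nat_lit 4) (nat_lit 0x8003c00100018000c0000000000000000000000000000000) (nat_lit 0x0) (nat_lit 0x4000300038001000000000000000000000000000) := T_26 (nat_lit 125) (nat_lit 108) (nat_lit 4) (nat_lit 7) (nat_lit 10) L74193 (by decide +kernel)
theorem L74195 : W_26 (nat_lit 5) (nat_lit 0x8003c0010001800080000000000000000000000000000000) (nat_lit 0x0) (nat_lit 0x2000000004000300078001000000000000000000000000000) := T_26 (nat_lit 126) (nat_lit 193) (nat_lit 5) (nat_lit 7) (nat_lit 7) L74194 (by decide +kernel)
theorem L74196 : W_26 (nat_lit 6) (nat_lit 0x8003c0010001000080000000000000000000000000000000) (nat_lit 0x0) (nat_lit 0x6000000004000b00078001000000000000000000000000000) := T_26 (nat_lit 143) (nat_lit 194) (nat_lit 6) (nat_lit 7) (nat_lit 11) L74195 (by decide +kernel)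
theorem L74197 : W_26 (nat_lit 7) (nat_lit 0x3c0010001000080000000000000000000000000000000) (nat_lit 0x0) (nat_lit 0x6c00000004000b00078001000000000000000000000000000) := T_26 (nat_lit 191) (nat_lit 190) (nat_lit 1) (nat_lit 7) (nat_lit 10) L74196 (by decide +kernel)
theorem L74198 : W_26 (nat_lit 8) (nat_lit 0x3c0000001000080000000000000000000000000000000) (nat_lit 0x0) (nat_lit 0x6c00000034000b00078001000000000000000000000000000) := T_26 (nat_lit 160) (nat_lit 161) (nat_lit 2) (nat_lit 4) (nat_lit 10) L74197 (by decide +kernel)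
theorem L74199 : W_26 (nat_lit 12) (nat_lit 0x380000001000080000000000000000000000000000000) (nat_lit 0x0) (nat_lit 0x100008007f80078037e00b8007c001600010000000000000000000000) := Q_26 (nat_lit 174) (C_26 L74156 (C_26 L74161 (C_26 L74171 (C_26 L74173 (C_26 L74177 (C_26 L74186 (C_26 L74191 (C_26 L74198 N_26)))))))) (by decide +kernel)
theorem L74203 : W_26 (nat_lit 2) (nat_lit 0x21000fc0082001000088000000000000000000000000000000) (nat_lit 0x0) (nat_lit 0x40001000100000000000000000000000000000000000000000) := D_26 (nat_lit 180) (nat_lit 198) (nat_lit 164) (nat_lit 3) (nat_lit 7) (nat_lit 10) (nat_lit 2) (nat_lit 7) (nat_lit 10) (by decide +kernel)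
theorem L74204 : W_26 (nat_lit 3) (nat_lit 0x21000fc0002001000088000000000000000000000000000000) (nat_lit 0x0) (nat_lit 0x400010001c0000000000000000000000000000000000000000) := T_26 (nat_lit 163) (nat_lit 162) (nat_lit 2) (nat_lit 6) (nat_lit 10) L74203 (by decide +kernel)
theorem L74205 : W_26 (nat_lit 4) (nat_lit 0x1000fc0002001000088000000000000000000000000000000) (nat_lit 0x0) (nat_lit 0x700010001c0000000000000000000000000000000000000000) := T_26 (nat_lit 197) (nat_lit 196) (nat_lit 3) (nat_lit 6) (nat_lit 10) L74204 (by decide +kernel)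
theorem L74206 : W_26 (nat_lit 5) (nat_lit 0x1000fc0002001000080000000000000000000000000000000) (nat_lit 0x0) (nat_lit 0x700010001c0000100008000000000000000000000000000000) := T_26 (nat_lit 123) (nat_lit 140) (nat_lit 7) (nat_lit 4) (nat_lit 7) L74205 (by decide +kernel)
theorem L74207 : W_26 (nat_lit 6) (nat_lit 0x10007c0002001000080000000000000000000000000000000) (nat_lit 0x0) (nat_lit 0x720018001c0000100008000000000000000000000000000000) := T_26 (nat_lit 179) (nat_lit 193) (nat_lit 1) (nat_lit 9) (nat_lit 10) L74206 (by decide +kernel)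
theorem L74208 : W_26 (nat_lit 7) (nat_lit 0x7c0002001000080000000000000000000000000000000) (nat_lit 0x0) (nat_lit 0x738018001c0000100008000000000000000000000000000000) := T_26 (nat_lit 192) (nat_lit 191) (nat_lit 1) (nat_lit 8) (nat_lit 10) L74207 (by decide +kernel)
theorem L74209 : W_26 (nat_lit 8) (nat_lit 0x3c0002001000080000000000000000000000000000000) (nat_lit 0x0) (nat_lit 0x73801c001c4000100008000000000000000000000000000000) := T_26 (nat_lit 178) (nat_lit 158) (nat_lit 0) (nat_lit 8) (nat_lit 10) L74208 (by decide +kernel)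
theorem L74210 : W_26 (nat_lit 9) (nat_lit 0x3c0000001000080000000000000000000000000000000) (nat_lit 0x0) (nat_lit 0x73801c001c7000100008000000000000000000000000000000) := T_26 (nat_lit 157) (nat_lit 156) (nat_lit 0) (nat_lit 7) (nat_lit 10) L74209 (by decide +kernel)
theorem L74211 : W_26 (nat_lit 2) (nat_lit 0x24003e0000801000080000000000000000000000000000000) (nat_lit 0x0) (nat_lit 0x1000010000400000000000000000000000000000000000000) := D_26 (nat_lit 172) (nat_lit 192) (nat_lit 154) (nat_lit 3) (nat_lit 2) (nat_lit 10) (nat_lit 0) (nat_lit 5) (nat_lit 10) (by decide +kernel)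
theorem L74212 : W_26 (nat_lit 3) (nat_lit 0x4003e0000801000080000000000000000000000000000000) (nat_lit 0x0) (nat_lit 0x7000010000400000000000000000000000000000000000000) := T_26 (nat_lit 193) (nat_lit 194) (nat_lit 3) (nat_lit 3) (nat_lit 10) L74211 (by decide +kernel)
theorem L74213 : W_26 (nat_lit 4) (nat_lit 0x4003e0000001000080000000000000000000000000000000) (nat_lit 0x0) (nat_lit 0x7000010001c00000000000000000000000000000000000000) := T_26 (nat_lit 155) (nat_lit 156) (nat_lit 0) (nat_lit 6) (nat_lit 10) L74212 (by decide +kernel)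
theorem L74214 : W_26 (nat_lit 5) (nat_lit 0x4003c0000001000080000000000000000000000000000000) (nat_lit 0x0) (nat_lit 0x7200030001c00000000000000000000000000000000000000) := T_26 (nat_lit 173) (nat_lit 189) (nat_lit 1) (nat_lit 6) (nat_lit 10) L74213 (by decide +kernel)
theorem L74215 : W_26 (nat_lit 6) (nat_lit 0x3c0000001000080000000000000000000000000000000) (nat_lit 0x0) (nat_lit 0x7e00030001c00000000000000000000000000000000000000) := T_26 (nat_lit 190) (nat_lit 191) (nat_lit 1) (nat_lit 7) (nat_lit 10) L74214 (by decide +kernel)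
theorem L74216 : W_26 (nat_lit 2) (nat_lit 0x34007e0004001000080000000000000000000000000000000) (nat_lit 0x0) (nat_lit 0x800040000000000000000200000000000000000000000000000000000) := D_26 (nat_lit 210) (nat_lit 227) (nat_lit 141) (nat_lit 4) (nat_lit 6) (nat_lit 13) (nat_lit 7) (nat_lit 5) (nat_lit 8) (by decide +kernel)
theorem L74217 : W_26 (nat_lit 3) (nat_lit 0x34007e0000001000080000000000000000000000000000000) (nat_lit 0x0) (nat_lit 0x800040000000000006000200000000000000000000000000000000000) := T_26 (nat_lit 158) (nat_lit 157) (nat_lit 0) (nat_lit 8) (nat_lit 10) L74216 (by decide +kernel)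
theorem L74218 : W_26 (nat_lit 4) (nat_lit 0x34003e0000001000080000000000000000000000000000000) (nat_lit 0x0) (nat_lit 0x800040000000c00006000200000000000000000000000000000000000) := T_26 (nat_lit 178) (nat_lit 179) (nat_lit 1) (nat_lit 9) (nat_lit 10) L74217 (by decide +kernel)
theorem L74219 : W_26 (nat_lit 5) (nat_lit 0x24003e0000001000080000000000000000000000000000000) (nat_lit 0x0) (nat_lit 0x800040001000c10006000200000000000000000000000000000000000) := T_26 (nat_lit 192) (nat_lit 172) (nat_lit 3) (nat_lit 2) (nat_lit 10) L74218 (by decide +kernel)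
theorem L74220 : W_26 (nat_lit 6) (nat_lit 0x4003e0000001000080000000000000000000000000000000) (nat_lit 0x0) (nat_lit 0x800040007000c10006000200000000000000000000000000000000000) := T_26 (nat_lit 193) (nat_lit 194) (nat_lit 3) (nat_lit 3) (nat_lit 10) L74219 (by decide +kernel)
theorem L74221 : W_26 (nat_lit 7) (nat_lit 0x4003c0000001000080000000000000000000000000000000) (nat_lit 0x0) (nat_lit 0x800040007200c30006000200000000000000000000000000000000000) := T_26 (nat_lit 173) (nat_lit 189) (nat_lit 1) (nat_lit 6) (nat_lit 10) L74220 (by decide +kernel)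
theorem L74222 : W_26 (nat_lit 8) (nat_lit 0x3c0000001000080000000000000000000000000000000) (nat_lit 0x0) (nat_lit 0x800040007e00c30006000200000000000000000000000000000000000) := T_26 (nat_lit 190) (nat_lit 191) (nat_lit 1) (nat_lit 7) (nat_lit 10) L74221 (by decide +kernel)
theorem L74223 : W_26 (nat_lit 10) (nat_lit 0x380000001000080000000000000000000000000000000) (nat_lit 0x0) (nat_lit 0x800050077f01c781c7e00300018000000000000000000000000000000) := Q_26 (nat_lit 174) (C_26 L74173 (C_26 L74202 (C_26 L13263 (C_26 L74210 (C_26 L14517 (C_26 L74215 (C_26 L74222 N_26))))))) (by decide +kernel)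
theorem L74224 : W_26 (nat_lit 2) (nat_lit 0x380020001000080000000000000000000000000000000) (nat_lit 0x0) (nat_lit 0x4000400040000000000000000000000000000000000000000) := D_26 (nat_lit 178) (nat_lit 162) (nat_lit 194) (nat_lit 2) (nat_lit 5) (nat_lit 10) (nat_lit 5) (nat_lit 8) (nat_lit 7) (by decide +kernel)
theorem L74229 : W_26 (nat_lit 6) (nat_lit 0x380000001000080000000000000000000000000000000) (nat_lit 0x0) (nat_lit 0x4e00460073800000000000000000000000000000000000000) := Q_26 (nat_lit 161) (C_26 L74224 (C_26 L74228 N_26)) (by decide +kernel)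
theorem L74230 : W_26 (nat_lit 6) (nat_lit 0x780004001000080000000000000000000000000000000) (nat_lit 0x0) (nat_lit 0x738018001c0000000000000000000000000000000000000000) := T_26 (nat_lit 192) (nat_lit 191) (nat_lit 1) (nat_lit 8) (nat_lit 10) L12777 (by decide +kernel)
theorem L74231 : W_26 (nat_lit 7) (nat_lit 0x780000001000080000000000000000000000000000000) (nat_lit 0x0) (nat_lit 0x738018001c6000000000000000000000000000000000000000) := T_26 (nat_lit 158) (nat_lit 157) (nat_lit 0) (nat_lit 8) (nat_lit 10) L74230 (by decide +kernel)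
theorem L74232 : W_26 (nat_lit 2) (nat_lit 0x1000780020001000080000000000000000000000000000000) (nat_lit 0x0) (nat_lit 0x12000800000000000000000000000000000000000000000000) := D_26 (nat_lit 179) (nat_lit 193) (nat_lit 196) (nat_lit 1) (nat_lit 9) (nat_lit 10) (nat_lit 7) (nat_lit 8) (nat_lit 7) (by decide +kernel)
theorem L74233 : W_26 (nat_lit 3) (nat_lit 0x1000780000001000080000000000000000000000000000000) (nat_lit 0x0) (nat_lit 0x16000800020000000000000000000000000000000000000000) := T_26 (nat_lit 161) (nat_lit 194) (nat_lit 5) (nat_lit 8) (nat_lit 7) L74232 (by decide +kernel)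
theorem L74234 : W_26 (nat_lit 4) (nat_lit 0x780000001000080000000000000000000000000000000) (nat_lit 0x0) (nat_lit 0x17800800020000000000000000000000000000000000000000) := T_26 (nat_lit 192) (nat_lit 191) (nat_lit 1) (nat_lit 8) (nat_lit 10) L74233 (by decide +kernel)
theorem L74235 : W_26 (nat_lit 8) (nat_lit 0x380000001000080000000000000000000000000000000) (nat_lit 0x0) (nat_lit 0x77801c001e6000000000000000000000000000000000000000) := Q_26 (nat_lit 178) (C_26 L74146 (C_26 L74151 (C_26 L74231 (C_26 L74234 N_26)))) (by decide +kernel)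
theorem L74236 : W_26 (nat_lit 2) (nat_lit 0x22003e0021001000080000000000000000000000000000000) (nat_lit 0x0) (nat_lit 0x1100010000000000000000000000000000000000000000000) := D_26 (nat_lit 172) (nat_lit 192) (nat_lit 188) (nat_lit 3) (nat_lit 2) (nat_lit 10) (nat_lit 1) (nat_lit 5) (nat_lit 10) (by decide +kernel)
theorem L74237 : W_26 (nat_lit 3) (nat_lit 0x2003e0021001000080000000000000000000000000000000) (nat_lit 0x0) (nat_lit 0x7100010000000000000000000000000000000000000000000) := T_26 (nat_lit 193) (nat_lit 194) (nat_lit 3) (nat_lit 3) (nat_lit 10) L74236 (by decide +kernel)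
theorem L74238 : W_26 (nat_lit 4) (nat_lit 0x3e0021001000080000000000000000000000000000000) (nat_lit 0x0) (nat_lit 0x7700010000000000000000000000000000000000000000000) := T_26 (nat_lit 189) (nat_lit 190) (nat_lit 1) (nat_lit 6) (nat_lit 10) L74237 (by decide +kernel)
theorem L74239 : W_26 (nat_lit 5) (nat_lit 0x3c0021001000080000000000000000000000000000000) (nat_lit 0x0) (nat_lit 0x7700030000800000000000000000000000000000000000000) := T_26 (nat_lit 173) (nat_lit 155) (nat_lit 0) (nat_lit 6) (nat_lit 10) L74238 (by decide +kernel)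
theorem L74240 : W_26 (nat_lit 6) (nat_lit 0x3c0020001000080000000000000000000000000000000) (nat_lit 0x0) (nat_lit 0x7700030003800000000000000000000000000000000000000) := T_26 (nat_lit 156) (nat_lit 157) (nat_lit 0) (nat_lit 7) (nat_lit 10) L74239 (by decide +kernel)
theorem L74241 : W_26 (nat_lit 7) (nat_lit 0x380020001000080000000000000000000000000000000) (nat_lit 0x0) (nat_lit 0x7700070013800000000000000000000000000000000000000) := T_26 (nat_lit 174) (nat_lit 160) (nat_lit 2) (nat_lit 4) (nat_lit 10) L74240 (by decide +kernel)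
theorem L74245 : W_26 (nat_lit 8) (nat_lit 0x380000001000080000000000000000000000000000000) (nat_lit 0x0) (nat_lit 0x7700470077800000000000000000000000000000000000000) := Q_26 (nat_lit 161) (C_26 L74224 (C_26 L74241 (C_26 L74244 N_26))) (by decide +kernel)
theorem L74246 : W_26 (nat_lit 7) (nat_lit 0x380000001000080000000000000000000000000000000) (nat_lit 0x0) (nat_lit 0x77801c001e0000000000000000000000000000000000000000) := Q_26 (nat_lit 178) (C_26 L74146 (C_26 L74234 (C_26 L13818 N_26))) (by decide +kernel)
theorem L74247 : W_26 (nat_lit 13) (nat_lit 0x300000001000080000000000000000000000000000000) (nat_lit 0x0) (nat_lit 0x900058077f81cf81f7e00b8007c001600010000000000000000000000) := Q_26 (nat_lit 175) (C_26 L74147 (C_26 L74152 (C_26 L74199 (C_26 L74223 (C_26 L74229 (C_26 L74235 (C_26 L74245 (C_26 L74246 N_26)))))))) (by decide +kernel)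
theorem L74248 : W_26 (nat_lit 2) (nat_lit 0x4000300028001400080000000000000000000000000000000) (nat_lit 0x0) (nat_lit 0x1000080002000000000000000000000000000000000000000000000000) := D_26 (nat_lit 211) (nat_lit 228) (nat_lit 193) (nat_lit 4) (nat_lit 7) (nat_lit 13) (nat_lit 7) (nat_lit 6) (nat_lit 8) (by decide +kernel)
theorem L74249 : W_26 (nat_lit 3) (nat_lit 0x4000300028001000080000000000000000000000000000000) (nat_lit 0x0) (nat_lit 0x1000080002000000000000400020000000000000000000000000000000) := T_26 (nat_lit 142) (nat_lit 125) (nat_lit 7) (nat_lit 6) (nat_lit 7) L74248 (by decide +kernel)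
theorem L74250 : W_26 (nat_lit 4) (nat_lit 0x4000300008001000080000000000000000000000000000000) (nat_lit 0x0) (nat_lit 0x1000080002000400020000400020000000000000000000000000000000) := T_26 (nat_lit 161) (nat_lit 178) (nat_lit 5) (nat_lit 8) (nat_lit 7) L74249 (by decide +kernel)
theorem L74251 : W_26 (nat_lit 2) (nat_lit 0x1000000024000f000880010000a0000000000000000000000000000000) (nat_lit 0x0) (nat_lit 0x40001000100000000000000000000000000000000000000000) := D_26 (nat_lit 180) (nat_lit 164) (nat_lit 198) (nat_lit 2) (nat_lit 7) (nat_lit 10) (nat_lit 3) (nat_lit 7) (nat_lit 10) (by decide +kernel)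
theorem L74252 : W_26 (nat_lit 3) (nat_lit 0x1000000004000f000880010000a0000000000000000000000000000000) (nat_lit 0x0) (nat_lit 0x70001000100000000000000000000000000000000000000000) := T_26 (nat_lit 197) (nat_lit 196) (nat_lit 3) (nat_lit 6) (nat_lit 10) L74251 (by decide +kernel)
theorem L74253 : W_26 (nat_lit 4) (nat_lit 0x1000000004000f000080010000a0000000000000000000000000000000) (nat_lit 0x0) (nat_lit 0x700010001c0000000000000000000000000000000000000000) := T_26 (nat_lit 163) (nat_lit 162) (nat_lit 2) (nat_lit 6) (nat_lit 10) L74252 (by decide +kernel)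
theorem L74254 : W_26 (nat_lit 5) (nat_lit 0x10000000040007000080010000a0000000000000000000000000000000) (nat_lit 0x0) (nat_lit 0x700018001c4000000000000000000000000000000000000000) := T_26 (nat_lit 179) (nat_lit 158) (nat_lit 0) (nat_lit 9) (nat_lit 10) L74253 (by decide +kernel)
theorem L74255 : W_26 (nat_lit 6) (nat_lit 0x1000000004000700008001000080000000000000000000000000000000) (nat_lit 0x0) (nat_lit 0x700018001c4000400020000000000000000000000000000000) := T_26 (nat_lit 125) (nat_lit 142) (nat_lit 7) (nat_lit 6) (nat_lit 7) L74254 (by decide +kernel)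
theorem L74256 : W_26 (nat_lit 7) (nat_lit 0x1000000004000300008001000080000000000000000000000000000000) (nat_lit 0x0) (nat_lit 0x70001c001e4000400020000000000000000000000000000000) := T_26 (nat_lit 178) (nat_lit 161) (nat_lit 5) (nat_lit 8) (nat_lit 7) L74255 (by decide +kernel)
theorem L74257 : W_26 (nat_lit 8) (nat_lit 0x4000300008001000080000000000000000000000000000000) (nat_lit 0x0) (nat_lit 0x1000080070001c001e4000400020000000000000000000000000000000) := T_26 (nat_lit 228) (nat_lit 211) (nat_lit 4) (nat_lit 7) (nat_lit 13) L74256 (by decide +kernel)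
theorem L74258 : W_26 (nat_lit 4) (nat_lit 0x1000000004000300008001000080000000000000000000000000000000) (nat_lit 0x0) (nat_lit 0x3001c00024000000000000000000000000000000000000000) := T_26 (nat_lit 178) (nat_lit 161) (nat_lit 5) (nat_lit 8) (nat_lit 7) L15510 (by decide +kernel)
theorem L74259 : W_26 (nat_lit 5) (nat_lit 0x4000300008001000080000000000000000000000000000000) (nat_lit 0x0) (nat_lit 0x1000080003001c00024000000000000000000000000000000000000000) := T_26 (nat_lit 228) (nat_lit 211) (nat_lit 4) (nat_lit 7) (nat_lit 13) L74258 (by decide +kernel)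
theorem L74262 : W_26 (nat_lit 4) (nat_lit 0x4000300028001400080000000000000000000000000000000) (nat_lit 0x0) (nat_lit 0x80002000000040000a00050000000000000000000000000000000) := T_26 (nat_lit 193) (nat_lit 211) (nat_lit 7) (nat_lit 6) (nat_lit 8) L74261 (by decide +kernel)
theorem L74263 : W_26 (nat_lit 5) (nat_lit 0x4000300028001000080000000000000000000000000000000) (nat_lit 0x0) (nat_lit 0x80002000000040000e00070000000000000000000000000000000) := T_26 (nat_lit 142) (nat_lit 125) (nat_lit 7) (nat_lit 6) (nat_lit 7) L74262 (by decide +kernel)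
theorem L74264 : W_26 (nat_lit 6) (nat_lit 0x4000300008001000080000000000000000000000000000000) (nat_lit 0x0) (nat_lit 0x80002000400060000e00070000000000000000000000000000000) := T_26 (nat_lit 161) (nat_lit 178) (nat_lit 5) (nat_lit 8) (nat_lit 7) L74263 (by decide +kernel)
theorem L74269 : W_26 (nat_lit 9) (nat_lit 0x4000300000001000080000000000000000000000000000000) (nat_lit 0x0) (nat_lit 0x1000080073001c001ec000e00070000000000000000000000000000000) := Q_26 (nat_lit 159) (C_26 L74250 (C_26 L74257 (C_26 L74259 (C_26 L14840 (C_26 L74264 (C_26 L74268 N_26)))))) (by decide +kernel)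
theorem L74280 : W_26 (nat_lit 2) (nat_lit 0x80004000300000001400080000000000000000000000000000000) (nat_lit 0x0) (nat_lit 0x2000000008000000020000000000000000000000000000000) := D_26 (nat_lit 159) (nat_lit 193) (nat_lit 125) (nat_lit 7) (nat_lit 6) (nat_lit 8) (nat_lit 7) (nat_lit 6) (nat_lit 7) (by decide +kernel)
theorem L74281 : W_26 (nat_lit 2) (nat_lit 0x80004000300000001f00080000000000000000000000000000000) (nat_lit 0x0) (nat_lit 0x7000000000000000000000000000000000000000) := D_26 (nat_lit 157) (nat_lit 156) (nat_lit 158) (nat_lit 1) (nat_lit 7) (nat_lit 8) (nat_lit 1) (nat_lit 8) (nat_lit 8) (by decide +kernel)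
theorem L74282 : W_26 (nat_lit 3) (nat_lit 0x80004000300000001e00080000000000000000000000000000000) (nat_lit 0x0) (nat_lit 0x7000100040000000000000000000000000000000) := T_26 (nat_lit 140) (nat_lit 126) (nat_lit 2) (nat_lit 4) (nat_lit 8) L74281 (by decide +kernel)
theorem L74283 : W_26 (nat_lit 4) (nat_lit 0x80004000300000001c00080000000000000000000000000000000) (nat_lit 0x0) (nat_lit 0x7000300140000000000000000000000000000000) := T_26 (nat_lit 141) (nat_lit 128) (nat_lit 2) (nat_lit 5) (nat_lit 8) L74282 (by decide +kernel)
theorem L74284 : W_26 (nat_lit 5) (nat_lit 0x80004000300000001400080000000000000000000000000000000) (nat_lit 0x0) (nat_lit 0x17000b00140000000000000000000000000000000) := T_26 (nat_lit 143) (nat_lit 160) (nat_lit 6) (nat_lit 7) (nat_lit 11) L74283 (by decide +kernel)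
theorem L74285 : W_26 (nat_lit 6) (nat_lit 0x80004000300000001000080000000000000000000000000000000) (nat_lit 0x0) (nat_lit 0x200000001f000f00160000000000000000000000000000000) := Q_26 (nat_lit 142) (C_26 L74279 (C_26 L74280 (C_26 L74284 N_26))) (by decide +kernel)
theorem L74286 : W_26 (nat_lit 7) (nat_lit 0x4000300000001000080000000000000000000000000000000) (nat_lit 0x0) (nat_lit 0x8000700038001c000200000001f000f00160000000000000000000000000000000) := Q_26 (nat_lit 211) (C_26 L74278 (C_26 L11924 (C_26 L11890 (C_26 L74285 N_26)))) (by decide +kernel)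
theorem L74319 : W_26 (nat_lit 2) (nat_lit 0x6000300008001400080000000000000000000000000000000) (nat_lit 0x0) (nat_lit 0x10000800040000000000000000000000000000000) := D_26 (nat_lit 143) (nat_lit 160) (nat_lit 126) (nat_lit 6) (nat_lit 7) (nat_lit 11) (nat_lit 6) (nat_lit 6) (nat_lit 11) (by decide +kernel)
theorem L74320 : W_26 (nat_lit 3) (nat_lit 0x6000300008001000080000000000000000000000000000000) (nat_lit 0x0) (nat_lit 0x10000c00060000000000000000000000000000000) := T_26 (nat_lit 142) (nat_lit 125) (nat_lit 7) (nat_lit 6) (nat_lit 7) L74319 (by decide +kernel)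
theorem L74321 : W_26 (nat_lit 13) (nat_lit 0x6000300000001000080000000000000000000000000000000) (nat_lit 0x0) (nat_lit 0xc00078001c004600ff000f80070000000000000000000000000000000) := Q_26 (nat_lit 159) (C_26 L74295 (C_26 L74306 (C_26 L74316 (C_26 L74318 (C_26 L74320 N_26))))) (by decide +kernel)
theorem L74331 : W_26 (nat_lit 11) (nat_lit 0x6000300000001000080000000000000000000000000000000) (nat_lit 0x0) (nat_lit 0x10000c00078001c0006001f000f80170000000000000000000000000000000) := Q_26 (nat_lit 159) (C_26 L8298 (C_26 L74330 (C_26 L8297 (C_26 L74320 N_26)))) (by decide +kernel)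
theorem L74334 : W_26 (nat_lit 14) (nat_lit 0x4000300000001000080000000000000000000000000000000) (nat_lit 0x0) (nat_lit 0x10000c00078003c01c600ff000f80170000000000000000000000000000000) := Q_26 (nat_lit 193) (C_26 L74321 (C_26 L16856 (C_26 L74331 (C_26 L74333 N_26)))) (by decide +kernel)
theorem L74335 : W_26 (nat_lit 15) (nat_lit 0x300000001000080000000000000000000000000000000) (nat_lit 0x0) (nat_lit 0x800070003c001f8077c01c601ff000f80170000000000000000000000000000000) := Q_26 (nat_lit 194) (C_26 L74269 (C_26 L74274 (C_26 L74277 (C_26 L74286 (C_26 L74288 (C_26 L74334 N_26)))))) (by decide +kernel)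
theorem L74336 : W_26 (nat_lit 3) (nat_lit 0x1000000004000f00008001000080000000000000000000000000000000) (nat_lit 0x0) (nat_lit 0x72001000000000000000000000000000000000000000000000) := T_26 (nat_lit 180) (nat_lit 193) (nat_lit 1) (nat_lit 10) (nat_lit 10) L15925 (by decide +kernel)
theorem L74337 : W_26 (nat_lit 4) (nat_lit 0x1000000004000700008001000080000000000000000000000000000000) (nat_lit 0x0) (nat_lit 0x72001800004000000000000000000000000000000000000000) := T_26 (nat_lit 179) (nat_lit 158) (nat_lit 0) (nat_lit 9) (nat_lit 10) L74336 (by decide +kernel)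
theorem L74338 : W_26 (nat_lit 5) (nat_lit 0x4000700008001000080000000000000000000000000000000) (nat_lit 0x0) (nat_lit 0x1000080072001800004000000000000000000000000000000000000000) := T_26 (nat_lit 228) (nat_lit 211) (nat_lit 4) (nat_lit 7) (nat_lit 13) L74337 (by decide +kernel)
theorem L74339 : W_26 (nat_lit 6) (nat_lit 0x4000300008001000080000000000000000000000000000000) (nat_lit 0x0) (nat_lit 0x1000080072001c00024000000000000000000000000000000000000000) := T_26 (nat_lit 178) (nat_lit 161) (nat_lit 5) (nat_lit 8) (nat_lit 7) L74338 (by decide +kernel)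
theorem L74340 : W_26 (nat_lit 2) (nat_lit 0x4001f000080010000a0000000000000000000000000000000) (nat_lit 0x0) (nat_lit 0x70000000000000000000000000000000000000000000000000) := D_26 (nat_lit 197) (nat_lit 196) (nat_lit 198) (nat_lit 3) (nat_lit 6) (nat_lit 10) (nat_lit 3) (nat_lit 7) (nat_lit 10) (by decide +kernel)
theorem L74341 : W_26 (nat_lit 3) (nat_lit 0x4000f000080010000a0000000000000000000000000000000) (nat_lit 0x0) (nat_lit 0x72001000000000000000000000000000000000000000000000) := T_26 (nat_lit 180) (nat_lit 193) (nat_lit 1) (nat_lit 10) (nat_lit 10) L74340 (by decide +kernel)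
theorem L74342 : W_26 (nat_lit 4) (nat_lit 0x40007000080010000a0000000000000000000000000000000) (nat_lit 0x0) (nat_lit 0x72001800004000000000000000000000000000000000000000) := T_26 (nat_lit 179) (nat_lit 158) (nat_lit 0) (nat_lit 9) (nat_lit 10) L74341 (by decide +kernel)
theorem L74343 : W_26 (nat_lit 5) (nat_lit 0x4000700008001000080000000000000000000000000000000) (nat_lit 0x0) (nat_lit 0x72001800004000400020000000000000000000000000000000) := T_26 (nat_lit 125) (nat_lit 142) (nat_lit 7) (nat_lit 6) (nat_lit 7) L74342 (by decide +kernel)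
theorem L74344 : W_26 (nat_lit 6) (nat_lit 0x4000300008001000080000000000000000000000000000000) (nat_lit 0x0) (nat_lit 0x72001c00024000400020000000000000000000000000000000) := T_26 (nat_lit 178) (nat_lit 161) (nat_lit 5) (nat_lit 8) (nat_lit 7) L74343 (by decide +kernel)
theorem L74345 : W_26 (nat_lit 9) (nat_lit 0x4000300000001000080000000000000000000000000000000) (nat_lit 0x0) (nat_lit 0x1000080072001c001ec000e00070000000000000000000000000000000) := Q_26 (nat_lit 159) (C_26 L74264 (C_26 L74257 (C_26 L74339 (C_26 L14840 (C_26 L74344 N_26))))) (by decide +kernel)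
theorem L74346 : W_26 (nat_lit 4) (nat_lit 0x4000300010001000080000000000000000000000000000000) (nat_lit 0x0) (nat_lit 0x4c00e8000000000000000000000000000000000000000) := T_26 (nat_lit 161) (nat_lit 178) (nat_lit 5) (nat_lit 8) (nat_lit 7) L8168 (by decide +kernel)
theorem L74347 : W_26 (nat_lit 5) (nat_lit 0x4000300000001000080000000000000000000000000000000) (nat_lit 0x0) (nat_lit 0x4c00f8000800000000000000000000000000000000000) := T_26 (nat_lit 160) (nat_lit 143) (nat_lit 6) (nat_lit 7) (nat_lit 11) L74346 (by decide +kernel)
theorem L74348 : W_26 (nat_lit 10) (nat_lit 0x300000001000080000000000000000000000000000000) (nat_lit 0x0) (nat_lit 0x8000700038001c0076001cc01ff000f00170000000000000000000000000000000) := Q_26 (nat_lit 194) (C_26 L74345 (C_26 L74274 (C_26 L74286 (C_26 L74288 (C_26 L74347 N_26))))) (by decide +kernel)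
theorem L74349 : W_26 (nat_lit 5) (nat_lit 0x300020001000080000000000000000000000000000000) (nat_lit 0x0) (nat_lit 0x14000c800c0000000040002000000000000000000000000000) := T_26 (nat_lit 178) (nat_lit 194) (nat_lit 5) (nat_lit 8) (nat_lit 7) L74019 (by decide +kernel)
theorem L74350 : W_26 (nat_lit 6) (nat_lit 0xf000200010001c0000000000000000000000000000000) (nat_lit 0x0) (nat_lit 0xe00070000dc000000000000000000000000000000000000000) := T_26 (nat_lit 162) (nat_lit 163) (nat_lit 2) (nat_lit 6) (nat_lit 10) L67384 (by decide +kernel)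
theorem L74351 : W_26 (nat_lit 7) (nat_lit 0x7000200010001c0000000000000000000000000000000) (nat_lit 0x0) (nat_lit 0xf00078000dc000000000000000000000000000000000000000) := T_26 (nat_lit 179) (nat_lit 196) (nat_lit 7) (nat_lit 8) (nat_lit 7) L74350 (by decide +kernel)
theorem L74352 : W_26 (nat_lit 8) (nat_lit 0x7000200010000c0000000000000000000000000000000) (nat_lit 0x0) (nat_lit 0xf00078000dc000000100008000000000000000000000000000) := T_26 (nat_lit 128) (nat_lit 111) (nat_lit 6) (nat_lit 8) (nat_lit 10) L74351 (by decide +kernel)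
theorem L74353 : W_26 (nat_lit 9) (nat_lit 0x700020001000080000000000000000000000000000000) (nat_lit 0x0) (nat_lit 0xf00078000dc00000014000a000000000000000000000000000) := T_26 (nat_lit 126) (nat_lit 109) (nat_lit 4) (nat_lit 8) (nat_lit 10) L74352 (by decide +kernel)
theorem L74354 : W_26 (nat_lit 2) (nat_lit 0x10000000040003f000a80010003c0000000000000000000000000000000) (nat_lit 0x0) (nat_lit 0xc00400000000000000000000000000000000) := D_26 (nat_lit 143) (nat_lit 142) (nat_lit 130) (nat_lit 1) (nat_lit 10) (nat_lit 7) (nat_lit 1) (nat_lit 11) (nat_lit 7) (by decide +kernel)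
theorem L74355 : W_26 (nat_lit 3) (nat_lit 0x10000000040003f000a80010001c0000000000000000000000000000000) (nat_lit 0x0) (nat_lit 0x4c00600000000000000000000000000000000) := T_26 (nat_lit 129) (nat_lit 146) (nat_lit 7) (nat_lit 10) (nat_lit 7) L74354 (by decide +kernel)
theorem L74356 : W_26 (nat_lit 4) (nat_lit 0x40003f000a80010001c0000000000000000000000000000000) (nat_lit 0x0) (nat_lit 0x10000800000000000000004c00600000000000000000000000000000000) := T_26 (nat_lit 232) (nat_lit 215) (nat_lit 4) (nat_lit 11) (nat_lit 13) L74355 (by decide +kernel)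
theorem L74357 : W_26 (nat_lit 5) (nat_lit 0x40001f000a80010001c0000000000000000000000000000000) (nat_lit 0x0) (nat_lit 0x10000800080002000000004c00600000000000000000000000000000000) := T_26 (nat_lit 181) (nat_lit 199) (nat_lit 3) (nat_lit 8) (nat_lit 10) L74356 (by decide +kernel)
theorem L74358 : W_26 (nat_lit 6) (nat_lit 0x1f000a80010001c0000000000000000000000000000000) (nat_lit 0x0) (nat_lit 0x100008000e0002000000004c00600000000000000000000000000000000) := T_26 (nat_lit 198) (nat_lit 197) (nat_lit 3) (nat_lit 7) (nat_lit 10) L74357 (by decide +kernel)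
theorem L74359 : W_26 (nat_lit 7) (nat_lit 0x1f000280010001c0000000000000000000000000000000) (nat_lit 0x0) (nat_lit 0x100008000e0002000180004c00600000000000000000000000000000000) := T_26 (nat_lit 163) (nat_lit 164) (nat_lit 2) (nat_lit 7) (nat_lit 10) L74358 (by decide +kernel)
theorem L74360 : W_26 (nat_lit 8) (nat_lit 0x1f000280010000c0000000000000000000000000000000) (nat_lit 0x0) (nat_lit 0x100008000e0002000180004c00700008000000000000000000000000000) := T_26 (nat_lit 128) (nat_lit 111) (nat_lit 6) (nat_lit 8) (nat_lit 10) L74359 (by decide +kernel)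
theorem L74361 : W_26 (nat_lit 9) (nat_lit 0xf000280010000c0000000000000000000000000000000) (nat_lit 0x0) (nat_lit 0x100008000e0003000190004c00700008000000000000000000000000000) := T_26 (nat_lit 180) (nat_lit 160) (nat_lit 0) (nat_lit 10) (nat_lit 10) L74360 (by decide +kernel)
theorem L74362 : W_26 (nat_lit 10) (nat_lit 0xf00028001000080000000000000000000000000000000) (nat_lit 0x0) (nat_lit 0x100008000e0003000190004c0074000a000000000000000000000000000) := T_26 (nat_lit 126) (nat_lit 109) (nat_lit 4) (nat_lit 8) (nat_lit 10) L74361 (by decide +kernel)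
theorem L74363 : W_26 (nat_lit 11) (nat_lit 0xf00020001000080000000000000000000000000000000) (nat_lit 0x0) (nat_lit 0x100008000e000300019c004c0074000a000000000000000000000000000) := T_26 (nat_lit 159) (nat_lit 158) (nat_lit 0) (nat_lit 9) (nat_lit 10) L74362 (by decide +kernel)
theorem L74364 : W_26 (nat_lit 12) (nat_lit 0x700020001000080000000000000000000000000000000) (nat_lit 0x0) (nat_lit 0x100008000f000380019c004c0074000a000000000000000000000000000) := T_26 (nat_lit 179) (nat_lit 196) (nat_lit 7) (nat_lit 8) (nat_lit 7) L74363 (by decide +kernel)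
theorem L74365 : W_26 (nat_lit 13) (nat_lit 0x300020001000080000000000000000000000000000000) (nat_lit 0x0) (nat_lit 0x100008000f1c07cc01de004e0077000a000000000000000000000000000) := Q_26 (nat_lit 178) (C_26 L73999 (C_26 L74019 (C_26 L73940 (C_26 L74353 (C_26 L74364 N_26))))) (by decide +kernel)
theorem L74366 : W_26 (nat_lit 2) (nat_lit 0x300030001000080000000000000000000000000000000) (nat_lit 0x0) (nat_lit 0x80004000000000000800000000000000000000000000000000000) := D_26 (nat_lit 194) (nat_lit 143) (nat_lit 211) (nat_lit 6) (nat_lit 7) (nat_lit 11) (nat_lit 6) (nat_lit 7) (nat_lit 12) (by decide +kernel)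
theorem L74367 : W_26 (nat_lit 4) (nat_lit 0x300020001000080000000000000000000000000000000) (nat_lit 0x0) (nat_lit 0x800040000c00d8000800000000000000000000000000000000000) := Q_26 (nat_lit 160) (C_26 L74366 (C_26 L65387 N_26)) (by decide +kernel)
theorem L74368 : W_26 (nat_lit 13) (nat_lit 0x300020001000080000000000000000000000000000000) (nat_lit 0x0) (nat_lit 0x100008000f4003c0019c004c0074000a000000000000000000000000000) := T_26 (nat_lit 178) (nat_lit 194) (nat_lit 5) (nat_lit 8) (nat_lit 7) L74364 (by decide +kernel)
theorem L74369 : W_26 (nat_lit 10) (nat_lit 0x300020001000080000000000000000000000000000000) (nat_lit 0x0) (nat_lit 0x5c004c0046000e0017000a000000000000000000000000000) := T_26 (nat_lit 178) (nat_lit 194) (nat_lit 5) (nat_lit 8) (nat_lit 7) L73999 (by decide +kernel)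
theorem L74370 : W_26 (nat_lit 14) (nat_lit 0x300000001000080000000000000000000000000000000) (nat_lit 0x0) (nat_lit 0x100008800f5c07cc01fe004e0077000a000000000000000000000000000) := Q_26 (nat_lit 161) (C_26 L74349 (C_26 L74365 (C_26 L74367 (C_26 L74368 (C_26 L74369 N_26))))) (by decide +kernel)
theorem L74373 : W_26 (nat_lit 2) (nat_lit 0x6000f00048001800080000000000000000000000000000000) (nat_lit 0x0) (nat_lit 0x1000080000000000000000400000000000000000000000000000000000) := D_26 (nat_lit 211) (nat_lit 228) (nat_lit 142) (nat_lit 4) (nat_lit 7) (nat_lit 13) (nat_lit 7) (nat_lit 6) (nat_lit 8) (by decide +kernel)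
theorem L74374 : W_26 (nat_lit 3) (nat_lit 0x6000f00040001800080000000000000000000000000000000) (nat_lit 0x0) (nat_lit 0x100008000000000000c000400000000000000000000000000000000000) := T_26 (nat_lit 159) (nat_lit 158) (nat_lit 0) (nat_lit 9) (nat_lit 10) L74373 (by decide +kernel)
theorem L74375 : W_26 (nat_lit 4) (nat_lit 0x6000f00000001800080000000000000000000000000000000) (nat_lit 0x0) (nat_lit 0x10000800000000000cc000400000000000000000000000000000000000) := T_26 (nat_lit 162) (nat_lit 163) (nat_lit 2) (nat_lit 6) (nat_lit 10) L74374 (by decide +kernel)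
theorem L74376 : W_26 (nat_lit 5) (nat_lit 0x4000f00000001800080000000000000000000000000000000) (nat_lit 0x0) (nat_lit 0x10000800030000000cc000400000000000000000000000000000000000) := T_26 (nat_lit 193) (nat_lit 192) (nat_lit 1) (nat_lit 9) (nat_lit 10) L74375 (by decide +kernel)
theorem L74377 : W_26 (nat_lit 6) (nat_lit 0xf00000001800080000000000000000000000000000000) (nat_lit 0x0) (nat_lit 0x10000800070000000dc000400000000000000000000000000000000000) := T_26 (nat_lit 194) (nat_lit 160) (nat_lit 6) (nat_lit 7) (nat_lit 11) L74376 (by decide +kernel)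
theorem L74378 : W_26 (nat_lit 4) (nat_lit 0x12000f00040001800080000000000000000000000000000000) (nat_lit 0x0) (nat_lit 0xc000600150000000000000000000000000000000) := T_26 (nat_lit 159) (nat_lit 158) (nat_lit 0) (nat_lit 9) (nat_lit 10) L65706 (by decide +kernel)
theorem L74379 : W_26 (nat_lit 5) (nat_lit 0x12000f00000001800080000000000000000000000000000000) (nat_lit 0x0) (nat_lit 0xcc000600150000000000000000000000000000000) := T_26 (nat_lit 162) (nat_lit 163) (nat_lit 2) (nat_lit 6) (nat_lit 10) L74378 (by decide +kernel)
theorem L74380 : W_26 (nat_lit 6) (nat_lit 0x10000f00000001800080000000000000000000000000000000) (nat_lit 0x0) (nat_lit 0x30000000cc000600150000000000000000000000000000000) := T_26 (nat_lit 193) (nat_lit 192) (nat_lit 1) (nat_lit 9) (nat_lit 10) L74379 (by decide +kernel)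
theorem L74381 : W_26 (nat_lit 7) (nat_lit 0xf00000001800080000000000000000000000000000000) (nat_lit 0x0) (nat_lit 0x330000000cc000600150000000000000000000000000000000) := T_26 (nat_lit 196) (nat_lit 197) (nat_lit 3) (nat_lit 6) (nat_lit 10) L74380 (by decide +kernel)
theorem L74382 : W_26 (nat_lit 2) (nat_lit 0x1000000014000f00048001e00080000000000000000000000000000000) (nat_lit 0x0) (nat_lit 0x2000000000000100040000000000000000000000000000000) := D_26 (nat_lit 126) (nat_lit 140) (nat_lit 193) (nat_lit 2) (nat_lit 4) (nat_lit 8) (nat_lit 6) (nat_lit 6) (nat_lit 11) (by decide +kernel)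
theorem L74383 : W_26 (nat_lit 3) (nat_lit 0x1000000014000f00048001c00080000000000000000000000000000000) (nat_lit 0x0) (nat_lit 0x2000000000000300140000000000000000000000000000000) := T_26 (nat_lit 141) (nat_lit 128) (nat_lit 2) (nat_lit 5) (nat_lit 8) L74382 (by decide +kernel)
theorem L74384 : W_26 (nat_lit 4) (nat_lit 0x1000000014000f00008001c00080000000000000000000000000000000) (nat_lit 0x0) (nat_lit 0x20000000c0000300140000000000000000000000000000000) := T_26 (nat_lit 162) (nat_lit 163) (nat_lit 2) (nat_lit 6) (nat_lit 10) L74383 (by decide +kernel)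
theorem L74385 : W_26 (nat_lit 5) (nat_lit 0x1000000014000f00008001800080000000000000000000000000000000) (nat_lit 0x0) (nat_lit 0x20000000c0000700160000000000000000000000000000000) := T_26 (nat_lit 142) (nat_lit 125) (nat_lit 7) (nat_lit 6) (nat_lit 7) L74384 (by decide +kernel)
theorem L74386 : W_26 (nat_lit 6) (nat_lit 0x14000f00008001800080000000000000000000000000000000) (nat_lit 0x0) (nat_lit 0x10000800020000000c0000700160000000000000000000000000000000) := T_26 (nat_lit 228) (nat_lit 211) (nat_lit 4) (nat_lit 7) (nat_lit 13) L74385 (by decide +kernel)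
theorem L74387 : W_26 (nat_lit 7) (nat_lit 0x10000f00008001800080000000000000000000000000000000) (nat_lit 0x0) (nat_lit 0x10000800060000000d0000700160000000000000000000000000000000) := T_26 (nat_lit 194) (nat_lit 160) (nat_lit 6) (nat_lit 7) (nat_lit 11) L74386 (by decide +kernel)
theorem L74388 : W_26 (nat_lit 8) (nat_lit 0xf00008001800080000000000000000000000000000000) (nat_lit 0x0) (nat_lit 0x10000800360000000d0000700160000000000000000000000000000000) := T_26 (nat_lit 196) (nat_lit 197) (nat_lit 3) (nat_lit 6) (nat_lit 10) L74387 (by decide +kernel)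
theorem L74389 : W_26 (nat_lit 9) (nat_lit 0xf00000001800080000000000000000000000000000000) (nat_lit 0x0) (nat_lit 0x10000800360000000dc000700160000000000000000000000000000000) := T_26 (nat_lit 159) (nat_lit 158) (nat_lit 0) (nat_lit 9) (nat_lit 10) L74388 (by decide +kernel)
theorem L74390 : W_26 (nat_lit 2) (nat_lit 0x1000000014000f00048001f00080000000000000000000000000000000) (nat_lit 0x0) (nat_lit 0x1c000000000000000000000000000000) := D_26 (nat_lit 123) (nat_lit 122) (nat_lit 124) (nat_lit 0) (nat_lit 7) (nat_lit 8) (nat_lit 0) (nat_lit 8) (nat_lit 8) (by decide +kernel)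
theorem L74391 : W_26 (nat_lit 3) (nat_lit 0x1000000014000f00048001e00080000000000000000000000000000000) (nat_lit 0x0) (nat_lit 0x10005c000000000000000000000000000000) := T_26 (nat_lit 140) (nat_lit 126) (nat_lit 2) (nat_lit 4) (nat_lit 8) L74390 (by decide +kernel)
theorem L74392 : W_26 (nat_lit 4) (nat_lit 0x1000000014000f00048001c00080000000000000000000000000000000) (nat_lit 0x0) (nat_lit 0x30015c000000000000000000000000000000) := T_26 (nat_lit 141) (nat_lit 128) (nat_lit 2) (nat_lit 5) (nat_lit 8) L74391 (by decide +kernel)
theorem L74393 : W_26 (nat_lit 5) (nat_lit 0x1000000014000f00048001800080000000000000000000000000000000) (nat_lit 0x0) (nat_lit 0x70017c000000000000000000000000000000) := T_26 (nat_lit 142) (nat_lit 125) (nat_lit 7) (nat_lit 6) (nat_lit 7) L74392 (by decide +kernel)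
theorem L74394 : W_26 (nat_lit 6) (nat_lit 0x14000f00048001800080000000000000000000000000000000) (nat_lit 0x0) (nat_lit 0x100008000000000000000070017c000000000000000000000000000000) := T_26 (nat_lit 228) (nat_lit 211) (nat_lit 4) (nat_lit 7) (nat_lit 13) L74393 (by decide +kernel)
theorem L74395 : W_26 (nat_lit 7) (nat_lit 0x10000f00048001800080000000000000000000000000000000) (nat_lit 0x0) (nat_lit 0x100008000400000001000070017c000000000000000000000000000000) := T_26 (nat_lit 194) (nat_lit 160) (nat_lit 6) (nat_lit 7) (nat_lit 11) L74394 (by decide +kernel)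
theorem L74396 : W_26 (nat_lit 8) (nat_lit 0xf00048001800080000000000000000000000000000000) (nat_lit 0x0) (nat_lit 0x100008003400000001000070017c000000000000000000000000000000) := T_26 (nat_lit 196) (nat_lit 197) (nat_lit 3) (nat_lit 6) (nat_lit 10) L74395 (by decide +kernel)
theorem L74397 : W_26 (nat_lit 9) (nat_lit 0xf00040001800080000000000000000000000000000000) (nat_lit 0x0) (nat_lit 0x100008003400000001c00070017c000000000000000000000000000000) := T_26 (nat_lit 159) (nat_lit 158) (nat_lit 0) (nat_lit 9) (nat_lit 10) L74396 (by decide +kernel)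
theorem L74398 : W_26 (nat_lit 10) (nat_lit 0xf00000001800080000000000000000000000000000000) (nat_lit 0x0) (nat_lit 0x10000800340000000dc00070017c000000000000000000000000000000) := T_26 (nat_lit 162) (nat_lit 163) (nat_lit 2) (nat_lit 6) (nat_lit 10) L74397 (by decide +kernel)
theorem L74399 : W_26 (nat_lit 11) (nat_lit 0xf00000001000080000000000000000000000000000000) (nat_lit 0x0) (nat_lit 0x10000800370000000dc000f0017c000000000000000000000000000000) := Q_26 (nat_lit 143) (C_26 L74372 (C_26 L74377 (C_26 L74381 (C_26 L74389 (C_26 L74398 N_26))))) (by decide +kernel)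
theorem L74400 : W_26 (nat_lit 12) (nat_lit 0x700000001000080000000000000000000000000000000) (nat_lit 0x0) (nat_lit 0x10000800770018001dc000f0017c000000000000000000000000000000) := Q_26 (nat_lit 179) (C_26 L11377 (C_26 L11341 (C_26 L72899 (C_26 L73986 (C_26 L74399 N_26))))) (by decide +kernel)
theorem L74402 : W_26 (nat_lit 17) (nat_lit 0x300000001000080000000000000000000000000000000) (nat_lit 0x0) (nat_lit 0x110008800f7c03cc01fc03cf00f7c0ea000000000000000000000000000) := Q_26 (nat_lit 178) (C_26 L74020 (C_26 L73981 (C_26 L74105 (C_26 L74400 (C_26 L74401 N_26))))) (by decide +kernel)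
theorem L74403 : W_26 (nat_lit 8) (nat_lit 0x300020001000080000000000000000000000000000000) (nat_lit 0x0) (nat_lit 0x13c00cc00d0000e0034000a000000000000000000000000000) := Q_26 (nat_lit 178) (C_26 L5673 (C_26 L74019 (C_26 L73940 (C_26 L73947 N_26)))) (by decide +kernel)
theorem L74404 : W_26 (nat_lit 8) (nat_lit 0x300020001000080000000000000000000000000000000) (nat_lit 0x0) (nat_lit 0x17000c00010000e0034000a000000000000000000000000000) := T_26 (nat_lit 178) (nat_lit 194) (nat_lit 5) (nat_lit 8) (nat_lit 7) L73947 (by decide +kernel)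
theorem L74405 : W_26 (nat_lit 9) (nat_lit 0x300000001000080000000000000000000000000000000) (nat_lit 0x0) (nat_lit 0x80017c00cc00f8000e0034000a000000000000000000000000000) := Q_26 (nat_lit 161) (C_26 L74349 (C_26 L74403 (C_26 L74367 (C_26 L74404 N_26)))) (by decide +kernel)
theorem L74406 : W_26 (nat_lit 18) (nat_lit 0x200000001000080000000000000000000000000000000) (nat_lit 0x0) (nat_lit 0x80007001bf00df80f7f87df83ffe3cf80f7c0fbe001d000c000000000000000000) := Q_26 (nat_lit 176) (C_26 L73982 (C_26 L74009 (C_26 L74021 (C_26 L74024 (C_26 L74025 (C_26 L74103 (C_26 L74106 (C_26 L74145 (C_26 L74247 (C_26 L74335 (C_26 L74348 (C_26 L74370 (C_26 L74402 (C_26 L74405 N_26)))))))))))))) (by decide +kernel)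
theorem L74992 : W_26 (nat_lit 2) (nat_lit 0x14000f00008001c00080000000000000000000000000000000) (nat_lit 0x0) (nat_lit 0x3000000000000000040000000000000000000000000000000) := D_26 (nat_lit 193) (nat_lit 192) (nat_lit 126) (nat_lit 1) (nat_lit 9) (nat_lit 10) (nat_lit 6) (nat_lit 6) (nat_lit 11) (by decide +kernel)
theorem L74993 : W_26 (nat_lit 3) (nat_lit 0x14000f00008001800080000000000000000000000000000000) (nat_lit 0x0) (nat_lit 0x3000000000000400060000000000000000000000000000000) := T_26 (nat_lit 142) (nat_lit 125) (nat_lit 7) (nat_lit 6) (nat_lit 7) L74992 (by decide +kernel)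
theorem L74994 : W_26 (nat_lit 4) (nat_lit 0x4000f00008001800080000000000000000000000000000000) (nat_lit 0x0) (nat_lit 0x33000000000000400060000000000000000000000000000000) := T_26 (nat_lit 196) (nat_lit 197) (nat_lit 3) (nat_lit 6) (nat_lit 10) L74993 (by decide +kernel)
theorem L74995 : W_26 (nat_lit 5) (nat_lit 0xf00008001800080000000000000000000000000000000) (nat_lit 0x0) (nat_lit 0x37000000010000400060000000000000000000000000000000) := T_26 (nat_lit 194) (nat_lit 160) (nat_lit 6) (nat_lit 7) (nat_lit 11) L74994 (by decide +kernel)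
theorem L74996 : W_26 (nat_lit 6) (nat_lit 0xf00000001800080000000000000000000000000000000) (nat_lit 0x0) (nat_lit 0x3700000001c000400060000000000000000000000000000000) := T_26 (nat_lit 159) (nat_lit 158) (nat_lit 0) (nat_lit 9) (nat_lit 10) L74995 (by decide +kernel)
theorem L74997 : W_26 (nat_lit 5) (nat_lit 0x10000f00040001800080000000000000000000000000000000) (nat_lit 0x0) (nat_lit 0x300000000c000600150000000000000000000000000000000) := T_26 (nat_lit 159) (nat_lit 158) (nat_lit 0) (nat_lit 9) (nat_lit 10) L65707 (by decide +kernel)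
theorem L74998 : W_26 (nat_lit 6) (nat_lit 0xf00040001800080000000000000000000000000000000) (nat_lit 0x0) (nat_lit 0x3300000000c000600150000000000000000000000000000000) := T_26 (nat_lit 196) (nat_lit 197) (nat_lit 3) (nat_lit 6) (nat_lit 10) L74997 (by decide +kernel)
theorem L74999 : W_26 (nat_lit 7) (nat_lit 0xf00000001800080000000000000000000000000000000) (nat_lit 0x0) (nat_lit 0x330000000cc000600150000000000000000000000000000000) := T_26 (nat_lit 162) (nat_lit 163) (nat_lit 2) (nat_lit 6) (nat_lit 10) L74998 (by decide +kernel)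
theorem L75000 : W_26 (nat_lit 2) (nat_lit 0x16000f00048001c00080000000000000000000000000000000) (nat_lit 0x0) (nat_lit 0x200110000000000000000000000000000000) := D_26 (nat_lit 141) (nat_lit 124) (nat_lit 128) (nat_lit 4) (nat_lit 6) (nat_lit 11) (nat_lit 2) (nat_lit 5) (nat_lit 8) (by decide +kernel)
theorem L75001 : W_26 (nat_lit 3) (nat_lit 0x16000f00048001800080000000000000000000000000000000) (nat_lit 0x0) (nat_lit 0x600130000000000000000000000000000000) := T_26 (nat_lit 142) (nat_lit 125) (nat_lit 7) (nat_lit 6) (nat_lit 7) L75000 (by decide +kernel)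
theorem L75002 : W_26 (nat_lit 4) (nat_lit 0x16000f00040001800080000000000000000000000000000000) (nat_lit 0x0) (nat_lit 0xc000600130000000000000000000000000000000) := T_26 (nat_lit 159) (nat_lit 158) (nat_lit 0) (nat_lit 9) (nat_lit 10) L75001 (by decide +kernel)
theorem L75003 : W_26 (nat_lit 5) (nat_lit 0x6000f00040001800080000000000000000000000000000000) (nat_lit 0x0) (nat_lit 0x3000000000c000600130000000000000000000000000000000) := T_26 (nat_lit 196) (nat_lit 197) (nat_lit 3) (nat_lit 6) (nat_lit 10) L75002 (by decide +kernel)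
theorem L75004 : W_26 (nat_lit 6) (nat_lit 0x6000f00000001800080000000000000000000000000000000) (nat_lit 0x0) (nat_lit 0x300000000cc000600130000000000000000000000000000000) := T_26 (nat_lit 162) (nat_lit 163) (nat_lit 2) (nat_lit 6) (nat_lit 10) L75003 (by decide +kernel)
theorem L75005 : W_26 (nat_lit 7) (nat_lit 0x4000f00000001800080000000000000000000000000000000) (nat_lit 0x0) (nat_lit 0x330000000cc000600130000000000000000000000000000000) := T_26 (nat_lit 193) (nat_lit 192) (nat_lit 1) (nat_lit 9) (nat_lit 10) L75004 (by decide +kernel)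
theorem L75006 : W_26 (nat_lit 8) (nat_lit 0xf00000001800080000000000000000000000000000000) (nat_lit 0x0) (nat_lit 0x370000000dc000600130000000000000000000000000000000) := T_26 (nat_lit 194) (nat_lit 160) (nat_lit 6) (nat_lit 7) (nat_lit 11) L75005 (by decide +kernel)
theorem L75007 : W_26 (nat_lit 2) (nat_lit 0x14000f00048001f00080000000000000000000000000000000) (nat_lit 0x0) (nat_lit 0x1c000000000000000000000000000000) := D_26 (nat_lit 123) (nat_lit 124) (nat_lit 122) (nat_lit 0) (nat_lit 8) (nat_lit 8) (nat_lit 0) (nat_lit 7) (nat_lit 8) (by decide +kernel)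
theorem L75008 : W_26 (nat_lit 3) (nat_lit 0x14000f00048001e00080000000000000000000000000000000) (nat_lit 0x0) (nat_lit 0x10005c000000000000000000000000000000) := T_26 (nat_lit 140) (nat_lit 126) (nat_lit 2) (nat_lit 4) (nat_lit 8) L75007 (by decide +kernel)
theorem L75009 : W_26 (nat_lit 4) (nat_lit 0x14000f00048001c00080000000000000000000000000000000) (nat_lit 0x0) (nat_lit 0x30015c000000000000000000000000000000) := T_26 (nat_lit 141) (nat_lit 128) (nat_lit 2) (nat_lit 5) (nat_lit 8) L75008 (by decide +kernel)
theorem L75010 : W_26 (nat_lit 5) (nat_lit 0x4000f00048001c00080000000000000000000000000000000) (nat_lit 0x0) (nat_lit 0x3000000000000030015c000000000000000000000000000000) := T_26 (nat_lit 196) (nat_lit 197) (nat_lit 3) (nat_lit 6) (nat_lit 10) L75009 (by decide +kernel)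
theorem L75011 : W_26 (nat_lit 6) (nat_lit 0x4000f00048001800080000000000000000000000000000000) (nat_lit 0x0) (nat_lit 0x3000000000000070017c000000000000000000000000000000) := T_26 (nat_lit 142) (nat_lit 125) (nat_lit 7) (nat_lit 6) (nat_lit 7) L75010 (by decide +kernel)
theorem L75012 : W_26 (nat_lit 7) (nat_lit 0x4000f00008001800080000000000000000000000000000000) (nat_lit 0x0) (nat_lit 0x300000000c000070017c000000000000000000000000000000) := T_26 (nat_lit 162) (nat_lit 163) (nat_lit 2) (nat_lit 6) (nat_lit 10) L75011 (by decide +kernel)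
theorem L75013 : W_26 (nat_lit 8) (nat_lit 0xf00008001800080000000000000000000000000000000) (nat_lit 0x0) (nat_lit 0x340000000d000070017c000000000000000000000000000000) := T_26 (nat_lit 194) (nat_lit 160) (nat_lit 6) (nat_lit 7) (nat_lit 11) L75012 (by decide +kernel)
theorem L75014 : W_26 (nat_lit 9) (nat_lit 0xf00000001800080000000000000000000000000000000) (nat_lit 0x0) (nat_lit 0x340000000dc00070017c000000000000000000000000000000) := T_26 (nat_lit 159) (nat_lit 158) (nat_lit 0) (nat_lit 9) (nat_lit 10) L75013 (by decide +kernel)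
theorem L75015 : W_26 (nat_lit 10) (nat_lit 0xf00000001000080000000000000000000000000000000) (nat_lit 0x0) (nat_lit 0x370000000dc000f0017c000000000000000000000000000000) := Q_26 (nat_lit 143) (C_26 L74996 (C_26 L74999 (C_26 L74372 (C_26 L75006 (C_26 L75014 N_26))))) (by decide +kernel)
theorem L75016 : W_26 (nat_lit 11) (nat_lit 0xe00000001000080000000000000000000000000000000) (nat_lit 0x0) (nat_lit 0x3f8001800de000f0017c000000000000000000000000000000) := Q_26 (nat_lit 176) (C_26 L75015 (C_26 L4774 (C_26 L4771 (C_26 L11439 N_26)))) (by decide +kernel)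
theorem L75017 : W_26 (nat_lit 6) (nat_lit 0xe00000001000080000000000000000000000000000000) (nat_lit 0x0) (nat_lit 0x3b8011801de000000000000000000000000000000000000000) := Q_26 (nat_lit 176) (C_26 L5626 (C_26 L11439 (C_26 L4774 (C_26 L4771 N_26)))) (by decide +kernel)
theorem L75018 : W_26 (nat_lit 3) (nat_lit 0x16000f00048001400080000000000000000000000000000000) (nat_lit 0x0) (nat_lit 0xa00150000000000000000000000000000000) := T_26 (nat_lit 143) (nat_lit 126) (nat_lit 6) (nat_lit 6) (nat_lit 11) L75000 (by decide +kernel)
theorem L75019 : W_26 (nat_lit 4) (nat_lit 0x16000f00048001000080000000000000000000000000000000) (nat_lit 0x0) (nat_lit 0xe00170000000000000000000000000000000) := T_26 (nat_lit 142) (nat_lit 125) (nat_lit 7) (nat_lit 6) (nat_lit 7) L75018 (by decide +kernel)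
theorem L75020 : W_26 (nat_lit 5) (nat_lit 0x12000f00048001000080000000000000000000000000000000) (nat_lit 0x0) (nat_lit 0x4001000000000e00170000000000000000000000000000000) := T_26 (nat_lit 194) (nat_lit 180) (nat_lit 1) (nat_lit 10) (nat_lit 10) L75019 (by decide +kernel)
theorem L75021 : W_26 (nat_lit 6) (nat_lit 0x10000f00048001000080000000000000000000000000000000) (nat_lit 0x0) (nat_lit 0x7001000000000e00170000000000000000000000000000000) := T_26 (nat_lit 193) (nat_lit 192) (nat_lit 1) (nat_lit 9) (nat_lit 10) L75020 (by decide +kernel)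
theorem L75022 : W_26 (nat_lit 7) (nat_lit 0x10000f00008001000080000000000000000000000000000000) (nat_lit 0x0) (nat_lit 0x70010000c0000e00170000000000000000000000000000000) := T_26 (nat_lit 162) (nat_lit 163) (nat_lit 2) (nat_lit 6) (nat_lit 10) L75021 (by decide +kernel)
theorem L75023 : W_26 (nat_lit 8) (nat_lit 0xf00008001000080000000000000000000000000000000) (nat_lit 0x0) (nat_lit 0x370010000c0000e00170000000000000000000000000000000) := T_26 (nat_lit 196) (nat_lit 197) (nat_lit 3) (nat_lit 6) (nat_lit 10) L75022 (by decide +kernel)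
theorem L75024 : W_26 (nat_lit 9) (nat_lit 0xf00000001000080000000000000000000000000000000) (nat_lit 0x0) (nat_lit 0x370010000cc000e00170000000000000000000000000000000) := T_26 (nat_lit 159) (nat_lit 158) (nat_lit 0) (nat_lit 9) (nat_lit 10) L75023 (by decide +kernel)
theorem L75025 : W_26 (nat_lit 10) (nat_lit 0xe00000001000080000000000000000000000000000000) (nat_lit 0x0) (nat_lit 0x3f8011800ce000e00170000000000000000000000000000000) := Q_26 (nat_lit 176) (C_26 L75024 (C_26 L11439 (C_26 L4774 (C_26 L4771 N_26)))) (by decide +kernel)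
theorem L75026 : W_26 (nat_lit 2) (nat_lit 0x12001f00000001000080000000000000000000000000000000) (nat_lit 0x0) (nat_lit 0x1c0000000000000000000000000000000000000000) := D_26 (nat_lit 163) (nat_lit 162) (nat_lit 164) (nat_lit 2) (nat_lit 6) (nat_lit 10) (nat_lit 2) (nat_lit 7) (nat_lit 10) (by decide +kernel)
theorem L75027 : W_26 (nat_lit 3) (nat_lit 0x12000f00000001000080000000000000000000000000000000) (nat_lit 0x0) (nat_lit 0x40010001c0000000000000000000000000000000000000000) := T_26 (nat_lit 180) (nat_lit 194) (nat_lit 1) (nat_lit 10) (nat_lit 10) L75026 (by decide +kernel)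
theorem L75028 : W_26 (nat_lit 4) (nat_lit 0x2000f00000001000080000000000000000000000000000000) (nat_lit 0x0) (nat_lit 0x340010001c0000000000000000000000000000000000000000) := T_26 (nat_lit 196) (nat_lit 197) (nat_lit 3) (nat_lit 6) (nat_lit 10) L75027 (by decide +kernel)
theorem L75029 : W_26 (nat_lit 5) (nat_lit 0xf00000001000080000000000000000000000000000000) (nat_lit 0x0) (nat_lit 0x370010001c0000000000000000000000000000000000000000) := T_26 (nat_lit 193) (nat_lit 192) (nat_lit 1) (nat_lit 9) (nat_lit 10) L75028 (by decide +kernel)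
theorem L75030 : W_26 (nat_lit 2) (nat_lit 0x2000f00048001000080000000000000000000000000000000) (nat_lit 0x0) (nat_lit 0x4001000010000000000000000000000000000000000000000) := D_26 (nat_lit 180) (nat_lit 160) (nat_lit 194) (nat_lit 0) (nat_lit 10) (nat_lit 10) (nat_lit 1) (nat_lit 10) (nat_lit 10) (by decide +kernel)
theorem L75031 : W_26 (nat_lit 3) (nat_lit 0xf00048001000080000000000000000000000000000000) (nat_lit 0x0) (nat_lit 0x7001000010000000000000000000000000000000000000000) := T_26 (nat_lit 193) (nat_lit 192) (nat_lit 1) (nat_lit 9) (nat_lit 10) L75030 (by decide +kernel)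
theorem L75032 : W_26 (nat_lit 4) (nat_lit 0xf00040001000080000000000000000000000000000000) (nat_lit 0x0) (nat_lit 0x700100001c000000000000000000000000000000000000000) := T_26 (nat_lit 159) (nat_lit 158) (nat_lit 0) (nat_lit 9) (nat_lit 10) L75031 (by decide +kernel)
theorem L75033 : W_26 (nat_lit 5) (nat_lit 0xf00000001000080000000000000000000000000000000) (nat_lit 0x0) (nat_lit 0x70010000dc000000000000000000000000000000000000000) := T_26 (nat_lit 162) (nat_lit 163) (nat_lit 2) (nat_lit 6) (nat_lit 10) L75032 (by decide +kernel)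
theorem L75034 : W_26 (nat_lit 11) (nat_lit 0xe00000001000080000000000000000000000000000000) (nat_lit 0x0) (nat_lit 0x370011001dc000f0017c000000000000000000000000000000) := Q_26 (nat_lit 176) (C_26 L75015 (C_26 L75024 (C_26 L5626 (C_26 L4838 (C_26 L75029 (C_26 L75033 N_26)))))) (by decide +kernel)
theorem L75035 : W_26 (nat_lit 5) (nat_lit 0x20001e00000001000080000000000000000000000000000000) (nat_lit 0x0) (nat_lit 0xe002000398000000000000000000000000000000000000000) := T_26 (nat_lit 160) (nat_lit 159) (nat_lit 0) (nat_lit 10) (nat_lit 10) L8707 (by decide +kernel)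
theorem L75036 : W_26 (nat_lit 6) (nat_lit 0x1e00000001000080000000000000000000000000000000) (nat_lit 0x0) (nat_lit 0x6e002000398000000000000000000000000000000000000000) := T_26 (nat_lit 197) (nat_lit 198) (nat_lit 3) (nat_lit 7) (nat_lit 10) L75035 (by decide +kernel)
theorem L75037 : W_26 (nat_lit 2) (nat_lit 0x44001e00080001000080000000000000000000000000000000) (nat_lit 0x0) (nat_lit 0x88002000000000000000000000000000000000000000000000) := D_26 (nat_lit 181) (nat_lit 199) (nat_lit 195) (nat_lit 3) (nat_lit 8) (nat_lit 10) (nat_lit 1) (nat_lit 11) (nat_lit 10) (by decide +kernel)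
theorem L75038 : W_26 (nat_lit 3) (nat_lit 0x40001e00080001000080000000000000000000000000000000) (nat_lit 0x0) (nat_lit 0x8e002000000000000000000000000000000000000000000000) := T_26 (nat_lit 194) (nat_lit 193) (nat_lit 1) (nat_lit 10) (nat_lit 10) L75037 (by decide +kernel)
theorem L75039 : W_26 (nat_lit 4) (nat_lit 0x1e00080001000080000000000000000000000000000000) (nat_lit 0x0) (nat_lit 0xee002000000000000000000000000000000000000000000000) := T_26 (nat_lit 198) (nat_lit 197) (nat_lit 3) (nat_lit 7) (nat_lit 10) L75038 (by decide +kernel)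
theorem L75040 : W_26 (nat_lit 5) (nat_lit 0x1e00000001000080000000000000000000000000000000) (nat_lit 0x0) (nat_lit 0xee002000180000000000000000000000000000000000000000) := T_26 (nat_lit 163) (nat_lit 164) (nat_lit 2) (nat_lit 7) (nat_lit 10) L75039 (by decide +kernel)
theorem L75041 : W_26 (nat_lit 7) (nat_lit 0xe00000001000080000000000000000000000000000000) (nat_lit 0x0) (nat_lit 0xee003000398000800000000000000000000000000000000000) := Q_26 (nat_lit 180) (C_26 L4777 (C_26 L75036 (C_26 L75040 (C_26 L4789 N_26)))) (by decide +kernel)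
theorem L75042 : W_26 (nat_lit 6) (nat_lit 0xe00000001000080000000000000000000000000000000) (nat_lit 0x0) (nat_lit 0x3f80118001e000000000000000000000000000000000000000) := Q_26 (nat_lit 176) (C_26 L4838 (C_26 L11439 (C_26 L4774 (C_26 L5793 N_26)))) (by decide +kernel)
theorem L75043 : W_26 (nat_lit 4) (nat_lit 0x3c001e00010001000080000000000000000000000000000000) (nat_lit 0x0) (nat_lit 0x10000a000d00000000000040000000000000000000000000000000000000000) := T_26 (nat_lit 229) (nat_lit 212) (nat_lit 4) (nat_lit 8) (nat_lit 13) L11219 (by decide +kernel)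
theorem L75044 : W_26 (nat_lit 5) (nat_lit 0x34001e00010001000080000000000000000000000000000000) (nat_lit 0x0) (nat_lit 0x10000a000d00008002000040000000000000000000000000000000000000000) := T_26 (nat_lit 195) (nat_lit 181) (nat_lit 2) (nat_lit 7) (nat_lit 11) L75043 (by decide +kernel)
theorem L75045 : W_26 (nat_lit 6) (nat_lit 0x34001e00000001000080000000000000000000000000000000) (nat_lit 0x0) (nat_lit 0x10000a000d00008002000050000800000000000000000000000000000000000) := T_26 (nat_lit 160) (nat_lit 143) (nat_lit 6) (nat_lit 7) (nat_lit 11) L75044 (by decide +kernel)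
theorem L75046 : W_26 (nat_lit 7) (nat_lit 0x24001e00000001000080000000000000000000000000000000) (nat_lit 0x0) (nat_lit 0x10000a000d00018002100050000800000000000000000000000000000000000) := T_26 (nat_lit 196) (nat_lit 176) (nat_lit 3) (nat_lit 6) (nat_lit 10) L75045 (by decide +kernel)
theorem L75047 : W_26 (nat_lit 8) (nat_lit 0x4001e00000001000080000000000000000000000000000000) (nat_lit 0x0) (nat_lit 0x10000a000d00078002100050000800000000000000000000000000000000000) := T_26 (nat_lit 197) (nat_lit 198) (nat_lit 3) (nat_lit 7) (nat_lit 10) L75046 (by decide +kernel)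
theorem L75048 : W_26 (nat_lit 9) (nat_lit 0x1e00000001000080000000000000000000000000000000) (nat_lit 0x0) (nat_lit 0x10000a000d0007e002100050000800000000000000000000000000000000000) := T_26 (nat_lit 194) (nat_lit 193) (nat_lit 1) (nat_lit 10) (nat_lit 10) L75047 (by decide +kernel)
theorem L75049 : W_26 (nat_lit 10) (nat_lit 0xe00000001000080000000000000000000000000000000) (nat_lit 0x0) (nat_lit 0x10000a000d000ff0031003d0000800000000000000000000000000000000000) := Q_26 (nat_lit 180) (C_26 L4789 (C_26 L75048 (C_26 L5620 N_26))) (by decide +kernel)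
theorem L75053 : W_26 (nat_lit 14) (nat_lit 0xe00000001000080000000000000000000000000000000) (nat_lit 0x0) (nat_lit 0xfc0031c03d8000f00778039c00000000000000000000000000) := Q_26 (nat_lit 180) (C_26 L4789 (C_26 L75052 (C_26 L4813 N_26))) (by decide +kernel)
theorem L75054 : W_26 (nat_lit 2) (nat_lit 0x9000f80042001000080000000000000000000000000000000) (nat_lit 0x0) (nat_lit 0x4000040001000000000000000000000000000000000000000) := D_26 (nat_lit 174) (nat_lit 194) (nat_lit 156) (nat_lit 3) (nat_lit 4) (nat_lit 10) (nat_lit 0) (nat_lit 7) (nat_lit 10) (by decide +kernel)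
theorem L75055 : W_26 (nat_lit 3) (nat_lit 0x1000f80042001000080000000000000000000000000000000) (nat_lit 0x0) (nat_lit 0x1c000040001000000000000000000000000000000000000000) := T_26 (nat_lit 195) (nat_lit 196) (nat_lit 3) (nat_lit 5) (nat_lit 10) L75054 (by decide +kernel)
theorem L75056 : W_26 (nat_lit 4) (nat_lit 0x1000f80040001000080000000000000000000000000000000) (nat_lit 0x0) (nat_lit 0x1c000040007000000000000000000000000000000000000000) := T_26 (nat_lit 157) (nat_lit 158) (nat_lit 0) (nat_lit 8) (nat_lit 10) L75055 (by decide +kernel)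
theorem L75057 : W_26 (nat_lit 5) (nat_lit 0x1000f00040001000080000000000000000000000000000000) (nat_lit 0x0) (nat_lit 0x1c8000c0007000000000000000000000000000000000000000) := T_26 (nat_lit 175) (nat_lit 191) (nat_lit 1) (nat_lit 8) (nat_lit 10) L75056 (by decide +kernel)
theorem L75058 : W_26 (nat_lit 6) (nat_lit 0xf00040001000080000000000000000000000000000000) (nat_lit 0x0) (nat_lit 0x1f8000c0007000000000000000000000000000000000000000) := T_26 (nat_lit 192) (nat_lit 193) (nat_lit 1) (nat_lit 9) (nat_lit 10) L75057 (by decide +kernel)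
theorem L75059 : W_26 (nat_lit 7) (nat_lit 0xf00000001000080000000000000000000000000000000) (nat_lit 0x0) (nat_lit 0x1f8000c00c7000000000000000000000000000000000000000) := T_26 (nat_lit 162) (nat_lit 163) (nat_lit 2) (nat_lit 6) (nat_lit 10) L75058 (by decide +kernel)
theorem L75060 : W_26 (nat_lit 8) (nat_lit 0xe00000001000080000000000000000000000000000000) (nat_lit 0x0) (nat_lit 0x1f8011c01df000800040002000000000000000000000000000) := Q_26 (nat_lit 176) (C_26 L5793 (C_26 L4771 (C_26 L75059 (C_26 L5784 (C_26 L4847 N_26))))) (by decide +kernel)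
theorem L75061 : W_26 (nat_lit 15) (nat_lit 0x600000001000080000000000000000000000000000000) (nat_lit 0x0) (nat_lit 0x10000a000d000ff8039c03df000f0077c03bc00000000000000000000000000) := Q_26 (nat_lit 179) (C_26 L75016 (C_26 L75017 (C_26 L75025 (C_26 L75034 (C_26 L75041 (C_26 L75042 (C_26 L75049 (C_26 L75053 (C_26 L75060 N_26))))))))) (by decide +kernel)
theorem L75062 : W_26 (nat_lit 12) (nat_lit 0x600000001000080000000000000000000000000000000) (nat_lit 0x0) (nat_lit 0x1a000f0007f8039801fe000000000000000000000000000000000000000) := Q_26 (nat_lit 179) (C_26 L4870 (C_26 L75042 (C_26 L4892 (C_26 L75017 N_26)))) (by decide +kernel)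
theorem L75063 : W_26 (nat_lit 2) (nat_lit 0x42001f001280010001c0000000000000000000000000000000) (nat_lit 0x0) (nat_lit 0x80002000200000000000000000000000000000000000000000) := D_26 (nat_lit 181) (nat_lit 165) (nat_lit 199) (nat_lit 2) (nat_lit 8) (nat_lit 10) (nat_lit 3) (nat_lit 8) (nat_lit 10) (by decide +kernel)
theorem L75064 : W_26 (nat_lit 3) (nat_lit 0x2001f001280010001c0000000000000000000000000000000) (nat_lit 0x0) (nat_lit 0xe0002000200000000000000000000000000000000000000000) := T_26 (nat_lit 198) (nat_lit 197) (nat_lit 3) (nat_lit 7) (nat_lit 10) L75063 (by decide +kernel)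
theorem L75065 : W_26 (nat_lit 4) (nat_lit 0x2001f000280010001c0000000000000000000000000000000) (nat_lit 0x0) (nat_lit 0xe0002000380000000000000000000000000000000000000000) := T_26 (nat_lit 164) (nat_lit 163) (nat_lit 2) (nat_lit 7) (nat_lit 10) L75064 (by decide +kernel)
theorem L75066 : W_26 (nat_lit 5) (nat_lit 0x2001f000280010000c0000000000000000000000000000000) (nat_lit 0x0) (nat_lit 0xe0002000380000000100008000000000000000000000000000) := T_26 (nat_lit 128) (nat_lit 111) (nat_lit 6) (nat_lit 8) (nat_lit 10) L75065 (by decide +kernel)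
theorem L75067 : W_26 (nat_lit 6) (nat_lit 0x2000f000280010000c0000000000000000000000000000000) (nat_lit 0x0) (nat_lit 0xe0003000390000000100008000000000000000000000000000) := T_26 (nat_lit 180) (nat_lit 160) (nat_lit 0) (nat_lit 10) (nat_lit 10) L75066 (by decide +kernel)
theorem L75068 : W_26 (nat_lit 7) (nat_lit 0x2000f00028001000080000000000000000000000000000000) (nat_lit 0x0) (nat_lit 0xe000300039000000014000a000000000000000000000000000) := T_26 (nat_lit 126) (nat_lit 109) (nat_lit 4) (nat_lit 8) (nat_lit 10) L75067 (by decide +kernel)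
theorem L75069 : W_26 (nat_lit 8) (nat_lit 0x2000f00020001000080000000000000000000000000000000) (nat_lit 0x0) (nat_lit 0xe000300039c00000014000a000000000000000000000000000) := T_26 (nat_lit 159) (nat_lit 158) (nat_lit 0) (nat_lit 9) (nat_lit 10) L75068 (by decide +kernel)
theorem L75070 : W_26 (nat_lit 9) (nat_lit 0xf00020001000080000000000000000000000000000000) (nat_lit 0x0) (nat_lit 0xe300300039c00000014000a000000000000000000000000000) := T_26 (nat_lit 193) (nat_lit 192) (nat_lit 1) (nat_lit 9) (nat_lit 10) L75069 (by decide +kernel)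
theorem L75071 : W_26 (nat_lit 10) (nat_lit 0x700020001000080000000000000000000000000000000) (nat_lit 0x0) (nat_lit 0xf300380039c00000014000a000000000000000000000000000) := T_26 (nat_lit 179) (nat_lit 196) (nat_lit 7) (nat_lit 8) (nat_lit 7) L75070 (by decide +kernel)
theorem L75072 : W_26 (nat_lit 11) (nat_lit 0x600020001000080000000000000000000000000000000) (nat_lit 0x0) (nat_lit 0xfbc079c03dc00000014000a000000000000000000000000000) := Q_26 (nat_lit 176) (C_26 L5983 (C_26 L4935 (C_26 L11466 (C_26 L4938 (C_26 L75071 N_26))))) (by decide +kernel)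
theorem L75073 : W_26 (nat_lit 16) (nat_lit 0x600020001000080000000000000000000000000000000) (nat_lit 0x0) (nat_lit 0x100008000fbc079c01dc03c800f000e8000000000000000000000000000) := Q_26 (nat_lit 176) (C_26 L5699 (C_26 L11466 (C_26 L4938 (C_26 L5990 N_26)))) (by decide +kernel)
theorem L75075 : W_26 (nat_lit 3) (nat_lit 0x600060001800180000000000000000000000000000000) (nat_lit 0x0) (nat_lit 0x600640000000000000000000000000000000) := T_26 (nat_lit 142) (nat_lit 141) (nat_lit 3) (nat_lit 5) (nat_lit 8) L75074 (by decide +kernel)
theorem L75076 : W_26 (nat_lit 4) (nat_lit 0x600060001800080000000000000000000000000000000) (nat_lit 0x0) (nat_lit 0x600740008000000000000000000000000000) := T_26 (nat_lit 128) (nat_lit 111) (nat_lit 6) (nat_lit 8) (nat_lit 10) L75075 (by decide +kernel)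
theorem L75080 : W_26 (nat_lit 5) (nat_lit 0x6000e00018000c0000000000000000000000000000000) (nat_lit 0x0) (nat_lit 0x10000800000004000700038000000000000000000000000000) := T_26 (nat_lit 179) (nat_lit 196) (nat_lit 7) (nat_lit 8) (nat_lit 7) L75079 (by decide +kernel)
theorem L75081 : W_26 (nat_lit 6) (nat_lit 0x6000e0001800080000000000000000000000000000000) (nat_lit 0x0) (nat_lit 0x1000080000000400074003a000000000000000000000000000) := T_26 (nat_lit 126) (nat_lit 109) (nat_lit 4) (nat_lit 8) (nat_lit 10) L75080 (by decide +kernel)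
theorem L75082 : W_26 (nat_lit 7) (nat_lit 0x600060001800080000000000000000000000000000000) (nat_lit 0x0) (nat_lit 0x1000080018000400074003a000000000000000000000000000) := T_26 (nat_lit 163) (nat_lit 164) (nat_lit 1) (nat_lit 11) (nat_lit 9) L75081 (by decide +kernel)
theorem L75083 : W_26 (nat_lit 8) (nat_lit 0x600060001000080000000000000000000000000000000) (nat_lit 0x0) (nat_lit 0x10000800190004e0074003a000000000000000000000000000) := Q_26 (nat_lit 143) (C_26 L75076 (C_26 L67391 (C_26 L75082 N_26))) (by decide +kernel)
theorem L75084 : W_26 (nat_lit 2) (nat_lit 0x700060001000180000000000000000000000000000000) (nat_lit 0x0) (nat_lit 0x10000800080000000000000000000000000000000000000000) := D_26 (nat_lit 179) (nat_lit 196) (nat_lit 163) (nat_lit 7) (nat_lit 8) (nat_lit 7) (nat_lit 2) (nat_lit 6) (nat_lit 10) (by decide +kernel)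
theorem L75085 : W_26 (nat_lit 3) (nat_lit 0x600060001000180000000000000000000000000000000) (nat_lit 0x0) (nat_lit 0x10000980080000000000000000000000000000000000000000) := T_26 (nat_lit 176) (nat_lit 175) (nat_lit 2) (nat_lit 5) (nat_lit 10) L75084 (by decide +kernel)
theorem L75086 : W_26 (nat_lit 4) (nat_lit 0x600060001000080000000000000000000000000000000) (nat_lit 0x0) (nat_lit 0x10000980080000000100008000000000000000000000000000) := T_26 (nat_lit 128) (nat_lit 111) (nat_lit 6) (nat_lit 8) (nat_lit 10) L75085 (by decide +kernel)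
theorem L75087 : W_26 (nat_lit 8) (nat_lit 0xf00060001000080000000000000000000000000000000) (nat_lit 0x0) (nat_lit 0xe300700001c00000014000a000000000000000000000000000) := T_26 (nat_lit 126) (nat_lit 109) (nat_lit 4) (nat_lit 8) (nat_lit 10) L5980 (by decide +kernel)
theorem L75088 : W_26 (nat_lit 9) (nat_lit 0xe00060001000080000000000000000000000000000000) (nat_lit 0x0) (nat_lit 0xe300718001c00000014000a000000000000000000000000000) := T_26 (nat_lit 176) (nat_lit 175) (nat_lit 2) (nat_lit 5) (nat_lit 10) L75087 (by decide +kernel)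
theorem L75089 : W_26 (nat_lit 10) (nat_lit 0x600060001000080000000000000000000000000000000) (nat_lit 0x0) (nat_lit 0xf300798001c00000014000a000000000000000000000000000) := T_26 (nat_lit 179) (nat_lit 196) (nat_lit 7) (nat_lit 8) (nat_lit 7) L75088 (by decide +kernel)
theorem L75090 : W_26 (nat_lit 11) (nat_lit 0x600020001000080000000000000000000000000000000) (nat_lit 0x0) (nat_lit 0xf30079801dc004e0074003a000000000000000000000000000) := Q_26 (nat_lit 162) (C_26 L75083 (C_26 L75086 (C_26 L4922 (C_26 L2072 (C_26 L75089 N_26))))) (by decide +kernel)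
theorem L75091 : W_26 (nat_lit 17) (nat_lit 0x600000001000080000000000000000000000000000000) (nat_lit 0x0) (nat_lit 0x10000a000fbc079c03fc03ce00f400fa000000000000000000000000000) := Q_26 (nat_lit 161) (C_26 L75072 (C_26 L4895 (C_26 L994 (C_26 L75073 (C_26 L75090 N_26))))) (by decide +kernel)
theorem L75092 : W_26 (nat_lit 12) (nat_lit 0x600000001000080000000000000000000000000000000) (nat_lit 0x0) (nat_lit 0xf70079801fc004e0074003a000000000000000000000000000) := T_26 (nat_lit 161) (nat_lit 194) (nat_lit 5) (nat_lit 8) (nat_lit 7) L75090 (by decide +kernel)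
theorem L75093 : W_26 (nat_lit 18) (nat_lit 0x200000001000080000000000000000000000000000000) (nat_lit 0x0) (nat_lit 0x10001a000f000ffc07dc03ff03cf00f7c0fbc00000000000000000000000000) := Q_26 (nat_lit 178) (C_26 L75061 (C_26 L75062 (C_26 L4869 (C_26 L4896 (C_26 L75091 (C_26 L75092 N_26)))))) (by decide +kernel)
theorem L75094 : W_26 (nat_lit 2) (nat_lit 0x6000f00008001800080000000000000000000000000000000) (nat_lit 0x0) (nat_lit 0x1000080000000000000000400000000000000000000000000000000000) := D_26 (nat_lit 211) (nat_lit 228) (nat_lit 142) (nat_lit 4) (nat_lit 7) (nat_lit 13) (nat_lit 7) (nat_lit 6) (nat_lit 8) (by decide +kernel)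
theorem L75095 : W_26 (nat_lit 3) (nat_lit 0x6000f00000001800080000000000000000000000000000000) (nat_lit 0x0) (nat_lit 0x100008000000000000c000400000000000000000000000000000000000) := T_26 (nat_lit 159) (nat_lit 158) (nat_lit 0) (nat_lit 9) (nat_lit 10) L75094 (by decide +kernel)
theorem L75096 : W_26 (nat_lit 4) (nat_lit 0x4000f00000001800080000000000000000000000000000000) (nat_lit 0x0) (nat_lit 0x100008000300000000c000400000000000000000000000000000000000) := T_26 (nat_lit 193) (nat_lit 192) (nat_lit 1) (nat_lit 9) (nat_lit 10) L75095 (by decide +kernel)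
theorem L75097 : W_26 (nat_lit 5) (nat_lit 0xf00000001800080000000000000000000000000000000) (nat_lit 0x0) (nat_lit 0x100008000700000001c000400000000000000000000000000000000000) := T_26 (nat_lit 194) (nat_lit 160) (nat_lit 6) (nat_lit 7) (nat_lit 11) L75096 (by decide +kernel)
theorem L75098 : W_26 (nat_lit 2) (nat_lit 0x1000000014000f00048001f00080000000000000000000000000000000) (nat_lit 0x0) (nat_lit 0x1c000000000000000000000000000000) := D_26 (nat_lit 123) (nat_lit 124) (nat_lit 122) (nat_lit 0) (nat_lit 8) (nat_lit 8) (nat_lit 0) (nat_lit 7) (nat_lit 8) (by decide +kernel)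
theorem L75099 : W_26 (nat_lit 3) (nat_lit 0x1000000014000f00048001e00080000000000000000000000000000000) (nat_lit 0x0) (nat_lit 0x10005c000000000000000000000000000000) := T_26 (nat_lit 140) (nat_lit 126) (nat_lit 2) (nat_lit 4) (nat_lit 8) L75098 (by decide +kernel)
theorem L75100 : W_26 (nat_lit 4) (nat_lit 0x1000000014000f00048001c00080000000000000000000000000000000) (nat_lit 0x0) (nat_lit 0x30015c000000000000000000000000000000) := T_26 (nat_lit 141) (nat_lit 128) (nat_lit 2) (nat_lit 5) (nat_lit 8) L75099 (by decide +kernel)
theorem L75101 : W_26 (nat_lit 5) (nat_lit 0x14000f00048001c00080000000000000000000000000000000) (nat_lit 0x0) (nat_lit 0x100008000000000000000030015c000000000000000000000000000000) := T_26 (nat_lit 228) (nat_lit 211) (nat_lit 4) (nat_lit 7) (nat_lit 13) L75100 (by decide +kernel)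
theorem L75102 : W_26 (nat_lit 6) (nat_lit 0x14000f00048001800080000000000000000000000000000000) (nat_lit 0x0) (nat_lit 0x100008000000000000000070017c000000000000000000000000000000) := T_26 (nat_lit 142) (nat_lit 125) (nat_lit 7) (nat_lit 6) (nat_lit 7) L75101 (by decide +kernel)
theorem L75103 : W_26 (nat_lit 7) (nat_lit 0x14000f00008001800080000000000000000000000000000000) (nat_lit 0x0) (nat_lit 0x10000800000000000c000070017c000000000000000000000000000000) := T_26 (nat_lit 162) (nat_lit 163) (nat_lit 2) (nat_lit 6) (nat_lit 10) L75102 (by decide +kernel)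
theorem L75104 : W_26 (nat_lit 8) (nat_lit 0x14000f00000001800080000000000000000000000000000000) (nat_lit 0x0) (nat_lit 0x10000800000000000cc00070017c000000000000000000000000000000) := T_26 (nat_lit 159) (nat_lit 158) (nat_lit 0) (nat_lit 9) (nat_lit 10) L75103 (by decide +kernel)
theorem L75105 : W_26 (nat_lit 9) (nat_lit 0x10000f00000001800080000000000000000000000000000000) (nat_lit 0x0) (nat_lit 0x10000800040000000dc00070017c000000000000000000000000000000) := T_26 (nat_lit 194) (nat_lit 160) (nat_lit 6) (nat_lit 7) (nat_lit 11) L75104 (by decide +kernel)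
theorem L75106 : W_26 (nat_lit 10) (nat_lit 0xf00000001800080000000000000000000000000000000) (nat_lit 0x0) (nat_lit 0x10000800340000000dc00070017c000000000000000000000000000000) := T_26 (nat_lit 196) (nat_lit 197) (nat_lit 3) (nat_lit 6) (nat_lit 10) L75105 (by decide +kernel)
theorem L75107 : W_26 (nat_lit 11) (nat_lit 0xf00000001000080000000000000000000000000000000) (nat_lit 0x0) (nat_lit 0x10000800370000000dc000f0017c000000000000000000000000000000) := Q_26 (nat_lit 143) (C_26 L65710 (C_26 L74372 (C_26 L75097 (C_26 L75106 N_26)))) (by decide +kernel)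
theorem L75108 : W_26 (nat_lit 2) (nat_lit 0x14800fc005a001000080000000000000000000000000000000) (nat_lit 0x0) (nat_lit 0x1000080000000000000000400000000000000000000000000000000000) := D_26 (nat_lit 211) (nat_lit 228) (nat_lit 142) (nat_lit 4) (nat_lit 7) (nat_lit 13) (nat_lit 4) (nat_lit 7) (nat_lit 12) (by decide +kernel)
theorem L75109 : W_26 (nat_lit 3) (nat_lit 0x10800fc005a001000080000000000000000000000000000000) (nat_lit 0x0) (nat_lit 0x1000080004000000000000c00000000000000000000000000000000000) := T_26 (nat_lit 194) (nat_lit 143) (nat_lit 6) (nat_lit 7) (nat_lit 11) L75108 (by decide +kernel)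
theorem L75110 : W_26 (nat_lit 4) (nat_lit 0x10800fc001a001000080000000000000000000000000000000) (nat_lit 0x0) (nat_lit 0x10000800040000000c0000c00000000000000000000000000000000000) := T_26 (nat_lit 162) (nat_lit 163) (nat_lit 2) (nat_lit 6) (nat_lit 10) L75109 (by decide +kernel)
theorem L75111 : W_26 (nat_lit 5) (nat_lit 0x10800fc000a001000080000000000000000000000000000000) (nat_lit 0x0) (nat_lit 0x10000800040000200d0000c00000000000000000000000000000000000) := T_26 (nat_lit 160) (nat_lit 173) (nat_lit 2) (nat_lit 3) (nat_lit 10) L75110 (by decide +kernel)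
theorem L75112 : W_26 (nat_lit 6) (nat_lit 0x10800fc0008001000080000000000000000000000000000000) (nat_lit 0x0) (nat_lit 0x10000800040000200d3000c00000000000000000000000000000000000) := T_26 (nat_lit 157) (nat_lit 156) (nat_lit 0) (nat_lit 7) (nat_lit 10) L75111 (by decide +kernel)
theorem L75113 : W_26 (nat_lit 7) (nat_lit 0x10800f80008001000080000000000000000000000000000000) (nat_lit 0x0) (nat_lit 0x10000800044000600d3000c00000000000000000000000000000000000) := T_26 (nat_lit 174) (nat_lit 190) (nat_lit 1) (nat_lit 7) (nat_lit 10) L75112 (by decide +kernel)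
theorem L75114 : W_26 (nat_lit 8) (nat_lit 0x10000f80008001000080000000000000000000000000000000) (nat_lit 0x0) (nat_lit 0x1000080005c000600d3000c00000000000000000000000000000000000) := T_26 (nat_lit 191) (nat_lit 192) (nat_lit 1) (nat_lit 8) (nat_lit 10) L75113 (by decide +kernel)
theorem L75115 : W_26 (nat_lit 9) (nat_lit 0x10000f00008001000080000000000000000000000000000000) (nat_lit 0x0) (nat_lit 0x100008000dc000e00d3000c00000000000000000000000000000000000) := T_26 (nat_lit 175) (nat_lit 195) (nat_lit 3) (nat_lit 5) (nat_lit 10) L75114 (by decide +kernel)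
theorem L75116 : W_26 (nat_lit 10) (nat_lit 0xf00008001000080000000000000000000000000000000) (nat_lit 0x0) (nat_lit 0x100008003dc000e00d3000c00000000000000000000000000000000000) := T_26 (nat_lit 196) (nat_lit 197) (nat_lit 3) (nat_lit 6) (nat_lit 10) L75115 (by decide +kernel)
theorem L75117 : W_26 (nat_lit 11) (nat_lit 0xf00000001000080000000000000000000000000000000) (nat_lit 0x0) (nat_lit 0x100008003dc000e00df000c00000000000000000000000000000000000) := T_26 (nat_lit 159) (nat_lit 158) (nat_lit 0) (nat_lit 9) (nat_lit 10) L75116 (by decide +kernel)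
theorem L75118 : W_26 (nat_lit 2) (nat_lit 0x10000f00044001000080000000000000000000000000000000) (nat_lit 0x0) (nat_lit 0x8000080002000000000000000000000000000000000000000) := D_26 (nat_lit 175) (nat_lit 195) (nat_lit 157) (nat_lit 3) (nat_lit 5) (nat_lit 10) (nat_lit 0) (nat_lit 8) (nat_lit 10) (by decide +kernel)
theorem L75119 : W_26 (nat_lit 3) (nat_lit 0xf00044001000080000000000000000000000000000000) (nat_lit 0x0) (nat_lit 0x38000080002000000000000000000000000000000000000000) := T_26 (nat_lit 196) (nat_lit 197) (nat_lit 3) (nat_lit 6) (nat_lit 10) L75118 (by decide +kernel)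
theorem L75120 : W_26 (nat_lit 4) (nat_lit 0xf00040001000080000000000000000000000000000000) (nat_lit 0x0) (nat_lit 0x3800008000e000000000000000000000000000000000000000) := T_26 (nat_lit 158) (nat_lit 159) (nat_lit 0) (nat_lit 9) (nat_lit 10) L75119 (by decide +kernel)
theorem L75121 : W_26 (nat_lit 5) (nat_lit 0xf00000001000080000000000000000000000000000000) (nat_lit 0x0) (nat_lit 0x380000800ce000000000000000000000000000000000000000) := T_26 (nat_lit 162) (nat_lit 163) (nat_lit 2) (nat_lit 6) (nat_lit 10) L75120 (by decide +kernel)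
theorem L75122 : W_26 (nat_lit 12) (nat_lit 0xe00000001000080000000000000000000000000000000) (nat_lit 0x0) (nat_lit 0x100008003fc001e00df000f0017c000000000000000000000000000000) := Q_26 (nat_lit 176) (C_26 L75107 (C_26 L72794 (C_26 L17085 (C_26 L75117 (C_26 L75121 (C_26 L4774 N_26)))))) (by decide +kernel)
theorem L75123 : W_26 (nat_lit 2) (nat_lit 0x44001e00080001000080000000000000000000000000000000) (nat_lit 0x0) (nat_lit 0x88002000000000000000000000000000000000000000000000) := D_26 (nat_lit 181) (nat_lit 195) (nat_lit 199) (nat_lit 1) (nat_lit 11) (nat_lit 10) (nat_lit 3) (nat_lit 8) (nat_lit 10) (by decide +kernel)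
theorem L75124 : W_26 (nat_lit 3) (nat_lit 0x4001e00080001000080000000000000000000000000000000) (nat_lit 0x0) (nat_lit 0xe8002000000000000000000000000000000000000000000000) := T_26 (nat_lit 198) (nat_lit 197) (nat_lit 3) (nat_lit 7) (nat_lit 10) L75123 (by decide +kernel)
theorem L75125 : W_26 (nat_lit 4) (nat_lit 0x1e00080001000080000000000000000000000000000000) (nat_lit 0x0) (nat_lit 0xee002000000000000000000000000000000000000000000000) := T_26 (nat_lit 194) (nat_lit 193) (nat_lit 1) (nat_lit 10) (nat_lit 10) L75124 (by decide +kernel)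
theorem L75126 : W_26 (nat_lit 5) (nat_lit 0x1e00000001000080000000000000000000000000000000) (nat_lit 0x0) (nat_lit 0xee002000180000000000000000000000000000000000000000) := T_26 (nat_lit 163) (nat_lit 164) (nat_lit 2) (nat_lit 7) (nat_lit 10) L75125 (by decide +kernel)
theorem L75127 : W_26 (nat_lit 6) (nat_lit 0xe00000001000080000000000000000000000000000000) (nat_lit 0x0) (nat_lit 0xee003000398000800000000000000000000000000000000000) := Q_26 (nat_lit 180) (C_26 L5613 (C_26 L75126 (C_26 L17014 N_26))) (by decide +kernel)
theorem L75128 : W_26 (nat_lit 6) (nat_lit 0xe00000001000080000000000000000000000000000000) (nat_lit 0x0) (nat_lit 0x3b8011801de000000000000000000000000000000000000000) := Q_26 (nat_lit 176) (C_26 L4774 (C_26 L17085 (C_26 L5626 N_26))) (by decide +kernel)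
theorem L75129 : W_26 (nat_lit 2) (nat_lit 0x16000f00048001000080000000000000000000000000000000) (nat_lit 0x0) (nat_lit 0x80000000000000000400020000000000000000000000000000000) := D_26 (nat_lit 142) (nat_lit 211) (nat_lit 125) (nat_lit 7) (nat_lit 6) (nat_lit 8) (nat_lit 7) (nat_lit 6) (nat_lit 7) (by decide +kernel)
theorem L75130 : W_26 (nat_lit 3) (nat_lit 0x12000f00048001000080000000000000000000000000000000) (nat_lit 0x0) (nat_lit 0x80004001000000000400020000000000000000000000000000000) := T_26 (nat_lit 194) (nat_lit 180) (nat_lit 1) (nat_lit 10) (nat_lit 10) L75129 (by decide +kernel)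
theorem L75131 : W_26 (nat_lit 4) (nat_lit 0x10000f00048001000080000000000000000000000000000000) (nat_lit 0x0) (nat_lit 0x80007001000000000400020000000000000000000000000000000) := T_26 (nat_lit 193) (nat_lit 192) (nat_lit 1) (nat_lit 9) (nat_lit 10) L75130 (by decide +kernel)
theorem L75132 : W_26 (nat_lit 5) (nat_lit 0x10000f00008001000080000000000000000000000000000000) (nat_lit 0x0) (nat_lit 0x800070010000c0000400020000000000000000000000000000000) := T_26 (nat_lit 162) (nat_lit 163) (nat_lit 2) (nat_lit 6) (nat_lit 10) L75131 (by decide +kernel)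
theorem L75133 : W_26 (nat_lit 6) (nat_lit 0xf00008001000080000000000000000000000000000000) (nat_lit 0x0) (nat_lit 0x800370010000c0000400020000000000000000000000000000000) := T_26 (nat_lit 196) (nat_lit 197) (nat_lit 3) (nat_lit 6) (nat_lit 10) L75132 (by decide +kernel)
theorem L75134 : W_26 (nat_lit 7) (nat_lit 0xf00000001000080000000000000000000000000000000) (nat_lit 0x0) (nat_lit 0x800370010000cc000400020000000000000000000000000000000) := T_26 (nat_lit 159) (nat_lit 158) (nat_lit 0) (nat_lit 9) (nat_lit 10) L75133 (by decide +kernel)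
theorem L75135 : W_26 (nat_lit 8) (nat_lit 0xe00000001000080000000000000000000000000000000) (nat_lit 0x0) (nat_lit 0x8003f8011800ce000400020000000000000000000000000000000) := Q_26 (nat_lit 176) (C_26 L4774 (C_26 L17085 (C_26 L75134 (C_26 L75121 N_26)))) (by decide +kernel)
theorem L75136 : W_26 (nat_lit 14) (nat_lit 0xe00000001000080000000000000000000000000000000) (nat_lit 0x0) (nat_lit 0xfc0031003dc000f00778039c00000000000000000000000000) := Q_26 (nat_lit 180) (C_26 L5613 (C_26 L5617 (C_26 L67293 (C_26 L75052 N_26)))) (by decide +kernel)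
theorem L75137 : W_26 (nat_lit 8) (nat_lit 0xe00000001000080000000000000000000000000000000) (nat_lit 0x0) (nat_lit 0x800378011801de000400020000000000000000000000000000000) := Q_26 (nat_lit 176) (C_26 L5626 (C_26 L75134 (C_26 L17085 (C_26 L4834 N_26)))) (by decide +kernel)
theorem L75138 : W_26 (nat_lit 10) (nat_lit 0xe00000001000080000000000000000000000000000000) (nat_lit 0x0) (nat_lit 0x100008000cc00fe0031c01d0000800000000000000000000000000000000000) := Q_26 (nat_lit 180) (C_26 L75126 (C_26 L5617 (C_26 L4857 (C_26 L4861 N_26)))) (by decide +kernel)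
theorem L75139 : W_26 (nat_lit 7) (nat_lit 0xe00000001000080000000000000000000000000000000) (nat_lit 0x0) (nat_lit 0x10000800078011801de000c00000000000000000000000000000000000) := Q_26 (nat_lit 176) (C_26 L17085 (C_26 L5635 (C_26 L5637 (C_26 L4847 N_26)))) (by decide +kernel)
theorem L75140 : W_26 (nat_lit 6) (nat_lit 0xe00000001000080000000000000000000000000000000) (nat_lit 0x0) (nat_lit 0x3f80118001e000000000000000000000000000000000000000) := Q_26 (nat_lit 176) (C_26 L4774 (C_26 L17085 (C_26 L4838 (C_26 L4767 N_26)))) (by decide +kernel)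
theorem L75141 : W_26 (nat_lit 15) (nat_lit 0x600000001000080000000000000000000000000000000) (nat_lit 0x0) (nat_lit 0x100009000cc00ffc039e03df000f0077c039c00000000000000000000000000) := Q_26 (nat_lit 179) (C_26 L75122 (C_26 L75127 (C_26 L75128 (C_26 L75135 (C_26 L75136 (C_26 L75137 (C_26 L75138 (C_26 L75139 (C_26 L75140 N_26))))))))) (by decide +kernel)
theorem L75142 : W_26 (nat_lit 2) (nat_lit 0x24001e00110001000080000000000000000000000000000000) (nat_lit 0x0) (nat_lit 0x8002000200000000000000000000000000000000000000000) := D_26 (nat_lit 181) (nat_lit 195) (nat_lit 165) (nat_lit 1) (nat_lit 11) (nat_lit 10) (nat_lit 2) (nat_lit 8) (nat_lit 10) (by decide +kernel)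
theorem L75143 : W_26 (nat_lit 3) (nat_lit 0x24001e00010001000080000000000000000000000000000000) (nat_lit 0x0) (nat_lit 0x8002000380000000000000000000000000000000000000000) := T_26 (nat_lit 164) (nat_lit 163) (nat_lit 2) (nat_lit 7) (nat_lit 10) L75142 (by decide +kernel)
theorem L75144 : W_26 (nat_lit 4) (nat_lit 0x4001e00010001000080000000000000000000000000000000) (nat_lit 0x0) (nat_lit 0x68002000380000000000000000000000000000000000000000) := T_26 (nat_lit 197) (nat_lit 198) (nat_lit 3) (nat_lit 7) (nat_lit 10) L75143 (by decide +kernel)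
theorem L75145 : W_26 (nat_lit 5) (nat_lit 0x4001e00000001000080000000000000000000000000000000) (nat_lit 0x0) (nat_lit 0x68002000398000000000000000000000000000000000000000) := T_26 (nat_lit 160) (nat_lit 159) (nat_lit 0) (nat_lit 10) (nat_lit 10) L75144 (by decide +kernel)
theorem L75146 : W_26 (nat_lit 6) (nat_lit 0x4000e00000001000080000000000000000000000000000000) (nat_lit 0x0) (nat_lit 0x6a003000398000000000000000000000000000000000000000) := T_26 (nat_lit 180) (nat_lit 193) (nat_lit 1) (nat_lit 10) (nat_lit 10) L75145 (by decide +kernel)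
theorem L75147 : W_26 (nat_lit 7) (nat_lit 0xe00000001000080000000000000000000000000000000) (nat_lit 0x0) (nat_lit 0x6e0030003b8000000000000000000000000000000000000000) := T_26 (nat_lit 194) (nat_lit 161) (nat_lit 5) (nat_lit 8) (nat_lit 7) L75146 (by decide +kernel)
theorem L75148 : W_26 (nat_lit 8) (nat_lit 0x600000001000080000000000000000000000000000000) (nat_lit 0x0) (nat_lit 0x7f8039803fe000000000000000000000000000000000000000) := Q_26 (nat_lit 179) (C_26 L4870 (C_26 L75147 (C_26 L75140 (C_26 L75128 N_26)))) (by decide +kernel)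
theorem L75149 : W_26 (nat_lit 9) (nat_lit 0x600000001000080000000000000000000000000000000) (nat_lit 0x0) (nat_lit 0x10000c00378019801fe000c00040000000000000000000000000000000) := Q_26 (nat_lit 179) (C_26 L4870 (C_26 L75139 (C_26 L4877 N_26))) (by decide +kernel)
theorem L75150 : W_26 (nat_lit 2) (nat_lit 0x42001f000680010001c0000000000000000000000000000000) (nat_lit 0x0) (nat_lit 0x80006000000000000000000000000000000000000000000000) := D_26 (nat_lit 181) (nat_lit 182) (nat_lit 199) (nat_lit 0) (nat_lit 12) (nat_lit 10) (nat_lit 3) (nat_lit 8) (nat_lit 10) (by decide +kernel)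
theorem L75151 : W_26 (nat_lit 3) (nat_lit 0x2001f000680010001c0000000000000000000000000000000) (nat_lit 0x0) (nat_lit 0xe0006000000000000000000000000000000000000000000000) := T_26 (nat_lit 198) (nat_lit 197) (nat_lit 3) (nat_lit 7) (nat_lit 10) L75150 (by decide +kernel)
theorem L75152 : W_26 (nat_lit 4) (nat_lit 0x2001f000680010000c0000000000000000000000000000000) (nat_lit 0x0) (nat_lit 0xe0006000000000000100008000000000000000000000000000) := T_26 (nat_lit 128) (nat_lit 111) (nat_lit 6) (nat_lit 8) (nat_lit 10) L75151 (by decide +kernel)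
theorem L75153 : W_26 (nat_lit 5) (nat_lit 0x2000f000680010000c0000000000000000000000000000000) (nat_lit 0x0) (nat_lit 0xe0007000010000000100008000000000000000000000000000) := T_26 (nat_lit 180) (nat_lit 160) (nat_lit 3) (nat_lit 6) (nat_lit 9) L75152 (by decide +kernel)
theorem L75154 : W_26 (nat_lit 6) (nat_lit 0x2000f00068001000080000000000000000000000000000000) (nat_lit 0x0) (nat_lit 0xe000700001000000014000a000000000000000000000000000) := T_26 (nat_lit 126) (nat_lit 109) (nat_lit 4) (nat_lit 8) (nat_lit 10) L75153 (by decide +kernel)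
theorem L75155 : W_26 (nat_lit 7) (nat_lit 0x2000f00060001000080000000000000000000000000000000) (nat_lit 0x0) (nat_lit 0xe000700001c00000014000a000000000000000000000000000) := T_26 (nat_lit 159) (nat_lit 158) (nat_lit 0) (nat_lit 9) (nat_lit 10) L75154 (by decide +kernel)
theorem L75156 : W_26 (nat_lit 8) (nat_lit 0xf00060001000080000000000000000000000000000000) (nat_lit 0x0) (nat_lit 0xe300700001c00000014000a000000000000000000000000000) := T_26 (nat_lit 193) (nat_lit 192) (nat_lit 1) (nat_lit 9) (nat_lit 10) L75155 (by decide +kernel)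
theorem L75157 : W_26 (nat_lit 9) (nat_lit 0xf00020001000080000000000000000000000000000000) (nat_lit 0x0) (nat_lit 0xe30070000dc00000014000a000000000000000000000000000) := T_26 (nat_lit 162) (nat_lit 163) (nat_lit 2) (nat_lit 6) (nat_lit 10) L75156 (by decide +kernel)
theorem L75158 : W_26 (nat_lit 10) (nat_lit 0x700020001000080000000000000000000000000000000) (nat_lit 0x0) (nat_lit 0xf30078000dc00000014000a000000000000000000000000000) := T_26 (nat_lit 179) (nat_lit 196) (nat_lit 7) (nat_lit 8) (nat_lit 7) L75157 (by decide +kernel)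
theorem L75159 : W_26 (nat_lit 6) (nat_lit 0x2000f00028001000180000000000000000000000000000000) (nat_lit 0x0) (nat_lit 0xe0003000390000000040002000000000000000000000000000) := T_26 (nat_lit 126) (nat_lit 109) (nat_lit 4) (nat_lit 8) (nat_lit 10) L4951 (by decide +kernel)
theorem L75160 : W_26 (nat_lit 7) (nat_lit 0x2000f00020001000180000000000000000000000000000000) (nat_lit 0x0) (nat_lit 0xe000300039c000000040002000000000000000000000000000) := T_26 (nat_lit 159) (nat_lit 158) (nat_lit 0) (nat_lit 9) (nat_lit 10) L75159 (by decide +kernel)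
theorem L75161 : W_26 (nat_lit 8) (nat_lit 0xf00020001000180000000000000000000000000000000) (nat_lit 0x0) (nat_lit 0xe300300039c000000040002000000000000000000000000000) := T_26 (nat_lit 193) (nat_lit 192) (nat_lit 1) (nat_lit 9) (nat_lit 10) L75160 (by decide +kernel)
theorem L75162 : W_26 (nat_lit 9) (nat_lit 0x700020001000180000000000000000000000000000000) (nat_lit 0x0) (nat_lit 0xf300380039c000000040002000000000000000000000000000) := T_26 (nat_lit 179) (nat_lit 196) (nat_lit 7) (nat_lit 8) (nat_lit 7) L75161 (by decide +kernel)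
theorem L75163 : W_26 (nat_lit 10) (nat_lit 0x700020001000080000000000000000000000000000000) (nat_lit 0x0) (nat_lit 0xf300380039c00000014000a000000000000000000000000000) := T_26 (nat_lit 128) (nat_lit 111) (nat_lit 6) (nat_lit 8) (nat_lit 10) L75162 (by decide +kernel)
theorem L75164 : W_26 (nat_lit 11) (nat_lit 0x600020001000080000000000000000000000000000000) (nat_lit 0x0) (nat_lit 0xfbc079c03dc00000014000a000000000000000000000000000) := Q_26 (nat_lit 176) (C_26 L11464 (C_26 L11466 (C_26 L4938 (C_26 L75158 (C_26 L75163 N_26))))) (by decide +kernel)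
theorem L75165 : W_26 (nat_lit 16) (nat_lit 0x600020001000080000000000000000000000000000000) (nat_lit 0x0) (nat_lit 0x100008000fbc079c01dc03c800f000e8000000000000000000000000000) := Q_26 (nat_lit 176) (C_26 L4938 (C_26 L11466 (C_26 L5699 (C_26 L5990 N_26)))) (by decide +kernel)
theorem L75166 : W_26 (nat_lit 2) (nat_lit 0x6001600018001c0000000000000000000000000000000) (nat_lit 0x0) (nat_lit 0x600200000000000000000000000000000000) := D_26 (nat_lit 142) (nat_lit 141) (nat_lit 129) (nat_lit 3) (nat_lit 5) (nat_lit 8) (nat_lit 1) (nat_lit 10) (nat_lit 7) (by decide +kernel)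
theorem L75167 : W_26 (nat_lit 3) (nat_lit 0x6001600018000c0000000000000000000000000000000) (nat_lit 0x0) (nat_lit 0x600300008000000000000000000000000000) := T_26 (nat_lit 128) (nat_lit 111) (nat_lit 6) (nat_lit 8) (nat_lit 10) L75166 (by decide +kernel)
theorem L75168 : W_26 (nat_lit 4) (nat_lit 0x6000600018000c0000000000000000000000000000000) (nat_lit 0x0) (nat_lit 0x180000600300008000000000000000000000000000) := T_26 (nat_lit 164) (nat_lit 163) (nat_lit 1) (nat_lit 11) (nat_lit 9) L75167 (by decide +kernel)
theorem L75169 : W_26 (nat_lit 5) (nat_lit 0x600060001800080000000000000000000000000000000) (nat_lit 0x0) (nat_lit 0x18000060034000a000000000000000000000000000) := T_26 (nat_lit 126) (nat_lit 109) (nat_lit 4) (nat_lit 8) (nat_lit 10) L75168 (by decide +kernel)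
theorem L75170 : W_26 (nat_lit 5) (nat_lit 0xe000600018000c0000000000000000000000000000000) (nat_lit 0x0) (nat_lit 0x180004000700038000000000000000000000000000) := T_26 (nat_lit 163) (nat_lit 164) (nat_lit 1) (nat_lit 11) (nat_lit 9) L75079 (by decide +kernel)
theorem L75171 : W_26 (nat_lit 6) (nat_lit 0xe00060001800080000000000000000000000000000000) (nat_lit 0x0) (nat_lit 0x18000400074003a000000000000000000000000000) := T_26 (nat_lit 126) (nat_lit 109) (nat_lit 4) (nat_lit 8) (nat_lit 10) L75170 (by decide +kernel)
theorem L75172 : W_26 (nat_lit 7) (nat_lit 0x600060001800080000000000000000000000000000000) (nat_lit 0x0) (nat_lit 0x1000080018000400074003a000000000000000000000000000) := T_26 (nat_lit 179) (nat_lit 196) (nat_lit 7) (nat_lit 8) (nat_lit 7) L75171 (by decide +kernel)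
theorem L75173 : W_26 (nat_lit 5) (nat_lit 0xe00060001a00380000000000000000000000000000000) (nat_lit 0x0) (nat_lit 0x300019800c000000010000000000000000000000000000) := T_26 (nat_lit 163) (nat_lit 164) (nat_lit 1) (nat_lit 11) (nat_lit 9) L69550 (by decide +kernel)
theorem L75174 : W_26 (nat_lit 6) (nat_lit 0x600060001a00380000000000000000000000000000000) (nat_lit 0x0) (nat_lit 0x1000380019800c000000010000000000000000000000000000) := T_26 (nat_lit 179) (nat_lit 196) (nat_lit 7) (nat_lit 8) (nat_lit 7) L75173 (by decide +kernel)
theorem L75175 : W_26 (nat_lit 7) (nat_lit 0x600060001a00180000000000000000000000000000000) (nat_lit 0x0) (nat_lit 0x1000380019800c000600010000000000000000000000000000) := T_26 (nat_lit 129) (nat_lit 130) (nat_lit 1) (nat_lit 11) (nat_lit 7) L75174 (by decide +kernel)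
theorem L75176 : W_26 (nat_lit 8) (nat_lit 0x600060001800180000000000000000000000000000000) (nat_lit 0x0) (nat_lit 0x1000380019800c600600010000000000000000000000000000) := T_26 (nat_lit 141) (nat_lit 142) (nat_lit 3) (nat_lit 5) (nat_lit 8) L75175 (by decide +kernel)
theorem L75177 : W_26 (nat_lit 9) (nat_lit 0x600060001800080000000000000000000000000000000) (nat_lit 0x0) (nat_lit 0x1000380019800c600700018000000000000000000000000000) := T_26 (nat_lit 128) (nat_lit 111) (nat_lit 6) (nat_lit 8) (nat_lit 10) L75176 (by decide +kernel)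
theorem L75178 : W_26 (nat_lit 3) (nat_lit 0x600060001c00080000000000000000000000000000000) (nat_lit 0x0) (nat_lit 0x740008000000000000000000000000000) := T_26 (nat_lit 128) (nat_lit 111) (nat_lit 6) (nat_lit 8) (nat_lit 10) L75074 (by decide +kernel)
theorem L75179 : W_26 (nat_lit 4) (nat_lit 0x600060001800080000000000000000000000000000000) (nat_lit 0x0) (nat_lit 0x600740008000000000000000000000000000) := T_26 (nat_lit 142) (nat_lit 141) (nat_lit 3) (nat_lit 5) (nat_lit 8) L75178 (by decide +kernel)
theorem L75180 : W_26 (nat_lit 10) (nat_lit 0x600060001000080000000000000000000000000000000) (nat_lit 0x0) (nat_lit 0x1000380019800ce0074003a000000000000000000000000000) := Q_26 (nat_lit 143) (C_26 L75169 (C_26 L75172 (C_26 L75177 (C_26 L4908 (C_26 L75179 N_26))))) (by decide +kernel)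
theorem L75181 : W_26 (nat_lit 5) (nat_lit 0x7000600010001c0000000000000000000000000000000) (nat_lit 0x0) (nat_lit 0x1300080001c000c00000000000000000000000000000000000) := T_26 (nat_lit 179) (nat_lit 196) (nat_lit 7) (nat_lit 8) (nat_lit 7) L4927 (by decide +kernel)
theorem L75182 : W_26 (nat_lit 6) (nat_lit 0x7000600010000c0000000000000000000000000000000) (nat_lit 0x0) (nat_lit 0x1300080001c000c00100008000000000000000000000000000) := T_26 (nat_lit 128) (nat_lit 111) (nat_lit 6) (nat_lit 8) (nat_lit 10) L75181 (by decide +kernel)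
theorem L75183 : W_26 (nat_lit 7) (nat_lit 0x6000600010000c0000000000000000000000000000000) (nat_lit 0x0) (nat_lit 0x1300098001c000c00100008000000000000000000000000000) := T_26 (nat_lit 176) (nat_lit 175) (nat_lit 2) (nat_lit 5) (nat_lit 10) L75182 (by decide +kernel)
theorem L75184 : W_26 (nat_lit 8) (nat_lit 0x600060001000080000000000000000000000000000000) (nat_lit 0x0) (nat_lit 0x1300098001c000c0014000a000000000000000000000000000) := T_26 (nat_lit 126) (nat_lit 109) (nat_lit 4) (nat_lit 8) (nat_lit 10) L75183 (by decide +kernel)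
theorem L75185 : W_26 (nat_lit 11) (nat_lit 0x600020001000080000000000000000000000000000000) (nat_lit 0x0) (nat_lit 0x130039801dc00ce0074003a000000000000000000000000000) := Q_26 (nat_lit 162) (C_26 L75180 (C_26 L4922 (C_26 L2072 (C_26 L75184 N_26)))) (by decide +kernel)
theorem L75186 : W_26 (nat_lit 17) (nat_lit 0x600000001000080000000000000000000000000000000) (nat_lit 0x0) (nat_lit 0x10000a000fbc079c03fc03ce00f400fa000000000000000000000000000) := Q_26 (nat_lit 161) (C_26 L4895 (C_26 L75164 (C_26 L75165 (C_26 L994 (C_26 L75185 N_26))))) (by decide +kernel)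
theorem L75187 : W_26 (nat_lit 18) (nat_lit 0x200000001000080000000000000000000000000000000) (nat_lit 0x0) (nat_lit 0x100019000ec00ffc07de03ff03cf00f7c0fbc00000000000000000000000000) := Q_26 (nat_lit 178) (C_26 L75141 (C_26 L75148 (C_26 L4869 (C_26 L4896 (C_26 L75149 (C_26 L75186 N_26)))))) (by decide +kernel)
end Crest.Agent.Helper32.Snaky.R1_0
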