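import Crest.Agent.Helper32.Snaky.Gen.R1_0_p1
set_option autoImplicit false
set_option maxRecDepth 100000
set_option linter.all false
set_option Elab.async false
namespace Crest.Agent.Helper32.Snaky.R1_0
@[reducible] def W_28 (d M Bz Z : Nat) : Prop := Crest.Agent.Helper32.Snaky.Wins (nat_lit 17) d M Bz Z
theorem D_28 {d M Bz Z : Nat} (m t1 t2 o1 x1 y1 o2 x2 y2 : Nat) (h : Crest.Agent.Helper32.Snaky.chkDoubleC (nat_lit 17) d M Bz Z m t1 t2 o1 x1 y1 o2 x2 y2 = true) : W_28 d M Bz Z := Crest.Agent.Helper32.Snaky.doubleC m t1 t2 o1 x1 y1 o2 x2 y2 h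
theorem T_28 {d M Bz Z cd cM cBz cZ : Nat} (m t o x y : Nat) (child : W_28 cd cM cBz cZ) (h : Crest.Agent.Helper32.Snaky.chkThreatC (nat_lit 17) d M Bz Z cd cM cBz cZ m t o x y = true) : W_28 d M Bz Z := Crest.Agent.Helper32.Snaky.threatC m t o x y child h
theorem Q_28 {d M Bz Z : Nat} (m : Nat) {l : List Crest.Agent.Helper32.Snaky.Spec} (kids : Crest.Agent.Helper32.Snaky.AllWins (nat_lit 17) l) (h : Crest.Agent.Helper32.Snaky.chkQuiet d M Bz Z m l = true) : W_28 d M Bz Z := Crest.Agent.Helper32.Snaky.quiet m kids h
theorem C_28 {cd cM cBz cZ : Nat} {l : List Crest.Agent.Helper32.Snaky.Spec} (h : W_28 cd cM cBz cZ) (hl : Crest.Agent.Helper32.Snaky.AllWins (nat_lit 17) l) : Crest.Agent.Helper32.Snaky.AllWins (nat_lit 17) ((cd, cM, cBz, cZ) :: l) := Crest.Agent.Helper32.Snaky.AllWins.cons h hl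
theorem N_28 : Crest.Agent.Helper32.Snaky.AllWins (nat_lit 17) [] := Crest.Agent.Helper32.Snaky.AllWins.nil
theorem L76252 : W_28 (nat_lit 3) (nat_lit 0xe00020001000180000000000000000000000000000000) (nat_lit 0x0) (nat_lit 0x1800c0000000000004000000000000000000000000000) := T_28 (nat_lit 162) (nat_lit 110) (nat_lit 7) (nat_lit 8) (nat_lit 6) L2101 (by decide +kernel)
theorem L76253 : W_28 (nat_lit 4) (nat_lit 0x600020001000180000000000000000000000000000000) (nat_lit 0x0) (nat_lit 0x100009800c0000000000004000000000000000000000000000) := T_28 (nat_lit 179) (nat_lit 196) (nat_lit 7) (nat_lit 8) (nat_lit 7) L76252 (by decide +kernel)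
theorem L76254 : W_28 (nat_lit 5) (nat_lit 0x600020001000080000000000000000000000000000000) (nat_lit 0x0) (nat_lit 0x100009800c000000010000c000000000000000000000000000) := T_28 (nat_lit 128) (nat_lit 111) (nat_lit 6) (nat_lit 8) (nat_lit 10) L76253 (by decide +kernel)
theorem L76255 : W_28 (nat_lit 6) (nat_lit 0x200020001000080000000000000000000000000000000) (nat_lit 0x0) (nat_lit 0x14000d800c000000010000c000000000000000000000000000) := T_28 (nat_lit 178) (nat_lit 194) (nat_lit 5) (nat_lit 8) (nat_lit 7) L76254 (by decide +kernel)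
theorem L76256 : W_28 (nat_lit 2) (nat_lit 0xa0002000100008000c000000000000000000000000000) (nat_lit 0x0) (nat_lit 0x10000400000000000100000000000000000000000000000000) := D_28 (nat_lit 178) (nat_lit 128) (nat_lit 196) (nat_lit 6) (nat_lit 8) (nat_lit 10) (nat_lit 7) (nat_lit 8) (nat_lit 7) (by decide +kernel)
theorem L76257 : W_28 (nat_lit 3) (nat_lit 0x20002000100008000c000000000000000000000000000) (nat_lit 0x0) (nat_lit 0x10000c00040000000100000000000000000000000000000000) := T_28 (nat_lit 179) (nat_lit 162) (nat_lit 7) (nat_lit 8) (nat_lit 6) L76256 (by decide +kernel)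
theorem L76258 : W_28 (nat_lit 4) (nat_lit 0x200020001000080004000000000000000000000000000) (nat_lit 0x0) (nat_lit 0x10000c00040000000100008000400000000000000000000000) := T_28 (nat_lit 111) (nat_lit 94) (nat_lit 6) (nat_lit 8) (nat_lit 9) L76257 (by decide +kernel)
theorem L76260 : W_28 (nat_lit 2) (nat_lit 0x4000200020001000080000000000000000000000000000000) (nat_lit 0x0) (nat_lit 0x80000000000010000800000000000000000000000000000000000) := D_28 (nat_lit 160) (nat_lit 143) (nat_lit 211) (nat_lit 6) (nat_lit 7) (nat_lit 11) (nat_lit 6) (nat_lit 7) (nat_lit 12) (by decide +kernel)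
theorem L76261 : W_28 (nat_lit 3) (nat_lit 0x200020001000080000000000000000000000000000000) (nat_lit 0x0) (nat_lit 0x80004000400010000800000000000000000000000000000000000) := T_28 (nat_lit 194) (nat_lit 178) (nat_lit 5) (nat_lit 8) (nat_lit 7) L76260 (by decide +kernel)
theorem L76263 : W_28 (nat_lit 4) (nat_lit 0x200020001000080004000000000000000000000000000) (nat_lit 0x0) (nat_lit 0x14000c00040000000000002000100000000000000000000000) := T_28 (nat_lit 109) (nat_lit 92) (nat_lit 4) (nat_lit 8) (nat_lit 9) L915 (by decide +kernel)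
theorem L76264 : W_28 (nat_lit 5) (nat_lit 0x200020001000080000000000000000000000000000000) (nat_lit 0x0) (nat_lit 0x14000c00050000000000006000100000000000000000000000) := T_28 (nat_lit 110) (nat_lit 160) (nat_lit 5) (nat_lit 8) (nat_lit 6) L76263 (by decide +kernel)
theorem L76271 : W_28 (nat_lit 2) (nat_lit 0x200060001000080004000300000000000000000000000) (nat_lit 0x0) (nat_lit 0x8000400020000000000000000000) := D_28 (nat_lit 94) (nat_lit 111) (nat_lit 77) (nat_lit 6) (nat_lit 8) (nat_lit 9) (nat_lit 6) (nat_lit 8) (nat_lit 8) (by decide +kernel)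
theorem L76272 : W_28 (nat_lit 3) (nat_lit 0x200060001000080004000100000000000000000000000) (nat_lit 0x0) (nat_lit 0x8000600028000000000000000000) := T_28 (nat_lit 93) (nat_lit 75) (nat_lit 4) (nat_lit 8) (nat_lit 8) L76271 (by decide +kernel)
theorem L76273 : W_28 (nat_lit 4) (nat_lit 0x200020001000080004000100000000000000000000000) (nat_lit 0x0) (nat_lit 0x800040000000000008000600028000000000000000000) := T_28 (nat_lit 162) (nat_lit 179) (nat_lit 7) (nat_lit 8) (nat_lit 6) L76272 (by decide +kernel)
theorem L76274 : W_28 (nat_lit 5) (nat_lit 0x200020001000080004000000000000000000000000000) (nat_lit 0x0) (nat_lit 0x80004000000000000a000700028000000000000000000) := T_28 (nat_lit 92) (nat_lit 109) (nat_lit 4) (nat_lit 8) (nat_lit 9) L76273 (by decide +kernel)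
theorem L76275 : W_28 (nat_lit 6) (nat_lit 0x200020001000080000000000000000000000000000000) (nat_lit 0x0) (nat_lit 0x80005000000000000e000700028000000000000000000) := T_28 (nat_lit 110) (nat_lit 160) (nat_lit 5) (nat_lit 8) (nat_lit 6) L76274 (by decide +kernel)
theorem L76448 : W_28 (nat_lit 2) (nat_lit 0x2000000008007c002400100009000f800000000000000000000000000) (nat_lit 0x0) (nat_lit 0xe0000000000000000000000) := D_28 (nat_lit 90) (nat_lit 89) (nat_lit 91) (nat_lit 0) (nat_lit 8) (nat_lit 6) (nat_lit 0) (nat_lit 9) (nat_lit 6) (by decide +kernel)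
theorem L76449 : W_28 (nat_lit 3) (nat_lit 0x2000000008007c002400100009000f000000000000000000000000000) (nat_lit 0x0) (nat_lit 0x80008000e0000000000000000000000) := T_28 (nat_lit 107) (nat_lit 123) (nat_lit 1) (nat_lit 8) (nat_lit 6) L76448 (by decide +kernel)
theorem L76450 : W_28 (nat_lit 4) (nat_lit 0x2000000008007c002400100009000e000000000000000000000000000) (nat_lit 0x0) (nat_lit 0x280018000e0000000000000000000000) := T_28 (nat_lit 108) (nat_lit 125) (nat_lit 1) (nat_lit 9) (nat_lit 6) L76449 (by decide +kernel)
theorem L76451 : W_28 (nat_lit 5) (nat_lit 0x2000000008007c002400100008000e000000000000000000000000000) (nat_lit 0x0) (nat_lit 0x2000380018000e0000000000000000000000) := T_28 (nat_lit 124) (nat_lit 141) (nat_lit 5) (nat_lit 5) (nat_lit 7) L76450 (by decide +kernel)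
theorem L76452 : W_28 (nat_lit 6) (nat_lit 0x2000000008007c002400100008000c000000000000000000000000000) (nat_lit 0x0) (nat_lit 0x2000380038001e0000000000000000000000) := T_28 (nat_lit 109) (nat_lit 92) (nat_lit 4) (nat_lit 8) (nat_lit 9) L76451 (by decide +kernel)
theorem L76453 : W_28 (nat_lit 7) (nat_lit 0x2000000008007c0024001000080008000000000000000000000000000) (nat_lit 0x0) (nat_lit 0x2000380078005e0000000000000000000000) := T_28 (nat_lit 110) (nat_lit 94) (nat_lit 6) (nat_lit 8) (nat_lit 9) L76452 (by decide +kernel)
theorem L76454 : W_28 (nat_lit 8) (nat_lit 0x8007c0024001000080008000000000000000000000000000) (nat_lit 0x0) (nat_lit 0x2000100000000000000002000380078005e0000000000000000000000) := T_28 (nat_lit 225) (nat_lit 208) (nat_lit 6) (nat_lit 4) (nat_lit 13) L76453 (by decide +kernel)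
theorem L76455 : W_28 (nat_lit 9) (nat_lit 0x8007c0024001000080000000000000000000000000000000) (nat_lit 0x0) (nat_lit 0x20001000000000000000020013800f8005e0000000000000000000000) := T_28 (nat_lit 111) (nat_lit 128) (nat_lit 6) (nat_lit 8) (nat_lit 10) L76454 (by decide +kernel)
theorem L76456 : W_28 (nat_lit 10) (nat_lit 0x800780024001000080000000000000000000000000000000) (nat_lit 0x0) (nat_lit 0x20001000040004000000020013800f8005e0000000000000000000000) := T_28 (nat_lit 174) (nat_lit 190) (nat_lit 1) (nat_lit 7) (nat_lit 10) L76455 (by decide +kernel)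
theorem L76457 : W_28 (nat_lit 11) (nat_lit 0x800780020001000080000000000000000000000000000000) (nat_lit 0x0) (nat_lit 0x20001000040004000600020013800f8005e0000000000000000000000) := T_28 (nat_lit 158) (nat_lit 157) (nat_lit 0) (nat_lit 8) (nat_lit 10) L76456 (by decide +kernel)
theorem L76458 : W_28 (nat_lit 12) (nat_lit 0x780020001000080000000000000000000000000000000) (nat_lit 0x0) (nat_lit 0x200010001c0004000600020013800f8005e0000000000000000000000) := T_28 (nat_lit 191) (nat_lit 192) (nat_lit 1) (nat_lit 8) (nat_lit 10) L76457 (by decide +kernel)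
theorem L76459 : W_28 (nat_lit 13) (nat_lit 0x700020001000080000000000000000000000000000000) (nat_lit 0x0) (nat_lit 0x200010001c000c004600020013800f8005e0000000000000000000000) := T_28 (nat_lit 175) (nat_lit 162) (nat_lit 2) (nat_lit 5) (nat_lit 10) L76458 (by decide +kernel)
theorem L76460 : W_28 (nat_lit 14) (nat_lit 0x700000001000080000000000000000000000000000000) (nat_lit 0x0) (nat_lit 0x200010005c000c006600020013800f8005e0000000000000000000000) := T_28 (nat_lit 161) (nat_lit 194) (nat_lit 5) (nat_lit 8) (nat_lit 7) L76459 (by decide +kernel)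
theorem L76561 : W_28 (nat_lit 2) (nat_lit 0x1000780024001000080000000000000000000000000000000) (nat_lit 0x0) (nat_lit 0x2000800008000000000000000000000000000000000000000) := D_28 (nat_lit 179) (nat_lit 193) (nat_lit 159) (nat_lit 1) (nat_lit 9) (nat_lit 10) (nat_lit 0) (nat_lit 9) (nat_lit 10) (by decide +kernel)
theorem L76562 : W_28 (nat_lit 3) (nat_lit 0x1000780020001000080000000000000000000000000000000) (nat_lit 0x0) (nat_lit 0x200080000e000000000000000000000000000000000000000) := T_28 (nat_lit 158) (nat_lit 157) (nat_lit 0) (nat_lit 8) (nat_lit 10) L76561 (by decide +kernel)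
theorem L76563 : W_28 (nat_lit 4) (nat_lit 0x780020001000080000000000000000000000000000000) (nat_lit 0x0) (nat_lit 0x380080000e000000000000000000000000000000000000000) := T_28 (nat_lit 192) (nat_lit 191) (nat_lit 1) (nat_lit 8) (nat_lit 10) L76562 (by decide +kernel)
theorem L76564 : W_28 (nat_lit 5) (nat_lit 0x700020001000080000000000000000000000000000000) (nat_lit 0x0) (nat_lit 0x380088004e000000000000000000000000000000000000000) := T_28 (nat_lit 175) (nat_lit 162) (nat_lit 2) (nat_lit 5) (nat_lit 10) L76563 (by decide +kernel)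
theorem L76565 : W_28 (nat_lit 6) (nat_lit 0x700000001000080000000000000000000000000000000) (nat_lit 0x0) (nat_lit 0x780088006e000000000000000000000000000000000000000) := T_28 (nat_lit 161) (nat_lit 194) (nat_lit 5) (nat_lit 8) (nat_lit 7) L76564 (by decide +kernel)
theorem L76570 : W_28 (nat_lit 2) (nat_lit 0x1000780040001000080000000000000000000000000000000) (nat_lit 0x0) (nat_lit 0x2000800080000000000000000000000000000000000000000) := D_28 (nat_lit 179) (nat_lit 163) (nat_lit 193) (nat_lit 2) (nat_lit 6) (nat_lit 10) (nat_lit 1) (nat_lit 9) (nat_lit 10) (by decide +kernel)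
theorem L76571 : W_28 (nat_lit 3) (nat_lit 0x780040001000080000000000000000000000000000000) (nat_lit 0x0) (nat_lit 0x3800800080000000000000000000000000000000000000000) := T_28 (nat_lit 192) (nat_lit 191) (nat_lit 1) (nat_lit 8) (nat_lit 10) L76570 (by decide +kernel)
theorem L76572 : W_28 (nat_lit 4) (nat_lit 0x780000001000080000000000000000000000000000000) (nat_lit 0x0) (nat_lit 0x38008000e0000000000000000000000000000000000000000) := T_28 (nat_lit 162) (nat_lit 161) (nat_lit 2) (nat_lit 5) (nat_lit 10) L76571 (by decide +kernel)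
theorem L76577 : W_28 (nat_lit 2) (nat_lit 0x48007f0004001000080000000000000000000000000000000) (nat_lit 0x0) (nat_lit 0x1c00000000000000000000000000000000000000) := D_28 (nat_lit 155) (nat_lit 156) (nat_lit 154) (nat_lit 0) (nat_lit 6) (nat_lit 10) (nat_lit 0) (nat_lit 5) (nat_lit 10) (by decide +kernel)
theorem L76578 : W_28 (nat_lit 3) (nat_lit 0x48007e0004001000080000000000000000000000000000000) (nat_lit 0x0) (nat_lit 0x10009c00000000000000000000000000000000000000) := T_28 (nat_lit 172) (nat_lit 159) (nat_lit 2) (nat_lit 2) (nat_lit 10) L76577 (by decide +kernel)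
theorem L76579 : W_28 (nat_lit 4) (nat_lit 0x48007c0004001000080000000000000000000000000000000) (nat_lit 0x0) (nat_lit 0x2000030009c00000000000000000000000000000000000000) := T_28 (nat_lit 173) (nat_lit 193) (nat_lit 3) (nat_lit 3) (nat_lit 10) L76578 (by decide +kernel)
theorem L76580 : W_28 (nat_lit 5) (nat_lit 0x8007c0004001000080000000000000000000000000000000) (nat_lit 0x0) (nat_lit 0xe000030009c00000000000000000000000000000000000000) := T_28 (nat_lit 194) (nat_lit 195) (nat_lit 3) (nat_lit 4) (nat_lit 10) L76579 (by decide +kernel)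
theorem L76581 : W_28 (nat_lit 6) (nat_lit 0x800780004001000080000000000000000000000000000000) (nat_lit 0x0) (nat_lit 0xe400070009c00000000000000000000000000000000000000) := T_28 (nat_lit 174) (nat_lit 190) (nat_lit 1) (nat_lit 7) (nat_lit 10) L76580 (by decide +kernel)
theorem L76582 : W_28 (nat_lit 7) (nat_lit 0x780004001000080000000000000000000000000000000) (nat_lit 0x0) (nat_lit 0xfc00070009c00000000000000000000000000000000000000) := T_28 (nat_lit 191) (nat_lit 192) (nat_lit 1) (nat_lit 8) (nat_lit 10) L76581 (by decide +kernel)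
theorem L76583 : W_28 (nat_lit 8) (nat_lit 0x780000001000080000000000000000000000000000000) (nat_lit 0x0) (nat_lit 0xfc0007000fc00000000000000000000000000000000000000) := T_28 (nat_lit 158) (nat_lit 157) (nat_lit 0) (nat_lit 8) (nat_lit 10) L76582 (by decide +kernel)
theorem L76584 : W_28 (nat_lit 4) (nat_lit 0x1000780000001000080000000000000000000000000000000) (nat_lit 0x0) (nat_lit 0x800040002000800006000200000000000000000000000000000000000) := T_28 (nat_lit 158) (nat_lit 157) (nat_lit 0) (nat_lit 8) (nat_lit 10) L74444 (by decide +kernel)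
theorem L76585 : W_28 (nat_lit 5) (nat_lit 0x780000001000080000000000000000000000000000000) (nat_lit 0x0) (nat_lit 0x800040003800800006000200000000000000000000000000000000000) := T_28 (nat_lit 192) (nat_lit 191) (nat_lit 1) (nat_lit 8) (nat_lit 10) L76584 (by decide +kernel)
theorem L76588 : W_28 (nat_lit 3) (nat_lit 0x700020001000080000000000000000000000000000000) (nat_lit 0x0) (nat_lit 0x8801c0000000000000000000000000000000000000000) := T_28 (nat_lit 162) (nat_lit 175) (nat_lit 2) (nat_lit 5) (nat_lit 10) L76587 (by decide +kernel)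
theorem L76589 : W_28 (nat_lit 4) (nat_lit 0x700000001000080000000000000000000000000000000) (nat_lit 0x0) (nat_lit 0x40008801e0000000000000000000000000000000000000000) := T_28 (nat_lit 161) (nat_lit 194) (nat_lit 5) (nat_lit 8) (nat_lit 7) L76588 (by decide +kernel)
theorem L76966 : W_28 (nat_lit 2) (nat_lit 0x18000a000f000680000001000080000000000000000000000000000000) (nat_lit 0x0) (nat_lit 0x40010000000004000000000000000000000000000000000000000) := D_28 (nat_lit 210) (nat_lit 196) (nat_lit 158) (nat_lit 1) (nat_lit 9) (nat_lit 11) (nat_lit 7) (nat_lit 5) (nat_lit 9) (by decide +kernel)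
theorem L77210 : W_28 (nat_lit 2) (nat_lit 0x5000780000001000080000000000000000000000000000000) (nat_lit 0x0) (nat_lit 0x18000040000000000000000000000000000000000000000000) := D_28 (nat_lit 195) (nat_lit 174) (nat_lit 196) (nat_lit 3) (nat_lit 4) (nat_lit 10) (nat_lit 3) (nat_lit 5) (nat_lit 10) (by decide +kernel)
theorem L77252 : W_28 (nat_lit 2) (nat_lit 0x100010000f000700000001000080000000000000000000000000000000) (nat_lit 0x0) (nat_lit 0x60002000000000000000000000000000000000000000000000000000000000) := D_28 (nat_lit 229) (nat_lit 246) (nat_lit 245) (nat_lit 4) (nat_lit 8) (nat_lit 14) (nat_lit 5) (nat_lit 8) (nat_lit 10) (by decide +kernel)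
theorem L77253 : W_28 (nat_lit 3) (nat_lit 0x100000000f000700000001000080000000000000000000000000000000) (nat_lit 0x0) (nat_lit 0x60002000300000000000000000000000000000000000000000000000000000) := T_28 (nat_lit 212) (nat_lit 213) (nat_lit 3) (nat_lit 5) (nat_lit 11) L77252 (by decide +kernel)
theorem L77852 : W_28 (nat_lit 2) (nat_lit 0x800600016000f000700000001000080000000000000000000000000000000) (nat_lit 0x0) (nat_lit 0x20001800000000000000000000000000000000000000000000000000000000) := D_28 (nat_lit 228) (nat_lit 227) (nat_lit 245) (nat_lit 0) (nat_lit 9) (nat_lit 13) (nat_lit 5) (nat_lit 8) (nat_lit 10) (by decide +kernel)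
theorem L77853 : W_28 (nat_lit 3) (nat_lit 0x800600012000f000700000001000080000000000000000000000000000000) (nat_lit 0x0) (nat_lit 0x200018000c0000000000000000000000000000000000000000000000000000) := T_28 (nat_lit 210) (nat_lit 211) (nat_lit 3) (nat_lit 5) (nat_lit 12) L77852 (by decide +kernel)
theorem L77854 : W_28 (nat_lit 4) (nat_lit 0x800200012000f000700000001000080000000000000000000000000000000) (nat_lit 0x0) (nat_lit 0xa00058000c0000000000000000000000000000000000000000000000000000) := T_28 (nat_lit 230) (nat_lit 247) (nat_lit 7) (nat_lit 8) (nat_lit 10) L77853 (by decide +kernel)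
theorem L77855 : W_28 (nat_lit 5) (nat_lit 0x200012000f000700000001000080000000000000000000000000000000) (nat_lit 0x0) (nat_lit 0xa8005c000c0000000000000000000000000000000000000000000000000000) := T_28 (nat_lit 243) (nat_lit 226) (nat_lit 6) (nat_lit 5) (nat_lit 14) L77854 (by decide +kernel)
theorem L77856 : W_28 (nat_lit 6) (nat_lit 0x12000f000700000001000080000000000000000000000000000000) (nat_lit 0x0) (nat_lit 0xe8007c000c0000000000000000000000000000000000000000000000000000) := T_28 (nat_lit 229) (nat_lit 246) (nat_lit 4) (nat_lit 8) (nat_lit 14) L77855 (by decide +kernel)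
theorem L77857 : W_28 (nat_lit 7) (nat_lit 0x10000f000700000001000080000000000000000000000000000000) (nat_lit 0x0) (nat_lit 0xe8007c000f0000000000000000000000000000000000000000000000000000) := T_28 (nat_lit 209) (nat_lit 208) (nat_lit 1) (nat_lit 8) (nat_lit 11) L77856 (by decide +kernel)
theorem L77858 : W_28 (nat_lit 8) (nat_lit 0xf000700000001000080000000000000000000000000000000) (nat_lit 0x0) (nat_lit 0xe8007c003f0000000000000000000000000000000000000000000000000000) := T_28 (nat_lit 212) (nat_lit 213) (nat_lit 3) (nat_lit 5) (nat_lit 11) L77857 (by decide +kernel)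
theorem L78098 : W_28 (nat_lit 2) (nat_lit 0x200016000f000600000001000080000000000000000000000000000000) (nat_lit 0x0) (nat_lit 0x80004000080000000000000000000000000000000000000000000000000000) := D_28 (nat_lit 230) (nat_lit 247) (nat_lit 211) (nat_lit 7) (nat_lit 8) (nat_lit 10) (nat_lit 3) (nat_lit 5) (nat_lit 12) (by decide +kernel)
theorem L78099 : W_28 (nat_lit 3) (nat_lit 0x200012000f000600000001000080000000000000000000000000000000) (nat_lit 0x0) (nat_lit 0x800040000c0010000000000000000000000000000000000000000000000000) := T_28 (nat_lit 210) (nat_lit 196) (nat_lit 1) (nat_lit 9) (nat_lit 11) L78098 (by decide +kernel)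
theorem L78100 : W_28 (nat_lit 4) (nat_lit 0x12000f000600000001000080000000000000000000000000000000) (nat_lit 0x0) (nat_lit 0xc00060000c0010000000000000000000000000000000000000000000000000) := T_28 (nat_lit 229) (nat_lit 246) (nat_lit 4) (nat_lit 8) (nat_lit 14) L78099 (by decide +kernel)
theorem L78132 : W_28 (nat_lit 5) (nat_lit 0x10000f000600000001000080000000000000000000000000000000) (nat_lit 0x0) (nat_lit 0xc00060000f0010000000000000000000000000000000000000000000000000) := T_28 (nat_lit 209) (nat_lit 208) (nat_lit 1) (nat_lit 8) (nat_lit 11) L78100 (by decide +kernel)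
theorem L78153 : W_28 (nat_lit 6) (nat_lit 0x2000f000680000001000080000000000000000000000000000000) (nat_lit 0x0) (nat_lit 0xe00078003c0000000000000000000000000000000000000000000000000000) := T_28 (nat_lit 212) (nat_lit 213) (nat_lit 3) (nat_lit 5) (nat_lit 11) L9015 (by decide +kernel)
theorem L78162 : W_28 (nat_lit 2) (nat_lit 0xf000780004001000080000000000000000000000000000000) (nat_lit 0x0) (nat_lit 0x800040000000000000000200000000000000000000000000000000000) := D_28 (nat_lit 210) (nat_lit 227) (nat_lit 141) (nat_lit 4) (nat_lit 6) (nat_lit 13) (nat_lit 7) (nat_lit 5) (nat_lit 8) (by decide +kernel)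
theorem L78163 : W_28 (nat_lit 3) (nat_lit 0xf000780000001000080000000000000000000000000000000) (nat_lit 0x0) (nat_lit 0x800040000000000006000200000000000000000000000000000000000) := T_28 (nat_lit 158) (nat_lit 157) (nat_lit 0) (nat_lit 8) (nat_lit 10) L78162 (by decide +kernel)
theorem L78188 : W_28 (nat_lit 2) (nat_lit 0x21000f00094000f000680000001200080000000000000000000000000000000) (nat_lit 0x0) (nat_lit 0x400010001000000000000000000000000000000000000000000000000000000) := D_28 (nat_lit 232) (nat_lit 250) (nat_lit 216) (nat_lit 3) (nat_lit 8) (nat_lit 13) (nat_lit 2) (nat_lit 8) (nat_lit 13) (by decide +kernel)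
theorem L78189 : W_28 (nat_lit 3) (nat_lit 0x21000f00014000f000680000001200080000000000000000000000000000000) (nat_lit 0x0) (nat_lit 0x400010001c00000000000000000000000000000000000000000000000000000) := T_28 (nat_lit 215) (nat_lit 214) (nat_lit 2) (nat_lit 7) (nat_lit 13) L78188 (by decide +kernel)
theorem L78190 : W_28 (nat_lit 4) (nat_lit 0x1000f00014000f000680000001200080000000000000000000000000000000) (nat_lit 0x0) (nat_lit 0x700010001c00000000000000000000000000000000000000000000000000000) := T_28 (nat_lit 249) (nat_lit 248) (nat_lit 3) (nat_lit 7) (nat_lit 13) L78189 (by decide +kernel)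
theorem L78191 : W_28 (nat_lit 5) (nat_lit 0x1000700014000f000680000001200080000000000000000000000000000000) (nat_lit 0x0) (nat_lit 0x700018001c80000000000000000000000000000000000000000000000000000) := T_28 (nat_lit 231) (nat_lit 211) (nat_lit 0) (nat_lit 10) (nat_lit 13) L78190 (by decide +kernel)
theorem L78198 : W_28 (nat_lit 2) (nat_lit 0x21000f00094000f000600000001000080000000000000000000000000000000) (nat_lit 0x0) (nat_lit 0x400010001000000000000000000000000000000000000000000000000000000) := D_28 (nat_lit 232) (nat_lit 250) (nat_lit 216) (nat_lit 3) (nat_lit 8) (nat_lit 13) (nat_lit 2) (nat_lit 8) (nat_lit 13) (by decide +kernel)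
theorem L78199 : W_28 (nat_lit 3) (nat_lit 0x21000f00014000f000600000001000080000000000000000000000000000000) (nat_lit 0x0) (nat_lit 0x400010001c00000000000000000000000000000000000000000000000000000) := T_28 (nat_lit 215) (nat_lit 214) (nat_lit 2) (nat_lit 7) (nat_lit 13) L78198 (by decide +kernel)
theorem L78200 : W_28 (nat_lit 4) (nat_lit 0x1000f00014000f000600000001000080000000000000000000000000000000) (nat_lit 0x0) (nat_lit 0x700010001c00000000000000000000000000000000000000000000000000000) := T_28 (nat_lit 249) (nat_lit 248) (nat_lit 3) (nat_lit 7) (nat_lit 13) L78199 (by decide +kernel)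
theorem L78201 : W_28 (nat_lit 5) (nat_lit 0x1000700014000f000600000001000080000000000000000000000000000000) (nat_lit 0x0) (nat_lit 0x700018001c80000000000000000000000000000000000000000000000000000) := T_28 (nat_lit 231) (nat_lit 211) (nat_lit 0) (nat_lit 10) (nat_lit 13) L78200 (by decide +kernel)
theorem L78202 : W_28 (nat_lit 6) (nat_lit 0x1000300014000f000600000001000080000000000000000000000000000000) (nat_lit 0x0) (nat_lit 0x78001c001c80000000000000000000000000000000000000000000000000000) := T_28 (nat_lit 230) (nat_lit 247) (nat_lit 7) (nat_lit 8) (nat_lit 10) L78201 (by decide +kernel)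
theorem L78220 : W_28 (nat_lit 2) (nat_lit 0x700016000f000680004001000080000000000000000000000000000000) (nat_lit 0x0) (nat_lit 0x100002000100000000000000000000000000000000000) := D_28 (nat_lit 157) (nat_lit 176) (nat_lit 140) (nat_lit 0) (nat_lit 8) (nat_lit 10) (nat_lit 4) (nat_lit 5) (nat_lit 12) (by decide +kernel)
theorem L78221 : W_28 (nat_lit 3) (nat_lit 0x700016000f000680000001000080000000000000000000000000000000) (nat_lit 0x0) (nat_lit 0x100006000300000000000000000000000000000000000) := T_28 (nat_lit 158) (nat_lit 141) (nat_lit 7) (nat_lit 5) (nat_lit 8) L78220 (by decide +kernel)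
theorem L78222 : W_28 (nat_lit 4) (nat_lit 0x700012000f000680000001000080000000000000000000000000000000) (nat_lit 0x0) (nat_lit 0xc0000000100006000300000000000000000000000000000000000) := T_28 (nat_lit 210) (nat_lit 211) (nat_lit 3) (nat_lit 5) (nat_lit 12) L78221 (by decide +kernel)
theorem L78263 : W_28 (nat_lit 2) (nat_lit 0x100002000d00078000c001000080000000000000000000000000000000) (nat_lit 0x0) (nat_lit 0x200010002000000000000000000000000000000000000000000000000) := D_28 (nat_lit 208) (nat_lit 225) (nat_lit 193) (nat_lit 5) (nat_lit 5) (nat_lit 9) (nat_lit 1) (nat_lit 8) (nat_lit 11) (by decide +kernel)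
theorem L78264 : W_28 (nat_lit 3) (nat_lit 0x100000000d00078000c001000080000000000000000000000000000000) (nat_lit 0x0) (nat_lit 0x600030002000000000000000000000000000000000000000000000000) := T_28 (nat_lit 209) (nat_lit 226) (nat_lit 6) (nat_lit 5) (nat_lit 13) L78263 (by decide +kernel)
theorem L83211 : W_28 (nat_lit 2) (nat_lit 0x7000300008001400080000000000000000000000000000000) (nat_lit 0x0) (nat_lit 0xc00400000000000000000000000000000000000000000000) := D_28 (nat_lit 191) (nat_lit 178) (nat_lit 190) (nat_lit 2) (nat_lit 4) (nat_lit 11) (nat_lit 2) (nat_lit 3) (nat_lit 11) (by decide +kernel)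
theorem L83212 : W_28 (nat_lit 3) (nat_lit 0x6000300008001400080000000000000000000000000000000) (nat_lit 0x0) (nat_lit 0x20001c00400000000000000000000000000000000000000000000) := T_28 (nat_lit 192) (nat_lit 209) (nat_lit 5) (nat_lit 6) (nat_lit 8) L83211 (by decide +kernel)
theorem L86301 : W_28 (nat_lit 2) (nat_lit 0x40006000300008001600080000000000000000000000000000000) (nat_lit 0x0) (nat_lit 0x10000800000000000000010000000000000000000000000000000000000000) := D_28 (nat_lit 227) (nat_lit 160) (nat_lit 244) (nat_lit 6) (nat_lit 6) (nat_lit 13) (nat_lit 6) (nat_lit 6) (nat_lit 14) (by decide +kernel)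
theorem L86443 : W_28 (nat_lit 3) (nat_lit 0x6000300008001600080000000000000000000000000000000) (nat_lit 0x0) (nat_lit 0x10000800040000000000014000000000000000000000000000000000000000) := T_28 (nat_lit 210) (nat_lit 158) (nat_lit 4) (nat_lit 6) (nat_lit 12) L86301 (by decide +kernel)
theorem L94575 : W_28 (nat_lit 2) (nat_lit 0x200010001000080004000200028000000000000000000) (nat_lit 0x0) (nat_lit 0x10001400000000000000) := D_28 (nat_lit 76) (nat_lit 58) (nat_lit 60) (nat_lit 4) (nat_lit 8) (nat_lit 7) (nat_lit 6) (nat_lit 8) (nat_lit 7) (by decide +kernel)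
theorem L94576 : W_28 (nat_lit 3) (nat_lit 0x200010001000080004000200008000000000000000000) (nat_lit 0x0) (nat_lit 0x400030001400000000000000) := T_28 (nat_lit 77) (nat_lit 94) (nat_lit 6) (nat_lit 8) (nat_lit 8) L94575 (by decide +kernel)
theorem L94577 : W_28 (nat_lit 4) (nat_lit 0x200010001000080004000200000000000000000000000) (nat_lit 0x0) (nat_lit 0x500038001400000000000000) := T_28 (nat_lit 75) (nat_lit 92) (nat_lit 4) (nat_lit 8) (nat_lit 8) L94576 (by decide +kernel)
theorem L96445 : W_28 (nat_lit 5) (nat_lit 0x200010001000080004000000000000000000000000000) (nat_lit 0x0) (nat_lit 0x800000000000700038001400000000000000) := T_28 (nat_lit 93) (nat_lit 143) (nat_lit 5) (nat_lit 8) (nat_lit 5) L94577 (by decide +kernel)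
theorem L96446 : W_28 (nat_lit 6) (nat_lit 0x200010001000080000000000000000000000000000000) (nat_lit 0x0) (nat_lit 0x20000800000004000700038001400000000000000) := T_28 (nat_lit 110) (nat_lit 161) (nat_lit 5) (nat_lit 8) (nat_lit 6) L96445 (by decide +kernel)
end Crest.Agent.Helper32.Snaky.R1_0
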