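import Crest.Agent.Helper32.Snaky.Gen.R1_0_p28
set_option autoImplicit false
set_option maxRecDepth 100000
set_option linter.all false
set_option Elab.async false
namespace Crest.Agent.Helper32.Snaky.R1_0
@[reducible] def W_29 (d M Bz Z : Nat) : Prop := Crest.Agent.Helper32.Snaky.Wins (nat_lit 17) d M Bz Z
theorem D_29 {d M Bz Z : Nat} (m t1 t2 o1 x1 y1 o2 x2 y2 : Nat) (h : Crest.Agent.Helper32.Snaky.chkDoubleC (nat_lit 17) d M Bz Z m t1 t2 o1 x1 y1 o2 x2 y2 = true) : W_29 d M Bz Z := Crest.Agent.Helper32.Snaky.doubleC m t1 t2 o1 x1 y1 o2 x2 y2 h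
theorem T_29 {d M Bz Z cd cM cBz cZ : Nat} (m t o x y : Nat) (child : W_29 cd cM cBz cZ) (h : Crest.Agent.Helper32.Snaky.chkThreatC (nat_lit 17) d M Bz Z cd cM cBz cZ m t o x y = true) : W_29 d M Bz Z := Crest.Agent.Helper32.Snaky.threatC m t o x y child h
theorem Q_29 {d M Bz Z : Nat} (m : Nat) {l : List Crest.Agent.Helper32.Snaky.Spec} (kids : Crest.Agent.Helper32.Snaky.AllWins (nat_lit 17) l) (h : Crest.Agent.Helper32.Snaky.chkQuiet d M Bz Z m l = true) : W_29 d M Bz Z := Crest.Agent.Helper32.Snaky.quiet m kids h
theorem C_29 {cd cM cBz cZ : Nat} {l : List Crest.Agent.Helper32.Snaky.Spec} (h : W_29 cd cM cBz cZ) (hl : Crest.Agent.Helper32.Snaky.AllWins (nat_lit 17) l) : Crest.Agent.Helper32.Snaky.AllWins (nat_lit 17) ((cd, cM, cBz, cZ) :: l) := Crest.Agent.Helper32.Snaky.AllWins.cons h hl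
theorem N_29 : Crest.Agent.Helper32.Snaky.AllWins (nat_lit 17) [] := Crest.Agent.Helper32.Snaky.AllWins.nil
theorem L78503 : W_29 (nat_lit 2) (nat_lit 0x3000080004000300010001000080000000000000000000000000000000) (nat_lit 0x0) (nat_lit 0x10000800040000000000000000000000000000000000000000000000000000) := D_29 (nat_lit 227) (nat_lit 210) (nat_lit 244) (nat_lit 5) (nat_lit 7) (nat_lit 9) (nat_lit 5) (nat_lit 7) (nat_lit 10) (by decide +kernel)
theorem L78504 : W_29 (nat_lit 3) (nat_lit 0x3000080004000300000001000080000000000000000000000000000000) (nat_lit 0x0) (nat_lit 0x10000800140000000000010000000000000000000000000000000000000000) := T_29 (nat_lit 160) (nat_lit 212) (nat_lit 7) (nat_lit 7) (nat_lit 9) L78503 (by decide +kernel)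
theorem L78505 : W_29 (nat_lit 4) (nat_lit 0x1000080004000300000001000080000000000000000000000000000000) (nat_lit 0x0) (nat_lit 0x50002800140000000000010000000000000000000000000000000000000000) := T_29 (nat_lit 229) (nat_lit 246) (nat_lit 7) (nat_lit 7) (nat_lit 10) L78504 (by decide +kernel)
theorem L78506 : W_29 (nat_lit 5) (nat_lit 0x1000080004000200000001000080000000000000000000000000000000) (nat_lit 0x0) (nat_lit 0x50002800140000000100018000000000000000000000000000000000000000) := T_29 (nat_lit 176) (nat_lit 159) (nat_lit 4) (nat_lit 7) (nat_lit 13) L78505 (by decide +kernel)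
theorem L78507 : W_29 (nat_lit 2) (nat_lit 0x20003000080004000300010001000080000000000000000000000000000000) (nat_lit 0x0) (nat_lit 0x200010000800000000000000000000000000000000000000000000000000000000) := D_29 (nat_lit 244) (nat_lit 227) (nat_lit 261) (nat_lit 5) (nat_lit 7) (nat_lit 10) (nat_lit 5) (nat_lit 7) (nat_lit 11) (by decide +kernel)
theorem L78508 : W_29 (nat_lit 3) (nat_lit 0x3000080004000300010001000080000000000000000000000000000000) (nat_lit 0x0) (nat_lit 0x200030000800000002000000000000000000000000000000000000000000000000) := T_29 (nat_lit 245) (nat_lit 193) (nat_lit 4) (nat_lit 7) (nat_lit 14) L78507 (by decide +kernel)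
theorem L78509 : W_29 (nat_lit 4) (nat_lit 0x3000080004000300000001000080000000000000000000000000000000) (nat_lit 0x0) (nat_lit 0x200030000800100002000000010000000000000000000000000000000000000000) := T_29 (nat_lit 160) (nat_lit 212) (nat_lit 7) (nat_lit 7) (nat_lit 9) L78508 (by decide +kernel)
theorem L78510 : W_29 (nat_lit 5) (nat_lit 0x1000080004000300000001000080000000000000000000000000000000) (nat_lit 0x0) (nat_lit 0x200070002800100002000000010000000000000000000000000000000000000000) := T_29 (nat_lit 229) (nat_lit 246) (nat_lit 7) (nat_lit 7) (nat_lit 10) L78509 (by decide +kernel)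
theorem L78511 : W_29 (nat_lit 6) (nat_lit 0x1000080004000200000001000080000000000000000000000000000000) (nat_lit 0x0) (nat_lit 0x200070002800100002000100018000000000000000000000000000000000000000) := T_29 (nat_lit 176) (nat_lit 159) (nat_lit 4) (nat_lit 7) (nat_lit 13) L78510 (by decide +kernel)
theorem L78512 : W_29 (nat_lit 2) (nat_lit 0x10003000080004000300000001000080000000000000000000000000000000) (nat_lit 0x0) (nat_lit 0x200020000000000002000000000000000000000000000000000000000000000000) := D_29 (nat_lit 245) (nat_lit 193) (nat_lit 261) (nat_lit 4) (nat_lit 7) (nat_lit 14) (nat_lit 5) (nat_lit 7) (nat_lit 11) (by decide +kernel)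
theorem L78513 : W_29 (nat_lit 3) (nat_lit 0x3000080004000300000001000080000000000000000000000000000000) (nat_lit 0x0) (nat_lit 0x200030000800000002000000000000000000000000000000000000000000000000) := T_29 (nat_lit 244) (nat_lit 227) (nat_lit 5) (nat_lit 7) (nat_lit 10) L78512 (by decide +kernel)
theorem L78514 : W_29 (nat_lit 4) (nat_lit 0x3000080004000200000001000080000000000000000000000000000000) (nat_lit 0x0) (nat_lit 0x200030000800000002000100008000000000000000000000000000000000000000) := T_29 (nat_lit 176) (nat_lit 159) (nat_lit 4) (nat_lit 7) (nat_lit 13) L78513 (by decide +kernel)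
theorem L78515 : W_29 (nat_lit 5) (nat_lit 0x1000080004000200000001000080000000000000000000000000000000) (nat_lit 0x0) (nat_lit 0x200070002800000002000100008000000000000000000000000000000000000000) := T_29 (nat_lit 229) (nat_lit 246) (nat_lit 7) (nat_lit 7) (nat_lit 10) L78514 (by decide +kernel)
theorem L78516 : W_29 (nat_lit 2) (nat_lit 0x200020003000180004000300000001000080000000000000000000000000000000) (nat_lit 0x0) (nat_lit 0xc000400000000000000000000000000000000000000000000000000000000000000000) := D_29 (nat_lit 262) (nat_lit 279) (nat_lit 278) (nat_lit 6) (nat_lit 7) (nat_lit 16) (nat_lit 5) (nat_lit 7) (nat_lit 12) (by decide +kernel)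
theorem L78517 : W_29 (nat_lit 3) (nat_lit 0x20003000180004000300000001000080000000000000000000000000000000) (nat_lit 0x0) (nat_lit 0xc000600010000000000000000000000000000000000000000000000000000000000000) := T_29 (nat_lit 261) (nat_lit 244) (nat_lit 5) (nat_lit 7) (nat_lit 11) L78516 (by decide +kernel)
theorem L78518 : W_29 (nat_lit 4) (nat_lit 0x3000180004000300000001000080000000000000000000000000000000) (nat_lit 0x0) (nat_lit 0xc000600030000000000002000000000000000000000000000000000000000000000000) := T_29 (nat_lit 245) (nat_lit 193) (nat_lit 4) (nat_lit 7) (nat_lit 14) L78517 (by decide +kernel)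
theorem L78519 : W_29 (nat_lit 5) (nat_lit 0x3000080004000300000001000080000000000000000000000000000000) (nat_lit 0x0) (nat_lit 0xc000600030000000100002000000010000000000000000000000000000000000000000) := T_29 (nat_lit 212) (nat_lit 160) (nat_lit 7) (nat_lit 7) (nat_lit 9) L78518 (by decide +kernel)
theorem L78520 : W_29 (nat_lit 6) (nat_lit 0x1000080004000300000001000080000000000000000000000000000000) (nat_lit 0x0) (nat_lit 0xc000600070002000100002000000010000000000000000000000000000000000000000) := T_29 (nat_lit 229) (nat_lit 246) (nat_lit 7) (nat_lit 7) (nat_lit 10) L78519 (by decide +kernel)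
theorem L78521 : W_29 (nat_lit 7) (nat_lit 0x1000080004000200000001000080000000000000000000000000000000) (nat_lit 0x0) (nat_lit 0xc000600070002000100002000100018000000000000000000000000000000000000000) := T_29 (nat_lit 176) (nat_lit 159) (nat_lit 4) (nat_lit 7) (nat_lit 13) L78520 (by decide +kernel)
theorem L78522 : W_29 (nat_lit 2) (nat_lit 0x1c000c00060003a0000001000080000000000000000000000000000000) (nat_lit 0x0) (nat_lit 0x300100000000000000000000000000000000000000000000000000000) := D_29 (nat_lit 225) (nat_lit 212) (nat_lit 224) (nat_lit 2) (nat_lit 4) (nat_lit 13) (nat_lit 2) (nat_lit 3) (nat_lit 13) (by decide +kernel)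
theorem L78523 : W_29 (nat_lit 3) (nat_lit 0x18000c00060003a0000001000080000000000000000000000000000000) (nat_lit 0x0) (nat_lit 0x8000700100000000000000000000000000000000000000000000000000000) := T_29 (nat_lit 226) (nat_lit 243) (nat_lit 5) (nat_lit 6) (nat_lit 10) L78522 (by decide +kernel)
theorem L78524 : W_29 (nat_lit 4) (nat_lit 0x18000c0006000380000001000080000000000000000000000000000000) (nat_lit 0x0) (nat_lit 0x8000700100000000060000000000000000000000000000000000000000000) := T_29 (nat_lit 173) (nat_lit 174) (nat_lit 3) (nat_lit 3) (nat_lit 10) L78523 (by decide +kernel)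
theorem L78525 : W_29 (nat_lit 5) (nat_lit 0x18000c0006000300000001000080000000000000000000000000000000) (nat_lit 0x0) (nat_lit 0x80007001000000000e0004000000000000000000000000000000000000000) := T_29 (nat_lit 175) (nat_lit 158) (nat_lit 4) (nat_lit 6) (nat_lit 13) L78524 (by decide +kernel)
theorem L78526 : W_29 (nat_lit 6) (nat_lit 0x18000c0004000300000001000080000000000000000000000000000000) (nat_lit 0x0) (nat_lit 0x280007001000020000e0004000000000000000000000000000000000000000) := T_29 (nat_lit 193) (nat_lit 245) (nat_lit 7) (nat_lit 6) (nat_lit 10) L78525 (by decide +kernel)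
theorem L78527 : W_29 (nat_lit 7) (nat_lit 0x1800080004000300000001000080000000000000000000000000000000) (nat_lit 0x0) (nat_lit 0x280007001400020000e0014000000000000000000000000000000000000000) := T_29 (nat_lit 210) (nat_lit 160) (nat_lit 5) (nat_lit 7) (nat_lit 9) L78526 (by decide +kernel)
theorem L78528 : W_29 (nat_lit 8) (nat_lit 0x1000080004000300000001000080000000000000000000000000000000) (nat_lit 0x0) (nat_lit 0x38000f001400020000e0014000000000000000000000000000000000000000) := T_29 (nat_lit 227) (nat_lit 244) (nat_lit 5) (nat_lit 7) (nat_lit 10) L78527 (by decide +kernel)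
theorem L78529 : W_29 (nat_lit 9) (nat_lit 0x1000080004000200000001000080000000000000000000000000000000) (nat_lit 0x0) (nat_lit 0x38000f001400020001e001c000000000000000000000000000000000000000) := T_29 (nat_lit 176) (nat_lit 159) (nat_lit 4) (nat_lit 7) (nat_lit 13) L78528 (by decide +kernel)
theorem L78530 : W_29 (nat_lit 2) (nat_lit 0x3000180007000300000001000080000000000000000000000000000000) (nat_lit 0x0) (nat_lit 0x640000000000000000000000000000000000000000000000000000) := D_29 (nat_lit 213) (nat_lit 214) (nat_lit 210) (nat_lit 0) (nat_lit 10) (nat_lit 12) (nat_lit 0) (nat_lit 9) (nat_lit 12) (by decide +kernel)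
theorem L78531 : W_29 (nat_lit 3) (nat_lit 0x3000180006000300000001000080000000000000000000000000000000) (nat_lit 0x0) (nat_lit 0x640001800000000000000000000000000000000000000000000000) := T_29 (nat_lit 192) (nat_lit 191) (nat_lit 3) (nat_lit 4) (nat_lit 11) L78530 (by decide +kernel)
theorem L78532 : W_29 (nat_lit 4) (nat_lit 0x3000180004000300000001000080000000000000000000000000000000) (nat_lit 0x0) (nat_lit 0x20000000640003800000000000000000000000000000000000000000000000) := T_29 (nat_lit 193) (nat_lit 245) (nat_lit 4) (nat_lit 7) (nat_lit 14) L78531 (by decide +kernel)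
theorem L78533 : W_29 (nat_lit 5) (nat_lit 0x3000080004000300000001000080000000000000000000000000000000) (nat_lit 0x0) (nat_lit 0x20000000740003800000010000000000000000000000000000000000000000) := T_29 (nat_lit 212) (nat_lit 160) (nat_lit 7) (nat_lit 7) (nat_lit 9) L78532 (by decide +kernel)
theorem L78534 : W_29 (nat_lit 6) (nat_lit 0x1000080004000300000001000080000000000000000000000000000000) (nat_lit 0x0) (nat_lit 0x60002000740003800000010000000000000000000000000000000000000000) := T_29 (nat_lit 229) (nat_lit 246) (nat_lit 7) (nat_lit 7) (nat_lit 10) L78533 (by decide +kernel)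
theorem L78535 : W_29 (nat_lit 7) (nat_lit 0x1000080004000200000001000080000000000000000000000000000000) (nat_lit 0x0) (nat_lit 0x60002000740003800100018000000000000000000000000000000000000000) := T_29 (nat_lit 176) (nat_lit 159) (nat_lit 4) (nat_lit 7) (nat_lit 13) L78534 (by decide +kernel)
theorem L78536 : W_29 (nat_lit 10) (nat_lit 0x80004000200000001000080000000000000000000000000000000) (nat_lit 0x0) (nat_lit 0xc000600078003f007400038001e001c000000000000000000000000000000000000000) := Q_29 (nat_lit 228) (C_29 L78506 (C_29 L78511 (C_29 L6672 (C_29 L78515 (C_29 L78521 (C_29 L78529 (C_29 L78535 N_29))))))) (by decide +kernel)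
theorem L78545 : W_29 (nat_lit 2) (nat_lit 0x1800080007800200000001000080000000000000000000000000000000) (nat_lit 0x0) (nat_lit 0x40000400100000000000000000000000000000000000000000000) := D_29 (nat_lit 190) (nat_lit 176) (nat_lit 210) (nat_lit 2) (nat_lit 3) (nat_lit 11) (nat_lit 3) (nat_lit 3) (nat_lit 11) (by decide +kernel)
theorem L78546 : W_29 (nat_lit 3) (nat_lit 0x1800080007000200000001000080000000000000000000000000000000) (nat_lit 0x0) (nat_lit 0x40000c00500000000000000000000000000000000000000000000) := T_29 (nat_lit 191) (nat_lit 178) (nat_lit 2) (nat_lit 4) (nat_lit 11) L78545 (by decide +kernel)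
theorem L78547 : W_29 (nat_lit 4) (nat_lit 0x1000080007000200000001000080000000000000000000000000000000) (nat_lit 0x0) (nat_lit 0x10000800040000c00500000000000000000000000000000000000000000000) := T_29 (nat_lit 227) (nat_lit 244) (nat_lit 5) (nat_lit 7) (nat_lit 10) L78546 (by decide +kernel)
theorem L78548 : W_29 (nat_lit 2) (nat_lit 0x1000080007800200000001000080000000000000000000000000000000) (nat_lit 0x0) (nat_lit 0x40000400100000000000000000000000000000000000000000000) := D_29 (nat_lit 190) (nat_lit 210) (nat_lit 176) (nat_lit 3) (nat_lit 3) (nat_lit 11) (nat_lit 2) (nat_lit 3) (nat_lit 11) (by decide +kernel)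
theorem L78549 : W_29 (nat_lit 3) (nat_lit 0x1000080007000200000001000080000000000000000000000000000000) (nat_lit 0x0) (nat_lit 0x140000c00100000000000000000000000000000000000000000000) := T_29 (nat_lit 191) (nat_lit 212) (nat_lit 3) (nat_lit 4) (nat_lit 11) L78548 (by decide +kernel)
theorem L78550 : W_29 (nat_lit 2) (nat_lit 0x1000080007000200000001000080000000000000000000000000000000) (nat_lit 0x0) (nat_lit 0x100000800400000000000000000000000000000000000000000000) := D_29 (nat_lit 191) (nat_lit 178) (nat_lit 212) (nat_lit 2) (nat_lit 4) (nat_lit 11) (nat_lit 3) (nat_lit 4) (nat_lit 11) (by decide +kernel)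
theorem L78551 : W_29 (nat_lit 2) (nat_lit 0x100014001e0007000200000001000080000000000000000000000000000000) (nat_lit 0x0) (nat_lit 0x300008000000000000000000000000000000000000000000000000000000000000) := D_29 (nat_lit 243) (nat_lit 260) (nat_lit 261) (nat_lit 6) (nat_lit 5) (nat_lit 15) (nat_lit 7) (nat_lit 5) (nat_lit 11) (by decide +kernel)
theorem L78552 : W_29 (nat_lit 3) (nat_lit 0x100010001e0007000200000001000080000000000000000000000000000000) (nat_lit 0x0) (nat_lit 0x300008000600000000000000000000000000000000000000000000000000000000) := T_29 (nat_lit 226) (nat_lit 225) (nat_lit 1) (nat_lit 8) (nat_lit 12) L78551 (by decide +kernel)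
theorem L78553 : W_29 (nat_lit 4) (nat_lit 0x10001e0007000200000001000080000000000000000000000000000000) (nat_lit 0x0) (nat_lit 0x300018000e00000000000000000000000000000000000000000000000000000000) := T_29 (nat_lit 244) (nat_lit 227) (nat_lit 6) (nat_lit 6) (nat_lit 14) L78552 (by decide +kernel)
theorem L78554 : W_29 (nat_lit 2) (nat_lit 0x1000180007000200000001000080000000000000000000000000000000) (nat_lit 0x0) (nat_lit 0x640000000000000000000000000000000000000000000000000000) := D_29 (nat_lit 213) (nat_lit 214) (nat_lit 210) (nat_lit 0) (nat_lit 10) (nat_lit 12) (nat_lit 0) (nat_lit 9) (nat_lit 12) (by decide +kernel)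
theorem L78555 : W_29 (nat_lit 2) (nat_lit 0x1000080007000a00000001000080000000000000000000000000000000) (nat_lit 0x0) (nat_lit 0x500008000000000000000000000000000000000000000) := D_29 (nat_lit 176) (nat_lit 159) (nat_lit 178) (nat_lit 4) (nat_lit 7) (nat_lit 13) (nat_lit 1) (nat_lit 9) (nat_lit 10) (by decide +kernel)
theorem L78556 : W_29 (nat_lit 2) (nat_lit 0xa001e00088007000b00000001000080000000000000000000000000000000) (nat_lit 0x0) (nat_lit 0x1000100004000000000000000000000000000000000000000000000000000) := D_29 (nat_lit 224) (nat_lit 240) (nat_lit 206) (nat_lit 1) (nat_lit 6) (nat_lit 13) (nat_lit 0) (nat_lit 6) (nat_lit 13) (by decide +kernel)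
theorem L78557 : W_29 (nat_lit 3) (nat_lit 0xa001e00080007000b00000001000080000000000000000000000000000000) (nat_lit 0x0) (nat_lit 0x100010001c000000000000000000000000000000000000000000000000000) := T_29 (nat_lit 207) (nat_lit 208) (nat_lit 0) (nat_lit 7) (nat_lit 13) L78556 (by decide +kernel)
theorem L78558 : W_29 (nat_lit 4) (nat_lit 0x8001e00080007000b00000001000080000000000000000000000000000000) (nat_lit 0x0) (nat_lit 0x700010001c000000000000000000000000000000000000000000000000000) := T_29 (nat_lit 241) (nat_lit 242) (nat_lit 1) (nat_lit 7) (nat_lit 13) L78557 (by decide +kernel)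
theorem L78559 : W_29 (nat_lit 5) (nat_lit 0x8001c00080007000b00000001000080000000000000000000000000000000) (nat_lit 0x0) (nat_lit 0x700030011c000000000000000000000000000000000000000000000000000) := T_29 (nat_lit 225) (nat_lit 212) (nat_lit 2) (nat_lit 4) (nat_lit 13) L78558 (by decide +kernel)
theorem L78560 : W_29 (nat_lit 6) (nat_lit 0x1c00080007000b00000001000080000000000000000000000000000000) (nat_lit 0x0) (nat_lit 0xf00030013c000000000000000000000000000000000000000000000000000) := T_29 (nat_lit 243) (nat_lit 209) (nat_lit 6) (nat_lit 5) (nat_lit 14) L78559 (by decide +kernel)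
theorem L78561 : W_29 (nat_lit 7) (nat_lit 0x1c00080007000300000001000080000000000000000000000000000000) (nat_lit 0x0) (nat_lit 0xf00030013c000000c00000000000000000000000000000000000000000000) := T_29 (nat_lit 179) (nat_lit 178) (nat_lit 1) (nat_lit 9) (nat_lit 10) L78560 (by decide +kernel)
theorem L78562 : W_29 (nat_lit 8) (nat_lit 0x1c00080007000200000001000080000000000000000000000000000000) (nat_lit 0x0) (nat_lit 0xf00030013c000000d00008000000000000000000000000000000000000000) := T_29 (nat_lit 176) (nat_lit 159) (nat_lit 4) (nat_lit 7) (nat_lit 13) L78561 (by decide +kernel)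
theorem L78563 : W_29 (nat_lit 2) (nat_lit 0x1f00080007000200000001000080000000000000000000000000000000) (nat_lit 0x0) (nat_lit 0x7000000000000000000000000000000000000000000000000000000000000) := D_29 (nat_lit 241) (nat_lit 240) (nat_lit 242) (nat_lit 1) (nat_lit 6) (nat_lit 13) (nat_lit 1) (nat_lit 7) (nat_lit 13) (by decide +kernel)
theorem L78564 : W_29 (nat_lit 3) (nat_lit 0x1e00080007000200000001000080000000000000000000000000000000) (nat_lit 0x0) (nat_lit 0x7000100040000000000000000000000000000000000000000000000000000) := T_29 (nat_lit 224) (nat_lit 210) (nat_lit 2) (nat_lit 3) (nat_lit 13) L78563 (by decide +kernel)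
theorem L78565 : W_29 (nat_lit 4) (nat_lit 0x1c00080007000200000001000080000000000000000000000000000000) (nat_lit 0x0) (nat_lit 0x7000300140000000000000000000000000000000000000000000000000000) := T_29 (nat_lit 225) (nat_lit 212) (nat_lit 2) (nat_lit 4) (nat_lit 13) L78564 (by decide +kernel)
theorem L78566 : W_29 (nat_lit 2) (nat_lit 0x1c00080007000300000001000080000000000000000000000000000000) (nat_lit 0x0) (nat_lit 0x8000000060000000000000000000000000000000000000000000000000000) := D_29 (nat_lit 243) (nat_lit 210) (nat_lit 209) (nat_lit 5) (nat_lit 6) (nat_lit 10) (nat_lit 6) (nat_lit 5) (nat_lit 14) (by decide +kernel)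
theorem L78567 : W_29 (nat_lit 3) (nat_lit 0x1c00080007000200000001000080000000000000000000000000000000) (nat_lit 0x0) (nat_lit 0x8000000060000000100008000000000000000000000000000000000000000) := T_29 (nat_lit 176) (nat_lit 159) (nat_lit 4) (nat_lit 7) (nat_lit 13) L78566 (by decide +kernel)
theorem L78568 : W_29 (nat_lit 9) (nat_lit 0x1800080007000200000001000080000000000000000000000000000000) (nat_lit 0x0) (nat_lit 0xf00070017c000000d00008000000000000000000000000000000000000000) := Q_29 (nat_lit 226) (C_29 L78562 (C_29 L78565 (C_29 L78567 N_29))) (by decide +kernel)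
theorem L78569 : W_29 (nat_lit 10) (nat_lit 0x1000080007000200000001000080000000000000000000000000000000) (nat_lit 0x0) (nat_lit 0x1f000f0017c000000d00008000000000000000000000000000000000000000) := T_29 (nat_lit 227) (nat_lit 244) (nat_lit 5) (nat_lit 7) (nat_lit 10) L78568 (by decide +kernel)
theorem L78570 : W_29 (nat_lit 11) (nat_lit 0x1000080006000200000001000080000000000000000000000000000000) (nat_lit 0x0) (nat_lit 0x1f000f0017c001c00d00008000000000000000000000000000000000000000) := Q_29 (nat_lit 192) (C_29 L78547 (C_29 L78549 (C_29 L78550 (C_29 L78569 N_29)))) (by decide +kernel)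
theorem L78571 : W_29 (nat_lit 2) (nat_lit 0x38000c0006000200008001000080000000000000000000000000000000) (nat_lit 0x0) (nat_lit 0x4000030000000000000000000000000000000000000000000000000000) := D_29 (nat_lit 209) (nat_lit 208) (nat_lit 230) (nat_lit 3) (nat_lit 4) (nat_lit 12) (nat_lit 0) (nat_lit 9) (nat_lit 13) (by decide +kernel)
theorem L78572 : W_29 (nat_lit 3) (nat_lit 0x18000c0006000200008001000080000000000000000000000000000000) (nat_lit 0x0) (nat_lit 0x40006000030000000000000000000000000000000000000000000000000000) := T_29 (nat_lit 229) (nat_lit 246) (nat_lit 7) (nat_lit 7) (nat_lit 10) L78571 (by decide +kernel)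
theorem L78573 : W_29 (nat_lit 4) (nat_lit 0x18000c0006000200000001000080000000000000000000000000000000) (nat_lit 0x0) (nat_lit 0x40006000030000000100008000000000000000000000000000000000000000) := T_29 (nat_lit 159) (nat_lit 176) (nat_lit 7) (nat_lit 6) (nat_lit 9) L78572 (by decide +kernel)
theorem L78574 : W_29 (nat_lit 5) (nat_lit 0x10000c0006000200000001000080000000000000000000000000000000) (nat_lit 0x0) (nat_lit 0x50006800030000000100008000000000000000000000000000000000000000) := T_29 (nat_lit 227) (nat_lit 244) (nat_lit 6) (nat_lit 6) (nat_lit 14) L78573 (by decide +kernel)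
theorem L78589 : W_29 (nat_lit 6) (nat_lit 0x10000c0006000300000001000080000000000000000000000000000000) (nat_lit 0x0) (nat_lit 0x18000f001000000000e0004000000000000000000000000000000000000000) := T_29 (nat_lit 227) (nat_lit 244) (nat_lit 6) (nat_lit 6) (nat_lit 14) L78525 (by decide +kernel)
theorem L78590 : W_29 (nat_lit 7) (nat_lit 0x10000c0006000200000001000080000000000000000000000000000000) (nat_lit 0x0) (nat_lit 0x18000f001000000001e000c000000000000000000000000000000000000000) := T_29 (nat_lit 176) (nat_lit 159) (nat_lit 7) (nat_lit 6) (nat_lit 9) L78589 (by decide +kernel)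
theorem L78597 : W_29 (nat_lit 2) (nat_lit 0x30000e0007000200000001000080000000000000000000000000000000) (nat_lit 0x0) (nat_lit 0xc800000000000000000000000000000000000000000000000000000000) := D_29 (nat_lit 230) (nat_lit 231) (nat_lit 227) (nat_lit 0) (nat_lit 10) (nat_lit 13) (nat_lit 0) (nat_lit 9) (nat_lit 13) (by decide +kernel)
theorem L78598 : W_29 (nat_lit 3) (nat_lit 0x30000c0007000200000001000080000000000000000000000000000000) (nat_lit 0x0) (nat_lit 0xc800030000000000000000000000000000000000000000000000000000) := T_29 (nat_lit 209) (nat_lit 208) (nat_lit 3) (nat_lit 4) (nat_lit 12) L78597 (by decide +kernel)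
theorem L78599 : W_29 (nat_lit 4) (nat_lit 0x10000c0007000200000001000080000000000000000000000000000000) (nat_lit 0x0) (nat_lit 0x4000e800030000000000000000000000000000000000000000000000000000) := T_29 (nat_lit 229) (nat_lit 246) (nat_lit 7) (nat_lit 7) (nat_lit 10) L78598 (by decide +kernel)
theorem L78600 : W_29 (nat_lit 2) (nat_lit 0x30001c0007000200000001000080000000000000000000000000000000) (nat_lit 0x0) (nat_lit 0x4000030000000000000000000000000000000000000000000000000000) := D_29 (nat_lit 209) (nat_lit 230) (nat_lit 208) (nat_lit 3) (nat_lit 5) (nat_lit 12) (nat_lit 3) (nat_lit 4) (nat_lit 12) (by decide +kernel)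
theorem L78601 : W_29 (nat_lit 3) (nat_lit 0x10001c0007000200000001000080000000000000000000000000000000) (nat_lit 0x0) (nat_lit 0x40006000030000000000000000000000000000000000000000000000000000) := T_29 (nat_lit 229) (nat_lit 246) (nat_lit 7) (nat_lit 7) (nat_lit 10) L78600 (by decide +kernel)
theorem L78602 : W_29 (nat_lit 4) (nat_lit 0x10000c0007000200000001000080000000000000000000000000000000) (nat_lit 0x0) (nat_lit 0x40006000330000000000000000000000000000000000000000000000000000) := T_29 (nat_lit 212) (nat_lit 213) (nat_lit 0) (nat_lit 9) (nat_lit 12) L78601 (by decide +kernel)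
theorem L78609 : W_29 (nat_lit 7) (nat_lit 0x10001c0007000200000001000080000000000000000000000000000000) (nat_lit 0x0) (nat_lit 0x18000e000200000001e0007000000000000000000000000000000000000000) := T_29 (nat_lit 227) (nat_lit 244) (nat_lit 6) (nat_lit 6) (nat_lit 14) L9979 (by decide +kernel)
theorem L78610 : W_29 (nat_lit 8) (nat_lit 0x10000c0007000200000001000080000000000000000000000000000000) (nat_lit 0x0) (nat_lit 0x18000e003200000001e0007000000000000000000000000000000000000000) := T_29 (nat_lit 212) (nat_lit 213) (nat_lit 0) (nat_lit 9) (nat_lit 12) L78609 (by decide +kernel)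
theorem L78613 : W_29 (nat_lit 2) (nat_lit 0x8003c005a0006800200000001000080000000000000000000000000000000) (nat_lit 0x0) (nat_lit 0x100000004000040000000000000000000000000000000000000000000000000000) := D_29 (nat_lit 210) (nat_lit 230) (nat_lit 260) (nat_lit 3) (nat_lit 5) (nat_lit 12) (nat_lit 6) (nat_lit 5) (nat_lit 15) (by decide +kernel)
theorem L78614 : W_29 (nat_lit 3) (nat_lit 0x8003c00580006800200000001000080000000000000000000000000000000) (nat_lit 0x0) (nat_lit 0x100000004000070000000000000000000000000000000000000000000000000000) := T_29 (nat_lit 209) (nat_lit 208) (nat_lit 0) (nat_lit 8) (nat_lit 13) L78613 (by decide +kernel)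
theorem L78615 : W_29 (nat_lit 4) (nat_lit 0x3c00580006800200000001000080000000000000000000000000000000) (nat_lit 0x0) (nat_lit 0x10000c004000070000000000000000000000000000000000000000000000000000) := T_29 (nat_lit 243) (nat_lit 242) (nat_lit 1) (nat_lit 8) (nat_lit 13) L78614 (by decide +kernel)
theorem L78616 : W_29 (nat_lit 5) (nat_lit 0x3800580006800200000001000080000000000000000000000000000000) (nat_lit 0x0) (nat_lit 0x10000c004600070000000000000000000000000000000000000000000000000000) := T_29 (nat_lit 226) (nat_lit 225) (nat_lit 2) (nat_lit 4) (nat_lit 13) L78615 (by decide +kernel)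
theorem L78617 : W_29 (nat_lit 6) (nat_lit 0x3000580006800200000001000080000000000000000000000000000000) (nat_lit 0x0) (nat_lit 0x10001c004e00070000000000000000000000000000000000000000000000000000) := T_29 (nat_lit 227) (nat_lit 244) (nat_lit 5) (nat_lit 7) (nat_lit 10) L78616 (by decide +kernel)
theorem L78618 : W_29 (nat_lit 7) (nat_lit 0x3000180006800200000001000080000000000000000000000000000000) (nat_lit 0x0) (nat_lit 0x10001c004e00670000000000000000000000000000000000000000000000000000) := T_29 (nat_lit 214) (nat_lit 213) (nat_lit 0) (nat_lit 10) (nat_lit 12) L78617 (by decide +kernel)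
theorem L78619 : W_29 (nat_lit 8) (nat_lit 0x3000180006000200000001000080000000000000000000000000000000) (nat_lit 0x0) (nat_lit 0x10001c004e00670001800000000000000000000000000000000000000000000000) := T_29 (nat_lit 191) (nat_lit 192) (nat_lit 3) (nat_lit 4) (nat_lit 11) L78618 (by decide +kernel)
theorem L78620 : W_29 (nat_lit 9) (nat_lit 0x1000180006000200000001000080000000000000000000000000000000) (nat_lit 0x0) (nat_lit 0x10005c006e00670001800000000000000000000000000000000000000000000000) := T_29 (nat_lit 229) (nat_lit 246) (nat_lit 7) (nat_lit 7) (nat_lit 10) L78619 (by decide +kernel)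
theorem L78621 : W_29 (nat_lit 2) (nat_lit 0x8003c001a0006000200000001000080000000000000000000000000000000) (nat_lit 0x0) (nat_lit 0x100000004000040000000000000000000000000000000000000000000000000000) := D_29 (nat_lit 210) (nat_lit 230) (nat_lit 260) (nat_lit 3) (nat_lit 5) (nat_lit 12) (nat_lit 6) (nat_lit 5) (nat_lit 15) (by decide +kernel)
theorem L78622 : W_29 (nat_lit 3) (nat_lit 0x8003c00180006000200000001000080000000000000000000000000000000) (nat_lit 0x0) (nat_lit 0x100000004000070000000000000000000000000000000000000000000000000000) := T_29 (nat_lit 209) (nat_lit 208) (nat_lit 0) (nat_lit 8) (nat_lit 13) L78621 (by decide +kernel)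
theorem L78623 : W_29 (nat_lit 4) (nat_lit 0x3c00180006000200000001000080000000000000000000000000000000) (nat_lit 0x0) (nat_lit 0x10000c004000070000000000000000000000000000000000000000000000000000) := T_29 (nat_lit 243) (nat_lit 242) (nat_lit 1) (nat_lit 8) (nat_lit 13) L78622 (by decide +kernel)
theorem L78624 : W_29 (nat_lit 5) (nat_lit 0x1c00180006000200000001000080000000000000000000000000000000) (nat_lit 0x0) (nat_lit 0x10004c006000070000000000000000000000000000000000000000000000000000) := T_29 (nat_lit 229) (nat_lit 246) (nat_lit 7) (nat_lit 7) (nat_lit 10) L78623 (by decide +kernel)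
theorem L78625 : W_29 (nat_lit 6) (nat_lit 0x1800180006000200000001000080000000000000000000000000000000) (nat_lit 0x0) (nat_lit 0x10004c006600070000000000000000000000000000000000000000000000000000) := T_29 (nat_lit 226) (nat_lit 225) (nat_lit 2) (nat_lit 4) (nat_lit 13) L78624 (by decide +kernel)
theorem L78626 : W_29 (nat_lit 7) (nat_lit 0x1000180006000200000001000080000000000000000000000000000000) (nat_lit 0x0) (nat_lit 0x10005c006e00070000000000000000000000000000000000000000000000000000) := T_29 (nat_lit 227) (nat_lit 244) (nat_lit 5) (nat_lit 7) (nat_lit 10) L78625 (by decide +kernel)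
theorem L78627 : W_29 (nat_lit 10) (nat_lit 0x1000080006000200000001000080000000000000000000000000000000) (nat_lit 0x0) (nat_lit 0x10005c006e00770001800000000000000000000000000000000000000000000000) := Q_29 (nat_lit 212) (C_29 L78620 (C_29 L6307 (C_29 L17408 (C_29 L78626 (C_29 L17679 N_29))))) (by decide +kernel)
theorem L78628 : W_29 (nat_lit 2) (nat_lit 0x1800080007800200000001000080000000000000000000000000000000) (nat_lit 0x0) (nat_lit 0x400100008000000000000000000000000000000000000000) := D_29 (nat_lit 176) (nat_lit 190) (nat_lit 159) (nat_lit 2) (nat_lit 3) (nat_lit 11) (nat_lit 4) (nat_lit 7) (nat_lit 13) (by decide +kernel)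
theorem L78629 : W_29 (nat_lit 3) (nat_lit 0x1800080007000200000001000080000000000000000000000000000000) (nat_lit 0x0) (nat_lit 0xc00500008000000000000000000000000000000000000000) := T_29 (nat_lit 191) (nat_lit 178) (nat_lit 2) (nat_lit 4) (nat_lit 11) L78628 (by decide +kernel)
theorem L78630 : W_29 (nat_lit 4) (nat_lit 0x1000080007000200000001000080000000000000000000000000000000) (nat_lit 0x0) (nat_lit 0x10000800000000c00500008000000000000000000000000000000000000000) := T_29 (nat_lit 227) (nat_lit 244) (nat_lit 5) (nat_lit 7) (nat_lit 10) L78629 (by decide +kernel)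
theorem L78631 : W_29 (nat_lit 2) (nat_lit 0x1000080007000300000001000080000000000000000000000000000000) (nat_lit 0x0) (nat_lit 0x100000c00000000000000000000000000000000000000000000000) := D_29 (nat_lit 191) (nat_lit 190) (nat_lit 212) (nat_lit 2) (nat_lit 3) (nat_lit 11) (nat_lit 3) (nat_lit 4) (nat_lit 11) (by decide +kernel)
theorem L78632 : W_29 (nat_lit 3) (nat_lit 0x1000080007000200000001000080000000000000000000000000000000) (nat_lit 0x0) (nat_lit 0x100000c00100008000000000000000000000000000000000000000) := T_29 (nat_lit 176) (nat_lit 159) (nat_lit 4) (nat_lit 7) (nat_lit 13) L78631 (by decide +kernel)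
theorem L78633 : W_29 (nat_lit 2) (nat_lit 0x3000680007000a00000001000080000000000000000000000000000000) (nat_lit 0x0) (nat_lit 0x10004800000000000000000000000000000000000000000000000000000000) := D_29 (nat_lit 227) (nat_lit 244) (nat_lit 230) (nat_lit 5) (nat_lit 7) (nat_lit 10) (nat_lit 2) (nat_lit 6) (nat_lit 13) (by decide +kernel)
theorem L78634 : W_29 (nat_lit 3) (nat_lit 0x3000280007000a00000001000080000000000000000000000000000000) (nat_lit 0x0) (nat_lit 0x10004800500000000000000000000000000000000000000000000000000000) := T_29 (nat_lit 214) (nat_lit 212) (nat_lit 0) (nat_lit 10) (nat_lit 12) L78633 (by decide +kernel)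
theorem L78635 : W_29 (nat_lit 4) (nat_lit 0x1000280007000a00000001000080000000000000000000000000000000) (nat_lit 0x0) (nat_lit 0x50006800500000000000000000000000000000000000000000000000000000) := T_29 (nat_lit 229) (nat_lit 246) (nat_lit 7) (nat_lit 7) (nat_lit 10) L78634 (by decide +kernel)
theorem L78636 : W_29 (nat_lit 2) (nat_lit 0x3000380007000200000001000080000000000000000000000000000000) (nat_lit 0x0) (nat_lit 0x10000c00000000000000000000000000000000000000000000000000000000) := D_29 (nat_lit 227) (nat_lit 244) (nat_lit 226) (nat_lit 5) (nat_lit 7) (nat_lit 10) (nat_lit 2) (nat_lit 5) (nat_lit 13) (by decide +kernel)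
theorem L78637 : W_29 (nat_lit 3) (nat_lit 0x3000180007000200000001000080000000000000000000000000000000) (nat_lit 0x0) (nat_lit 0x10000c00600000000000000000000000000000000000000000000000000000) := T_29 (nat_lit 213) (nat_lit 214) (nat_lit 0) (nat_lit 10) (nat_lit 12) L78636 (by decide +kernel)
theorem L78638 : W_29 (nat_lit 4) (nat_lit 0x1000180007000200000001000080000000000000000000000000000000) (nat_lit 0x0) (nat_lit 0x50002c00600000000000000000000000000000000000000000000000000000) := T_29 (nat_lit 229) (nat_lit 246) (nat_lit 7) (nat_lit 7) (nat_lit 10) L78637 (by decide +kernel)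
theorem L78639 : W_29 (nat_lit 2) (nat_lit 0x4001e00080007000200000001000080000000000000000000000000000000) (nat_lit 0x0) (nat_lit 0x48002000000000000000000000000000000000000000000000000000000000) := D_29 (nat_lit 229) (nat_lit 246) (nat_lit 243) (nat_lit 7) (nat_lit 7) (nat_lit 10) (nat_lit 1) (nat_lit 8) (nat_lit 13) (by decide +kernel)
theorem L78640 : W_29 (nat_lit 3) (nat_lit 0x1e00080007000200000001000080000000000000000000000000000000) (nat_lit 0x0) (nat_lit 0x4e002000000000000000000000000000000000000000000000000000000000) := T_29 (nat_lit 242) (nat_lit 241) (nat_lit 1) (nat_lit 7) (nat_lit 13) L78639 (by decide +kernel)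
theorem L78641 : W_29 (nat_lit 4) (nat_lit 0x1c00080007000200000001000080000000000000000000000000000000) (nat_lit 0x0) (nat_lit 0x4e002200100000000000000000000000000000000000000000000000000000) := T_29 (nat_lit 225) (nat_lit 212) (nat_lit 2) (nat_lit 4) (nat_lit 13) L78640 (by decide +kernel)
theorem L78642 : W_29 (nat_lit 2) (nat_lit 0x8001c00080007000b00000001000080000000000000000000000000000000) (nat_lit 0x0) (nat_lit 0x44002000000000000000000000000000000000000000000000000000000000) := D_29 (nat_lit 229) (nat_lit 242) (nat_lit 246) (nat_lit 1) (nat_lit 8) (nat_lit 13) (nat_lit 7) (nat_lit 7) (nat_lit 10) (by decide +kernel)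
theorem L78643 : W_29 (nat_lit 3) (nat_lit 0x1c00080007000b00000001000080000000000000000000000000000000) (nat_lit 0x0) (nat_lit 0x4c002000020000000000000000000000000000000000000000000000000000) := T_29 (nat_lit 243) (nat_lit 209) (nat_lit 6) (nat_lit 5) (nat_lit 14) L78642 (by decide +kernel)
theorem L78644 : W_29 (nat_lit 4) (nat_lit 0x1c00080007000300000001000080000000000000000000000000000000) (nat_lit 0x0) (nat_lit 0x4c002000020000000c00000000000000000000000000000000000000000000) := T_29 (nat_lit 179) (nat_lit 178) (nat_lit 1) (nat_lit 9) (nat_lit 10) L78643 (by decide +kernel)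
theorem L78645 : W_29 (nat_lit 5) (nat_lit 0x1c00080007000200000001000080000000000000000000000000000000) (nat_lit 0x0) (nat_lit 0x4c002000020000000d00008000000000000000000000000000000000000000) := T_29 (nat_lit 176) (nat_lit 159) (nat_lit 4) (nat_lit 7) (nat_lit 13) L78644 (by decide +kernel)
theorem L78646 : W_29 (nat_lit 2) (nat_lit 0x3c00080007000200000001000080000000000000000000000000000000) (nat_lit 0x0) (nat_lit 0x200300000000000000000000000000000000000000000000000000000) := D_29 (nat_lit 212) (nat_lit 213) (nat_lit 225) (nat_lit 2) (nat_lit 5) (nat_lit 13) (nat_lit 2) (nat_lit 4) (nat_lit 13) (by decide +kernel)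
theorem L78647 : W_29 (nat_lit 3) (nat_lit 0x1c00080007000200000001000080000000000000000000000000000000) (nat_lit 0x0) (nat_lit 0x40002200300000000000000000000000000000000000000000000000000000) := T_29 (nat_lit 229) (nat_lit 246) (nat_lit 7) (nat_lit 7) (nat_lit 10) L78646 (by decide +kernel)
theorem L78648 : W_29 (nat_lit 9) (nat_lit 0x1800080007000200000001000080000000000000000000000000000000) (nat_lit 0x0) (nat_lit 0x4f00270033c000000d00008000000000000000000000000000000000000000) := Q_29 (nat_lit 226) (C_29 L78562 (C_29 L78641 (C_29 L78645 (C_29 L78647 N_29)))) (by decide +kernel)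
theorem L78649 : W_29 (nat_lit 10) (nat_lit 0x1000080007000200000001000080000000000000000000000000000000) (nat_lit 0x0) (nat_lit 0x5f002f0033c000000d00008000000000000000000000000000000000000000) := T_29 (nat_lit 227) (nat_lit 244) (nat_lit 5) (nat_lit 7) (nat_lit 10) L78648 (by decide +kernel)
theorem L78650 : W_29 (nat_lit 11) (nat_lit 0x1000080006000200000001000080000000000000000000000000000000) (nat_lit 0x0) (nat_lit 0x5f002f0033c001c00d00008000000000000000000000000000000000000000) := Q_29 (nat_lit 192) (C_29 L78630 (C_29 L78632 (C_29 L78550 (C_29 L78649 N_29)))) (by decide +kernel)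
theorem L78651 : W_29 (nat_lit 2) (nat_lit 0x38000c0006000200000001000080000000000000000000000000000000) (nat_lit 0x0) (nat_lit 0x4000030000000000000000000000000000000000000000000000000000) := D_29 (nat_lit 209) (nat_lit 208) (nat_lit 230) (nat_lit 3) (nat_lit 4) (nat_lit 12) (nat_lit 0) (nat_lit 9) (nat_lit 13) (by decide +kernel)
theorem L78652 : W_29 (nat_lit 3) (nat_lit 0x18000c0006000200000001000080000000000000000000000000000000) (nat_lit 0x0) (nat_lit 0x40006000030000000000000000000000000000000000000000000000000000) := T_29 (nat_lit 229) (nat_lit 246) (nat_lit 7) (nat_lit 7) (nat_lit 10) L78651 (by decide +kernel)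
theorem L78653 : W_29 (nat_lit 4) (nat_lit 0x10000c0006000200000001000080000000000000000000000000000000) (nat_lit 0x0) (nat_lit 0x50006800030000000000000000000000000000000000000000000000000000) := T_29 (nat_lit 227) (nat_lit 244) (nat_lit 6) (nat_lit 6) (nat_lit 14) L78652 (by decide +kernel)
theorem L78654 : W_29 (nat_lit 2) (nat_lit 0x10000c0007000200000001000080000000000000000000000000000000) (nat_lit 0x0) (nat_lit 0xc00400000000000000000000000000000000000000000000) := D_29 (nat_lit 191) (nat_lit 190) (nat_lit 178) (nat_lit 3) (nat_lit 3) (nat_lit 11) (nat_lit 2) (nat_lit 4) (nat_lit 11) (by decide +kernel)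
theorem L78655 : W_29 (nat_lit 2) (nat_lit 0x30000d0007000200000001000080000000000000000000000000000000) (nat_lit 0x0) (nat_lit 0x8000c00000000000000000000000000000000000000000000000) := D_29 (nat_lit 191) (nat_lit 207) (nat_lit 190) (nat_lit 1) (nat_lit 7) (nat_lit 11) (nat_lit 3) (nat_lit 3) (nat_lit 11) (by decide +kernel)
theorem L78656 : W_29 (nat_lit 3) (nat_lit 0x30000c0007000200000001000080000000000000000000000000000000) (nat_lit 0x0) (nat_lit 0x38000c00000000000000000000000000000000000000000000000) := T_29 (nat_lit 208) (nat_lit 209) (nat_lit 3) (nat_lit 4) (nat_lit 12) L78655 (by decide +kernel)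
theorem L78657 : W_29 (nat_lit 4) (nat_lit 0x10000c0007000200000001000080000000000000000000000000000000) (nat_lit 0x0) (nat_lit 0x40002000038000c00000000000000000000000000000000000000000000000) := T_29 (nat_lit 229) (nat_lit 246) (nat_lit 7) (nat_lit 7) (nat_lit 10) L78656 (by decide +kernel)
theorem L78658 : W_29 (nat_lit 2) (nat_lit 0xb0000e00070003c0000001200080000000000000000000000000000000) (nat_lit 0x0) (nat_lit 0x8000400000000000000002000000000000000000000000000000000000000) := D_29 (nat_lit 226) (nat_lit 243) (nat_lit 157) (nat_lit 6) (nat_lit 5) (nat_lit 14) (nat_lit 4) (nat_lit 5) (nat_lit 13) (by decide +kernel)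
theorem L78659 : W_29 (nat_lit 3) (nat_lit 0xb0000e0007000380000001200080000000000000000000000000000000) (nat_lit 0x0) (nat_lit 0x8000400000000000060002000000000000000000000000000000000000000) := T_29 (nat_lit 174) (nat_lit 173) (nat_lit 3) (nat_lit 3) (nat_lit 10) L78658 (by decide +kernel)
theorem L78660 : W_29 (nat_lit 4) (nat_lit 0xb0000e0007000280000001200080000000000000000000000000000000) (nat_lit 0x0) (nat_lit 0x800040000000000016000a000000000000000000000000000000000000000) := T_29 (nat_lit 176) (nat_lit 159) (nat_lit 7) (nat_lit 6) (nat_lit 9) L78659 (by decide +kernel)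
theorem L78661 : W_29 (nat_lit 5) (nat_lit 0xb0000e0007000280000001000080000000000000000000000000000000) (nat_lit 0x0) (nat_lit 0x800040000000000016000e000200000000000000000000000000000000000) := T_29 (nat_lit 141) (nat_lit 158) (nat_lit 7) (nat_lit 5) (nat_lit 8) L78660 (by decide +kernel)
theorem L78662 : W_29 (nat_lit 6) (nat_lit 0x30000e0007000280000001000080000000000000000000000000000000) (nat_lit 0x0) (nat_lit 0x800c40000000000016000e000200000000000000000000000000000000000) := T_29 (nat_lit 231) (nat_lit 230) (nat_lit 0) (nat_lit 10) (nat_lit 13) L78661 (by decide +kernel)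
theorem L78663 : W_29 (nat_lit 7) (nat_lit 0x30000c0007000280000001000080000000000000000000000000000000) (nat_lit 0x0) (nat_lit 0x800c40003000000016000e000200000000000000000000000000000000000) := T_29 (nat_lit 209) (nat_lit 208) (nat_lit 3) (nat_lit 4) (nat_lit 12) L78662 (by decide +kernel)
theorem L78664 : W_29 (nat_lit 8) (nat_lit 0x10000c0007000280000001000080000000000000000000000000000000) (nat_lit 0x0) (nat_lit 0x4800e40003000000016000e000200000000000000000000000000000000000) := T_29 (nat_lit 229) (nat_lit 246) (nat_lit 7) (nat_lit 7) (nat_lit 10) L78663 (by decide +kernel)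
theorem L78665 : W_29 (nat_lit 2) (nat_lit 0xb0000c00070003a0004001000080000000000000000000000000000000) (nat_lit 0x0) (nat_lit 0xc00002000000000000000000000000000000000000000) := D_29 (nat_lit 178) (nat_lit 179) (nat_lit 157) (nat_lit 1) (nat_lit 9) (nat_lit 10) (nat_lit 0) (nat_lit 8) (nat_lit 10) (by decide +kernel)
theorem L78666 : W_29 (nat_lit 3) (nat_lit 0xb0000c00070003a0000001000080000000000000000000000000000000) (nat_lit 0x0) (nat_lit 0xc00006000200000000000000000000000000000000000) := T_29 (nat_lit 158) (nat_lit 141) (nat_lit 7) (nat_lit 5) (nat_lit 8) L78665 (by decide +kernel)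
theorem L78667 : W_29 (nat_lit 4) (nat_lit 0x30000c00070003a0000001000080000000000000000000000000000000) (nat_lit 0x0) (nat_lit 0xc000000000000c00006000200000000000000000000000000000000000) := T_29 (nat_lit 231) (nat_lit 230) (nat_lit 0) (nat_lit 10) (nat_lit 13) L78666 (by decide +kernel)
theorem L78668 : W_29 (nat_lit 5) (nat_lit 0x10000c00070003a0000001000080000000000000000000000000000000) (nat_lit 0x0) (nat_lit 0x4000e000000000000c00006000200000000000000000000000000000000000) := T_29 (nat_lit 229) (nat_lit 246) (nat_lit 7) (nat_lit 7) (nat_lit 10) L78667 (by decide +kernel)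
theorem L78669 : W_29 (nat_lit 6) (nat_lit 0x10000c0007000380000001000080000000000000000000000000000000) (nat_lit 0x0) (nat_lit 0x4000e000000000000c60006000200000000000000000000000000000000000) := T_29 (nat_lit 173) (nat_lit 174) (nat_lit 3) (nat_lit 3) (nat_lit 10) L78668 (by decide +kernel)
theorem L78670 : W_29 (nat_lit 7) (nat_lit 0x10000c0007000280000001000080000000000000000000000000000000) (nat_lit 0x0) (nat_lit 0x4000e000000000000d6000e000200000000000000000000000000000000000) := T_29 (nat_lit 176) (nat_lit 159) (nat_lit 7) (nat_lit 6) (nat_lit 9) L78669 (by decide +kernel)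
theorem L78671 : W_29 (nat_lit 2) (nat_lit 0x800b4000e0007001680006001000080000000000000000000000000000000) (nat_lit 0x0) (nat_lit 0x80004000200000000000000000000000000000000000000000000000000000000) := D_29 (nat_lit 242) (nat_lit 225) (nat_lit 259) (nat_lit 5) (nat_lit 5) (nat_lit 10) (nat_lit 5) (nat_lit 5) (nat_lit 11) (by decide +kernel)
theorem L78672 : W_29 (nat_lit 3) (nat_lit 0xb4000e0007001680006001000080000000000000000000000000000000) (nat_lit 0x0) (nat_lit 0x18000c000200000000000000000000000000000000000000000000000000000000) := T_29 (nat_lit 243) (nat_lit 260) (nat_lit 6) (nat_lit 5) (nat_lit 15) L78671 (by decide +kernel)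
theorem L78673 : W_29 (nat_lit 4) (nat_lit 0xb4000e0007000680006001000080000000000000000000000000000000) (nat_lit 0x0) (nat_lit 0x18000c000200000000001800000000000000000000000000000000000000000000) := T_29 (nat_lit 180) (nat_lit 179) (nat_lit 1) (nat_lit 10) (nat_lit 10) L78672 (by decide +kernel)
theorem L78674 : W_29 (nat_lit 5) (nat_lit 0xb0000e0007000680006001000080000000000000000000000000000000) (nat_lit 0x0) (nat_lit 0x18000c000600000000001840000000000000000000000000000000000000000000) := T_29 (nat_lit 226) (nat_lit 174) (nat_lit 4) (nat_lit 5) (nat_lit 13) L78673 (by decide +kernel)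
theorem L78675 : W_29 (nat_lit 6) (nat_lit 0xb0000e0007000280006001000080000000000000000000000000000000) (nat_lit 0x0) (nat_lit 0x18000c000600000000001d40000000000000000000000000000000000000000000) := T_29 (nat_lit 178) (nat_lit 176) (nat_lit 0) (nat_lit 8) (nat_lit 10) L78674 (by decide +kernel)
theorem L78676 : W_29 (nat_lit 7) (nat_lit 0xb0000e0007000280004001000080000000000000000000000000000000) (nat_lit 0x0) (nat_lit 0x18000c000600000000001d40002000100000000000000000000000000000000000) := T_29 (nat_lit 157) (nat_lit 140) (nat_lit 4) (nat_lit 5) (nat_lit 12) L78675 (by decide +kernel)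
theorem L78677 : W_29 (nat_lit 8) (nat_lit 0xb0000e0007000280000001000080000000000000000000000000000000) (nat_lit 0x0) (nat_lit 0x18000c000600000000001d40006000300000000000000000000000000000000000) := T_29 (nat_lit 158) (nat_lit 141) (nat_lit 7) (nat_lit 5) (nat_lit 8) L78676 (by decide +kernel)
theorem L78678 : W_29 (nat_lit 9) (nat_lit 0x30000e0007000280000001000080000000000000000000000000000000) (nat_lit 0x0) (nat_lit 0x18000c00c600000000001d40006000300000000000000000000000000000000000) := T_29 (nat_lit 231) (nat_lit 230) (nat_lit 0) (nat_lit 10) (nat_lit 13) L78677 (by decide +kernel)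
theorem L78679 : W_29 (nat_lit 10) (nat_lit 0x30000c0007000280000001000080000000000000000000000000000000) (nat_lit 0x0) (nat_lit 0x18000c00c600030000001d40006000300000000000000000000000000000000000) := T_29 (nat_lit 209) (nat_lit 208) (nat_lit 3) (nat_lit 4) (nat_lit 12) L78678 (by decide +kernel)
theorem L78680 : W_29 (nat_lit 11) (nat_lit 0x10000c0007000280000001000080000000000000000000000000000000) (nat_lit 0x0) (nat_lit 0x18004c00e600030000001d40006000300000000000000000000000000000000000) := T_29 (nat_lit 229) (nat_lit 246) (nat_lit 7) (nat_lit 7) (nat_lit 10) L78679 (by decide +kernel)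
theorem L78681 : W_29 (nat_lit 2) (nat_lit 0x400b4000e000700028000e001000080000000000000000000000000000000) (nat_lit 0x0) (nat_lit 0x180008000000000000000000000000000000000000000000000000000000000000) := D_29 (nat_lit 243) (nat_lit 260) (nat_lit 259) (nat_lit 6) (nat_lit 5) (nat_lit 15) (nat_lit 5) (nat_lit 5) (nat_lit 11) (by decide +kernel)
theorem L78682 : W_29 (nat_lit 3) (nat_lit 0xb4000e000700028000e001000080000000000000000000000000000000) (nat_lit 0x0) (nat_lit 0x18000c000200000000000000000000000000000000000000000000000000000000) := T_29 (nat_lit 242) (nat_lit 225) (nat_lit 5) (nat_lit 5) (nat_lit 10) L78681 (by decide +kernel)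
theorem L78683 : W_29 (nat_lit 4) (nat_lit 0xb0000e000700028000e001000080000000000000000000000000000000) (nat_lit 0x0) (nat_lit 0x18000c000600000000000040000000000000000000000000000000000000000000) := T_29 (nat_lit 226) (nat_lit 174) (nat_lit 4) (nat_lit 5) (nat_lit 13) L78682 (by decide +kernel)
theorem L78684 : W_29 (nat_lit 5) (nat_lit 0xb0000e0007000280006001000080000000000000000000000000000000) (nat_lit 0x0) (nat_lit 0x18000c000600000000000040008000400000000000000000000000000000000000) := T_29 (nat_lit 159) (nat_lit 142) (nat_lit 6) (nat_lit 5) (nat_lit 12) L78683 (by decide +kernel)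
theorem L78685 : W_29 (nat_lit 6) (nat_lit 0xb0000e0007000280004001000080000000000000000000000000000000) (nat_lit 0x0) (nat_lit 0x18000c00060000000000004000a000500000000000000000000000000000000000) := T_29 (nat_lit 157) (nat_lit 140) (nat_lit 4) (nat_lit 5) (nat_lit 12) L78684 (by decide +kernel)
theorem L78686 : W_29 (nat_lit 7) (nat_lit 0x30000e0007000280004001000080000000000000000000000000000000) (nat_lit 0x0) (nat_lit 0x18000c00c60000000000004000a000500000000000000000000000000000000000) := T_29 (nat_lit 231) (nat_lit 230) (nat_lit 0) (nat_lit 10) (nat_lit 13) L78685 (by decide +kernel)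
theorem L78687 : W_29 (nat_lit 8) (nat_lit 0x30000c0007000280004001000080000000000000000000000000000000) (nat_lit 0x0) (nat_lit 0x18000c00c60003000000004000a000500000000000000000000000000000000000) := T_29 (nat_lit 209) (nat_lit 208) (nat_lit 3) (nat_lit 4) (nat_lit 12) L78686 (by decide +kernel)
theorem L78688 : W_29 (nat_lit 9) (nat_lit 0x10000c0007000280004001000080000000000000000000000000000000) (nat_lit 0x0) (nat_lit 0x18004c00e60003000000004000a000500000000000000000000000000000000000) := T_29 (nat_lit 229) (nat_lit 246) (nat_lit 7) (nat_lit 7) (nat_lit 10) L78687 (by decide +kernel)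
theorem L78689 : W_29 (nat_lit 10) (nat_lit 0x10000c0007000280000001000080000000000000000000000000000000) (nat_lit 0x0) (nat_lit 0x18004c00e60003000000004000e000700000000000000000000000000000000000) := T_29 (nat_lit 158) (nat_lit 141) (nat_lit 7) (nat_lit 5) (nat_lit 8) L78688 (by decide +kernel)
theorem L78690 : W_29 (nat_lit 2) (nat_lit 0x30000e00070003c0000001000080000000000000000000000000000000) (nat_lit 0x0) (nat_lit 0x8000400000000000000002000000000000000000000000000000000000000) := D_29 (nat_lit 226) (nat_lit 243) (nat_lit 157) (nat_lit 6) (nat_lit 5) (nat_lit 14) (nat_lit 4) (nat_lit 5) (nat_lit 13) (by decide +kernel)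
theorem L78691 : W_29 (nat_lit 3) (nat_lit 0x30000e0007000380000001000080000000000000000000000000000000) (nat_lit 0x0) (nat_lit 0x8000400000000000060002000000000000000000000000000000000000000) := T_29 (nat_lit 174) (nat_lit 173) (nat_lit 3) (nat_lit 3) (nat_lit 10) L78690 (by decide +kernel)
theorem L78692 : W_29 (nat_lit 4) (nat_lit 0x30000e0007000280000001000080000000000000000000000000000000) (nat_lit 0x0) (nat_lit 0x800040000000000016000a000000000000000000000000000000000000000) := T_29 (nat_lit 176) (nat_lit 159) (nat_lit 7) (nat_lit 6) (nat_lit 9) L78691 (by decide +kernel)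
theorem L78693 : W_29 (nat_lit 5) (nat_lit 0x30000c0007000280000001000080000000000000000000000000000000) (nat_lit 0x0) (nat_lit 0x800040003000000016000a000000000000000000000000000000000000000) := T_29 (nat_lit 209) (nat_lit 208) (nat_lit 3) (nat_lit 4) (nat_lit 12) L78692 (by decide +kernel)
theorem L78694 : W_29 (nat_lit 6) (nat_lit 0x10000c0007000280000001000080000000000000000000000000000000) (nat_lit 0x0) (nat_lit 0x4800240003000000016000a000000000000000000000000000000000000000) := T_29 (nat_lit 229) (nat_lit 246) (nat_lit 7) (nat_lit 7) (nat_lit 10) L78693 (by decide +kernel)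
theorem L78695 : W_29 (nat_lit 2) (nat_lit 0x30000e0007000280008001000080000000000000000000000000000000) (nat_lit 0x0) (nat_lit 0x4000600000000000000000000000000000000000) := D_29 (nat_lit 158) (nat_lit 141) (nat_lit 142) (nat_lit 7) (nat_lit 5) (nat_lit 8) (nat_lit 6) (nat_lit 5) (nat_lit 12) (by decide +kernel)
theorem L78696 : W_29 (nat_lit 3) (nat_lit 0x30000c0007000280008001000080000000000000000000000000000000) (nat_lit 0x0) (nat_lit 0x30000000000004000600000000000000000000000000000000000) := T_29 (nat_lit 209) (nat_lit 208) (nat_lit 3) (nat_lit 4) (nat_lit 12) L78695 (by decide +kernel)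
theorem L78697 : W_29 (nat_lit 4) (nat_lit 0x10000c0007000280008001000080000000000000000000000000000000) (nat_lit 0x0) (nat_lit 0x40002000030000000000004000600000000000000000000000000000000000) := T_29 (nat_lit 229) (nat_lit 246) (nat_lit 7) (nat_lit 7) (nat_lit 10) L78696 (by decide +kernel)
theorem L78698 : W_29 (nat_lit 5) (nat_lit 0x10000c0007000280000001000080000000000000000000000000000000) (nat_lit 0x0) (nat_lit 0x4000200003000000010000c000600000000000000000000000000000000000) := T_29 (nat_lit 159) (nat_lit 176) (nat_lit 7) (nat_lit 6) (nat_lit 9) L78697 (by decide +kernel)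
theorem L78699 : W_29 (nat_lit 2) (nat_lit 0x10000e0007000bc0002001200080000000000000000000000000000000) (nat_lit 0x0) (nat_lit 0x2000018000000000000000000000000000000000000000000000000000) := D_29 (nat_lit 208) (nat_lit 229) (nat_lit 207) (nat_lit 3) (nat_lit 4) (nat_lit 12) (nat_lit 2) (nat_lit 3) (nat_lit 12) (by decide +kernel)
theorem L78700 : W_29 (nat_lit 3) (nat_lit 0x10000c0007000bc0002001200080000000000000000000000000000000) (nat_lit 0x0) (nat_lit 0x2400038000000000000000000000000000000000000000000000000000) := T_29 (nat_lit 209) (nat_lit 226) (nat_lit 4) (nat_lit 5) (nat_lit 13) L78699 (by decide +kernel)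
theorem L78701 : W_29 (nat_lit 4) (nat_lit 0x10000c0007000bc0000001200080000000000000000000000000000000) (nat_lit 0x0) (nat_lit 0x2400038000000000003000000000000000000000000000000000000000) := T_29 (nat_lit 157) (nat_lit 156) (nat_lit 0) (nat_lit 7) (nat_lit 10) L78700 (by decide +kernel)
theorem L78702 : W_29 (nat_lit 5) (nat_lit 0x10000c00070003c0000001200080000000000000000000000000000000) (nat_lit 0x0) (nat_lit 0x2400038000000c00003000000000000000000000000000000000000000) := T_29 (nat_lit 179) (nat_lit 178) (nat_lit 1) (nat_lit 9) (nat_lit 10) L78701 (by decide +kernel)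
theorem L78703 : W_29 (nat_lit 6) (nat_lit 0x10000c0007000380000001200080000000000000000000000000000000) (nat_lit 0x0) (nat_lit 0x2400038000000c60003000000000000000000000000000000000000000) := T_29 (nat_lit 174) (nat_lit 173) (nat_lit 3) (nat_lit 3) (nat_lit 10) L78702 (by decide +kernel)
theorem L78704 : W_29 (nat_lit 7) (nat_lit 0x10000c0007000280000001200080000000000000000000000000000000) (nat_lit 0x0) (nat_lit 0x2400038000000d6000b000000000000000000000000000000000000000) := T_29 (nat_lit 176) (nat_lit 159) (nat_lit 7) (nat_lit 6) (nat_lit 9) L78703 (by decide +kernel)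
theorem L78705 : W_29 (nat_lit 8) (nat_lit 0x10000c0007000280000001000080000000000000000000000000000000) (nat_lit 0x0) (nat_lit 0x2400038000000d6000f000200000000000000000000000000000000000) := T_29 (nat_lit 141) (nat_lit 158) (nat_lit 7) (nat_lit 5) (nat_lit 8) L78704 (by decide +kernel)
theorem L78706 : W_29 (nat_lit 2) (nat_lit 0x10000c00070003a0004001000080000000000000000000000000000000) (nat_lit 0x0) (nat_lit 0xc00002000000000000000000000000000000000000000) := D_29 (nat_lit 178) (nat_lit 179) (nat_lit 157) (nat_lit 1) (nat_lit 9) (nat_lit 10) (nat_lit 0) (nat_lit 8) (nat_lit 10) (by decide +kernel)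
theorem L78707 : W_29 (nat_lit 3) (nat_lit 0x10000c00070003a0000001000080000000000000000000000000000000) (nat_lit 0x0) (nat_lit 0xc00006000200000000000000000000000000000000000) := T_29 (nat_lit 158) (nat_lit 141) (nat_lit 7) (nat_lit 5) (nat_lit 8) L78706 (by decide +kernel)
theorem L78708 : W_29 (nat_lit 4) (nat_lit 0x10000c0007000380000001000080000000000000000000000000000000) (nat_lit 0x0) (nat_lit 0xc60006000200000000000000000000000000000000000) := T_29 (nat_lit 173) (nat_lit 174) (nat_lit 3) (nat_lit 3) (nat_lit 10) L78707 (by decide +kernel)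
theorem L78709 : W_29 (nat_lit 5) (nat_lit 0x10000c0007000280000001000080000000000000000000000000000000) (nat_lit 0x0) (nat_lit 0xd6000e000200000000000000000000000000000000000) := T_29 (nat_lit 176) (nat_lit 159) (nat_lit 7) (nat_lit 6) (nat_lit 9) L78708 (by decide +kernel)
theorem L78710 : W_29 (nat_lit 12) (nat_lit 0x10000c0007000200000001000080000000000000000000000000000000) (nat_lit 0x0) (nat_lit 0x18004c00e600038000001de000f000700000000000000000000000000000000000) := Q_29 (nat_lit 175) (C_29 L78664 (C_29 L78670 (C_29 L78680 (C_29 L78689 (C_29 L78694 (C_29 L78698 (C_29 L78705 (C_29 L78709 N_29)))))))) (by decide +kernel)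
theorem L78711 : W_29 (nat_lit 13) (nat_lit 0x10000c0006000200000001000080000000000000000000000000000000) (nat_lit 0x0) (nat_lit 0x18004c00e600038001c01de000f000700000000000000000000000000000000000) := Q_29 (nat_lit 192) (C_29 L78654 (C_29 L78657 (C_29 L78710 N_29))) (by decide +kernel)
theorem L78712 : W_29 (nat_lit 2) (nat_lit 0x400be000d00060003a0000001000080000000000000000000000000000000) (nat_lit 0x0) (nat_lit 0x1c00000000000000000000000000000000000000000000000) := D_29 (nat_lit 191) (nat_lit 190) (nat_lit 192) (nat_lit 4) (nat_lit 4) (nat_lit 14) (nat_lit 6) (nat_lit 4) (nat_lit 14) (by decide +kernel)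
theorem L78713 : W_29 (nat_lit 3) (nat_lit 0xbe000d00060003a0000001000080000000000000000000000000000000) (nat_lit 0x0) (nat_lit 0x6000000000001c00000000000000000000000000000000000000000000000) := T_29 (nat_lit 242) (nat_lit 241) (nat_lit 1) (nat_lit 7) (nat_lit 13) L78712 (by decide +kernel)
theorem L78714 : W_29 (nat_lit 4) (nat_lit 0xbe000c00060003a0000001000080000000000000000000000000000000) (nat_lit 0x0) (nat_lit 0x6000000018001c00000000000000000000000000000000000000000000000) := T_29 (nat_lit 208) (nat_lit 207) (nat_lit 0) (nat_lit 7) (nat_lit 13) L78713 (by decide +kernel)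
theorem L78715 : W_29 (nat_lit 5) (nat_lit 0xbe000c0006000380000001000080000000000000000000000000000000) (nat_lit 0x0) (nat_lit 0x6000000018001c00060000000000000000000000000000000000000000000) := T_29 (nat_lit 173) (nat_lit 174) (nat_lit 3) (nat_lit 3) (nat_lit 10) L78714 (by decide +kernel)
theorem L78716 : W_29 (nat_lit 6) (nat_lit 0xbe000c0006000300000001000080000000000000000000000000000000) (nat_lit 0x0) (nat_lit 0x6000000018001c000e0004000000000000000000000000000000000000000) := T_29 (nat_lit 175) (nat_lit 158) (nat_lit 4) (nat_lit 6) (nat_lit 13) L78715 (by decide +kernel)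
theorem L78717 : W_29 (nat_lit 7) (nat_lit 0xbc000c0006000300000001000080000000000000000000000000000000) (nat_lit 0x0) (nat_lit 0x6000300018001c000e0004000000000000000000000000000000000000000) := T_29 (nat_lit 225) (nat_lit 224) (nat_lit 2) (nat_lit 3) (nat_lit 13) L78716 (by decide +kernel)
theorem L78718 : W_29 (nat_lit 8) (nat_lit 0xb8000c0006000300000001000080000000000000000000000000000000) (nat_lit 0x0) (nat_lit 0xe000700018001c000e0004000000000000000000000000000000000000000) := T_29 (nat_lit 226) (nat_lit 243) (nat_lit 5) (nat_lit 6) (nat_lit 10) L78717 (by decide +kernel)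
theorem L78719 : W_29 (nat_lit 9) (nat_lit 0x38000c0006000300000001000080000000000000000000000000000000) (nat_lit 0x0) (nat_lit 0xe00c700018001c000e0004000000000000000000000000000000000000000) := T_29 (nat_lit 231) (nat_lit 230) (nat_lit 0) (nat_lit 10) (nat_lit 13) L78718 (by decide +kernel)
theorem L78720 : W_29 (nat_lit 10) (nat_lit 0x18000c0006000300000001000080000000000000000000000000000000) (nat_lit 0x0) (nat_lit 0x4e00e700018001c000e0004000000000000000000000000000000000000000) := T_29 (nat_lit 229) (nat_lit 246) (nat_lit 7) (nat_lit 7) (nat_lit 10) L78719 (by decide +kernel)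
theorem L78721 : W_29 (nat_lit 11) (nat_lit 0x10000c0006000300000001000080000000000000000000000000000000) (nat_lit 0x0) (nat_lit 0x5e00ef00018001c000e0004000000000000000000000000000000000000000) := T_29 (nat_lit 227) (nat_lit 244) (nat_lit 6) (nat_lit 6) (nat_lit 14) L78720 (by decide +kernel)
theorem L78722 : W_29 (nat_lit 12) (nat_lit 0x10000c0006000200000001000080000000000000000000000000000000) (nat_lit 0x0) (nat_lit 0x5e00ef00018001c001e000c000000000000000000000000000000000000000) := T_29 (nat_lit 176) (nat_lit 159) (nat_lit 7) (nat_lit 6) (nat_lit 9) L78721 (by decide +kernel)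
theorem L78723 : W_29 (nat_lit 2) (nat_lit 0x4001e000d00060003a0000001000080000000000000000000000000000000) (nat_lit 0x0) (nat_lit 0x20001800000000000000000000000000000000000000000000000) := D_29 (nat_lit 192) (nat_lit 209) (nat_lit 191) (nat_lit 5) (nat_lit 5) (nat_lit 10) (nat_lit 6) (nat_lit 4) (nat_lit 14) (by decide +kernel)
theorem L78724 : W_29 (nat_lit 3) (nat_lit 0x4001e000c00060003a0000001000080000000000000000000000000000000) (nat_lit 0x0) (nat_lit 0x38001800000000000000000000000000000000000000000000000) := T_29 (nat_lit 208) (nat_lit 207) (nat_lit 0) (nat_lit 7) (nat_lit 13) L78723 (by decide +kernel)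
theorem L78725 : W_29 (nat_lit 4) (nat_lit 0x1e000c00060003a0000001000080000000000000000000000000000000) (nat_lit 0x0) (nat_lit 0x6000000038001800000000000000000000000000000000000000000000000) := T_29 (nat_lit 242) (nat_lit 241) (nat_lit 1) (nat_lit 7) (nat_lit 13) L78724 (by decide +kernel)
theorem L78726 : W_29 (nat_lit 5) (nat_lit 0x1c000c00060003a0000001000080000000000000000000000000000000) (nat_lit 0x0) (nat_lit 0x6000300038001800000000000000000000000000000000000000000000000) := T_29 (nat_lit 225) (nat_lit 224) (nat_lit 2) (nat_lit 3) (nat_lit 13) L78725 (by decide +kernel)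
theorem L78727 : W_29 (nat_lit 6) (nat_lit 0x18000c00060003a0000001000080000000000000000000000000000000) (nat_lit 0x0) (nat_lit 0xe000700038001800000000000000000000000000000000000000000000000) := T_29 (nat_lit 226) (nat_lit 243) (nat_lit 5) (nat_lit 6) (nat_lit 10) L78726 (by decide +kernel)
theorem L78728 : W_29 (nat_lit 7) (nat_lit 0x18000c0006000380000001000080000000000000000000000000000000) (nat_lit 0x0) (nat_lit 0xe000700038001800060000000000000000000000000000000000000000000) := T_29 (nat_lit 173) (nat_lit 174) (nat_lit 3) (nat_lit 3) (nat_lit 10) L78727 (by decide +kernel)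
theorem L78729 : W_29 (nat_lit 8) (nat_lit 0x18000c0006000300000001000080000000000000000000000000000000) (nat_lit 0x0) (nat_lit 0xe0007000380018000e0004000000000000000000000000000000000000000) := T_29 (nat_lit 175) (nat_lit 158) (nat_lit 4) (nat_lit 6) (nat_lit 13) L78728 (by decide +kernel)
theorem L78730 : W_29 (nat_lit 9) (nat_lit 0x18000c0006000200000001000080000000000000000000000000000000) (nat_lit 0x0) (nat_lit 0xe0007000380018001e000c000000000000000000000000000000000000000) := T_29 (nat_lit 176) (nat_lit 159) (nat_lit 7) (nat_lit 6) (nat_lit 9) L78729 (by decide +kernel)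
theorem L78731 : W_29 (nat_lit 10) (nat_lit 0x10000c0006000200000001000080000000000000000000000000000000) (nat_lit 0x0) (nat_lit 0x1e000f000380018001e000c000000000000000000000000000000000000000) := T_29 (nat_lit 227) (nat_lit 244) (nat_lit 6) (nat_lit 6) (nat_lit 14) L78730 (by decide +kernel)
theorem L78732 : W_29 (nat_lit 2) (nat_lit 0x400be000c00070003a0000001000080000000000000000000000000000000) (nat_lit 0x0) (nat_lit 0xc00400000000000000000000000000000000000000000000) := D_29 (nat_lit 191) (nat_lit 190) (nat_lit 178) (nat_lit 3) (nat_lit 3) (nat_lit 11) (nat_lit 2) (nat_lit 4) (nat_lit 11) (by decide +kernel)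
theorem L78733 : W_29 (nat_lit 3) (nat_lit 0x400be000c00060003a0000001000080000000000000000000000000000000) (nat_lit 0x0) (nat_lit 0x20001c00400000000000000000000000000000000000000000000) := T_29 (nat_lit 192) (nat_lit 209) (nat_lit 5) (nat_lit 5) (nat_lit 10) L78732 (by decide +kernel)
theorem L78734 : W_29 (nat_lit 4) (nat_lit 0xbe000c00060003a0000001000080000000000000000000000000000000) (nat_lit 0x0) (nat_lit 0x6000000020001c00400000000000000000000000000000000000000000000) := T_29 (nat_lit 242) (nat_lit 241) (nat_lit 1) (nat_lit 7) (nat_lit 13) L78733 (by decide +kernel)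
theorem L78735 : W_29 (nat_lit 5) (nat_lit 0xbc000c00060003a0000001000080000000000000000000000000000000) (nat_lit 0x0) (nat_lit 0x6000300020001c00400000000000000000000000000000000000000000000) := T_29 (nat_lit 225) (nat_lit 224) (nat_lit 2) (nat_lit 3) (nat_lit 13) L78734 (by decide +kernel)
theorem L78736 : W_29 (nat_lit 6) (nat_lit 0xb8000c00060003a0000001000080000000000000000000000000000000) (nat_lit 0x0) (nat_lit 0xe000700020001c00400000000000000000000000000000000000000000000) := T_29 (nat_lit 226) (nat_lit 243) (nat_lit 5) (nat_lit 6) (nat_lit 10) L78735 (by decide +kernel)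
theorem L78737 : W_29 (nat_lit 7) (nat_lit 0xb8000c0006000380000001000080000000000000000000000000000000) (nat_lit 0x0) (nat_lit 0xe000700020001c00460000000000000000000000000000000000000000000) := T_29 (nat_lit 173) (nat_lit 174) (nat_lit 3) (nat_lit 3) (nat_lit 10) L78736 (by decide +kernel)
theorem L78738 : W_29 (nat_lit 8) (nat_lit 0xb8000c0006000300000001000080000000000000000000000000000000) (nat_lit 0x0) (nat_lit 0xe000700020001c004e0004000000000000000000000000000000000000000) := T_29 (nat_lit 175) (nat_lit 158) (nat_lit 4) (nat_lit 6) (nat_lit 13) L78737 (by decide +kernel)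
theorem L78739 : W_29 (nat_lit 9) (nat_lit 0xb0000c0006000300000001000080000000000000000000000000000000) (nat_lit 0x0) (nat_lit 0x1e000f00020001c004e0004000000000000000000000000000000000000000) := T_29 (nat_lit 227) (nat_lit 244) (nat_lit 6) (nat_lit 6) (nat_lit 14) L78738 (by decide +kernel)
theorem L78740 : W_29 (nat_lit 10) (nat_lit 0x30000c0006000300000001000080000000000000000000000000000000) (nat_lit 0x0) (nat_lit 0x1e00cf00020001c004e0004000000000000000000000000000000000000000) := T_29 (nat_lit 231) (nat_lit 230) (nat_lit 0) (nat_lit 10) (nat_lit 13) L78739 (by decide +kernel)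
theorem L78741 : W_29 (nat_lit 11) (nat_lit 0x10000c0006000300000001000080000000000000000000000000000000) (nat_lit 0x0) (nat_lit 0x5e00ef00020001c004e0004000000000000000000000000000000000000000) := T_29 (nat_lit 229) (nat_lit 246) (nat_lit 7) (nat_lit 7) (nat_lit 10) L78740 (by decide +kernel)
theorem L78742 : W_29 (nat_lit 12) (nat_lit 0x10000c0006000200000001000080000000000000000000000000000000) (nat_lit 0x0) (nat_lit 0x5e00ef00020001c005e000c000000000000000000000000000000000000000) := T_29 (nat_lit 176) (nat_lit 159) (nat_lit 7) (nat_lit 6) (nat_lit 9) L78741 (by decide +kernel)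
theorem L78743 : W_29 (nat_lit 14) (nat_lit 0x1000080006000200000001000080000000000000000000000000000000) (nat_lit 0x0) (nat_lit 0x18005e00ef00078001c01de000f000700000000000000000000000000000000000) := Q_29 (nat_lit 210) (C_29 L78574 (C_29 L78653 (C_29 L78711 (C_29 L78722 (C_29 L78731 (C_29 L78742 N_29)))))) (by decide +kernel)
theorem L78744 : W_29 (nat_lit 8) (nat_lit 0x1000080006000200000001000080000000000000000000000000000000) (nat_lit 0x0) (nat_lit 0x5800ef001700000001e000c000000000000000000000000000000000000000) := Q_29 (nat_lit 210) (C_29 L78653 (C_29 L6334 (C_29 L78590 N_29))) (by decide +kernel)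
theorem L78748 : W_29 (nat_lit 2) (nat_lit 0x3000080007000780004001000080000000000000000000000000000000) (nat_lit 0x0) (nat_lit 0x40000000000000000200010000000000000000000000000000000) := D_29 (nat_lit 141) (nat_lit 124) (nat_lit 210) (nat_lit 7) (nat_lit 5) (nat_lit 7) (nat_lit 7) (nat_lit 5) (nat_lit 8) (by decide +kernel)
theorem L78749 : W_29 (nat_lit 3) (nat_lit 0x3000080007000780000001000080000000000000000000000000000000) (nat_lit 0x0) (nat_lit 0x40000000000006000200010000000000000000000000000000000) := T_29 (nat_lit 158) (nat_lit 157) (nat_lit 0) (nat_lit 8) (nat_lit 10) L78748 (by decide +kernel)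
theorem L78750 : W_29 (nat_lit 2) (nat_lit 0x30000e0007000280000001000080000000000000000000000000000000) (nat_lit 0x0) (nat_lit 0x4000300000000000000000000000000000000000000000000000000000) := D_29 (nat_lit 212) (nat_lit 213) (nat_lit 230) (nat_lit 0) (nat_lit 9) (nat_lit 12) (nat_lit 3) (nat_lit 5) (nat_lit 12) (by decide +kernel)
theorem L78751 : W_29 (nat_lit 3) (nat_lit 0x30000c0007000280000001000080000000000000000000000000000000) (nat_lit 0x0) (nat_lit 0x4000330000000000000000000000000000000000000000000000000000) := T_29 (nat_lit 209) (nat_lit 208) (nat_lit 3) (nat_lit 4) (nat_lit 12) L78750 (by decide +kernel)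
theorem L78752 : W_29 (nat_lit 4) (nat_lit 0x10000c0007000280000001000080000000000000000000000000000000) (nat_lit 0x0) (nat_lit 0x40006000330000000000000000000000000000000000000000000000000000) := T_29 (nat_lit 229) (nat_lit 246) (nat_lit 7) (nat_lit 7) (nat_lit 10) L78751 (by decide +kernel)
theorem L78756 : W_29 (nat_lit 2) (nat_lit 0x10000c0007000200000001000080000000000000000000000000000000) (nat_lit 0x0) (nat_lit 0x100000c00000000000000000000000000000000000000000000000) := D_29 (nat_lit 191) (nat_lit 212) (nat_lit 190) (nat_lit 3) (nat_lit 4) (nat_lit 11) (nat_lit 3) (nat_lit 3) (nat_lit 11) (by decide +kernel)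
theorem L78757 : W_29 (nat_lit 2) (nat_lit 0x30000800060007c0000001000080000000000000000000000000000000) (nat_lit 0x0) (nat_lit 0x1c00000000000000000000000000000000000000000000000) := D_29 (nat_lit 191) (nat_lit 192) (nat_lit 190) (nat_lit 2) (nat_lit 4) (nat_lit 11) (nat_lit 1) (nat_lit 7) (nat_lit 10) (by decide +kernel)
theorem L78758 : W_29 (nat_lit 3) (nat_lit 0x3000080006000780000001000080000000000000000000000000000000) (nat_lit 0x0) (nat_lit 0x1c00060000000000000000000000000000000000000000000) := T_29 (nat_lit 174) (nat_lit 173) (nat_lit 3) (nat_lit 3) (nat_lit 10) L78757 (by decide +kernel)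
theorem L78759 : W_29 (nat_lit 4) (nat_lit 0x1000080006000780000001000080000000000000000000000000000000) (nat_lit 0x0) (nat_lit 0x40002000000001c00060000000000000000000000000000000000000000000) := T_29 (nat_lit 229) (nat_lit 246) (nat_lit 7) (nat_lit 7) (nat_lit 10) L78758 (by decide +kernel)
theorem L78760 : W_29 (nat_lit 2) (nat_lit 0x1000080006000780002001000080000000000000000000000000000000) (nat_lit 0x0) (nat_lit 0x60001000000000000000000000000000000000000000) := D_29 (nat_lit 174) (nat_lit 173) (nat_lit 156) (nat_lit 3) (nat_lit 3) (nat_lit 10) (nat_lit 0) (nat_lit 7) (nat_lit 10) (by decide +kernel)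
theorem L78761 : W_29 (nat_lit 3) (nat_lit 0x1000080006000780000001000080000000000000000000000000000000) (nat_lit 0x0) (nat_lit 0x60007000000000000000000000000000000000000000) := T_29 (nat_lit 157) (nat_lit 158) (nat_lit 0) (nat_lit 8) (nat_lit 10) L78760 (by decide +kernel)
theorem L78762 : W_29 (nat_lit 4) (nat_lit 0x3000080006000780000001000080000000000000000000000000000000) (nat_lit 0x0) (nat_lit 0x40001800000006000200010000000000000000000000000000000) := T_29 (nat_lit 192) (nat_lit 191) (nat_lit 2) (nat_lit 4) (nat_lit 11) L78749 (by decide +kernel)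
theorem L78763 : W_29 (nat_lit 5) (nat_lit 0x1000080006000780000001000080000000000000000000000000000000) (nat_lit 0x0) (nat_lit 0x40002000040001800000006000200010000000000000000000000000000000) := T_29 (nat_lit 229) (nat_lit 246) (nat_lit 7) (nat_lit 7) (nat_lit 10) L78762 (by decide +kernel)
theorem L78764 : W_29 (nat_lit 6) (nat_lit 0x1000080006000700000001000080000000000000000000000000000000) (nat_lit 0x0) (nat_lit 0x40002000040001c000e0007000200010000000000000000000000000000000) := Q_29 (nat_lit 175) (C_29 L78763 (C_29 L78761 (C_29 L78759 N_29))) (by decide +kernel)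
theorem L78765 : W_29 (nat_lit 2) (nat_lit 0xb000280016000f00040001000080000000000000000000000000000000) (nat_lit 0x0) (nat_lit 0x100004000040000000000000000000000000000000000000000000000000000) := D_29 (nat_lit 230) (nat_lit 210) (nat_lit 248) (nat_lit 0) (nat_lit 10) (nat_lit 13) (nat_lit 7) (nat_lit 9) (nat_lit 10) (by decide +kernel)
theorem L78766 : W_29 (nat_lit 3) (nat_lit 0x3000280016000f00040001000080000000000000000000000000000000) (nat_lit 0x0) (nat_lit 0x10000c000440000000000000000000000000000000000000000000000000000) := T_29 (nat_lit 231) (nat_lit 214) (nat_lit 7) (nat_lit 9) (nat_lit 9) L78765 (by decide +kernel)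
theorem L78767 : W_29 (nat_lit 4) (nat_lit 0x3000080016000f00040001000080000000000000000000000000000000) (nat_lit 0x0) (nat_lit 0x10000c000740000000000000000000000000000000000000000000000000000) := T_29 (nat_lit 213) (nat_lit 212) (nat_lit 5) (nat_lit 9) (nat_lit 9) L78766 (by decide +kernel)
theorem L78768 : W_29 (nat_lit 5) (nat_lit 0x3000080006000f00040001000080000000000000000000000000000000) (nat_lit 0x0) (nat_lit 0x10000c000740030000000000000000000000000000000000000000000000000) := T_29 (nat_lit 196) (nat_lit 197) (nat_lit 3) (nat_lit 6) (nat_lit 10) L78767 (by decide +kernel)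
theorem L78769 : W_29 (nat_lit 6) (nat_lit 0x3000080006000f00000001000080000000000000000000000000000000) (nat_lit 0x0) (nat_lit 0x10000c0007400300000000c0000000000000000000000000000000000000000) := T_29 (nat_lit 162) (nat_lit 163) (nat_lit 2) (nat_lit 6) (nat_lit 10) L78768 (by decide +kernel)
theorem L78770 : W_29 (nat_lit 7) (nat_lit 0x3000080006000700000001000080000000000000000000000000000000) (nat_lit 0x0) (nat_lit 0x10000c0007400300018000c0000000000000000000000000000000000000000) := T_29 (nat_lit 179) (nat_lit 180) (nat_lit 1) (nat_lit 10) (nat_lit 10) L78769 (by decide +kernel)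
theorem L78771 : W_29 (nat_lit 8) (nat_lit 0x1000080006000700000001000080000000000000000000000000000000) (nat_lit 0x0) (nat_lit 0x14000e0007400300018000c0000000000000000000000000000000000000000) := T_29 (nat_lit 229) (nat_lit 246) (nat_lit 7) (nat_lit 7) (nat_lit 10) L78770 (by decide +kernel)
theorem L78772 : W_29 (nat_lit 9) (nat_lit 0x1000080006000300000001000080000000000000000000000000000000) (nat_lit 0x0) (nat_lit 0x14000e000740031c01ce00c7000200010000000000000000000000000000000) := Q_29 (nat_lit 178) (C_29 L78771 (C_29 L78764 (C_29 L6285 N_29))) (by decide +kernel)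
theorem L78773 : W_29 (nat_lit 10) (nat_lit 0x1000080006000200000001000080000000000000000000000000000000) (nat_lit 0x0) (nat_lit 0x14000e000740031c01de00cf000200010000000000000000000000000000000) := T_29 (nat_lit 176) (nat_lit 159) (nat_lit 4) (nat_lit 7) (nat_lit 13) L78772 (by decide +kernel)
theorem L78776 : W_29 (nat_lit 2) (nat_lit 0xc0004000200000001000080000000000000000000000000000000) (nat_lit 0x0) (nat_lit 0x800000000000000010000800000000000000000000000000000000000) := D_29 (nat_lit 160) (nat_lit 143) (nat_lit 227) (nat_lit 6) (nat_lit 7) (nat_lit 11) (nat_lit 5) (nat_lit 7) (nat_lit 9) (by decide +kernel)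
theorem L78777 : W_29 (nat_lit 2) (nat_lit 0xc0007000200000001000080000000000000000000000000000000) (nat_lit 0x0) (nat_lit 0x300000800000000000000000000000000000000000000000000000) := D_29 (nat_lit 212) (nat_lit 213) (nat_lit 191) (nat_lit 0) (nat_lit 9) (nat_lit 12) (nat_lit 3) (nat_lit 4) (nat_lit 11) (by decide +kernel)
theorem L78779 : W_29 (nat_lit 2) (nat_lit 0xc002c00070003c0000001000080000000000000000000000000000000) (nat_lit 0x0) (nat_lit 0x20000000000003000000000000000000000000000000000000000) := D_29 (nat_lit 157) (nat_lit 209) (nat_lit 156) (nat_lit 4) (nat_lit 5) (nat_lit 13) (nat_lit 0) (nat_lit 7) (nat_lit 10) (by decide +kernel)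
theorem L78780 : W_29 (nat_lit 3) (nat_lit 0x8002c00070003c0000001000080000000000000000000000000000000) (nat_lit 0x0) (nat_lit 0x8000400020000000000003000000000000000000000000000000000000000) := T_29 (nat_lit 226) (nat_lit 243) (nat_lit 5) (nat_lit 6) (nat_lit 10) L78779 (by decide +kernel)
theorem L78781 : W_29 (nat_lit 4) (nat_lit 0x8002c0007000380000001000080000000000000000000000000000000) (nat_lit 0x0) (nat_lit 0x8000400020000000060003000000000000000000000000000000000000000) := T_29 (nat_lit 174) (nat_lit 173) (nat_lit 3) (nat_lit 3) (nat_lit 10) L78780 (by decide +kernel)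
theorem L78782 : W_29 (nat_lit 5) (nat_lit 0x8002c0007000300000001000080000000000000000000000000000000) (nat_lit 0x0) (nat_lit 0x80004000200000000e0007000000000000000000000000000000000000000) := T_29 (nat_lit 175) (nat_lit 158) (nat_lit 4) (nat_lit 6) (nat_lit 13) L78781 (by decide +kernel)
theorem L78783 : W_29 (nat_lit 6) (nat_lit 0x8000c0007000300000001000080000000000000000000000000000000) (nat_lit 0x0) (nat_lit 0x80004003200000000e0007000000000000000000000000000000000000000) := T_29 (nat_lit 213) (nat_lit 212) (nat_lit 0) (nat_lit 9) (nat_lit 12) L78782 (by decide +kernel)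
theorem L78784 : W_29 (nat_lit 7) (nat_lit 0xc0007000300000001000080000000000000000000000000000000) (nat_lit 0x0) (nat_lit 0x18000c003200000000e0007000000000000000000000000000000000000000) := T_29 (nat_lit 227) (nat_lit 244) (nat_lit 6) (nat_lit 6) (nat_lit 14) L78783 (by decide +kernel)
theorem L78789 : W_29 (nat_lit 2) (nat_lit 0x100002000f0007000280000001000080000000000000000000000000000000) (nat_lit 0x0) (nat_lit 0x80004000400000000000000000000000000000000000000000000000000000000) := D_29 (nat_lit 242) (nat_lit 259) (nat_lit 226) (nat_lit 6) (nat_lit 4) (nat_lit 15) (nat_lit 5) (nat_lit 5) (nat_lit 10) (by decide +kernel)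
theorem L78790 : W_29 (nat_lit 3) (nat_lit 0x100002000f0007000200000001000080000000000000000000000000000000) (nat_lit 0x0) (nat_lit 0x80004000400000000000080004000000000000000000000000000000000000000) := T_29 (nat_lit 175) (nat_lit 158) (nat_lit 5) (nat_lit 5) (nat_lit 9) L78789 (by decide +kernel)
theorem L78791 : W_29 (nat_lit 4) (nat_lit 0x100000000f0007000200000001000080000000000000000000000000000000) (nat_lit 0x0) (nat_lit 0x80004000700000000000080004000000000000000000000000000000000000000) := T_29 (nat_lit 225) (nat_lit 224) (nat_lit 1) (nat_lit 7) (nat_lit 12) L78790 (by decide +kernel)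
theorem L78792 : W_29 (nat_lit 5) (nat_lit 0x100000000e0007000200000001000080000000000000000000000000000000) (nat_lit 0x0) (nat_lit 0x80004000700018000000080004000000000000000000000000000000000000000) := T_29 (nat_lit 208) (nat_lit 207) (nat_lit 2) (nat_lit 3) (nat_lit 12) L78791 (by decide +kernel)
theorem L78793 : W_29 (nat_lit 6) (nat_lit 0xe0007000200000001000080000000000000000000000000000000) (nat_lit 0x0) (nat_lit 0x80014000f00018000000080004000000000000000000000000000000000000000) := T_29 (nat_lit 244) (nat_lit 227) (nat_lit 6) (nat_lit 6) (nat_lit 14) L78792 (by decide +kernel)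
theorem L78794 : W_29 (nat_lit 2) (nat_lit 0x100004000e8007800240000001000080000000000000000000000000000000) (nat_lit 0x0) (nat_lit 0x80002000100000000000000000000000000000000000) := D_29 (nat_lit 157) (nat_lit 140) (nat_lit 175) (nat_lit 7) (nat_lit 4) (nat_lit 8) (nat_lit 4) (nat_lit 5) (nat_lit 13) (by decide +kernel)
theorem L78795 : W_29 (nat_lit 3) (nat_lit 0x100000000e8007800240000001000080000000000000000000000000000000) (nat_lit 0x0) (nat_lit 0x8000400000000000080002000100000000000000000000000000000000000) := T_29 (nat_lit 226) (nat_lit 243) (nat_lit 4) (nat_lit 5) (nat_lit 14) L78794 (by decide +kernel)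
theorem L78796 : W_29 (nat_lit 4) (nat_lit 0x100000000e8007800200000001000080000000000000000000000000000000) (nat_lit 0x0) (nat_lit 0x80004000000000000e0002000100000000000000000000000000000000000) := T_29 (nat_lit 174) (nat_lit 173) (nat_lit 0) (nat_lit 7) (nat_lit 11) L78795 (by decide +kernel)
theorem L78797 : W_29 (nat_lit 5) (nat_lit 0xe8007800200000001000080000000000000000000000000000000) (nat_lit 0x0) (nat_lit 0x18000c000000000000e0002000100000000000000000000000000000000000) := T_29 (nat_lit 244) (nat_lit 227) (nat_lit 6) (nat_lit 6) (nat_lit 14) L78796 (by decide +kernel)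
theorem L78798 : W_29 (nat_lit 6) (nat_lit 0xe8007000200000001000080000000000000000000000000000000) (nat_lit 0x0) (nat_lit 0x18000c00000000c000e0002000100000000000000000000000000000000000) := T_29 (nat_lit 191) (nat_lit 190) (nat_lit 3) (nat_lit 3) (nat_lit 11) L78797 (by decide +kernel)
theorem L78799 : W_29 (nat_lit 7) (nat_lit 0xe0007000200000001000080000000000000000000000000000000) (nat_lit 0x0) (nat_lit 0x18000c00018000c000e0002000100000000000000000000000000000000000) := T_29 (nat_lit 207) (nat_lit 208) (nat_lit 2) (nat_lit 3) (nat_lit 12) L78798 (by decide +kernel)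
theorem L78800 : W_29 (nat_lit 2) (nat_lit 0x100002000f0007800240000001000080000000000000000000000000000000) (nat_lit 0x0) (nat_lit 0x8000400000000000000002000000000000000000000000000000000000000) := D_29 (nat_lit 226) (nat_lit 243) (nat_lit 157) (nat_lit 7) (nat_lit 4) (nat_lit 10) (nat_lit 7) (nat_lit 4) (nat_lit 9) (by decide +kernel)
theorem L78801 : W_29 (nat_lit 3) (nat_lit 0x100002000f0007800200000001000080000000000000000000000000000000) (nat_lit 0x0) (nat_lit 0x8000400000000000060002000000000000000000000000000000000000000) := T_29 (nat_lit 174) (nat_lit 173) (nat_lit 0) (nat_lit 7) (nat_lit 11) L78800 (by decide +kernel)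
theorem L78802 : W_29 (nat_lit 4) (nat_lit 0x100000000f0007800200000001000080000000000000000000000000000000) (nat_lit 0x0) (nat_lit 0x8000700000000000060002000000000000000000000000000000000000000) := T_29 (nat_lit 225) (nat_lit 224) (nat_lit 1) (nat_lit 7) (nat_lit 12) L78801 (by decide +kernel)
theorem L78803 : W_29 (nat_lit 5) (nat_lit 0x100000000f0007000200000001000080000000000000000000000000000000) (nat_lit 0x0) (nat_lit 0x8000700000000c00060002000000000000000000000000000000000000000) := T_29 (nat_lit 191) (nat_lit 190) (nat_lit 3) (nat_lit 3) (nat_lit 11) L78802 (by decide +kernel)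
theorem L78804 : W_29 (nat_lit 6) (nat_lit 0x100000000e0007000200000001000080000000000000000000000000000000) (nat_lit 0x0) (nat_lit 0x8000700018000c00060002000000000000000000000000000000000000000) := T_29 (nat_lit 208) (nat_lit 207) (nat_lit 2) (nat_lit 3) (nat_lit 12) L78803 (by decide +kernel)
theorem L78805 : W_29 (nat_lit 7) (nat_lit 0xe0007000200000001000080000000000000000000000000000000) (nat_lit 0x0) (nat_lit 0x18000f00018000c00060002000000000000000000000000000000000000000) := T_29 (nat_lit 244) (nat_lit 227) (nat_lit 6) (nat_lit 6) (nat_lit 14) L78804 (by decide +kernel)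
theorem L78806 : W_29 (nat_lit 2) (nat_lit 0x2000f0007400280000001000080000000000000000000000000000000) (nat_lit 0x0) (nat_lit 0x80004000400000000000000000000000000000000000000000000000000000000) := D_29 (nat_lit 242) (nat_lit 259) (nat_lit 226) (nat_lit 6) (nat_lit 4) (nat_lit 15) (nat_lit 5) (nat_lit 5) (nat_lit 10) (by decide +kernel)
theorem L78807 : W_29 (nat_lit 3) (nat_lit 0x2000f0007400200000001000080000000000000000000000000000000) (nat_lit 0x0) (nat_lit 0x80004000400000000000080004000000000000000000000000000000000000000) := T_29 (nat_lit 175) (nat_lit 158) (nat_lit 5) (nat_lit 5) (nat_lit 9) L78806 (by decide +kernel)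
theorem L78808 : W_29 (nat_lit 4) (nat_lit 0xf0007400200000001000080000000000000000000000000000000) (nat_lit 0x0) (nat_lit 0x80004000700000000000080004000000000000000000000000000000000000000) := T_29 (nat_lit 225) (nat_lit 224) (nat_lit 1) (nat_lit 7) (nat_lit 12) L78807 (by decide +kernel)
theorem L78809 : W_29 (nat_lit 5) (nat_lit 0xe0007400200000001000080000000000000000000000000000000) (nat_lit 0x0) (nat_lit 0x80004000700018000000080004000000000000000000000000000000000000000) := T_29 (nat_lit 208) (nat_lit 207) (nat_lit 2) (nat_lit 3) (nat_lit 12) L78808 (by decide +kernel)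
theorem L78810 : W_29 (nat_lit 6) (nat_lit 0xe0007000200000001000080000000000000000000000000000000) (nat_lit 0x0) (nat_lit 0x80004000700018000c00080004000000000000000000000000000000000000000) := T_29 (nat_lit 190) (nat_lit 191) (nat_lit 3) (nat_lit 3) (nat_lit 11) L78809 (by decide +kernel)
theorem L78811 : W_29 (nat_lit 2) (nat_lit 0x100004000e0007800240000001000080000000000000000000000000000000) (nat_lit 0x0) (nat_lit 0x80002000100000000000000000000000000000000000) := D_29 (nat_lit 157) (nat_lit 140) (nat_lit 175) (nat_lit 7) (nat_lit 4) (nat_lit 8) (nat_lit 4) (nat_lit 5) (nat_lit 13) (by decide +kernel)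
theorem L78812 : W_29 (nat_lit 3) (nat_lit 0x100000000e0007800240000001000080000000000000000000000000000000) (nat_lit 0x0) (nat_lit 0x8000400000000000080002000100000000000000000000000000000000000) := T_29 (nat_lit 226) (nat_lit 243) (nat_lit 4) (nat_lit 5) (nat_lit 14) L78811 (by decide +kernel)
theorem L78813 : W_29 (nat_lit 4) (nat_lit 0x100000000e0007800200000001000080000000000000000000000000000000) (nat_lit 0x0) (nat_lit 0x80004000000000000e0002000100000000000000000000000000000000000) := T_29 (nat_lit 174) (nat_lit 173) (nat_lit 0) (nat_lit 7) (nat_lit 11) L78812 (by decide +kernel)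
theorem L78814 : W_29 (nat_lit 5) (nat_lit 0x100000000e0007000200000001000080000000000000000000000000000000) (nat_lit 0x0) (nat_lit 0x8000400000000c000e0002000100000000000000000000000000000000000) := T_29 (nat_lit 191) (nat_lit 190) (nat_lit 3) (nat_lit 3) (nat_lit 11) L78813 (by decide +kernel)
theorem L78815 : W_29 (nat_lit 6) (nat_lit 0xe0007000200000001000080000000000000000000000000000000) (nat_lit 0x0) (nat_lit 0x18000c00000000c000e0002000100000000000000000000000000000000000) := T_29 (nat_lit 244) (nat_lit 227) (nat_lit 6) (nat_lit 6) (nat_lit 14) L78814 (by decide +kernel)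
theorem L78816 : W_29 (nat_lit 2) (nat_lit 0x2000f0007800240000001000080000000000000000000000000000000) (nat_lit 0x0) (nat_lit 0x4000000000000000080004000000000000000000000000000000000000000) := D_29 (nat_lit 175) (nat_lit 158) (nat_lit 242) (nat_lit 6) (nat_lit 4) (nat_lit 13) (nat_lit 6) (nat_lit 4) (nat_lit 14) (by decide +kernel)
theorem L78817 : W_29 (nat_lit 3) (nat_lit 0xf0007800240000001000080000000000000000000000000000000) (nat_lit 0x0) (nat_lit 0x4000300000000000080004000000000000000000000000000000000000000) := T_29 (nat_lit 225) (nat_lit 224) (nat_lit 1) (nat_lit 7) (nat_lit 12) L78816 (by decide +kernel)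
theorem L78818 : W_29 (nat_lit 4) (nat_lit 0xf0007800200000001000080000000000000000000000000000000) (nat_lit 0x0) (nat_lit 0x40003000000000000e0004000000000000000000000000000000000000000) := T_29 (nat_lit 174) (nat_lit 173) (nat_lit 0) (nat_lit 7) (nat_lit 11) L78817 (by decide +kernel)
theorem L78819 : W_29 (nat_lit 5) (nat_lit 0xe0007800200000001000080000000000000000000000000000000) (nat_lit 0x0) (nat_lit 0x40003000180000000e0004000000000000000000000000000000000000000) := T_29 (nat_lit 208) (nat_lit 207) (nat_lit 2) (nat_lit 3) (nat_lit 12) L78818 (by decide +kernel)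
theorem L78820 : W_29 (nat_lit 6) (nat_lit 0xe0007000200000001000080000000000000000000000000000000) (nat_lit 0x0) (nat_lit 0x4000300018000c000e0004000000000000000000000000000000000000000) := T_29 (nat_lit 191) (nat_lit 190) (nat_lit 3) (nat_lit 3) (nat_lit 11) L78819 (by decide +kernel)
theorem L78821 : W_29 (nat_lit 8) (nat_lit 0xc0007000200000001000080000000000000000000000000000000) (nat_lit 0x0) (nat_lit 0x8001c000f00038000c000e0006000100000000000000000000000000000000000) := Q_29 (nat_lit 209) (C_29 L78793 (C_29 L78799 (C_29 L78805 (C_29 L78810 (C_29 L78815 (C_29 L78820 N_29)))))) (by decide +kernel)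
theorem L78824 : W_29 (nat_lit 2) (nat_lit 0x8002c0007000300008001000080000000000000000000000000000000) (nat_lit 0x0) (nat_lit 0x80004000200000000000000000000000000000000000) := D_29 (nat_lit 158) (nat_lit 141) (nat_lit 175) (nat_lit 4) (nat_lit 6) (nat_lit 12) (nat_lit 4) (nat_lit 6) (nat_lit 13) (by decide +kernel)
theorem L78825 : W_29 (nat_lit 3) (nat_lit 0x2c0007000300008001000080000000000000000000000000000000) (nat_lit 0x0) (nat_lit 0x10000800000000000080004000200000000000000000000000000000000000) := T_29 (nat_lit 227) (nat_lit 244) (nat_lit 6) (nat_lit 6) (nat_lit 14) L78824 (by decide +kernel)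
theorem L78826 : W_29 (nat_lit 4) (nat_lit 0x2c0007000300000001000080000000000000000000000000000000) (nat_lit 0x0) (nat_lit 0x1000080000000000008000c000600000000000000000000000000000000000) := T_29 (nat_lit 159) (nat_lit 142) (nat_lit 7) (nat_lit 6) (nat_lit 8) L78825 (by decide +kernel)
theorem L78827 : W_29 (nat_lit 5) (nat_lit 0xc0007000300000001000080000000000000000000000000000000) (nat_lit 0x0) (nat_lit 0x1000080030000000008000c000600000000000000000000000000000000000) := T_29 (nat_lit 213) (nat_lit 212) (nat_lit 0) (nat_lit 9) (nat_lit 12) L78826 (by decide +kernel)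
theorem L78828 : W_29 (nat_lit 2) (nat_lit 0x100000000f000700030000c001000080000000000000000000000000000000) (nat_lit 0x0) (nat_lit 0x300000000000080000000000000000000000000000000000000000000) := D_29 (nat_lit 225) (nat_lit 224) (nat_lit 175) (nat_lit 1) (nat_lit 7) (nat_lit 12) (nat_lit 5) (nat_lit 5) (nat_lit 9) (by decide +kernel)
theorem L78829 : W_29 (nat_lit 3) (nat_lit 0x100000000f0007000300008001000080000000000000000000000000000000) (nat_lit 0x0) (nat_lit 0x300000000000080004000200000000000000000000000000000000000) := T_29 (nat_lit 158) (nat_lit 141) (nat_lit 4) (nat_lit 6) (nat_lit 12) L78828 (by decide +kernel)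
theorem L78830 : W_29 (nat_lit 4) (nat_lit 0x100000000e0007000300008001000080000000000000000000000000000000) (nat_lit 0x0) (nat_lit 0x300018000000080004000200000000000000000000000000000000000) := T_29 (nat_lit 208) (nat_lit 207) (nat_lit 2) (nat_lit 3) (nat_lit 12) L78829 (by decide +kernel)
theorem L78831 : W_29 (nat_lit 5) (nat_lit 0x100000000c0007000300008001000080000000000000000000000000000000) (nat_lit 0x0) (nat_lit 0x700038000000080004000200000000000000000000000000000000000) := T_29 (nat_lit 209) (nat_lit 226) (nat_lit 5) (nat_lit 6) (nat_lit 9) L78830 (by decide +kernel)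
theorem L78832 : W_29 (nat_lit 6) (nat_lit 0x100000000c0007000300000001000080000000000000000000000000000000) (nat_lit 0x0) (nat_lit 0x70003800000008000c000600000000000000000000000000000000000) := T_29 (nat_lit 159) (nat_lit 142) (nat_lit 7) (nat_lit 6) (nat_lit 8) L78831 (by decide +kernel)
theorem L78833 : W_29 (nat_lit 7) (nat_lit 0xc0007000300000001000080000000000000000000000000000000) (nat_lit 0x0) (nat_lit 0x10000f0003800000008000c000600000000000000000000000000000000000) := T_29 (nat_lit 244) (nat_lit 227) (nat_lit 6) (nat_lit 6) (nat_lit 14) L78832 (by decide +kernel)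
theorem L78834 : W_29 (nat_lit 2) (nat_lit 0x2f000700030000d001000080000000000000000000000000000000) (nat_lit 0x0) (nat_lit 0x300000000000080000000000000000000000000000000000000000000) := D_29 (nat_lit 225) (nat_lit 175) (nat_lit 224) (nat_lit 5) (nat_lit 5) (nat_lit 9) (nat_lit 1) (nat_lit 7) (nat_lit 12) (by decide +kernel)
theorem L78835 : W_29 (nat_lit 3) (nat_lit 0x2e000700030000d001000080000000000000000000000000000000) (nat_lit 0x0) (nat_lit 0x300018000000080000000000000000000000000000000000000000000) := T_29 (nat_lit 208) (nat_lit 207) (nat_lit 2) (nat_lit 3) (nat_lit 12) L78834 (by decide +kernel)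
theorem L78836 : W_29 (nat_lit 4) (nat_lit 0x2c000700030000d001000080000000000000000000000000000000) (nat_lit 0x0) (nat_lit 0x700038000000080000000000000000000000000000000000000000000) := T_29 (nat_lit 209) (nat_lit 226) (nat_lit 5) (nat_lit 6) (nat_lit 9) L78835 (by decide +kernel)
theorem L78837 : W_29 (nat_lit 5) (nat_lit 0x2c000700030000c001000080000000000000000000000000000000) (nat_lit 0x0) (nat_lit 0x700038000000080003000000000000000000000000000000000000000) := T_29 (nat_lit 156) (nat_lit 157) (nat_lit 3) (nat_lit 3) (nat_lit 9) L78836 (by decide +kernel)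
theorem L78838 : W_29 (nat_lit 6) (nat_lit 0x2c0007000300008001000080000000000000000000000000000000) (nat_lit 0x0) (nat_lit 0x700038000000080007000200000000000000000000000000000000000) := T_29 (nat_lit 158) (nat_lit 141) (nat_lit 4) (nat_lit 6) (nat_lit 12) L78837 (by decide +kernel)
theorem L78839 : W_29 (nat_lit 7) (nat_lit 0xc0007000300008001000080000000000000000000000000000000) (nat_lit 0x0) (nat_lit 0x700338000000080007000200000000000000000000000000000000000) := T_29 (nat_lit 213) (nat_lit 212) (nat_lit 0) (nat_lit 9) (nat_lit 12) L78838 (by decide +kernel)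
theorem L78840 : W_29 (nat_lit 8) (nat_lit 0xc0007000300000001000080000000000000000000000000000000) (nat_lit 0x0) (nat_lit 0x70033800000008000f000600000000000000000000000000000000000) := T_29 (nat_lit 159) (nat_lit 142) (nat_lit 7) (nat_lit 6) (nat_lit 8) L78839 (by decide +kernel)
theorem L78852 : W_29 (nat_lit 2) (nat_lit 0x4001e0007000200000001000080000000000000000000000000000000) (nat_lit 0x0) (nat_lit 0x100008000000000000000100000000000000000000000000000000000000000000) := D_29 (nat_lit 243) (nat_lit 176) (nat_lit 260) (nat_lit 6) (nat_lit 5) (nat_lit 14) (nat_lit 6) (nat_lit 5) (nat_lit 15) (by decide +kernel)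
theorem L78853 : W_29 (nat_lit 2) (nat_lit 0x100004001e0007000200000001000080000000000000000000000000000000) (nat_lit 0x0) (nat_lit 0x300008000000000000000000000000000000000000000000000000000000000000) := D_29 (nat_lit 243) (nat_lit 260) (nat_lit 261) (nat_lit 6) (nat_lit 5) (nat_lit 15) (nat_lit 7) (nat_lit 5) (nat_lit 11) (by decide +kernel)
theorem L78854 : W_29 (nat_lit 3) (nat_lit 0x1e0007000200000001000080000000000000000000000000000000) (nat_lit 0x0) (nat_lit 0x100008000600000000000100000000000000000000000000000000000000000000) := T_29 (nat_lit 226) (nat_lit 225) (nat_lit 1) (nat_lit 8) (nat_lit 12) L78852 (by decide +kernel)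
theorem L78855 : W_29 (nat_lit 3) (nat_lit 0x4001e0007000200000001000080000000000000000000000000000000) (nat_lit 0x0) (nat_lit 0x300018000800000000000000000000000000000000000000000000000000000000) := T_29 (nat_lit 244) (nat_lit 227) (nat_lit 6) (nat_lit 6) (nat_lit 14) L78853 (by decide +kernel)
theorem L78856 : W_29 (nat_lit 4) (nat_lit 0x1e0007000200000001000080000000000000000000000000000000) (nat_lit 0x0) (nat_lit 0x300018000e00000000000000000000000000000000000000000000000000000000) := T_29 (nat_lit 226) (nat_lit 225) (nat_lit 1) (nat_lit 8) (nat_lit 12) L78855 (by decide +kernel)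
theorem L78857 : W_29 (nat_lit 2) (nat_lit 0x1c0006000200000001000080000000000000000000000000000000) (nat_lit 0x0) (nat_lit 0x600001000000000000000000000000000000000000000000000000) := D_29 (nat_lit 213) (nat_lit 192) (nat_lit 214) (nat_lit 0) (nat_lit 9) (nat_lit 12) (nat_lit 0) (nat_lit 10) (nat_lit 12) (by decide +kernel)
theorem L78858 : W_29 (nat_lit 2) (nat_lit 0x100040003f0016000200000001000080000000000000000000000000000000) (nat_lit 0x0) (nat_lit 0x700000000000000000000000000000000000000000000000000000000) := D_29 (nat_lit 225) (nat_lit 226) (nat_lit 224) (nat_lit 1) (nat_lit 8) (nat_lit 12) (nat_lit 1) (nat_lit 7) (nat_lit 12) (by decide +kernel)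
theorem L78859 : W_29 (nat_lit 3) (nat_lit 0x100040003e0016000200000001000080000000000000000000000000000000) (nat_lit 0x0) (nat_lit 0x700018000000000000000000000000000000000000000000000000000) := T_29 (nat_lit 208) (nat_lit 207) (nat_lit 2) (nat_lit 3) (nat_lit 12) L78858 (by decide +kernel)
theorem L78860 : W_29 (nat_lit 4) (nat_lit 0x100040003c0016000200000001000080000000000000000000000000000000) (nat_lit 0x0) (nat_lit 0x2700038000000000000000000000000000000000000000000000000000) := T_29 (nat_lit 209) (nat_lit 229) (nat_lit 3) (nat_lit 5) (nat_lit 12) L78859 (by decide +kernel)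
theorem L78861 : W_29 (nat_lit 5) (nat_lit 0x100000003c0016000200000001000080000000000000000000000000000000) (nat_lit 0x0) (nat_lit 0xe700038000000000000000000000000000000000000000000000000000) := T_29 (nat_lit 230) (nat_lit 231) (nat_lit 3) (nat_lit 6) (nat_lit 12) L78860 (by decide +kernel)
theorem L78862 : W_29 (nat_lit 6) (nat_lit 0x100000003c0006000200000001000080000000000000000000000000000000) (nat_lit 0x0) (nat_lit 0xe700038030000000000000000000000000000000000000000000000000) := T_29 (nat_lit 196) (nat_lit 197) (nat_lit 2) (nat_lit 6) (nat_lit 12) L78861 (by decide +kernel)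
theorem L78863 : W_29 (nat_lit 7) (nat_lit 0x100000001c0006000200000001000080000000000000000000000000000000) (nat_lit 0x0) (nat_lit 0xe700638030000000000000000000000000000000000000000000000000) := T_29 (nat_lit 213) (nat_lit 214) (nat_lit 0) (nat_lit 10) (nat_lit 12) L78862 (by decide +kernel)
theorem L78864 : W_29 (nat_lit 8) (nat_lit 0x1c0006000200000001000080000000000000000000000000000000) (nat_lit 0x0) (nat_lit 0x1000ef00638030000000000000000000000000000000000000000000000000) := T_29 (nat_lit 244) (nat_lit 227) (nat_lit 6) (nat_lit 6) (nat_lit 14) L78863 (by decide +kernel)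
theorem L78865 : W_29 (nat_lit 2) (nat_lit 0x1e0006800200000001000080000000000000000000000000000000) (nat_lit 0x0) (nat_lit 0x18000400000000000000000000000000000000000000000000000) := D_29 (nat_lit 208) (nat_lit 207) (nat_lit 190) (nat_lit 2) (nat_lit 3) (nat_lit 12) (nat_lit 0) (nat_lit 7) (nat_lit 12) (by decide +kernel)
theorem L78866 : W_29 (nat_lit 3) (nat_lit 0x1e0006000200000001000080000000000000000000000000000000) (nat_lit 0x0) (nat_lit 0x18001c00000000000000000000000000000000000000000000000) := T_29 (nat_lit 191) (nat_lit 192) (nat_lit 3) (nat_lit 4) (nat_lit 11) L78865 (by decide +kernel)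
theorem L78867 : W_29 (nat_lit 2) (nat_lit 0x1f0006000200000001000080000000000000000000000000000000) (nat_lit 0x0) (nat_lit 0x700000000000000000000000000000000000000000000000000000000) := D_29 (nat_lit 225) (nat_lit 226) (nat_lit 224) (nat_lit 1) (nat_lit 8) (nat_lit 12) (nat_lit 1) (nat_lit 7) (nat_lit 12) (by decide +kernel)
theorem L78868 : W_29 (nat_lit 3) (nat_lit 0x1e0006000200000001000080000000000000000000000000000000) (nat_lit 0x0) (nat_lit 0x700018000000000000000000000000000000000000000000000000000) := T_29 (nat_lit 208) (nat_lit 207) (nat_lit 2) (nat_lit 3) (nat_lit 12) L78867 (by decide +kernel)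
theorem L78869 : W_29 (nat_lit 2) (nat_lit 0x8000100024001e0007000200000001000080000000000000000000000000000000) (nat_lit 0x0) (nat_lit 0x300008000000000000000000000000000000000000000000000000000000000000) := D_29 (nat_lit 243) (nat_lit 261) (nat_lit 260) (nat_lit 7) (nat_lit 5) (nat_lit 11) (nat_lit 6) (nat_lit 5) (nat_lit 15) (by decide +kernel)
theorem L78870 : W_29 (nat_lit 3) (nat_lit 0x8000000024001e0007000200000001000080000000000000000000000000000000) (nat_lit 0x0) (nat_lit 0x300018000800000000000000000000000000000000000000000000000000000000) := T_29 (nat_lit 244) (nat_lit 227) (nat_lit 6) (nat_lit 6) (nat_lit 14) L78869 (by decide +kernel)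
theorem L78871 : W_29 (nat_lit 4) (nat_lit 0x8000000020001e0007000200000001000080000000000000000000000000000000) (nat_lit 0x0) (nat_lit 0x300018000e00000000000000000000000000000000000000000000000000000000) := T_29 (nat_lit 226) (nat_lit 225) (nat_lit 1) (nat_lit 8) (nat_lit 12) L78870 (by decide +kernel)
theorem L78872 : W_29 (nat_lit 5) (nat_lit 0x20001e0007000200000001000080000000000000000000000000000000) (nat_lit 0x0) (nat_lit 0xb00058000e00000000000000000000000000000000000000000000000000000000) := T_29 (nat_lit 263) (nat_lit 246) (nat_lit 4) (nat_lit 8) (nat_lit 15) L78871 (by decide +kernel)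
theorem L78873 : W_29 (nat_lit 6) (nat_lit 0x20001e0006000200000001000080000000000000000000000000000000) (nat_lit 0x0) (nat_lit 0xb00058000e00000001800000000000000000000000000000000000000000000000) := T_29 (nat_lit 192) (nat_lit 191) (nat_lit 3) (nat_lit 4) (nat_lit 11) L78872 (by decide +kernel)
theorem L78874 : W_29 (nat_lit 7) (nat_lit 0x1e0006000200000001000080000000000000000000000000000000) (nat_lit 0x0) (nat_lit 0xb00058006e00000001800000000000000000000000000000000000000000000000) := T_29 (nat_lit 229) (nat_lit 230) (nat_lit 3) (nat_lit 5) (nat_lit 12) L78873 (by decide +kernel)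
theorem L78875 : W_29 (nat_lit 8) (nat_lit 0x1c0006000200000001000080000000000000000000000000000000) (nat_lit 0x0) (nat_lit 0xb00058006f00038001c00000000000000000000000000000000000000000000000) := Q_29 (nat_lit 209) (C_29 L78866 (C_29 L78868 (C_29 L78874 N_29))) (by decide +kernel)
theorem L78876 : W_29 (nat_lit 9) (nat_lit 0xc0006000200000001000080000000000000000000000000000000) (nat_lit 0x0) (nat_lit 0xb0005800ef00738031c00000000000000000000000000000000000000000000000) := Q_29 (nat_lit 212) (C_29 L78857 (C_29 L78864 (C_29 L78875 N_29))) (by decide +kernel)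
theorem L78882 : W_29 (nat_lit 2) (nat_lit 0x8000c0007000300008001000080000000000000000000000000000000) (nat_lit 0x0) (nat_lit 0x8000400020000000000000000000000000000000000000000000000000000) := D_29 (nat_lit 226) (nat_lit 243) (nat_lit 209) (nat_lit 5) (nat_lit 6) (nat_lit 10) (nat_lit 5) (nat_lit 6) (nat_lit 9) (by decide +kernel)
theorem L78883 : W_29 (nat_lit 3) (nat_lit 0x8000c0007000300000001000080000000000000000000000000000000) (nat_lit 0x0) (nat_lit 0x8000400020000000000008000400000000000000000000000000000000000) := T_29 (nat_lit 159) (nat_lit 142) (nat_lit 7) (nat_lit 6) (nat_lit 8) L78882 (by decide +kernel)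
theorem L78884 : W_29 (nat_lit 4) (nat_lit 0xc0007000300000001000080000000000000000000000000000000) (nat_lit 0x0) (nat_lit 0x18000c00020000000000008000400000000000000000000000000000000000) := T_29 (nat_lit 227) (nat_lit 244) (nat_lit 6) (nat_lit 6) (nat_lit 14) L78883 (by decide +kernel)
theorem L78894 : W_29 (nat_lit 2) (nat_lit 0x100000000e800600030000e001000080000000000000000000000000000000) (nat_lit 0x0) (nat_lit 0xc80000000000000000000000000000000000000000000) := D_29 (nat_lit 178) (nat_lit 179) (nat_lit 175) (nat_lit 0) (nat_lit 9) (nat_lit 10) (nat_lit 0) (nat_lit 8) (nat_lit 10) (by decide +kernel)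
theorem L78895 : W_29 (nat_lit 3) (nat_lit 0x100000000e800600030000c001000080000000000000000000000000000000) (nat_lit 0x0) (nat_lit 0xc80003000000000000000000000000000000000000000) := T_29 (nat_lit 157) (nat_lit 156) (nat_lit 3) (nat_lit 3) (nat_lit 9) L78894 (by decide +kernel)
theorem L78896 : W_29 (nat_lit 4) (nat_lit 0x100000000e8006000300008001000080000000000000000000000000000000) (nat_lit 0x0) (nat_lit 0xc80007000200000000000000000000000000000000000) := T_29 (nat_lit 158) (nat_lit 141) (nat_lit 4) (nat_lit 6) (nat_lit 12) L78895 (by decide +kernel)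
theorem L78897 : W_29 (nat_lit 5) (nat_lit 0x100000000e0006000300008001000080000000000000000000000000000000) (nat_lit 0x0) (nat_lit 0x18000000c80007000200000000000000000000000000000000000) := T_29 (nat_lit 207) (nat_lit 208) (nat_lit 2) (nat_lit 3) (nat_lit 12) L78896 (by decide +kernel)
theorem L78903 : W_29 (nat_lit 2) (nat_lit 0x2000f0007000280000001000080000000000000000000000000000000) (nat_lit 0x0) (nat_lit 0x80004000400000000000000000000000000000000000000000000000000000000) := D_29 (nat_lit 242) (nat_lit 259) (nat_lit 226) (nat_lit 6) (nat_lit 4) (nat_lit 15) (nat_lit 5) (nat_lit 5) (nat_lit 10) (by decide +kernel)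
theorem L78904 : W_29 (nat_lit 3) (nat_lit 0x2000f0007000200000001000080000000000000000000000000000000) (nat_lit 0x0) (nat_lit 0x80004000400000000000080004000000000000000000000000000000000000000) := T_29 (nat_lit 175) (nat_lit 158) (nat_lit 5) (nat_lit 5) (nat_lit 9) L78903 (by decide +kernel)
theorem L78905 : W_29 (nat_lit 4) (nat_lit 0xf0007000200000001000080000000000000000000000000000000) (nat_lit 0x0) (nat_lit 0x80004000700000000000080004000000000000000000000000000000000000000) := T_29 (nat_lit 225) (nat_lit 224) (nat_lit 1) (nat_lit 7) (nat_lit 12) L78904 (by decide +kernel)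
theorem L78906 : W_29 (nat_lit 5) (nat_lit 0xe0007000200000001000080000000000000000000000000000000) (nat_lit 0x0) (nat_lit 0x80004000700018000000080004000000000000000000000000000000000000000) := T_29 (nat_lit 208) (nat_lit 207) (nat_lit 2) (nat_lit 3) (nat_lit 12) L78905 (by decide +kernel)
theorem L78911 : W_29 (nat_lit 2) (nat_lit 0x40003f0016000200000001000080000000000000000000000000000000) (nat_lit 0x0) (nat_lit 0x700000000000000000000000000000000000000000000000000000000) := D_29 (nat_lit 225) (nat_lit 226) (nat_lit 224) (nat_lit 1) (nat_lit 8) (nat_lit 12) (nat_lit 1) (nat_lit 7) (nat_lit 12) (by decide +kernel)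
theorem L78912 : W_29 (nat_lit 3) (nat_lit 0x40003e0016000200000001000080000000000000000000000000000000) (nat_lit 0x0) (nat_lit 0x700018000000000000000000000000000000000000000000000000000) := T_29 (nat_lit 208) (nat_lit 207) (nat_lit 2) (nat_lit 3) (nat_lit 12) L78911 (by decide +kernel)
theorem L78913 : W_29 (nat_lit 4) (nat_lit 0x40003c0016000200000001000080000000000000000000000000000000) (nat_lit 0x0) (nat_lit 0x2700038000000000000000000000000000000000000000000000000000) := T_29 (nat_lit 209) (nat_lit 229) (nat_lit 3) (nat_lit 5) (nat_lit 12) L78912 (by decide +kernel)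
theorem L78914 : W_29 (nat_lit 5) (nat_lit 0x3c0016000200000001000080000000000000000000000000000000) (nat_lit 0x0) (nat_lit 0xe700038000000000000000000000000000000000000000000000000000) := T_29 (nat_lit 230) (nat_lit 231) (nat_lit 3) (nat_lit 6) (nat_lit 12) L78913 (by decide +kernel)
theorem L78915 : W_29 (nat_lit 6) (nat_lit 0x3c0006000200000001000080000000000000000000000000000000) (nat_lit 0x0) (nat_lit 0xe700038030000000000000000000000000000000000000000000000000) := T_29 (nat_lit 196) (nat_lit 197) (nat_lit 2) (nat_lit 6) (nat_lit 12) L78914 (by decide +kernel)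
theorem L78916 : W_29 (nat_lit 7) (nat_lit 0x1c0006000200000001000080000000000000000000000000000000) (nat_lit 0x0) (nat_lit 0xe700638030000000000000000000000000000000000000000000000000) := T_29 (nat_lit 213) (nat_lit 214) (nat_lit 0) (nat_lit 10) (nat_lit 12) L78915 (by decide +kernel)
theorem L78917 : W_29 (nat_lit 4) (nat_lit 0x1e0006000200000001000080000000000000000000000000000000) (nat_lit 0x0) (nat_lit 0x100008000600000001800100000000000000000000000000000000000000000000) := T_29 (nat_lit 192) (nat_lit 191) (nat_lit 3) (nat_lit 4) (nat_lit 11) L78854 (by decide +kernel)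
theorem L78918 : W_29 (nat_lit 5) (nat_lit 0x1c0006000200000001000080000000000000000000000000000000) (nat_lit 0x0) (nat_lit 0x100008000700038001c00100000000000000000000000000000000000000000000) := Q_29 (nat_lit 209) (C_29 L78868 (C_29 L78917 (C_29 L78866 N_29))) (by decide +kernel)
theorem L78919 : W_29 (nat_lit 8) (nat_lit 0xc0006000200000001000080000000000000000000000000000000) (nat_lit 0x0) (nat_lit 0x10000800e700738031c00100000000000000000000000000000000000000000000) := Q_29 (nat_lit 212) (C_29 L78916 (C_29 L78857 (C_29 L78918 N_29))) (by decide +kernel)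
theorem L78920 : W_29 (nat_lit 2) (nat_lit 0x8001c0006000200000001000080000000000000000000000000000000) (nat_lit 0x0) (nat_lit 0x400600000000000000000000000000000000000000000000000000000) := D_29 (nat_lit 213) (nat_lit 214) (nat_lit 226) (nat_lit 0) (nat_lit 10) (nat_lit 12) (nat_lit 1) (nat_lit 9) (nat_lit 12) (by decide +kernel)
theorem L78921 : W_29 (nat_lit 3) (nat_lit 0x1c0006000200000001000080000000000000000000000000000000) (nat_lit 0x0) (nat_lit 0x10000c00600000000000000000000000000000000000000000000000000000) := T_29 (nat_lit 227) (nat_lit 244) (nat_lit 6) (nat_lit 6) (nat_lit 14) L78920 (by decide +kernel)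
theorem L78960 : W_29 (nat_lit 2) (nat_lit 0xc001c0004000200000001000080000000000000000000000000000000) (nat_lit 0x0) (nat_lit 0x300020000000000000000000000000000000000000000000000000000) := D_29 (nat_lit 225) (nat_lit 209) (nat_lit 224) (nat_lit 1) (nat_lit 8) (nat_lit 12) (nat_lit 2) (nat_lit 3) (nat_lit 13) (by decide +kernel)
theorem L78961 : W_29 (nat_lit 3) (nat_lit 0x8001c0004000200000001000080000000000000000000000000000000) (nat_lit 0x0) (nat_lit 0x700220000000000000000000000000000000000000000000000000000) := T_29 (nat_lit 226) (nat_lit 213) (nat_lit 1) (nat_lit 9) (nat_lit 12) L78960 (by decide +kernel)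
theorem L78969 : W_29 (nat_lit 2) (nat_lit 0x8000f0005000280000001000080000000000000000000000000000000) (nat_lit 0x0) (nat_lit 0x200010000400000000000000000000000000000000000000000000000000000000) := D_29 (nat_lit 244) (nat_lit 261) (nat_lit 226) (nat_lit 6) (nat_lit 6) (nat_lit 15) (nat_lit 7) (nat_lit 5) (nat_lit 10) (by decide +kernel)
theorem L78970 : W_29 (nat_lit 3) (nat_lit 0x8000f0005000200000001000080000000000000000000000000000000) (nat_lit 0x0) (nat_lit 0x200010000400000000000080004000000000000000000000000000000000000000) := T_29 (nat_lit 175) (nat_lit 158) (nat_lit 7) (nat_lit 5) (nat_lit 9) L78969 (by decide +kernel)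
theorem L78971 : W_29 (nat_lit 2) (nat_lit 0x200004000a000f0005000200000001000080000000000000000000000000000000) (nat_lit 0x0) (nat_lit 0x400000000800080000000000000000000000000000000000000000000) := D_29 (nat_lit 175) (nat_lit 191) (nat_lit 226) (nat_lit 6) (nat_lit 4) (nat_lit 14) (nat_lit 5) (nat_lit 5) (nat_lit 10) (by decide +kernel)
theorem L78972 : W_29 (nat_lit 3) (nat_lit 0x200000000a000f0005000200000001000080000000000000000000000000000000) (nat_lit 0x0) (nat_lit 0x80004000400000000800080000000000000000000000000000000000000000000) := T_29 (nat_lit 242) (nat_lit 259) (nat_lit 6) (nat_lit 4) (nat_lit 15) L78971 (by decide +kernel)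
theorem L78973 : W_29 (nat_lit 4) (nat_lit 0x2000000008000f0005000200000001000080000000000000000000000000000000) (nat_lit 0x0) (nat_lit 0x80004000700000000800080000000000000000000000000000000000000000000) := T_29 (nat_lit 225) (nat_lit 224) (nat_lit 1) (nat_lit 7) (nat_lit 12) L78972 (by decide +kernel)
theorem L78974 : W_29 (nat_lit 5) (nat_lit 0x8000f0005000200000001000080000000000000000000000000000000) (nat_lit 0x0) (nat_lit 0x280014000700000000800080000000000000000000000000000000000000000000) := T_29 (nat_lit 261) (nat_lit 244) (nat_lit 6) (nat_lit 6) (nat_lit 15) L78973 (by decide +kernel)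
theorem L78975 : W_29 (nat_lit 2) (nat_lit 0xa000f0005000280000001000080000000000000000000000000000000) (nat_lit 0x0) (nat_lit 0x80004000000000000800000000000000000000000000000000000000000000000) := D_29 (nat_lit 242) (nat_lit 259) (nat_lit 191) (nat_lit 6) (nat_lit 4) (nat_lit 15) (nat_lit 6) (nat_lit 4) (nat_lit 14) (by decide +kernel)
theorem L78976 : W_29 (nat_lit 3) (nat_lit 0xa000f0005000200000001000080000000000000000000000000000000) (nat_lit 0x0) (nat_lit 0x80004000000000000800080004000000000000000000000000000000000000000) := T_29 (nat_lit 175) (nat_lit 158) (nat_lit 7) (nat_lit 5) (nat_lit 9) L78975 (by decide +kernel)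
theorem L78977 : W_29 (nat_lit 4) (nat_lit 0x8000f0005000200000001000080000000000000000000000000000000) (nat_lit 0x0) (nat_lit 0x80004000300000000800080004000000000000000000000000000000000000000) := T_29 (nat_lit 225) (nat_lit 224) (nat_lit 1) (nat_lit 7) (nat_lit 12) L78976 (by decide +kernel)
theorem L78978 : W_29 (nat_lit 2) (nat_lit 0x20000c000a000f0005800240002001000080000000000000000000000000000000) (nat_lit 0x0) (nat_lit 0x20001000080000000000000000000000000000000000) := D_29 (nat_lit 156) (nat_lit 173) (nat_lit 139) (nat_lit 4) (nat_lit 4) (nat_lit 13) (nat_lit 4) (nat_lit 4) (nat_lit 12) (by decide +kernel)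
theorem L78979 : W_29 (nat_lit 3) (nat_lit 0x20000c000a000f0005800240000001000080000000000000000000000000000000) (nat_lit 0x0) (nat_lit 0x20003000180000000000000000000000000000000000) := T_29 (nat_lit 157) (nat_lit 140) (nat_lit 7) (nat_lit 4) (nat_lit 8) L78978 (by decide +kernel)
theorem L78980 : W_29 (nat_lit 4) (nat_lit 0x20000c000a000f0005800200000001000080000000000000000000000000000000) (nat_lit 0x0) (nat_lit 0x400000000000060003000180000000000000000000000000000000000) := T_29 (nat_lit 174) (nat_lit 226) (nat_lit 7) (nat_lit 4) (nat_lit 10) L78979 (by decide +kernel)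
theorem L78981 : W_29 (nat_lit 5) (nat_lit 0x200004000a000f0005800200000001000080000000000000000000000000000000) (nat_lit 0x0) (nat_lit 0x100008000400000000000060003000180000000000000000000000000000000000) := T_29 (nat_lit 243) (nat_lit 260) (nat_lit 7) (nat_lit 4) (nat_lit 11) L78980 (by decide +kernel)
theorem L78982 : W_29 (nat_lit 6) (nat_lit 0x200004000a000f0005000200000001000080000000000000000000000000000000) (nat_lit 0x0) (nat_lit 0x100008000400000000c00060003000180000000000000000000000000000000000) := T_29 (nat_lit 191) (nat_lit 190) (nat_lit 0) (nat_lit 7) (nat_lit 12) L78981 (by decide +kernel)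
theorem L78983 : W_29 (nat_lit 7) (nat_lit 0x200000000a000f0005000200000001000080000000000000000000000000000000) (nat_lit 0x0) (nat_lit 0x18000c000400000000c00060003000180000000000000000000000000000000000) := T_29 (nat_lit 242) (nat_lit 259) (nat_lit 6) (nat_lit 4) (nat_lit 15) L78982 (by decide +kernel)
theorem L78984 : W_29 (nat_lit 8) (nat_lit 0xa000f0005000200000001000080000000000000000000000000000000) (nat_lit 0x0) (nat_lit 0x38001c000400000000c00060003000180000000000000000000000000000000000) := T_29 (nat_lit 261) (nat_lit 244) (nat_lit 6) (nat_lit 6) (nat_lit 15) L78983 (by decide +kernel)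
theorem L78985 : W_29 (nat_lit 9) (nat_lit 0x8000f0005000200000001000080000000000000000000000000000000) (nat_lit 0x0) (nat_lit 0x38001c000700000000c00060003000180000000000000000000000000000000000) := T_29 (nat_lit 225) (nat_lit 224) (nat_lit 1) (nat_lit 7) (nat_lit 12) L78984 (by decide +kernel)
theorem L78986 : W_29 (nat_lit 10) (nat_lit 0x8000f0004000200000001000080000000000000000000000000000000) (nat_lit 0x0) (nat_lit 0x38001c000700000001c000e0007000180000000000000000000000000000000000) := Q_29 (nat_lit 192) (C_29 L78970 (C_29 L78977 (C_29 L78974 (C_29 L78985 N_29)))) (by decide +kernel)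
theorem L78990 : W_29 (nat_lit 2) (nat_lit 0xa000f0005800200000001000080000000000000000000000000000000) (nat_lit 0x0) (nat_lit 0x80004000000000000000080000000000000000000000000000000000000000000) := D_29 (nat_lit 242) (nat_lit 259) (nat_lit 175) (nat_lit 6) (nat_lit 4) (nat_lit 15) (nat_lit 6) (nat_lit 4) (nat_lit 14) (by decide +kernel)
theorem L78991 : W_29 (nat_lit 2) (nat_lit 0xe000e00050003c0000001000080000000000000000000000000000000) (nat_lit 0x0) (nat_lit 0x8000000000000800400000000000000000000000000000000000000000000) := D_29 (nat_lit 191) (nat_lit 178) (nat_lit 243) (nat_lit 1) (nat_lit 8) (nat_lit 10) (nat_lit 4) (nat_lit 5) (nat_lit 14) (by decide +kernel)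
theorem L78992 : W_29 (nat_lit 3) (nat_lit 0xe000e00050002c0000001000080000000000000000000000000000000) (nat_lit 0x0) (nat_lit 0x8000000000000800500008000000000000000000000000000000000000000) := T_29 (nat_lit 176) (nat_lit 159) (nat_lit 6) (nat_lit 5) (nat_lit 13) L78991 (by decide +kernel)
theorem L78993 : W_29 (nat_lit 2) (nat_lit 0x44001e0004000200000001000080000000000000000000000000000000) (nat_lit 0x0) (nat_lit 0x8800200000000000000000000000000000000000000000000000000000) := D_29 (nat_lit 213) (nat_lit 231) (nat_lit 227) (nat_lit 3) (nat_lit 6) (nat_lit 12) (nat_lit 1) (nat_lit 9) (nat_lit 12) (by decide +kernel)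
theorem L78994 : W_29 (nat_lit 3) (nat_lit 0x40001e0004000200000001000080000000000000000000000000000000) (nat_lit 0x0) (nat_lit 0x8e00200000000000000000000000000000000000000000000000000000) := T_29 (nat_lit 226) (nat_lit 225) (nat_lit 1) (nat_lit 8) (nat_lit 12) L78993 (by decide +kernel)
theorem L78995 : W_29 (nat_lit 4) (nat_lit 0x1e0004000200000001000080000000000000000000000000000000) (nat_lit 0x0) (nat_lit 0xee00200000000000000000000000000000000000000000000000000000) := T_29 (nat_lit 230) (nat_lit 229) (nat_lit 3) (nat_lit 5) (nat_lit 12) L78994 (by decide +kernel)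
theorem L78996 : W_29 (nat_lit 2) (nat_lit 0x8000000020001f0004800200000001000080000000000000000000000000000000) (nat_lit 0x0) (nat_lit 0x700000000000000000000000000000000000000000000000000000000) := D_29 (nat_lit 225) (nat_lit 226) (nat_lit 224) (nat_lit 1) (nat_lit 8) (nat_lit 12) (nat_lit 1) (nat_lit 7) (nat_lit 12) (by decide +kernel)
theorem L78997 : W_29 (nat_lit 3) (nat_lit 0x8000000020001e0004800200000001000080000000000000000000000000000000) (nat_lit 0x0) (nat_lit 0x700010000400000000000000000000000000000000000000000000000) := T_29 (nat_lit 208) (nat_lit 190) (nat_lit 0) (nat_lit 7) (nat_lit 12) L78996 (by decide +kernel)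
theorem L78998 : W_29 (nat_lit 4) (nat_lit 0x20001e0004800200000001000080000000000000000000000000000000) (nat_lit 0x0) (nat_lit 0x800040000700010000400000000000000000000000000000000000000000000000) := T_29 (nat_lit 263) (nat_lit 246) (nat_lit 4) (nat_lit 8) (nat_lit 15) L78997 (by decide +kernel)
theorem L78999 : W_29 (nat_lit 5) (nat_lit 0x20001e0004000200000001000080000000000000000000000000000000) (nat_lit 0x0) (nat_lit 0x800040000700010001c00000000000000000000000000000000000000000000000) := T_29 (nat_lit 191) (nat_lit 192) (nat_lit 0) (nat_lit 8) (nat_lit 12) L78998 (by decide +kernel)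
theorem L79000 : W_29 (nat_lit 6) (nat_lit 0x1e0004000200000001000080000000000000000000000000000000) (nat_lit 0x0) (nat_lit 0x800040006700010001c00000000000000000000000000000000000000000000000) := T_29 (nat_lit 229) (nat_lit 230) (nat_lit 3) (nat_lit 5) (nat_lit 12) L78999 (by decide +kernel)
theorem L79001 : W_29 (nat_lit 6) (nat_lit 0x4001e0004000200000001000080000000000000000000000000000000) (nat_lit 0x0) (nat_lit 0x1c800600071800000000000000000000000000000000000000000000000) := T_29 (nat_lit 192) (nat_lit 191) (nat_lit 0) (nat_lit 8) (nat_lit 12) L24210 (by decide +kernel)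
theorem L79002 : W_29 (nat_lit 7) (nat_lit 0x1e0004000200000001000080000000000000000000000000000000) (nat_lit 0x0) (nat_lit 0x1ce00600071800000000000000000000000000000000000000000000000) := T_29 (nat_lit 226) (nat_lit 225) (nat_lit 1) (nat_lit 8) (nat_lit 12) L79001 (by decide +kernel)
theorem L79003 : W_29 (nat_lit 2) (nat_lit 0x801f8004200200000001000080000000000000000000000000000000) (nat_lit 0x0) (nat_lit 0x40004000100000000000000000000000000000000000000000000000) := D_29 (nat_lit 206) (nat_lit 222) (nat_lit 188) (nat_lit 1) (nat_lit 5) (nat_lit 12) (nat_lit 0) (nat_lit 5) (nat_lit 12) (by decide +kernel)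
theorem L79004 : W_29 (nat_lit 3) (nat_lit 0x801f8004000200000001000080000000000000000000000000000000) (nat_lit 0x0) (nat_lit 0x40004000700000000000000000000000000000000000000000000000) := T_29 (nat_lit 189) (nat_lit 190) (nat_lit 0) (nat_lit 6) (nat_lit 12) L79003 (by decide +kernel)
theorem L79005 : W_29 (nat_lit 4) (nat_lit 0x1f8004000200000001000080000000000000000000000000000000) (nat_lit 0x0) (nat_lit 0x1c0004000700000000000000000000000000000000000000000000000) := T_29 (nat_lit 223) (nat_lit 224) (nat_lit 1) (nat_lit 6) (nat_lit 12) L79004 (by decide +kernel)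
theorem L79009 : W_29 (nat_lit 2) (nat_lit 0x60003c0014000200000001000080000000000000000000000000000000) (nat_lit 0x0) (nat_lit 0x800040000000000000000800000000000000000000000000000000000000000000) := D_29 (nat_lit 246) (nat_lit 263) (nat_lit 179) (nat_lit 6) (nat_lit 8) (nat_lit 15) (nat_lit 5) (nat_lit 9) (nat_lit 10) (by decide +kernel)
theorem L79010 : W_29 (nat_lit 3) (nat_lit 0x60003c0004000200000001000080000000000000000000000000000000) (nat_lit 0x0) (nat_lit 0x800040000000000030000800000000000000000000000000000000000000000000) := T_29 (nat_lit 196) (nat_lit 197) (nat_lit 2) (nat_lit 6) (nat_lit 12) L79009 (by decide +kernel)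
theorem L79011 : W_29 (nat_lit 4) (nat_lit 0x40003c0004000200000001000080000000000000000000000000000000) (nat_lit 0x0) (nat_lit 0x800040002000020030000800000000000000000000000000000000000000000000) := T_29 (nat_lit 229) (nat_lit 209) (nat_lit 3) (nat_lit 5) (nat_lit 12) L79010 (by decide +kernel)
theorem L79012 : W_29 (nat_lit 5) (nat_lit 0x3c0004000200000001000080000000000000000000000000000000) (nat_lit 0x0) (nat_lit 0x80004000e000020030000800000000000000000000000000000000000000000000) := T_29 (nat_lit 230) (nat_lit 231) (nat_lit 3) (nat_lit 6) (nat_lit 12) L79011 (by decide +kernel)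
theorem L79013 : W_29 (nat_lit 2) (nat_lit 0x40003e0004000200000001000080000000000000000000000000000000) (nat_lit 0x0) (nat_lit 0xe00000000000000000000000000000000000000000000000000000000) := D_29 (nat_lit 226) (nat_lit 225) (nat_lit 227) (nat_lit 1) (nat_lit 8) (nat_lit 12) (nat_lit 1) (nat_lit 9) (nat_lit 12) (by decide +kernel)
theorem L79014 : W_29 (nat_lit 3) (nat_lit 0x40003c0004000200000001000080000000000000000000000000000000) (nat_lit 0x0) (nat_lit 0x2e00020000000000000000000000000000000000000000000000000000) := T_29 (nat_lit 209) (nat_lit 229) (nat_lit 3) (nat_lit 5) (nat_lit 12) L79013 (by decide +kernel)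
theorem L79015 : W_29 (nat_lit 4) (nat_lit 0x3c0004000200000001000080000000000000000000000000000000) (nat_lit 0x0) (nat_lit 0xee00020000000000000000000000000000000000000000000000000000) := T_29 (nat_lit 230) (nat_lit 231) (nat_lit 3) (nat_lit 6) (nat_lit 12) L79014 (by decide +kernel)
theorem L79016 : W_29 (nat_lit 2) (nat_lit 0x20003e0004000200000001000080000000000000000000000000000000) (nat_lit 0x0) (nat_lit 0xe00000000000000000000000000000000000000000000000000000000) := D_29 (nat_lit 226) (nat_lit 225) (nat_lit 227) (nat_lit 1) (nat_lit 8) (nat_lit 12) (nat_lit 1) (nat_lit 9) (nat_lit 12) (by decide +kernel)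
theorem L79017 : W_29 (nat_lit 3) (nat_lit 0x20003c0004000200000001000080000000000000000000000000000000) (nat_lit 0x0) (nat_lit 0x4e00020000000000000000000000000000000000000000000000000000) := T_29 (nat_lit 209) (nat_lit 230) (nat_lit 3) (nat_lit 5) (nat_lit 12) L79016 (by decide +kernel)
theorem L79018 : W_29 (nat_lit 2) (nat_lit 0x22003e0014800200000001000080000000000000000000000000000000) (nat_lit 0x0) (nat_lit 0x100010000400000000000000000000000000000000000000000000000) := D_29 (nat_lit 208) (nat_lit 224) (nat_lit 190) (nat_lit 1) (nat_lit 7) (nat_lit 12) (nat_lit 0) (nat_lit 7) (nat_lit 12) (by decide +kernel)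
theorem L79019 : W_29 (nat_lit 3) (nat_lit 0x22003e0014000200000001000080000000000000000000000000000000) (nat_lit 0x0) (nat_lit 0x100010001c00000000000000000000000000000000000000000000000) := T_29 (nat_lit 191) (nat_lit 192) (nat_lit 0) (nat_lit 8) (nat_lit 12) L79018 (by decide +kernel)
theorem L79020 : W_29 (nat_lit 4) (nat_lit 0x20003e0014000200000001000080000000000000000000000000000000) (nat_lit 0x0) (nat_lit 0x700010001c00000000000000000000000000000000000000000000000) := T_29 (nat_lit 225) (nat_lit 226) (nat_lit 1) (nat_lit 8) (nat_lit 12) L79019 (by decide +kernel)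
theorem L79021 : W_29 (nat_lit 5) (nat_lit 0x20003c0014000200000001000080000000000000000000000000000000) (nat_lit 0x0) (nat_lit 0x4700030001c00000000000000000000000000000000000000000000000) := T_29 (nat_lit 209) (nat_lit 230) (nat_lit 3) (nat_lit 5) (nat_lit 12) L79020 (by decide +kernel)
theorem L79022 : W_29 (nat_lit 2) (nat_lit 0x3e0014000200000001000080000000000000000000000000000000) (nat_lit 0x0) (nat_lit 0xe00000000000000000000000000000000000000000000000000000000) := D_29 (nat_lit 226) (nat_lit 227) (nat_lit 225) (nat_lit 1) (nat_lit 9) (nat_lit 12) (nat_lit 1) (nat_lit 8) (nat_lit 12) (by decide +kernel)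
theorem L79023 : W_29 (nat_lit 6) (nat_lit 0x20001c0004000200000001000080000000000000000000000000000000) (nat_lit 0x0) (nat_lit 0x800040004700030001c00000000000000000000000000000000000000000000000) := T_29 (nat_lit 209) (nat_lit 230) (nat_lit 3) (nat_lit 5) (nat_lit 12) L78999 (by decide +kernel)
theorem L79024 : W_29 (nat_lit 2) (nat_lit 0x80003c0024000200000001000080000000000000000000000000000000) (nat_lit 0x0) (nat_lit 0x10000400040000000000000000000000000000000000000000000000000) := D_29 (nat_lit 214) (nat_lit 232) (nat_lit 198) (nat_lit 3) (nat_lit 7) (nat_lit 12) (nat_lit 2) (nat_lit 7) (nat_lit 12) (by decide +kernel)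
theorem L79025 : W_29 (nat_lit 3) (nat_lit 0x80003c0004000200000001000080000000000000000000000000000000) (nat_lit 0x0) (nat_lit 0x10000400070000000000000000000000000000000000000000000000000) := T_29 (nat_lit 197) (nat_lit 196) (nat_lit 2) (nat_lit 6) (nat_lit 12) L79024 (by decide +kernel)
theorem L79026 : W_29 (nat_lit 2) (nat_lit 0x2000f0005800200000001000080000000000000000000000000000000) (nat_lit 0x0) (nat_lit 0x4000000000000000080004000000000000000000000000000000000000000) := D_29 (nat_lit 175) (nat_lit 158) (nat_lit 242) (nat_lit 5) (nat_lit 5) (nat_lit 9) (nat_lit 6) (nat_lit 4) (nat_lit 14) (by decide +kernel)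
theorem L79027 : W_29 (nat_lit 3) (nat_lit 0x2000f0004800200000001000080000000000000000000000000000000) (nat_lit 0x0) (nat_lit 0x4000000100001000080004000000000000000000000000000000000000000) := T_29 (nat_lit 192) (nat_lit 212) (nat_lit 0) (nat_lit 8) (nat_lit 12) L79026 (by decide +kernel)
theorem L79028 : W_29 (nat_lit 4) (nat_lit 0xf0004800200000001000080000000000000000000000000000000) (nat_lit 0x0) (nat_lit 0x4000300100001000080004000000000000000000000000000000000000000) := T_29 (nat_lit 225) (nat_lit 224) (nat_lit 1) (nat_lit 7) (nat_lit 12) L79027 (by decide +kernel)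
theorem L79029 : W_29 (nat_lit 5) (nat_lit 0xf0004000200000001000080000000000000000000000000000000) (nat_lit 0x0) (nat_lit 0x4000300100001c00080004000000000000000000000000000000000000000) := T_29 (nat_lit 191) (nat_lit 190) (nat_lit 0) (nat_lit 7) (nat_lit 12) L79028 (by decide +kernel)
theorem L79030 : W_29 (nat_lit 2) (nat_lit 0x2000f0004800200000001000080000000000000000000000000000000) (nat_lit 0x0) (nat_lit 0x400100001000000000000000000000000000000000000000000000000) := D_29 (nat_lit 212) (nat_lit 192) (nat_lit 226) (nat_lit 0) (nat_lit 8) (nat_lit 12) (nat_lit 1) (nat_lit 8) (nat_lit 12) (by decide +kernel)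
theorem L79031 : W_29 (nat_lit 2) (nat_lit 0x1000f0004400200000001000080000000000000000000000000000000) (nat_lit 0x0) (nat_lit 0x80008000200000000000000000000000000000000000000000000000) := D_29 (nat_lit 207) (nat_lit 189) (nat_lit 223) (nat_lit 0) (nat_lit 6) (nat_lit 12) (nat_lit 1) (nat_lit 6) (nat_lit 12) (by decide +kernel)
theorem L79032 : W_29 (nat_lit 3) (nat_lit 0xf0004400200000001000080000000000000000000000000000000) (nat_lit 0x0) (nat_lit 0x380008000200000000000000000000000000000000000000000000000) := T_29 (nat_lit 224) (nat_lit 225) (nat_lit 1) (nat_lit 7) (nat_lit 12) L79031 (by decide +kernel)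
theorem L79033 : W_29 (nat_lit 4) (nat_lit 0xf0004000200000001000080000000000000000000000000000000) (nat_lit 0x0) (nat_lit 0x380008000e00000000000000000000000000000000000000000000000) := T_29 (nat_lit 190) (nat_lit 191) (nat_lit 0) (nat_lit 7) (nat_lit 12) L79032 (by decide +kernel)
theorem L79034 : W_29 (nat_lit 2) (nat_lit 0xf8004000200000001000080000000000000000000000000000000) (nat_lit 0x0) (nat_lit 0x380000000000000000000000000000000000000000000000000000000) := D_29 (nat_lit 224) (nat_lit 225) (nat_lit 223) (nat_lit 1) (nat_lit 7) (nat_lit 12) (nat_lit 1) (nat_lit 6) (nat_lit 12) (by decide +kernel)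
theorem L79035 : W_29 (nat_lit 2) (nat_lit 0x800f8004200200000001000080000000000000000000000000000000) (nat_lit 0x0) (nat_lit 0x40004000100000000000000000000000000000000000000000000000) := D_29 (nat_lit 206) (nat_lit 222) (nat_lit 188) (nat_lit 1) (nat_lit 5) (nat_lit 12) (nat_lit 0) (nat_lit 5) (nat_lit 12) (by decide +kernel)
theorem L79036 : W_29 (nat_lit 3) (nat_lit 0x800f8004000200000001000080000000000000000000000000000000) (nat_lit 0x0) (nat_lit 0x40004000700000000000000000000000000000000000000000000000) := T_29 (nat_lit 189) (nat_lit 190) (nat_lit 0) (nat_lit 6) (nat_lit 12) L79035 (by decide +kernel)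
theorem L79037 : W_29 (nat_lit 4) (nat_lit 0xf8004000200000001000080000000000000000000000000000000) (nat_lit 0x0) (nat_lit 0x1c0004000700000000000000000000000000000000000000000000000) := T_29 (nat_lit 223) (nat_lit 224) (nat_lit 1) (nat_lit 6) (nat_lit 12) L79036 (by decide +kernel)
theorem L79038 : W_29 (nat_lit 2) (nat_lit 0x4800fc004200200000001000080000000000000000000000000000000) (nat_lit 0x0) (nat_lit 0x200102000000000000000000000000000000000000000000000000000) := D_29 (nat_lit 225) (nat_lit 205) (nat_lit 212) (nat_lit 3) (nat_lit 1) (nat_lit 12) (nat_lit 1) (nat_lit 8) (nat_lit 12) (by decide +kernel)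
theorem L79039 : W_29 (nat_lit 3) (nat_lit 0x800fc004200200000001000080000000000000000000000000000000) (nat_lit 0x0) (nat_lit 0xe00102000000000000000000000000000000000000000000000000000) := T_29 (nat_lit 226) (nat_lit 227) (nat_lit 3) (nat_lit 2) (nat_lit 12) L79038 (by decide +kernel)
theorem L79040 : W_29 (nat_lit 4) (nat_lit 0xfc004200200000001000080000000000000000000000000000000) (nat_lit 0x0) (nat_lit 0xec0102000000000000000000000000000000000000000000000000000) := T_29 (nat_lit 223) (nat_lit 222) (nat_lit 1) (nat_lit 5) (nat_lit 12) L79039 (by decide +kernel)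
theorem L79041 : W_29 (nat_lit 5) (nat_lit 0xf8004200200000001000080000000000000000000000000000000) (nat_lit 0x0) (nat_lit 0xec0106000100000000000000000000000000000000000000000000000) := T_29 (nat_lit 206) (nat_lit 188) (nat_lit 0) (nat_lit 5) (nat_lit 12) L79040 (by decide +kernel)
theorem L79042 : W_29 (nat_lit 6) (nat_lit 0xf8004000200000001000080000000000000000000000000000000) (nat_lit 0x0) (nat_lit 0xec0106000700000000000000000000000000000000000000000000000) := T_29 (nat_lit 189) (nat_lit 190) (nat_lit 0) (nat_lit 6) (nat_lit 12) L79041 (by decide +kernel)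
theorem L79043 : W_29 (nat_lit 2) (nat_lit 0x6000f8004400200000001000080000000000000000000000000000000) (nat_lit 0x0) (nat_lit 0x800006000000000000000000000000000000000000000000000000000) := D_29 (nat_lit 206) (nat_lit 205) (nat_lit 227) (nat_lit 3) (nat_lit 1) (nat_lit 12) (nat_lit 3) (nat_lit 2) (nat_lit 12) (by decide +kernel)
theorem L79044 : W_29 (nat_lit 3) (nat_lit 0x2000f8004400200000001000080000000000000000000000000000000) (nat_lit 0x0) (nat_lit 0xc00106000000000000000000000000000000000000000000000000000) := T_29 (nat_lit 226) (nat_lit 212) (nat_lit 1) (nat_lit 8) (nat_lit 12) L79043 (by decide +kernel)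
theorem L79045 : W_29 (nat_lit 4) (nat_lit 0xf8004400200000001000080000000000000000000000000000000) (nat_lit 0x0) (nat_lit 0xf00106000000000000000000000000000000000000000000000000000) := T_29 (nat_lit 225) (nat_lit 224) (nat_lit 1) (nat_lit 7) (nat_lit 12) L79044 (by decide +kernel)
theorem L79046 : W_29 (nat_lit 5) (nat_lit 0xf8004000200000001000080000000000000000000000000000000) (nat_lit 0x0) (nat_lit 0xf00106000600000000000000000000000000000000000000000000000) := T_29 (nat_lit 190) (nat_lit 189) (nat_lit 0) (nat_lit 6) (nat_lit 12) L79045 (by decide +kernel)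
theorem L79047 : W_29 (nat_lit 7) (nat_lit 0xf0004000200000001000080000000000000000000000000000000) (nat_lit 0x0) (nat_lit 0xfc010e000700000000000000000000000000000000000000000000000) := Q_29 (nat_lit 207) (C_29 L79034 (C_29 L79037 (C_29 L79042 (C_29 L79046 N_29)))) (by decide +kernel)
theorem L79048 : W_29 (nat_lit 2) (nat_lit 0x4800fc005a00200000001000080000000000000000000000000000000) (nat_lit 0x0) (nat_lit 0x8000000000000000040002000000000000000000000000000000000000000) := D_29 (nat_lit 174) (nat_lit 157) (nat_lit 243) (nat_lit 7) (nat_lit 4) (nat_lit 9) (nat_lit 4) (nat_lit 5) (nat_lit 14) (by decide +kernel)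
theorem L79049 : W_29 (nat_lit 3) (nat_lit 0x4800fc004a00200000001000080000000000000000000000000000000) (nat_lit 0x0) (nat_lit 0x8000000002001000040002000000000000000000000000000000000000000) := T_29 (nat_lit 192) (nat_lit 205) (nat_lit 2) (nat_lit 1) (nat_lit 12) L79048 (by decide +kernel)
theorem L79050 : W_29 (nat_lit 4) (nat_lit 0x800fc004a00200000001000080000000000000000000000000000000) (nat_lit 0x0) (nat_lit 0x8000c00002001000040002000000000000000000000000000000000000000) := T_29 (nat_lit 226) (nat_lit 227) (nat_lit 3) (nat_lit 2) (nat_lit 12) L79049 (by decide +kernel)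
theorem L79051 : W_29 (nat_lit 5) (nat_lit 0x800fc004800200000001000080000000000000000000000000000000) (nat_lit 0x0) (nat_lit 0x8000c00002001300040002000000000000000000000000000000000000000) := T_29 (nat_lit 189) (nat_lit 188) (nat_lit 0) (nat_lit 5) (nat_lit 12) L79050 (by decide +kernel)
theorem L79052 : W_29 (nat_lit 6) (nat_lit 0x800f8004800200000001000080000000000000000000000000000000) (nat_lit 0x0) (nat_lit 0x8000c40006001300040002000000000000000000000000000000000000000) := T_29 (nat_lit 206) (nat_lit 222) (nat_lit 1) (nat_lit 5) (nat_lit 12) L79051 (by decide +kernel)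
theorem L79053 : W_29 (nat_lit 7) (nat_lit 0xf8004800200000001000080000000000000000000000000000000) (nat_lit 0x0) (nat_lit 0x8000dc0006001300040002000000000000000000000000000000000000000) := T_29 (nat_lit 223) (nat_lit 224) (nat_lit 1) (nat_lit 6) (nat_lit 12) L79052 (by decide +kernel)
theorem L79054 : W_29 (nat_lit 2) (nat_lit 0xc000f0005800380000001000080000000000000000000000000000000) (nat_lit 0x0) (nat_lit 0x100008000000000000000040000000000000000000000000000000000000000000) := D_29 (nat_lit 243) (nat_lit 260) (nat_lit 174) (nat_lit 4) (nat_lit 5) (nat_lit 15) (nat_lit 4) (nat_lit 5) (nat_lit 14) (by decide +kernel)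
theorem L79055 : W_29 (nat_lit 3) (nat_lit 0x8000f0005800380000001000080000000000000000000000000000000) (nat_lit 0x0) (nat_lit 0x100008000400000000000040008000000000000000000000000000000000000000) := T_29 (nat_lit 226) (nat_lit 159) (nat_lit 6) (nat_lit 5) (nat_lit 13) L79054 (by decide +kernel)
theorem L79056 : W_29 (nat_lit 4) (nat_lit 0x8000f0005800280000001000080000000000000000000000000000000) (nat_lit 0x0) (nat_lit 0x100008000400000000000540008000000000000000000000000000000000000000) := T_29 (nat_lit 176) (nat_lit 178) (nat_lit 1) (nat_lit 8) (nat_lit 10) L79055 (by decide +kernel)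
theorem L79057 : W_29 (nat_lit 5) (nat_lit 0x8000f0005800200000001000080000000000000000000000000000000) (nat_lit 0x0) (nat_lit 0x1000080004000000000005c000c000000000000000000000000000000000000000) := T_29 (nat_lit 175) (nat_lit 158) (nat_lit 7) (nat_lit 5) (nat_lit 9) L79056 (by decide +kernel)
theorem L79058 : W_29 (nat_lit 6) (nat_lit 0x8000f0005000200000001000080000000000000000000000000000000) (nat_lit 0x0) (nat_lit 0x100008000400000000c005c000c000000000000000000000000000000000000000) := T_29 (nat_lit 191) (nat_lit 190) (nat_lit 0) (nat_lit 7) (nat_lit 12) L79057 (by decide +kernel)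
theorem L79059 : W_29 (nat_lit 4) (nat_lit 0x2000f0004000200000001000080000000000000000000000000000000) (nat_lit 0x0) (nat_lit 0x4000000100001c00080004000000000000000000000000000000000000000) := T_29 (nat_lit 191) (nat_lit 190) (nat_lit 0) (nat_lit 7) (nat_lit 12) L79027 (by decide +kernel)
theorem L79060 : W_29 (nat_lit 5) (nat_lit 0x2000e0004000200000001000080000000000000000000000000000000) (nat_lit 0x0) (nat_lit 0x4000100110001c00080004000000000000000000000000000000000000000) := T_29 (nat_lit 208) (nat_lit 224) (nat_lit 1) (nat_lit 7) (nat_lit 12) L79059 (by decide +kernel)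
theorem L79061 : W_29 (nat_lit 3) (nat_lit 0x2000f0004000200000001000080000000000000000000000000000000) (nat_lit 0x0) (nat_lit 0x400100001c00000000000000000000000000000000000000000000000) := T_29 (nat_lit 191) (nat_lit 190) (nat_lit 0) (nat_lit 7) (nat_lit 12) L79030 (by decide +kernel)
theorem L79062 : W_29 (nat_lit 4) (nat_lit 0x2000e0004000200000001000080000000000000000000000000000000) (nat_lit 0x0) (nat_lit 0x500110001c00000000000000000000000000000000000000000000000) := T_29 (nat_lit 208) (nat_lit 224) (nat_lit 1) (nat_lit 7) (nat_lit 12) L79061 (by decide +kernel)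
theorem L79063 : W_29 (nat_lit 2) (nat_lit 0x3000e0004000200000001000080000000000000000000000000000000) (nat_lit 0x0) (nat_lit 0xc80000000000000000000000000000000000000000000000000000000) := D_29 (nat_lit 226) (nat_lit 223) (nat_lit 227) (nat_lit 2) (nat_lit 2) (nat_lit 13) (nat_lit 2) (nat_lit 3) (nat_lit 13) (by decide +kernel)
theorem L79064 : W_29 (nat_lit 3) (nat_lit 0x2000e0004000200000001000080000000000000000000000000000000) (nat_lit 0x0) (nat_lit 0xd80010000000000000000000000000000000000000000000000000000) := T_29 (nat_lit 224) (nat_lit 208) (nat_lit 1) (nat_lit 7) (nat_lit 12) L79063 (by decide +kernel)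
theorem L79065 : W_29 (nat_lit 2) (nat_lit 0x6000e0004000200000001000080000000000000000000000000000000) (nat_lit 0x0) (nat_lit 0x980000000000000000000000000000000000000000000000000000000) := D_29 (nat_lit 224) (nat_lit 223) (nat_lit 227) (nat_lit 2) (nat_lit 2) (nat_lit 13) (nat_lit 2) (nat_lit 3) (nat_lit 13) (by decide +kernel)
theorem L79066 : W_29 (nat_lit 3) (nat_lit 0x2000e0004000200000001000080000000000000000000000000000000) (nat_lit 0x0) (nat_lit 0xd80100000000000000000000000000000000000000000000000000000) := T_29 (nat_lit 226) (nat_lit 212) (nat_lit 1) (nat_lit 8) (nat_lit 12) L79065 (by decide +kernel)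
theorem L79067 : W_29 (nat_lit 2) (nat_lit 0x2000e0005800200000001000080000000000000000000000000000000) (nat_lit 0x0) (nat_lit 0x10000600000000000000000000000000000000000000000000000) := D_29 (nat_lit 190) (nat_lit 208) (nat_lit 189) (nat_lit 0) (nat_lit 7) (nat_lit 12) (nat_lit 3) (nat_lit 2) (nat_lit 11) (by decide +kernel)
theorem L79068 : W_29 (nat_lit 2) (nat_lit 0x2000e000500028000c001000080000000000000000000000000000000) (nat_lit 0x0) (nat_lit 0x4000400000000000100000000000000000000000000000000000000000000) := D_29 (nat_lit 226) (nat_lit 242) (nat_lit 176) (nat_lit 5) (nat_lit 5) (nat_lit 10) (nat_lit 6) (nat_lit 5) (nat_lit 13) (by decide +kernel)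
theorem L79069 : W_29 (nat_lit 3) (nat_lit 0x2000e0005000280004001000080000000000000000000000000000000) (nat_lit 0x0) (nat_lit 0x4000400000000000100008000400000000000000000000000000000000000) := T_29 (nat_lit 159) (nat_lit 142) (nat_lit 6) (nat_lit 5) (nat_lit 12) L79068 (by decide +kernel)
theorem L79070 : W_29 (nat_lit 4) (nat_lit 0x2000e0005000280000001000080000000000000000000000000000000) (nat_lit 0x0) (nat_lit 0x4000c0000000000010000c000400000000000000000000000000000000000) := T_29 (nat_lit 158) (nat_lit 227) (nat_lit 7) (nat_lit 5) (nat_lit 9) L79069 (by decide +kernel)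
theorem L79071 : W_29 (nat_lit 2) (nat_lit 0x2000e0005000280000001000080000000000000000000000000000000) (nat_lit 0x0) (nat_lit 0x800010000000000004000000000000000000000000000000000000000) := D_29 (nat_lit 158) (nat_lit 227) (nat_lit 208) (nat_lit 7) (nat_lit 5) (nat_lit 9) (nat_lit 5) (nat_lit 5) (nat_lit 9) (by decide +kernel)
theorem L79072 : W_29 (nat_lit 4) (nat_lit 0x6000e00050002c0000001000080000000000000000000000000000000) (nat_lit 0x0) (nat_lit 0x18000800000000800500008000000000000000000000000000000000000000) := T_29 (nat_lit 227) (nat_lit 244) (nat_lit 7) (nat_lit 5) (nat_lit 10) L78992 (by decide +kernel)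
theorem L79073 : W_29 (nat_lit 5) (nat_lit 0x6000e0005000280000001000080000000000000000000000000000000) (nat_lit 0x0) (nat_lit 0x1800080000000080054000a000000000000000000000000000000000000000) := T_29 (nat_lit 174) (nat_lit 157) (nat_lit 4) (nat_lit 5) (nat_lit 13) L79072 (by decide +kernel)
theorem L79074 : W_29 (nat_lit 6) (nat_lit 0x2000e0005000280000001000080000000000000000000000000000000) (nat_lit 0x0) (nat_lit 0x1c000c0000000080054000a000000000000000000000000000000000000000) := T_29 (nat_lit 226) (nat_lit 242) (nat_lit 5) (nat_lit 5) (nat_lit 10) L79073 (by decide +kernel)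
theorem L79075 : W_29 (nat_lit 2) (nat_lit 0x6000e00050003c0000001000080000000000000000000000000000000) (nat_lit 0x0) (nat_lit 0x8000000000000800400000000000000000000000000000000000000000000) := D_29 (nat_lit 191) (nat_lit 178) (nat_lit 243) (nat_lit 1) (nat_lit 8) (nat_lit 10) (nat_lit 4) (nat_lit 5) (nat_lit 14) (by decide +kernel)
theorem L79076 : W_29 (nat_lit 3) (nat_lit 0x6000e00050002c0000001000080000000000000000000000000000000) (nat_lit 0x0) (nat_lit 0x8000000000000800500008000000000000000000000000000000000000000) := T_29 (nat_lit 176) (nat_lit 159) (nat_lit 6) (nat_lit 5) (nat_lit 13) L79075 (by decide +kernel)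
theorem L79077 : W_29 (nat_lit 4) (nat_lit 0x6000e0005000280000001000080000000000000000000000000000000) (nat_lit 0x0) (nat_lit 0x800000000000080054000a000000000000000000000000000000000000000) := T_29 (nat_lit 174) (nat_lit 157) (nat_lit 4) (nat_lit 5) (nat_lit 13) L79076 (by decide +kernel)
theorem L79078 : W_29 (nat_lit 5) (nat_lit 0x2000e0005000280000001000080000000000000000000000000000000) (nat_lit 0x0) (nat_lit 0xc00040000000080054000a000000000000000000000000000000000000000) := T_29 (nat_lit 226) (nat_lit 242) (nat_lit 5) (nat_lit 5) (nat_lit 10) L79077 (by decide +kernel)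
theorem L79079 : W_29 (nat_lit 7) (nat_lit 0x2000e0005000200000001000080000000000000000000000000000000) (nat_lit 0x0) (nat_lit 0x1c000c000100008005c000e000400000000000000000000000000000000000) := Q_29 (nat_lit 175) (C_29 L79070 (C_29 L79071 (C_29 L79074 (C_29 L79078 N_29)))) (by decide +kernel)
theorem L79080 : W_29 (nat_lit 2) (nat_lit 0x2000e0005000200000001000080000000000000000000000000000000) (nat_lit 0x0) (nat_lit 0x400100000800000000000000000000000000000000000000000000000) := D_29 (nat_lit 212) (nat_lit 191) (nat_lit 226) (nat_lit 0) (nat_lit 8) (nat_lit 12) (nat_lit 1) (nat_lit 8) (nat_lit 12) (by decide +kernel)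
theorem L79081 : W_29 (nat_lit 2) (nat_lit 0x6000e0005000280000001000080000000000000000000000000000000) (nat_lit 0x0) (nat_lit 0x800010000000000004000000000000000000000000000000000000000) := D_29 (nat_lit 158) (nat_lit 208) (nat_lit 227) (nat_lit 5) (nat_lit 5) (nat_lit 9) (nat_lit 7) (nat_lit 5) (nat_lit 9) (by decide +kernel)
theorem L79082 : W_29 (nat_lit 3) (nat_lit 0x6000e0005000200000001000080000000000000000000000000000000) (nat_lit 0x0) (nat_lit 0x4000800010000000080004000000000000000000000000000000000000000) := T_29 (nat_lit 175) (nat_lit 242) (nat_lit 5) (nat_lit 5) (nat_lit 10) L79081 (by decide +kernel)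
theorem L79083 : W_29 (nat_lit 4) (nat_lit 0x2000e0005000200000001000080000000000000000000000000000000) (nat_lit 0x0) (nat_lit 0x4000c00110000000080004000000000000000000000000000000000000000) := T_29 (nat_lit 226) (nat_lit 212) (nat_lit 1) (nat_lit 8) (nat_lit 12) L79082 (by decide +kernel)
theorem L79084 : W_29 (nat_lit 3) (nat_lit 0x2000e0005000200000001000080000000000000000000000000000000) (nat_lit 0x0) (nat_lit 0x110000e00000000000000000000000000000000000000000000000) := T_29 (nat_lit 191) (nat_lit 212) (nat_lit 0) (nat_lit 8) (nat_lit 12) L79067 (by decide +kernel)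
theorem L79085 : W_29 (nat_lit 8) (nat_lit 0x2000e0004000200000001000080000000000000000000000000000000) (nat_lit 0x0) (nat_lit 0x1c000c00110001e005c000e000400000000000000000000000000000000000) := Q_29 (nat_lit 192) (C_29 L79079 (C_29 L79080 (C_29 L79083 (C_29 L79084 N_29)))) (by decide +kernel)
theorem L79086 : W_29 (nat_lit 9) (nat_lit 0xe0004000200000001000080000000000000000000000000000000) (nat_lit 0x0) (nat_lit 0x1c000f80110001e005c000e000400000000000000000000000000000000000) := Q_29 (nat_lit 225) (C_29 L79060 (C_29 L79062 (C_29 L79064 (C_29 L79066 (C_29 L79085 N_29))))) (by decide +kernel)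
theorem L79087 : W_29 (nat_lit 2) (nat_lit 0x4001e0005000200000001000080000000000000000000000000000000) (nat_lit 0x0) (nat_lit 0x800200002000000000000000000000000000000000000000000000000) := D_29 (nat_lit 213) (nat_lit 227) (nat_lit 193) (nat_lit 1) (nat_lit 9) (nat_lit 12) (nat_lit 0) (nat_lit 9) (nat_lit 12) (by decide +kernel)
theorem L79088 : W_29 (nat_lit 3) (nat_lit 0x4001e0004000200000001000080000000000000000000000000000000) (nat_lit 0x0) (nat_lit 0x800200003800000000000000000000000000000000000000000000000) := T_29 (nat_lit 192) (nat_lit 191) (nat_lit 0) (nat_lit 8) (nat_lit 12) L79087 (by decide +kernel)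
theorem L79089 : W_29 (nat_lit 4) (nat_lit 0x1e0004000200000001000080000000000000000000000000000000) (nat_lit 0x0) (nat_lit 0xe00200003800000000000000000000000000000000000000000000000) := T_29 (nat_lit 226) (nat_lit 225) (nat_lit 1) (nat_lit 8) (nat_lit 12) L79088 (by decide +kernel)
theorem L79090 : W_29 (nat_lit 8) (nat_lit 0xe0004000200000001000080000000000000000000000000000000) (nat_lit 0x0) (nat_lit 0x80004001ef00710073c00000000000000000000000000000000000000000000000) := Q_29 (nat_lit 212) (C_29 L6110 (C_29 L79002 (C_29 L78995 (C_29 L79000 (C_29 L79089 N_29))))) (by decide +kernel)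
theorem L79091 : W_29 (nat_lit 8) (nat_lit 0xf0004800200000001000080000000000000000000000000000000) (nat_lit 0x0) (nat_lit 0x8000dc000e003300040002000000000000000000000000000000000000000) := T_29 (nat_lit 207) (nat_lit 193) (nat_lit 2) (nat_lit 3) (nat_lit 12) L79053 (by decide +kernel)
theorem L79092 : W_29 (nat_lit 9) (nat_lit 0xf0004000200000001000080000000000000000000000000000000) (nat_lit 0x0) (nat_lit 0x8000dc000e003f00040002000000000000000000000000000000000000000) := T_29 (nat_lit 191) (nat_lit 190) (nat_lit 0) (nat_lit 7) (nat_lit 12) L79091 (by decide +kernel)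
theorem L79093 : W_29 (nat_lit 5) (nat_lit 0xf0004000200000001000080000000000000000000000000000000) (nat_lit 0x0) (nat_lit 0x1c000c002700000000000000000000000000000000000000000000000) := T_29 (nat_lit 207) (nat_lit 193) (nat_lit 2) (nat_lit 3) (nat_lit 12) L79037 (by decide +kernel)
theorem L79094 : W_29 (nat_lit 2) (nat_lit 0x1000f0004000200000001000080000000000000000000000000000000) (nat_lit 0x0) (nat_lit 0x80008002000000000000000000000000000000000000000000000000) := D_29 (nat_lit 207) (nat_lit 193) (nat_lit 223) (nat_lit 2) (nat_lit 3) (nat_lit 12) (nat_lit 1) (nat_lit 6) (nat_lit 12) (by decide +kernel)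
theorem L79095 : W_29 (nat_lit 3) (nat_lit 0xf0004000200000001000080000000000000000000000000000000) (nat_lit 0x0) (nat_lit 0x380008002000000000000000000000000000000000000000000000000) := T_29 (nat_lit 224) (nat_lit 225) (nat_lit 1) (nat_lit 7) (nat_lit 12) L79094 (by decide +kernel)
theorem L79096 : W_29 (nat_lit 2) (nat_lit 0x8000f0004000200000001000080000000000000000000000000000000) (nat_lit 0x0) (nat_lit 0x200010000000000002000000000000000000000000000000000000000000000000) := D_29 (nat_lit 244) (nat_lit 261) (nat_lit 193) (nat_lit 6) (nat_lit 6) (nat_lit 15) (nat_lit 6) (nat_lit 6) (nat_lit 14) (by decide +kernel)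
theorem L79097 : W_29 (nat_lit 2) (nat_lit 0xa000f0005000280000001000080000000000000000000000000000000) (nat_lit 0x0) (nat_lit 0x80004000400000000000000000000000000000000000000000000000000000000) := D_29 (nat_lit 242) (nat_lit 259) (nat_lit 226) (nat_lit 6) (nat_lit 4) (nat_lit 15) (nat_lit 5) (nat_lit 5) (nat_lit 10) (by decide +kernel)
theorem L79098 : W_29 (nat_lit 3) (nat_lit 0xa000f0005000200000001000080000000000000000000000000000000) (nat_lit 0x0) (nat_lit 0x80004000400000000000080004000000000000000000000000000000000000000) := T_29 (nat_lit 175) (nat_lit 158) (nat_lit 7) (nat_lit 5) (nat_lit 9) L79097 (by decide +kernel)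
theorem L79099 : W_29 (nat_lit 4) (nat_lit 0x8000f0005000200000001000080000000000000000000000000000000) (nat_lit 0x0) (nat_lit 0x80004000700000000000080004000000000000000000000000000000000000000) := T_29 (nat_lit 225) (nat_lit 224) (nat_lit 1) (nat_lit 7) (nat_lit 12) L79098 (by decide +kernel)
theorem L79100 : W_29 (nat_lit 3) (nat_lit 0x8000f0005800200000001000080000000000000000000000000000000) (nat_lit 0x0) (nat_lit 0x80004000300000000000080000000000000000000000000000000000000000000) := T_29 (nat_lit 225) (nat_lit 224) (nat_lit 1) (nat_lit 7) (nat_lit 12) L78990 (by decide +kernel)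
theorem L79101 : W_29 (nat_lit 4) (nat_lit 0x8000f0005000200000001000080000000000000000000000000000000) (nat_lit 0x0) (nat_lit 0x80004000300000000c00080000000000000000000000000000000000000000000) := T_29 (nat_lit 191) (nat_lit 190) (nat_lit 0) (nat_lit 7) (nat_lit 12) L79100 (by decide +kernel)
theorem L79102 : W_29 (nat_lit 2) (nat_lit 0xa000f0007800240000001000080000000000000000000000000000000) (nat_lit 0x0) (nat_lit 0x8000400000000000000002000000000000000000000000000000000000000) := D_29 (nat_lit 226) (nat_lit 243) (nat_lit 157) (nat_lit 7) (nat_lit 4) (nat_lit 10) (nat_lit 7) (nat_lit 4) (nat_lit 9) (by decide +kernel)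
theorem L79103 : W_29 (nat_lit 3) (nat_lit 0xa000f0007800200000001000080000000000000000000000000000000) (nat_lit 0x0) (nat_lit 0x8000400000000000060002000000000000000000000000000000000000000) := T_29 (nat_lit 174) (nat_lit 173) (nat_lit 0) (nat_lit 7) (nat_lit 11) L79102 (by decide +kernel)
theorem L79104 : W_29 (nat_lit 4) (nat_lit 0xa000f0005800200000001000080000000000000000000000000000000) (nat_lit 0x0) (nat_lit 0x8000400000002000460002000000000000000000000000000000000000000) := T_29 (nat_lit 193) (nat_lit 178) (nat_lit 2) (nat_lit 4) (nat_lit 11) L79103 (by decide +kernel)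
theorem L79105 : W_29 (nat_lit 5) (nat_lit 0x8000f0005800200000001000080000000000000000000000000000000) (nat_lit 0x0) (nat_lit 0x8000700000002000460002000000000000000000000000000000000000000) := T_29 (nat_lit 225) (nat_lit 224) (nat_lit 1) (nat_lit 7) (nat_lit 12) L79104 (by decide +kernel)
theorem L79106 : W_29 (nat_lit 6) (nat_lit 0x8000f0005000200000001000080000000000000000000000000000000) (nat_lit 0x0) (nat_lit 0x8000700000002c00460002000000000000000000000000000000000000000) := T_29 (nat_lit 191) (nat_lit 190) (nat_lit 0) (nat_lit 7) (nat_lit 12) L79105 (by decide +kernel)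
theorem L79107 : W_29 (nat_lit 7) (nat_lit 0x8000f0004000200000001000080000000000000000000000000000000) (nat_lit 0x0) (nat_lit 0x18000c000700000003c005e000e000000000000000000000000000000000000000) := Q_29 (nat_lit 192) (C_29 L79099 (C_29 L79101 (C_29 L79106 (C_29 L79058 N_29)))) (by decide +kernel)
theorem L79108 : W_29 (nat_lit 11) (nat_lit 0xf0004000200000001000080000000000000000000000000000000) (nat_lit 0x0) (nat_lit 0x38001c000f00000003c005e000f000180000000000000000000000000000000000) := Q_29 (nat_lit 227) (C_29 L79096 (C_29 L78986 (C_29 L79107 N_29))) (by decide +kernel)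
theorem L79109 : W_29 (nat_lit 2) (nat_lit 0xf8004000200000001000080000000000000000000000000000000) (nat_lit 0x0) (nat_lit 0xe00000000000000000000000000000000000000000000000) := D_29 (nat_lit 190) (nat_lit 189) (nat_lit 191) (nat_lit 0) (nat_lit 6) (nat_lit 12) (nat_lit 0) (nat_lit 7) (nat_lit 12) (by decide +kernel)
theorem L79110 : W_29 (nat_lit 3) (nat_lit 0xf0004000200000001000080000000000000000000000000000000) (nat_lit 0x0) (nat_lit 0x8002e00000000000000000000000000000000000000000000000) := T_29 (nat_lit 207) (nat_lit 193) (nat_lit 2) (nat_lit 3) (nat_lit 12) L79109 (by decide +kernel)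
theorem L79111 : W_29 (nat_lit 12) (nat_lit 0xe0004000200000001000080000000000000000000000000000000) (nat_lit 0x0) (nat_lit 0x38001c000fc001e003f005e000f000180000000000000000000000000000000000) := Q_29 (nat_lit 208) (C_29 L79092 (C_29 L79033 (C_29 L79093 (C_29 L79095 (C_29 L79108 (C_29 L79110 N_29)))))) (by decide +kernel)
theorem L79112 : W_29 (nat_lit 2) (nat_lit 0x42003f0024800200000001000080000000000000000000000000000000) (nat_lit 0x0) (nat_lit 0x400042000000000000000000000000000000000000000000000000) := D_29 (nat_lit 214) (nat_lit 193) (nat_lit 198) (nat_lit 0) (nat_lit 10) (nat_lit 12) (nat_lit 2) (nat_lit 7) (nat_lit 12) (by decide +kernel)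
theorem L79113 : W_29 (nat_lit 3) (nat_lit 0x42003f0004800200000001000080000000000000000000000000000000) (nat_lit 0x0) (nat_lit 0x400072000000000000000000000000000000000000000000000000) := T_29 (nat_lit 197) (nat_lit 196) (nat_lit 2) (nat_lit 6) (nat_lit 12) L79112 (by decide +kernel)
theorem L79114 : W_29 (nat_lit 4) (nat_lit 0x42001f0004800200000001000080000000000000000000000000000000) (nat_lit 0x0) (nat_lit 0x8000600072000000000000000000000000000000000000000000000000) := T_29 (nat_lit 213) (nat_lit 231) (nat_lit 3) (nat_lit 6) (nat_lit 12) L79113 (by decide +kernel)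
theorem L79115 : W_29 (nat_lit 5) (nat_lit 0x2001f0004800200000001000080000000000000000000000000000000) (nat_lit 0x0) (nat_lit 0xe000600072000000000000000000000000000000000000000000000000) := T_29 (nat_lit 230) (nat_lit 229) (nat_lit 3) (nat_lit 5) (nat_lit 12) L79114 (by decide +kernel)
theorem L79116 : W_29 (nat_lit 6) (nat_lit 0x2000f0004800200000001000080000000000000000000000000000000) (nat_lit 0x0) (nat_lit 0xe400700072000000000000000000000000000000000000000000000000) := T_29 (nat_lit 212) (nat_lit 226) (nat_lit 1) (nat_lit 8) (nat_lit 12) L79115 (by decide +kernel)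
theorem L79117 : W_29 (nat_lit 7) (nat_lit 0xf0004800200000001000080000000000000000000000000000000) (nat_lit 0x0) (nat_lit 0xe700700072000000000000000000000000000000000000000000000000) := T_29 (nat_lit 225) (nat_lit 224) (nat_lit 1) (nat_lit 7) (nat_lit 12) L79116 (by decide +kernel)
theorem L79118 : W_29 (nat_lit 8) (nat_lit 0xf0004000200000001000080000000000000000000000000000000) (nat_lit 0x0) (nat_lit 0xe700700072c00000000000000000000000000000000000000000000000) := T_29 (nat_lit 191) (nat_lit 190) (nat_lit 0) (nat_lit 7) (nat_lit 12) L79117 (by decide +kernel)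
theorem L79119 : W_29 (nat_lit 9) (nat_lit 0xe0004000200000001000080000000000000000000000000000000) (nat_lit 0x0) (nat_lit 0xefc071e072f00000000000000000000000000000000000000000000000) := Q_29 (nat_lit 208) (C_29 L79110 (C_29 L79047 (C_29 L79095 (C_29 L79118 N_29)))) (by decide +kernel)
theorem L79120 : W_29 (nat_lit 2) (nat_lit 0x44003e0024000200000001000080000000000000000000000000000000) (nat_lit 0x0) (nat_lit 0x400042000000000000000000000000000000000000000000000000) := D_29 (nat_lit 214) (nat_lit 193) (nat_lit 198) (nat_lit 0) (nat_lit 10) (nat_lit 12) (nat_lit 2) (nat_lit 7) (nat_lit 12) (by decide +kernel)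
theorem L79121 : W_29 (nat_lit 3) (nat_lit 0x44003e0004000200000001000080000000000000000000000000000000) (nat_lit 0x0) (nat_lit 0x400072000000000000000000000000000000000000000000000000) := T_29 (nat_lit 197) (nat_lit 196) (nat_lit 2) (nat_lit 6) (nat_lit 12) L79120 (by decide +kernel)
theorem L79122 : W_29 (nat_lit 4) (nat_lit 0x44001e0004000200000001000080000000000000000000000000000000) (nat_lit 0x0) (nat_lit 0x8000600072000000000000000000000000000000000000000000000000) := T_29 (nat_lit 213) (nat_lit 231) (nat_lit 3) (nat_lit 6) (nat_lit 12) L79121 (by decide +kernel)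
theorem L79123 : W_29 (nat_lit 5) (nat_lit 0x4001e0004000200000001000080000000000000000000000000000000) (nat_lit 0x0) (nat_lit 0xe000600072000000000000000000000000000000000000000000000000) := T_29 (nat_lit 230) (nat_lit 229) (nat_lit 3) (nat_lit 5) (nat_lit 12) L79122 (by decide +kernel)
theorem L79124 : W_29 (nat_lit 6) (nat_lit 0x1e0004000200000001000080000000000000000000000000000000) (nat_lit 0x0) (nat_lit 0xe600600072000000000000000000000000000000000000000000000000) := T_29 (nat_lit 226) (nat_lit 225) (nat_lit 1) (nat_lit 8) (nat_lit 12) L79123 (by decide +kernel)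
theorem L79125 : W_29 (nat_lit 5) (nat_lit 0x4001e0005000200000001000080000000000000000000000000000000) (nat_lit 0x0) (nat_lit 0x1c000600072000000000000000000000000000000000000000000000000) := T_29 (nat_lit 213) (nat_lit 193) (nat_lit 0) (nat_lit 9) (nat_lit 12) L24209 (by decide +kernel)
theorem L79126 : W_29 (nat_lit 6) (nat_lit 0x1e0005000200000001000080000000000000000000000000000000) (nat_lit 0x0) (nat_lit 0x1c600600072000000000000000000000000000000000000000000000000) := T_29 (nat_lit 226) (nat_lit 225) (nat_lit 1) (nat_lit 8) (nat_lit 12) L79125 (by decide +kernel)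
theorem L79127 : W_29 (nat_lit 7) (nat_lit 0x1e0004000200000001000080000000000000000000000000000000) (nat_lit 0x0) (nat_lit 0x1c600600073800000000000000000000000000000000000000000000000) := T_29 (nat_lit 192) (nat_lit 191) (nat_lit 0) (nat_lit 8) (nat_lit 12) L79126 (by decide +kernel)
theorem L79128 : W_29 (nat_lit 3) (nat_lit 0x4001e0005000200000001000080000000000000000000000000000000) (nat_lit 0x0) (nat_lit 0x100008000000200002000100000000000000000000000000000000000000000000) := T_29 (nat_lit 193) (nat_lit 213) (nat_lit 0) (nat_lit 9) (nat_lit 12) L78852 (by decide +kernel)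
theorem L79129 : W_29 (nat_lit 4) (nat_lit 0x1e0005000200000001000080000000000000000000000000000000) (nat_lit 0x0) (nat_lit 0x100008000600200002000100000000000000000000000000000000000000000000) := T_29 (nat_lit 226) (nat_lit 225) (nat_lit 1) (nat_lit 8) (nat_lit 12) L79128 (by decide +kernel)
theorem L79130 : W_29 (nat_lit 5) (nat_lit 0x1e0004000200000001000080000000000000000000000000000000) (nat_lit 0x0) (nat_lit 0x100008000600200003800100000000000000000000000000000000000000000000) := T_29 (nat_lit 192) (nat_lit 191) (nat_lit 0) (nat_lit 8) (nat_lit 12) L79129 (by decide +kernel)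
theorem L79131 : W_29 (nat_lit 8) (nat_lit 0xe0004000200000001000080000000000000000000000000000000) (nat_lit 0x0) (nat_lit 0x90004801e700710073c00100000000000000000000000000000000000000000000) := Q_29 (nat_lit 212) (C_29 L6110 (C_29 L79000 (C_29 L79124 (C_29 L79127 (C_29 L79130 N_29))))) (by decide +kernel)
theorem L79132 : W_29 (nat_lit 2) (nat_lit 0xe0006000300000001000080000000000000000000000000000000) (nat_lit 0x0) (nat_lit 0x400000000000000008000400000000000000000000000000000000000) := D_29 (nat_lit 159) (nat_lit 226) (nat_lit 142) (nat_lit 5) (nat_lit 6) (nat_lit 9) (nat_lit 7) (nat_lit 6) (nat_lit 8) (by decide +kernel)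
theorem L79133 : W_29 (nat_lit 2) (nat_lit 0xc002e80060003c0000001000080000000000000000000000000000000) (nat_lit 0x0) (nat_lit 0x1000000003000000000000000000000000000000000000000) := D_29 (nat_lit 157) (nat_lit 156) (nat_lit 192) (nat_lit 0) (nat_lit 7) (nat_lit 10) (nat_lit 4) (nat_lit 5) (nat_lit 13) (by decide +kernel)
theorem L79134 : W_29 (nat_lit 3) (nat_lit 0xc002e8006000380000001000080000000000000000000000000000000) (nat_lit 0x0) (nat_lit 0x1000060003000000000000000000000000000000000000000) := T_29 (nat_lit 174) (nat_lit 173) (nat_lit 3) (nat_lit 3) (nat_lit 10) L79133 (by decide +kernel)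
theorem L79135 : W_29 (nat_lit 4) (nat_lit 0xc002e8006000300000001000080000000000000000000000000000000) (nat_lit 0x0) (nat_lit 0x10000e0007000000000000000000000000000000000000000) := T_29 (nat_lit 175) (nat_lit 158) (nat_lit 4) (nat_lit 6) (nat_lit 13) L79134 (by decide +kernel)
theorem L79136 : W_29 (nat_lit 5) (nat_lit 0xc000e8006000300000001000080000000000000000000000000000000) (nat_lit 0x0) (nat_lit 0x3000010000e0007000000000000000000000000000000000000000) := T_29 (nat_lit 213) (nat_lit 212) (nat_lit 1) (nat_lit 9) (nat_lit 12) L79135 (by decide +kernel)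
theorem L79137 : W_29 (nat_lit 6) (nat_lit 0x8000e8006000300000001000080000000000000000000000000000000) (nat_lit 0x0) (nat_lit 0x80004003000010000e0007000000000000000000000000000000000000000) := T_29 (nat_lit 226) (nat_lit 243) (nat_lit 5) (nat_lit 6) (nat_lit 10) L79136 (by decide +kernel)
theorem L79138 : W_29 (nat_lit 7) (nat_lit 0xe8006000300000001000080000000000000000000000000000000) (nat_lit 0x0) (nat_lit 0x18000c003000010000e0007000000000000000000000000000000000000000) := T_29 (nat_lit 227) (nat_lit 244) (nat_lit 6) (nat_lit 6) (nat_lit 14) L79137 (by decide +kernel)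
theorem L79139 : W_29 (nat_lit 8) (nat_lit 0xe0006000300000001000080000000000000000000000000000000) (nat_lit 0x0) (nat_lit 0x18000c003180010000e0007000000000000000000000000000000000000000) := T_29 (nat_lit 207) (nat_lit 208) (nat_lit 2) (nat_lit 3) (nat_lit 12) L79138 (by decide +kernel)
theorem L79140 : W_29 (nat_lit 6) (nat_lit 0x100000000e0006000300000001000080000000000000000000000000000000) (nat_lit 0x0) (nat_lit 0x18000000c8000f000600000000000000000000000000000000000) := T_29 (nat_lit 159) (nat_lit 142) (nat_lit 7) (nat_lit 6) (nat_lit 8) L78897 (by decide +kernel)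
theorem L79141 : W_29 (nat_lit 7) (nat_lit 0xe0006000300000001000080000000000000000000000000000000) (nat_lit 0x0) (nat_lit 0x10000800018000000c8000f000600000000000000000000000000000000000) := T_29 (nat_lit 244) (nat_lit 227) (nat_lit 6) (nat_lit 6) (nat_lit 14) L79140 (by decide +kernel)
theorem L79142 : W_29 (nat_lit 9) (nat_lit 0xe0006000200000001000080000000000000000000000000000000) (nat_lit 0x0) (nat_lit 0x18000c00318001000de000f000600000000000000000000000000000000000) := Q_29 (nat_lit 176) (C_29 L79132 (C_29 L79139 (C_29 L79141 N_29))) (by decide +kernel)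
theorem L79143 : W_29 (nat_lit 2) (nat_lit 0x8000e8006000300008001000080000000000000000000000000000000) (nat_lit 0x0) (nat_lit 0x80004000200000000000000000000000000000000000) := D_29 (nat_lit 158) (nat_lit 141) (nat_lit 175) (nat_lit 4) (nat_lit 6) (nat_lit 12) (nat_lit 4) (nat_lit 6) (nat_lit 13) (by decide +kernel)
theorem L79144 : W_29 (nat_lit 3) (nat_lit 0xe8006000300008001000080000000000000000000000000000000) (nat_lit 0x0) (nat_lit 0x10000800000000000080004000200000000000000000000000000000000000) := T_29 (nat_lit 227) (nat_lit 244) (nat_lit 6) (nat_lit 6) (nat_lit 14) L79143 (by decide +kernel)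
theorem L79145 : W_29 (nat_lit 4) (nat_lit 0xe8006000300000001000080000000000000000000000000000000) (nat_lit 0x0) (nat_lit 0x1000080000000000008000c000600000000000000000000000000000000000) := T_29 (nat_lit 159) (nat_lit 142) (nat_lit 7) (nat_lit 6) (nat_lit 8) L79144 (by decide +kernel)
theorem L79146 : W_29 (nat_lit 5) (nat_lit 0xe0006000300000001000080000000000000000000000000000000) (nat_lit 0x0) (nat_lit 0x1000080001800000008000c000600000000000000000000000000000000000) := T_29 (nat_lit 207) (nat_lit 208) (nat_lit 2) (nat_lit 3) (nat_lit 12) L79145 (by decide +kernel)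
theorem L79147 : W_29 (nat_lit 2) (nat_lit 0x40003e0004000200000001000080000000000000000000000000000000) (nat_lit 0x0) (nat_lit 0x400003000000000000000000000000000000000000000000000000) := D_29 (nat_lit 193) (nat_lit 192) (nat_lit 214) (nat_lit 0) (nat_lit 9) (nat_lit 12) (nat_lit 0) (nat_lit 10) (nat_lit 12) (by decide +kernel)
theorem L79148 : W_29 (nat_lit 3) (nat_lit 0x40001e0004000200000001000080000000000000000000000000000000) (nat_lit 0x0) (nat_lit 0x8000600003000000000000000000000000000000000000000000000000) := T_29 (nat_lit 213) (nat_lit 231) (nat_lit 3) (nat_lit 6) (nat_lit 12) L79147 (by decide +kernel)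
theorem L79149 : W_29 (nat_lit 4) (nat_lit 0x1e0004000200000001000080000000000000000000000000000000) (nat_lit 0x0) (nat_lit 0xe000600003000000000000000000000000000000000000000000000000) := T_29 (nat_lit 230) (nat_lit 229) (nat_lit 3) (nat_lit 5) (nat_lit 12) L79148 (by decide +kernel)
theorem L79159 : W_29 (nat_lit 2) (nat_lit 0x8001e0004000200000001000080000000000000000000000000000000) (nat_lit 0x0) (nat_lit 0x200010000000000002000000000000000000000000000000000000000000000000) := D_29 (nat_lit 244) (nat_lit 261) (nat_lit 193) (nat_lit 6) (nat_lit 6) (nat_lit 15) (nat_lit 6) (nat_lit 6) (nat_lit 14) (by decide +kernel)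
theorem L79160 : W_29 (nat_lit 2) (nat_lit 0x1f0004000200000001000080000000000000000000000000000000) (nat_lit 0x0) (nat_lit 0x700000000000000000000000000000000000000000000000000000000) := D_29 (nat_lit 225) (nat_lit 226) (nat_lit 224) (nat_lit 1) (nat_lit 8) (nat_lit 12) (nat_lit 1) (nat_lit 7) (nat_lit 12) (by decide +kernel)
theorem L79161 : W_29 (nat_lit 5) (nat_lit 0x1f0004000200000001000080000000000000000000000000000000) (nat_lit 0x0) (nat_lit 0x1c000c002700000000000000000000000000000000000000000000000) := T_29 (nat_lit 207) (nat_lit 193) (nat_lit 2) (nat_lit 3) (nat_lit 12) L79005 (by decide +kernel)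
theorem L79162 : W_29 (nat_lit 2) (nat_lit 0x4001f8004200200000001000080000000000000000000000000000000) (nat_lit 0x0) (nat_lit 0x800004000100000000000000000000000000000000000000000000000) := D_29 (nat_lit 206) (nat_lit 227) (nat_lit 188) (nat_lit 3) (nat_lit 2) (nat_lit 12) (nat_lit 0) (nat_lit 5) (nat_lit 12) (by decide +kernel)
theorem L79163 : W_29 (nat_lit 3) (nat_lit 0x4001f8004000200000001000080000000000000000000000000000000) (nat_lit 0x0) (nat_lit 0x800004000700000000000000000000000000000000000000000000000) := T_29 (nat_lit 189) (nat_lit 190) (nat_lit 0) (nat_lit 6) (nat_lit 12) L79162 (by decide +kernel)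
theorem L79164 : W_29 (nat_lit 4) (nat_lit 0x4001f0004000200000001000080000000000000000000000000000000) (nat_lit 0x0) (nat_lit 0x80000c002700000000000000000000000000000000000000000000000) := T_29 (nat_lit 207) (nat_lit 193) (nat_lit 2) (nat_lit 3) (nat_lit 12) L79163 (by decide +kernel)
theorem L79165 : W_29 (nat_lit 5) (nat_lit 0x1f0004000200000001000080000000000000000000000000000000) (nat_lit 0x0) (nat_lit 0xe0000c002700000000000000000000000000000000000000000000000) := T_29 (nat_lit 226) (nat_lit 225) (nat_lit 1) (nat_lit 8) (nat_lit 12) L79164 (by decide +kernel)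
theorem L79166 : W_29 (nat_lit 6) (nat_lit 0x1e0004000200000001000080000000000000000000000000000000) (nat_lit 0x0) (nat_lit 0xfc001c002700000000000000000000000000000000000000000000000) := Q_29 (nat_lit 208) (C_29 L79160 (C_29 L79161 (C_29 L79165 N_29))) (by decide +kernel)
theorem L79167 : W_29 (nat_lit 7) (nat_lit 0xe0004000200000001000080000000000000000000000000000000) (nat_lit 0x0) (nat_lit 0xefc071c003700000000000000000000000000000000000000000000000) := Q_29 (nat_lit 212) (C_29 L79149 (C_29 L78995 (C_29 L79166 N_29))) (by decide +kernel)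
theorem L79168 : W_29 (nat_lit 2) (nat_lit 0x10000c001e0004000200000001000080000000000000000000000000000000) (nat_lit 0x0) (nat_lit 0x1800080000000000000000000000000000000000000000000) := D_29 (nat_lit 192) (nat_lit 191) (nat_lit 175) (nat_lit 0) (nat_lit 8) (nat_lit 12) (nat_lit 7) (nat_lit 5) (nat_lit 10) (by decide +kernel)
theorem L79169 : W_29 (nat_lit 3) (nat_lit 0x100008001e0004000200000001000080000000000000000000000000000000) (nat_lit 0x0) (nat_lit 0x600000001800080000000000000000000000000000000000000000000) := T_29 (nat_lit 226) (nat_lit 225) (nat_lit 1) (nat_lit 8) (nat_lit 12) L79168 (by decide +kernel)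
theorem L79170 : W_29 (nat_lit 4) (nat_lit 0x8001e0004000200000001000080000000000000000000000000000000) (nat_lit 0x0) (nat_lit 0x200010000600000001800080000000000000000000000000000000000000000000) := T_29 (nat_lit 244) (nat_lit 261) (nat_lit 6) (nat_lit 6) (nat_lit 15) L79169 (by decide +kernel)
theorem L79171 : W_29 (nat_lit 2) (nat_lit 0x800000002c001e00050003c0000001000080000000000000000000000000000000) (nat_lit 0x0) (nat_lit 0x8000000000002000020000000000000000000000000000000000000000000) := D_29 (nat_lit 193) (nat_lit 243) (nat_lit 173) (nat_lit 6) (nat_lit 5) (nat_lit 14) (nat_lit 3) (nat_lit 3) (nat_lit 10) (by decide +kernel)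
theorem L79172 : W_29 (nat_lit 3) (nat_lit 0x800000002c001e00050002c0000001000080000000000000000000000000000000) (nat_lit 0x0) (nat_lit 0x8000000000002000120008000000000000000000000000000000000000000) := T_29 (nat_lit 176) (nat_lit 159) (nat_lit 6) (nat_lit 5) (nat_lit 13) L79171 (by decide +kernel)
theorem L79173 : W_29 (nat_lit 4) (nat_lit 0x2c001e00050002c0000001000080000000000000000000000000000000) (nat_lit 0x0) (nat_lit 0x800048000000000002000120008000000000000000000000000000000000000000) := T_29 (nat_lit 263) (nat_lit 246) (nat_lit 4) (nat_lit 8) (nat_lit 15) L79172 (by decide +kernel)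
theorem L79174 : W_29 (nat_lit 5) (nat_lit 0x2c001e0005000280000001000080000000000000000000000000000000) (nat_lit 0x0) (nat_lit 0x80004800000000000200016000a000000000000000000000000000000000000000) := T_29 (nat_lit 174) (nat_lit 157) (nat_lit 4) (nat_lit 5) (nat_lit 13) L79173 (by decide +kernel)
theorem L79175 : W_29 (nat_lit 6) (nat_lit 0xc001e0005000280000001000080000000000000000000000000000000) (nat_lit 0x0) (nat_lit 0x80004800600000000200016000a000000000000000000000000000000000000000) := T_29 (nat_lit 229) (nat_lit 230) (nat_lit 3) (nat_lit 5) (nat_lit 12) L79174 (by decide +kernel)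
theorem L79176 : W_29 (nat_lit 7) (nat_lit 0xc001e0005000200000001000080000000000000000000000000000000) (nat_lit 0x0) (nat_lit 0x8000480060000000020001e000e000000000000000000000000000000000000000) := T_29 (nat_lit 175) (nat_lit 158) (nat_lit 7) (nat_lit 5) (nat_lit 9) L79175 (by decide +kernel)
theorem L79177 : W_29 (nat_lit 8) (nat_lit 0x8001e0005000200000001000080000000000000000000000000000000) (nat_lit 0x0) (nat_lit 0x8000480066000000020001e000e000000000000000000000000000000000000000) := T_29 (nat_lit 226) (nat_lit 225) (nat_lit 1) (nat_lit 8) (nat_lit 12) L79176 (by decide +kernel)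
theorem L79178 : W_29 (nat_lit 9) (nat_lit 0x8001e0004000200000001000080000000000000000000000000000000) (nat_lit 0x0) (nat_lit 0x8000480066000000038001e000e000000000000000000000000000000000000000) := T_29 (nat_lit 192) (nat_lit 191) (nat_lit 0) (nat_lit 8) (nat_lit 12) L79177 (by decide +kernel)
theorem L79179 : W_29 (nat_lit 10) (nat_lit 0x1e0004000200000001000080000000000000000000000000000000) (nat_lit 0x0) (nat_lit 0xa00058006e000000038001e000e000000000000000000000000000000000000000) := Q_29 (nat_lit 227) (C_29 L79159 (C_29 L79170 (C_29 L79178 N_29))) (by decide +kernel)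
theorem L79180 : W_29 (nat_lit 11) (nat_lit 0xe0004000200000001000080000000000000000000000000000000) (nat_lit 0x0) (nat_lit 0xb0005801ee007000738001e000e000000000000000000000000000000000000000) := Q_29 (nat_lit 212) (C_29 L79149 (C_29 L79002 (C_29 L79124 (C_29 L79179 (C_29 L79130 N_29))))) (by decide +kernel)
theorem L79181 : W_29 (nat_lit 2) (nat_lit 0x100000000f0006800200000001000080000000000000000000000000000000) (nat_lit 0x0) (nat_lit 0x100001000400000000000000000000000000000000000000000000) := D_29 (nat_lit 192) (nat_lit 212) (nat_lit 178) (nat_lit 3) (nat_lit 4) (nat_lit 11) (nat_lit 2) (nat_lit 4) (nat_lit 11) (by decide +kernel)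
theorem L79182 : W_29 (nat_lit 3) (nat_lit 0x100000000f0006000200000001000080000000000000000000000000000000) (nat_lit 0x0) (nat_lit 0x100001c00400000000000000000000000000000000000000000000) := T_29 (nat_lit 191) (nat_lit 190) (nat_lit 0) (nat_lit 7) (nat_lit 12) L79181 (by decide +kernel)
theorem L79183 : W_29 (nat_lit 4) (nat_lit 0xf0006000200000001000080000000000000000000000000000000) (nat_lit 0x0) (nat_lit 0x10000800100001c00400000000000000000000000000000000000000000000) := T_29 (nat_lit 244) (nat_lit 227) (nat_lit 6) (nat_lit 6) (nat_lit 14) L79182 (by decide +kernel)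
theorem L79184 : W_29 (nat_lit 5) (nat_lit 0xe0006000200000001000080000000000000000000000000000000) (nat_lit 0x0) (nat_lit 0x10000800118001c00400000000000000000000000000000000000000000000) := T_29 (nat_lit 208) (nat_lit 207) (nat_lit 2) (nat_lit 3) (nat_lit 12) L79183 (by decide +kernel)
theorem L79185 : W_29 (nat_lit 2) (nat_lit 0x100002000f0007800200000001000080000000000000000000000000000000) (nat_lit 0x0) (nat_lit 0x4000000000000000080004000000000000000000000000000000000000000) := D_29 (nat_lit 175) (nat_lit 158) (nat_lit 242) (nat_lit 5) (nat_lit 5) (nat_lit 9) (nat_lit 6) (nat_lit 4) (nat_lit 14) (by decide +kernel)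
theorem L79186 : W_29 (nat_lit 3) (nat_lit 0x100002000f0006800200000001000080000000000000000000000000000000) (nat_lit 0x0) (nat_lit 0x4000000000001000480004000000000000000000000000000000000000000) := T_29 (nat_lit 192) (nat_lit 178) (nat_lit 2) (nat_lit 4) (nat_lit 11) L79185 (by decide +kernel)
theorem L79187 : W_29 (nat_lit 4) (nat_lit 0x100000000f0006800200000001000080000000000000000000000000000000) (nat_lit 0x0) (nat_lit 0x4000300000001000480004000000000000000000000000000000000000000) := T_29 (nat_lit 225) (nat_lit 224) (nat_lit 1) (nat_lit 7) (nat_lit 12) L79186 (by decide +kernel)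
theorem L79188 : W_29 (nat_lit 5) (nat_lit 0x100000000f0006000200000001000080000000000000000000000000000000) (nat_lit 0x0) (nat_lit 0x4000300000001c00480004000000000000000000000000000000000000000) := T_29 (nat_lit 191) (nat_lit 190) (nat_lit 0) (nat_lit 7) (nat_lit 12) L79187 (by decide +kernel)
theorem L79189 : W_29 (nat_lit 6) (nat_lit 0xf0006000200000001000080000000000000000000000000000000) (nat_lit 0x0) (nat_lit 0x14000b00000001c00480004000000000000000000000000000000000000000) := T_29 (nat_lit 244) (nat_lit 227) (nat_lit 6) (nat_lit 6) (nat_lit 14) L79188 (by decide +kernel)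
theorem L79190 : W_29 (nat_lit 7) (nat_lit 0xe0006000200000001000080000000000000000000000000000000) (nat_lit 0x0) (nat_lit 0x14000b00018001c00480004000000000000000000000000000000000000000) := T_29 (nat_lit 208) (nat_lit 207) (nat_lit 2) (nat_lit 3) (nat_lit 12) L79189 (by decide +kernel)
theorem L79191 : W_29 (nat_lit 6) (nat_lit 0xe0004000200000001000080000000000000000000000000000000) (nat_lit 0x0) (nat_lit 0x4000380118003e00080004000000000000000000000000000000000000000) := Q_29 (nat_lit 208) (C_29 L79110 (C_29 L79033 (C_29 L79095 (C_29 L79029 N_29)))) (by decide +kernel)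
theorem L79192 : W_29 (nat_lit 2) (nat_lit 0x8000f00068003c0000001000080000000000000000000000000000000) (nat_lit 0x0) (nat_lit 0x8000400000000000000002000000000000000000000000000000000000000) := D_29 (nat_lit 226) (nat_lit 243) (nat_lit 157) (nat_lit 5) (nat_lit 6) (nat_lit 10) (nat_lit 7) (nat_lit 4) (nat_lit 9) (by decide +kernel)
theorem L79193 : W_29 (nat_lit 3) (nat_lit 0x8000f0006800380000001000080000000000000000000000000000000) (nat_lit 0x0) (nat_lit 0x8000400000000000060002000000000000000000000000000000000000000) := T_29 (nat_lit 174) (nat_lit 173) (nat_lit 3) (nat_lit 3) (nat_lit 10) L79192 (by decide +kernel)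
theorem L79194 : W_29 (nat_lit 4) (nat_lit 0x8000f0006800300000001000080000000000000000000000000000000) (nat_lit 0x0) (nat_lit 0x80004000000000000e0006000000000000000000000000000000000000000) := T_29 (nat_lit 175) (nat_lit 158) (nat_lit 4) (nat_lit 6) (nat_lit 13) L79193 (by decide +kernel)
theorem L79195 : W_29 (nat_lit 5) (nat_lit 0x8000f0006000300000001000080000000000000000000000000000000) (nat_lit 0x0) (nat_lit 0x8000400000000c000e0006000000000000000000000000000000000000000) := T_29 (nat_lit 191) (nat_lit 190) (nat_lit 0) (nat_lit 7) (nat_lit 12) L79194 (by decide +kernel)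
theorem L79196 : W_29 (nat_lit 6) (nat_lit 0xf0006000300000001000080000000000000000000000000000000) (nat_lit 0x0) (nat_lit 0x18000c00000000c000e0006000000000000000000000000000000000000000) := T_29 (nat_lit 227) (nat_lit 244) (nat_lit 6) (nat_lit 6) (nat_lit 14) L79195 (by decide +kernel)
theorem L79197 : W_29 (nat_lit 7) (nat_lit 0xe0006000300000001000080000000000000000000000000000000) (nat_lit 0x0) (nat_lit 0x18000c00018000c000e0006000000000000000000000000000000000000000) := T_29 (nat_lit 208) (nat_lit 207) (nat_lit 2) (nat_lit 3) (nat_lit 12) L79196 (by decide +kernel)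
theorem L79198 : W_29 (nat_lit 8) (nat_lit 0xe0006000200000001000080000000000000000000000000000000) (nat_lit 0x0) (nat_lit 0x18000c00018000c001e000e000600000000000000000000000000000000000) := Q_29 (nat_lit 176) (C_29 L79146 (C_29 L79132 (C_29 L79197 N_29))) (by decide +kernel)
theorem L79199 : W_29 (nat_lit 2) (nat_lit 0xf0006800200000001000080000000000000000000000000000000) (nat_lit 0x0) (nat_lit 0x100001000400000000000000000000000000000000000000000000) := D_29 (nat_lit 192) (nat_lit 212) (nat_lit 178) (nat_lit 3) (nat_lit 4) (nat_lit 11) (nat_lit 2) (nat_lit 4) (nat_lit 11) (by decide +kernel)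
theorem L79200 : W_29 (nat_lit 3) (nat_lit 0xf0006000200000001000080000000000000000000000000000000) (nat_lit 0x0) (nat_lit 0x100001c00400000000000000000000000000000000000000000000) := T_29 (nat_lit 191) (nat_lit 190) (nat_lit 0) (nat_lit 7) (nat_lit 12) L79199 (by decide +kernel)
theorem L79201 : W_29 (nat_lit 4) (nat_lit 0xe0006000200000001000080000000000000000000000000000000) (nat_lit 0x0) (nat_lit 0x118001c00400000000000000000000000000000000000000000000) := T_29 (nat_lit 208) (nat_lit 207) (nat_lit 2) (nat_lit 3) (nat_lit 12) L79200 (by decide +kernel)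
theorem L79202 : W_29 (nat_lit 2) (nat_lit 0xe0007000200000001000080000000000000000000000000000000) (nat_lit 0x0) (nat_lit 0xc00400000000000000000000000000000000000000000000) := D_29 (nat_lit 191) (nat_lit 178) (nat_lit 190) (nat_lit 2) (nat_lit 4) (nat_lit 11) (nat_lit 3) (nat_lit 3) (nat_lit 11) (by decide +kernel)
theorem L79203 : W_29 (nat_lit 2) (nat_lit 0xe0007000300000001000080000000000000000000000000000000) (nat_lit 0x0) (nat_lit 0x400000000000000008000400000000000000000000000000000000000) := D_29 (nat_lit 159) (nat_lit 142) (nat_lit 226) (nat_lit 7) (nat_lit 6) (nat_lit 8) (nat_lit 5) (nat_lit 6) (nat_lit 9) (by decide +kernel)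
theorem L79204 : W_29 (nat_lit 2) (nat_lit 0xc000e0007000380000001000080000000000000000000000000000000) (nat_lit 0x0) (nat_lit 0x60002000000000000000000000000000000000000000) := D_29 (nat_lit 174) (nat_lit 157) (nat_lit 173) (nat_lit 4) (nat_lit 5) (nat_lit 13) (nat_lit 3) (nat_lit 3) (nat_lit 10) (by decide +kernel)
theorem L79205 : W_29 (nat_lit 3) (nat_lit 0xc000e0007000300000001000080000000000000000000000000000000) (nat_lit 0x0) (nat_lit 0xe0006000000000000000000000000000000000000000) := T_29 (nat_lit 175) (nat_lit 158) (nat_lit 7) (nat_lit 5) (nat_lit 9) L79204 (by decide +kernel)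
theorem L79206 : W_29 (nat_lit 4) (nat_lit 0x8000e0007000300000001000080000000000000000000000000000000) (nat_lit 0x0) (nat_lit 0x80004000000000000e0006000000000000000000000000000000000000000) := T_29 (nat_lit 226) (nat_lit 243) (nat_lit 6) (nat_lit 5) (nat_lit 14) L79205 (by decide +kernel)
theorem L79207 : W_29 (nat_lit 5) (nat_lit 0xe0007000300000001000080000000000000000000000000000000) (nat_lit 0x0) (nat_lit 0x18000c000000000000e0006000000000000000000000000000000000000000) := T_29 (nat_lit 227) (nat_lit 244) (nat_lit 6) (nat_lit 6) (nat_lit 14) L79206 (by decide +kernel)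
theorem L79208 : W_29 (nat_lit 2) (nat_lit 0x8000e0007000b00008001000080000000000000000000000000000000) (nat_lit 0x0) (nat_lit 0x80004000200000000000000000000000000000000000) := D_29 (nat_lit 158) (nat_lit 141) (nat_lit 175) (nat_lit 4) (nat_lit 6) (nat_lit 12) (nat_lit 7) (nat_lit 5) (nat_lit 9) (by decide +kernel)
theorem L79209 : W_29 (nat_lit 3) (nat_lit 0xe0007000b00008001000080000000000000000000000000000000) (nat_lit 0x0) (nat_lit 0x10000800000000000080004000200000000000000000000000000000000000) := T_29 (nat_lit 227) (nat_lit 244) (nat_lit 6) (nat_lit 6) (nat_lit 14) L79208 (by decide +kernel)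
theorem L79210 : W_29 (nat_lit 4) (nat_lit 0xe0007000b00000001000080000000000000000000000000000000) (nat_lit 0x0) (nat_lit 0x1000080000000000008000c000600000000000000000000000000000000000) := T_29 (nat_lit 159) (nat_lit 142) (nat_lit 7) (nat_lit 6) (nat_lit 8) L79209 (by decide +kernel)
theorem L79211 : W_29 (nat_lit 5) (nat_lit 0xe0007000300000001000080000000000000000000000000000000) (nat_lit 0x0) (nat_lit 0x10000800000000000c8000c000600000000000000000000000000000000000) := T_29 (nat_lit 179) (nat_lit 178) (nat_lit 1) (nat_lit 9) (nat_lit 10) L79210 (by decide +kernel)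
theorem L79212 : W_29 (nat_lit 6) (nat_lit 0xe0007000200000001000080000000000000000000000000000000) (nat_lit 0x0) (nat_lit 0x18000c00000000000de000e000600000000000000000000000000000000000) := Q_29 (nat_lit 176) (C_29 L79203 (C_29 L79207 (C_29 L79211 N_29))) (by decide +kernel)
theorem L79213 : W_29 (nat_lit 7) (nat_lit 0xe0006000200000001000080000000000000000000000000000000) (nat_lit 0x0) (nat_lit 0x18000c00000001c00de000e000700000000000000000000000000000000000) := Q_29 (nat_lit 192) (C_29 L78815 (C_29 L79202 (C_29 L79212 N_29))) (by decide +kernel)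
theorem L79214 : W_29 (nat_lit 10) (nat_lit 0xe0004000200000001000080000000000000000000000000000000) (nat_lit 0x0) (nat_lit 0x18000c00318003c00de000f000700000000000000000000000000000000000) := Q_29 (nat_lit 193) (C_29 L79198 (C_29 L79184 (C_29 L79201 (C_29 L79142 (C_29 L79213 N_29))))) (by decide +kernel)
theorem L79215 : W_29 (nat_lit 13) (nat_lit 0xc0004000200000001000080000000000000000000000000000000) (nat_lit 0x0) (nat_lit 0xb8005c01efc073e073f00de000f000780000000000000000000000000000000000) := Q_29 (nat_lit 209) (C_29 L79086 (C_29 L79090 (C_29 L79111 (C_29 L79119 (C_29 L79131 (C_29 L79167 (C_29 L79180 (C_29 L79191 (C_29 L79214 N_29))))))))) (by decide +kernel)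
theorem L79250 : W_29 (nat_lit 2) (nat_lit 0x5e0006000200018001000080000000000000000000000000000000) (nat_lit 0x0) (nat_lit 0x600000000000100000000000000000000000000000000000000000000) := D_29 (nat_lit 226) (nat_lit 225) (nat_lit 176) (nat_lit 1) (nat_lit 8) (nat_lit 12) (nat_lit 5) (nat_lit 6) (nat_lit 9) (by decide +kernel)
theorem L79251 : W_29 (nat_lit 3) (nat_lit 0x5e0006000200010001000080000000000000000000000000000000) (nat_lit 0x0) (nat_lit 0x600000000000100008000400000000000000000000000000000000000) := T_29 (nat_lit 159) (nat_lit 142) (nat_lit 4) (nat_lit 7) (nat_lit 12) L79250 (by decide +kernel)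
theorem L79252 : W_29 (nat_lit 4) (nat_lit 0x1e0006000200010001000080000000000000000000000000000000) (nat_lit 0x0) (nat_lit 0x600600000000100008000400000000000000000000000000000000000) := T_29 (nat_lit 214) (nat_lit 213) (nat_lit 0) (nat_lit 10) (nat_lit 12) L79251 (by decide +kernel)
theorem L79253 : W_29 (nat_lit 5) (nat_lit 0x1e0006000200000001000080000000000000000000000000000000) (nat_lit 0x0) (nat_lit 0x600600000000100018000c00000000000000000000000000000000000) := T_29 (nat_lit 160) (nat_lit 143) (nat_lit 6) (nat_lit 7) (nat_lit 11) L79252 (by decide +kernel)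
theorem L79279 : W_29 (nat_lit 7) (nat_lit 0x1c0004000200000001000080000000000000000000000000000000) (nat_lit 0x0) (nat_lit 0x800040006700030001c00000010000000000000000000000000000000000000000) := T_29 (nat_lit 229) (nat_lit 160) (nat_lit 7) (nat_lit 7) (nat_lit 9) L79023 (by decide +kernel)
theorem L79280 : W_29 (nat_lit 2) (nat_lit 0x3c0004000200000001000080000000000000000000000000000000) (nat_lit 0x0) (nat_lit 0x400003000000000000000000000000000000000000000000000000) := D_29 (nat_lit 193) (nat_lit 192) (nat_lit 214) (nat_lit 0) (nat_lit 9) (nat_lit 12) (nat_lit 0) (nat_lit 10) (nat_lit 12) (by decide +kernel)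
theorem L79281 : W_29 (nat_lit 6) (nat_lit 0x1c0004000200000001000080000000000000000000000000000000) (nat_lit 0x0) (nat_lit 0x80004000e000620033000800000000000000000000000000000000000000000000) := Q_29 (nat_lit 213) (C_29 L79012 (C_29 L79280 N_29)) (by decide +kernel)
theorem L79282 : W_29 (nat_lit 2) (nat_lit 0x7c0014000200018001000080000000000000000000000000000000) (nat_lit 0x0) (nat_lit 0x1c000000000000000000000000000000000000000000000000000000000) := D_29 (nat_lit 231) (nat_lit 230) (nat_lit 232) (nat_lit 3) (nat_lit 6) (nat_lit 12) (nat_lit 3) (nat_lit 7) (nat_lit 12) (by decide +kernel)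
theorem L79283 : W_29 (nat_lit 3) (nat_lit 0x3c0014000200018001000080000000000000000000000000000000) (nat_lit 0x0) (nat_lit 0x1c000400002000000000000000000000000000000000000000000000000) := T_29 (nat_lit 214) (nat_lit 193) (nat_lit 0) (nat_lit 10) (nat_lit 12) L79282 (by decide +kernel)
theorem L79284 : W_29 (nat_lit 4) (nat_lit 0x3c0004000200018001000080000000000000000000000000000000) (nat_lit 0x0) (nat_lit 0x1c000400032000000000000000000000000000000000000000000000000) := T_29 (nat_lit 196) (nat_lit 197) (nat_lit 2) (nat_lit 6) (nat_lit 12) L79283 (by decide +kernel)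
theorem L79285 : W_29 (nat_lit 5) (nat_lit 0x3c0004000200010001000080000000000000000000000000000000) (nat_lit 0x0) (nat_lit 0x1c000400032000000008000400000000000000000000000000000000000) := T_29 (nat_lit 159) (nat_lit 142) (nat_lit 4) (nat_lit 7) (nat_lit 12) L79284 (by decide +kernel)
theorem L79287 : W_29 (nat_lit 4) (nat_lit 0x3c0004000200000001000080000000000000000000000000000000) (nat_lit 0x0) (nat_lit 0x1c000400070000000000000000000000000000000000000000000000000) := T_29 (nat_lit 231) (nat_lit 230) (nat_lit 3) (nat_lit 6) (nat_lit 12) L79025 (by decide +kernel)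
theorem L79288 : W_29 (nat_lit 2) (nat_lit 0x44003e001500028001a001000080000000000000000000000000000000) (nat_lit 0x0) (nat_lit 0x400004000100000000000000000000000000000000000) := D_29 (nat_lit 158) (nat_lit 140) (nat_lit 178) (nat_lit 4) (nat_lit 5) (nat_lit 12) (nat_lit 3) (nat_lit 4) (nat_lit 9) (by decide +kernel)
theorem L79289 : W_29 (nat_lit 3) (nat_lit 0x44003e0015000280018001000080000000000000000000000000000000) (nat_lit 0x0) (nat_lit 0x440006000100000000000000000000000000000000000) := T_29 (nat_lit 157) (nat_lit 174) (nat_lit 4) (nat_lit 5) (nat_lit 13) L79288 (by decide +kernel)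
theorem L79290 : W_29 (nat_lit 4) (nat_lit 0x44003e0015000200018001000080000000000000000000000000000000) (nat_lit 0x0) (nat_lit 0x5c0006000100000000000000000000000000000000000) := T_29 (nat_lit 175) (nat_lit 176) (nat_lit 6) (nat_lit 5) (nat_lit 13) L79289 (by decide +kernel)
theorem L79308 : W_29 (nat_lit 4) (nat_lit 0x10000c0004000300000001000080000000000000000000000000000000) (nat_lit 0x0) (nat_lit 0x50006800030000000000000000000000000000000000000000000000000000) := T_29 (nat_lit 227) (nat_lit 244) (nat_lit 5) (nat_lit 7) (nat_lit 10) L6024 (by decide +kernel)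
theorem L79309 : W_29 (nat_lit 5) (nat_lit 0x10000c0004000200000001000080000000000000000000000000000000) (nat_lit 0x0) (nat_lit 0x50006800030000000100008000000000000000000000000000000000000000) := T_29 (nat_lit 176) (nat_lit 159) (nat_lit 4) (nat_lit 7) (nat_lit 13) L79308 (by decide +kernel)
theorem L79310 : W_29 (nat_lit 2) (nat_lit 0x10000f0004000300000001000080000000000000000000000000000000) (nat_lit 0x0) (nat_lit 0x800008002000000000000000000000000000000000000000000000000) := D_29 (nat_lit 207) (nat_lit 227) (nat_lit 193) (nat_lit 3) (nat_lit 3) (nat_lit 12) (nat_lit 2) (nat_lit 3) (nat_lit 12) (by decide +kernel)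
theorem L79311 : W_29 (nat_lit 3) (nat_lit 0x10000e0004000300000001000080000000000000000000000000000000) (nat_lit 0x0) (nat_lit 0x2800018002000000000000000000000000000000000000000000000000) := T_29 (nat_lit 208) (nat_lit 229) (nat_lit 3) (nat_lit 4) (nat_lit 12) L79310 (by decide +kernel)
theorem L79312 : W_29 (nat_lit 4) (nat_lit 0x10000e0004000200000001000080000000000000000000000000000000) (nat_lit 0x0) (nat_lit 0x2800018002000100008000000000000000000000000000000000000000) := T_29 (nat_lit 176) (nat_lit 159) (nat_lit 4) (nat_lit 7) (nat_lit 13) L79311 (by decide +kernel)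
theorem L79313 : W_29 (nat_lit 2) (nat_lit 0x18000e0004000200000001000080000000000000000000000000000000) (nat_lit 0x0) (nat_lit 0x18008000000000000000000000000000000000000000000000000) := D_29 (nat_lit 208) (nat_lit 207) (nat_lit 195) (nat_lit 3) (nat_lit 3) (nat_lit 12) (nat_lit 2) (nat_lit 4) (nat_lit 12) (by decide +kernel)
theorem L79314 : W_29 (nat_lit 3) (nat_lit 0x10000e0004000200000001000080000000000000000000000000000000) (nat_lit 0x0) (nat_lit 0x10000800018008000000000000000000000000000000000000000000000000) := T_29 (nat_lit 227) (nat_lit 244) (nat_lit 5) (nat_lit 7) (nat_lit 10) L79313 (by decide +kernel)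
theorem L79315 : W_29 (nat_lit 2) (nat_lit 0x18001e0004000200000001000080000000000000000000000000000000) (nat_lit 0x0) (nat_lit 0x600200000000000000000000000000000000000000000000000000000) := D_29 (nat_lit 226) (nat_lit 225) (nat_lit 213) (nat_lit 2) (nat_lit 4) (nat_lit 13) (nat_lit 1) (nat_lit 9) (nat_lit 12) (by decide +kernel)
theorem L79316 : W_29 (nat_lit 3) (nat_lit 0x10001e0004000200000001000080000000000000000000000000000000) (nat_lit 0x0) (nat_lit 0x10000e00200000000000000000000000000000000000000000000000000000) := T_29 (nat_lit 227) (nat_lit 244) (nat_lit 5) (nat_lit 7) (nat_lit 10) L79315 (by decide +kernel)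
theorem L79317 : W_29 (nat_lit 2) (nat_lit 0x14001e000d000340000001000080000000000000000000000000000000) (nat_lit 0x0) (nat_lit 0x8000000200002000000000000000000000000000000000000000000000000) := D_29 (nat_lit 193) (nat_lit 213) (nat_lit 243) (nat_lit 3) (nat_lit 5) (nat_lit 11) (nat_lit 6) (nat_lit 5) (nat_lit 14) (by decide +kernel)
theorem L79318 : W_29 (nat_lit 3) (nat_lit 0x14001e000c000340000001000080000000000000000000000000000000) (nat_lit 0x0) (nat_lit 0x8000000200003800000000000000000000000000000000000000000000000) := T_29 (nat_lit 192) (nat_lit 191) (nat_lit 0) (nat_lit 8) (nat_lit 12) L79317 (by decide +kernel)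
theorem L79319 : W_29 (nat_lit 4) (nat_lit 0x10001e000c000340000001000080000000000000000000000000000000) (nat_lit 0x0) (nat_lit 0x8000600200003800000000000000000000000000000000000000000000000) := T_29 (nat_lit 226) (nat_lit 225) (nat_lit 1) (nat_lit 8) (nat_lit 12) L79318 (by decide +kernel)
theorem L79320 : W_29 (nat_lit 5) (nat_lit 0x10001e000c000300000001000080000000000000000000000000000000) (nat_lit 0x0) (nat_lit 0x80006002000038000c0000000000000000000000000000000000000000000) := T_29 (nat_lit 174) (nat_lit 175) (nat_lit 3) (nat_lit 4) (nat_lit 10) L79319 (by decide +kernel)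
theorem L79321 : W_29 (nat_lit 6) (nat_lit 0x10001e0004000300000001000080000000000000000000000000000000) (nat_lit 0x0) (nat_lit 0x800060020001b8000c0000000000000000000000000000000000000000000) := T_29 (nat_lit 195) (nat_lit 196) (nat_lit 2) (nat_lit 5) (nat_lit 12) L79320 (by decide +kernel)
theorem L79322 : W_29 (nat_lit 7) (nat_lit 0x10001e0004000200000001000080000000000000000000000000000000) (nat_lit 0x0) (nat_lit 0x800060020001b8001c0008000000000000000000000000000000000000000) := T_29 (nat_lit 176) (nat_lit 159) (nat_lit 4) (nat_lit 7) (nat_lit 13) L79321 (by decide +kernel)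
theorem L79323 : W_29 (nat_lit 2) (nat_lit 0x3a001e000c000380000001000080000000000000000000000000000000) (nat_lit 0x0) (nat_lit 0x1800000004000000000000000000000000000000000000000) := D_29 (nat_lit 192) (nat_lit 191) (nat_lit 158) (nat_lit 0) (nat_lit 8) (nat_lit 12) (nat_lit 7) (nat_lit 5) (nat_lit 9) (by decide +kernel)
theorem L79324 : W_29 (nat_lit 3) (nat_lit 0x3a001e000c000300000001000080000000000000000000000000000000) (nat_lit 0x0) (nat_lit 0x18000c0004000000000000000000000000000000000000000) := T_29 (nat_lit 175) (nat_lit 174) (nat_lit 3) (nat_lit 4) (nat_lit 10) L79323 (by decide +kernel)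
theorem L79325 : W_29 (nat_lit 4) (nat_lit 0x3a001e000c000200000001000080000000000000000000000000000000) (nat_lit 0x0) (nat_lit 0x18001c000c000000000000000000000000000000000000000) := T_29 (nat_lit 176) (nat_lit 159) (nat_lit 4) (nat_lit 7) (nat_lit 13) L79324 (by decide +kernel)
theorem L79326 : W_29 (nat_lit 5) (nat_lit 0x3a001e0004000200000001000080000000000000000000000000000000) (nat_lit 0x0) (nat_lit 0x198001c000c000000000000000000000000000000000000000) := T_29 (nat_lit 195) (nat_lit 196) (nat_lit 2) (nat_lit 5) (nat_lit 12) L79325 (by decide +kernel)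
theorem L79327 : W_29 (nat_lit 6) (nat_lit 0x38001e0004000200000001000080000000000000000000000000000000) (nat_lit 0x0) (nat_lit 0x6000000198001c000c000000000000000000000000000000000000000) := T_29 (nat_lit 225) (nat_lit 226) (nat_lit 2) (nat_lit 4) (nat_lit 13) L79326 (by decide +kernel)
theorem L79328 : W_29 (nat_lit 7) (nat_lit 0x30001e0004000200000001000080000000000000000000000000000000) (nat_lit 0x0) (nat_lit 0x10000e000000198001c000c000000000000000000000000000000000000000) := T_29 (nat_lit 227) (nat_lit 244) (nat_lit 5) (nat_lit 7) (nat_lit 10) L79327 (by decide +kernel)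
theorem L79329 : W_29 (nat_lit 8) (nat_lit 0x10001e0004000200000001000080000000000000000000000000000000) (nat_lit 0x0) (nat_lit 0x10006e000000198001c000c000000000000000000000000000000000000000) := T_29 (nat_lit 229) (nat_lit 230) (nat_lit 3) (nat_lit 5) (nat_lit 12) L79328 (by decide +kernel)
theorem L79330 : W_29 (nat_lit 2) (nat_lit 0x18001e0005000200000001000080000000000000000000000000000000) (nat_lit 0x0) (nat_lit 0x600002000000000000000000000000000000000000000000000000) := D_29 (nat_lit 213) (nat_lit 193) (nat_lit 214) (nat_lit 0) (nat_lit 9) (nat_lit 12) (nat_lit 1) (nat_lit 10) (nat_lit 12) (by decide +kernel)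
theorem L79331 : W_29 (nat_lit 3) (nat_lit 0x10001e0005000200000001000080000000000000000000000000000000) (nat_lit 0x0) (nat_lit 0x10000800600002000000000000000000000000000000000000000000000000) := T_29 (nat_lit 227) (nat_lit 244) (nat_lit 5) (nat_lit 7) (nat_lit 10) L79330 (by decide +kernel)
theorem L79332 : W_29 (nat_lit 4) (nat_lit 0x10001e0004000200000001000080000000000000000000000000000000) (nat_lit 0x0) (nat_lit 0x10000800600003800000000000000000000000000000000000000000000000) := T_29 (nat_lit 192) (nat_lit 191) (nat_lit 0) (nat_lit 8) (nat_lit 12) L79331 (by decide +kernel)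
theorem L79333 : W_29 (nat_lit 9) (nat_lit 0x10000e0004000200000001000080000000000000000000000000000000) (nat_lit 0x0) (nat_lit 0x18006e0070001b8001c000c000000000000000000000000000000000000000) := Q_29 (nat_lit 212) (C_29 L79316 (C_29 L79322 (C_29 L79329 (C_29 L79332 N_29)))) (by decide +kernel)
theorem L79334 : W_29 (nat_lit 10) (nat_lit 0x10000c0004000200000001000080000000000000000000000000000000) (nat_lit 0x0) (nat_lit 0x18006e0073801b8001c000c000000000000000000000000000000000000000) := Q_29 (nat_lit 209) (C_29 L6704 (C_29 L79312 (C_29 L79314 (C_29 L79333 N_29)))) (by decide +kernel)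
theorem L79335 : W_29 (nat_lit 2) (nat_lit 0x100010000d0007800240000001000080000000000000000000000000000000) (nat_lit 0x0) (nat_lit 0x20008000080000000000000000000000000000000000000000000) := D_29 (nat_lit 195) (nat_lit 209) (nat_lit 175) (nat_lit 2) (nat_lit 4) (nat_lit 12) (nat_lit 0) (nat_lit 8) (nat_lit 11) (by decide +kernel)
theorem L79336 : W_29 (nat_lit 3) (nat_lit 0x100010000d0007800200000001000080000000000000000000000000000000) (nat_lit 0x0) (nat_lit 0x200080000e0000000000000000000000000000000000000000000) := T_29 (nat_lit 174) (nat_lit 173) (nat_lit 0) (nat_lit 7) (nat_lit 11) L79335 (by decide +kernel)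
theorem L79337 : W_29 (nat_lit 4) (nat_lit 0x100010000c0007800200000001000080000000000000000000000000000000) (nat_lit 0x0) (nat_lit 0x380080000e0000000000000000000000000000000000000000000) := T_29 (nat_lit 208) (nat_lit 207) (nat_lit 1) (nat_lit 7) (nat_lit 11) L79336 (by decide +kernel)
theorem L79338 : W_29 (nat_lit 5) (nat_lit 0x100010000c0007000200000001000080000000000000000000000000000000) (nat_lit 0x0) (nat_lit 0x38008c000e0000000000000000000000000000000000000000000) := T_29 (nat_lit 191) (nat_lit 190) (nat_lit 3) (nat_lit 3) (nat_lit 11) L79337 (by decide +kernel)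
theorem L79339 : W_29 (nat_lit 6) (nat_lit 0x10000c0007000200000001000080000000000000000000000000000000) (nat_lit 0x0) (nat_lit 0x10000800038008c000e0000000000000000000000000000000000000000000) := T_29 (nat_lit 244) (nat_lit 227) (nat_lit 6) (nat_lit 6) (nat_lit 14) L79338 (by decide +kernel)
theorem L79340 : W_29 (nat_lit 9) (nat_lit 0x10000c0006000200000001000080000000000000000000000000000000) (nat_lit 0x0) (nat_lit 0x18000e00338009c001e0007000000000000000000000000000000000000000) := Q_29 (nat_lit 192) (C_29 L79339 (C_29 L78756 (C_29 L78610 N_29))) (by decide +kernel)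
theorem L79341 : W_29 (nat_lit 2) (nat_lit 0x10000e0006000200000001000080000000000000000000000000000000) (nat_lit 0x0) (nat_lit 0x10018000000000000000000000000000000000000000000000000) := D_29 (nat_lit 195) (nat_lit 196) (nat_lit 208) (nat_lit 1) (nat_lit 9) (nat_lit 11) (nat_lit 2) (nat_lit 4) (nat_lit 12) (by decide +kernel)
theorem L79342 : W_29 (nat_lit 2) (nat_lit 0x100012000f0006800200000001000080000000000000000000000000000000) (nat_lit 0x0) (nat_lit 0x400100001000000000000000000000000000000000000000000000000) := D_29 (nat_lit 212) (nat_lit 226) (nat_lit 192) (nat_lit 1) (nat_lit 8) (nat_lit 12) (nat_lit 3) (nat_lit 4) (nat_lit 11) (by decide +kernel)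
theorem L79343 : W_29 (nat_lit 3) (nat_lit 0x100012000f0006000200000001000080000000000000000000000000000000) (nat_lit 0x0) (nat_lit 0x400100001c00000000000000000000000000000000000000000000000) := T_29 (nat_lit 191) (nat_lit 190) (nat_lit 0) (nat_lit 7) (nat_lit 12) L79342 (by decide +kernel)
theorem L79344 : W_29 (nat_lit 4) (nat_lit 0x100010000f0006000200000001000080000000000000000000000000000000) (nat_lit 0x0) (nat_lit 0x700100001c00000000000000000000000000000000000000000000000) := T_29 (nat_lit 225) (nat_lit 224) (nat_lit 1) (nat_lit 7) (nat_lit 12) L79343 (by decide +kernel)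
theorem L79345 : W_29 (nat_lit 5) (nat_lit 0x100010000e0006000200000001000080000000000000000000000000000000) (nat_lit 0x0) (nat_lit 0x700118001c00000000000000000000000000000000000000000000000) := T_29 (nat_lit 208) (nat_lit 207) (nat_lit 2) (nat_lit 3) (nat_lit 12) L79344 (by decide +kernel)
theorem L79346 : W_29 (nat_lit 6) (nat_lit 0x10000e0006000200000001000080000000000000000000000000000000) (nat_lit 0x0) (nat_lit 0x10000f00118001c00000000000000000000000000000000000000000000000) := T_29 (nat_lit 244) (nat_lit 227) (nat_lit 6) (nat_lit 6) (nat_lit 14) L79345 (by decide +kernel)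
theorem L79347 : W_29 (nat_lit 2) (nat_lit 0x10001e0006000200000001000080000000000000000000000000000000) (nat_lit 0x0) (nat_lit 0x200001800000000000000000000000000000000000000000000000) := D_29 (nat_lit 192) (nat_lit 191) (nat_lit 213) (nat_lit 3) (nat_lit 4) (nat_lit 11) (nat_lit 0) (nat_lit 9) (nat_lit 12) (by decide +kernel)
theorem L79348 : W_29 (nat_lit 2) (nat_lit 0x10001e0016000200000001000080000000000000000000000000000000) (nat_lit 0x0) (nat_lit 0x600020000000000000000000000000000000000000000000000000) := D_29 (nat_lit 213) (nat_lit 214) (nat_lit 197) (nat_lit 0) (nat_lit 10) (nat_lit 12) (nat_lit 2) (nat_lit 6) (nat_lit 12) (by decide +kernel)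
theorem L79349 : W_29 (nat_lit 3) (nat_lit 0x10001e0006000200000001000080000000000000000000000000000000) (nat_lit 0x0) (nat_lit 0x600038000000000000000000000000000000000000000000000000) := T_29 (nat_lit 196) (nat_lit 195) (nat_lit 2) (nat_lit 5) (nat_lit 12) L79348 (by decide +kernel)
theorem L79350 : W_29 (nat_lit 5) (nat_lit 0x10001e0006000200000001000080000000000000000000000000000000) (nat_lit 0x0) (nat_lit 0x300018000e00000001800000000000000000000000000000000000000000000000) := T_29 (nat_lit 192) (nat_lit 191) (nat_lit 3) (nat_lit 4) (nat_lit 11) L78553 (by decide +kernel)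
theorem L79351 : W_29 (nat_lit 6) (nat_lit 0x10000e0006000200000001000080000000000000000000000000000000) (nat_lit 0x0) (nat_lit 0x300018000e00700039800000000000000000000000000000000000000000000000) := Q_29 (nat_lit 212) (C_29 L79347 (C_29 L79349 (C_29 L79350 N_29))) (by decide +kernel)
theorem L79352 : W_29 (nat_lit 7) (nat_lit 0x10000c0006000200000001000080000000000000000000000000000000) (nat_lit 0x0) (nat_lit 0x300018000f00738039c00000000000000000000000000000000000000000000000) := Q_29 (nat_lit 209) (C_29 L79341 (C_29 L79346 (C_29 L79351 N_29))) (by decide +kernel)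
theorem L79353 : W_29 (nat_lit 2) (nat_lit 0x10000d0007800340000001000080000000000000000000000000000000) (nat_lit 0x0) (nat_lit 0x20008000080000000000000000000000000000000000000000000) := D_29 (nat_lit 195) (nat_lit 209) (nat_lit 175) (nat_lit 2) (nat_lit 4) (nat_lit 12) (nat_lit 3) (nat_lit 4) (nat_lit 10) (by decide +kernel)
theorem L79354 : W_29 (nat_lit 3) (nat_lit 0x10000d0007800300000001000080000000000000000000000000000000) (nat_lit 0x0) (nat_lit 0x200080000e0000000000000000000000000000000000000000000) := T_29 (nat_lit 174) (nat_lit 173) (nat_lit 0) (nat_lit 7) (nat_lit 11) L79353 (by decide +kernel)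
theorem L79355 : W_29 (nat_lit 4) (nat_lit 0x10000c0007800300000001000080000000000000000000000000000000) (nat_lit 0x0) (nat_lit 0x380080000e0000000000000000000000000000000000000000000) := T_29 (nat_lit 208) (nat_lit 207) (nat_lit 1) (nat_lit 7) (nat_lit 11) L79354 (by decide +kernel)
theorem L79356 : W_29 (nat_lit 5) (nat_lit 0x10000c0007000300000001000080000000000000000000000000000000) (nat_lit 0x0) (nat_lit 0x38008c000e0000000000000000000000000000000000000000000) := T_29 (nat_lit 191) (nat_lit 190) (nat_lit 3) (nat_lit 3) (nat_lit 11) L79355 (by decide +kernel)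
theorem L79357 : W_29 (nat_lit 6) (nat_lit 0x10000c0007000200000001000080000000000000000000000000000000) (nat_lit 0x0) (nat_lit 0x38008c001e0008000000000000000000000000000000000000000) := T_29 (nat_lit 176) (nat_lit 159) (nat_lit 7) (nat_lit 6) (nat_lit 9) L79356 (by decide +kernel)
theorem L79358 : W_29 (nat_lit 2) (nat_lit 0x10000c000f000200000001000080000000000000000000000000000000) (nat_lit 0x0) (nat_lit 0x30010000000000000000000000000000000000000000000000000) := D_29 (nat_lit 209) (nat_lit 208) (nat_lit 196) (nat_lit 2) (nat_lit 4) (nat_lit 12) (nat_lit 1) (nat_lit 9) (nat_lit 11) (by decide +kernel)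
theorem L79359 : W_29 (nat_lit 2) (nat_lit 0x10001e000f000340000001000080000000000000000000000000000000) (nat_lit 0x0) (nat_lit 0x8000600000000000000000000000000000000000000000000000000000000) := D_29 (nat_lit 226) (nat_lit 225) (nat_lit 243) (nat_lit 1) (nat_lit 8) (nat_lit 12) (nat_lit 6) (nat_lit 5) (nat_lit 14) (by decide +kernel)
theorem L79360 : W_29 (nat_lit 3) (nat_lit 0x10000e000f000340000001000080000000000000000000000000000000) (nat_lit 0x0) (nat_lit 0x8000600300000000000000000000000000000000000000000000000000000) := T_29 (nat_lit 212) (nat_lit 213) (nat_lit 3) (nat_lit 5) (nat_lit 11) L79359 (by decide +kernel)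
theorem L79361 : W_29 (nat_lit 4) (nat_lit 0x10000c000f000340000001000080000000000000000000000000000000) (nat_lit 0x0) (nat_lit 0x8000600330000000000000000000000000000000000000000000000000000) := T_29 (nat_lit 209) (nat_lit 208) (nat_lit 2) (nat_lit 4) (nat_lit 12) L79360 (by decide +kernel)
theorem L79362 : W_29 (nat_lit 5) (nat_lit 0x10000c000f000300000001000080000000000000000000000000000000) (nat_lit 0x0) (nat_lit 0x80006003300000000c0000000000000000000000000000000000000000000) := T_29 (nat_lit 174) (nat_lit 175) (nat_lit 3) (nat_lit 4) (nat_lit 10) L79361 (by decide +kernel)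
theorem L79363 : W_29 (nat_lit 6) (nat_lit 0x10000c000f000200000001000080000000000000000000000000000000) (nat_lit 0x0) (nat_lit 0x80006003300000001c0008000000000000000000000000000000000000000) := T_29 (nat_lit 176) (nat_lit 159) (nat_lit 7) (nat_lit 6) (nat_lit 9) L79362 (by decide +kernel)
theorem L79364 : W_29 (nat_lit 2) (nat_lit 0x10002c000f000200000001000080000000000000000000000000000000) (nat_lit 0x0) (nat_lit 0x400030000000000000000000000000000000000000000000000000) := D_29 (nat_lit 196) (nat_lit 214) (nat_lit 197) (nat_lit 3) (nat_lit 6) (nat_lit 11) (nat_lit 1) (nat_lit 10) (nat_lit 11) (by decide +kernel)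
theorem L79365 : W_29 (nat_lit 3) (nat_lit 0x10000c000f000200000001000080000000000000000000000000000000) (nat_lit 0x0) (nat_lit 0x700030000000000000000000000000000000000000000000000000) := T_29 (nat_lit 213) (nat_lit 212) (nat_lit 3) (nat_lit 5) (nat_lit 11) L79364 (by decide +kernel)
theorem L79366 : W_29 (nat_lit 7) (nat_lit 0x10000c0007000200000001000080000000000000000000000000000000) (nat_lit 0x0) (nat_lit 0x80006007300380001c0008000000000000000000000000000000000000000) := Q_29 (nat_lit 195) (C_29 L79358 (C_29 L79363 (C_29 L79365 N_29))) (by decide +kernel)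
theorem L79367 : W_29 (nat_lit 8) (nat_lit 0x10000c0006000200000001000080000000000000000000000000000000) (nat_lit 0x0) (nat_lit 0x8000600738039c001e0008000000000000000000000000000000000000000) := Q_29 (nat_lit 192) (C_29 L78756 (C_29 L79357 (C_29 L79366 N_29))) (by decide +kernel)
theorem L79368 : W_29 (nat_lit 2) (nat_lit 0x18000c0006000380000001000080000000000000000000000000000000) (nat_lit 0x0) (nat_lit 0x8000060000000000000000000000000000000000000000000) := D_29 (nat_lit 174) (nat_lit 195) (nat_lit 173) (nat_lit 3) (nat_lit 4) (nat_lit 10) (nat_lit 3) (nat_lit 3) (nat_lit 10) (by decide +kernel)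
theorem L79369 : W_29 (nat_lit 3) (nat_lit 0x18000c0006000300000001000080000000000000000000000000000000) (nat_lit 0x0) (nat_lit 0x80000e0004000000000000000000000000000000000000000) := T_29 (nat_lit 175) (nat_lit 158) (nat_lit 4) (nat_lit 6) (nat_lit 13) L79368 (by decide +kernel)
theorem L79370 : W_29 (nat_lit 4) (nat_lit 0x10000c0006000300000001000080000000000000000000000000000000) (nat_lit 0x0) (nat_lit 0x100008000000080000e0004000000000000000000000000000000000000000) := T_29 (nat_lit 227) (nat_lit 244) (nat_lit 6) (nat_lit 6) (nat_lit 14) L79369 (by decide +kernel)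
theorem L79371 : W_29 (nat_lit 5) (nat_lit 0x10000c0006000200000001000080000000000000000000000000000000) (nat_lit 0x0) (nat_lit 0x100008000000080001e000c000000000000000000000000000000000000000) := T_29 (nat_lit 176) (nat_lit 159) (nat_lit 7) (nat_lit 6) (nat_lit 9) L79370 (by decide +kernel)
theorem L79372 : W_29 (nat_lit 11) (nat_lit 0x10000c0004000200000001000080000000000000000000000000000000) (nat_lit 0x0) (nat_lit 0x30001e000f0073803bc001e000f000000000000000000000000000000000000000) := Q_29 (nat_lit 193) (C_29 L78590 (C_29 L78731 (C_29 L79340 (C_29 L79352 (C_29 L79367 (C_29 L79371 N_29)))))) (by decide +kernel)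
theorem L79373 : W_29 (nat_lit 12) (nat_lit 0x1000080004000200000001000080000000000000000000000000000000) (nat_lit 0x0) (nat_lit 0x3001de00ef0077803bc001e000f000000000000000000000000000000000000000) := Q_29 (nat_lit 210) (C_29 L79309 (C_29 L6022 (C_29 L6039 (C_29 L6035 (C_29 L79334 (C_29 L79372 N_29)))))) (by decide +kernel)
theorem L79374 : W_29 (nat_lit 13) (nat_lit 0x80004000200000001000080000000000000000000000000000000) (nat_lit 0x0) (nat_lit 0xb001fe00ff0077803bc001e000f000000000000000000000000000000000000000) := Q_29 (nat_lit 228) (C_29 L6067 (C_29 L6047 (C_29 L6064 (C_29 L79373 N_29)))) (by decide +kernel)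
theorem L79375 : W_29 (nat_lit 2) (nat_lit 0xc000e000200000001000080000000000000000000000000000000) (nat_lit 0x0) (nat_lit 0x20030000000000000000000000000000000000000000000000000) := D_29 (nat_lit 196) (nat_lit 209) (nat_lit 197) (nat_lit 1) (nat_lit 9) (nat_lit 11) (nat_lit 1) (nat_lit 10) (nat_lit 11) (by decide +kernel)
theorem L79389 : W_29 (nat_lit 2) (nat_lit 0xe0006000200000001000080000000000000000000000000000000) (nat_lit 0x0) (nat_lit 0x10018000000000000000000000000000000000000000000000000) := D_29 (nat_lit 195) (nat_lit 196) (nat_lit 208) (nat_lit 1) (nat_lit 9) (nat_lit 11) (nat_lit 2) (nat_lit 4) (nat_lit 12) (by decide +kernel)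
theorem L79390 : W_29 (nat_lit 2) (nat_lit 0xc000e00160003c0000001000080000000000000000000000000000000) (nat_lit 0x0) (nat_lit 0x1000000003000000000000000000000000000000000000000) := D_29 (nat_lit 157) (nat_lit 192) (nat_lit 156) (nat_lit 4) (nat_lit 5) (nat_lit 13) (nat_lit 0) (nat_lit 7) (nat_lit 10) (by decide +kernel)
theorem L79391 : W_29 (nat_lit 3) (nat_lit 0x8000e00160003c0000001000080000000000000000000000000000000) (nat_lit 0x0) (nat_lit 0x8000400000001000000003000000000000000000000000000000000000000) := T_29 (nat_lit 226) (nat_lit 243) (nat_lit 5) (nat_lit 6) (nat_lit 10) L79390 (by decide +kernel)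
theorem L79392 : W_29 (nat_lit 4) (nat_lit 0x8000e0016000380000001000080000000000000000000000000000000) (nat_lit 0x0) (nat_lit 0x8000400000001000060003000000000000000000000000000000000000000) := T_29 (nat_lit 174) (nat_lit 173) (nat_lit 3) (nat_lit 3) (nat_lit 10) L79391 (by decide +kernel)
theorem L79393 : W_29 (nat_lit 5) (nat_lit 0x8000e0016000300000001000080000000000000000000000000000000) (nat_lit 0x0) (nat_lit 0x80004000000010000e0007000000000000000000000000000000000000000) := T_29 (nat_lit 175) (nat_lit 158) (nat_lit 4) (nat_lit 6) (nat_lit 13) L79392 (by decide +kernel)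
theorem L79394 : W_29 (nat_lit 6) (nat_lit 0x8000e0006000300000001000080000000000000000000000000000000) (nat_lit 0x0) (nat_lit 0x80004000000190000e0007000000000000000000000000000000000000000) := T_29 (nat_lit 196) (nat_lit 195) (nat_lit 1) (nat_lit 9) (nat_lit 11) L79393 (by decide +kernel)
theorem L79395 : W_29 (nat_lit 7) (nat_lit 0xe0006000300000001000080000000000000000000000000000000) (nat_lit 0x0) (nat_lit 0x18000c000000190000e0007000000000000000000000000000000000000000) := T_29 (nat_lit 227) (nat_lit 244) (nat_lit 6) (nat_lit 6) (nat_lit 14) L79394 (by decide +kernel)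
theorem L79396 : W_29 (nat_lit 2) (nat_lit 0x8000e00168003c0002001f00080000000000000000000000000000000) (nat_lit 0x0) (nat_lit 0x8000c000000000000000000000000000000) := D_29 (nat_lit 122) (nat_lit 123) (nat_lit 139) (nat_lit 0) (nat_lit 7) (nat_lit 8) (nat_lit 4) (nat_lit 4) (nat_lit 11) (by decide +kernel)
theorem L79397 : W_29 (nat_lit 3) (nat_lit 0x8000e00168003c0002001700080000000000000000000000000000000) (nat_lit 0x0) (nat_lit 0x88010c000000000000000000000000000000) := T_29 (nat_lit 143) (nat_lit 128) (nat_lit 2) (nat_lit 5) (nat_lit 8) L79396 (by decide +kernel)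
theorem L79398 : W_29 (nat_lit 4) (nat_lit 0x8000e00168003c0002001500080000000000000000000000000000000) (nat_lit 0x0) (nat_lit 0xa8011c000000000000000000000000000000) := T_29 (nat_lit 141) (nat_lit 124) (nat_lit 6) (nat_lit 4) (nat_lit 11) L79397 (by decide +kernel)
theorem L79399 : W_29 (nat_lit 5) (nat_lit 0x8000e00168003c0002001400080000000000000000000000000000000) (nat_lit 0x0) (nat_lit 0x1000000000000b8011c000000000000000000000000000000) := T_29 (nat_lit 140) (nat_lit 192) (nat_lit 7) (nat_lit 4) (nat_lit 8) L79398 (by decide +kernel)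
theorem L79400 : W_29 (nat_lit 6) (nat_lit 0x8000e00168003c0000001400080000000000000000000000000000000) (nat_lit 0x0) (nat_lit 0x1000000003000b8011c000000000000000000000000000000) := T_29 (nat_lit 157) (nat_lit 156) (nat_lit 0) (nat_lit 7) (nat_lit 10) L79399 (by decide +kernel)
theorem L79401 : W_29 (nat_lit 7) (nat_lit 0x8000e00160003c0000001400080000000000000000000000000000000) (nat_lit 0x0) (nat_lit 0x1c00000003000b8011c000000000000000000000000000000) := T_29 (nat_lit 191) (nat_lit 190) (nat_lit 1) (nat_lit 7) (nat_lit 10) L79400 (by decide +kernel)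
theorem L79402 : W_29 (nat_lit 8) (nat_lit 0x8000e0016000380000001400080000000000000000000000000000000) (nat_lit 0x0) (nat_lit 0x1c00060003000b8011c000000000000000000000000000000) := T_29 (nat_lit 174) (nat_lit 173) (nat_lit 3) (nat_lit 3) (nat_lit 10) L79401 (by decide +kernel)
theorem L79403 : W_29 (nat_lit 9) (nat_lit 0x8000e0016000300000001400080000000000000000000000000000000) (nat_lit 0x0) (nat_lit 0x1c000e0007000b8011c000000000000000000000000000000) := T_29 (nat_lit 175) (nat_lit 158) (nat_lit 4) (nat_lit 6) (nat_lit 13) L79402 (by decide +kernel)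
theorem L79404 : W_29 (nat_lit 10) (nat_lit 0xe0016000300000001400080000000000000000000000000000000) (nat_lit 0x0) (nat_lit 0x10000800000001c000e0007000b8011c000000000000000000000000000000) := T_29 (nat_lit 227) (nat_lit 244) (nat_lit 6) (nat_lit 6) (nat_lit 14) L79403 (by decide +kernel)
theorem L79405 : W_29 (nat_lit 11) (nat_lit 0xe0006000300000001400080000000000000000000000000000000) (nat_lit 0x0) (nat_lit 0x10000800000019c000e0007000b8011c000000000000000000000000000000) := T_29 (nat_lit 196) (nat_lit 195) (nat_lit 1) (nat_lit 9) (nat_lit 11) L79404 (by decide +kernel)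
theorem L79406 : W_29 (nat_lit 12) (nat_lit 0xe0006000300000001000080000000000000000000000000000000) (nat_lit 0x0) (nat_lit 0x10000800000019c000e000f000f8011c000000000000000000000000000000) := T_29 (nat_lit 142) (nat_lit 159) (nat_lit 7) (nat_lit 6) (nat_lit 8) L79405 (by decide +kernel)
theorem L79407 : W_29 (nat_lit 13) (nat_lit 0xe0006000200000001000080000000000000000000000000000000) (nat_lit 0x0) (nat_lit 0x18000c00000019c001e000f000f8011c000000000000000000000000000000) := Q_29 (nat_lit 176) (C_29 L79395 (C_29 L79132 (C_29 L79406 N_29))) (by decide +kernel)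
theorem L79408 : W_29 (nat_lit 14) (nat_lit 0xc0006000200000001000080000000000000000000000000000000) (nat_lit 0x0) (nat_lit 0x18000c00038019c001e000f000f8011c000000000000000000000000000000) := Q_29 (nat_lit 209) (C_29 L79198 (C_29 L79389 (C_29 L79407 N_29))) (by decide +kernel)
theorem L79409 : W_29 (nat_lit 2) (nat_lit 0x100000000d00078002c0000001000080000000000000000000000000000000) (nat_lit 0x0) (nat_lit 0x200000000000000004000200000000000000000000000000000000000) := D_29 (nat_lit 158) (nat_lit 141) (nat_lit 225) (nat_lit 7) (nat_lit 5) (nat_lit 8) (nat_lit 6) (nat_lit 4) (nat_lit 13) (by decide +kernel)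
theorem L79410 : W_29 (nat_lit 3) (nat_lit 0x100000000d0007800240000001000080000000000000000000000000000000) (nat_lit 0x0) (nat_lit 0x200000008000080004000200000000000000000000000000000000000) := T_29 (nat_lit 175) (nat_lit 195) (nat_lit 0) (nat_lit 8) (nat_lit 11) L79409 (by decide +kernel)
theorem L79411 : W_29 (nat_lit 4) (nat_lit 0x100000000d0007800200000001000080000000000000000000000000000000) (nat_lit 0x0) (nat_lit 0x2000000080000e0004000200000000000000000000000000000000000) := T_29 (nat_lit 174) (nat_lit 173) (nat_lit 0) (nat_lit 7) (nat_lit 11) L79410 (by decide +kernel)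
theorem L79412 : W_29 (nat_lit 5) (nat_lit 0x100000000c0007800200000001000080000000000000000000000000000000) (nat_lit 0x0) (nat_lit 0x2000180080000e0004000200000000000000000000000000000000000) := T_29 (nat_lit 208) (nat_lit 207) (nat_lit 1) (nat_lit 7) (nat_lit 11) L79411 (by decide +kernel)
theorem L79413 : W_29 (nat_lit 6) (nat_lit 0x100000000c0007000200000001000080000000000000000000000000000000) (nat_lit 0x0) (nat_lit 0x200018008c000e0004000200000000000000000000000000000000000) := T_29 (nat_lit 191) (nat_lit 190) (nat_lit 3) (nat_lit 3) (nat_lit 11) L79412 (by decide +kernel)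
theorem L79414 : W_29 (nat_lit 7) (nat_lit 0xc0007000200000001000080000000000000000000000000000000) (nat_lit 0x0) (nat_lit 0x10000a00018008c000e0004000200000000000000000000000000000000000) := T_29 (nat_lit 244) (nat_lit 227) (nat_lit 6) (nat_lit 6) (nat_lit 14) L79413 (by decide +kernel)
theorem L79415 : W_29 (nat_lit 2) (nat_lit 0x2c000f000200000001000080000000000000000000000000000000) (nat_lit 0x0) (nat_lit 0x400030000000000000000000000000000000000000000000000000) := D_29 (nat_lit 196) (nat_lit 214) (nat_lit 197) (nat_lit 3) (nat_lit 6) (nat_lit 11) (nat_lit 1) (nat_lit 10) (nat_lit 11) (by decide +kernel)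
theorem L79416 : W_29 (nat_lit 3) (nat_lit 0xc000f000200000001000080000000000000000000000000000000) (nat_lit 0x0) (nat_lit 0x700030000000000000000000000000000000000000000000000000) := T_29 (nat_lit 213) (nat_lit 212) (nat_lit 3) (nat_lit 5) (nat_lit 11) L79415 (by decide +kernel)
theorem L79417 : W_29 (nat_lit 2) (nat_lit 0x8000c002f000280000001000080000000000000000000000000000000) (nat_lit 0x0) (nat_lit 0x100004000200000000000000000000000000000000000) := D_29 (nat_lit 158) (nat_lit 141) (nat_lit 176) (nat_lit 7) (nat_lit 5) (nat_lit 8) (nat_lit 4) (nat_lit 6) (nat_lit 13) (by decide +kernel)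
theorem L79418 : W_29 (nat_lit 3) (nat_lit 0xc002f000280000001000080000000000000000000000000000000) (nat_lit 0x0) (nat_lit 0x10000800000000000100004000200000000000000000000000000000000000) := T_29 (nat_lit 227) (nat_lit 244) (nat_lit 6) (nat_lit 6) (nat_lit 14) L79417 (by decide +kernel)
theorem L79419 : W_29 (nat_lit 4) (nat_lit 0xc002f000200000001000080000000000000000000000000000000) (nat_lit 0x0) (nat_lit 0x100008000000000001c0004000200000000000000000000000000000000000) := T_29 (nat_lit 175) (nat_lit 174) (nat_lit 0) (nat_lit 8) (nat_lit 11) L79418 (by decide +kernel)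
theorem L79420 : W_29 (nat_lit 5) (nat_lit 0xc000f000200000001000080000000000000000000000000000000) (nat_lit 0x0) (nat_lit 0x100008000000300001c0004000200000000000000000000000000000000000) := T_29 (nat_lit 197) (nat_lit 196) (nat_lit 1) (nat_lit 10) (nat_lit 11) L79419 (by decide +kernel)
theorem L79421 : W_29 (nat_lit 2) (nat_lit 0x8002c000f000280000001000080000000000000000000000000000000) (nat_lit 0x0) (nat_lit 0x100004000200000000000000000000000000000000000) := D_29 (nat_lit 158) (nat_lit 141) (nat_lit 176) (nat_lit 7) (nat_lit 5) (nat_lit 8) (nat_lit 4) (nat_lit 6) (nat_lit 13) (by decide +kernel)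
theorem L79422 : W_29 (nat_lit 3) (nat_lit 0x2c000f000280000001000080000000000000000000000000000000) (nat_lit 0x0) (nat_lit 0x10000800000000000100004000200000000000000000000000000000000000) := T_29 (nat_lit 227) (nat_lit 244) (nat_lit 6) (nat_lit 6) (nat_lit 14) L79421 (by decide +kernel)
theorem L79423 : W_29 (nat_lit 4) (nat_lit 0xc000f000280000001000080000000000000000000000000000000) (nat_lit 0x0) (nat_lit 0x10000800300000000100004000200000000000000000000000000000000000) := T_29 (nat_lit 213) (nat_lit 212) (nat_lit 3) (nat_lit 5) (nat_lit 11) L79422 (by decide +kernel)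
theorem L79424 : W_29 (nat_lit 5) (nat_lit 0xc000f000200000001000080000000000000000000000000000000) (nat_lit 0x0) (nat_lit 0x100008003000000001c0004000200000000000000000000000000000000000) := T_29 (nat_lit 175) (nat_lit 174) (nat_lit 0) (nat_lit 8) (nat_lit 11) L79423 (by decide +kernel)
theorem L79425 : W_29 (nat_lit 6) (nat_lit 0xc0007000200000001000080000000000000000000000000000000) (nat_lit 0x0) (nat_lit 0x100008007000380001c0004000200000000000000000000000000000000000) := Q_29 (nat_lit 195) (C_29 L79416 (C_29 L79420 (C_29 L79424 N_29))) (by decide +kernel)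
theorem L79444 : W_29 (nat_lit 2) (nat_lit 0x40007000100008000c000200000001000080000000000000000000000000000000) (nat_lit 0x0) (nat_lit 0x40002000100000000000000000000000000000000000000000000) := D_29 (nat_lit 193) (nat_lit 210) (nat_lit 176) (nat_lit 4) (nat_lit 7) (nat_lit 15) (nat_lit 4) (nat_lit 7) (nat_lit 14) (by decide +kernel)
theorem L79445 : W_29 (nat_lit 3) (nat_lit 0x7000100008000c000200000001000080000000000000000000000000000000) (nat_lit 0x0) (nat_lit 0x400000000000140002000100000000000000000000000000000000000000000000) := T_29 (nat_lit 262) (nat_lit 212) (nat_lit 6) (nat_lit 7) (nat_lit 15) L79444 (by decide +kernel)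
theorem L79446 : W_29 (nat_lit 4) (nat_lit 0x6000100008000c000200000001000080000000000000000000000000000000) (nat_lit 0x0) (nat_lit 0x600010000000140002000100000000000000000000000000000000000000000000) := T_29 (nat_lit 244) (nat_lit 261) (nat_lit 5) (nat_lit 7) (nat_lit 11) L79445 (by decide +kernel)
theorem L79447 : W_29 (nat_lit 5) (nat_lit 0x60001000080004000200000001000080000000000000000000000000000000) (nat_lit 0x0) (nat_lit 0x60001000000014000a000500000000000000000000000000000000000000000000) := T_29 (nat_lit 195) (nat_lit 178) (nat_lit 6) (nat_lit 7) (nat_lit 14) L79446 (by decide +kernel)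
theorem L79448 : W_29 (nat_lit 6) (nat_lit 0x40001000080004000200000001000080000000000000000000000000000000) (nat_lit 0x0) (nat_lit 0xe0003000000014000a000500000000000000000000000000000000000000000000) := T_29 (nat_lit 245) (nat_lit 263) (nat_lit 7) (nat_lit 7) (nat_lit 11) L79447 (by decide +kernel)
theorem L79449 : W_29 (nat_lit 7) (nat_lit 0x1000080004000200000001000080000000000000000000000000000000) (nat_lit 0x0) (nat_lit 0xe0007000200014000a000500000000000000000000000000000000000000000000) := T_29 (nat_lit 246) (nat_lit 229) (nat_lit 7) (nat_lit 7) (nat_lit 10) L79448 (by decide +kernel)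
theorem L79450 : W_29 (nat_lit 8) (nat_lit 0x80004000200000001000080000000000000000000000000000000) (nat_lit 0x0) (nat_lit 0xe0007000380014000a000500010000000000000000000000000000000000000000) := Q_29 (nat_lit 228) (C_29 L6047 (C_29 L79449 (C_29 L6741 (C_29 L6672 (C_29 L10584 N_29))))) (by decide +kernel)
theorem L79451 : W_29 (nat_lit 2) (nat_lit 0x200010000c002c000200000001000080000000000000000000000000000000) (nat_lit 0x0) (nat_lit 0x400000000000100002000000000000000000000000000000000000000000000000) := D_29 (nat_lit 262) (nat_lit 193) (nat_lit 212) (nat_lit 4) (nat_lit 7) (nat_lit 15) (nat_lit 6) (nat_lit 7) (nat_lit 15) (by decide +kernel)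
theorem L79452 : W_29 (nat_lit 3) (nat_lit 0x10000c002c000200000001000080000000000000000000000000000000) (nat_lit 0x0) (nat_lit 0x400020000000100002000400000000000000000000000000000000000000000000) := T_29 (nat_lit 245) (nat_lit 178) (nat_lit 6) (nat_lit 7) (nat_lit 14) L79451 (by decide +kernel)
theorem L79453 : W_29 (nat_lit 4) (nat_lit 0x10000c000c000200000001000080000000000000000000000000000000) (nat_lit 0x0) (nat_lit 0x400020000000100032000400000000000000000000000000000000000000000000) := T_29 (nat_lit 197) (nat_lit 196) (nat_lit 1) (nat_lit 10) (nat_lit 11) L79452 (by decide +kernel)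
theorem L79454 : W_29 (nat_lit 2) (nat_lit 0x10000c001c000200000001000080000000000000000000000000000000) (nat_lit 0x0) (nat_lit 0x30002000000000000000000000000000000000000000000000000) := D_29 (nat_lit 209) (nat_lit 208) (nat_lit 193) (nat_lit 2) (nat_lit 4) (nat_lit 12) (nat_lit 1) (nat_lit 9) (nat_lit 11) (by decide +kernel)
theorem L79455 : W_29 (nat_lit 3) (nat_lit 0x10000c000c000200000001000080000000000000000000000000000000) (nat_lit 0x0) (nat_lit 0x30032000000000000000000000000000000000000000000000000) := T_29 (nat_lit 196) (nat_lit 197) (nat_lit 1) (nat_lit 10) (nat_lit 11) L79454 (by decide +kernel)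
theorem L79456 : W_29 (nat_lit 2) (nat_lit 0x2000200010000d000c000200000001000080000000000000000000000000000000) (nat_lit 0x0) (nat_lit 0x4000400000000000100000000000000000000000000000000000000000000000000000) := D_29 (nat_lit 262) (nat_lit 212) (nat_lit 278) (nat_lit 6) (nat_lit 7) (nat_lit 15) (nat_lit 5) (nat_lit 7) (nat_lit 12) (by decide +kernel)
theorem L79457 : W_29 (nat_lit 3) (nat_lit 0x200010000d000c000200000001000080000000000000000000000000000000) (nat_lit 0x0) (nat_lit 0x4000600010000000100000000000000000000000000000000000000000000000000000) := T_29 (nat_lit 261) (nat_lit 244) (nat_lit 5) (nat_lit 7) (nat_lit 11) L79456 (by decide +kernel)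
theorem L79458 : W_29 (nat_lit 4) (nat_lit 0x10000d000c000200000001000080000000000000000000000000000000) (nat_lit 0x0) (nat_lit 0x4000600030000000100000000400000000000000000000000000000000000000000000) := T_29 (nat_lit 245) (nat_lit 178) (nat_lit 6) (nat_lit 7) (nat_lit 14) L79457 (by decide +kernel)
theorem L79459 : W_29 (nat_lit 5) (nat_lit 0x10000c000c000200000001000080000000000000000000000000000000) (nat_lit 0x0) (nat_lit 0x4000600030000000130000000400000000000000000000000000000000000000000000) := T_29 (nat_lit 208) (nat_lit 209) (nat_lit 2) (nat_lit 4) (nat_lit 12) L79458 (by decide +kernel)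
theorem L79460 : W_29 (nat_lit 6) (nat_lit 0x10000c0004000200000001000080000000000000000000000000000000) (nat_lit 0x0) (nat_lit 0x400060003000000013003a000400000000000000000000000000000000000000000000) := Q_29 (nat_lit 195) (C_29 L79453 (C_29 L6702 (C_29 L79455 (C_29 L79459 N_29)))) (by decide +kernel)
theorem L79461 : W_29 (nat_lit 7) (nat_lit 0x10000c0004000200000001000080000000000000000000000000000000) (nat_lit 0x0) (nat_lit 0x400020002b8013801a000400018000400000000000000000000000000000000000) := Q_29 (nat_lit 209) (C_29 L6704 (C_29 L6706 (C_29 L6711 (C_29 L6716 N_29)))) (by decide +kernel)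
theorem L79462 : W_29 (nat_lit 8) (nat_lit 0x1000080004000200000001000080000000000000000000000000000000) (nat_lit 0x0) (nat_lit 0x4000600030002b8017803a000400018000400000000000000000000000000000000000) := Q_29 (nat_lit 210) (C_29 L6692 (C_29 L6696 (C_29 L79460 (C_29 L79461 N_29)))) (by decide +kernel)
theorem L79463 : W_29 (nat_lit 11) (nat_lit 0x80004000200000001000080000000000000000000000000000000) (nat_lit 0x0) (nat_lit 0x1c000f801f0003b8017803a000400018000400000000000000000000000000000000000) := Q_29 (nat_lit 228) (C_29 L6047 (C_29 L6677 (C_29 L79462 (C_29 L6682 (C_29 L6672 (C_29 L6691 N_29)))))) (by decide +kernel)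
theorem L79464 : W_29 (nat_lit 2) (nat_lit 0x1800080004000200008001000080000000000000000000000000000000) (nat_lit 0x0) (nat_lit 0x40000000000010000400000000000000000000000000000000000) := D_29 (nat_lit 160) (nat_lit 210) (nat_lit 142) (nat_lit 5) (nat_lit 7) (nat_lit 9) (nat_lit 4) (nat_lit 7) (nat_lit 12) (by decide +kernel)
theorem L79465 : W_29 (nat_lit 3) (nat_lit 0x1000080004000200008001000080000000000000000000000000000000) (nat_lit 0x0) (nat_lit 0x10000800040000000000010000400000000000000000000000000000000000) := T_29 (nat_lit 227) (nat_lit 244) (nat_lit 5) (nat_lit 7) (nat_lit 10) L79464 (by decide +kernel)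
theorem L79466 : W_29 (nat_lit 4) (nat_lit 0x1000080004000200000001000080000000000000000000000000000000) (nat_lit 0x0) (nat_lit 0x10000800040000000100018000400000000000000000000000000000000000) := T_29 (nat_lit 159) (nat_lit 176) (nat_lit 4) (nat_lit 7) (nat_lit 13) L79465 (by decide +kernel)
theorem L79467 : W_29 (nat_lit 2) (nat_lit 0x3000080004000200010001000080000000000000000000000000000000) (nat_lit 0x0) (nat_lit 0x100008000400000000000000000000000000000000000) := D_29 (nat_lit 159) (nat_lit 176) (nat_lit 142) (nat_lit 4) (nat_lit 7) (nat_lit 13) (nat_lit 4) (nat_lit 7) (nat_lit 12) (by decide +kernel)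
theorem L79468 : W_29 (nat_lit 3) (nat_lit 0x3000080004000200000001000080000000000000000000000000000000) (nat_lit 0x0) (nat_lit 0x100000000100018000400000000000000000000000000000000000) := T_29 (nat_lit 160) (nat_lit 212) (nat_lit 7) (nat_lit 7) (nat_lit 9) L79467 (by decide +kernel)
theorem L79469 : W_29 (nat_lit 4) (nat_lit 0x1000080004000200000001000080000000000000000000000000000000) (nat_lit 0x0) (nat_lit 0x40002000100000000100018000400000000000000000000000000000000000) := T_29 (nat_lit 229) (nat_lit 246) (nat_lit 7) (nat_lit 7) (nat_lit 10) L79468 (by decide +kernel)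
theorem L79470 : W_29 (nat_lit 7) (nat_lit 0x80004000200000001000080000000000000000000000000000000) (nat_lit 0x0) (nat_lit 0x14000e00070003800140008000500018000400000000000000000000000000000000000) := Q_29 (nat_lit 228) (C_29 L6682 (C_29 L6047 (C_29 L6677 (C_29 L79466 (C_29 L79469 N_29))))) (by decide +kernel)
theorem L79471 : W_29 (nat_lit 6) (nat_lit 0x380004000200010001000080000000000000000000000000000000) (nat_lit 0x0) (nat_lit 0x1c800440032000000008000400000000000000000000000000000000000) := T_29 (nat_lit 210) (nat_lit 227) (nat_lit 5) (nat_lit 7) (nat_lit 9) L79285 (by decide +kernel)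
theorem L79472 : W_29 (nat_lit 2) (nat_lit 0x7c0004000200010001000080000000000000000000000000000000) (nat_lit 0x0) (nat_lit 0x1c000000000000000000000000000000000000000000000000000000000) := D_29 (nat_lit 231) (nat_lit 230) (nat_lit 232) (nat_lit 3) (nat_lit 6) (nat_lit 12) (nat_lit 3) (nat_lit 7) (nat_lit 12) (by decide +kernel)
theorem L79473 : W_29 (nat_lit 3) (nat_lit 0x780004000200010001000080000000000000000000000000000000) (nat_lit 0x0) (nat_lit 0x1c800040000000000000000000000000000000000000000000000000000) := T_29 (nat_lit 210) (nat_lit 227) (nat_lit 5) (nat_lit 7) (nat_lit 9) L79472 (by decide +kernel)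
theorem L79474 : W_29 (nat_lit 4) (nat_lit 0x380004000200010001000080000000000000000000000000000000) (nat_lit 0x0) (nat_lit 0x1c800440002000000000000000000000000000000000000000000000000) := T_29 (nat_lit 214) (nat_lit 193) (nat_lit 0) (nat_lit 10) (nat_lit 12) L79473 (by decide +kernel)
theorem L79475 : W_29 (nat_lit 5) (nat_lit 0x44003e0015000200010001000080000000000000000000000000000000) (nat_lit 0x0) (nat_lit 0x5c000e000500000000000000000000000000000000000) := T_29 (nat_lit 159) (nat_lit 142) (nat_lit 4) (nat_lit 7) (nat_lit 12) L79290 (by decide +kernel)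
theorem L79476 : W_29 (nat_lit 6) (nat_lit 0x44003e0014000200010001000080000000000000000000000000000000) (nat_lit 0x0) (nat_lit 0x18005c000e000500000000000000000000000000000000000) := T_29 (nat_lit 192) (nat_lit 191) (nat_lit 0) (nat_lit 8) (nat_lit 12) L79475 (by decide +kernel)
theorem L79477 : W_29 (nat_lit 7) (nat_lit 0x40003e0014000200010001000080000000000000000000000000000000) (nat_lit 0x0) (nat_lit 0x6000000018005c000e000500000000000000000000000000000000000) := T_29 (nat_lit 226) (nat_lit 225) (nat_lit 1) (nat_lit 8) (nat_lit 12) L79476 (by decide +kernel)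
theorem L79478 : W_29 (nat_lit 8) (nat_lit 0x40003c0014000200010001000080000000000000000000000000000000) (nat_lit 0x0) (nat_lit 0x6000200098005c000e000500000000000000000000000000000000000) := T_29 (nat_lit 209) (nat_lit 195) (nat_lit 2) (nat_lit 5) (nat_lit 12) L79477 (by decide +kernel)
theorem L79479 : W_29 (nat_lit 9) (nat_lit 0x40003c0004000200010001000080000000000000000000000000000000) (nat_lit 0x0) (nat_lit 0x6000200398005c000e000500000000000000000000000000000000000) := T_29 (nat_lit 196) (nat_lit 197) (nat_lit 2) (nat_lit 6) (nat_lit 12) L79478 (by decide +kernel)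
theorem L79480 : W_29 (nat_lit 10) (nat_lit 0x3c0004000200010001000080000000000000000000000000000000) (nat_lit 0x0) (nat_lit 0xc6000200398005c000e000500000000000000000000000000000000000) := T_29 (nat_lit 230) (nat_lit 231) (nat_lit 3) (nat_lit 6) (nat_lit 12) L79479 (by decide +kernel)
theorem L79481 : W_29 (nat_lit 11) (nat_lit 0x380004000200010001000080000000000000000000000000000000) (nat_lit 0x0) (nat_lit 0xce000600398005c000e000500000000000000000000000000000000000) := T_29 (nat_lit 210) (nat_lit 227) (nat_lit 5) (nat_lit 7) (nat_lit 9) L79480 (by decide +kernel)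
theorem L79482 : W_29 (nat_lit 2) (nat_lit 0xf80004000200018001000080000000000000000000000000000000) (nat_lit 0x0) (nat_lit 0x38000000000000000000000000000000000000000000000000000000000) := D_29 (nat_lit 232) (nat_lit 231) (nat_lit 233) (nat_lit 3) (nat_lit 7) (nat_lit 12) (nat_lit 3) (nat_lit 8) (nat_lit 12) (by decide +kernel)
theorem L79483 : W_29 (nat_lit 3) (nat_lit 0x780004000200018001000080000000000000000000000000000000) (nat_lit 0x0) (nat_lit 0x38000800008000000000000000000000000000000000000000000000000) := T_29 (nat_lit 215) (nat_lit 195) (nat_lit 0) (nat_lit 11) (nat_lit 12) L79482 (by decide +kernel)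
theorem L79484 : W_29 (nat_lit 4) (nat_lit 0x380004000200018001000080000000000000000000000000000000) (nat_lit 0x0) (nat_lit 0x38000c0000a000000000000000000000000000000000000000000000000) := T_29 (nat_lit 214) (nat_lit 193) (nat_lit 0) (nat_lit 10) (nat_lit 12) L79483 (by decide +kernel)
theorem L79485 : W_29 (nat_lit 5) (nat_lit 0x380004000200010001000080000000000000000000000000000000) (nat_lit 0x0) (nat_lit 0x38000c0000a000000008000400000000000000000000000000000000000) := T_29 (nat_lit 159) (nat_lit 142) (nat_lit 4) (nat_lit 7) (nat_lit 12) L79484 (by decide +kernel)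
theorem L79486 : W_29 (nat_lit 2) (nat_lit 0x7c0004000200010001000080000000000000000000000000000000) (nat_lit 0x0) (nat_lit 0x70000000000000000000000000000000000000000000000000) := D_29 (nat_lit 197) (nat_lit 196) (nat_lit 198) (nat_lit 2) (nat_lit 6) (nat_lit 12) (nat_lit 2) (nat_lit 7) (nat_lit 12) (by decide +kernel)
theorem L79487 : W_29 (nat_lit 3) (nat_lit 0x780004000200010001000080000000000000000000000000000000) (nat_lit 0x0) (nat_lit 0x800040070000000000000000000000000000000000000000000000000) := T_29 (nat_lit 210) (nat_lit 227) (nat_lit 5) (nat_lit 7) (nat_lit 9) L79486 (by decide +kernel)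
theorem L79488 : W_29 (nat_lit 4) (nat_lit 0x380004000200010001000080000000000000000000000000000000) (nat_lit 0x0) (nat_lit 0x800440072000000000000000000000000000000000000000000000000) := T_29 (nat_lit 214) (nat_lit 193) (nat_lit 0) (nat_lit 10) (nat_lit 12) L79487 (by decide +kernel)
theorem L79489 : W_29 (nat_lit 12) (nat_lit 0x180004000200010001000080000000000000000000000000000000) (nat_lit 0x0) (nat_lit 0x3ce00e6007b8005c000e000500000000000000000000000000000000000) := Q_29 (nat_lit 213) (C_29 L79471 (C_29 L79474 (C_29 L79481 (C_29 L79485 (C_29 L79488 N_29))))) (by decide +kernel)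
theorem L79490 : W_29 (nat_lit 13) (nat_lit 0x80004000200010001000080000000000000000000000000000000) (nat_lit 0x0) (nat_lit 0x3ee00f6007b8005c000e000500000000000000000000000000000000000) := T_29 (nat_lit 212) (nat_lit 229) (nat_lit 7) (nat_lit 7) (nat_lit 9) L79489 (by decide +kernel)
theorem L79491 : W_29 (nat_lit 8) (nat_lit 0x1c0004000200000001000080000000000000000000000000000000) (nat_lit 0x0) (nat_lit 0x80004001ef00630079c00000000000000000000000000000000000000000000000) := Q_29 (nat_lit 209) (C_29 L78995 (C_29 L79002 (C_29 L79000 (C_29 L17815 N_29)))) (by decide +kernel)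
theorem L79492 : W_29 (nat_lit 4) (nat_lit 0x1c0004000200000001000080000000000000000000000000000000) (nat_lit 0x0) (nat_lit 0xf00220000000000010000000000000000000000000000000000000000) := T_29 (nat_lit 227) (nat_lit 160) (nat_lit 5) (nat_lit 7) (nat_lit 9) L78961 (by decide +kernel)
theorem L79493 : W_29 (nat_lit 9) (nat_lit 0xc0004000200000001000080000000000000000000000000000000) (nat_lit 0x0) (nat_lit 0x80004001ef00730079c00000010000000000000000000000000000000000000000) := Q_29 (nat_lit 212) (C_29 L6745 (C_29 L79491 (C_29 L79279 (C_29 L79492 N_29)))) (by decide +kernel)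
theorem L79494 : W_29 (nat_lit 2) (nat_lit 0x20001e0004000200000001000080000000000000000000000000000000) (nat_lit 0x0) (nat_lit 0x10018000000000000000000000000000000000000000000000000) := D_29 (nat_lit 195) (nat_lit 196) (nat_lit 208) (nat_lit 2) (nat_lit 5) (nat_lit 12) (nat_lit 2) (nat_lit 4) (nat_lit 12) (by decide +kernel)
theorem L79495 : W_29 (nat_lit 3) (nat_lit 0x20001c0004000200000001000080000000000000000000000000000000) (nat_lit 0x0) (nat_lit 0x4000030018000000000000000000000000000000000000000000000000) := T_29 (nat_lit 209) (nat_lit 230) (nat_lit 3) (nat_lit 5) (nat_lit 12) L79494 (by decide +kernel)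
theorem L79496 : W_29 (nat_lit 4) (nat_lit 0x1c0004000200000001000080000000000000000000000000000000) (nat_lit 0x0) (nat_lit 0x6000030018000000010000000000000000000000000000000000000000) := T_29 (nat_lit 229) (nat_lit 160) (nat_lit 7) (nat_lit 7) (nat_lit 9) L79495 (by decide +kernel)
theorem L79497 : W_29 (nat_lit 2) (nat_lit 0x3f0016000200000001000080000000000000000000000000000000) (nat_lit 0x0) (nat_lit 0x700000000000000000000000000000000000000000000000000000000) := D_29 (nat_lit 225) (nat_lit 226) (nat_lit 224) (nat_lit 1) (nat_lit 8) (nat_lit 12) (nat_lit 1) (nat_lit 7) (nat_lit 12) (by decide +kernel)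
theorem L79498 : W_29 (nat_lit 3) (nat_lit 0x3e0016000200000001000080000000000000000000000000000000) (nat_lit 0x0) (nat_lit 0x700018000000000000000000000000000000000000000000000000000) := T_29 (nat_lit 208) (nat_lit 207) (nat_lit 2) (nat_lit 3) (nat_lit 12) L79497 (by decide +kernel)
theorem L79499 : W_29 (nat_lit 4) (nat_lit 0x3c0016000200000001000080000000000000000000000000000000) (nat_lit 0x0) (nat_lit 0x700038008000000000000000000000000000000000000000000000000) := T_29 (nat_lit 209) (nat_lit 195) (nat_lit 2) (nat_lit 5) (nat_lit 12) L79498 (by decide +kernel)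
theorem L79500 : W_29 (nat_lit 5) (nat_lit 0x3c0006000200000001000080000000000000000000000000000000) (nat_lit 0x0) (nat_lit 0x700038038000000000000000000000000000000000000000000000000) := T_29 (nat_lit 196) (nat_lit 197) (nat_lit 2) (nat_lit 6) (nat_lit 12) L79499 (by decide +kernel)
theorem L79501 : W_29 (nat_lit 6) (nat_lit 0x1c0006000200000001000080000000000000000000000000000000) (nat_lit 0x0) (nat_lit 0x700638038000000000000000000000000000000000000000000000000) := T_29 (nat_lit 213) (nat_lit 214) (nat_lit 0) (nat_lit 10) (nat_lit 12) L79500 (by decide +kernel)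
theorem L79502 : W_29 (nat_lit 7) (nat_lit 0x1c0004000200000001000080000000000000000000000000000000) (nat_lit 0x0) (nat_lit 0x10000800070063803bc00100000000000000000000000000000000000000000000) := Q_29 (nat_lit 193) (C_29 L79501 (C_29 L78918 (C_29 L78857 N_29))) (by decide +kernel)
theorem L79503 : W_29 (nat_lit 8) (nat_lit 0xc0004000200000001000080000000000000000000000000000000) (nat_lit 0x0) (nat_lit 0x90004800e70073803bc00900010000000000000000000000000000000000000000) := Q_29 (nat_lit 212) (C_29 L6749 (C_29 L79281 (C_29 L79496 (C_29 L79502 N_29)))) (by decide +kernel)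
theorem L79506 : W_29 (nat_lit 5) (nat_lit 0x80004000200000001000080000000000000000000000000000000) (nat_lit 0x0) (nat_lit 0xa00070003800040002000100018000400000000000000000000000000000000000) := Q_29 (nat_lit 228) (C_29 L6067 (C_29 L79466 (C_29 L6047 (C_29 L6064 N_29)))) (by decide +kernel)
theorem L79507 : W_29 (nat_lit 7) (nat_lit 0x80004000200000001000080000000000000000000000000000000) (nat_lit 0x0) (nat_lit 0x4000e0007000300010000a000500018000400000000000000000000000000000000000) := Q_29 (nat_lit 228) (C_29 L79469 (C_29 L6677 (C_29 L6064 (C_29 L6798 N_29)))) (by decide +kernel)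
theorem L79508 : W_29 (nat_lit 10) (nat_lit 0x80004000200000001000080000000000000000000000000000000) (nat_lit 0x0) (nat_lit 0x4000600030003b8017803a0005c0018000400000000000000000000000000000000000) := Q_29 (nat_lit 228) (C_29 L6798 (C_29 L79466 (C_29 L6741 (C_29 L79462 (C_29 L6814 N_29))))) (by decide +kernel)
theorem L79509 : W_29 (nat_lit 8) (nat_lit 0x80004000200000001000080000000000000000000000000000000) (nat_lit 0x0) (nat_lit 0x14000e0007000180014000a0005c0018000400000000000000000000000000000000000) := Q_29 (nat_lit 228) (C_29 L6798 (C_29 L79466 (C_29 L6682 (C_29 L6805 N_29)))) (by decide +kernel)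
theorem L79510 : W_29 (nat_lit 11) (nat_lit 0x80004000200000001000080000000000000000000000000000000) (nat_lit 0x0) (nat_lit 0x1c000f801e000380016003a0005c0018000400000000000000000000000000000000000) := Q_29 (nat_lit 228) (C_29 L6805 (C_29 L79469 (C_29 L6691 (C_29 L6064 (C_29 L6814 N_29))))) (by decide +kernel)
theorem L79511 : W_29 (nat_lit 8) (nat_lit 0x80004000200000001000080000000000000000000000000000000) (nat_lit 0x0) (nat_lit 0x10000c0007000380014000a0005c0018000400000000000000000000000000000000000) := Q_29 (nat_lit 228) (C_29 L6805 (C_29 L79469 (C_29 L10584 (C_29 L6672 (C_29 L79466 N_29))))) (by decide +kernel)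
theorem L79513 : W_29 (nat_lit 14) (nat_lit 0x80004000200000001000080000000000000000000000000000000) (nat_lit 0x0) (nat_lit 0x3ee00f6007b8005c001e000d00000000000000000000000000000000000) := T_29 (nat_lit 160) (nat_lit 143) (nat_lit 6) (nat_lit 7) (nat_lit 11) L79490 (by decide +kernel)
theorem L79516 : W_29 (nat_lit 3) (nat_lit 0x7800200000001000080000000000000000000000000000000) (nat_lit 0x0) (nat_lit 0x1c0000400100000000000000000000000000000000000000000000) := T_29 (nat_lit 211) (nat_lit 212) (nat_lit 3) (nat_lit 4) (nat_lit 11) L17477 (by decide +kernel)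
theorem L79524 : W_29 (nat_lit 4) (nat_lit 0x7000200000001000080000000000000000000000000000000) (nat_lit 0x0) (nat_lit 0x1c0000c00500000000000000000000000000000000000000000000) := T_29 (nat_lit 191) (nat_lit 178) (nat_lit 2) (nat_lit 4) (nat_lit 11) L79516 (by decide +kernel)
theorem L79528 : W_29 (nat_lit 2) (nat_lit 0x800040006000200000001000080000000000000000000000000000000) (nat_lit 0x0) (nat_lit 0x80000000100010000000000000000000000000000000000000000) := D_29 (nat_lit 160) (nat_lit 176) (nat_lit 211) (nat_lit 6) (nat_lit 6) (nat_lit 13) (nat_lit 5) (nat_lit 7) (nat_lit 9) (by decide +kernel)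
theorem L79529 : W_29 (nat_lit 3) (nat_lit 0x40006000200000001000080000000000000000000000000000000) (nat_lit 0x0) (nat_lit 0x10000800080000000100010000000000000000000000000000000000000000) := T_29 (nat_lit 227) (nat_lit 244) (nat_lit 6) (nat_lit 6) (nat_lit 14) L79528 (by decide +kernel)
theorem L79530 : W_29 (nat_lit 2) (nat_lit 0x1000000004001e000200000001000080000000000000000000000000000000) (nat_lit 0x0) (nat_lit 0x80020000100000000000000000000000000000000000000000000) := D_29 (nat_lit 197) (nat_lit 176) (nat_lit 211) (nat_lit 0) (nat_lit 10) (nat_lit 11) (nat_lit 1) (nat_lit 10) (nat_lit 11) (by decide +kernel)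
theorem L79531 : W_29 (nat_lit 3) (nat_lit 0x1000000004000e000200000001000080000000000000000000000000000000) (nat_lit 0x0) (nat_lit 0xa0030000100000000000000000000000000000000000000000000) := T_29 (nat_lit 196) (nat_lit 209) (nat_lit 1) (nat_lit 9) (nat_lit 11) L79530 (by decide +kernel)
theorem L79532 : W_29 (nat_lit 4) (nat_lit 0x4000e000200000001000080000000000000000000000000000000) (nat_lit 0x0) (nat_lit 0x100008000a0030000100000000000000000000000000000000000000000000) := T_29 (nat_lit 244) (nat_lit 227) (nat_lit 6) (nat_lit 6) (nat_lit 14) L79531 (by decide +kernel)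
theorem L79533 : W_29 (nat_lit 2) (nat_lit 0x1000000006000f800240000001000080000000000000000000000000000000) (nat_lit 0x0) (nat_lit 0x600100000000000000000000000000000000000000000000) := D_29 (nat_lit 190) (nat_lit 176) (nat_lit 189) (nat_lit 2) (nat_lit 3) (nat_lit 11) (nat_lit 3) (nat_lit 2) (nat_lit 11) (by decide +kernel)
theorem L79534 : W_29 (nat_lit 3) (nat_lit 0x1000000006000f000240000001000080000000000000000000000000000000) (nat_lit 0x0) (nat_lit 0xe00120000000000000000000000000000000000000000000) := T_29 (nat_lit 191) (nat_lit 173) (nat_lit 0) (nat_lit 7) (nat_lit 11) L79533 (by decide +kernel)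
theorem L79535 : W_29 (nat_lit 4) (nat_lit 0x1000000006000f000200000001000080000000000000000000000000000000) (nat_lit 0x0) (nat_lit 0xe001e0000000000000000000000000000000000000000000) := T_29 (nat_lit 174) (nat_lit 175) (nat_lit 0) (nat_lit 8) (nat_lit 11) L79534 (by decide +kernel)
theorem L79536 : W_29 (nat_lit 5) (nat_lit 0x1000000004000f000200000001000080000000000000000000000000000000) (nat_lit 0x0) (nat_lit 0x30000e001e0000000000000000000000000000000000000000000) := T_29 (nat_lit 209) (nat_lit 208) (nat_lit 1) (nat_lit 8) (nat_lit 11) L79535 (by decide +kernel)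
theorem L79537 : W_29 (nat_lit 6) (nat_lit 0x4000f000200000001000080000000000000000000000000000000) (nat_lit 0x0) (nat_lit 0x10000800030000e001e0000000000000000000000000000000000000000000) := T_29 (nat_lit 244) (nat_lit 227) (nat_lit 6) (nat_lit 6) (nat_lit 14) L79536 (by decide +kernel)
theorem L79538 : W_29 (nat_lit 2) (nat_lit 0x14000f800280000001000080000000000000000000000000000000) (nat_lit 0x0) (nat_lit 0x38000000000000000000000000000000000000000000000000000) := D_29 (nat_lit 208) (nat_lit 207) (nat_lit 209) (nat_lit 1) (nat_lit 7) (nat_lit 11) (nat_lit 1) (nat_lit 8) (nat_lit 11) (by decide +kernel)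
theorem L79539 : W_29 (nat_lit 3) (nat_lit 0x14000f000280000001000080000000000000000000000000000000) (nat_lit 0x0) (nat_lit 0xb8000800000000000000000000000000000000000000000000000) := T_29 (nat_lit 191) (nat_lit 211) (nat_lit 3) (nat_lit 4) (nat_lit 11) L79538 (by decide +kernel)
theorem L79540 : W_29 (nat_lit 4) (nat_lit 0x4000f000280000001000080000000000000000000000000000000) (nat_lit 0x0) (nat_lit 0x3b8000800000000000000000000000000000000000000000000000) := T_29 (nat_lit 212) (nat_lit 213) (nat_lit 3) (nat_lit 5) (nat_lit 11) L79539 (by decide +kernel)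
theorem L79541 : W_29 (nat_lit 5) (nat_lit 0x4000f000200000001000080000000000000000000000000000000) (nat_lit 0x0) (nat_lit 0x3b80008000c0000000000000000000000000000000000000000000) := T_29 (nat_lit 175) (nat_lit 174) (nat_lit 0) (nat_lit 8) (nat_lit 11) L79540 (by decide +kernel)
theorem L79542 : W_29 (nat_lit 2) (nat_lit 0x14000f800200000001000080000000000000000000000000000000) (nat_lit 0x0) (nat_lit 0xe0000000000000000000000000000000000000000000) := D_29 (nat_lit 174) (nat_lit 175) (nat_lit 173) (nat_lit 0) (nat_lit 8) (nat_lit 11) (nat_lit 0) (nat_lit 7) (nat_lit 11) (by decide +kernel)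
theorem L79543 : W_29 (nat_lit 3) (nat_lit 0x14000f000200000001000080000000000000000000000000000000) (nat_lit 0x0) (nat_lit 0x800008000e0000000000000000000000000000000000000000000) := T_29 (nat_lit 191) (nat_lit 211) (nat_lit 3) (nat_lit 4) (nat_lit 11) L79542 (by decide +kernel)
theorem L79544 : W_29 (nat_lit 4) (nat_lit 0x4000f000200000001000080000000000000000000000000000000) (nat_lit 0x0) (nat_lit 0x3800008000e0000000000000000000000000000000000000000000) := T_29 (nat_lit 212) (nat_lit 213) (nat_lit 3) (nat_lit 5) (nat_lit 11) L79543 (by decide +kernel)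
theorem L79545 : W_29 (nat_lit 2) (nat_lit 0x4000080016000f000200000001000080000000000000000000000000000000) (nat_lit 0x0) (nat_lit 0xc0004000000000000000000000000000000000000000) := D_29 (nat_lit 175) (nat_lit 174) (nat_lit 158) (nat_lit 0) (nat_lit 8) (nat_lit 11) (nat_lit 7) (nat_lit 5) (nat_lit 9) (by decide +kernel)
theorem L79546 : W_29 (nat_lit 3) (nat_lit 0x4000000016000f000200000001000080000000000000000000000000000000) (nat_lit 0x0) (nat_lit 0x100008000000000000c0004000000000000000000000000000000000000000) := T_29 (nat_lit 227) (nat_lit 244) (nat_lit 6) (nat_lit 6) (nat_lit 14) L79545 (by decide +kernel)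
theorem L79547 : W_29 (nat_lit 4) (nat_lit 0x4000000014000f000200000001000080000000000000000000000000000000) (nat_lit 0x0) (nat_lit 0x100008000300000000c0004000000000000000000000000000000000000000) := T_29 (nat_lit 209) (nat_lit 208) (nat_lit 1) (nat_lit 8) (nat_lit 11) L79546 (by decide +kernel)
theorem L79548 : W_29 (nat_lit 5) (nat_lit 0x14000f000200000001000080000000000000000000000000000000) (nat_lit 0x0) (nat_lit 0x500028000300000000c0004000000000000000000000000000000000000000) := T_29 (nat_lit 246) (nat_lit 229) (nat_lit 4) (nat_lit 8) (nat_lit 14) L79547 (by decide +kernel)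
theorem L79549 : W_29 (nat_lit 6) (nat_lit 0x4000f000200000001000080000000000000000000000000000000) (nat_lit 0x0) (nat_lit 0x500028003300000000c0004000000000000000000000000000000000000000) := T_29 (nat_lit 212) (nat_lit 213) (nat_lit 3) (nat_lit 5) (nat_lit 11) L79548 (by decide +kernel)
theorem L79550 : W_29 (nat_lit 7) (nat_lit 0x4000e000200000001000080000000000000000000000000000000) (nat_lit 0x0) (nat_lit 0x500028003b8001e001e0004000000000000000000000000000000000000000) := Q_29 (nat_lit 192) (C_29 L79537 (C_29 L79541 (C_29 L10243 (C_29 L79544 (C_29 L79549 N_29))))) (by decide +kernel)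
theorem L79551 : W_29 (nat_lit 2) (nat_lit 0x1000000004001e000200000001000080000000000000000000000000000000) (nat_lit 0x0) (nat_lit 0x20000180000000000000000000000000000000000000000000) := D_29 (nat_lit 176) (nat_lit 197) (nat_lit 175) (nat_lit 0) (nat_lit 10) (nat_lit 11) (nat_lit 0) (nat_lit 9) (nat_lit 11) (by decide +kernel)
theorem L79552 : W_29 (nat_lit 3) (nat_lit 0x1000000004000e000200000001000080000000000000000000000000000000) (nat_lit 0x0) (nat_lit 0x20030000180000000000000000000000000000000000000000000) := T_29 (nat_lit 196) (nat_lit 209) (nat_lit 1) (nat_lit 9) (nat_lit 11) L79551 (by decide +kernel)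
theorem L79553 : W_29 (nat_lit 4) (nat_lit 0x4000e000200000001000080000000000000000000000000000000) (nat_lit 0x0) (nat_lit 0x10000800020030000180000000000000000000000000000000000000000000) := T_29 (nat_lit 244) (nat_lit 227) (nat_lit 6) (nat_lit 6) (nat_lit 14) L79552 (by decide +kernel)
theorem L79554 : W_29 (nat_lit 2) (nat_lit 0x4001e000200000001000080000000000000000000000000000000) (nat_lit 0x0) (nat_lit 0x80020000100000000000000000000000000000000000000000000) := D_29 (nat_lit 197) (nat_lit 176) (nat_lit 211) (nat_lit 0) (nat_lit 10) (nat_lit 11) (nat_lit 1) (nat_lit 10) (nat_lit 11) (by decide +kernel)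
theorem L79555 : W_29 (nat_lit 3) (nat_lit 0x4000e000200000001000080000000000000000000000000000000) (nat_lit 0x0) (nat_lit 0xa0030000100000000000000000000000000000000000000000000) := T_29 (nat_lit 196) (nat_lit 209) (nat_lit 1) (nat_lit 9) (nat_lit 11) L79554 (by decide +kernel)
theorem L79556 : W_29 (nat_lit 2) (nat_lit 0x1000000034001e000b00000001000080000000000000000000000000000000) (nat_lit 0x0) (nat_lit 0x40002000000000000000040000000000000000000000000000000000000000) := D_29 (nat_lit 229) (nat_lit 246) (nat_lit 162) (nat_lit 6) (nat_lit 8) (nat_lit 14) (nat_lit 5) (nat_lit 9) (nat_lit 9) (by decide +kernel)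
theorem L79557 : W_29 (nat_lit 3) (nat_lit 0x1000000024001e000b00000001000080000000000000000000000000000000) (nat_lit 0x0) (nat_lit 0x40002000100001000000040000000000000000000000000000000000000000) := T_29 (nat_lit 212) (nat_lit 192) (nat_lit 3) (nat_lit 5) (nat_lit 11) L79556 (by decide +kernel)
theorem L79558 : W_29 (nat_lit 4) (nat_lit 0x1000000004001e000b00000001000080000000000000000000000000000000) (nat_lit 0x0) (nat_lit 0x40002000700001000000040000000000000000000000000000000000000000) := T_29 (nat_lit 213) (nat_lit 214) (nat_lit 3) (nat_lit 6) (nat_lit 11) L79557 (by decide +kernel)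
theorem L79559 : W_29 (nat_lit 5) (nat_lit 0x1000000004001e000300000001000080000000000000000000000000000000) (nat_lit 0x0) (nat_lit 0x40002000700001001800040000000000000000000000000000000000000000) := T_29 (nat_lit 179) (nat_lit 180) (nat_lit 2) (nat_lit 6) (nat_lit 11) L79558 (by decide +kernel)
theorem L79560 : W_29 (nat_lit 6) (nat_lit 0x1000000004001e000200000001000080000000000000000000000000000000) (nat_lit 0x0) (nat_lit 0x40002000700001001980040000000000000000000000000000000000000000) := T_29 (nat_lit 176) (nat_lit 175) (nat_lit 0) (nat_lit 9) (nat_lit 11) L79559 (by decide +kernel)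
theorem L79561 : W_29 (nat_lit 7) (nat_lit 0x4001e000200000001000080000000000000000000000000000000) (nat_lit 0x0) (nat_lit 0x50002800700001001980040000000000000000000000000000000000000000) := T_29 (nat_lit 244) (nat_lit 227) (nat_lit 6) (nat_lit 6) (nat_lit 14) L79560 (by decide +kernel)
theorem L79562 : W_29 (nat_lit 8) (nat_lit 0x4000e000200000001000080000000000000000000000000000000) (nat_lit 0x0) (nat_lit 0x500028007800310039c0040000000000000000000000000000000000000000) := Q_29 (nat_lit 196) (C_29 L79554 (C_29 L66492 (C_29 L10248 (C_29 L79561 N_29)))) (by decide +kernel)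
theorem L79563 : W_29 (nat_lit 9) (nat_lit 0x40006000200000001000080000000000000000000000000000000) (nat_lit 0x0) (nat_lit 0x500028007b8039e039e0044000000000000000000000000000000000000000) := Q_29 (nat_lit 195) (C_29 L79532 (C_29 L66493 (C_29 L79550 (C_29 L79553 (C_29 L79555 (C_29 L79562 N_29)))))) (by decide +kernel)
theorem L79564 : W_29 (nat_lit 3) (nat_lit 0x40006000200000001000080000000000000000000000000000000) (nat_lit 0x0) (nat_lit 0x10000800000000000100010000800000000000000000000000000000000000) := T_29 (nat_lit 227) (nat_lit 244) (nat_lit 6) (nat_lit 6) (nat_lit 14) L10430 (by decide +kernel)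
theorem L79565 : W_29 (nat_lit 2) (nat_lit 0x4003e000200000001800080000000000000000000000000000000) (nat_lit 0x0) (nat_lit 0xe00000000000000000000000000000000000000000000000000000) := D_29 (nat_lit 214) (nat_lit 213) (nat_lit 215) (nat_lit 3) (nat_lit 6) (nat_lit 11) (nat_lit 3) (nat_lit 7) (nat_lit 11) (by decide +kernel)
theorem L79566 : W_29 (nat_lit 3) (nat_lit 0x4001e000200000001800080000000000000000000000000000000) (nat_lit 0x0) (nat_lit 0xe80020000000000000000000000000000000000000000000000000) := T_29 (nat_lit 197) (nat_lit 211) (nat_lit 1) (nat_lit 10) (nat_lit 11) L79565 (by decide +kernel)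
theorem L79567 : W_29 (nat_lit 4) (nat_lit 0x4000e000200000001800080000000000000000000000000000000) (nat_lit 0x0) (nat_lit 0xea0030000000000000000000000000000000000000000000000000) := T_29 (nat_lit 196) (nat_lit 209) (nat_lit 1) (nat_lit 9) (nat_lit 11) L79566 (by decide +kernel)
theorem L79568 : W_29 (nat_lit 5) (nat_lit 0x4000e000200000001000080000000000000000000000000000000) (nat_lit 0x0) (nat_lit 0xea0030000000010000800000000000000000000000000000000000) := T_29 (nat_lit 143) (nat_lit 160) (nat_lit 6) (nat_lit 7) (nat_lit 11) L79567 (by decide +kernel)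
theorem L79569 : W_29 (nat_lit 2) (nat_lit 0x5000f800280010001200080000000000000000000000000000000) (nat_lit 0x0) (nat_lit 0x80000400100000000000000000000000000000000000000000000) := D_29 (nat_lit 190) (nat_lit 176) (nat_lit 211) (nat_lit 2) (nat_lit 3) (nat_lit 11) (nat_lit 3) (nat_lit 3) (nat_lit 11) (by decide +kernel)
theorem L79570 : W_29 (nat_lit 3) (nat_lit 0x5000f000280010001200080000000000000000000000000000000) (nat_lit 0x0) (nat_lit 0x88000c00100000000000000000000000000000000000000000000) := T_29 (nat_lit 191) (nat_lit 207) (nat_lit 1) (nat_lit 7) (nat_lit 11) L79569 (by decide +kernel)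
theorem L79571 : W_29 (nat_lit 4) (nat_lit 0x5000f000280010001000080000000000000000000000000000000) (nat_lit 0x0) (nat_lit 0x88000c00100004000200000000000000000000000000000000000) := T_29 (nat_lit 141) (nat_lit 158) (nat_lit 7) (nat_lit 5) (nat_lit 8) L79570 (by decide +kernel)
theorem L79572 : W_29 (nat_lit 5) (nat_lit 0x4000f000280010001000080000000000000000000000000000000) (nat_lit 0x0) (nat_lit 0xb8000c00100004000200000000000000000000000000000000000) := T_29 (nat_lit 208) (nat_lit 209) (nat_lit 1) (nat_lit 8) (nat_lit 11) L79571 (by decide +kernel)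
theorem L79573 : W_29 (nat_lit 6) (nat_lit 0x4000f000200010001000080000000000000000000000000000000) (nat_lit 0x0) (nat_lit 0xb8000c001c0004000200000000000000000000000000000000000) := T_29 (nat_lit 175) (nat_lit 174) (nat_lit 0) (nat_lit 8) (nat_lit 11) L79572 (by decide +kernel)
theorem L79574 : W_29 (nat_lit 7) (nat_lit 0x4000f000200000001000080000000000000000000000000000000) (nat_lit 0x0) (nat_lit 0xb8000c001c0014000a00000000000000000000000000000000000) := T_29 (nat_lit 160) (nat_lit 143) (nat_lit 6) (nat_lit 7) (nat_lit 11) L79573 (by decide +kernel)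
theorem L79575 : W_29 (nat_lit 2) (nat_lit 0x16000f400280001001f80088000000000000000000000000000000) (nat_lit 0x0) (nat_lit 0xa00100000000000000000000000000000000000000000000) := D_29 (nat_lit 191) (nat_lit 189) (nat_lit 176) (nat_lit 3) (nat_lit 2) (nat_lit 11) (nat_lit 2) (nat_lit 3) (nat_lit 11) (by decide +kernel)
theorem L79576 : W_29 (nat_lit 3) (nat_lit 0x16000f000280001001f80088000000000000000000000000000000) (nat_lit 0x0) (nat_lit 0xe00120000000000000000000000000000000000000000000) := T_29 (nat_lit 190) (nat_lit 173) (nat_lit 6) (nat_lit 3) (nat_lit 11) L79575 (by decide +kernel)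
theorem L79577 : W_29 (nat_lit 4) (nat_lit 0x16000f000280001001f00088000000000000000000000000000000) (nat_lit 0x0) (nat_lit 0xe00120000800080000000000000000000000000000000000) := T_29 (nat_lit 139) (nat_lit 155) (nat_lit 1) (nat_lit 6) (nat_lit 8) L79576 (by decide +kernel)
theorem L79578 : W_29 (nat_lit 5) (nat_lit 0x16000f000280000001f00088000000000000000000000000000000) (nat_lit 0x0) (nat_lit 0xe00120003800080000000000000000000000000000000000) := T_29 (nat_lit 156) (nat_lit 157) (nat_lit 1) (nat_lit 7) (nat_lit 8) L79577 (by decide +kernel)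
theorem L79579 : W_29 (nat_lit 6) (nat_lit 0x16000f000280000001e00088000000000000000000000000000000) (nat_lit 0x0) (nat_lit 0xe00120003800180004000000000000000000000000000000) := T_29 (nat_lit 140) (nat_lit 122) (nat_lit 0) (nat_lit 7) (nat_lit 8) L79578 (by decide +kernel)
theorem L79580 : W_29 (nat_lit 7) (nat_lit 0x6000f000280000001e00088000000000000000000000000000000) (nat_lit 0x0) (nat_lit 0x300000e00120003800180004000000000000000000000000000000) := T_29 (nat_lit 212) (nat_lit 213) (nat_lit 3) (nat_lit 5) (nat_lit 11) L79579 (by decide +kernel)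
theorem L79581 : W_29 (nat_lit 8) (nat_lit 0x6000f000280000001e00080000000000000000000000000000000) (nat_lit 0x0) (nat_lit 0x300000e0012000380018001c000000000000000000000000000000) := T_29 (nat_lit 123) (nat_lit 124) (nat_lit 0) (nat_lit 8) (nat_lit 8) L79580 (by decide +kernel)
theorem L79582 : W_29 (nat_lit 9) (nat_lit 0x6000f000280000001a00080000000000000000000000000000000) (nat_lit 0x0) (nat_lit 0x300000e0012000380058011c000000000000000000000000000000) := T_29 (nat_lit 142) (nat_lit 128) (nat_lit 2) (nat_lit 5) (nat_lit 8) L79581 (by decide +kernel)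
theorem L79583 : W_29 (nat_lit 10) (nat_lit 0x6000f000280000001800080000000000000000000000000000000) (nat_lit 0x0) (nat_lit 0x300000e0012000780078011c000000000000000000000000000000) := T_29 (nat_lit 141) (nat_lit 158) (nat_lit 7) (nat_lit 5) (nat_lit 8) L79582 (by decide +kernel)
theorem L79584 : W_29 (nat_lit 11) (nat_lit 0x6000f000280000001000080000000000000000000000000000000) (nat_lit 0x0) (nat_lit 0x300000e00120017800f8011c000000000000000000000000000000) := T_29 (nat_lit 143) (nat_lit 160) (nat_lit 6) (nat_lit 7) (nat_lit 11) L79583 (by decide +kernel)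
theorem L79585 : W_29 (nat_lit 12) (nat_lit 0x6000f000200000001000080000000000000000000000000000000) (nat_lit 0x0) (nat_lit 0x300000e001e0017800f8011c000000000000000000000000000000) := T_29 (nat_lit 175) (nat_lit 174) (nat_lit 0) (nat_lit 8) (nat_lit 11) L79584 (by decide +kernel)
theorem L79586 : W_29 (nat_lit 13) (nat_lit 0x4000f000200000001000080000000000000000000000000000000) (nat_lit 0x0) (nat_lit 0x330000e001e0017800f8011c000000000000000000000000000000) := T_29 (nat_lit 209) (nat_lit 208) (nat_lit 1) (nat_lit 8) (nat_lit 11) L79585 (by decide +kernel)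
theorem L79587 : W_29 (nat_lit 2) (nat_lit 0x24001e000f000280000001800080000000000000000000000000000000) (nat_lit 0x0) (nat_lit 0x100008000000000000000100000000000000000000000000000000000000000000) := D_29 (nat_lit 243) (nat_lit 260) (nat_lit 176) (nat_lit 6) (nat_lit 5) (nat_lit 15) (nat_lit 6) (nat_lit 5) (nat_lit 14) (by decide +kernel)
theorem L79588 : W_29 (nat_lit 3) (nat_lit 0x20001e000f000280000001800080000000000000000000000000000000) (nat_lit 0x0) (nat_lit 0x100008000600000000000100000000000000000000000000000000000000000000) := T_29 (nat_lit 226) (nat_lit 225) (nat_lit 1) (nat_lit 8) (nat_lit 12) L79587 (by decide +kernel)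
theorem L79589 : W_29 (nat_lit 4) (nat_lit 0x200016000f000280000001800080000000000000000000000000000000) (nat_lit 0x0) (nat_lit 0x100008004600080000000100000000000000000000000000000000000000000000) := T_29 (nat_lit 211) (nat_lit 230) (nat_lit 3) (nat_lit 5) (nat_lit 12) L79588 (by decide +kernel)
theorem L79590 : W_29 (nat_lit 5) (nat_lit 0x200016000f000200000001800080000000000000000000000000000000) (nat_lit 0x0) (nat_lit 0x1000080046000800000001c0000000000000000000000000000000000000000000) := T_29 (nat_lit 175) (nat_lit 174) (nat_lit 0) (nat_lit 8) (nat_lit 11) L79589 (by decide +kernel)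
theorem L79591 : W_29 (nat_lit 6) (nat_lit 0x200014000f000200000001800080000000000000000000000000000000) (nat_lit 0x0) (nat_lit 0x1000080046000b00000001c0000000000000000000000000000000000000000000) := T_29 (nat_lit 209) (nat_lit 208) (nat_lit 1) (nat_lit 8) (nat_lit 11) L79590 (by decide +kernel)
theorem L79592 : W_29 (nat_lit 7) (nat_lit 0x14000f000200000001800080000000000000000000000000000000) (nat_lit 0x0) (nat_lit 0x1000480066000b00000001c0000000000000000000000000000000000000000000) := T_29 (nat_lit 229) (nat_lit 246) (nat_lit 4) (nat_lit 8) (nat_lit 14) L79591 (by decide +kernel)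
theorem L79593 : W_29 (nat_lit 8) (nat_lit 0x14000f000200000001000080000000000000000000000000000000) (nat_lit 0x0) (nat_lit 0x1000480066000b00000001c0010000800000000000000000000000000000000000) := T_29 (nat_lit 143) (nat_lit 160) (nat_lit 7) (nat_lit 7) (nat_lit 8) L79592 (by decide +kernel)
theorem L79594 : W_29 (nat_lit 9) (nat_lit 0x4000f000200000001000080000000000000000000000000000000) (nat_lit 0x0) (nat_lit 0x1000480066003b00000001c0010000800000000000000000000000000000000000) := T_29 (nat_lit 212) (nat_lit 213) (nat_lit 3) (nat_lit 5) (nat_lit 11) L79593 (by decide +kernel)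
theorem L79595 : W_29 (nat_lit 14) (nat_lit 0x4000e000200000001000080000000000000000000000000000000) (nat_lit 0x0) (nat_lit 0x1000480066003b8001e001e0017800f8011c000000000000000000000000000000) := Q_29 (nat_lit 192) (C_29 L79574 (C_29 L79544 (C_29 L10243 (C_29 L79586 (C_29 L79594 N_29))))) (by decide +kernel)
theorem L79596 : W_29 (nat_lit 2) (nat_lit 0x2c001f000a40010001000080000000000000000000000000000000) (nat_lit 0x0) (nat_lit 0xc00020000000000000000000000000000000000000000000) := D_29 (nat_lit 191) (nat_lit 173) (nat_lit 190) (nat_lit 0) (nat_lit 7) (nat_lit 11) (nat_lit 3) (nat_lit 3) (nat_lit 11) (by decide +kernel)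
theorem L79597 : W_29 (nat_lit 3) (nat_lit 0x24001f000a40010001000080000000000000000000000000000000) (nat_lit 0x0) (nat_lit 0x80020c00020000000000000000000000000000000000000000000) := T_29 (nat_lit 211) (nat_lit 197) (nat_lit 1) (nat_lit 10) (nat_lit 11) L79596 (by decide +kernel)
theorem L79598 : W_29 (nat_lit 4) (nat_lit 0x24001f000a00010001000080000000000000000000000000000000) (nat_lit 0x0) (nat_lit 0x80020c000e0000000000000000000000000000000000000000000) := T_29 (nat_lit 174) (nat_lit 175) (nat_lit 0) (nat_lit 8) (nat_lit 11) L79597 (by decide +kernel)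
theorem L79599 : W_29 (nat_lit 5) (nat_lit 0x24001e000a00010001000080000000000000000000000000000000) (nat_lit 0x0) (nat_lit 0x180021c000e0000000000000000000000000000000000000000000) := T_29 (nat_lit 192) (nat_lit 212) (nat_lit 3) (nat_lit 5) (nat_lit 11) L79598 (by decide +kernel)
theorem L79600 : W_29 (nat_lit 6) (nat_lit 0x4001e000a00010001000080000000000000000000000000000000) (nat_lit 0x0) (nat_lit 0x780021c000e0000000000000000000000000000000000000000000) := T_29 (nat_lit 213) (nat_lit 214) (nat_lit 3) (nat_lit 6) (nat_lit 11) L79599 (by decide +kernel)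
theorem L79601 : W_29 (nat_lit 7) (nat_lit 0x4001e000200010001000080000000000000000000000000000000) (nat_lit 0x0) (nat_lit 0x780021c018e0000000000000000000000000000000000000000000) := T_29 (nat_lit 179) (nat_lit 180) (nat_lit 2) (nat_lit 6) (nat_lit 11) L79600 (by decide +kernel)
theorem L79602 : W_29 (nat_lit 8) (nat_lit 0x4001e000200000001000080000000000000000000000000000000) (nat_lit 0x0) (nat_lit 0x780021c018e0010000800000000000000000000000000000000000) := T_29 (nat_lit 160) (nat_lit 143) (nat_lit 6) (nat_lit 7) (nat_lit 11) L79601 (by decide +kernel)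
theorem L79603 : W_29 (nat_lit 3) (nat_lit 0x24001e000b00000001800080000000000000000000000000000000) (nat_lit 0x0) (nat_lit 0x40002000100001000000040000000000000000000000000000000000000000) := T_29 (nat_lit 212) (nat_lit 192) (nat_lit 3) (nat_lit 5) (nat_lit 11) L10249 (by decide +kernel)
theorem L79604 : W_29 (nat_lit 4) (nat_lit 0x4001e000b00000001800080000000000000000000000000000000) (nat_lit 0x0) (nat_lit 0x40002000700001000000040000000000000000000000000000000000000000) := T_29 (nat_lit 213) (nat_lit 214) (nat_lit 3) (nat_lit 6) (nat_lit 11) L79603 (by decide +kernel)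
theorem L79605 : W_29 (nat_lit 5) (nat_lit 0x4001e000300000001800080000000000000000000000000000000) (nat_lit 0x0) (nat_lit 0x40002000700001001800040000000000000000000000000000000000000000) := T_29 (nat_lit 179) (nat_lit 180) (nat_lit 2) (nat_lit 6) (nat_lit 11) L79604 (by decide +kernel)
theorem L79606 : W_29 (nat_lit 6) (nat_lit 0x4001e000300000001000080000000000000000000000000000000) (nat_lit 0x0) (nat_lit 0x40002000700001001800050000800000000000000000000000000000000000) := T_29 (nat_lit 143) (nat_lit 160) (nat_lit 6) (nat_lit 7) (nat_lit 11) L79605 (by decide +kernel)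
theorem L79607 : W_29 (nat_lit 7) (nat_lit 0x4001e000200000001000080000000000000000000000000000000) (nat_lit 0x0) (nat_lit 0x40002000700001001980050000800000000000000000000000000000000000) := T_29 (nat_lit 176) (nat_lit 175) (nat_lit 0) (nat_lit 9) (nat_lit 11) L79606 (by decide +kernel)
theorem L79608 : W_29 (nat_lit 9) (nat_lit 0x4000e000200000001000080000000000000000000000000000000) (nat_lit 0x0) (nat_lit 0x40002000780031c019e0050000800000000000000000000000000000000000) := Q_29 (nat_lit 196) (C_29 L10248 (C_29 L79602 (C_29 L79554 (C_29 L79607 N_29)))) (by decide +kernel)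
theorem L79609 : W_29 (nat_lit 15) (nat_lit 0x40006000200000001000080000000000000000000000000000000) (nat_lit 0x0) (nat_lit 0x100048006600fb8039e019e0057800f8011c000000000000000000000000000000) := Q_29 (nat_lit 195) (C_29 L79555 (C_29 L79568 (C_29 L79595 (C_29 L10247 (C_29 L79608 N_29))))) (by decide +kernel)
theorem L79610 : W_29 (nat_lit 16) (nat_lit 0x6000200000001000080000000000000000000000000000000) (nat_lit 0x0) (nat_lit 0x100058006e00ff8039e039e0057800f8011c000000000000000000000000000000) := Q_29 (nat_lit 210) (C_29 L10108 (C_29 L79529 (C_29 L79563 (C_29 L79564 (C_29 L79609 N_29))))) (by decide +kernel)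
theorem L79611 : W_29 (nat_lit 4) (nat_lit 0x7800240000001000080000000000000000000000000000000) (nat_lit 0x0) (nat_lit 0x1dc000400000000000000000000000000000000000000000000000) := T_29 (nat_lit 211) (nat_lit 212) (nat_lit 3) (nat_lit 4) (nat_lit 11) L6455 (by decide +kernel)
theorem L79612 : W_29 (nat_lit 5) (nat_lit 0x7800200000001000080000000000000000000000000000000) (nat_lit 0x0) (nat_lit 0x1dc000400060000000000000000000000000000000000000000000) := T_29 (nat_lit 174) (nat_lit 173) (nat_lit 0) (nat_lit 7) (nat_lit 11) L79611 (by decide +kernel)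
theorem L79613 : W_29 (nat_lit 6) (nat_lit 0x7000200000001000080000000000000000000000000000000) (nat_lit 0x0) (nat_lit 0x1fc008c001e0000000000000000000000000000000000000000000) := Q_29 (nat_lit 191) (C_29 L10040 (C_29 L79612 (C_29 L79516 (C_29 L10044 N_29)))) (by decide +kernel)
theorem L79614 : W_29 (nat_lit 6) (nat_lit 0x7000200000001000080000000000000000000000000000000) (nat_lit 0x0) (nat_lit 0x1b80088004e0000000000000000000000000000000000000000000) := T_29 (nat_lit 191) (nat_lit 178) (nat_lit 2) (nat_lit 4) (nat_lit 11) L10044 (by decide +kernel)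
theorem L79615 : W_29 (nat_lit 6) (nat_lit 0x7000200000001000080000000000000000000000000000000) (nat_lit 0x0) (nat_lit 0x40002000370078000dc0010000000000000000000000000000000000000000) := Q_29 (nat_lit 195) (C_29 L10057 (C_29 L8029 (C_29 L5280 N_29))) (by decide +kernel)
theorem L79616 : W_29 (nat_lit 7) (nat_lit 0x6000200000001000080000000000000000000000000000000) (nat_lit 0x0) (nat_lit 0x400020003fc079c00de0010000000000000000000000000000000000000000) := Q_29 (nat_lit 192) (C_29 L10059 (C_29 L79613 (C_29 L79614 (C_29 L79615 (C_29 L79524 N_29))))) (by decide +kernel)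
theorem L79617 : W_29 (nat_lit 2) (nat_lit 0x40007800200000001000080000000000000000000000000000000) (nat_lit 0x0) (nat_lit 0x80000400100000000000000000000000000000000000000000000) := D_29 (nat_lit 190) (nat_lit 176) (nat_lit 211) (nat_lit 2) (nat_lit 3) (nat_lit 11) (nat_lit 3) (nat_lit 3) (nat_lit 11) (by decide +kernel)
theorem L79618 : W_29 (nat_lit 2) (nat_lit 0x40007800200000001000080000000000000000000000000000000) (nat_lit 0x0) (nat_lit 0x180000400000000000000000000000000000000000000000000000) := D_29 (nat_lit 211) (nat_lit 212) (nat_lit 190) (nat_lit 3) (nat_lit 4) (nat_lit 11) (nat_lit 3) (nat_lit 3) (nat_lit 11) (by decide +kernel)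
theorem L79619 : W_29 (nat_lit 2) (nat_lit 0x10000000040007c00200000001000080000000000000000000000000000000) (nat_lit 0x0) (nat_lit 0x1c000000000000000000000000000000000000000000000000000) := D_29 (nat_lit 207) (nat_lit 206) (nat_lit 208) (nat_lit 1) (nat_lit 6) (nat_lit 11) (nat_lit 1) (nat_lit 7) (nat_lit 11) (by decide +kernel)
theorem L79620 : W_29 (nat_lit 3) (nat_lit 0x10000000040007800200000001000080000000000000000000000000000000) (nat_lit 0x0) (nat_lit 0x1c000400100000000000000000000000000000000000000000000) := T_29 (nat_lit 190) (nat_lit 176) (nat_lit 2) (nat_lit 3) (nat_lit 11) L79619 (by decide +kernel)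
theorem L79621 : W_29 (nat_lit 4) (nat_lit 0x40007800200000001000080000000000000000000000000000000) (nat_lit 0x0) (nat_lit 0x1000080001c000400100000000000000000000000000000000000000000000) := T_29 (nat_lit 244) (nat_lit 227) (nat_lit 6) (nat_lit 6) (nat_lit 14) L79620 (by decide +kernel)
theorem L79622 : W_29 (nat_lit 2) (nat_lit 0x10000000070007800240000001000080000000000000000000000000000000) (nat_lit 0x0) (nat_lit 0x8000400000000000000002000000000000000000000000000000000000000) := D_29 (nat_lit 226) (nat_lit 243) (nat_lit 157) (nat_lit 4) (nat_lit 5) (nat_lit 14) (nat_lit 7) (nat_lit 4) (nat_lit 9) (by decide +kernel)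
theorem L79623 : W_29 (nat_lit 3) (nat_lit 0x10000000070007800200000001000080000000000000000000000000000000) (nat_lit 0x0) (nat_lit 0x8000400000000000060002000000000000000000000000000000000000000) := T_29 (nat_lit 174) (nat_lit 173) (nat_lit 0) (nat_lit 7) (nat_lit 11) L79622 (by decide +kernel)
theorem L79624 : W_29 (nat_lit 4) (nat_lit 0x70007800200000001000080000000000000000000000000000000) (nat_lit 0x0) (nat_lit 0x18000c00000000000060002000000000000000000000000000000000000000) := T_29 (nat_lit 244) (nat_lit 227) (nat_lit 6) (nat_lit 6) (nat_lit 14) L79623 (by decide +kernel)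
theorem L79625 : W_29 (nat_lit 5) (nat_lit 0x60007800200000001000080000000000000000000000000000000) (nat_lit 0x0) (nat_lit 0x18000c00018000000060002000000000000000000000000000000000000000) := T_29 (nat_lit 208) (nat_lit 207) (nat_lit 2) (nat_lit 3) (nat_lit 12) L79624 (by decide +kernel)
theorem L79626 : W_29 (nat_lit 3) (nat_lit 0x100000000f0007800200000001000080000000000000000000000000000000) (nat_lit 0x0) (nat_lit 0x4000300000000000080004000000000000000000000000000000000000000) := T_29 (nat_lit 225) (nat_lit 224) (nat_lit 1) (nat_lit 7) (nat_lit 12) L79185 (by decide +kernel)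
theorem L79627 : W_29 (nat_lit 4) (nat_lit 0xf0007800200000001000080000000000000000000000000000000) (nat_lit 0x0) (nat_lit 0x14000b00000000000080004000000000000000000000000000000000000000) := T_29 (nat_lit 244) (nat_lit 227) (nat_lit 6) (nat_lit 6) (nat_lit 14) L79626 (by decide +kernel)
theorem L79628 : W_29 (nat_lit 5) (nat_lit 0xe0007800200000001000080000000000000000000000000000000) (nat_lit 0x0) (nat_lit 0x14000b00018000000080004000000000000000000000000000000000000000) := T_29 (nat_lit 208) (nat_lit 207) (nat_lit 2) (nat_lit 3) (nat_lit 12) L79627 (by decide +kernel)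
theorem L79629 : W_29 (nat_lit 6) (nat_lit 0x60007800200000001000080000000000000000000000000000000) (nat_lit 0x0) (nat_lit 0x14000b00198000000080004000000000000000000000000000000000000000) := T_29 (nat_lit 211) (nat_lit 212) (nat_lit 3) (nat_lit 4) (nat_lit 11) L79628 (by decide +kernel)
theorem L79630 : W_29 (nat_lit 2) (nat_lit 0x400168007800240000001000080000000000000000000000000000000) (nat_lit 0x0) (nat_lit 0x80002000100000000000000000000000000000000000) := D_29 (nat_lit 157) (nat_lit 140) (nat_lit 175) (nat_lit 7) (nat_lit 4) (nat_lit 8) (nat_lit 4) (nat_lit 5) (nat_lit 13) (by decide +kernel)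
theorem L79631 : W_29 (nat_lit 3) (nat_lit 0x168007800240000001000080000000000000000000000000000000) (nat_lit 0x0) (nat_lit 0x8000400000000000080002000100000000000000000000000000000000000) := T_29 (nat_lit 226) (nat_lit 243) (nat_lit 4) (nat_lit 5) (nat_lit 14) L79630 (by decide +kernel)
theorem L79632 : W_29 (nat_lit 4) (nat_lit 0x168007800200000001000080000000000000000000000000000000) (nat_lit 0x0) (nat_lit 0x80004000000000000e0002000100000000000000000000000000000000000) := T_29 (nat_lit 174) (nat_lit 173) (nat_lit 0) (nat_lit 7) (nat_lit 11) L79631 (by decide +kernel)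
theorem L79633 : W_29 (nat_lit 5) (nat_lit 0x68007800200000001000080000000000000000000000000000000) (nat_lit 0x0) (nat_lit 0x80004001800000000e0002000100000000000000000000000000000000000) := T_29 (nat_lit 212) (nat_lit 211) (nat_lit 3) (nat_lit 4) (nat_lit 11) L79632 (by decide +kernel)
theorem L79634 : W_29 (nat_lit 6) (nat_lit 0x60007800200000001000080000000000000000000000000000000) (nat_lit 0x0) (nat_lit 0x80004001980000000e0002000100000000000000000000000000000000000) := T_29 (nat_lit 207) (nat_lit 208) (nat_lit 2) (nat_lit 3) (nat_lit 12) L79633 (by decide +kernel)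
theorem L79635 : W_29 (nat_lit 2) (nat_lit 0x10000000060007800240002001000080000000000000000000000000000000) (nat_lit 0x0) (nat_lit 0x8000400000000000080000000000000000000000000000000000000000000) := D_29 (nat_lit 226) (nat_lit 243) (nat_lit 175) (nat_lit 4) (nat_lit 5) (nat_lit 14) (nat_lit 4) (nat_lit 5) (nat_lit 13) (by decide +kernel)
theorem L79636 : W_29 (nat_lit 3) (nat_lit 0x10000000060007800240000001000080000000000000000000000000000000) (nat_lit 0x0) (nat_lit 0x8000400000000000080002000100000000000000000000000000000000000) := T_29 (nat_lit 157) (nat_lit 140) (nat_lit 7) (nat_lit 4) (nat_lit 8) L79635 (by decide +kernel)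
theorem L79637 : W_29 (nat_lit 4) (nat_lit 0x60007800240000001000080000000000000000000000000000000) (nat_lit 0x0) (nat_lit 0x18000c00000000000080002000100000000000000000000000000000000000) := T_29 (nat_lit 244) (nat_lit 227) (nat_lit 6) (nat_lit 6) (nat_lit 14) L79636 (by decide +kernel)
theorem L79638 : W_29 (nat_lit 5) (nat_lit 0x60007800200000001000080000000000000000000000000000000) (nat_lit 0x0) (nat_lit 0x18000c000000000000e0002000100000000000000000000000000000000000) := T_29 (nat_lit 174) (nat_lit 173) (nat_lit 0) (nat_lit 7) (nat_lit 11) L79637 (by decide +kernel)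
theorem L79639 : W_29 (nat_lit 7) (nat_lit 0x40007800200000001000080000000000000000000000000000000) (nat_lit 0x0) (nat_lit 0x1c000f001b80000000e0006000100000000000000000000000000000000000) := Q_29 (nat_lit 209) (C_29 L79625 (C_29 L79629 (C_29 L79634 (C_29 L79638 N_29)))) (by decide +kernel)
theorem L79640 : W_29 (nat_lit 8) (nat_lit 0x40007000200000001000080000000000000000000000000000000) (nat_lit 0x0) (nat_lit 0x1c000f001bc000c001e0006000100000000000000000000000000000000000) := Q_29 (nat_lit 191) (C_29 L79617 (C_29 L79618 (C_29 L79621 (C_29 L79639 N_29)))) (by decide +kernel)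
theorem L79641 : W_29 (nat_lit 5) (nat_lit 0x40007000200000001000080000000000000000000000000000000) (nat_lit 0x0) (nat_lit 0x1000080001c000c00500000000000000000000000000000000000000000000) := T_29 (nat_lit 191) (nat_lit 178) (nat_lit 2) (nat_lit 4) (nat_lit 11) L79621 (by decide +kernel)
theorem L79642 : W_29 (nat_lit 3) (nat_lit 0x40007000200000001000080000000000000000000000000000000) (nat_lit 0x0) (nat_lit 0x180000c00400000000000000000000000000000000000000000000) := T_29 (nat_lit 191) (nat_lit 178) (nat_lit 2) (nat_lit 4) (nat_lit 11) L79618 (by decide +kernel)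
theorem L79643 : W_29 (nat_lit 2) (nat_lit 0x800040007000280000001000080000000000000000000000000000000) (nat_lit 0x0) (nat_lit 0x100004000200000000000000000000000000000000000) := D_29 (nat_lit 158) (nat_lit 141) (nat_lit 176) (nat_lit 7) (nat_lit 5) (nat_lit 8) (nat_lit 4) (nat_lit 6) (nat_lit 13) (by decide +kernel)
theorem L79644 : W_29 (nat_lit 3) (nat_lit 0x40007000280000001000080000000000000000000000000000000) (nat_lit 0x0) (nat_lit 0x10000800000000000100004000200000000000000000000000000000000000) := T_29 (nat_lit 227) (nat_lit 244) (nat_lit 6) (nat_lit 6) (nat_lit 14) L79643 (by decide +kernel)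
theorem L79645 : W_29 (nat_lit 2) (nat_lit 0x40007000280004001000080000000000000000000000000000000) (nat_lit 0x0) (nat_lit 0x10000800020000000000000000000000000000000000000000000000000000) := D_29 (nat_lit 227) (nat_lit 244) (nat_lit 209) (nat_lit 6) (nat_lit 6) (nat_lit 14) (nat_lit 7) (nat_lit 5) (nat_lit 9) (by decide +kernel)
theorem L79646 : W_29 (nat_lit 3) (nat_lit 0x40007000280000001000080000000000000000000000000000000) (nat_lit 0x0) (nat_lit 0x10000800020000000000004000200000000000000000000000000000000000) := T_29 (nat_lit 158) (nat_lit 141) (nat_lit 7) (nat_lit 5) (nat_lit 8) L79645 (by decide +kernel)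
theorem L79647 : W_29 (nat_lit 2) (nat_lit 0x400060007000280000001000080000000000000000000000000000000) (nat_lit 0x0) (nat_lit 0x100008000000000000000100000000000000000000000000000000000000000000) := D_29 (nat_lit 243) (nat_lit 176) (nat_lit 260) (nat_lit 6) (nat_lit 5) (nat_lit 14) (nat_lit 6) (nat_lit 5) (nat_lit 15) (by decide +kernel)
theorem L79648 : W_29 (nat_lit 2) (nat_lit 0x10000400060007000280000001000080000000000000000000000000000000) (nat_lit 0x0) (nat_lit 0x300008000000000000000000000000000000000000000000000000000000000000) := D_29 (nat_lit 243) (nat_lit 260) (nat_lit 261) (nat_lit 6) (nat_lit 5) (nat_lit 15) (nat_lit 7) (nat_lit 5) (nat_lit 11) (by decide +kernel)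
theorem L79649 : W_29 (nat_lit 3) (nat_lit 0x400060007000280000001000080000000000000000000000000000000) (nat_lit 0x0) (nat_lit 0x300018000800000000000000000000000000000000000000000000000000000000) := T_29 (nat_lit 244) (nat_lit 227) (nat_lit 7) (nat_lit 5) (nat_lit 10) L79648 (by decide +kernel)
theorem L79650 : W_29 (nat_lit 2) (nat_lit 0x80004000680070002d0000001000080000000000000000000000000000000) (nat_lit 0x0) (nat_lit 0x80004000200000000000000000000000000000000000000000000000000000000) := D_29 (nat_lit 242) (nat_lit 225) (nat_lit 259) (nat_lit 5) (nat_lit 5) (nat_lit 10) (nat_lit 5) (nat_lit 5) (nat_lit 11) (by decide +kernel)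
theorem L79651 : W_29 (nat_lit 3) (nat_lit 0x4000680070002d0000001000080000000000000000000000000000000) (nat_lit 0x0) (nat_lit 0x18000c000200000000000000000000000000000000000000000000000000000000) := T_29 (nat_lit 243) (nat_lit 260) (nat_lit 6) (nat_lit 5) (nat_lit 15) L79650 (by decide +kernel)
theorem L79652 : W_29 (nat_lit 4) (nat_lit 0x4000680070002c0000001000080000000000000000000000000000000) (nat_lit 0x0) (nat_lit 0x18000c000200000000000030000000000000000000000000000000000000000000) := T_29 (nat_lit 172) (nat_lit 173) (nat_lit 3) (nat_lit 2) (nat_lit 10) L79651 (by decide +kernel)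
theorem L79653 : W_29 (nat_lit 5) (nat_lit 0x400068007000280000001000080000000000000000000000000000000) (nat_lit 0x0) (nat_lit 0x18000c000200000000000070002000000000000000000000000000000000000000) := T_29 (nat_lit 174) (nat_lit 157) (nat_lit 4) (nat_lit 5) (nat_lit 13) L79652 (by decide +kernel)
theorem L79654 : W_29 (nat_lit 6) (nat_lit 0x400060007000280000001000080000000000000000000000000000000) (nat_lit 0x0) (nat_lit 0x18000c000200018000000070002000000000000000000000000000000000000000) := T_29 (nat_lit 207) (nat_lit 208) (nat_lit 2) (nat_lit 3) (nat_lit 12) L79653 (by decide +kernel)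
theorem L79655 : W_29 (nat_lit 2) (nat_lit 0x6801680070002c0000001000080000000000000000000000000000000) (nat_lit 0x0) (nat_lit 0x130000000000000000000000000000000000000000000) := D_29 (nat_lit 173) (nat_lit 176) (nat_lit 172) (nat_lit 3) (nat_lit 3) (nat_lit 10) (nat_lit 3) (nat_lit 2) (nat_lit 10) (by decide +kernel)
theorem L79656 : W_29 (nat_lit 3) (nat_lit 0x680168007000280000001000080000000000000000000000000000000) (nat_lit 0x0) (nat_lit 0x170002000000000000000000000000000000000000000) := T_29 (nat_lit 174) (nat_lit 157) (nat_lit 4) (nat_lit 5) (nat_lit 13) L79655 (by decide +kernel)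
theorem L79657 : W_29 (nat_lit 4) (nat_lit 0x680068007000280000001000080000000000000000000000000000000) (nat_lit 0x0) (nat_lit 0x180000000170002000000000000000000000000000000000000000) := T_29 (nat_lit 212) (nat_lit 211) (nat_lit 1) (nat_lit 8) (nat_lit 12) L79656 (by decide +kernel)
theorem L79658 : W_29 (nat_lit 5) (nat_lit 0x600068007000280000001000080000000000000000000000000000000) (nat_lit 0x0) (nat_lit 0x180180000000170002000000000000000000000000000000000000000) := T_29 (nat_lit 223) (nat_lit 224) (nat_lit 2) (nat_lit 2) (nat_lit 13) L79657 (by decide +kernel)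
theorem L79659 : W_29 (nat_lit 6) (nat_lit 0x400068007000280000001000080000000000000000000000000000000) (nat_lit 0x0) (nat_lit 0x4000380180000000170002000000000000000000000000000000000000000) := T_29 (nat_lit 225) (nat_lit 242) (nat_lit 5) (nat_lit 5) (nat_lit 10) L79658 (by decide +kernel)
theorem L79660 : W_29 (nat_lit 7) (nat_lit 0x400060007000280000001000080000000000000000000000000000000) (nat_lit 0x0) (nat_lit 0x4000380198000000170002000000000000000000000000000000000000000) := T_29 (nat_lit 207) (nat_lit 208) (nat_lit 2) (nat_lit 3) (nat_lit 12) L79659 (by decide +kernel)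
theorem L79661 : W_29 (nat_lit 8) (nat_lit 0x60007000280000001000080000000000000000000000000000000) (nat_lit 0x0) (nat_lit 0x18000c000780198000000170002000000000000000000000000000000000000000) := Q_29 (nat_lit 226) (C_29 L79654 (C_29 L79647 (C_29 L79660 N_29))) (by decide +kernel)
theorem L79662 : W_29 (nat_lit 2) (nat_lit 0x10000c0007000280000001000080000000000000000000000000000000) (nat_lit 0x0) (nat_lit 0x400020000000000000000100000000000000000000000000000000000000000000) := D_29 (nat_lit 245) (nat_lit 176) (nat_lit 262) (nat_lit 4) (nat_lit 7) (nat_lit 14) (nat_lit 4) (nat_lit 7) (nat_lit 15) (by decide +kernel)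
theorem L79663 : W_29 (nat_lit 2) (nat_lit 0x100010000c0007000280000001000080000000000000000000000000000000) (nat_lit 0x0) (nat_lit 0x600020000000000000000000000000000000000000000000000000000000000000) := D_29 (nat_lit 245) (nat_lit 262) (nat_lit 261) (nat_lit 4) (nat_lit 7) (nat_lit 15) (nat_lit 5) (nat_lit 7) (nat_lit 11) (by decide +kernel)
theorem L79664 : W_29 (nat_lit 3) (nat_lit 0x10000c0007000280000001000080000000000000000000000000000000) (nat_lit 0x0) (nat_lit 0x600030000800000000000000000000000000000000000000000000000000000000) := T_29 (nat_lit 244) (nat_lit 227) (nat_lit 6) (nat_lit 6) (nat_lit 14) L79663 (by decide +kernel)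
theorem L79665 : W_29 (nat_lit 5) (nat_lit 0x1000040007000280000001000080000000000000000000000000000000) (nat_lit 0x0) (nat_lit 0x6000700068003b0000000000000000000000000000000000000000000000000000) := Q_29 (nat_lit 211) (C_29 L78752 (C_29 L79664 N_29)) (by decide +kernel)
theorem L79666 : W_29 (nat_lit 2) (nat_lit 0x20001800040007000280000001000080000000000000000000000000000000) (nat_lit 0x0) (nat_lit 0x8000400000000000080000000000000000000000000000000000000000000000000000) := D_29 (nat_lit 262) (nat_lit 279) (nat_lit 211) (nat_lit 4) (nat_lit 7) (nat_lit 16) (nat_lit 4) (nat_lit 7) (nat_lit 15) (by decide +kernel)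
theorem L79667 : W_29 (nat_lit 3) (nat_lit 0x1800040007000280000001000080000000000000000000000000000000) (nat_lit 0x0) (nat_lit 0x8000400020000000080000000100000000000000000000000000000000000000000000) := T_29 (nat_lit 245) (nat_lit 176) (nat_lit 7) (nat_lit 6) (nat_lit 10) L79666 (by decide +kernel)
theorem L79668 : W_29 (nat_lit 4) (nat_lit 0x1000040007000280000001000080000000000000000000000000000000) (nat_lit 0x0) (nat_lit 0x8000400030000800080000000100000000000000000000000000000000000000000000) := T_29 (nat_lit 227) (nat_lit 244) (nat_lit 6) (nat_lit 6) (nat_lit 14) L79667 (by decide +kernel)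
theorem L79669 : W_29 (nat_lit 2) (nat_lit 0x1c000400070003c0000001000080000000000000000000000000000000) (nat_lit 0x0) (nat_lit 0x20000000000003000000000000000000000000000000000000000) := D_29 (nat_lit 157) (nat_lit 209) (nat_lit 156) (nat_lit 4) (nat_lit 5) (nat_lit 13) (nat_lit 0) (nat_lit 7) (nat_lit 10) (by decide +kernel)
theorem L79670 : W_29 (nat_lit 3) (nat_lit 0x1c00040007000380000001000080000000000000000000000000000000) (nat_lit 0x0) (nat_lit 0x20000000060003000000000000000000000000000000000000000) := T_29 (nat_lit 174) (nat_lit 173) (nat_lit 3) (nat_lit 3) (nat_lit 10) L79669 (by decide +kernel)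
theorem L79671 : W_29 (nat_lit 4) (nat_lit 0x1800040007000380000001000080000000000000000000000000000000) (nat_lit 0x0) (nat_lit 0x8000400020000000060003000000000000000000000000000000000000000) := T_29 (nat_lit 226) (nat_lit 243) (nat_lit 5) (nat_lit 6) (nat_lit 10) L79670 (by decide +kernel)
theorem L79672 : W_29 (nat_lit 5) (nat_lit 0x1800040007000280000001000080000000000000000000000000000000) (nat_lit 0x0) (nat_lit 0x28000400020000000160003000000000000000000000000000000000000000) := T_29 (nat_lit 176) (nat_lit 245) (nat_lit 7) (nat_lit 6) (nat_lit 10) L79671 (by decide +kernel)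
theorem L79673 : W_29 (nat_lit 6) (nat_lit 0x1000040007000280000001000080000000000000000000000000000000) (nat_lit 0x0) (nat_lit 0x38000c00020000000160003000000000000000000000000000000000000000) := T_29 (nat_lit 227) (nat_lit 244) (nat_lit 6) (nat_lit 6) (nat_lit 14) L79672 (by decide +kernel)
theorem L79674 : W_29 (nat_lit 5) (nat_lit 0x1000040007000280000001000080000000000000000000000000000000) (nat_lit 0x0) (nat_lit 0x4000600060003b0000000100000000000000000000000000000000000000000000) := Q_29 (nat_lit 211) (C_29 L78752 (C_29 L79662 N_29)) (by decide +kernel)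
theorem L79675 : W_29 (nat_lit 2) (nat_lit 0x30000e0007000280000001000080000000000000000000000000000000) (nat_lit 0x0) (nat_lit 0xc800000000000000000000000000000000000000000000000000000000) := D_29 (nat_lit 230) (nat_lit 231) (nat_lit 227) (nat_lit 0) (nat_lit 10) (nat_lit 13) (nat_lit 0) (nat_lit 9) (nat_lit 13) (by decide +kernel)
theorem L79676 : W_29 (nat_lit 3) (nat_lit 0x30000c0007000280000001000080000000000000000000000000000000) (nat_lit 0x0) (nat_lit 0xc800030000000000000000000000000000000000000000000000000000) := T_29 (nat_lit 209) (nat_lit 208) (nat_lit 3) (nat_lit 4) (nat_lit 12) L79675 (by decide +kernel)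
theorem L79677 : W_29 (nat_lit 4) (nat_lit 0x10000c0007000280000001000080000000000000000000000000000000) (nat_lit 0x0) (nat_lit 0x4000e800030000000000000000000000000000000000000000000000000000) := T_29 (nat_lit 229) (nat_lit 246) (nat_lit 7) (nat_lit 7) (nat_lit 10) L79676 (by decide +kernel)
theorem L79678 : W_29 (nat_lit 2) (nat_lit 0xbc001c0007000280000001000080000000000000000000000000000000) (nat_lit 0x0) (nat_lit 0xc000000000000000100000000000000000000000000000000000000000000) := D_29 (nat_lit 243) (nat_lit 176) (nat_lit 242) (nat_lit 5) (nat_lit 6) (nat_lit 10) (nat_lit 1) (nat_lit 8) (nat_lit 13) (by decide +kernel)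
theorem L79679 : W_29 (nat_lit 3) (nat_lit 0xb8001c0007000280000001000080000000000000000000000000000000) (nat_lit 0x0) (nat_lit 0xc000600000000000100000000000000000000000000000000000000000000) := T_29 (nat_lit 226) (nat_lit 225) (nat_lit 2) (nat_lit 4) (nat_lit 13) L79678 (by decide +kernel)
theorem L79680 : W_29 (nat_lit 4) (nat_lit 0xb8000c0007000280000001000080000000000000000000000000000000) (nat_lit 0x0) (nat_lit 0xc000600300000000100000000000000000000000000000000000000000000) := T_29 (nat_lit 212) (nat_lit 213) (nat_lit 0) (nat_lit 9) (nat_lit 12) L79679 (by decide +kernel)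
theorem L79681 : W_29 (nat_lit 5) (nat_lit 0x38000c0007000280000001000080000000000000000000000000000000) (nat_lit 0x0) (nat_lit 0xc00c600300000000100000000000000000000000000000000000000000000) := T_29 (nat_lit 231) (nat_lit 230) (nat_lit 0) (nat_lit 10) (nat_lit 13) L79680 (by decide +kernel)
theorem L79682 : W_29 (nat_lit 6) (nat_lit 0x18000c0007000280000001000080000000000000000000000000000000) (nat_lit 0x0) (nat_lit 0x4c00e600300000000100000000000000000000000000000000000000000000) := T_29 (nat_lit 229) (nat_lit 246) (nat_lit 7) (nat_lit 7) (nat_lit 10) L79681 (by decide +kernel)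
theorem L79683 : W_29 (nat_lit 7) (nat_lit 0x10000c0007000280000001000080000000000000000000000000000000) (nat_lit 0x0) (nat_lit 0x5c00ee00300000000100000000000000000000000000000000000000000000) := T_29 (nat_lit 227) (nat_lit 244) (nat_lit 6) (nat_lit 6) (nat_lit 14) L79682 (by decide +kernel)
theorem L79684 : W_29 (nat_lit 4) (nat_lit 0x1c001c0007000280000001000080000000000000000000000000000000) (nat_lit 0x0) (nat_lit 0x8000000020000000160003000000000000000000000000000000000000000) := T_29 (nat_lit 176) (nat_lit 243) (nat_lit 5) (nat_lit 6) (nat_lit 10) L9976 (by decide +kernel)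
theorem L79685 : W_29 (nat_lit 5) (nat_lit 0x18001c0007000280000001000080000000000000000000000000000000) (nat_lit 0x0) (nat_lit 0x8000600020000000160003000000000000000000000000000000000000000) := T_29 (nat_lit 226) (nat_lit 225) (nat_lit 2) (nat_lit 4) (nat_lit 13) L79684 (by decide +kernel)
theorem L79686 : W_29 (nat_lit 6) (nat_lit 0x10001c0007000280000001000080000000000000000000000000000000) (nat_lit 0x0) (nat_lit 0x18000e00020000000160003000000000000000000000000000000000000000) := T_29 (nat_lit 227) (nat_lit 244) (nat_lit 6) (nat_lit 6) (nat_lit 14) L79685 (by decide +kernel)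
theorem L79687 : W_29 (nat_lit 7) (nat_lit 0x10000c0007000280000001000080000000000000000000000000000000) (nat_lit 0x0) (nat_lit 0x18000e00320000000160003000000000000000000000000000000000000000) := T_29 (nat_lit 212) (nat_lit 213) (nat_lit 0) (nat_lit 9) (nat_lit 12) L79686 (by decide +kernel)
theorem L79688 : W_29 (nat_lit 8) (nat_lit 0x1000040007000280000001000080000000000000000000000000000000) (nat_lit 0x0) (nat_lit 0x5c00ee003b0000000160003000000000000000000000000000000000000000) := Q_29 (nat_lit 211) (C_29 L78752 (C_29 L79677 (C_29 L79683 (C_29 L79687 N_29)))) (by decide +kernel)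
theorem L79689 : W_29 (nat_lit 9) (nat_lit 0x40007000280000001000080000000000000000000000000000000) (nat_lit 0x0) (nat_lit 0x800060007c00fe003b0000000160003000000000000000000000000000000000000000) := Q_29 (nat_lit 228) (C_29 L79665 (C_29 L79668 (C_29 L79673 (C_29 L79674 (C_29 L79688 N_29))))) (by decide +kernel)
theorem L79690 : W_29 (nat_lit 2) (nat_lit 0x40007000380004001000080000000000000000000000000000000) (nat_lit 0x0) (nat_lit 0xc00002000000000000000000000000000000000000000) := D_29 (nat_lit 178) (nat_lit 179) (nat_lit 157) (nat_lit 1) (nat_lit 9) (nat_lit 10) (nat_lit 0) (nat_lit 8) (nat_lit 10) (by decide +kernel)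
theorem L79691 : W_29 (nat_lit 3) (nat_lit 0x40007000380000001000080000000000000000000000000000000) (nat_lit 0x0) (nat_lit 0xc00006000200000000000000000000000000000000000) := T_29 (nat_lit 158) (nat_lit 141) (nat_lit 7) (nat_lit 5) (nat_lit 8) L79690 (by decide +kernel)
theorem L79692 : W_29 (nat_lit 2) (nat_lit 0x400070003c0006001000080000000000000000000000000000000) (nat_lit 0x0) (nat_lit 0x20000000000000000100008000000000000000000000000000000) := D_29 (nat_lit 140) (nat_lit 123) (nat_lit 209) (nat_lit 7) (nat_lit 4) (nat_lit 7) (nat_lit 4) (nat_lit 5) (nat_lit 12) (by decide +kernel)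
theorem L79693 : W_29 (nat_lit 3) (nat_lit 0x400070003c0004001000080000000000000000000000000000000) (nat_lit 0x0) (nat_lit 0x20000000000003000100008000000000000000000000000000000) := T_29 (nat_lit 157) (nat_lit 156) (nat_lit 0) (nat_lit 7) (nat_lit 10) L79692 (by decide +kernel)
theorem L79694 : W_29 (nat_lit 4) (nat_lit 0x400070003c0000001000080000000000000000000000000000000) (nat_lit 0x0) (nat_lit 0x20000000000007000300008000000000000000000000000000000) := T_29 (nat_lit 158) (nat_lit 141) (nat_lit 7) (nat_lit 5) (nat_lit 8) L79693 (by decide +kernel)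
theorem L79695 : W_29 (nat_lit 5) (nat_lit 0x40007000380000001000080000000000000000000000000000000) (nat_lit 0x0) (nat_lit 0x20000000060007000300008000000000000000000000000000000) := T_29 (nat_lit 174) (nat_lit 173) (nat_lit 3) (nat_lit 3) (nat_lit 10) L79694 (by decide +kernel)
theorem L79696 : W_29 (nat_lit 2) (nat_lit 0x400068007000380000001000080000000000000000000000000000000) (nat_lit 0x0) (nat_lit 0x60002000000000000000000000000000000000000000) := D_29 (nat_lit 174) (nat_lit 173) (nat_lit 157) (nat_lit 3) (nat_lit 3) (nat_lit 10) (nat_lit 4) (nat_lit 5) (nat_lit 13) (by decide +kernel)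
theorem L79697 : W_29 (nat_lit 3) (nat_lit 0x68007000380000001000080000000000000000000000000000000) (nat_lit 0x0) (nat_lit 0x8000400000000000060002000000000000000000000000000000000000000) := T_29 (nat_lit 226) (nat_lit 243) (nat_lit 6) (nat_lit 5) (nat_lit 14) L79696 (by decide +kernel)
theorem L79698 : W_29 (nat_lit 4) (nat_lit 0x60007000380000001000080000000000000000000000000000000) (nat_lit 0x0) (nat_lit 0x8000400018000000060002000000000000000000000000000000000000000) := T_29 (nat_lit 207) (nat_lit 208) (nat_lit 2) (nat_lit 3) (nat_lit 12) L79697 (by decide +kernel)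
theorem L79699 : W_29 (nat_lit 2) (nat_lit 0x4000400068007000280006001000080000000000000000000000000000000) (nat_lit 0x0) (nat_lit 0x180008000000000000000000000000000000000000000000000000000000000000) := D_29 (nat_lit 243) (nat_lit 260) (nat_lit 259) (nat_lit 6) (nat_lit 5) (nat_lit 15) (nat_lit 5) (nat_lit 5) (nat_lit 11) (by decide +kernel)
theorem L79700 : W_29 (nat_lit 3) (nat_lit 0x400068007000280006001000080000000000000000000000000000000) (nat_lit 0x0) (nat_lit 0x18000c000200000000000000000000000000000000000000000000000000000000) := T_29 (nat_lit 242) (nat_lit 225) (nat_lit 5) (nat_lit 5) (nat_lit 10) L79699 (by decide +kernel)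
theorem L79701 : W_29 (nat_lit 4) (nat_lit 0x68007000280006001000080000000000000000000000000000000) (nat_lit 0x0) (nat_lit 0x18000c000600000000000040000000000000000000000000000000000000000000) := T_29 (nat_lit 226) (nat_lit 174) (nat_lit 4) (nat_lit 5) (nat_lit 13) L79700 (by decide +kernel)
theorem L79702 : W_29 (nat_lit 5) (nat_lit 0x68007000280004001000080000000000000000000000000000000) (nat_lit 0x0) (nat_lit 0x18000c000600000000000040002000100000000000000000000000000000000000) := T_29 (nat_lit 157) (nat_lit 140) (nat_lit 4) (nat_lit 5) (nat_lit 12) L79701 (by decide +kernel)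
theorem L79703 : W_29 (nat_lit 6) (nat_lit 0x68007000280000001000080000000000000000000000000000000) (nat_lit 0x0) (nat_lit 0x18000c000600000000000040006000300000000000000000000000000000000000) := T_29 (nat_lit 158) (nat_lit 141) (nat_lit 7) (nat_lit 5) (nat_lit 8) L79702 (by decide +kernel)
theorem L79704 : W_29 (nat_lit 7) (nat_lit 0x60007000280000001000080000000000000000000000000000000) (nat_lit 0x0) (nat_lit 0x18000c000600018000000040006000300000000000000000000000000000000000) := T_29 (nat_lit 207) (nat_lit 208) (nat_lit 2) (nat_lit 3) (nat_lit 12) L79703 (by decide +kernel)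
theorem L79705 : W_29 (nat_lit 2) (nat_lit 0x60007000280004001000080000000000000000000000000000000) (nat_lit 0x0) (nat_lit 0x200018000000000000000000000000000000000000000000000000000) := D_29 (nat_lit 208) (nat_lit 207) (nat_lit 225) (nat_lit 2) (nat_lit 3) (nat_lit 12) (nat_lit 5) (nat_lit 5) (nat_lit 9) (by decide +kernel)
theorem L79706 : W_29 (nat_lit 3) (nat_lit 0x60007000280000001000080000000000000000000000000000000) (nat_lit 0x0) (nat_lit 0x200018000000000004000200000000000000000000000000000000000) := T_29 (nat_lit 158) (nat_lit 141) (nat_lit 7) (nat_lit 5) (nat_lit 8) L79705 (by decide +kernel)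
theorem L79707 : W_29 (nat_lit 2) (nat_lit 0x8000400060007001680006001000080000000000000000000000000000000) (nat_lit 0x0) (nat_lit 0x80004000200000000000000000000000000000000000000000000000000000000) := D_29 (nat_lit 242) (nat_lit 225) (nat_lit 259) (nat_lit 5) (nat_lit 5) (nat_lit 10) (nat_lit 5) (nat_lit 5) (nat_lit 11) (by decide +kernel)
theorem L79708 : W_29 (nat_lit 3) (nat_lit 0x400060007001680006001000080000000000000000000000000000000) (nat_lit 0x0) (nat_lit 0x18000c000200000000000000000000000000000000000000000000000000000000) := T_29 (nat_lit 243) (nat_lit 260) (nat_lit 6) (nat_lit 5) (nat_lit 15) L79707 (by decide +kernel)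
theorem L79709 : W_29 (nat_lit 4) (nat_lit 0x400060007000680006001000080000000000000000000000000000000) (nat_lit 0x0) (nat_lit 0x18000c000200000000001800000000000000000000000000000000000000000000) := T_29 (nat_lit 180) (nat_lit 179) (nat_lit 1) (nat_lit 10) (nat_lit 10) L79708 (by decide +kernel)
theorem L79710 : W_29 (nat_lit 5) (nat_lit 0x60007000680006001000080000000000000000000000000000000) (nat_lit 0x0) (nat_lit 0x18000c000600000000001840000000000000000000000000000000000000000000) := T_29 (nat_lit 226) (nat_lit 174) (nat_lit 4) (nat_lit 5) (nat_lit 13) L79709 (by decide +kernel)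
theorem L79711 : W_29 (nat_lit 6) (nat_lit 0x60007000280006001000080000000000000000000000000000000) (nat_lit 0x0) (nat_lit 0x18000c000600000000001d40000000000000000000000000000000000000000000) := T_29 (nat_lit 178) (nat_lit 176) (nat_lit 0) (nat_lit 8) (nat_lit 10) L79710 (by decide +kernel)
theorem L79712 : W_29 (nat_lit 7) (nat_lit 0x60007000280004001000080000000000000000000000000000000) (nat_lit 0x0) (nat_lit 0x18000c000600000000001d40002000100000000000000000000000000000000000) := T_29 (nat_lit 157) (nat_lit 140) (nat_lit 4) (nat_lit 5) (nat_lit 12) L79711 (by decide +kernel)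
theorem L79713 : W_29 (nat_lit 8) (nat_lit 0x60007000280000001000080000000000000000000000000000000) (nat_lit 0x0) (nat_lit 0x18000c000600000000001d40006000300000000000000000000000000000000000) := T_29 (nat_lit 158) (nat_lit 141) (nat_lit 7) (nat_lit 5) (nat_lit 8) L79712 (by decide +kernel)
theorem L79714 : W_29 (nat_lit 2) (nat_lit 0x68007000380006001000080000000000000000000000000000000) (nat_lit 0x0) (nat_lit 0x8000400000000000040000000000000000000000000000000000000000000) := D_29 (nat_lit 226) (nat_lit 174) (nat_lit 243) (nat_lit 4) (nat_lit 5) (nat_lit 13) (nat_lit 6) (nat_lit 5) (nat_lit 14) (by decide +kernel)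
theorem L79715 : W_29 (nat_lit 3) (nat_lit 0x68007000280006001000080000000000000000000000000000000) (nat_lit 0x0) (nat_lit 0x8000400000000000540000000000000000000000000000000000000000000) := T_29 (nat_lit 176) (nat_lit 178) (nat_lit 0) (nat_lit 8) (nat_lit 10) L79714 (by decide +kernel)
theorem L79716 : W_29 (nat_lit 4) (nat_lit 0x68007000280004001000080000000000000000000000000000000) (nat_lit 0x0) (nat_lit 0x8000400000000000540002000100000000000000000000000000000000000) := T_29 (nat_lit 157) (nat_lit 140) (nat_lit 4) (nat_lit 5) (nat_lit 12) L79715 (by decide +kernel)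
theorem L79717 : W_29 (nat_lit 5) (nat_lit 0x60007000280004001000080000000000000000000000000000000) (nat_lit 0x0) (nat_lit 0x8000400018000000540002000100000000000000000000000000000000000) := T_29 (nat_lit 207) (nat_lit 208) (nat_lit 2) (nat_lit 3) (nat_lit 12) L79716 (by decide +kernel)
theorem L79718 : W_29 (nat_lit 6) (nat_lit 0x60007000280000001000080000000000000000000000000000000) (nat_lit 0x0) (nat_lit 0x8000400018000000540006000300000000000000000000000000000000000) := T_29 (nat_lit 158) (nat_lit 141) (nat_lit 7) (nat_lit 5) (nat_lit 8) L79717 (by decide +kernel)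
theorem L79719 : W_29 (nat_lit 9) (nat_lit 0x40007000280000001000080000000000000000000000000000000) (nat_lit 0x0) (nat_lit 0x18000c0007801b8000001d70006000300000000000000000000000000000000000) := Q_29 (nat_lit 209) (C_29 L79661 (C_29 L79704 (C_29 L79706 (C_29 L79713 (C_29 L79718 N_29))))) (by decide +kernel)
theorem L79720 : W_29 (nat_lit 10) (nat_lit 0x40007000200000001000080000000000000000000000000000000) (nat_lit 0x0) (nat_lit 0x800078007c00ff803b8000001df0007000300000000000000000000000000000000000) := Q_29 (nat_lit 175) (C_29 L79644 (C_29 L79646 (C_29 L79689 (C_29 L79719 N_29)))) (by decide +kernel)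
theorem L79721 : W_29 (nat_lit 11) (nat_lit 0x40006000200000001000080000000000000000000000000000000) (nat_lit 0x0) (nat_lit 0x800078007c00ff803bc001c01df0007000300000000000000000000000000000000000) := Q_29 (nat_lit 192) (C_29 L10277 (C_29 L79640 (C_29 L10111 (C_29 L79641 (C_29 L79642 (C_29 L79720 N_29)))))) (by decide +kernel)
theorem L79722 : W_29 (nat_lit 2) (nat_lit 0x40007c00200000001800080000000000000000000000000000000) (nat_lit 0x0) (nat_lit 0x1c000000000000000000000000000000000000000000000000000) := D_29 (nat_lit 207) (nat_lit 206) (nat_lit 208) (nat_lit 1) (nat_lit 6) (nat_lit 11) (nat_lit 1) (nat_lit 7) (nat_lit 11) (by decide +kernel)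
theorem L79723 : W_29 (nat_lit 3) (nat_lit 0x40007800200000001800080000000000000000000000000000000) (nat_lit 0x0) (nat_lit 0x1c000400100000000000000000000000000000000000000000000) := T_29 (nat_lit 190) (nat_lit 176) (nat_lit 2) (nat_lit 3) (nat_lit 11) L79722 (by decide +kernel)
theorem L79724 : W_29 (nat_lit 4) (nat_lit 0x40007800200000001000080000000000000000000000000000000) (nat_lit 0x0) (nat_lit 0x1c000400100010000800000000000000000000000000000000000) := T_29 (nat_lit 143) (nat_lit 160) (nat_lit 6) (nat_lit 7) (nat_lit 11) L79723 (by decide +kernel)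
theorem L79725 : W_29 (nat_lit 2) (nat_lit 0x2000f0007800240000001800080000000000000000000000000000000) (nat_lit 0x0) (nat_lit 0x8000400000000000000002000000000000000000000000000000000000000) := D_29 (nat_lit 226) (nat_lit 243) (nat_lit 157) (nat_lit 7) (nat_lit 4) (nat_lit 10) (nat_lit 7) (nat_lit 4) (nat_lit 9) (by decide +kernel)
theorem L79726 : W_29 (nat_lit 3) (nat_lit 0x2000f0007800200000001800080000000000000000000000000000000) (nat_lit 0x0) (nat_lit 0x8000400000000000060002000000000000000000000000000000000000000) := T_29 (nat_lit 174) (nat_lit 173) (nat_lit 0) (nat_lit 7) (nat_lit 11) L79725 (by decide +kernel)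
theorem L79727 : W_29 (nat_lit 4) (nat_lit 0xf0007800200000001800080000000000000000000000000000000) (nat_lit 0x0) (nat_lit 0x8000700000000000060002000000000000000000000000000000000000000) := T_29 (nat_lit 225) (nat_lit 224) (nat_lit 1) (nat_lit 7) (nat_lit 12) L79726 (by decide +kernel)
theorem L79728 : W_29 (nat_lit 5) (nat_lit 0xf0007800200000001000080000000000000000000000000000000) (nat_lit 0x0) (nat_lit 0x8000700000000000060012000800000000000000000000000000000000000) := T_29 (nat_lit 143) (nat_lit 160) (nat_lit 6) (nat_lit 7) (nat_lit 11) L79727 (by decide +kernel)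
theorem L79729 : W_29 (nat_lit 6) (nat_lit 0xe0007800200000001000080000000000000000000000000000000) (nat_lit 0x0) (nat_lit 0x8000700018000000060012000800000000000000000000000000000000000) := T_29 (nat_lit 208) (nat_lit 207) (nat_lit 2) (nat_lit 3) (nat_lit 12) L79728 (by decide +kernel)
theorem L79730 : W_29 (nat_lit 7) (nat_lit 0x60007800200000001000080000000000000000000000000000000) (nat_lit 0x0) (nat_lit 0x8000700198000000060012000800000000000000000000000000000000000) := T_29 (nat_lit 211) (nat_lit 212) (nat_lit 3) (nat_lit 4) (nat_lit 11) L79729 (by decide +kernel)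
theorem L79731 : W_29 (nat_lit 2) (nat_lit 0x70007800240010001000080000000000000000000000000000000) (nat_lit 0x0) (nat_lit 0x8000400000000000000002000000000000000000000000000000000000000) := D_29 (nat_lit 226) (nat_lit 243) (nat_lit 157) (nat_lit 4) (nat_lit 5) (nat_lit 14) (nat_lit 7) (nat_lit 4) (nat_lit 9) (by decide +kernel)
theorem L79732 : W_29 (nat_lit 3) (nat_lit 0x70007800200010001000080000000000000000000000000000000) (nat_lit 0x0) (nat_lit 0x8000400000000000060002000000000000000000000000000000000000000) := T_29 (nat_lit 174) (nat_lit 173) (nat_lit 0) (nat_lit 7) (nat_lit 11) L79731 (by decide +kernel)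
theorem L79733 : W_29 (nat_lit 4) (nat_lit 0x70007800200000001000080000000000000000000000000000000) (nat_lit 0x0) (nat_lit 0x8000400000000000060012000800000000000000000000000000000000000) := T_29 (nat_lit 160) (nat_lit 143) (nat_lit 6) (nat_lit 7) (nat_lit 11) L79732 (by decide +kernel)
theorem L79734 : W_29 (nat_lit 5) (nat_lit 0x60007800200000001000080000000000000000000000000000000) (nat_lit 0x0) (nat_lit 0x8000400018000000060012000800000000000000000000000000000000000) := T_29 (nat_lit 208) (nat_lit 207) (nat_lit 2) (nat_lit 3) (nat_lit 12) L79733 (by decide +kernel)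
theorem L79735 : W_29 (nat_lit 2) (nat_lit 0x2000f0007800200000001800080000000000000000000000000000000) (nat_lit 0x0) (nat_lit 0x4000000000000000080004000000000000000000000000000000000000000) := D_29 (nat_lit 175) (nat_lit 158) (nat_lit 242) (nat_lit 5) (nat_lit 5) (nat_lit 9) (nat_lit 6) (nat_lit 4) (nat_lit 14) (by decide +kernel)
theorem L79736 : W_29 (nat_lit 3) (nat_lit 0xf0007800200000001800080000000000000000000000000000000) (nat_lit 0x0) (nat_lit 0x4000300000000000080004000000000000000000000000000000000000000) := T_29 (nat_lit 225) (nat_lit 224) (nat_lit 1) (nat_lit 7) (nat_lit 12) L79735 (by decide +kernel)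
theorem L79737 : W_29 (nat_lit 4) (nat_lit 0xf0007800200000001000080000000000000000000000000000000) (nat_lit 0x0) (nat_lit 0x4000300000000000080014000800000000000000000000000000000000000) := T_29 (nat_lit 143) (nat_lit 160) (nat_lit 6) (nat_lit 7) (nat_lit 11) L79736 (by decide +kernel)
theorem L79738 : W_29 (nat_lit 5) (nat_lit 0xe0007800200000001000080000000000000000000000000000000) (nat_lit 0x0) (nat_lit 0x4000300018000000080014000800000000000000000000000000000000000) := T_29 (nat_lit 208) (nat_lit 207) (nat_lit 2) (nat_lit 3) (nat_lit 12) L79737 (by decide +kernel)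
theorem L79739 : W_29 (nat_lit 6) (nat_lit 0x60007800200000001000080000000000000000000000000000000) (nat_lit 0x0) (nat_lit 0x4000300198000000080014000800000000000000000000000000000000000) := T_29 (nat_lit 211) (nat_lit 212) (nat_lit 3) (nat_lit 4) (nat_lit 11) L79738 (by decide +kernel)
theorem L79740 : W_29 (nat_lit 2) (nat_lit 0x4000e0007800240010001000080000000000000000000000000000000) (nat_lit 0x0) (nat_lit 0x80002000100000000000000000000000000000000000) := D_29 (nat_lit 157) (nat_lit 140) (nat_lit 175) (nat_lit 7) (nat_lit 4) (nat_lit 8) (nat_lit 4) (nat_lit 5) (nat_lit 13) (by decide +kernel)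
theorem L79741 : W_29 (nat_lit 3) (nat_lit 0xe0007800240010001000080000000000000000000000000000000) (nat_lit 0x0) (nat_lit 0x8000400000000000080002000100000000000000000000000000000000000) := T_29 (nat_lit 226) (nat_lit 243) (nat_lit 4) (nat_lit 5) (nat_lit 14) L79740 (by decide +kernel)
theorem L79742 : W_29 (nat_lit 4) (nat_lit 0xe0007800200010001000080000000000000000000000000000000) (nat_lit 0x0) (nat_lit 0x80004000000000000e0002000100000000000000000000000000000000000) := T_29 (nat_lit 174) (nat_lit 173) (nat_lit 0) (nat_lit 7) (nat_lit 11) L79741 (by decide +kernel)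
theorem L79743 : W_29 (nat_lit 5) (nat_lit 0xe0007800200000001000080000000000000000000000000000000) (nat_lit 0x0) (nat_lit 0x80004000000000000e0012000900000000000000000000000000000000000) := T_29 (nat_lit 160) (nat_lit 143) (nat_lit 6) (nat_lit 7) (nat_lit 11) L79742 (by decide +kernel)
theorem L79744 : W_29 (nat_lit 6) (nat_lit 0x60007800200000001000080000000000000000000000000000000) (nat_lit 0x0) (nat_lit 0x80004001800000000e0012000900000000000000000000000000000000000) := T_29 (nat_lit 211) (nat_lit 212) (nat_lit 3) (nat_lit 4) (nat_lit 11) L79743 (by decide +kernel)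
theorem L79745 : W_29 (nat_lit 8) (nat_lit 0x40007800200000001000080000000000000000000000000000000) (nat_lit 0x0) (nat_lit 0xc0007001b80000000e0016000900000000000000000000000000000000000) := Q_29 (nat_lit 209) (C_29 L79634 (C_29 L79730 (C_29 L79734 (C_29 L79739 (C_29 L79744 N_29))))) (by decide +kernel)
theorem L79746 : W_29 (nat_lit 9) (nat_lit 0x40007000200000001000080000000000000000000000000000000) (nat_lit 0x0) (nat_lit 0xc0007001bc000c001e0016000900000000000000000000000000000000000) := Q_29 (nat_lit 191) (C_29 L79617 (C_29 L79618 (C_29 L79724 (C_29 L79745 N_29)))) (by decide +kernel)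
theorem L79747 : W_29 (nat_lit 2) (nat_lit 0x40007c00200010001000080000000000000000000000000000000) (nat_lit 0x0) (nat_lit 0x1c000000000000000000000000000000000000000000000000000) := D_29 (nat_lit 207) (nat_lit 206) (nat_lit 208) (nat_lit 1) (nat_lit 6) (nat_lit 11) (nat_lit 1) (nat_lit 7) (nat_lit 11) (by decide +kernel)
theorem L79748 : W_29 (nat_lit 3) (nat_lit 0x40007800200010001000080000000000000000000000000000000) (nat_lit 0x0) (nat_lit 0x1c000400100000000000000000000000000000000000000000000) := T_29 (nat_lit 190) (nat_lit 176) (nat_lit 2) (nat_lit 3) (nat_lit 11) L79747 (by decide +kernel)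
theorem L79749 : W_29 (nat_lit 4) (nat_lit 0x40007000200010001000080000000000000000000000000000000) (nat_lit 0x0) (nat_lit 0x1c000c00500000000000000000000000000000000000000000000) := T_29 (nat_lit 191) (nat_lit 178) (nat_lit 2) (nat_lit 4) (nat_lit 11) L79748 (by decide +kernel)
theorem L79750 : W_29 (nat_lit 5) (nat_lit 0x40007000200000001000080000000000000000000000000000000) (nat_lit 0x0) (nat_lit 0x1c000c00500010000800000000000000000000000000000000000) := T_29 (nat_lit 160) (nat_lit 143) (nat_lit 6) (nat_lit 7) (nat_lit 11) L79749 (by decide +kernel)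
theorem L79753 : W_29 (nat_lit 2) (nat_lit 0x400060007000200000001000080000000000000000000000000000000) (nat_lit 0x0) (nat_lit 0x100008000000000000000100000000000000000000000000000000000000000000) := D_29 (nat_lit 243) (nat_lit 176) (nat_lit 260) (nat_lit 6) (nat_lit 5) (nat_lit 14) (nat_lit 6) (nat_lit 5) (nat_lit 15) (by decide +kernel)
theorem L79754 : W_29 (nat_lit 2) (nat_lit 0x4000600070002c0000001000080000000000000000000000000000000) (nat_lit 0x0) (nat_lit 0x130000000000000000000000000000000000000000000) := D_29 (nat_lit 173) (nat_lit 176) (nat_lit 172) (nat_lit 3) (nat_lit 3) (nat_lit 10) (nat_lit 3) (nat_lit 2) (nat_lit 10) (by decide +kernel)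
theorem L79755 : W_29 (nat_lit 3) (nat_lit 0x400060007000280000001000080000000000000000000000000000000) (nat_lit 0x0) (nat_lit 0x170002000000000000000000000000000000000000000) := T_29 (nat_lit 174) (nat_lit 157) (nat_lit 4) (nat_lit 5) (nat_lit 13) L79754 (by decide +kernel)
theorem L79756 : W_29 (nat_lit 2) (nat_lit 0xc000400068007000280002001000080000000000000000000000000000000) (nat_lit 0x0) (nat_lit 0x4000300000000000000000000000000000000000) := D_29 (nat_lit 158) (nat_lit 141) (nat_lit 140) (nat_lit 7) (nat_lit 5) (nat_lit 8) (nat_lit 4) (nat_lit 5) (nat_lit 12) (by decide +kernel)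
theorem L79757 : W_29 (nat_lit 3) (nat_lit 0xc000400068007000280000001000080000000000000000000000000000000) (nat_lit 0x0) (nat_lit 0x40006000300000000000000000000000000000000000) := T_29 (nat_lit 157) (nat_lit 174) (nat_lit 4) (nat_lit 5) (nat_lit 13) L79756 (by decide +kernel)
theorem L79758 : W_29 (nat_lit 4) (nat_lit 0xc000400068007000200000001000080000000000000000000000000000000) (nat_lit 0x0) (nat_lit 0x2000000000000c0006000300000000000000000000000000000000000) := T_29 (nat_lit 175) (nat_lit 225) (nat_lit 5) (nat_lit 5) (nat_lit 10) L79757 (by decide +kernel)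
theorem L79759 : W_29 (nat_lit 5) (nat_lit 0x8000400068007000200000001000080000000000000000000000000000000) (nat_lit 0x0) (nat_lit 0x800040002000000000000c0006000300000000000000000000000000000000000) := T_29 (nat_lit 242) (nat_lit 259) (nat_lit 5) (nat_lit 5) (nat_lit 11) L79758 (by decide +kernel)
theorem L79760 : W_29 (nat_lit 6) (nat_lit 0x400068007000200000001000080000000000000000000000000000000) (nat_lit 0x0) (nat_lit 0x18000c0002000000000000c0006000300000000000000000000000000000000000) := T_29 (nat_lit 243) (nat_lit 260) (nat_lit 6) (nat_lit 5) (nat_lit 15) L79759 (by decide +kernel)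
theorem L79761 : W_29 (nat_lit 7) (nat_lit 0x400060007000200000001000080000000000000000000000000000000) (nat_lit 0x0) (nat_lit 0x18000c0002000180000000c0006000300000000000000000000000000000000000) := T_29 (nat_lit 207) (nat_lit 208) (nat_lit 2) (nat_lit 3) (nat_lit 12) L79760 (by decide +kernel)
theorem L79762 : W_29 (nat_lit 2) (nat_lit 0x400068007000280004001000080000000000000000000000000000000) (nat_lit 0x0) (nat_lit 0x40002000100000000000000000000000000000000000) := D_29 (nat_lit 157) (nat_lit 174) (nat_lit 140) (nat_lit 4) (nat_lit 5) (nat_lit 13) (nat_lit 4) (nat_lit 5) (nat_lit 12) (by decide +kernel)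
theorem L79763 : W_29 (nat_lit 3) (nat_lit 0x400068007000280000001000080000000000000000000000000000000) (nat_lit 0x0) (nat_lit 0x40006000300000000000000000000000000000000000) := T_29 (nat_lit 158) (nat_lit 141) (nat_lit 7) (nat_lit 5) (nat_lit 8) L79762 (by decide +kernel)
theorem L79764 : W_29 (nat_lit 4) (nat_lit 0x400060007000280000001000080000000000000000000000000000000) (nat_lit 0x0) (nat_lit 0x18000000040006000300000000000000000000000000000000000) := T_29 (nat_lit 207) (nat_lit 208) (nat_lit 2) (nat_lit 3) (nat_lit 12) L79763 (by decide +kernel)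
theorem L79765 : W_29 (nat_lit 2) (nat_lit 0x600060007000280000001000080000000000000000000000000000000) (nat_lit 0x0) (nat_lit 0x10000000000004000200000000000000000000000000000000000) := D_29 (nat_lit 158) (nat_lit 208) (nat_lit 141) (nat_lit 5) (nat_lit 5) (nat_lit 9) (nat_lit 7) (nat_lit 5) (nat_lit 8) (by decide +kernel)
theorem L79766 : W_29 (nat_lit 3) (nat_lit 0x400060007000280000001000080000000000000000000000000000000) (nat_lit 0x0) (nat_lit 0x4000200010000000000004000200000000000000000000000000000000000) := T_29 (nat_lit 225) (nat_lit 242) (nat_lit 5) (nat_lit 5) (nat_lit 10) L79765 (by decide +kernel)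
theorem L79767 : W_29 (nat_lit 5) (nat_lit 0x400060007000200000001000080000000000000000000000000000000) (nat_lit 0x0) (nat_lit 0x40002000180000001f0006000300000000000000000000000000000000000) := Q_29 (nat_lit 175) (C_29 L79764 (C_29 L79755 (C_29 L79766 N_29))) (by decide +kernel)
theorem L79768 : W_29 (nat_lit 8) (nat_lit 0x60007000200000001000080000000000000000000000000000000) (nat_lit 0x0) (nat_lit 0x18000c0006000180000001f0006000300000000000000000000000000000000000) := Q_29 (nat_lit 226) (C_29 L79753 (C_29 L79761 (C_29 L79767 N_29))) (by decide +kernel)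
theorem L79769 : W_29 (nat_lit 2) (nat_lit 0x1e8007000200000001000080000000000000000000000000000000) (nat_lit 0x0) (nat_lit 0x2000000000000000010000800000000000000000000000000000000000) := D_29 (nat_lit 160) (nat_lit 143) (nat_lit 229) (nat_lit 6) (nat_lit 7) (nat_lit 11) (nat_lit 7) (nat_lit 7) (nat_lit 9) (by decide +kernel)
theorem L79770 : W_29 (nat_lit 3) (nat_lit 0xe8007000200000001000080000000000000000000000000000000) (nat_lit 0x0) (nat_lit 0x2000300000000000010000800000000000000000000000000000000000) := T_29 (nat_lit 212) (nat_lit 213) (nat_lit 0) (nat_lit 9) (nat_lit 12) L79769 (by decide +kernel)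
theorem L79771 : W_29 (nat_lit 4) (nat_lit 0xe0007000200000001000080000000000000000000000000000000) (nat_lit 0x0) (nat_lit 0x2000318000000000010000800000000000000000000000000000000000) := T_29 (nat_lit 207) (nat_lit 208) (nat_lit 2) (nat_lit 3) (nat_lit 12) L79770 (by decide +kernel)
theorem L79772 : W_29 (nat_lit 2) (nat_lit 0xe0007000200010001000080000000000000000000000000000000) (nat_lit 0x0) (nat_lit 0x2000300000000000000000000000000000000000000000000000000000) := D_29 (nat_lit 212) (nat_lit 213) (nat_lit 229) (nat_lit 0) (nat_lit 9) (nat_lit 12) (nat_lit 7) (nat_lit 7) (nat_lit 9) (by decide +kernel)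
theorem L79773 : W_29 (nat_lit 3) (nat_lit 0xe0007000200000001000080000000000000000000000000000000) (nat_lit 0x0) (nat_lit 0x2000300000000000010000800000000000000000000000000000000000) := T_29 (nat_lit 160) (nat_lit 143) (nat_lit 6) (nat_lit 7) (nat_lit 11) L79772 (by decide +kernel)
theorem L79774 : W_29 (nat_lit 6) (nat_lit 0x60007000200000001000080000000000000000000000000000000) (nat_lit 0x0) (nat_lit 0x80004002700398000000080014000800000000000000000000000000000000000) := Q_29 (nat_lit 211) (C_29 L79771 (C_29 L78906 (C_29 L79773 N_29))) (by decide +kernel)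
theorem L79775 : W_29 (nat_lit 2) (nat_lit 0x1c000600068007000200000001800080000000000000000000000000000000) (nat_lit 0x0) (nat_lit 0x20000180000000000000000000000000000000000000000000000000000000) := D_29 (nat_lit 224) (nat_lit 223) (nat_lit 245) (nat_lit 3) (nat_lit 2) (nat_lit 13) (nat_lit 0) (nat_lit 7) (nat_lit 14) (by decide +kernel)
theorem L79776 : W_29 (nat_lit 3) (nat_lit 0x1c000400068007000200000001800080000000000000000000000000000000) (nat_lit 0x0) (nat_lit 0x20000380000000000080000000000000000000000000000000000000000000) := T_29 (nat_lit 225) (nat_lit 175) (nat_lit 5) (nat_lit 5) (nat_lit 10) L79775 (by decide +kernel)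
theorem L79777 : W_29 (nat_lit 4) (nat_lit 0x18000400068007000200000001800080000000000000000000000000000000) (nat_lit 0x0) (nat_lit 0x80024000380000000000080000000000000000000000000000000000000000000) := T_29 (nat_lit 242) (nat_lit 259) (nat_lit 5) (nat_lit 5) (nat_lit 11) L79776 (by decide +kernel)
theorem L79778 : W_29 (nat_lit 5) (nat_lit 0x8000400068007000200000001800080000000000000000000000000000000) (nat_lit 0x0) (nat_lit 0x280034000380000000000080000000000000000000000000000000000000000000) := T_29 (nat_lit 244) (nat_lit 261) (nat_lit 7) (nat_lit 5) (nat_lit 11) L79777 (by decide +kernel)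
theorem L79779 : W_29 (nat_lit 6) (nat_lit 0x8000400068007000200000001000080000000000000000000000000000000) (nat_lit 0x0) (nat_lit 0x280034000380000000000080010000800000000000000000000000000000000000) := T_29 (nat_lit 143) (nat_lit 160) (nat_lit 6) (nat_lit 7) (nat_lit 11) L79778 (by decide +kernel)
theorem L79780 : W_29 (nat_lit 7) (nat_lit 0x400068007000200000001000080000000000000000000000000000000) (nat_lit 0x0) (nat_lit 0x38003c000380000000000080010000800000000000000000000000000000000000) := T_29 (nat_lit 243) (nat_lit 260) (nat_lit 6) (nat_lit 5) (nat_lit 15) L79779 (by decide +kernel)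
theorem L79781 : W_29 (nat_lit 8) (nat_lit 0x400060007000200000001000080000000000000000000000000000000) (nat_lit 0x0) (nat_lit 0x38003c000380018000000080010000800000000000000000000000000000000000) := T_29 (nat_lit 207) (nat_lit 208) (nat_lit 2) (nat_lit 3) (nat_lit 12) L79780 (by decide +kernel)
theorem L79782 : W_29 (nat_lit 2) (nat_lit 0xc000400060007000280002001800080000000000000000000000000000000) (nat_lit 0x0) (nat_lit 0x4000300000000000000000000000000000000000) := D_29 (nat_lit 158) (nat_lit 141) (nat_lit 140) (nat_lit 7) (nat_lit 5) (nat_lit 8) (nat_lit 4) (nat_lit 5) (nat_lit 12) (by decide +kernel)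
theorem L79783 : W_29 (nat_lit 3) (nat_lit 0xc000400060007000280000001800080000000000000000000000000000000) (nat_lit 0x0) (nat_lit 0x40006000300000000000000000000000000000000000) := T_29 (nat_lit 157) (nat_lit 174) (nat_lit 4) (nat_lit 5) (nat_lit 13) L79782 (by decide +kernel)
theorem L79784 : W_29 (nat_lit 4) (nat_lit 0xc000400060007000200000001800080000000000000000000000000000000) (nat_lit 0x0) (nat_lit 0x2000000000000c0006000300000000000000000000000000000000000) := T_29 (nat_lit 175) (nat_lit 225) (nat_lit 5) (nat_lit 5) (nat_lit 10) L79783 (by decide +kernel)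
theorem L79785 : W_29 (nat_lit 5) (nat_lit 0x8000400060007000200000001800080000000000000000000000000000000) (nat_lit 0x0) (nat_lit 0x800040002000000000000c0006000300000000000000000000000000000000000) := T_29 (nat_lit 242) (nat_lit 259) (nat_lit 5) (nat_lit 5) (nat_lit 11) L79784 (by decide +kernel)
theorem L79786 : W_29 (nat_lit 6) (nat_lit 0x400060007000200000001800080000000000000000000000000000000) (nat_lit 0x0) (nat_lit 0x18000c0002000000000000c0006000300000000000000000000000000000000000) := T_29 (nat_lit 243) (nat_lit 260) (nat_lit 6) (nat_lit 5) (nat_lit 15) L79785 (by decide +kernel)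
theorem L79787 : W_29 (nat_lit 7) (nat_lit 0x400060007000200000001000080000000000000000000000000000000) (nat_lit 0x0) (nat_lit 0x18000c0002000000000000c0016000b00000000000000000000000000000000000) := T_29 (nat_lit 143) (nat_lit 160) (nat_lit 6) (nat_lit 7) (nat_lit 11) L79786 (by decide +kernel)
theorem L79788 : W_29 (nat_lit 2) (nat_lit 0x60007000b80006001000080000000000000000000000000000000) (nat_lit 0x0) (nat_lit 0x40001800000000000000000000000000000000000000) := D_29 (nat_lit 156) (nat_lit 155) (nat_lit 174) (nat_lit 3) (nat_lit 2) (nat_lit 9) (nat_lit 0) (nat_lit 7) (nat_lit 10) (by decide +kernel)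
theorem L79789 : W_29 (nat_lit 3) (nat_lit 0x60007000b80004001000080000000000000000000000000000000) (nat_lit 0x0) (nat_lit 0x40003800100000000000000000000000000000000000) := T_29 (nat_lit 157) (nat_lit 140) (nat_lit 4) (nat_lit 5) (nat_lit 12) L79788 (by decide +kernel)
theorem L79790 : W_29 (nat_lit 4) (nat_lit 0x60007000b00004001000080000000000000000000000000000000) (nat_lit 0x0) (nat_lit 0xc0003800300000000000000000000000000000000000) := T_29 (nat_lit 175) (nat_lit 141) (nat_lit 7) (nat_lit 5) (nat_lit 8) L79789 (by decide +kernel)
theorem L79791 : W_29 (nat_lit 5) (nat_lit 0x60007000300004001000080000000000000000000000000000000) (nat_lit 0x0) (nat_lit 0xcc0003800300000000000000000000000000000000000) := T_29 (nat_lit 179) (nat_lit 178) (nat_lit 1) (nat_lit 9) (nat_lit 10) L79790 (by decide +kernel)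
theorem L79792 : W_29 (nat_lit 2) (nat_lit 0x60007000280000001f00088000000000000000000000000000000) (nat_lit 0x0) (nat_lit 0x40003000000000000000000000000000000000000000) := D_29 (nat_lit 157) (nat_lit 156) (nat_lit 174) (nat_lit 1) (nat_lit 7) (nat_lit 8) (nat_lit 7) (nat_lit 4) (nat_lit 7) (by decide +kernel)
theorem L79793 : W_29 (nat_lit 3) (nat_lit 0x60007000280000001e00088000000000000000000000000000000) (nat_lit 0x0) (nat_lit 0x40003000100004000000000000000000000000000000) := T_29 (nat_lit 140) (nat_lit 122) (nat_lit 0) (nat_lit 7) (nat_lit 8) L79792 (by decide +kernel)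
theorem L79794 : W_29 (nat_lit 4) (nat_lit 0x60007000280000001e00080000000000000000000000000000000) (nat_lit 0x0) (nat_lit 0x4000300010001c000000000000000000000000000000) := T_29 (nat_lit 123) (nat_lit 124) (nat_lit 0) (nat_lit 8) (nat_lit 8) L79793 (by decide +kernel)
theorem L79795 : W_29 (nat_lit 5) (nat_lit 0x60007000280000001a00080000000000000000000000000000000) (nat_lit 0x0) (nat_lit 0x4000300050011c000000000000000000000000000000) := T_29 (nat_lit 142) (nat_lit 128) (nat_lit 2) (nat_lit 5) (nat_lit 8) L79794 (by decide +kernel)
theorem L79796 : W_29 (nat_lit 6) (nat_lit 0x60007000280000001200080000000000000000000000000000000) (nat_lit 0x0) (nat_lit 0x40013000d0011c000000000000000000000000000000) := T_29 (nat_lit 143) (nat_lit 160) (nat_lit 6) (nat_lit 7) (nat_lit 11) L79795 (by decide +kernel)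
theorem L79797 : W_29 (nat_lit 7) (nat_lit 0x60007000280000001000080000000000000000000000000000000) (nat_lit 0x0) (nat_lit 0x40017000f0011c000000000000000000000000000000) := T_29 (nat_lit 141) (nat_lit 158) (nat_lit 7) (nat_lit 5) (nat_lit 8) L79796 (by decide +kernel)
theorem L79798 : W_29 (nat_lit 2) (nat_lit 0x8000400060007000280000001800080000000000000000000000000000000) (nat_lit 0x0) (nat_lit 0x80004000200000000000000000000000000000000000000000000000000000000) := D_29 (nat_lit 242) (nat_lit 225) (nat_lit 259) (nat_lit 5) (nat_lit 5) (nat_lit 10) (nat_lit 5) (nat_lit 5) (nat_lit 11) (by decide +kernel)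
theorem L79799 : W_29 (nat_lit 3) (nat_lit 0x400060007000280000001800080000000000000000000000000000000) (nat_lit 0x0) (nat_lit 0x18000c000200000000000000000000000000000000000000000000000000000000) := T_29 (nat_lit 243) (nat_lit 260) (nat_lit 6) (nat_lit 5) (nat_lit 15) L79798 (by decide +kernel)
theorem L79800 : W_29 (nat_lit 4) (nat_lit 0x400060007000280000001000080000000000000000000000000000000) (nat_lit 0x0) (nat_lit 0x18000c000200000000000000010000800000000000000000000000000000000000) := T_29 (nat_lit 143) (nat_lit 160) (nat_lit 6) (nat_lit 7) (nat_lit 11) L79799 (by decide +kernel)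
theorem L79802 : W_29 (nat_lit 2) (nat_lit 0x70007000380000001000080000000000000000000000000000000) (nat_lit 0x0) (nat_lit 0x200000000000000004000200000000000000000000000000000000000) := D_29 (nat_lit 158) (nat_lit 141) (nat_lit 225) (nat_lit 7) (nat_lit 5) (nat_lit 8) (nat_lit 5) (nat_lit 5) (nat_lit 9) (by decide +kernel)
theorem L79807 : W_29 (nat_lit 2) (nat_lit 0x40007000600010001000080000000000000000000000000000000) (nat_lit 0x0) (nat_lit 0x1900000000000000000000000000000000000000000000) := D_29 (nat_lit 179) (nat_lit 176) (nat_lit 180) (nat_lit 1) (nat_lit 9) (nat_lit 10) (nat_lit 1) (nat_lit 10) (nat_lit 10) (by decide +kernel)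
theorem L79808 : W_29 (nat_lit 2) (nat_lit 0x68007000200004001a00080000000000000000000000000000000) (nat_lit 0x0) (nat_lit 0x2000400100000000000000000000000000000000) := D_29 (nat_lit 142) (nat_lit 128) (nat_lit 157) (nat_lit 2) (nat_lit 5) (nat_lit 8) (nat_lit 1) (nat_lit 8) (nat_lit 8) (by decide +kernel)
theorem L79809 : W_29 (nat_lit 2) (nat_lit 0x60007000280004001800080000000000000000000000000000000) (nat_lit 0x0) (nat_lit 0x200018000000000000000000000000000000000000000000000000000) := D_29 (nat_lit 208) (nat_lit 207) (nat_lit 225) (nat_lit 2) (nat_lit 3) (nat_lit 12) (nat_lit 5) (nat_lit 5) (nat_lit 9) (by decide +kernel)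
theorem L79810 : W_29 (nat_lit 3) (nat_lit 0x60007000200004001800080000000000000000000000000000000) (nat_lit 0x0) (nat_lit 0x200018000000080000000200000000000000000000000000000000000) := T_29 (nat_lit 175) (nat_lit 141) (nat_lit 7) (nat_lit 5) (nat_lit 8) L79809 (by decide +kernel)
theorem L80042 : W_29 (nat_lit 2) (nat_lit 0x40006000200010001000080000000000000000000000000000000) (nat_lit 0x0) (nat_lit 0x800080000000100000000000000000000000000000000000000000000) := D_29 (nat_lit 227) (nat_lit 211) (nat_lit 176) (nat_lit 5) (nat_lit 7) (nat_lit 9) (nat_lit 6) (nat_lit 6) (nat_lit 13) (by decide +kernel)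
theorem L80043 : W_29 (nat_lit 3) (nat_lit 0x40006000200000001000080000000000000000000000000000000) (nat_lit 0x0) (nat_lit 0x800080000000100010000800000000000000000000000000000000000) := T_29 (nat_lit 160) (nat_lit 143) (nat_lit 6) (nat_lit 7) (nat_lit 11) L80042 (by decide +kernel)
theorem L80045 : W_29 (nat_lit 2) (nat_lit 0x5000000014007f000280000001200080000000000000000000000000000000) (nat_lit 0x0) (nat_lit 0x7000000000000000000000000000000000000000000000) := D_29 (nat_lit 181) (nat_lit 180) (nat_lit 182) (nat_lit 2) (nat_lit 7) (nat_lit 11) (nat_lit 2) (nat_lit 8) (nat_lit 11) (by decide +kernel)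
theorem L80046 : W_29 (nat_lit 3) (nat_lit 0x5000000014003f000280000001200080000000000000000000000000000000) (nat_lit 0x0) (nat_lit 0x40007400000000000000000000000000000000000000000000) := T_29 (nat_lit 198) (nat_lit 178) (nat_lit 0) (nat_lit 11) (nat_lit 11) L80045 (by decide +kernel)
theorem L80047 : W_29 (nat_lit 4) (nat_lit 0x5000000014001f000280000001200080000000000000000000000000000000) (nat_lit 0x0) (nat_lit 0x80060007400000000000000000000000000000000000000000000) := T_29 (nat_lit 197) (nat_lit 211) (nat_lit 1) (nat_lit 10) (nat_lit 11) L80046 (by decide +kernel)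
theorem L80048 : W_29 (nat_lit 5) (nat_lit 0x5000000014001f000280000001000080000000000000000000000000000000) (nat_lit 0x0) (nat_lit 0x80060007400004000200000000000000000000000000000000000) := T_29 (nat_lit 141) (nat_lit 158) (nat_lit 7) (nat_lit 5) (nat_lit 8) L80047 (by decide +kernel)
theorem L80049 : W_29 (nat_lit 6) (nat_lit 0x5000000014000f000280000001000080000000000000000000000000000000) (nat_lit 0x0) (nat_lit 0x80070007500004000200000000000000000000000000000000000) := T_29 (nat_lit 196) (nat_lit 176) (nat_lit 0) (nat_lit 9) (nat_lit 11) L80048 (by decide +kernel)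
theorem L80050 : W_29 (nat_lit 7) (nat_lit 0x5000000014000f000200000001000080000000000000000000000000000000) (nat_lit 0x0) (nat_lit 0x800700075c0004000200000000000000000000000000000000000) := T_29 (nat_lit 175) (nat_lit 174) (nat_lit 0) (nat_lit 8) (nat_lit 11) L80049 (by decide +kernel)
theorem L80051 : W_29 (nat_lit 8) (nat_lit 0x1000000014000f000200000001000080000000000000000000000000000000) (nat_lit 0x0) (nat_lit 0x400020000800700075c0004000200000000000000000000000000000000000) := T_29 (nat_lit 246) (nat_lit 229) (nat_lit 4) (nat_lit 8) (nat_lit 14) L80050 (by decide +kernel)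
theorem L80052 : W_29 (nat_lit 9) (nat_lit 0x1000000004000f000200000001000080000000000000000000000000000000) (nat_lit 0x0) (nat_lit 0x400020003800700075c0004000200000000000000000000000000000000000) := T_29 (nat_lit 212) (nat_lit 213) (nat_lit 3) (nat_lit 5) (nat_lit 11) L80051 (by decide +kernel)
theorem L80053 : W_29 (nat_lit 10) (nat_lit 0x4000f000200000001000080000000000000000000000000000000) (nat_lit 0x0) (nat_lit 0x500028003800700075c0004000200000000000000000000000000000000000) := T_29 (nat_lit 244) (nat_lit 227) (nat_lit 6) (nat_lit 6) (nat_lit 14) L80052 (by decide +kernel)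
theorem L80054 : W_29 (nat_lit 11) (nat_lit 0x40007000200000001000080000000000000000000000000000000) (nat_lit 0x0) (nat_lit 0x500028003b00780075c0004000200000000000000000000000000000000000) := Q_29 (nat_lit 195) (C_29 L80053 (C_29 L10152 (C_29 L79549 N_29))) (by decide +kernel)
theorem L80055 : W_29 (nat_lit 12) (nat_lit 0x40006000200000001000080000000000000000000000000000000) (nat_lit 0x0) (nat_lit 0x5c002f003bc079c075e0006000300000000000000000000000000000000000) := Q_29 (nat_lit 192) (C_29 L80054 (C_29 L79640 (C_29 L79642 (C_29 L79641 N_29)))) (by decide +kernel)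
theorem L80057 : W_29 (nat_lit 2) (nat_lit 0xc0006000200000001000080000000000000000000000000000000) (nat_lit 0x0) (nat_lit 0x10000800000000000000010000000000000000000000000000000000000000) := D_29 (nat_lit 227) (nat_lit 244) (nat_lit 160) (nat_lit 6) (nat_lit 6) (nat_lit 14) (nat_lit 5) (nat_lit 7) (nat_lit 9) (by decide +kernel)
theorem L80058 : W_29 (nat_lit 2) (nat_lit 0x20001c0006000200000001000080000000000000000000000000000000) (nat_lit 0x0) (nat_lit 0x800040000000000008000000000000000000000000000000000000000000000000) := D_29 (nat_lit 246) (nat_lit 263) (nat_lit 195) (nat_lit 4) (nat_lit 8) (nat_lit 15) (nat_lit 4) (nat_lit 8) (nat_lit 14) (by decide +kernel)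
theorem L80059 : W_29 (nat_lit 3) (nat_lit 0x1c0006000200000001000080000000000000000000000000000000) (nat_lit 0x0) (nat_lit 0x800040002000000008000000010000000000000000000000000000000000000000) := T_29 (nat_lit 229) (nat_lit 160) (nat_lit 7) (nat_lit 7) (nat_lit 9) L80058 (by decide +kernel)
theorem L80060 : W_29 (nat_lit 7) (nat_lit 0xc0006000200000001000080000000000000000000000000000000) (nat_lit 0x0) (nat_lit 0x800040002700738039000000010000000000000000000000000000000000000000) := Q_29 (nat_lit 212) (C_29 L78857 (C_29 L79501 (C_29 L80059 N_29))) (by decide +kernel)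
theorem L80061 : W_29 (nat_lit 10) (nat_lit 0x40006000200000001000080000000000000000000000000000000) (nat_lit 0x0) (nat_lit 0xb0005800ef007b8039c00000010000000000000000000000000000000000000000) := Q_29 (nat_lit 211) (C_29 L80057 (C_29 L78876 (C_29 L80060 N_29))) (by decide +kernel)
theorem L80062 : W_29 (nat_lit 6) (nat_lit 0x1000600014000f000680000001200080000000000000000000000000000000) (nat_lit 0x0) (nat_lit 0x720019001c80000000000000000000000000000000000000000000000000000) := T_29 (nat_lit 228) (nat_lit 245) (nat_lit 5) (nat_lit 8) (nat_lit 10) L78191 (by decide +kernel)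
theorem L80063 : W_29 (nat_lit 7) (nat_lit 0x1000600014000f000680000001000080000000000000000000000000000000) (nat_lit 0x0) (nat_lit 0x720019001c80000000000004000200000000000000000000000000000000000) := T_29 (nat_lit 141) (nat_lit 158) (nat_lit 7) (nat_lit 5) (nat_lit 8) L80062 (by decide +kernel)
theorem L80064 : W_29 (nat_lit 8) (nat_lit 0x1000200014000f000680000001000080000000000000000000000000000000) (nat_lit 0x0) (nat_lit 0x7a001d001c80000000000004000200000000000000000000000000000000000) := T_29 (nat_lit 230) (nat_lit 247) (nat_lit 7) (nat_lit 8) (nat_lit 10) L80063 (by decide +kernel)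
theorem L80065 : W_29 (nat_lit 9) (nat_lit 0x1000200014000f000600000001000080000000000000000000000000000000) (nat_lit 0x0) (nat_lit 0x7a001d001c800000000c0004000200000000000000000000000000000000000) := T_29 (nat_lit 175) (nat_lit 174) (nat_lit 0) (nat_lit 8) (nat_lit 11) L80064 (by decide +kernel)
theorem L80066 : W_29 (nat_lit 10) (nat_lit 0x1000000014000f000600000001000080000000000000000000000000000000) (nat_lit 0x0) (nat_lit 0x7e001f001c800000000c0004000200000000000000000000000000000000000) := T_29 (nat_lit 229) (nat_lit 246) (nat_lit 4) (nat_lit 8) (nat_lit 14) L80065 (by decide +kernel)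
theorem L80067 : W_29 (nat_lit 11) (nat_lit 0x1000000004000f000600000001000080000000000000000000000000000000) (nat_lit 0x0) (nat_lit 0x7e001f001f800000000c0004000200000000000000000000000000000000000) := T_29 (nat_lit 212) (nat_lit 213) (nat_lit 3) (nat_lit 5) (nat_lit 11) L80066 (by decide +kernel)
theorem L80068 : W_29 (nat_lit 12) (nat_lit 0x1000000004000f000200000001000080000000000000000000000000000000) (nat_lit 0x0) (nat_lit 0x7e001f001f80000000cc0004000200000000000000000000000000000000000) := T_29 (nat_lit 178) (nat_lit 179) (nat_lit 2) (nat_lit 5) (nat_lit 11) L80067 (by decide +kernel)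
theorem L80069 : W_29 (nat_lit 13) (nat_lit 0x4000f000200000001000080000000000000000000000000000000) (nat_lit 0x0) (nat_lit 0x7f001f801f80000000cc0004000200000000000000000000000000000000000) := T_29 (nat_lit 244) (nat_lit 227) (nat_lit 6) (nat_lit 6) (nat_lit 14) L80068 (by decide +kernel)
theorem L80071 : W_29 (nat_lit 2) (nat_lit 0x60007000200000001000080000000000000000000000000000000) (nat_lit 0x0) (nat_lit 0x10018000000000000000000000000000000000000000000000000) := D_29 (nat_lit 195) (nat_lit 208) (nat_lit 196) (nat_lit 1) (nat_lit 8) (nat_lit 11) (nat_lit 1) (nat_lit 9) (nat_lit 11) (by decide +kernel)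
theorem L80072 : W_29 (nat_lit 7) (nat_lit 0x60007000200000001000080000000000000000000000000000000) (nat_lit 0x0) (nat_lit 0x1c000f001980008000e0006000100000000000000000000000000000000000) := Q_29 (nat_lit 191) (C_29 L79638 (C_29 L79625 (C_29 L79629 (C_29 L79634 N_29)))) (by decide +kernel)
theorem L80073 : W_29 (nat_lit 2) (nat_lit 0x100000001e000f000280000001000080000000000000000000000000000000) (nat_lit 0x0) (nat_lit 0x40006000000000000000000000000000000000000000000000000000000000) := D_29 (nat_lit 229) (nat_lit 230) (nat_lit 246) (nat_lit 3) (nat_lit 5) (nat_lit 12) (nat_lit 4) (nat_lit 8) (nat_lit 14) (by decide +kernel)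
theorem L80074 : W_29 (nat_lit 3) (nat_lit 0x1000000016000f000280000001000080000000000000000000000000000000) (nat_lit 0x0) (nat_lit 0x40006000080000800000000000000000000000000000000000000000000000) := T_29 (nat_lit 211) (nat_lit 191) (nat_lit 3) (nat_lit 4) (nat_lit 11) L80073 (by decide +kernel)
theorem L80075 : W_29 (nat_lit 4) (nat_lit 0x1000000006000f000280000001000080000000000000000000000000000000) (nat_lit 0x0) (nat_lit 0x40006000380000800000000000000000000000000000000000000000000000) := T_29 (nat_lit 212) (nat_lit 213) (nat_lit 3) (nat_lit 5) (nat_lit 11) L80074 (by decide +kernel)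
theorem L80076 : W_29 (nat_lit 5) (nat_lit 0x1000000006000f000200000001000080000000000000000000000000000000) (nat_lit 0x0) (nat_lit 0x400060003800008000c0000000000000000000000000000000000000000000) := T_29 (nat_lit 175) (nat_lit 174) (nat_lit 0) (nat_lit 8) (nat_lit 11) L80075 (by decide +kernel)
theorem L80077 : W_29 (nat_lit 6) (nat_lit 0x10000000060007000200000001000080000000000000000000000000000000) (nat_lit 0x0) (nat_lit 0x400060003800188000c0000000000000000000000000000000000000000000) := T_29 (nat_lit 195) (nat_lit 196) (nat_lit 1) (nat_lit 9) (nat_lit 11) L80076 (by decide +kernel)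
theorem L80078 : W_29 (nat_lit 7) (nat_lit 0x60007000200000001000080000000000000000000000000000000) (nat_lit 0x0) (nat_lit 0x500068003800188000c0000000000000000000000000000000000000000000) := T_29 (nat_lit 244) (nat_lit 227) (nat_lit 6) (nat_lit 6) (nat_lit 14) L80077 (by decide +kernel)
theorem L80079 : W_29 (nat_lit 8) (nat_lit 0x40007000200000001000080000000000000000000000000000000) (nat_lit 0x0) (nat_lit 0x5c006f003b80188000e0006000100000000000000000000000000000000000) := Q_29 (nat_lit 209) (C_29 L80071 (C_29 L80072 (C_29 L80078 N_29))) (by decide +kernel)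
theorem L80080 : W_29 (nat_lit 2) (nat_lit 0x10000000050007800240000001000080000000000000000000000000000000) (nat_lit 0x0) (nat_lit 0x20008000080000000000000000000000000000000000000000000) := D_29 (nat_lit 195) (nat_lit 209) (nat_lit 175) (nat_lit 1) (nat_lit 8) (nat_lit 11) (nat_lit 0) (nat_lit 8) (nat_lit 11) (by decide +kernel)
theorem L80081 : W_29 (nat_lit 3) (nat_lit 0x10000000050007800200000001000080000000000000000000000000000000) (nat_lit 0x0) (nat_lit 0x200080000e0000000000000000000000000000000000000000000) := T_29 (nat_lit 174) (nat_lit 173) (nat_lit 0) (nat_lit 7) (nat_lit 11) L80080 (by decide +kernel)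
theorem L80082 : W_29 (nat_lit 4) (nat_lit 0x10000000040007800200000001000080000000000000000000000000000000) (nat_lit 0x0) (nat_lit 0x380080000e0000000000000000000000000000000000000000000) := T_29 (nat_lit 208) (nat_lit 207) (nat_lit 1) (nat_lit 7) (nat_lit 11) L80081 (by decide +kernel)
theorem L80083 : W_29 (nat_lit 5) (nat_lit 0x10000000040007000200000001000080000000000000000000000000000000) (nat_lit 0x0) (nat_lit 0x380088004e0000000000000000000000000000000000000000000) := T_29 (nat_lit 191) (nat_lit 178) (nat_lit 2) (nat_lit 4) (nat_lit 11) L80082 (by decide +kernel)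
theorem L80084 : W_29 (nat_lit 6) (nat_lit 0x40007000200000001000080000000000000000000000000000000) (nat_lit 0x0) (nat_lit 0x100008000380088004e0000000000000000000000000000000000000000000) := T_29 (nat_lit 244) (nat_lit 227) (nat_lit 6) (nat_lit 6) (nat_lit 14) L80083 (by decide +kernel)
theorem L80086 : W_29 (nat_lit 2) (nat_lit 0x1000000014000f000600000001000080000000000000000000000000000000) (nat_lit 0x0) (nat_lit 0x2000000000000000010000800000000000000000000000000000000000) := D_29 (nat_lit 160) (nat_lit 143) (nat_lit 229) (nat_lit 7) (nat_lit 7) (nat_lit 8) (nat_lit 4) (nat_lit 8) (nat_lit 13) (by decide +kernel)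
theorem L80087 : W_29 (nat_lit 3) (nat_lit 0x1000000004000f000600000001000080000000000000000000000000000000) (nat_lit 0x0) (nat_lit 0x2000300000000000010000800000000000000000000000000000000000) := T_29 (nat_lit 212) (nat_lit 213) (nat_lit 3) (nat_lit 5) (nat_lit 11) L80086 (by decide +kernel)
theorem L80088 : W_29 (nat_lit 4) (nat_lit 0x1000000004000f000200000001000080000000000000000000000000000000) (nat_lit 0x0) (nat_lit 0x2000300000000c00010000800000000000000000000000000000000000) := T_29 (nat_lit 178) (nat_lit 179) (nat_lit 2) (nat_lit 5) (nat_lit 11) L80087 (by decide +kernel)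
theorem L80089 : W_29 (nat_lit 5) (nat_lit 0x4000f000200000001000080000000000000000000000000000000) (nat_lit 0x0) (nat_lit 0x10002800300000000c00010000800000000000000000000000000000000000) := T_29 (nat_lit 244) (nat_lit 227) (nat_lit 6) (nat_lit 6) (nat_lit 14) L80088 (by decide +kernel)
theorem L80090 : W_29 (nat_lit 6) (nat_lit 0x40007000200000001000080000000000000000000000000000000) (nat_lit 0x0) (nat_lit 0x10002800330018000c00010000800000000000000000000000000000000000) := Q_29 (nat_lit 195) (C_29 L80089 (C_29 L10152 N_29)) (by decide +kernel)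
theorem L80091 : W_29 (nat_lit 2) (nat_lit 0x100006800680070002c0000001800080000000000000000000000000000000) (nat_lit 0x0) (nat_lit 0x800030000000000000000000000000000000000000000000) := D_29 (nat_lit 173) (nat_lit 172) (nat_lit 191) (nat_lit 3) (nat_lit 2) (nat_lit 10) (nat_lit 0) (nat_lit 7) (nat_lit 11) (by decide +kernel)
theorem L80092 : W_29 (nat_lit 3) (nat_lit 0x10000680068007000280000001800080000000000000000000000000000000) (nat_lit 0x0) (nat_lit 0x800070002000000000000000000000000000000000000000) := T_29 (nat_lit 174) (nat_lit 157) (nat_lit 4) (nat_lit 5) (nat_lit 13) L80091 (by decide +kernel)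
theorem L80093 : W_29 (nat_lit 4) (nat_lit 0x10000600068007000280000001800080000000000000000000000000000000) (nat_lit 0x0) (nat_lit 0x180000000800070002000000000000000000000000000000000000000) := T_29 (nat_lit 223) (nat_lit 224) (nat_lit 2) (nat_lit 2) (nat_lit 13) L80092 (by decide +kernel)
theorem L80094 : W_29 (nat_lit 5) (nat_lit 0x10000400068007000280000001800080000000000000000000000000000000) (nat_lit 0x0) (nat_lit 0x4000380000000800070002000000000000000000000000000000000000000) := T_29 (nat_lit 225) (nat_lit 242) (nat_lit 5) (nat_lit 5) (nat_lit 10) L80093 (by decide +kernel)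
theorem L80095 : W_29 (nat_lit 6) (nat_lit 0x10000400060007000280000001800080000000000000000000000000000000) (nat_lit 0x0) (nat_lit 0x4000380018000800070002000000000000000000000000000000000000000) := T_29 (nat_lit 207) (nat_lit 208) (nat_lit 2) (nat_lit 3) (nat_lit 12) L80094 (by decide +kernel)
theorem L80096 : W_29 (nat_lit 7) (nat_lit 0x10000400060007000280000001000080000000000000000000000000000000) (nat_lit 0x0) (nat_lit 0x4000380018000800070012000800000000000000000000000000000000000) := T_29 (nat_lit 143) (nat_lit 160) (nat_lit 6) (nat_lit 7) (nat_lit 11) L80095 (by decide +kernel)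
theorem L80097 : W_29 (nat_lit 8) (nat_lit 0x400060007000280000001000080000000000000000000000000000000) (nat_lit 0x0) (nat_lit 0x14000b80018000800070012000800000000000000000000000000000000000) := T_29 (nat_lit 244) (nat_lit 227) (nat_lit 7) (nat_lit 5) (nat_lit 10) L80096 (by decide +kernel)
theorem L80098 : W_29 (nat_lit 9) (nat_lit 0x60007000280000001000080000000000000000000000000000000) (nat_lit 0x0) (nat_lit 0x38001c000f80018000800070012000800000000000000000000000000000000000) := Q_29 (nat_lit 226) (C_29 L79800 (C_29 L79654 (C_29 L79649 (C_29 L80097 N_29)))) (by decide +kernel)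
theorem L80099 : W_29 (nat_lit 10) (nat_lit 0x60007000200000001000080000000000000000000000000000000) (nat_lit 0x0) (nat_lit 0x38001c000f800180008000f0017000f0011c000000000000000000000000000000) := Q_29 (nat_lit 175) (C_29 L79706 (C_29 L79797 (C_29 L80098 N_29))) (by decide +kernel)
theorem L80100 : W_29 (nat_lit 2) (nat_lit 0x80006000f000200000001000080000000000000000000000000000000) (nat_lit 0x0) (nat_lit 0xc0004000000000000000000000000000000000000000) := D_29 (nat_lit 175) (nat_lit 158) (nat_lit 174) (nat_lit 7) (nat_lit 5) (nat_lit 9) (nat_lit 0) (nat_lit 8) (nat_lit 11) (by decide +kernel)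
theorem L80101 : W_29 (nat_lit 3) (nat_lit 0x800060007000200000001000080000000000000000000000000000000) (nat_lit 0x0) (nat_lit 0x180000c0004000000000000000000000000000000000000000) := T_29 (nat_lit 195) (nat_lit 196) (nat_lit 1) (nat_lit 9) (nat_lit 11) L80100 (by decide +kernel)
theorem L80102 : W_29 (nat_lit 4) (nat_lit 0x60007000200000001000080000000000000000000000000000000) (nat_lit 0x0) (nat_lit 0x100008000000180000c0004000000000000000000000000000000000000000) := T_29 (nat_lit 227) (nat_lit 244) (nat_lit 6) (nat_lit 6) (nat_lit 14) L80101 (by decide +kernel)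
theorem L80103 : W_29 (nat_lit 11) (nat_lit 0x40007000200000001000080000000000000000000000000000000) (nat_lit 0x0) (nat_lit 0x38001c000f800380188000f0017000f0011c000000000000000000000000000000) := Q_29 (nat_lit 209) (C_29 L80071 (C_29 L80099 (C_29 L80102 N_29))) (by decide +kernel)
theorem L80104 : W_29 (nat_lit 2) (nat_lit 0x10000000048007f00240010001000080000000000000000000000000000000) (nat_lit 0x0) (nat_lit 0x1c000000000000000000000000000000000000000000) := D_29 (nat_lit 171) (nat_lit 172) (nat_lit 170) (nat_lit 0) (nat_lit 5) (nat_lit 11) (nat_lit 0) (nat_lit 4) (nat_lit 11) (by decide +kernel)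
theorem L80105 : W_29 (nat_lit 3) (nat_lit 0x10000000048007e00240010001000080000000000000000000000000000000) (nat_lit 0x0) (nat_lit 0x10009c000000000000000000000000000000000000000000) := T_29 (nat_lit 188) (nat_lit 175) (nat_lit 2) (nat_lit 1) (nat_lit 11) L80104 (by decide +kernel)
theorem L80106 : W_29 (nat_lit 4) (nat_lit 0x10000000048007c00240010001000080000000000000000000000000000000) (nat_lit 0x0) (nat_lit 0x2000030009c000000000000000000000000000000000000000000) := T_29 (nat_lit 189) (nat_lit 209) (nat_lit 3) (nat_lit 2) (nat_lit 11) L80105 (by decide +kernel)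
theorem L80107 : W_29 (nat_lit 5) (nat_lit 0x10000000048007800240010001000080000000000000000000000000000000) (nat_lit 0x0) (nat_lit 0x2400070009c000000000000000000000000000000000000000000) := T_29 (nat_lit 190) (nat_lit 206) (nat_lit 1) (nat_lit 6) (nat_lit 11) L80106 (by decide +kernel)
theorem L80108 : W_29 (nat_lit 6) (nat_lit 0x10000000048007800200010001000080000000000000000000000000000000) (nat_lit 0x0) (nat_lit 0x240007000fc000000000000000000000000000000000000000000) := T_29 (nat_lit 174) (nat_lit 173) (nat_lit 0) (nat_lit 7) (nat_lit 11) L80107 (by decide +kernel)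
theorem L80109 : W_29 (nat_lit 7) (nat_lit 0x10000000040007800200010001000080000000000000000000000000000000) (nat_lit 0x0) (nat_lit 0x3c0007000fc000000000000000000000000000000000000000000) := T_29 (nat_lit 207) (nat_lit 208) (nat_lit 1) (nat_lit 7) (nat_lit 11) L80108 (by decide +kernel)
theorem L80110 : W_29 (nat_lit 8) (nat_lit 0x10000000040007000200010001000080000000000000000000000000000000) (nat_lit 0x0) (nat_lit 0x3c000f004fc000000000000000000000000000000000000000000) := T_29 (nat_lit 191) (nat_lit 178) (nat_lit 2) (nat_lit 4) (nat_lit 11) L80109 (by decide +kernel)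
theorem L80111 : W_29 (nat_lit 9) (nat_lit 0x10000000040007000200000001000080000000000000000000000000000000) (nat_lit 0x0) (nat_lit 0x3c000f004fc010000800000000000000000000000000000000000) := T_29 (nat_lit 160) (nat_lit 143) (nat_lit 6) (nat_lit 7) (nat_lit 11) L80110 (by decide +kernel)
theorem L80112 : W_29 (nat_lit 10) (nat_lit 0x40007000200000001000080000000000000000000000000000000) (nat_lit 0x0) (nat_lit 0x1000080003c000f004fc010000800000000000000000000000000000000000) := T_29 (nat_lit 244) (nat_lit 227) (nat_lit 6) (nat_lit 6) (nat_lit 14) L80111 (by decide +kernel)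
theorem L80113 : W_29 (nat_lit 4) (nat_lit 0x50007800240010001000080000000000000000000000000000000) (nat_lit 0x0) (nat_lit 0x10000a00000008000080004000200000000000000000000000000000000000) := T_29 (nat_lit 244) (nat_lit 227) (nat_lit 6) (nat_lit 6) (nat_lit 14) L10155 (by decide +kernel)
theorem L80114 : W_29 (nat_lit 5) (nat_lit 0x50007800200010001000080000000000000000000000000000000) (nat_lit 0x0) (nat_lit 0x10000a000000080000e0004000200000000000000000000000000000000000) := T_29 (nat_lit 174) (nat_lit 173) (nat_lit 0) (nat_lit 7) (nat_lit 11) L80113 (by decide +kernel)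
theorem L80115 : W_29 (nat_lit 6) (nat_lit 0x40007800200010001000080000000000000000000000000000000) (nat_lit 0x0) (nat_lit 0x10000a000180080000e0004000200000000000000000000000000000000000) := T_29 (nat_lit 208) (nat_lit 207) (nat_lit 1) (nat_lit 7) (nat_lit 11) L80114 (by decide +kernel)
theorem L80116 : W_29 (nat_lit 7) (nat_lit 0x40007000200010001000080000000000000000000000000000000) (nat_lit 0x0) (nat_lit 0x10000a000180088004e0004000200000000000000000000000000000000000) := T_29 (nat_lit 191) (nat_lit 178) (nat_lit 2) (nat_lit 4) (nat_lit 11) L80115 (by decide +kernel)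
theorem L80117 : W_29 (nat_lit 8) (nat_lit 0x40007000200000001000080000000000000000000000000000000) (nat_lit 0x0) (nat_lit 0x10000a000180088004e0014000a00000000000000000000000000000000000) := T_29 (nat_lit 160) (nat_lit 143) (nat_lit 6) (nat_lit 7) (nat_lit 11) L80116 (by decide +kernel)
theorem L80118 : W_29 (nat_lit 12) (nat_lit 0x40006000200000001000080000000000000000000000000000000) (nat_lit 0x0) (nat_lit 0x38001c002f8073c019f00cfc017000f0011c000000000000000000000000000000) := Q_29 (nat_lit 192) (C_29 L80090 (C_29 L80103 (C_29 L80084 (C_29 L80112 (C_29 L10123 (C_29 L80117 (C_29 L10174 N_29))))))) (by decide +kernel)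
theorem L80119 : W_29 (nat_lit 2) (nat_lit 0x14000f000280010001000080000000000000000000000000000000) (nat_lit 0x0) (nat_lit 0x2000080000000400000000000000000000000000000000000000000000) := D_29 (nat_lit 229) (nat_lit 211) (nat_lit 178) (nat_lit 7) (nat_lit 7) (nat_lit 9) (nat_lit 4) (nat_lit 8) (nat_lit 13) (by decide +kernel)
theorem L80120 : W_29 (nat_lit 3) (nat_lit 0x4000f000280010001000080000000000000000000000000000000) (nat_lit 0x0) (nat_lit 0x2000380000000400000000000000000000000000000000000000000000) := T_29 (nat_lit 212) (nat_lit 213) (nat_lit 3) (nat_lit 5) (nat_lit 11) L80119 (by decide +kernel)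
theorem L80121 : W_29 (nat_lit 4) (nat_lit 0x4000f000200010001000080000000000000000000000000000000) (nat_lit 0x0) (nat_lit 0x20003800000004c0000000000000000000000000000000000000000000) := T_29 (nat_lit 175) (nat_lit 174) (nat_lit 0) (nat_lit 8) (nat_lit 11) L80120 (by decide +kernel)
theorem L80122 : W_29 (nat_lit 5) (nat_lit 0x4000f000200000001000080000000000000000000000000000000) (nat_lit 0x0) (nat_lit 0x20003800000004c0010000800000000000000000000000000000000000) := T_29 (nat_lit 160) (nat_lit 143) (nat_lit 6) (nat_lit 7) (nat_lit 11) L80121 (by decide +kernel)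
theorem L80123 : W_29 (nat_lit 6) (nat_lit 0x4000e000200000001000080000000000000000000000000000000) (nat_lit 0x0) (nat_lit 0x20003b8001800ce0010000800000000000000000000000000000000000) := Q_29 (nat_lit 192) (C_29 L79544 (C_29 L10243 (C_29 L10064 (C_29 L80122 N_29)))) (by decide +kernel)
theorem L80124 : W_29 (nat_lit 6) (nat_lit 0x4000e000200000001000080000000000000000000000000000000) (nat_lit 0x0) (nat_lit 0x2000380001800ce0010000800000000000000000000000000000000000) := Q_29 (nat_lit 192) (C_29 L80122 (C_29 L79544 (C_29 L10064 N_29))) (by decide +kernel)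
theorem L80125 : W_29 (nat_lit 7) (nat_lit 0x40006000200000001000080000000000000000000000000000000) (nat_lit 0x0) (nat_lit 0x2000fb8039803ce0010000800000000000000000000000000000000000) := Q_29 (nat_lit 195) (C_29 L79568 (C_29 L10063 (C_29 L80123 (C_29 L10085 (C_29 L80124 N_29))))) (by decide +kernel)
theorem L80139 : W_29 (nat_lit 2) (nat_lit 0x700014000f000600000001000080000000000000000000000000000000) (nat_lit 0x0) (nat_lit 0xb0000000000000000000000000000000000000000000000000000) := D_29 (nat_lit 209) (nat_lit 211) (nat_lit 208) (nat_lit 3) (nat_lit 5) (nat_lit 12) (nat_lit 1) (nat_lit 8) (nat_lit 11) (by decide +kernel)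
theorem L80140 : W_29 (nat_lit 3) (nat_lit 0x300014000f000600000001000080000000000000000000000000000000) (nat_lit 0x0) (nat_lit 0x800040000b0000000000000000000000000000000000000000000000000000) := T_29 (nat_lit 230) (nat_lit 247) (nat_lit 7) (nat_lit 8) (nat_lit 10) L80139 (by decide +kernel)
theorem L80141 : W_29 (nat_lit 4) (nat_lit 0x200014000f000600000001000080000000000000000000000000000000) (nat_lit 0x0) (nat_lit 0xa00050000b0000000000000000000000000000000000000000000000000000) := T_29 (nat_lit 228) (nat_lit 245) (nat_lit 5) (nat_lit 8) (nat_lit 10) L80140 (by decide +kernel)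
theorem L80142 : W_29 (nat_lit 5) (nat_lit 0x200014000f000200000001000080000000000000000000000000000000) (nat_lit 0x0) (nat_lit 0xa00050000b0000000c00000000000000000000000000000000000000000000) := T_29 (nat_lit 178) (nat_lit 179) (nat_lit 2) (nat_lit 5) (nat_lit 11) L80141 (by decide +kernel)
theorem L80143 : W_29 (nat_lit 6) (nat_lit 0x14000f000200000001000080000000000000000000000000000000) (nat_lit 0x0) (nat_lit 0xe00070000b0000000c00000000000000000000000000000000000000000000) := T_29 (nat_lit 229) (nat_lit 246) (nat_lit 4) (nat_lit 8) (nat_lit 14) L80142 (by decide +kernel)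
theorem L80144 : W_29 (nat_lit 7) (nat_lit 0x4000f000200000001000080000000000000000000000000000000) (nat_lit 0x0) (nat_lit 0xe00070003b0000000c00000000000000000000000000000000000000000000) := T_29 (nat_lit 212) (nat_lit 213) (nat_lit 3) (nat_lit 5) (nat_lit 11) L80143 (by decide +kernel)
theorem L80146 : W_29 (nat_lit 8) (nat_lit 0x40007000200000001000080000000000000000000000000000000) (nat_lit 0x0) (nat_lit 0x10000c001bc008c00160002000100000000000000000000000000000000000) := Q_29 (nat_lit 191) (C_29 L79621 (C_29 L79618 (C_29 L10473 N_29))) (by decide +kernel)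
theorem L80149 : W_29 (nat_lit 2) (nat_lit 0x4001f000a00010001000080000000000000000000000000000000) (nat_lit 0x0) (nat_lit 0x700000000000000000000000000000000000000000000000000000) := D_29 (nat_lit 213) (nat_lit 212) (nat_lit 214) (nat_lit 3) (nat_lit 5) (nat_lit 11) (nat_lit 3) (nat_lit 6) (nat_lit 11) (by decide +kernel)
theorem L80150 : W_29 (nat_lit 3) (nat_lit 0x4001e000a00010001000080000000000000000000000000000000) (nat_lit 0x0) (nat_lit 0x700001000400000000000000000000000000000000000000000000) := T_29 (nat_lit 192) (nat_lit 178) (nat_lit 2) (nat_lit 5) (nat_lit 11) L80149 (by decide +kernel)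
theorem L80151 : W_29 (nat_lit 4) (nat_lit 0x4001e000200010001000080000000000000000000000000000000) (nat_lit 0x0) (nat_lit 0x700001001c00000000000000000000000000000000000000000000) := T_29 (nat_lit 179) (nat_lit 180) (nat_lit 2) (nat_lit 6) (nat_lit 11) L80150 (by decide +kernel)
theorem L80152 : W_29 (nat_lit 5) (nat_lit 0x4001e000200000001000080000000000000000000000000000000) (nat_lit 0x0) (nat_lit 0x700001001c00010000800000000000000000000000000000000000) := T_29 (nat_lit 160) (nat_lit 143) (nat_lit 6) (nat_lit 7) (nat_lit 11) L80151 (by decide +kernel)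
theorem L80153 : W_29 (nat_lit 6) (nat_lit 0x4000e000200000001000080000000000000000000000000000000) (nat_lit 0x0) (nat_lit 0x780031003d00010000800000000000000000000000000000000000) := Q_29 (nat_lit 196) (C_29 L10062 (C_29 L79554 (C_29 L80152 N_29))) (by decide +kernel)
theorem L80159 : W_29 (nat_lit 2) (nat_lit 0x4000000010001f000280000001000080000000000000000000000000000000) (nat_lit 0x0) (nat_lit 0x1c00000000000000000000000000000000000000000000) := D_29 (nat_lit 179) (nat_lit 178) (nat_lit 180) (nat_lit 2) (nat_lit 5) (nat_lit 11) (nat_lit 2) (nat_lit 6) (nat_lit 11) (by decide +kernel)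
theorem L80160 : W_29 (nat_lit 3) (nat_lit 0x4000000010000f000280000001000080000000000000000000000000000000) (nat_lit 0x0) (nat_lit 0x10001d00000000000000000000000000000000000000000000) := T_29 (nat_lit 196) (nat_lit 176) (nat_lit 0) (nat_lit 9) (nat_lit 11) L80159 (by decide +kernel)
theorem L80161 : W_29 (nat_lit 4) (nat_lit 0x10000f000280000001000080000000000000000000000000000000) (nat_lit 0x0) (nat_lit 0x40002000000010001d00000000000000000000000000000000000000000000) := T_29 (nat_lit 246) (nat_lit 229) (nat_lit 4) (nat_lit 8) (nat_lit 14) L80160 (by decide +kernel)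
theorem L80162 : W_29 (nat_lit 5) (nat_lit 0x10000f000200000001000080000000000000000000000000000000) (nat_lit 0x0) (nat_lit 0x40002000000010001dc0000000000000000000000000000000000000000000) := T_29 (nat_lit 175) (nat_lit 174) (nat_lit 0) (nat_lit 8) (nat_lit 11) L80161 (by decide +kernel)
theorem L80163 : W_29 (nat_lit 6) (nat_lit 0xf000200000001000080000000000000000000000000000000) (nat_lit 0x0) (nat_lit 0x40002000300010001dc0000000000000000000000000000000000000000000) := T_29 (nat_lit 212) (nat_lit 213) (nat_lit 3) (nat_lit 5) (nat_lit 11) L80162 (by decide +kernel)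
theorem L80166 : W_29 (nat_lit 6) (nat_lit 0x12000f000240010001000080000000000000000000000000000000) (nat_lit 0x0) (nat_lit 0x4000200004e000e00120000000000000000000000000000000000000000000) := T_29 (nat_lit 246) (nat_lit 229) (nat_lit 4) (nat_lit 8) (nat_lit 14) L8041 (by decide +kernel)
theorem L80167 : W_29 (nat_lit 7) (nat_lit 0x12000f000200010001000080000000000000000000000000000000) (nat_lit 0x0) (nat_lit 0x4000200004e000e001e0000000000000000000000000000000000000000000) := T_29 (nat_lit 174) (nat_lit 175) (nat_lit 0) (nat_lit 8) (nat_lit 11) L80166 (by decide +kernel)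
theorem L80168 : W_29 (nat_lit 8) (nat_lit 0x2000f000200010001000080000000000000000000000000000000) (nat_lit 0x0) (nat_lit 0x4000200034e000e001e0000000000000000000000000000000000000000000) := T_29 (nat_lit 212) (nat_lit 213) (nat_lit 3) (nat_lit 5) (nat_lit 11) L80167 (by decide +kernel)
theorem L80169 : W_29 (nat_lit 9) (nat_lit 0x2000f000200000001000080000000000000000000000000000000) (nat_lit 0x0) (nat_lit 0x4000200034e000e001e0010000800000000000000000000000000000000000) := T_29 (nat_lit 160) (nat_lit 143) (nat_lit 6) (nat_lit 7) (nat_lit 11) L80168 (by decide +kernel)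
theorem L80170 : W_29 (nat_lit 10) (nat_lit 0xf000200000001000080000000000000000000000000000000) (nat_lit 0x0) (nat_lit 0x4000200037e000e001e0010000800000000000000000000000000000000000) := T_29 (nat_lit 209) (nat_lit 208) (nat_lit 1) (nat_lit 8) (nat_lit 11) L80169 (by decide +kernel)
theorem L80171 : W_29 (nat_lit 2) (nat_lit 0x2001f000280010001000080000000000000000000000000000000) (nat_lit 0x0) (nat_lit 0x700000000000000000000000000000000000000000000000000000) := D_29 (nat_lit 213) (nat_lit 212) (nat_lit 214) (nat_lit 3) (nat_lit 5) (nat_lit 11) (nat_lit 3) (nat_lit 6) (nat_lit 11) (by decide +kernel)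
theorem L80172 : W_29 (nat_lit 3) (nat_lit 0x2000f000280010001000080000000000000000000000000000000) (nat_lit 0x0) (nat_lit 0x700010000100000000000000000000000000000000000000000000) := T_29 (nat_lit 196) (nat_lit 176) (nat_lit 0) (nat_lit 9) (nat_lit 11) L80171 (by decide +kernel)
theorem L80173 : W_29 (nat_lit 4) (nat_lit 0x2000f000280000001000080000000000000000000000000000000) (nat_lit 0x0) (nat_lit 0x700010000100010000800000000000000000000000000000000000) := T_29 (nat_lit 160) (nat_lit 143) (nat_lit 6) (nat_lit 7) (nat_lit 11) L80172 (by decide +kernel)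
theorem L80174 : W_29 (nat_lit 5) (nat_lit 0x2000f000200000001000080000000000000000000000000000000) (nat_lit 0x0) (nat_lit 0x7000100001c0010000800000000000000000000000000000000000) := T_29 (nat_lit 175) (nat_lit 174) (nat_lit 0) (nat_lit 8) (nat_lit 11) L80173 (by decide +kernel)
theorem L80175 : W_29 (nat_lit 6) (nat_lit 0xf000200000001000080000000000000000000000000000000) (nat_lit 0x0) (nat_lit 0x7300100001c0010000800000000000000000000000000000000000) := T_29 (nat_lit 209) (nat_lit 208) (nat_lit 1) (nat_lit 8) (nat_lit 11) L80174 (by decide +kernel)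
theorem L80176 : W_29 (nat_lit 2) (nat_lit 0x2001f000200010001000080000000000000000000000000000000) (nat_lit 0x0) (nat_lit 0x20000180000000000000000000000000000000000000000000) := D_29 (nat_lit 176) (nat_lit 197) (nat_lit 175) (nat_lit 0) (nat_lit 10) (nat_lit 11) (nat_lit 0) (nat_lit 9) (nat_lit 11) (by decide +kernel)
theorem L80177 : W_29 (nat_lit 3) (nat_lit 0x2000f000200010001000080000000000000000000000000000000) (nat_lit 0x0) (nat_lit 0x40030000180000000000000000000000000000000000000000000) := T_29 (nat_lit 196) (nat_lit 210) (nat_lit 1) (nat_lit 9) (nat_lit 11) L80176 (by decide +kernel)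
theorem L80178 : W_29 (nat_lit 4) (nat_lit 0x2000f000200000001000080000000000000000000000000000000) (nat_lit 0x0) (nat_lit 0x40030000180010000800000000000000000000000000000000000) := T_29 (nat_lit 160) (nat_lit 143) (nat_lit 6) (nat_lit 7) (nat_lit 11) L80177 (by decide +kernel)
theorem L80179 : W_29 (nat_lit 5) (nat_lit 0xf000200000001000080000000000000000000000000000000) (nat_lit 0x0) (nat_lit 0x70030000180010000800000000000000000000000000000000000) := T_29 (nat_lit 209) (nat_lit 208) (nat_lit 1) (nat_lit 8) (nat_lit 11) L80178 (by decide +kernel)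
theorem L80180 : W_29 (nat_lit 2) (nat_lit 0x4000000010800f800240010001000080000000000000000000000000000000) (nat_lit 0x0) (nat_lit 0x4000400100000000000000000000000000000000000000000000) := D_29 (nat_lit 190) (nat_lit 176) (nat_lit 206) (nat_lit 2) (nat_lit 3) (nat_lit 11) (nat_lit 1) (nat_lit 6) (nat_lit 11) (by decide +kernel)
theorem L80181 : W_29 (nat_lit 3) (nat_lit 0x4000000010000f800240010001000080000000000000000000000000000000) (nat_lit 0x0) (nat_lit 0x1c000400100000000000000000000000000000000000000000000) := T_29 (nat_lit 207) (nat_lit 208) (nat_lit 1) (nat_lit 7) (nat_lit 11) L80180 (by decide +kernel)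
theorem L80182 : W_29 (nat_lit 4) (nat_lit 0x4000000010000f000240010001000080000000000000000000000000000000) (nat_lit 0x0) (nat_lit 0x1c000c00120000000000000000000000000000000000000000000) := T_29 (nat_lit 191) (nat_lit 173) (nat_lit 0) (nat_lit 7) (nat_lit 11) L80181 (by decide +kernel)
theorem L80183 : W_29 (nat_lit 5) (nat_lit 0x4000000010000f000200010001000080000000000000000000000000000000) (nat_lit 0x0) (nat_lit 0x1c000c001e0000000000000000000000000000000000000000000) := T_29 (nat_lit 174) (nat_lit 175) (nat_lit 0) (nat_lit 8) (nat_lit 11) L80182 (by decide +kernel)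
theorem L80184 : W_29 (nat_lit 6) (nat_lit 0x10000f000200010001000080000000000000000000000000000000) (nat_lit 0x0) (nat_lit 0x4000200001c000c001e0000000000000000000000000000000000000000000) := T_29 (nat_lit 246) (nat_lit 229) (nat_lit 4) (nat_lit 8) (nat_lit 14) L80183 (by decide +kernel)
theorem L80185 : W_29 (nat_lit 7) (nat_lit 0x10000f000200000001000080000000000000000000000000000000) (nat_lit 0x0) (nat_lit 0x4000200001c000c001e0010000800000000000000000000000000000000000) := T_29 (nat_lit 160) (nat_lit 143) (nat_lit 7) (nat_lit 7) (nat_lit 8) L80184 (by decide +kernel)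
theorem L80186 : W_29 (nat_lit 8) (nat_lit 0xf000200000001000080000000000000000000000000000000) (nat_lit 0x0) (nat_lit 0x4000200031c000c001e0010000800000000000000000000000000000000000) := T_29 (nat_lit 212) (nat_lit 213) (nat_lit 3) (nat_lit 5) (nat_lit 11) L80185 (by decide +kernel)
theorem L80187 : W_29 (nat_lit 11) (nat_lit 0x7000200000001000080000000000000000000000000000000) (nat_lit 0x0) (nat_lit 0x5000280077e038e001e0014000800000000000000000000000000000000000) := Q_29 (nat_lit 195) (C_29 L8029 (C_29 L16641 (C_29 L80170 (C_29 L10288 (C_29 L80175 (C_29 L80179 (C_29 L80186 (C_29 L10292 N_29)))))))) (by decide +kernel)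
theorem L80188 : W_29 (nat_lit 12) (nat_lit 0x6000200000001000080000000000000000000000000000000) (nat_lit 0x0) (nat_lit 0x5000280077e079e00df0014000800000000000000000000000000000000000) := Q_29 (nat_lit 192) (C_29 L10059 (C_29 L79615 (C_29 L80187 (C_29 L10284 (C_29 L10037 N_29))))) (by decide +kernel)
theorem L80189 : W_29 (nat_lit 6) (nat_lit 0x7000200000001000080000000000000000000000000000000) (nat_lit 0x0) (nat_lit 0x1bc008c001f0000000000000000000000000000000000000000000) := Q_29 (nat_lit 191) (C_29 L10036 (C_29 L10044 (C_29 L10040 N_29))) (by decide +kernel)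
theorem L80190 : W_29 (nat_lit 9) (nat_lit 0x7000200000001000080000000000000000000000000000000) (nat_lit 0x0) (nat_lit 0x40002000f30078001dc0010000800000000000000000000000000000000000) := Q_29 (nat_lit 195) (C_29 L10292 (C_29 L80163 (C_29 L5280 (C_29 L10442 (C_29 L10446 N_29))))) (by decide +kernel)
theorem L80191 : W_29 (nat_lit 10) (nat_lit 0x6000200000001000080000000000000000000000000000000) (nat_lit 0x0) (nat_lit 0x40002000fbc079c01df0010000800000000000000000000000000000000000) := Q_29 (nat_lit 192) (C_29 L10037 (C_29 L80189 (C_29 L10284 (C_29 L10059 (C_29 L80190 N_29))))) (by decide +kernel)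
theorem L80192 : W_29 (nat_lit 5) (nat_lit 0x1000000004000f000200000001000080000000000000000000000000000000) (nat_lit 0x0) (nat_lit 0x80070000dc0000000000000000000000000000000000000000000) := T_29 (nat_lit 178) (nat_lit 179) (nat_lit 2) (nat_lit 5) (nat_lit 11) L10271 (by decide +kernel)
theorem L80193 : W_29 (nat_lit 6) (nat_lit 0x4000f000200000001000080000000000000000000000000000000) (nat_lit 0x0) (nat_lit 0x10000800080070000dc0000000000000000000000000000000000000000000) := T_29 (nat_lit 244) (nat_lit 227) (nat_lit 6) (nat_lit 6) (nat_lit 14) L80192 (by decide +kernel)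
theorem L80194 : W_29 (nat_lit 3) (nat_lit 0x4000f000280000001000080000000000000000000000000000000) (nat_lit 0x0) (nat_lit 0x10000800030000000000004000000000000000000000000000000000000000) := T_29 (nat_lit 209) (nat_lit 208) (nat_lit 1) (nat_lit 8) (nat_lit 11) L8983 (by decide +kernel)
theorem L80195 : W_29 (nat_lit 4) (nat_lit 0x4000f000200000001000080000000000000000000000000000000) (nat_lit 0x0) (nat_lit 0x100008000300000000c0004000000000000000000000000000000000000000) := T_29 (nat_lit 175) (nat_lit 174) (nat_lit 0) (nat_lit 8) (nat_lit 11) L80194 (by decide +kernel)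
theorem L80196 : W_29 (nat_lit 7) (nat_lit 0x40007000200000001000080000000000000000000000000000000) (nat_lit 0x0) (nat_lit 0x100008000b0078000dc0004000000000000000000000000000000000000000) := Q_29 (nat_lit 195) (C_29 L80193 (C_29 L10152 (C_29 L80195 N_29))) (by decide +kernel)
theorem L80197 : W_29 (nat_lit 9) (nat_lit 0x40007000200000001000080000000000000000000000000000000) (nat_lit 0x0) (nat_lit 0x18001c000e000380180001f0006000300000000000000000000000000000000000) := Q_29 (nat_lit 209) (C_29 L80071 (C_29 L80102 (C_29 L79768 N_29))) (by decide +kernel)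
theorem L80198 : W_29 (nat_lit 10) (nat_lit 0x40006000200000001000080000000000000000000000000000000) (nat_lit 0x0) (nat_lit 0x18001c000e000bc079c00df0006000300000000000000000000000000000000000) := Q_29 (nat_lit 192) (C_29 L80196 (C_29 L80197 (C_29 L79641 (C_29 L10123 (C_29 L10277 N_29))))) (by decide +kernel)
theorem L80199 : W_29 (nat_lit 2) (nat_lit 0x4001f000680000001800080000000000000000000000000000000) (nat_lit 0x0) (nat_lit 0x80060000000000000000000000000000000000000000000000000) := D_29 (nat_lit 197) (nat_lit 211) (nat_lit 198) (nat_lit 1) (nat_lit 10) (nat_lit 11) (nat_lit 0) (nat_lit 11) (nat_lit 11) (by decide +kernel)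
theorem L80200 : W_29 (nat_lit 3) (nat_lit 0x4000f000680000001800080000000000000000000000000000000) (nat_lit 0x0) (nat_lit 0x80070000100000000000000000000000000000000000000000000) := T_29 (nat_lit 196) (nat_lit 176) (nat_lit 3) (nat_lit 5) (nat_lit 10) L80199 (by decide +kernel)
theorem L80201 : W_29 (nat_lit 4) (nat_lit 0x4000f000600000001800080000000000000000000000000000000) (nat_lit 0x0) (nat_lit 0x800700001c0000000000000000000000000000000000000000000) := T_29 (nat_lit 175) (nat_lit 174) (nat_lit 0) (nat_lit 8) (nat_lit 11) L80200 (by decide +kernel)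
theorem L80202 : W_29 (nat_lit 5) (nat_lit 0x4000f000200000001800080000000000000000000000000000000) (nat_lit 0x0) (nat_lit 0x80070000dc0000000000000000000000000000000000000000000) := T_29 (nat_lit 178) (nat_lit 179) (nat_lit 2) (nat_lit 5) (nat_lit 11) L80201 (by decide +kernel)
theorem L80203 : W_29 (nat_lit 6) (nat_lit 0x4000f000200000001000080000000000000000000000000000000) (nat_lit 0x0) (nat_lit 0x80070000dc0010000800000000000000000000000000000000000) := T_29 (nat_lit 143) (nat_lit 160) (nat_lit 6) (nat_lit 7) (nat_lit 11) L80202 (by decide +kernel)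
theorem L80204 : W_29 (nat_lit 2) (nat_lit 0x6000f000280006001800080000000000000000000000000000000) (nat_lit 0x0) (nat_lit 0xd00000000000000000000000000000000000000000000) := D_29 (nat_lit 178) (nat_lit 176) (nat_lit 179) (nat_lit 0) (nat_lit 8) (nat_lit 10) (nat_lit 2) (nat_lit 5) (nat_lit 11) (by decide +kernel)
theorem L80205 : W_29 (nat_lit 3) (nat_lit 0x6000f000280004001800080000000000000000000000000000000) (nat_lit 0x0) (nat_lit 0xd00002000100000000000000000000000000000000000) := T_29 (nat_lit 157) (nat_lit 140) (nat_lit 4) (nat_lit 5) (nat_lit 12) L80204 (by decide +kernel)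
theorem L80206 : W_29 (nat_lit 4) (nat_lit 0x6000f000280004001000080000000000000000000000000000000) (nat_lit 0x0) (nat_lit 0xd00012000900000000000000000000000000000000000) := T_29 (nat_lit 143) (nat_lit 160) (nat_lit 6) (nat_lit 7) (nat_lit 11) L80205 (by decide +kernel)
theorem L80207 : W_29 (nat_lit 5) (nat_lit 0x6000f000280000001000080000000000000000000000000000000) (nat_lit 0x0) (nat_lit 0xd00016000b00000000000000000000000000000000000) := T_29 (nat_lit 158) (nat_lit 141) (nat_lit 7) (nat_lit 5) (nat_lit 8) L80206 (by decide +kernel)
theorem L80208 : W_29 (nat_lit 6) (nat_lit 0x4000f000280000001000080000000000000000000000000000000) (nat_lit 0x0) (nat_lit 0x30000000d00016000b00000000000000000000000000000000000) := T_29 (nat_lit 209) (nat_lit 208) (nat_lit 1) (nat_lit 8) (nat_lit 11) L80207 (by decide +kernel)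
theorem L80209 : W_29 (nat_lit 7) (nat_lit 0x4000f000200000001000080000000000000000000000000000000) (nat_lit 0x0) (nat_lit 0x30000000dc0016000b00000000000000000000000000000000000) := T_29 (nat_lit 175) (nat_lit 174) (nat_lit 0) (nat_lit 8) (nat_lit 11) L80208 (by decide +kernel)
theorem L80210 : W_29 (nat_lit 8) (nat_lit 0x40007000200000001000080000000000000000000000000000000) (nat_lit 0x0) (nat_lit 0xb0078000dc0016000b00000000000000000000000000000000000) := Q_29 (nat_lit 195) (C_29 L80203 (C_29 L10152 (C_29 L80209 N_29))) (by decide +kernel)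
theorem L80211 : W_29 (nat_lit 5) (nat_lit 0x40007000200000001000080000000000000000000000000000000) (nat_lit 0x0) (nat_lit 0xbc008c001e0010000800000000000000000000000000000000000) := Q_29 (nat_lit 191) (C_29 L79724 (C_29 L10122 (C_29 L79617 N_29))) (by decide +kernel)
theorem L80212 : W_29 (nat_lit 3) (nat_lit 0x40007000200000001000080000000000000000000000000000000) (nat_lit 0x0) (nat_lit 0x80000c00500000000000000000000000000000000000000000000) := T_29 (nat_lit 191) (nat_lit 178) (nat_lit 2) (nat_lit 4) (nat_lit 11) L79617 (by decide +kernel)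
theorem L80213 : W_29 (nat_lit 9) (nat_lit 0x40006000200000001000080000000000000000000000000000000) (nat_lit 0x0) (nat_lit 0xbc079c00de0016000b00000000000000000000000000000000000) := Q_29 (nat_lit 192) (C_29 L80210 (C_29 L80211 (C_29 L10123 (C_29 L79750 (C_29 L80212 N_29))))) (by decide +kernel)
theorem L80214 : W_29 (nat_lit 11) (nat_lit 0x6000200000001000080000000000000000000000000000000) (nat_lit 0x0) (nat_lit 0x18001c000e000fc079c00df0016000b00000000000000000000000000000000000) := Q_29 (nat_lit 210) (C_29 L80043 (C_29 L79529 (C_29 L10108 (C_29 L80198 (C_29 L79564 (C_29 L80213 N_29)))))) (by decide +kernel)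
theorem L80217 : W_29 (nat_lit 2) (nat_lit 0x38000c000e000200000001000080000000000000000000000000000000) (nat_lit 0x0) (nat_lit 0x4000030000000000000000000000000000000000000000000000000000) := D_29 (nat_lit 209) (nat_lit 208) (nat_lit 230) (nat_lit 3) (nat_lit 4) (nat_lit 12) (nat_lit 0) (nat_lit 9) (nat_lit 13) (by decide +kernel)
theorem L80218 : W_29 (nat_lit 3) (nat_lit 0x18000c000e000200000001000080000000000000000000000000000000) (nat_lit 0x0) (nat_lit 0x40006000030000000000000000000000000000000000000000000000000000) := T_29 (nat_lit 229) (nat_lit 246) (nat_lit 7) (nat_lit 7) (nat_lit 10) L80217 (by decide +kernel)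
theorem L80219 : W_29 (nat_lit 4) (nat_lit 0x10000c000e000200000001000080000000000000000000000000000000) (nat_lit 0x0) (nat_lit 0x50006800030000000000000000000000000000000000000000000000000000) := T_29 (nat_lit 227) (nat_lit 244) (nat_lit 6) (nat_lit 6) (nat_lit 14) L80218 (by decide +kernel)
theorem L80224 : W_29 (nat_lit 2) (nat_lit 0x1c0024001e000b00000001000080000000000000000000000000000000) (nat_lit 0x0) (nat_lit 0x2000180000000000000000000000000000000000000000000000000000) := D_29 (nat_lit 212) (nat_lit 229) (nat_lit 211) (nat_lit 2) (nat_lit 5) (nat_lit 13) (nat_lit 1) (nat_lit 9) (nat_lit 12) (by decide +kernel)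
theorem L80225 : W_29 (nat_lit 3) (nat_lit 0x1c0004001e000b00000001000080000000000000000000000000000000) (nat_lit 0x0) (nat_lit 0x2000780000000000000000000000000000000000000000000000000000) := T_29 (nat_lit 213) (nat_lit 214) (nat_lit 3) (nat_lit 6) (nat_lit 11) L80224 (by decide +kernel)
theorem L80226 : W_29 (nat_lit 4) (nat_lit 0xc0004001e000b00000001000080000000000000000000000000000000) (nat_lit 0x0) (nat_lit 0x20003000780000000000000000000000000000000000000000000000000000) := T_29 (nat_lit 228) (nat_lit 245) (nat_lit 7) (nat_lit 6) (nat_lit 10) L80225 (by decide +kernel)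
theorem L80227 : W_29 (nat_lit 5) (nat_lit 0x80004001e000b00000001000080000000000000000000000000000000) (nat_lit 0x0) (nat_lit 0x28003400780000000000000000000000000000000000000000000000000000) := T_29 (nat_lit 226) (nat_lit 243) (nat_lit 5) (nat_lit 6) (nat_lit 10) L80226 (by decide +kernel)
theorem L80228 : W_29 (nat_lit 6) (nat_lit 0x80004001e000300000001000080000000000000000000000000000000) (nat_lit 0x0) (nat_lit 0x28003400780000001800000000000000000000000000000000000000000000) := T_29 (nat_lit 179) (nat_lit 180) (nat_lit 2) (nat_lit 6) (nat_lit 11) L80227 (by decide +kernel)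
theorem L80229 : W_29 (nat_lit 7) (nat_lit 0x80004001e000200000001000080000000000000000000000000000000) (nat_lit 0x0) (nat_lit 0x28003400780000001980000000000000000000000000000000000000000000) := T_29 (nat_lit 176) (nat_lit 175) (nat_lit 0) (nat_lit 9) (nat_lit 11) L80228 (by decide +kernel)
theorem L80230 : W_29 (nat_lit 8) (nat_lit 0x4001e000200000001000080000000000000000000000000000000) (nat_lit 0x0) (nat_lit 0x38003c00780000001980000000000000000000000000000000000000000000) := T_29 (nat_lit 227) (nat_lit 244) (nat_lit 6) (nat_lit 6) (nat_lit 14) L80229 (by decide +kernel)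
theorem L80239 : W_29 (nat_lit 2) (nat_lit 0x6000e000200000001800080000000000000000000000000000000) (nat_lit 0x0) (nat_lit 0x98000000000000000000000000000000000000000000000000000) := D_29 (nat_lit 208) (nat_lit 207) (nat_lit 211) (nat_lit 2) (nat_lit 3) (nat_lit 12) (nat_lit 2) (nat_lit 4) (nat_lit 12) (by decide +kernel)
theorem L80240 : W_29 (nat_lit 2) (nat_lit 0x70006000200000001000080000000000000000000000000000000) (nat_lit 0x0) (nat_lit 0x80018000000000000000000000000000000000000000000000000) := D_29 (nat_lit 195) (nat_lit 196) (nat_lit 211) (nat_lit 1) (nat_lit 9) (nat_lit 11) (nat_lit 2) (nat_lit 4) (nat_lit 12) (by decide +kernel)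
theorem L80241 : W_29 (nat_lit 3) (nat_lit 0x60006000200000001000080000000000000000000000000000000) (nat_lit 0x0) (nat_lit 0x98018000000000000000000000000000000000000000000000000) := T_29 (nat_lit 208) (nat_lit 207) (nat_lit 2) (nat_lit 3) (nat_lit 12) L80240 (by decide +kernel)
theorem L80248 : W_29 (nat_lit 2) (nat_lit 0x600060007c0000001000080000000000000000000000000000000) (nat_lit 0x0) (nat_lit 0x7000000000000000000000000000000000000000) := D_29 (nat_lit 157) (nat_lit 158) (nat_lit 156) (nat_lit 0) (nat_lit 8) (nat_lit 10) (nat_lit 0) (nat_lit 7) (nat_lit 10) (by decide +kernel)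
theorem L80249 : W_29 (nat_lit 3) (nat_lit 0x60006000780000001000080000000000000000000000000000000) (nat_lit 0x0) (nat_lit 0x60007000000000000000000000000000000000000000) := T_29 (nat_lit 174) (nat_lit 173) (nat_lit 3) (nat_lit 3) (nat_lit 10) L80248 (by decide +kernel)
theorem L80250 : W_29 (nat_lit 2) (nat_lit 0x700068003c0000001000080000000000000000000000000000000) (nat_lit 0x0) (nat_lit 0x400000000000000003000000000000000000000000000000000000000) := D_29 (nat_lit 157) (nat_lit 156) (nat_lit 226) (nat_lit 0) (nat_lit 7) (nat_lit 10) (nat_lit 7) (nat_lit 4) (nat_lit 9) (by decide +kernel)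
theorem L80251 : W_29 (nat_lit 3) (nat_lit 0x700060003c0000001000080000000000000000000000000000000) (nat_lit 0x0) (nat_lit 0x400000000c00000003000000000000000000000000000000000000000) := T_29 (nat_lit 191) (nat_lit 190) (nat_lit 1) (nat_lit 7) (nat_lit 10) L80250 (by decide +kernel)
theorem L80252 : W_29 (nat_lit 4) (nat_lit 0x70006000340000001000080000000000000000000000000000000) (nat_lit 0x0) (nat_lit 0x400000000c000a0003000000000000000000000000000000000000000) := T_29 (nat_lit 175) (nat_lit 173) (nat_lit 3) (nat_lit 3) (nat_lit 10) L80251 (by decide +kernel)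
theorem L80257 : W_29 (nat_lit 2) (nat_lit 0x10000c000e000200000001000080000000000000000000000000000000) (nat_lit 0x0) (nat_lit 0x20030000000000000000000000000000000000000000000000000) := D_29 (nat_lit 196) (nat_lit 209) (nat_lit 197) (nat_lit 1) (nat_lit 9) (nat_lit 11) (nat_lit 1) (nat_lit 10) (nat_lit 11) (by decide +kernel)
theorem L80259 : W_29 (nat_lit 2) (nat_lit 0x400068003c0006001000080000000000000000000000000000000) (nat_lit 0x0) (nat_lit 0x10000000000000000200010000000000000000000000000000000) := D_29 (nat_lit 141) (nat_lit 124) (nat_lit 208) (nat_lit 7) (nat_lit 5) (nat_lit 7) (nat_lit 6) (nat_lit 4) (nat_lit 12) (by decide +kernel)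
theorem L80260 : W_29 (nat_lit 3) (nat_lit 0x400068003c0002001000080000000000000000000000000000000) (nat_lit 0x0) (nat_lit 0x10000000400004000200010000000000000000000000000000000) := T_29 (nat_lit 158) (nat_lit 178) (nat_lit 0) (nat_lit 8) (nat_lit 10) L80259 (by decide +kernel)
theorem L80261 : W_29 (nat_lit 4) (nat_lit 0x400068003c0000001000080000000000000000000000000000000) (nat_lit 0x0) (nat_lit 0x10000000400007000200010000000000000000000000000000000) := T_29 (nat_lit 157) (nat_lit 156) (nat_lit 0) (nat_lit 7) (nat_lit 10) L80260 (by decide +kernel)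
theorem L80262 : W_29 (nat_lit 5) (nat_lit 0x400060003c0000001000080000000000000000000000000000000) (nat_lit 0x0) (nat_lit 0x10000c00400007000200010000000000000000000000000000000) := T_29 (nat_lit 191) (nat_lit 190) (nat_lit 1) (nat_lit 7) (nat_lit 10) L80261 (by decide +kernel)
theorem L80263 : W_29 (nat_lit 6) (nat_lit 0x40006000380000001000080000000000000000000000000000000) (nat_lit 0x0) (nat_lit 0x10000c00460007000200010000000000000000000000000000000) := T_29 (nat_lit 174) (nat_lit 173) (nat_lit 3) (nat_lit 3) (nat_lit 10) L80262 (by decide +kernel)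
theorem L80269 : W_29 (nat_lit 2) (nat_lit 0x400070006800340000001800080000000000000000000000000000000) (nat_lit 0x0) (nat_lit 0x100008000200000000000000000000000000000000000000000000000000000000) := D_29 (nat_lit 243) (nat_lit 260) (nat_lit 225) (nat_lit 6) (nat_lit 5) (nat_lit 15) (nat_lit 7) (nat_lit 4) (nat_lit 10) (by decide +kernel)
theorem L80270 : W_29 (nat_lit 3) (nat_lit 0x70006800340000001800080000000000000000000000000000000) (nat_lit 0x0) (nat_lit 0x100008000600000000000000002000000000000000000000000000000000000000) := T_29 (nat_lit 226) (nat_lit 157) (nat_lit 7) (nat_lit 4) (nat_lit 9) L80269 (by decide +kernel)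
theorem L80271 : W_29 (nat_lit 4) (nat_lit 0x70006800340000001000080000000000000000000000000000000) (nat_lit 0x0) (nat_lit 0x100008000600000000000000012000800000000000000000000000000000000000) := T_29 (nat_lit 143) (nat_lit 160) (nat_lit 6) (nat_lit 7) (nat_lit 11) L80270 (by decide +kernel)
theorem L80272 : W_29 (nat_lit 5) (nat_lit 0x60006800340000001000080000000000000000000000000000000) (nat_lit 0x0) (nat_lit 0x100008000600018000000000012000800000000000000000000000000000000000) := T_29 (nat_lit 208) (nat_lit 207) (nat_lit 2) (nat_lit 3) (nat_lit 12) L80271 (by decide +kernel)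
theorem L80273 : W_29 (nat_lit 5) (nat_lit 0x60006000340000001000080000000000000000000000000000000) (nat_lit 0x0) (nat_lit 0x400018000c000a0003000000000000000000000000000000000000000) := T_29 (nat_lit 208) (nat_lit 207) (nat_lit 2) (nat_lit 3) (nat_lit 12) L80252 (by decide +kernel)
theorem L80274 : W_29 (nat_lit 2) (nat_lit 0x60006000340002001000080000000000000000000000000000000) (nat_lit 0x0) (nat_lit 0xa0001000000000000000000000000000000000000000) := D_29 (nat_lit 175) (nat_lit 173) (nat_lit 156) (nat_lit 3) (nat_lit 3) (nat_lit 10) (nat_lit 0) (nat_lit 7) (nat_lit 10) (by decide +kernel)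
theorem L80275 : W_29 (nat_lit 4) (nat_lit 0x1e000200010001000080000000000000000000000000000000) (nat_lit 0x0) (nat_lit 0xe0020003800000000000000000000000000000000000000000000) := T_29 (nat_lit 210) (nat_lit 209) (nat_lit 1) (nat_lit 9) (nat_lit 11) L66556 (by decide +kernel)
theorem L80276 : W_29 (nat_lit 5) (nat_lit 0x1e000200000001000080000000000000000000000000000000) (nat_lit 0x0) (nat_lit 0xe0020003800010000800000000000000000000000000000000000) := T_29 (nat_lit 160) (nat_lit 143) (nat_lit 6) (nat_lit 7) (nat_lit 11) L80275 (by decide +kernel)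
theorem L80277 : W_29 (nat_lit 2) (nat_lit 0x200030001e000200000001800080000000000000000000000000000000) (nat_lit 0x0) (nat_lit 0x1800040000000000000000000000000000000000000000) := D_29 (nat_lit 179) (nat_lit 180) (nat_lit 162) (nat_lit 2) (nat_lit 6) (nat_lit 11) (nat_lit 5) (nat_lit 9) (nat_lit 9) (by decide +kernel)
theorem L80278 : W_29 (nat_lit 3) (nat_lit 0x30001e000200000001800080000000000000000000000000000000) (nat_lit 0x0) (nat_lit 0x40002000000000001800040000000000000000000000000000000000000000) := T_29 (nat_lit 229) (nat_lit 246) (nat_lit 4) (nat_lit 8) (nat_lit 14) L80277 (by decide +kernel)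
theorem L80279 : W_29 (nat_lit 4) (nat_lit 0x30001e000200000001000080000000000000000000000000000000) (nat_lit 0x0) (nat_lit 0x40002000000000001800050000800000000000000000000000000000000000) := T_29 (nat_lit 143) (nat_lit 160) (nat_lit 7) (nat_lit 7) (nat_lit 8) L80278 (by decide +kernel)
theorem L80280 : W_29 (nat_lit 5) (nat_lit 0x10001e000200000001000080000000000000000000000000000000) (nat_lit 0x0) (nat_lit 0x40002000600000001800050000800000000000000000000000000000000000) := T_29 (nat_lit 213) (nat_lit 214) (nat_lit 3) (nat_lit 6) (nat_lit 11) L80279 (by decide +kernel)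
theorem L80281 : W_29 (nat_lit 2) (nat_lit 0x200010001e000a00000001000080000000000000000000000000000000) (nat_lit 0x0) (nat_lit 0x600000000000040000000000000000000000000000000000000000) := D_29 (nat_lit 213) (nat_lit 214) (nat_lit 162) (nat_lit 3) (nat_lit 6) (nat_lit 11) (nat_lit 5) (nat_lit 9) (nat_lit 9) (by decide +kernel)
theorem L80282 : W_29 (nat_lit 3) (nat_lit 0x10001e000a00000001000080000000000000000000000000000000) (nat_lit 0x0) (nat_lit 0x40002000600000000000040000000000000000000000000000000000000000) := T_29 (nat_lit 229) (nat_lit 246) (nat_lit 6) (nat_lit 8) (nat_lit 14) L80281 (by decide +kernel)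
theorem L80283 : W_29 (nat_lit 4) (nat_lit 0x10001e000200000001000080000000000000000000000000000000) (nat_lit 0x0) (nat_lit 0x40002000600000001800040000000000000000000000000000000000000000) := T_29 (nat_lit 179) (nat_lit 180) (nat_lit 2) (nat_lit 6) (nat_lit 11) L80282 (by decide +kernel)
theorem L80284 : W_29 (nat_lit 2) (nat_lit 0x14001e000200010001000080000000000000000000000000000000) (nat_lit 0x0) (nat_lit 0x40002000000000000400000000000000000000000000000000000000000000) := D_29 (nat_lit 229) (nat_lit 178) (nat_lit 246) (nat_lit 4) (nat_lit 8) (nat_lit 13) (nat_lit 4) (nat_lit 8) (nat_lit 14) (by decide +kernel)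
theorem L80285 : W_29 (nat_lit 3) (nat_lit 0x14001e000200000001000080000000000000000000000000000000) (nat_lit 0x0) (nat_lit 0x40002000000000000400010000800000000000000000000000000000000000) := T_29 (nat_lit 160) (nat_lit 143) (nat_lit 7) (nat_lit 7) (nat_lit 8) L80284 (by decide +kernel)
theorem L80286 : W_29 (nat_lit 4) (nat_lit 0x10001e000200000001000080000000000000000000000000000000) (nat_lit 0x0) (nat_lit 0x40002000060000000400010000800000000000000000000000000000000000) := T_29 (nat_lit 210) (nat_lit 209) (nat_lit 1) (nat_lit 9) (nat_lit 11) L80285 (by decide +kernel)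
theorem L80287 : W_29 (nat_lit 2) (nat_lit 0x34001e000b00040001800080000000000000000000000000000000) (nat_lit 0x0) (nat_lit 0x400080004000000000000000000000000000000000000) := D_29 (nat_lit 163) (nat_lit 178) (nat_lit 146) (nat_lit 2) (nat_lit 6) (nat_lit 10) (nat_lit 6) (nat_lit 9) (nat_lit 12) (by decide +kernel)
theorem L80288 : W_29 (nat_lit 3) (nat_lit 0x34001e000b00000001800080000000000000000000000000000000) (nat_lit 0x0) (nat_lit 0x20000000000004000c0004000000000000000000000000000000000000) := T_29 (nat_lit 162) (nat_lit 229) (nat_lit 5) (nat_lit 9) (nat_lit 9) L80287 (by decide +kernel)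
theorem L80289 : W_29 (nat_lit 4) (nat_lit 0x14001e000b00000001800080000000000000000000000000000000) (nat_lit 0x0) (nat_lit 0x20006000000004000c0004000000000000000000000000000000000000) := T_29 (nat_lit 213) (nat_lit 214) (nat_lit 3) (nat_lit 6) (nat_lit 11) L80288 (by decide +kernel)
theorem L80290 : W_29 (nat_lit 5) (nat_lit 0x14001e000a00000001800080000000000000000000000000000000) (nat_lit 0x0) (nat_lit 0x20006000000005800c0004000000000000000000000000000000000000) := T_29 (nat_lit 176) (nat_lit 175) (nat_lit 0) (nat_lit 9) (nat_lit 11) L80289 (by decide +kernel)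
theorem L80291 : W_29 (nat_lit 6) (nat_lit 0x14001e000200000001800080000000000000000000000000000000) (nat_lit 0x0) (nat_lit 0x2000600000001d800c0004000000000000000000000000000000000000) := T_29 (nat_lit 179) (nat_lit 180) (nat_lit 2) (nat_lit 6) (nat_lit 11) L80290 (by decide +kernel)
theorem L80292 : W_29 (nat_lit 7) (nat_lit 0x10001e000200000001800080000000000000000000000000000000) (nat_lit 0x0) (nat_lit 0x2000660000001d800c0004000000000000000000000000000000000000) := T_29 (nat_lit 210) (nat_lit 209) (nat_lit 1) (nat_lit 9) (nat_lit 11) L80291 (by decide +kernel)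
theorem L80293 : W_29 (nat_lit 8) (nat_lit 0x10001e000200000001000080000000000000000000000000000000) (nat_lit 0x0) (nat_lit 0x2000660000001d800d0004800000000000000000000000000000000000) := T_29 (nat_lit 143) (nat_lit 160) (nat_lit 7) (nat_lit 7) (nat_lit 8) L80292 (by decide +kernel)
theorem L80294 : W_29 (nat_lit 2) (nat_lit 0x400030001e000200000001000080000000000000000000000000000000) (nat_lit 0x0) (nat_lit 0x1000080000000000000000400000000000000000000000000000000000000000000) := D_29 (nat_lit 247) (nat_lit 178) (nat_lit 264) (nat_lit 4) (nat_lit 9) (nat_lit 14) (nat_lit 4) (nat_lit 9) (nat_lit 15) (by decide +kernel)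
theorem L80295 : W_29 (nat_lit 2) (nat_lit 0x100000000400034001e000b00010001000080000000000000000000000000000000) (nat_lit 0x0) (nat_lit 0x100008000080000000000000000000000000000000000000000000000000000) := D_29 (nat_lit 231) (nat_lit 248) (nat_lit 211) (nat_lit 7) (nat_lit 9) (nat_lit 10) (nat_lit 3) (nat_lit 6) (nat_lit 12) (by decide +kernel)
theorem L80296 : W_29 (nat_lit 3) (nat_lit 0x100000000400030001e000b00010001000080000000000000000000000000000000) (nat_lit 0x0) (nat_lit 0x1000080000e0000000000000000000000000000000000000000000000000000) := T_29 (nat_lit 210) (nat_lit 209) (nat_lit 1) (nat_lit 9) (nat_lit 11) L80295 (by decide +kernel)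
theorem L80297 : W_29 (nat_lit 4) (nat_lit 0x100000000400030001e000300010001000080000000000000000000000000000000) (nat_lit 0x0) (nat_lit 0x1000080000e0000001800000000000000000000000000000000000000000000) := T_29 (nat_lit 179) (nat_lit 180) (nat_lit 2) (nat_lit 6) (nat_lit 11) L80296 (by decide +kernel)
theorem L80298 : W_29 (nat_lit 5) (nat_lit 0x100000000400030001e000300000001000080000000000000000000000000000000) (nat_lit 0x0) (nat_lit 0x1000080000e0000001800010000800000000000000000000000000000000000) := T_29 (nat_lit 160) (nat_lit 143) (nat_lit 7) (nat_lit 7) (nat_lit 8) L80297 (by decide +kernel)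
theorem L80299 : W_29 (nat_lit 6) (nat_lit 0x400030001e000300000001000080000000000000000000000000000000) (nat_lit 0x0) (nat_lit 0x10001800080000e0000001800010000800000000000000000000000000000000000) := T_29 (nat_lit 264) (nat_lit 247) (nat_lit 4) (nat_lit 9) (nat_lit 15) L80298 (by decide +kernel)
theorem L80300 : W_29 (nat_lit 7) (nat_lit 0x400030001e000200000001000080000000000000000000000000000000) (nat_lit 0x0) (nat_lit 0x10001800080000e0000001980010000800000000000000000000000000000000000) := T_29 (nat_lit 176) (nat_lit 175) (nat_lit 0) (nat_lit 9) (nat_lit 11) L80299 (by decide +kernel)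
theorem L80301 : W_29 (nat_lit 2) (nat_lit 0xc00030001e000a00000001000080000000000000000000000000000000) (nat_lit 0x0) (nat_lit 0xe0000000000000000000000000000000000000000000000000000) := D_29 (nat_lit 210) (nat_lit 211) (nat_lit 209) (nat_lit 3) (nat_lit 6) (nat_lit 12) (nat_lit 1) (nat_lit 9) (nat_lit 11) (by decide +kernel)
theorem L80302 : W_29 (nat_lit 3) (nat_lit 0x400030001e000a00000001000080000000000000000000000000000000) (nat_lit 0x0) (nat_lit 0x1000080000e0000000000000000000000000000000000000000000000000000) := T_29 (nat_lit 231) (nat_lit 248) (nat_lit 7) (nat_lit 9) (nat_lit 10) L80301 (by decide +kernel)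
theorem L80303 : W_29 (nat_lit 4) (nat_lit 0x400030001e000200000001000080000000000000000000000000000000) (nat_lit 0x0) (nat_lit 0x1000080000e0000001800000000000000000000000000000000000000000000) := T_29 (nat_lit 179) (nat_lit 180) (nat_lit 2) (nat_lit 6) (nat_lit 11) L80302 (by decide +kernel)
theorem L80304 : W_29 (nat_lit 8) (nat_lit 0x30001e000200000001000080000000000000000000000000000000) (nat_lit 0x0) (nat_lit 0x100018000c0000e0000001d80010000800000000000000000000000000000000000) := Q_29 (nat_lit 230) (C_29 L80294 (C_29 L80300 (C_29 L80303 N_29))) (by decide +kernel)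
theorem L80305 : W_29 (nat_lit 9) (nat_lit 0x10001e000200000001000080000000000000000000000000000000) (nat_lit 0x0) (nat_lit 0x100018000c0006e0000001d80010000800000000000000000000000000000000000) := T_29 (nat_lit 213) (nat_lit 214) (nat_lit 3) (nat_lit 6) (nat_lit 11) L80304 (by decide +kernel)
theorem L80306 : W_29 (nat_lit 10) (nat_lit 0x1e000200000001000080000000000000000000000000000000) (nat_lit 0x0) (nat_lit 0x10001c000e0007e0000001d800d0004800000000000000000000000000000000000) := Q_29 (nat_lit 212) (C_29 L80280 (C_29 L80283 (C_29 L80286 (C_29 L80293 (C_29 L80305 N_29))))) (by decide +kernel)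
theorem L80307 : W_29 (nat_lit 11) (nat_lit 0xe000200000001000080000000000000000000000000000000) (nat_lit 0x0) (nat_lit 0x10001c000e0007e0030003d800d0004800000000000000000000000000000000000) := Q_29 (nat_lit 196) (C_29 L8031 (C_29 L80276 (C_29 L80306 N_29))) (by decide +kernel)
theorem L80308 : W_29 (nat_lit 5) (nat_lit 0x1e001200010001000080000000000000000000000000000000) (nat_lit 0x0) (nat_lit 0x7800e0002400000000000000000000000000000000000000000000) := T_29 (nat_lit 213) (nat_lit 214) (nat_lit 3) (nat_lit 6) (nat_lit 11) L8013 (by decide +kernel)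
theorem L80309 : W_29 (nat_lit 6) (nat_lit 0x1e000200010001000080000000000000000000000000000000) (nat_lit 0x0) (nat_lit 0x7800e0003c00000000000000000000000000000000000000000000) := T_29 (nat_lit 180) (nat_lit 179) (nat_lit 2) (nat_lit 6) (nat_lit 11) L80308 (by decide +kernel)
theorem L80310 : W_29 (nat_lit 7) (nat_lit 0x1e000200000001000080000000000000000000000000000000) (nat_lit 0x0) (nat_lit 0x7800e0003c00010000800000000000000000000000000000000000) := T_29 (nat_lit 160) (nat_lit 143) (nat_lit 6) (nat_lit 7) (nat_lit 11) L80309 (by decide +kernel)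
theorem L80311 : W_29 (nat_lit 2) (nat_lit 0x10001e000200010001000080000000000000000000000000000000) (nat_lit 0x0) (nat_lit 0x40002000000000000400000000000000000000000000000000000000000000) := D_29 (nat_lit 229) (nat_lit 246) (nat_lit 178) (nat_lit 4) (nat_lit 8) (nat_lit 14) (nat_lit 4) (nat_lit 8) (nat_lit 13) (by decide +kernel)
theorem L80312 : W_29 (nat_lit 3) (nat_lit 0x10001e000200000001000080000000000000000000000000000000) (nat_lit 0x0) (nat_lit 0x40002000000000000400010000800000000000000000000000000000000000) := T_29 (nat_lit 160) (nat_lit 143) (nat_lit 7) (nat_lit 7) (nat_lit 8) L80311 (by decide +kernel)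
theorem L80313 : W_29 (nat_lit 2) (nat_lit 0x10001e000a00010001000080000000000000000000000000000000) (nat_lit 0x0) (nat_lit 0x2000080000000400000000000000000000000000000000000000000000) := D_29 (nat_lit 229) (nat_lit 178) (nat_lit 211) (nat_lit 4) (nat_lit 8) (nat_lit 13) (nat_lit 7) (nat_lit 7) (nat_lit 9) (by decide +kernel)
theorem L80314 : W_29 (nat_lit 3) (nat_lit 0x10001e000a00000001000080000000000000000000000000000000) (nat_lit 0x0) (nat_lit 0x2000080000000400010000800000000000000000000000000000000000) := T_29 (nat_lit 160) (nat_lit 143) (nat_lit 7) (nat_lit 7) (nat_lit 8) L80313 (by decide +kernel)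
theorem L80315 : W_29 (nat_lit 4) (nat_lit 0x10001e000200000001000080000000000000000000000000000000) (nat_lit 0x0) (nat_lit 0x2000080000001c00010000800000000000000000000000000000000000) := T_29 (nat_lit 179) (nat_lit 180) (nat_lit 2) (nat_lit 6) (nat_lit 11) L80314 (by decide +kernel)
theorem L80316 : W_29 (nat_lit 2) (nat_lit 0x200000001e000200010001000080000000000000000000000000000000) (nat_lit 0x0) (nat_lit 0x40000000100000000400000000000000000000000000000000000000000000) := D_29 (nat_lit 212) (nat_lit 178) (nat_lit 246) (nat_lit 4) (nat_lit 8) (nat_lit 13) (nat_lit 4) (nat_lit 8) (nat_lit 14) (by decide +kernel)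
theorem L80317 : W_29 (nat_lit 3) (nat_lit 0x200000001e000200000001000080000000000000000000000000000000) (nat_lit 0x0) (nat_lit 0x40000000100000000400010000800000000000000000000000000000000000) := T_29 (nat_lit 160) (nat_lit 143) (nat_lit 6) (nat_lit 7) (nat_lit 11) L80316 (by decide +kernel)
theorem L80318 : W_29 (nat_lit 2) (nat_lit 0x200000001e000200010001000080000000000000000000000000000000) (nat_lit 0x0) (nat_lit 0x40000000180000000000000000000000000000000000000000000000000000) := D_29 (nat_lit 212) (nat_lit 246) (nat_lit 211) (nat_lit 4) (nat_lit 8) (nat_lit 14) (nat_lit 7) (nat_lit 7) (nat_lit 9) (by decide +kernel)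
theorem L80319 : W_29 (nat_lit 3) (nat_lit 0x200000001e000200000001000080000000000000000000000000000000) (nat_lit 0x0) (nat_lit 0x40000000180000000000010000800000000000000000000000000000000000) := T_29 (nat_lit 160) (nat_lit 143) (nat_lit 6) (nat_lit 7) (nat_lit 11) L80318 (by decide +kernel)
theorem L80320 : W_29 (nat_lit 2) (nat_lit 0x4000200000001e000a00000001000080000000000000000000000000000000) (nat_lit 0x0) (nat_lit 0x4000600000000000000000000000000000000000000000000000000000) := D_29 (nat_lit 213) (nat_lit 230) (nat_lit 214) (nat_lit 5) (nat_lit 9) (nat_lit 10) (nat_lit 3) (nat_lit 6) (nat_lit 11) (by decide +kernel)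
theorem L80321 : W_29 (nat_lit 3) (nat_lit 0x4000200000001e000200000001000080000000000000000000000000000000) (nat_lit 0x0) (nat_lit 0x4000600000001800000000000000000000000000000000000000000000) := T_29 (nat_lit 179) (nat_lit 180) (nat_lit 2) (nat_lit 6) (nat_lit 11) L80320 (by decide +kernel)
theorem L80322 : W_29 (nat_lit 4) (nat_lit 0x200000001e000200000001000080000000000000000000000000000000) (nat_lit 0x0) (nat_lit 0x40004000700000001800000000000000000000000000000000000000000000) := T_29 (nat_lit 246) (nat_lit 212) (nat_lit 4) (nat_lit 8) (nat_lit 14) L80321 (by decide +kernel)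
theorem L80323 : W_29 (nat_lit 6) (nat_lit 0x200000001e000a00010001000080000000000000000000000000000000) (nat_lit 0x0) (nat_lit 0x20001c000c000600000000580000000000000000000000000000000000000000000) := T_29 (nat_lit 176) (nat_lit 175) (nat_lit 0) (nat_lit 9) (nat_lit 11) L15747 (by decide +kernel)
theorem L80324 : W_29 (nat_lit 7) (nat_lit 0x200000001e000a00000001000080000000000000000000000000000000) (nat_lit 0x0) (nat_lit 0x20001c000c000600000000580010000800000000000000000000000000000000000) := T_29 (nat_lit 160) (nat_lit 143) (nat_lit 6) (nat_lit 7) (nat_lit 11) L80323 (by decide +kernel)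
theorem L80325 : W_29 (nat_lit 8) (nat_lit 0x200000001e000200000001000080000000000000000000000000000000) (nat_lit 0x0) (nat_lit 0x20001c000c000600000001d80010000800000000000000000000000000000000000) := T_29 (nat_lit 179) (nat_lit 180) (nat_lit 2) (nat_lit 6) (nat_lit 11) L80324 (by decide +kernel)
theorem L80326 : W_29 (nat_lit 2) (nat_lit 0x200020001e000a000d0001000080000000000000000000000000000000) (nat_lit 0x0) (nat_lit 0x580000000000000000000000000000000000000000000) := D_29 (nat_lit 176) (nat_lit 178) (nat_lit 175) (nat_lit 2) (nat_lit 6) (nat_lit 10) (nat_lit 0) (nat_lit 9) (nat_lit 11) (by decide +kernel)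
theorem L80327 : W_29 (nat_lit 3) (nat_lit 0x200020001e000a00050001000080000000000000000000000000000000) (nat_lit 0x0) (nat_lit 0x580080004000000000000000000000000000000000000) := T_29 (nat_lit 163) (nat_lit 146) (nat_lit 6) (nat_lit 9) (nat_lit 12) L80326 (by decide +kernel)
theorem L80328 : W_29 (nat_lit 4) (nat_lit 0x200020001e000a00040001000080000000000000000000000000000000) (nat_lit 0x0) (nat_lit 0x580090004800000000000000000000000000000000000) := T_29 (nat_lit 160) (nat_lit 143) (nat_lit 6) (nat_lit 7) (nat_lit 11) L80327 (by decide +kernel)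
theorem L80329 : W_29 (nat_lit 5) (nat_lit 0x200020001e000a00000001000080000000000000000000000000000000) (nat_lit 0x0) (nat_lit 0x1000000005800d0004800000000000000000000000000000000000) := T_29 (nat_lit 162) (nat_lit 212) (nat_lit 5) (nat_lit 9) (nat_lit 9) L80328 (by decide +kernel)
theorem L80330 : W_29 (nat_lit 6) (nat_lit 0x200020001e000200000001000080000000000000000000000000000000) (nat_lit 0x0) (nat_lit 0x100000001d800d0004800000000000000000000000000000000000) := T_29 (nat_lit 179) (nat_lit 180) (nat_lit 2) (nat_lit 6) (nat_lit 11) L80329 (by decide +kernel)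
theorem L80331 : W_29 (nat_lit 7) (nat_lit 0x200000001e000200000001000080000000000000000000000000000000) (nat_lit 0x0) (nat_lit 0x700000001d800d0004800000000000000000000000000000000000) := T_29 (nat_lit 213) (nat_lit 214) (nat_lit 3) (nat_lit 6) (nat_lit 11) L80330 (by decide +kernel)
theorem L80332 : W_29 (nat_lit 9) (nat_lit 0x1e000200000001000080000000000000000000000000000000) (nat_lit 0x0) (nat_lit 0x20001c000e000780000001d800d0004800000000000000000000000000000000000) := Q_29 (nat_lit 229) (C_29 L80317 (C_29 L80319 (C_29 L80322 (C_29 L80325 (C_29 L80331 N_29))))) (by decide +kernel)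
theorem L80333 : W_29 (nat_lit 10) (nat_lit 0xe000200000001000080000000000000000000000000000000) (nat_lit 0x0) (nat_lit 0x20001c000e0007800f0003d800d0004800000000000000000000000000000000000) := Q_29 (nat_lit 196) (C_29 L8031 (C_29 L80310 (C_29 L80332 N_29))) (by decide +kernel)
theorem L80334 : W_29 (nat_lit 2) (nat_lit 0x4001e000a00010001000080000000000000000000000000000000) (nat_lit 0x0) (nat_lit 0x800000000000180000000000000000000000000000000000000000000) := D_29 (nat_lit 176) (nat_lit 175) (nat_lit 227) (nat_lit 0) (nat_lit 9) (nat_lit 11) (nat_lit 6) (nat_lit 6) (nat_lit 13) (by decide +kernel)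
theorem L80335 : W_29 (nat_lit 3) (nat_lit 0x1e000a00010001000080000000000000000000000000000000) (nat_lit 0x0) (nat_lit 0x800060000000180000000000000000000000000000000000000000000) := T_29 (nat_lit 210) (nat_lit 209) (nat_lit 1) (nat_lit 9) (nat_lit 11) L80334 (by decide +kernel)
theorem L80336 : W_29 (nat_lit 4) (nat_lit 0x1e000200010001000080000000000000000000000000000000) (nat_lit 0x0) (nat_lit 0x800060000001980000000000000000000000000000000000000000000) := T_29 (nat_lit 179) (nat_lit 180) (nat_lit 2) (nat_lit 6) (nat_lit 11) L80335 (by decide +kernel)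
theorem L80337 : W_29 (nat_lit 5) (nat_lit 0x1e000200000001000080000000000000000000000000000000) (nat_lit 0x0) (nat_lit 0x800060000001980010000800000000000000000000000000000000000) := T_29 (nat_lit 160) (nat_lit 143) (nat_lit 6) (nat_lit 7) (nat_lit 11) L80336 (by decide +kernel)
theorem L80338 : W_29 (nat_lit 6) (nat_lit 0xe000200000001000080000000000000000000000000000000) (nat_lit 0x0) (nat_lit 0x8000e0030003980010000800000000000000000000000000000000000) := Q_29 (nat_lit 196) (C_29 L8031 (C_29 L80276 (C_29 L80337 N_29))) (by decide +kernel)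
theorem L80339 : W_29 (nat_lit 2) (nat_lit 0x10000000b4007e002a00000001000080000000000000000000000000000000) (nat_lit 0x0) (nat_lit 0x40002000000000000000040000000000000000000000000000000000000000) := D_29 (nat_lit 229) (nat_lit 246) (nat_lit 162) (nat_lit 6) (nat_lit 8) (nat_lit 14) (nat_lit 5) (nat_lit 9) (nat_lit 9) (by decide +kernel)
theorem L80340 : W_29 (nat_lit 3) (nat_lit 0x10000000a4007e002a00000001000080000000000000000000000000000000) (nat_lit 0x0) (nat_lit 0x40002000100080000000040000000000000000000000000000000000000000) := T_29 (nat_lit 212) (nat_lit 199) (nat_lit 1) (nat_lit 12) (nat_lit 11) L80339 (by decide +kernel)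
theorem L80341 : W_29 (nat_lit 4) (nat_lit 0x10000000a4007e000a00000001000080000000000000000000000000000000) (nat_lit 0x0) (nat_lit 0x40002000100080006000040000000000000000000000000000000000000000) := T_29 (nat_lit 181) (nat_lit 182) (nat_lit 2) (nat_lit 8) (nat_lit 11) L80340 (by decide +kernel)
theorem L80342 : W_29 (nat_lit 5) (nat_lit 0x1000000024007e000a00000001000080000000000000000000000000000000) (nat_lit 0x0) (nat_lit 0x40002001900080006000040000000000000000000000000000000000000000) := T_29 (nat_lit 215) (nat_lit 216) (nat_lit 3) (nat_lit 8) (nat_lit 11) L80341 (by decide +kernel)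
theorem L80343 : W_29 (nat_lit 6) (nat_lit 0x1000000024003e000a00000001000080000000000000000000000000000000) (nat_lit 0x0) (nat_lit 0x400020019000c0006400040000000000000000000000000000000000000000) := T_29 (nat_lit 198) (nat_lit 178) (nat_lit 0) (nat_lit 11) (nat_lit 11) L80342 (by decide +kernel)
theorem L80344 : W_29 (nat_lit 7) (nat_lit 0x1000000024001e000a00000001000080000000000000000000000000000000) (nat_lit 0x0) (nat_lit 0x400020019800e0006400040000000000000000000000000000000000000000) := T_29 (nat_lit 197) (nat_lit 211) (nat_lit 1) (nat_lit 10) (nat_lit 11) L80343 (by decide +kernel)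
theorem L80345 : W_29 (nat_lit 8) (nat_lit 0x24001e000a00000001000080000000000000000000000000000000) (nat_lit 0x0) (nat_lit 0x500028019800e0006400040000000000000000000000000000000000000000) := T_29 (nat_lit 244) (nat_lit 227) (nat_lit 6) (nat_lit 6) (nat_lit 14) L80344 (by decide +kernel)
theorem L80346 : W_29 (nat_lit 9) (nat_lit 0x24001e000200000001000080000000000000000000000000000000) (nat_lit 0x0) (nat_lit 0x500028019800e0007c00040000000000000000000000000000000000000000) := T_29 (nat_lit 179) (nat_lit 180) (nat_lit 2) (nat_lit 6) (nat_lit 11) L80345 (by decide +kernel)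
theorem L80347 : W_29 (nat_lit 10) (nat_lit 0x20001e000200000001000080000000000000000000000000000000) (nat_lit 0x0) (nat_lit 0x500028019e00e0007c00040000000000000000000000000000000000000000) := T_29 (nat_lit 210) (nat_lit 209) (nat_lit 1) (nat_lit 9) (nat_lit 11) L80346 (by decide +kernel)
theorem L80348 : W_29 (nat_lit 11) (nat_lit 0x1e000200000001000080000000000000000000000000000000) (nat_lit 0x0) (nat_lit 0x50002801fe00e0007c00040000000000000000000000000000000000000000) := T_29 (nat_lit 213) (nat_lit 214) (nat_lit 3) (nat_lit 6) (nat_lit 11) L80347 (by decide +kernel)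
theorem L80349 : W_29 (nat_lit 9) (nat_lit 0x1e000200000001000080000000000000000000000000000000) (nat_lit 0x0) (nat_lit 0x38003c007e0000001980000000000000000000000000000000000000000000) := T_29 (nat_lit 210) (nat_lit 209) (nat_lit 1) (nat_lit 9) (nat_lit 11) L80230 (by decide +kernel)
theorem L80350 : W_29 (nat_lit 12) (nat_lit 0xe000200000001000080000000000000000000000000000000) (nat_lit 0x0) (nat_lit 0x78003c01fe00f0007d80040000000000000000000000000000000000000000) := Q_29 (nat_lit 196) (C_29 L8031 (C_29 L80348 (C_29 L80349 N_29))) (by decide +kernel)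
theorem L80351 : W_29 (nat_lit 2) (nat_lit 0x20001e000300010001000080000000000000000000000000000000) (nat_lit 0x0) (nat_lit 0x800060000000000000000000000000000000000000000000000000000) := D_29 (nat_lit 210) (nat_lit 227) (nat_lit 209) (nat_lit 6) (nat_lit 6) (nat_lit 13) (nat_lit 1) (nat_lit 9) (nat_lit 11) (by decide +kernel)
theorem L80352 : W_29 (nat_lit 3) (nat_lit 0x20001e000300000001000080000000000000000000000000000000) (nat_lit 0x0) (nat_lit 0x800060000000000010000800000000000000000000000000000000000) := T_29 (nat_lit 160) (nat_lit 143) (nat_lit 6) (nat_lit 7) (nat_lit 11) L80351 (by decide +kernel)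
theorem L80353 : W_29 (nat_lit 4) (nat_lit 0x20001e000200000001000080000000000000000000000000000000) (nat_lit 0x0) (nat_lit 0x800060000000180010000800000000000000000000000000000000000) := T_29 (nat_lit 176) (nat_lit 175) (nat_lit 0) (nat_lit 9) (nat_lit 11) L80352 (by decide +kernel)
theorem L80354 : W_29 (nat_lit 5) (nat_lit 0x1e000200000001000080000000000000000000000000000000) (nat_lit 0x0) (nat_lit 0x800660000000180010000800000000000000000000000000000000000) := T_29 (nat_lit 213) (nat_lit 214) (nat_lit 3) (nat_lit 6) (nat_lit 11) L80353 (by decide +kernel)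
theorem L80355 : W_29 (nat_lit 6) (nat_lit 0xe000200000001000080000000000000000000000000000000) (nat_lit 0x0) (nat_lit 0x8006e0030000180010000800000000000000000000000000000000000) := Q_29 (nat_lit 196) (C_29 L8031 (C_29 L17227 (C_29 L80354 N_29))) (by decide +kernel)
theorem L80356 : W_29 (nat_lit 2) (nat_lit 0x8000000124007e001200010001000080000000000000000000000000000000) (nat_lit 0x0) (nat_lit 0x2100080000000000000000000000000000000000000000000000000) := D_29 (nat_lit 199) (nat_lit 212) (nat_lit 217) (nat_lit 1) (nat_lit 12) (nat_lit 11) (nat_lit 3) (nat_lit 9) (nat_lit 11) (by decide +kernel)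
theorem L80357 : W_29 (nat_lit 3) (nat_lit 0x8000000024007e001200010001000080000000000000000000000000000000) (nat_lit 0x0) (nat_lit 0x3900080000000000000000000000000000000000000000000000000) := T_29 (nat_lit 216) (nat_lit 215) (nat_lit 3) (nat_lit 8) (nat_lit 11) L80356 (by decide +kernel)
theorem L80358 : W_29 (nat_lit 4) (nat_lit 0x24007e001200010001000080000000000000000000000000000000) (nat_lit 0x0) (nat_lit 0x80004003900080000000000000000000000000000000000000000000000000) := T_29 (nat_lit 247) (nat_lit 230) (nat_lit 6) (nat_lit 9) (nat_lit 14) L80357 (by decide +kernel)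
theorem L80359 : W_29 (nat_lit 5) (nat_lit 0x24003e001200010001000080000000000000000000000000000000) (nat_lit 0x0) (nat_lit 0x800040039000c0000400000000000000000000000000000000000000000000) := T_29 (nat_lit 198) (nat_lit 178) (nat_lit 0) (nat_lit 11) (nat_lit 11) L80358 (by decide +kernel)
theorem L80360 : W_29 (nat_lit 6) (nat_lit 0x24001e001200010001000080000000000000000000000000000000) (nat_lit 0x0) (nat_lit 0x800040039000e0002400000000000000000000000000000000000000000000) := T_29 (nat_lit 197) (nat_lit 181) (nat_lit 2) (nat_lit 7) (nat_lit 11) L80359 (by decide +kernel)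
theorem L80361 : W_29 (nat_lit 7) (nat_lit 0x20001e001200010001000080000000000000000000000000000000) (nat_lit 0x0) (nat_lit 0x800040039600e0002400000000000000000000000000000000000000000000) := T_29 (nat_lit 210) (nat_lit 209) (nat_lit 1) (nat_lit 9) (nat_lit 11) L80360 (by decide +kernel)
theorem L80362 : W_29 (nat_lit 8) (nat_lit 0x20001e000200010001000080000000000000000000000000000000) (nat_lit 0x0) (nat_lit 0x800040039600e0003c00000000000000000000000000000000000000000000) := T_29 (nat_lit 180) (nat_lit 179) (nat_lit 2) (nat_lit 6) (nat_lit 11) L80361 (by decide +kernel)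
theorem L80363 : W_29 (nat_lit 9) (nat_lit 0x1e000200010001000080000000000000000000000000000000) (nat_lit 0x0) (nat_lit 0x80004003f600e0003c00000000000000000000000000000000000000000000) := T_29 (nat_lit 213) (nat_lit 214) (nat_lit 3) (nat_lit 6) (nat_lit 11) L80362 (by decide +kernel)
theorem L80364 : W_29 (nat_lit 10) (nat_lit 0x1e000200000001000080000000000000000000000000000000) (nat_lit 0x0) (nat_lit 0x80004003f600e0003c00010000800000000000000000000000000000000000) := T_29 (nat_lit 160) (nat_lit 143) (nat_lit 6) (nat_lit 7) (nat_lit 11) L80363 (by decide +kernel)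
theorem L80365 : W_29 (nat_lit 2) (nat_lit 0x4001e000200010001000080000000000000000000000000000000) (nat_lit 0x0) (nat_lit 0x10000800080000000000000000000000000000000000000000000000000000) := D_29 (nat_lit 227) (nat_lit 211) (nat_lit 244) (nat_lit 5) (nat_lit 7) (nat_lit 9) (nat_lit 6) (nat_lit 6) (nat_lit 14) (by decide +kernel)
theorem L80366 : W_29 (nat_lit 3) (nat_lit 0x1e000200010001000080000000000000000000000000000000) (nat_lit 0x0) (nat_lit 0x100008000e0000000000000000000000000000000000000000000000000000) := T_29 (nat_lit 210) (nat_lit 209) (nat_lit 1) (nat_lit 9) (nat_lit 11) L80365 (by decide +kernel)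
theorem L80367 : W_29 (nat_lit 4) (nat_lit 0x1e000200000001000080000000000000000000000000000000) (nat_lit 0x0) (nat_lit 0x100008000e0000000000010000800000000000000000000000000000000000) := T_29 (nat_lit 160) (nat_lit 143) (nat_lit 6) (nat_lit 7) (nat_lit 11) L80366 (by decide +kernel)
theorem L80368 : W_29 (nat_lit 12) (nat_lit 0xe000200000001000080000000000000000000000000000000) (nat_lit 0x0) (nat_lit 0xd0006803fe00f0007c00050000800000000000000000000000000000000000) := Q_29 (nat_lit 196) (C_29 L80364 (C_29 L17227 (C_29 L80348 (C_29 L80310 (C_29 L80367 N_29))))) (by decide +kernel)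
theorem L80375 : W_29 (nat_lit 2) (nat_lit 0x30000e000200010001000080000000000000000000000000000000) (nat_lit 0x0) (nat_lit 0xc80000000000000000000000000000000000000000000000000000) := D_29 (nat_lit 214) (nat_lit 211) (nat_lit 215) (nat_lit 0) (nat_lit 10) (nat_lit 12) (nat_lit 0) (nat_lit 11) (nat_lit 12) (by decide +kernel)
theorem L80385 : W_29 (nat_lit 2) (nat_lit 0x700058000e000600000001000080000000000000000000000000000000) (nat_lit 0x0) (nat_lit 0x8000060000000000000000000000000000000000000000000000000000) := D_29 (nat_lit 210) (nat_lit 209) (nat_lit 231) (nat_lit 3) (nat_lit 5) (nat_lit 12) (nat_lit 0) (nat_lit 10) (nat_lit 13) (by decide +kernel)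
theorem L80386 : W_29 (nat_lit 3) (nat_lit 0x300058000e000600000001000080000000000000000000000000000000) (nat_lit 0x0) (nat_lit 0x8000c000060000000000000000000000000000000000000000000000000000) := T_29 (nat_lit 230) (nat_lit 247) (nat_lit 7) (nat_lit 8) (nat_lit 10) L80385 (by decide +kernel)
theorem L80387 : W_29 (nat_lit 2) (nat_lit 0x200018000e000600000001000080000000000000000000000000000000) (nat_lit 0x0) (nat_lit 0x1800040000000000000000000000000000000000000000) := D_29 (nat_lit 179) (nat_lit 180) (nat_lit 162) (nat_lit 1) (nat_lit 10) (nat_lit 10) (nat_lit 6) (nat_lit 8) (nat_lit 13) (by decide +kernel)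
theorem L80388 : W_29 (nat_lit 2) (nat_lit 0x600038000e000600000001000080000000000000000000000000000000) (nat_lit 0x0) (nat_lit 0x8000060000000000000000000000000000000000000000000000000000) := D_29 (nat_lit 210) (nat_lit 231) (nat_lit 209) (nat_lit 3) (nat_lit 6) (nat_lit 12) (nat_lit 3) (nat_lit 5) (nat_lit 12) (by decide +kernel)
theorem L80389 : W_29 (nat_lit 3) (nat_lit 0x200038000e000600000001000080000000000000000000000000000000) (nat_lit 0x0) (nat_lit 0x8000c000060000000000000000000000000000000000000000000000000000) := T_29 (nat_lit 230) (nat_lit 247) (nat_lit 7) (nat_lit 8) (nat_lit 10) L80388 (by decide +kernel)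
theorem L80390 : W_29 (nat_lit 4) (nat_lit 0x200018000e000600000001000080000000000000000000000000000000) (nat_lit 0x0) (nat_lit 0x8000c000660000000000000000000000000000000000000000000000000000) := T_29 (nat_lit 213) (nat_lit 214) (nat_lit 0) (nat_lit 10) (nat_lit 12) L80389 (by decide +kernel)
theorem L80391 : W_29 (nat_lit 5) (nat_lit 0x200018000e000200000001000080000000000000000000000000000000) (nat_lit 0x0) (nat_lit 0x8000c000660000001c00040000000000000000000000000000000000000000) := Q_29 (nat_lit 178) (C_29 L80387 (C_29 L80390 N_29)) (by decide +kernel)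
theorem L80392 : W_29 (nat_lit 2) (nat_lit 0x8000c000e000300000001000080000000000000000000000000000000) (nat_lit 0x0) (nat_lit 0xc0004000000000000000000000000000000000000000) := D_29 (nat_lit 175) (nat_lit 174) (nat_lit 158) (nat_lit 3) (nat_lit 4) (nat_lit 10) (nat_lit 4) (nat_lit 6) (nat_lit 13) (by decide +kernel)
theorem L80393 : W_29 (nat_lit 3) (nat_lit 0xc000e000300000001000080000000000000000000000000000000) (nat_lit 0x0) (nat_lit 0x100008000000000000c0004000000000000000000000000000000000000000) := T_29 (nat_lit 227) (nat_lit 244) (nat_lit 6) (nat_lit 6) (nat_lit 14) L80392 (by decide +kernel)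
theorem L80397 : W_29 (nat_lit 2) (nat_lit 0x80000000e000200010001000080000000000000000000000000000000) (nat_lit 0x0) (nat_lit 0x100000000c0000000000000000000000000000000000000000000000000000) := D_29 (nat_lit 210) (nat_lit 211) (nat_lit 244) (nat_lit 5) (nat_lit 7) (nat_lit 9) (nat_lit 6) (nat_lit 6) (nat_lit 14) (by decide +kernel)
theorem L80398 : W_29 (nat_lit 3) (nat_lit 0x80000000e000200000001000080000000000000000000000000000000) (nat_lit 0x0) (nat_lit 0x100000000c0000000000010000800000000000000000000000000000000000) := T_29 (nat_lit 160) (nat_lit 143) (nat_lit 6) (nat_lit 7) (nat_lit 11) L80397 (by decide +kernel)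
theorem L80399 : W_29 (nat_lit 2) (nat_lit 0x80004000e000200000001000080000000000000000000000000000000) (nat_lit 0x0) (nat_lit 0x80000000100010000000000000000000000000000000000000000) := D_29 (nat_lit 160) (nat_lit 176) (nat_lit 211) (nat_lit 6) (nat_lit 6) (nat_lit 13) (nat_lit 5) (nat_lit 7) (nat_lit 9) (by decide +kernel)
theorem L80400 : W_29 (nat_lit 3) (nat_lit 0x80000000e000200000001000080000000000000000000000000000000) (nat_lit 0x0) (nat_lit 0x100000000c0000000100010000000000000000000000000000000000000000) := T_29 (nat_lit 210) (nat_lit 244) (nat_lit 6) (nat_lit 6) (nat_lit 14) L80399 (by decide +kernel)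
theorem L80401 : W_29 (nat_lit 2) (nat_lit 0x180000000e000200000001000080000000000000000000000000000000) (nat_lit 0x0) (nat_lit 0x100000000c0000000000000000000000000000000000000000000000000000) := D_29 (nat_lit 244) (nat_lit 210) (nat_lit 211) (nat_lit 6) (nat_lit 6) (nat_lit 14) (nat_lit 5) (nat_lit 7) (nat_lit 10) (by decide +kernel)
theorem L80402 : W_29 (nat_lit 2) (nat_lit 0x180008000e000200000001000080000000000000000000000000000000) (nat_lit 0x0) (nat_lit 0x20000000000000000500000000000000000000000000000000000000000000) := D_29 (nat_lit 245) (nat_lit 176) (nat_lit 178) (nat_lit 4) (nat_lit 7) (nat_lit 14) (nat_lit 6) (nat_lit 7) (nat_lit 14) (by decide +kernel)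
theorem L80403 : W_29 (nat_lit 3) (nat_lit 0x180000000e000200000001000080000000000000000000000000000000) (nat_lit 0x0) (nat_lit 0x30000000080000000500000000000000000000000000000000000000000000) := T_29 (nat_lit 211) (nat_lit 244) (nat_lit 5) (nat_lit 7) (nat_lit 10) L80402 (by decide +kernel)
theorem L80404 : W_29 (nat_lit 2) (nat_lit 0x180004000e000300000001000080000000000000000000000000000000) (nat_lit 0x0) (nat_lit 0xc0004000000000000000000000000000000000000000) := D_29 (nat_lit 175) (nat_lit 174) (nat_lit 158) (nat_lit 3) (nat_lit 4) (nat_lit 10) (nat_lit 4) (nat_lit 6) (nat_lit 13) (by decide +kernel)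
theorem L80405 : W_29 (nat_lit 3) (nat_lit 0x180004000e000200000001000080000000000000000000000000000000) (nat_lit 0x0) (nat_lit 0x200000000000000001c0004000000000000000000000000000000000000000) := T_29 (nat_lit 176) (nat_lit 245) (nat_lit 7) (nat_lit 6) (nat_lit 10) L80404 (by decide +kernel)
theorem L80406 : W_29 (nat_lit 4) (nat_lit 0x180000000e000200000001000080000000000000000000000000000000) (nat_lit 0x0) (nat_lit 0x300000000400000001c0004000000000000000000000000000000000000000) := T_29 (nat_lit 210) (nat_lit 244) (nat_lit 6) (nat_lit 6) (nat_lit 14) L80405 (by decide +kernel)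
theorem L80407 : W_29 (nat_lit 2) (nat_lit 0x2000180008000e000200000001000080000000000000000000000000000000) (nat_lit 0x0) (nat_lit 0x800040002000000000000000000000000000000000000000000000000000000000) := D_29 (nat_lit 246) (nat_lit 229) (nat_lit 263) (nat_lit 7) (nat_lit 7) (nat_lit 10) (nat_lit 7) (nat_lit 7) (nat_lit 11) (by decide +kernel)
theorem L80408 : W_29 (nat_lit 3) (nat_lit 0x180008000e000200000001000080000000000000000000000000000000) (nat_lit 0x0) (nat_lit 0x800060002000000000000100000000000000000000000000000000000000000000) := T_29 (nat_lit 245) (nat_lit 176) (nat_lit 4) (nat_lit 7) (nat_lit 14) L80407 (by decide +kernel)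
theorem L80409 : W_29 (nat_lit 2) (nat_lit 0x2000380008000e000200000001000080000000000000000000000000000000) (nat_lit 0x0) (nat_lit 0x400000000000140000000000000000000000000000000000000000000000000000) := D_29 (nat_lit 262) (nat_lit 212) (nat_lit 210) (nat_lit 6) (nat_lit 7) (nat_lit 15) (nat_lit 4) (nat_lit 7) (nat_lit 15) (by decide +kernel)
theorem L80410 : W_29 (nat_lit 3) (nat_lit 0x380008000e000200000001000080000000000000000000000000000000) (nat_lit 0x0) (nat_lit 0x400020000000140000000400000000000000000000000000000000000000000000) := T_29 (nat_lit 245) (nat_lit 178) (nat_lit 6) (nat_lit 7) (nat_lit 14) L80409 (by decide +kernel)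
theorem L80411 : W_29 (nat_lit 4) (nat_lit 0x180008000e000200000001000080000000000000000000000000000000) (nat_lit 0x0) (nat_lit 0x400060002000140000000400000000000000000000000000000000000000000000) := T_29 (nat_lit 229) (nat_lit 246) (nat_lit 7) (nat_lit 7) (nat_lit 10) L80410 (by decide +kernel)
theorem L80412 : W_29 (nat_lit 2) (nat_lit 0x3c0008000e000200000001000080000000000000000000000000000000) (nat_lit 0x0) (nat_lit 0x200300000000000000000000000000000000000000000000000000000) := D_29 (nat_lit 212) (nat_lit 213) (nat_lit 225) (nat_lit 2) (nat_lit 5) (nat_lit 13) (nat_lit 2) (nat_lit 4) (nat_lit 13) (by decide +kernel)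
theorem L80413 : W_29 (nat_lit 3) (nat_lit 0x1c0008000e000200000001000080000000000000000000000000000000) (nat_lit 0x0) (nat_lit 0x40002200300000000000000000000000000000000000000000000000000000) := T_29 (nat_lit 229) (nat_lit 246) (nat_lit 7) (nat_lit 7) (nat_lit 10) L80412 (by decide +kernel)
theorem L80414 : W_29 (nat_lit 2) (nat_lit 0x8003c000a000e000200000001000080000000000000000000000000000000) (nat_lit 0x0) (nat_lit 0x4000040000000100000000000000000000000000000000000000000000) := D_29 (nat_lit 210) (nat_lit 176) (nat_lit 230) (nat_lit 5) (nat_lit 6) (nat_lit 10) (nat_lit 0) (nat_lit 9) (nat_lit 13) (by decide +kernel)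
theorem L80415 : W_29 (nat_lit 3) (nat_lit 0x8003c0008000e000200000001000080000000000000000000000000000000) (nat_lit 0x0) (nat_lit 0x4000070000000100000000000000000000000000000000000000000000) := T_29 (nat_lit 209) (nat_lit 208) (nat_lit 0) (nat_lit 8) (nat_lit 13) L80414 (by decide +kernel)
theorem L80416 : W_29 (nat_lit 4) (nat_lit 0x3c0008000e000200000001000080000000000000000000000000000000) (nat_lit 0x0) (nat_lit 0xc004000070000000100000000000000000000000000000000000000000000) := T_29 (nat_lit 243) (nat_lit 242) (nat_lit 1) (nat_lit 8) (nat_lit 13) L80415 (by decide +kernel)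
theorem L80417 : W_29 (nat_lit 5) (nat_lit 0x1c0008000e000200000001000080000000000000000000000000000000) (nat_lit 0x0) (nat_lit 0x4c006000070000000100000000000000000000000000000000000000000000) := T_29 (nat_lit 229) (nat_lit 246) (nat_lit 7) (nat_lit 7) (nat_lit 10) L80416 (by decide +kernel)
theorem L80418 : W_29 (nat_lit 2) (nat_lit 0x1f0008000e000200000001000080000000000000000000000000000000) (nat_lit 0x0) (nat_lit 0x7000000000000000000000000000000000000000000000000000000000000) := D_29 (nat_lit 241) (nat_lit 240) (nat_lit 242) (nat_lit 1) (nat_lit 6) (nat_lit 13) (nat_lit 1) (nat_lit 7) (nat_lit 13) (by decide +kernel)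
theorem L80419 : W_29 (nat_lit 3) (nat_lit 0x1e0008000e000200000001000080000000000000000000000000000000) (nat_lit 0x0) (nat_lit 0x7000100040000000000000000000000000000000000000000000000000000) := T_29 (nat_lit 224) (nat_lit 210) (nat_lit 2) (nat_lit 3) (nat_lit 13) L80418 (by decide +kernel)
theorem L80420 : W_29 (nat_lit 4) (nat_lit 0x1c0008000e000200000001000080000000000000000000000000000000) (nat_lit 0x0) (nat_lit 0x7000300140000000000000000000000000000000000000000000000000000) := T_29 (nat_lit 225) (nat_lit 212) (nat_lit 2) (nat_lit 4) (nat_lit 13) L80419 (by decide +kernel)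
theorem L80421 : W_29 (nat_lit 6) (nat_lit 0x180008000e000200000001000080000000000000000000000000000000) (nat_lit 0x0) (nat_lit 0x4f006700370000000100000000000000000000000000000000000000000000) := Q_29 (nat_lit 226) (C_29 L80413 (C_29 L80417 (C_29 L80420 N_29))) (by decide +kernel)
theorem L80422 : W_29 (nat_lit 7) (nat_lit 0x180000000e000200000001000080000000000000000000000000000000) (nat_lit 0x0) (nat_lit 0xc0006f0067003f0000000500000000000000000000000000000000000000000000) := Q_29 (nat_lit 211) (C_29 L80402 (C_29 L80408 (C_29 L80411 (C_29 L80421 N_29)))) (by decide +kernel)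
theorem L80423 : W_29 (nat_lit 8) (nat_lit 0x80000000e000200000001000080000000000000000000000000000000) (nat_lit 0x0) (nat_lit 0xc0007f0077003f00000005c0004000000000000000000000000000000000000000) := Q_29 (nat_lit 228) (C_29 L80401 (C_29 L80403 (C_29 L80406 (C_29 L80422 N_29)))) (by decide +kernel)
theorem L80424 : W_29 (nat_lit 2) (nat_lit 0x80004000e000200000001000080000000000000000000000000000000) (nat_lit 0x0) (nat_lit 0x100010000800000000000000000000000000000000000) := D_29 (nat_lit 160) (nat_lit 143) (nat_lit 176) (nat_lit 6) (nat_lit 7) (nat_lit 11) (nat_lit 6) (nat_lit 6) (nat_lit 13) (by decide +kernel)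
theorem L80425 : W_29 (nat_lit 3) (nat_lit 0x80000000e000200000001000080000000000000000000000000000000) (nat_lit 0x0) (nat_lit 0x10000000040000000100010000800000000000000000000000000000000000) := T_29 (nat_lit 210) (nat_lit 244) (nat_lit 6) (nat_lit 6) (nat_lit 14) L80424 (by decide +kernel)
theorem L80426 : W_29 (nat_lit 2) (nat_lit 0x180008000e000200010001000080000000000000000000000000000000) (nat_lit 0x0) (nat_lit 0x40002000100000000000000000000000000000000000000000000000000000) := D_29 (nat_lit 229) (nat_lit 212) (nat_lit 246) (nat_lit 7) (nat_lit 7) (nat_lit 9) (nat_lit 7) (nat_lit 7) (nat_lit 10) (by decide +kernel)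
theorem L80427 : W_29 (nat_lit 3) (nat_lit 0x180000000e000200010001000080000000000000000000000000000000) (nat_lit 0x0) (nat_lit 0x50002000180000000000000000000000000000000000000000000000000000) := T_29 (nat_lit 211) (nat_lit 244) (nat_lit 5) (nat_lit 7) (nat_lit 10) L80426 (by decide +kernel)
theorem L80428 : W_29 (nat_lit 4) (nat_lit 0x180000000e000200000001000080000000000000000000000000000000) (nat_lit 0x0) (nat_lit 0x50002000180000000000010000800000000000000000000000000000000000) := T_29 (nat_lit 160) (nat_lit 143) (nat_lit 6) (nat_lit 7) (nat_lit 11) L80427 (by decide +kernel)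
theorem L80429 : W_29 (nat_lit 2) (nat_lit 0x380000000e000200010001000080000000000000000000000000000000) (nat_lit 0x0) (nat_lit 0x40000000100000000400000000000000000000000000000000000000000000) := D_29 (nat_lit 212) (nat_lit 178) (nat_lit 246) (nat_lit 4) (nat_lit 8) (nat_lit 13) (nat_lit 4) (nat_lit 8) (nat_lit 14) (by decide +kernel)
theorem L80430 : W_29 (nat_lit 3) (nat_lit 0x380000000e000200000001000080000000000000000000000000000000) (nat_lit 0x0) (nat_lit 0x40000000100000000400010000800000000000000000000000000000000000) := T_29 (nat_lit 160) (nat_lit 143) (nat_lit 6) (nat_lit 7) (nat_lit 11) L80429 (by decide +kernel)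
theorem L80431 : W_29 (nat_lit 2) (nat_lit 0x40003e0000000e000200010001000080000000000000000000000000000000) (nat_lit 0x0) (nat_lit 0xe000000000000000000000000000000000000000000000000000000000000) := D_29 (nat_lit 242) (nat_lit 241) (nat_lit 243) (nat_lit 1) (nat_lit 7) (nat_lit 13) (nat_lit 1) (nat_lit 8) (nat_lit 13) (by decide +kernel)
theorem L80432 : W_29 (nat_lit 3) (nat_lit 0x40003c0000000e000200010001000080000000000000000000000000000000) (nat_lit 0x0) (nat_lit 0x2e000200000000000000000000000000000000000000000000000000000000) := T_29 (nat_lit 225) (nat_lit 245) (nat_lit 3) (nat_lit 4) (nat_lit 13) L80431 (by decide +kernel)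
theorem L80433 : W_29 (nat_lit 4) (nat_lit 0x4000380000000e000200010001000080000000000000000000000000000000) (nat_lit 0x0) (nat_lit 0xae000600000000000000000000000000000000000000000000000000000000) := T_29 (nat_lit 226) (nat_lit 247) (nat_lit 3) (nat_lit 5) (nat_lit 13) L80432 (by decide +kernel)
theorem L80434 : W_29 (nat_lit 5) (nat_lit 0x380000000e000200010001000080000000000000000000000000000000) (nat_lit 0x0) (nat_lit 0xee000600100000000000000000000000000000000000000000000000000000) := T_29 (nat_lit 246) (nat_lit 212) (nat_lit 4) (nat_lit 8) (nat_lit 14) L80433 (by decide +kernel)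
theorem L80435 : W_29 (nat_lit 6) (nat_lit 0x380000000e000200000001000080000000000000000000000000000000) (nat_lit 0x0) (nat_lit 0xee000600100000000000010000800000000000000000000000000000000000) := T_29 (nat_lit 160) (nat_lit 143) (nat_lit 6) (nat_lit 7) (nat_lit 11) L80434 (by decide +kernel)
theorem L80436 : W_29 (nat_lit 2) (nat_lit 0x40003e0000000e000200000001000080000000000000000000000000000000) (nat_lit 0x0) (nat_lit 0xe000000000000000000000000000000000000000000000000000000000000) := D_29 (nat_lit 242) (nat_lit 241) (nat_lit 243) (nat_lit 1) (nat_lit 7) (nat_lit 13) (nat_lit 1) (nat_lit 8) (nat_lit 13) (by decide +kernel)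
theorem L80437 : W_29 (nat_lit 3) (nat_lit 0x40003c0000000e000200000001000080000000000000000000000000000000) (nat_lit 0x0) (nat_lit 0x2e000200000000000000000000000000000000000000000000000000000000) := T_29 (nat_lit 225) (nat_lit 245) (nat_lit 3) (nat_lit 4) (nat_lit 13) L80436 (by decide +kernel)
theorem L80438 : W_29 (nat_lit 4) (nat_lit 0x4000380000000e000200000001000080000000000000000000000000000000) (nat_lit 0x0) (nat_lit 0xae000600000000000000000000000000000000000000000000000000000000) := T_29 (nat_lit 226) (nat_lit 247) (nat_lit 3) (nat_lit 5) (nat_lit 13) L80437 (by decide +kernel)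
theorem L80439 : W_29 (nat_lit 5) (nat_lit 0x380000000e000200000001000080000000000000000000000000000000) (nat_lit 0x0) (nat_lit 0xee000600100000000000000000000000000000000000000000000000000000) := T_29 (nat_lit 246) (nat_lit 212) (nat_lit 4) (nat_lit 8) (nat_lit 14) L80438 (by decide +kernel)
theorem L80440 : W_29 (nat_lit 4) (nat_lit 0x3c0000000e000200010001000080000000000000000000000000000000) (nat_lit 0x0) (nat_lit 0xee000200000000000000000000000000000000000000000000000000000000) := T_29 (nat_lit 246) (nat_lit 247) (nat_lit 3) (nat_lit 5) (nat_lit 13) L80432 (by decide +kernel)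
theorem L80441 : W_29 (nat_lit 5) (nat_lit 0x3c0000000e000200000001000080000000000000000000000000000000) (nat_lit 0x0) (nat_lit 0xee000200000000000000010000800000000000000000000000000000000000) := T_29 (nat_lit 160) (nat_lit 143) (nat_lit 6) (nat_lit 7) (nat_lit 11) L80440 (by decide +kernel)
theorem L80442 : W_29 (nat_lit 2) (nat_lit 0x48003e0000000e000200000001000080000000000000000000000000000000) (nat_lit 0x0) (nat_lit 0x38000000000000000000000000000000000000000000000000000) := D_29 (nat_lit 208) (nat_lit 207) (nat_lit 209) (nat_lit 0) (nat_lit 7) (nat_lit 13) (nat_lit 0) (nat_lit 8) (nat_lit 13) (by decide +kernel)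
theorem L80443 : W_29 (nat_lit 3) (nat_lit 0x48003c0000000e000200000001000080000000000000000000000000000000) (nat_lit 0x0) (nat_lit 0x20000200038000000000000000000000000000000000000000000000000000) := T_29 (nat_lit 225) (nat_lit 245) (nat_lit 3) (nat_lit 4) (nat_lit 13) L80442 (by decide +kernel)
theorem L80444 : W_29 (nat_lit 4) (nat_lit 0x8003c0000000e000200000001000080000000000000000000000000000000) (nat_lit 0x0) (nat_lit 0xe0000200038000000000000000000000000000000000000000000000000000) := T_29 (nat_lit 246) (nat_lit 247) (nat_lit 3) (nat_lit 5) (nat_lit 13) L80443 (by decide +kernel)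
theorem L80445 : W_29 (nat_lit 5) (nat_lit 0x3c0000000e000200000001000080000000000000000000000000000000) (nat_lit 0x0) (nat_lit 0xec000200038000000000000000000000000000000000000000000000000000) := T_29 (nat_lit 243) (nat_lit 242) (nat_lit 1) (nat_lit 8) (nat_lit 13) L80444 (by decide +kernel)
theorem L80446 : W_29 (nat_lit 2) (nat_lit 0x108007c0042000e000200010001000080000000000000000000000000000000) (nat_lit 0x0) (nat_lit 0x200008000800000000000000000000000000000000000000000000000000000) := D_29 (nat_lit 231) (nat_lit 249) (nat_lit 215) (nat_lit 3) (nat_lit 7) (nat_lit 13) (nat_lit 2) (nat_lit 7) (nat_lit 13) (by decide +kernel)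
theorem L80447 : W_29 (nat_lit 3) (nat_lit 0x108007c0002000e000200010001000080000000000000000000000000000000) (nat_lit 0x0) (nat_lit 0x200008000e00000000000000000000000000000000000000000000000000000) := T_29 (nat_lit 214) (nat_lit 213) (nat_lit 2) (nat_lit 6) (nat_lit 13) L80446 (by decide +kernel)
theorem L80448 : W_29 (nat_lit 4) (nat_lit 0x8007c0002000e000200010001000080000000000000000000000000000000) (nat_lit 0x0) (nat_lit 0x380008000e00000000000000000000000000000000000000000000000000000) := T_29 (nat_lit 248) (nat_lit 247) (nat_lit 3) (nat_lit 6) (nat_lit 13) L80447 (by decide +kernel)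
theorem L80449 : W_29 (nat_lit 5) (nat_lit 0x8007c0000000e000200010001000080000000000000000000000000000000) (nat_lit 0x0) (nat_lit 0x380008000e30000000000000000000000000000000000000000000000000000) := T_29 (nat_lit 209) (nat_lit 208) (nat_lit 0) (nat_lit 8) (nat_lit 13) L80448 (by decide +kernel)
theorem L80450 : W_29 (nat_lit 6) (nat_lit 0x8003c0000000e000200010001000080000000000000000000000000000000) (nat_lit 0x0) (nat_lit 0x39000c000e30000000000000000000000000000000000000000000000000000) := T_29 (nat_lit 230) (nat_lit 244) (nat_lit 1) (nat_lit 9) (nat_lit 13) L80449 (by decide +kernel)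
theorem L80451 : W_29 (nat_lit 7) (nat_lit 0x8003c0000000e000200000001000080000000000000000000000000000000) (nat_lit 0x0) (nat_lit 0x39000c000e30000000000010000800000000000000000000000000000000000) := T_29 (nat_lit 160) (nat_lit 143) (nat_lit 6) (nat_lit 7) (nat_lit 11) L80450 (by decide +kernel)
theorem L80452 : W_29 (nat_lit 8) (nat_lit 0x3c0000000e000200000001000080000000000000000000000000000000) (nat_lit 0x0) (nat_lit 0x39c00c000e30000000000010000800000000000000000000000000000000000) := T_29 (nat_lit 243) (nat_lit 242) (nat_lit 1) (nat_lit 8) (nat_lit 13) L80451 (by decide +kernel)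
theorem L80453 : W_29 (nat_lit 2) (nat_lit 0x3e0001000e000200010001000080000000000000000000000000000000) (nat_lit 0x0) (nat_lit 0xe0000000000000000000000000000000000000000000000000000000000000) := D_29 (nat_lit 246) (nat_lit 247) (nat_lit 245) (nat_lit 3) (nat_lit 5) (nat_lit 13) (nat_lit 3) (nat_lit 4) (nat_lit 13) (by decide +kernel)
theorem L80454 : W_29 (nat_lit 3) (nat_lit 0x3c0001000e000200010001000080000000000000000000000000000000) (nat_lit 0x0) (nat_lit 0xe0000200008000000000000000000000000000000000000000000000000000) := T_29 (nat_lit 225) (nat_lit 207) (nat_lit 0) (nat_lit 7) (nat_lit 13) L80453 (by decide +kernel)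
theorem L80455 : W_29 (nat_lit 4) (nat_lit 0x3c0001000e000200000001000080000000000000000000000000000000) (nat_lit 0x0) (nat_lit 0xe0000200008000000000010000800000000000000000000000000000000000) := T_29 (nat_lit 160) (nat_lit 143) (nat_lit 6) (nat_lit 7) (nat_lit 11) L80454 (by decide +kernel)
theorem L80456 : W_29 (nat_lit 5) (nat_lit 0x3c0000000e000200000001000080000000000000000000000000000000) (nat_lit 0x0) (nat_lit 0xe0000200038000000000010000800000000000000000000000000000000000) := T_29 (nat_lit 208) (nat_lit 209) (nat_lit 0) (nat_lit 8) (nat_lit 13) L80455 (by decide +kernel)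
theorem L80457 : W_29 (nat_lit 2) (nat_lit 0x18003e0001000e000200010001000080000000000000000000000000000000) (nat_lit 0x0) (nat_lit 0x60000100000000000000000000000000000000000000000000000000000000) := D_29 (nat_lit 245) (nat_lit 246) (nat_lit 224) (nat_lit 3) (nat_lit 4) (nat_lit 13) (nat_lit 3) (nat_lit 3) (nat_lit 13) (by decide +kernel)
theorem L80458 : W_29 (nat_lit 3) (nat_lit 0x18003c0001000e000200010001000080000000000000000000000000000000) (nat_lit 0x0) (nat_lit 0x60000300008000000000000000000000000000000000000000000000000000) := T_29 (nat_lit 225) (nat_lit 207) (nat_lit 0) (nat_lit 7) (nat_lit 13) L80457 (by decide +kernel)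
theorem L80459 : W_29 (nat_lit 4) (nat_lit 0x18003c0001000e000200000001000080000000000000000000000000000000) (nat_lit 0x0) (nat_lit 0x60000300008000000000010000800000000000000000000000000000000000) := T_29 (nat_lit 160) (nat_lit 143) (nat_lit 6) (nat_lit 7) (nat_lit 11) L80458 (by decide +kernel)
theorem L80460 : W_29 (nat_lit 5) (nat_lit 0x8003c0001000e000200000001000080000000000000000000000000000000) (nat_lit 0x0) (nat_lit 0x70004300008000000000010000800000000000000000000000000000000000) := T_29 (nat_lit 244) (nat_lit 230) (nat_lit 1) (nat_lit 9) (nat_lit 13) L80459 (by decide +kernel)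
theorem L80461 : W_29 (nat_lit 6) (nat_lit 0x8003c0000000e000200000001000080000000000000000000000000000000) (nat_lit 0x0) (nat_lit 0x70004300038000000000010000800000000000000000000000000000000000) := T_29 (nat_lit 208) (nat_lit 209) (nat_lit 0) (nat_lit 8) (nat_lit 13) L80460 (by decide +kernel)
theorem L80462 : W_29 (nat_lit 7) (nat_lit 0x3c0000000e000200000001000080000000000000000000000000000000) (nat_lit 0x0) (nat_lit 0x7c004300038000000000010000800000000000000000000000000000000000) := T_29 (nat_lit 243) (nat_lit 242) (nat_lit 1) (nat_lit 8) (nat_lit 13) L80461 (by decide +kernel)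
theorem L80463 : W_29 (nat_lit 9) (nat_lit 0x380000000e000200000001000080000000000000000000000000000000) (nat_lit 0x0) (nat_lit 0x3fe00c700e38000000000010000800000000000000000000000000000000000) := Q_29 (nat_lit 226) (C_29 L80441 (C_29 L80445 (C_29 L80452 (C_29 L80456 (C_29 L80462 N_29))))) (by decide +kernel)
theorem L80464 : W_29 (nat_lit 2) (nat_lit 0x18003e0011000e000200010001000080000000000000000000000000000000) (nat_lit 0x0) (nat_lit 0x20000180000000000000000000000000000000000000000000000000000000) := D_29 (nat_lit 224) (nat_lit 223) (nat_lit 245) (nat_lit 3) (nat_lit 2) (nat_lit 13) (nat_lit 3) (nat_lit 3) (nat_lit 13) (by decide +kernel)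
theorem L80465 : W_29 (nat_lit 3) (nat_lit 0x18003c0011000e000200010001000080000000000000000000000000000000) (nat_lit 0x0) (nat_lit 0x20000380008000000000000000000000000000000000000000000000000000) := T_29 (nat_lit 225) (nat_lit 207) (nat_lit 0) (nat_lit 7) (nat_lit 13) L80464 (by decide +kernel)
theorem L80466 : W_29 (nat_lit 4) (nat_lit 0x8003c0011000e000200010001000080000000000000000000000000000000) (nat_lit 0x0) (nat_lit 0x30004380008000000000000000000000000000000000000000000000000000) := T_29 (nat_lit 244) (nat_lit 230) (nat_lit 1) (nat_lit 9) (nat_lit 13) L80465 (by decide +kernel)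
theorem L80467 : W_29 (nat_lit 5) (nat_lit 0x8003c0010000e000200010001000080000000000000000000000000000000) (nat_lit 0x0) (nat_lit 0x30004380038000000000000000000000000000000000000000000000000000) := T_29 (nat_lit 208) (nat_lit 209) (nat_lit 0) (nat_lit 8) (nat_lit 13) L80466 (by decide +kernel)
theorem L80468 : W_29 (nat_lit 6) (nat_lit 0x3c0010000e000200010001000080000000000000000000000000000000) (nat_lit 0x0) (nat_lit 0x3c004380038000000000000000000000000000000000000000000000000000) := T_29 (nat_lit 243) (nat_lit 242) (nat_lit 1) (nat_lit 8) (nat_lit 13) L80467 (by decide +kernel)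
theorem L80469 : W_29 (nat_lit 7) (nat_lit 0x380010000e000200010001000080000000000000000000000000000000) (nat_lit 0x0) (nat_lit 0x3c004780238000000000000000000000000000000000000000000000000000) := T_29 (nat_lit 226) (nat_lit 213) (nat_lit 2) (nat_lit 5) (nat_lit 13) L80468 (by decide +kernel)
theorem L80470 : W_29 (nat_lit 8) (nat_lit 0x380000000e000200010001000080000000000000000000000000000000) (nat_lit 0x0) (nat_lit 0x3c004780338000000400000000000000000000000000000000000000000000) := T_29 (nat_lit 212) (nat_lit 178) (nat_lit 4) (nat_lit 8) (nat_lit 13) L80469 (by decide +kernel)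
theorem L80471 : W_29 (nat_lit 9) (nat_lit 0x380000000e000200000001000080000000000000000000000000000000) (nat_lit 0x0) (nat_lit 0x3c004780338000000400010000800000000000000000000000000000000000) := T_29 (nat_lit 160) (nat_lit 143) (nat_lit 6) (nat_lit 7) (nat_lit 11) L80470 (by decide +kernel)
theorem L80472 : W_29 (nat_lit 10) (nat_lit 0x180000000e000200000001000080000000000000000000000000000000) (nat_lit 0x0) (nat_lit 0x3fe00e780f38000000400010000800000000000000000000000000000000000) := Q_29 (nat_lit 229) (C_29 L80430 (C_29 L80435 (C_29 L80439 (C_29 L80463 (C_29 L80471 N_29))))) (by decide +kernel)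
theorem L80473 : W_29 (nat_lit 2) (nat_lit 0x380008000e000200010001000080000000000000000000000000000000) (nat_lit 0x0) (nat_lit 0x20000000000000000500000000000000000000000000000000000000000000) := D_29 (nat_lit 245) (nat_lit 178) (nat_lit 176) (nat_lit 6) (nat_lit 7) (nat_lit 14) (nat_lit 4) (nat_lit 7) (nat_lit 14) (by decide +kernel)
theorem L80474 : W_29 (nat_lit 3) (nat_lit 0x380000000e000200010001000080000000000000000000000000000000) (nat_lit 0x0) (nat_lit 0x60000000080000000500000000000000000000000000000000000000000000) := T_29 (nat_lit 211) (nat_lit 246) (nat_lit 7) (nat_lit 7) (nat_lit 10) L80473 (by decide +kernel)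
theorem L80475 : W_29 (nat_lit 4) (nat_lit 0x380000000e000200000001000080000000000000000000000000000000) (nat_lit 0x0) (nat_lit 0x60000000080000000500010000800000000000000000000000000000000000) := T_29 (nat_lit 160) (nat_lit 143) (nat_lit 6) (nat_lit 7) (nat_lit 11) L80474 (by decide +kernel)
theorem L80476 : W_29 (nat_lit 2) (nat_lit 0x380000000e000200010001000080000000000000000000000000000000) (nat_lit 0x0) (nat_lit 0x180000000400000000000000000000000000000000000000000000) := D_29 (nat_lit 212) (nat_lit 178) (nat_lit 211) (nat_lit 4) (nat_lit 8) (nat_lit 13) (nat_lit 7) (nat_lit 7) (nat_lit 9) (by decide +kernel)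
theorem L80477 : W_29 (nat_lit 3) (nat_lit 0x380000000e000200000001000080000000000000000000000000000000) (nat_lit 0x0) (nat_lit 0x180000000400010000800000000000000000000000000000000000) := T_29 (nat_lit 160) (nat_lit 143) (nat_lit 6) (nat_lit 7) (nat_lit 11) L80476 (by decide +kernel)
theorem L80478 : W_29 (nat_lit 6) (nat_lit 0x180000000e000200000001000080000000000000000000000000000000) (nat_lit 0x0) (nat_lit 0xee002600180000000500010000800000000000000000000000000000000000) := Q_29 (nat_lit 229) (C_29 L80439 (C_29 L80475 (C_29 L80477 N_29))) (by decide +kernel)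
theorem L80479 : W_29 (nat_lit 11) (nat_lit 0x80000000e000200000001000080000000000000000000000000000000) (nat_lit 0x0) (nat_lit 0x3fe00f780fb8000000500010000800000000000000000000000000000000000) := Q_29 (nat_lit 228) (C_29 L80403 (C_29 L80428 (C_29 L80472 (C_29 L80478 N_29)))) (by decide +kernel)
theorem L80480 : W_29 (nat_lit 2) (nat_lit 0x80000000e000200010001000080000000000000000000000000000000) (nat_lit 0x0) (nat_lit 0xc0000000100000000000000000000000000000000000000000000) := D_29 (nat_lit 210) (nat_lit 211) (nat_lit 176) (nat_lit 5) (nat_lit 7) (nat_lit 9) (nat_lit 6) (nat_lit 6) (nat_lit 13) (by decide +kernel)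
theorem L80481 : W_29 (nat_lit 3) (nat_lit 0x80000000e000200000001000080000000000000000000000000000000) (nat_lit 0x0) (nat_lit 0xc0000000100010000800000000000000000000000000000000000) := T_29 (nat_lit 160) (nat_lit 143) (nat_lit 6) (nat_lit 7) (nat_lit 11) L80480 (by decide +kernel)
theorem L80482 : W_29 (nat_lit 12) (nat_lit 0xe000200000001000080000000000000000000000000000000) (nat_lit 0x0) (nat_lit 0xc003ff00ff80ff80000005c0014000800000000000000000000000000000000000) := Q_29 (nat_lit 227) (C_29 L80398 (C_29 L80400 (C_29 L80423 (C_29 L80425 (C_29 L80479 (C_29 L80481 N_29)))))) (by decide +kernel)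
theorem L80483 : W_29 (nat_lit 11) (nat_lit 0xe000200000001000080000000000000000000000000000000) (nat_lit 0x0) (nat_lit 0x80004803f600f0003d80010000800000000000000000000000000000000000) := Q_29 (nat_lit 196) (C_29 L80364 (C_29 L80354 (C_29 L8031 N_29))) (by decide +kernel)
theorem L80484 : W_29 (nat_lit 13) (nat_lit 0x6000200000001000080000000000000000000000000000000) (nat_lit 0x0) (nat_lit 0x3c003ff00ff83ff80f8007dc00d4004800000000000000000000000000000000000) := Q_29 (nat_lit 195) (C_29 L80307 (C_29 L80333 (C_29 L80338 (C_29 L80350 (C_29 L80355 (C_29 L80368 (C_29 L80482 (C_29 L80483 N_29)))))))) (by decide +kernel)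
theorem L80486 : W_29 (nat_lit 2) (nat_lit 0x1000000016000f800200000001000080000000000000000000000000000000) (nat_lit 0x0) (nat_lit 0x600100000000000000000000000000000000000000000000) := D_29 (nat_lit 190) (nat_lit 189) (nat_lit 176) (nat_lit 3) (nat_lit 2) (nat_lit 11) (nat_lit 2) (nat_lit 3) (nat_lit 11) (by decide +kernel)
theorem L80487 : W_29 (nat_lit 3) (nat_lit 0x1000000016000f000200000001000080000000000000000000000000000000) (nat_lit 0x0) (nat_lit 0x80000e00100000000000000000000000000000000000000000000) := T_29 (nat_lit 191) (nat_lit 211) (nat_lit 3) (nat_lit 4) (nat_lit 11) L80486 (by decide +kernel)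
theorem L80488 : W_29 (nat_lit 4) (nat_lit 0x1000000006000f000200000001000080000000000000000000000000000000) (nat_lit 0x0) (nat_lit 0x380000e00100000000000000000000000000000000000000000000) := T_29 (nat_lit 212) (nat_lit 213) (nat_lit 3) (nat_lit 5) (nat_lit 11) L80487 (by decide +kernel)
theorem L80489 : W_29 (nat_lit 5) (nat_lit 0x10000000060007000200000001000080000000000000000000000000000000) (nat_lit 0x0) (nat_lit 0x380018e00100000000000000000000000000000000000000000000) := T_29 (nat_lit 195) (nat_lit 196) (nat_lit 1) (nat_lit 9) (nat_lit 11) L80488 (by decide +kernel)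
theorem L80490 : W_29 (nat_lit 6) (nat_lit 0x60007000200000001000080000000000000000000000000000000) (nat_lit 0x0) (nat_lit 0x10000800380018e00100000000000000000000000000000000000000000000) := T_29 (nat_lit 244) (nat_lit 227) (nat_lit 6) (nat_lit 6) (nat_lit 14) L80489 (by decide +kernel)
theorem L80494 : W_29 (nat_lit 9) (nat_lit 0x7000200000001000080000000000000000000000000000000) (nat_lit 0x0) (nat_lit 0xa001dc008c001f0014000a00000000000000000000000000000000000) := Q_29 (nat_lit 191) (C_29 L10036 (C_29 L79612 (C_29 L10040 (C_29 L10490 N_29)))) (by decide +kernel)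
theorem L80495 : W_29 (nat_lit 8) (nat_lit 0x7000200010001000080000000000000000000000000000000) (nat_lit 0x0) (nat_lit 0xa001d80088004e0004000200000000000000000000000000000000000) := T_29 (nat_lit 191) (nat_lit 178) (nat_lit 2) (nat_lit 4) (nat_lit 11) L10489 (by decide +kernel)
theorem L80496 : W_29 (nat_lit 9) (nat_lit 0x7000200000001000080000000000000000000000000000000) (nat_lit 0x0) (nat_lit 0xa001d80088004e0014000a00000000000000000000000000000000000) := T_29 (nat_lit 160) (nat_lit 143) (nat_lit 6) (nat_lit 7) (nat_lit 11) L80495 (by decide +kernel)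
theorem L80497 : W_29 (nat_lit 7) (nat_lit 0x7000200000001000080000000000000000000000000000000) (nat_lit 0x0) (nat_lit 0x40002000700018001dc0010000800000000000000000000000000000000000) := Q_29 (nat_lit 195) (C_29 L10446 (C_29 L10292 (C_29 L80163 (C_29 L5280 N_29)))) (by decide +kernel)
theorem L80498 : W_29 (nat_lit 10) (nat_lit 0x6000200000001000080000000000000000000000000000000) (nat_lit 0x0) (nat_lit 0x40002a007dc019c01df0014000a00000000000000000000000000000000000) := Q_29 (nat_lit 192) (C_29 L10037 (C_29 L80494 (C_29 L80496 (C_29 L10059 (C_29 L80497 N_29))))) (by decide +kernel)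
theorem L80499 : W_29 (nat_lit 7) (nat_lit 0x40006000200000001000080000000000000000000000000000000) (nat_lit 0x0) (nat_lit 0x20007a0039803de0010000800000000000000000000000000000000000) := Q_29 (nat_lit 195) (C_29 L80153 (C_29 L10063 (C_29 L10247 (C_29 L80124 N_29)))) (by decide +kernel)
theorem L80500 : W_29 (nat_lit 5) (nat_lit 0x100000000c0007000200000001000080000000000000000000000000000000) (nat_lit 0x0) (nat_lit 0x20038c000e0000000000000000000000000000000000000000000) := T_29 (nat_lit 191) (nat_lit 190) (nat_lit 3) (nat_lit 3) (nat_lit 11) L10504 (by decide +kernel)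
theorem L80501 : W_29 (nat_lit 6) (nat_lit 0xc0007000200000001000080000000000000000000000000000000) (nat_lit 0x0) (nat_lit 0x10000800020038c000e0000000000000000000000000000000000000000000) := T_29 (nat_lit 244) (nat_lit 227) (nat_lit 6) (nat_lit 6) (nat_lit 14) L80500 (by decide +kernel)
theorem L80502 : W_29 (nat_lit 7) (nat_lit 0x40007000200000001000080000000000000000000000000000000) (nat_lit 0x0) (nat_lit 0x100008007a0038c001e0004000200000000000000000000000000000000000) := Q_29 (nat_lit 211) (C_29 L79425 (C_29 L80501 (C_29 L78777 N_29))) (by decide +kernel)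
theorem L80503 : W_29 (nat_lit 2) (nat_lit 0x5000000014001f000200000001000080000000000000000000000000000000) (nat_lit 0x0) (nat_lit 0x80020000100000000000000000000000000000000000000000000) := D_29 (nat_lit 197) (nat_lit 176) (nat_lit 211) (nat_lit 0) (nat_lit 10) (nat_lit 11) (nat_lit 1) (nat_lit 10) (nat_lit 11) (by decide +kernel)
theorem L80504 : W_29 (nat_lit 3) (nat_lit 0x5000000014000f000200000001000080000000000000000000000000000000) (nat_lit 0x0) (nat_lit 0xa0030000100000000000000000000000000000000000000000000) := T_29 (nat_lit 196) (nat_lit 209) (nat_lit 1) (nat_lit 9) (nat_lit 11) L80503 (by decide +kernel)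
theorem L80505 : W_29 (nat_lit 4) (nat_lit 0x1000000014000f000200000001000080000000000000000000000000000000) (nat_lit 0x0) (nat_lit 0x400020000a0030000100000000000000000000000000000000000000000000) := T_29 (nat_lit 246) (nat_lit 229) (nat_lit 4) (nat_lit 8) (nat_lit 14) L80504 (by decide +kernel)
theorem L80506 : W_29 (nat_lit 5) (nat_lit 0x1000000004000f000200000001000080000000000000000000000000000000) (nat_lit 0x0) (nat_lit 0x400020003a0030000100000000000000000000000000000000000000000000) := T_29 (nat_lit 212) (nat_lit 213) (nat_lit 3) (nat_lit 5) (nat_lit 11) L80505 (by decide +kernel)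
theorem L80507 : W_29 (nat_lit 6) (nat_lit 0x4000f000200000001000080000000000000000000000000000000) (nat_lit 0x0) (nat_lit 0x500028003a0030000100000000000000000000000000000000000000000000) := T_29 (nat_lit 244) (nat_lit 227) (nat_lit 6) (nat_lit 6) (nat_lit 14) L80506 (by decide +kernel)
theorem L80508 : W_29 (nat_lit 2) (nat_lit 0x4001f000200000001000080000000000000000000000000000000) (nat_lit 0x0) (nat_lit 0x20000180000000000000000000000000000000000000000000) := D_29 (nat_lit 176) (nat_lit 197) (nat_lit 175) (nat_lit 0) (nat_lit 10) (nat_lit 11) (nat_lit 0) (nat_lit 9) (nat_lit 11) (by decide +kernel)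
theorem L80509 : W_29 (nat_lit 3) (nat_lit 0x4000f000200000001000080000000000000000000000000000000) (nat_lit 0x0) (nat_lit 0x20030000180000000000000000000000000000000000000000000) := T_29 (nat_lit 196) (nat_lit 209) (nat_lit 1) (nat_lit 9) (nat_lit 11) L80508 (by decide +kernel)
theorem L80510 : W_29 (nat_lit 14) (nat_lit 0x40007000200000001000080000000000000000000000000000000) (nat_lit 0x0) (nat_lit 0x7f001f801fa0078000dc0004000200000000000000000000000000000000000) := Q_29 (nat_lit 195) (C_29 L80193 (C_29 L80507 (C_29 L80069 (C_29 L80509 N_29)))) (by decide +kernel)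
theorem L80511 : W_29 (nat_lit 15) (nat_lit 0x40006000200000001000080000000000000000000000000000000) (nat_lit 0x0) (nat_lit 0x7f001f801fa0079c00df0004000200000000000000000000000000000000000) := Q_29 (nat_lit 192) (C_29 L80212 (C_29 L80502 (C_29 L79642 (C_29 L10509 (C_29 L80510 N_29))))) (by decide +kernel)
theorem L80512 : W_29 (nat_lit 16) (nat_lit 0x6000200000001000080000000000000000000000000000000) (nat_lit 0x0) (nat_lit 0x7f001f801fe0079c03df0014000a00000000000000000000000000000000000) := Q_29 (nat_lit 210) (C_29 L80499 (C_29 L80043 (C_29 L79529 (C_29 L10108 (C_29 L80511 (C_29 L79564 N_29)))))) (by decide +kernel)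
theorem L80514 : W_29 (nat_lit 3) (nat_lit 0x200010000c0004000200000001000080000000000000000000000000000000) (nat_lit 0x0) (nat_lit 0x40000000000010000a000400000000000000000000000000000000000000000000) := T_29 (nat_lit 195) (nat_lit 178) (nat_lit 6) (nat_lit 7) (nat_lit 14) L6697 (by decide +kernel)
theorem L80515 : W_29 (nat_lit 2) (nat_lit 0x200010000e000c000200000001000080000000000000000000000000000000) (nat_lit 0x0) (nat_lit 0x32000000000000000000000000000000000000000000000000) := D_29 (nat_lit 196) (nat_lit 197) (nat_lit 193) (nat_lit 1) (nat_lit 10) (nat_lit 11) (nat_lit 1) (nat_lit 9) (nat_lit 11) (by decide +kernel)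
theorem L80516 : W_29 (nat_lit 3) (nat_lit 0x200010000c000c000200000001000080000000000000000000000000000000) (nat_lit 0x0) (nat_lit 0x30032000000000000000000000000000000000000000000000000) := T_29 (nat_lit 209) (nat_lit 208) (nat_lit 2) (nat_lit 4) (nat_lit 12) L80515 (by decide +kernel)
theorem L80517 : W_29 (nat_lit 4) (nat_lit 0x200010000c0004000200000001000080000000000000000000000000000000) (nat_lit 0x0) (nat_lit 0x3003a000400000000000000000000000000000000000000000000) := T_29 (nat_lit 195) (nat_lit 178) (nat_lit 6) (nat_lit 7) (nat_lit 14) L80516 (by decide +kernel)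
theorem L80518 : W_29 (nat_lit 2) (nat_lit 0x80004000200010000c0004000200000001000080000000000000000000000000000000) (nat_lit 0x0) (nat_lit 0x2000100008000000000000000000000000000000000000000000000000) := D_29 (nat_lit 212) (nat_lit 195) (nat_lit 229) (nat_lit 6) (nat_lit 7) (nat_lit 15) (nat_lit 6) (nat_lit 7) (nat_lit 16) (by decide +kernel)
theorem L80519 : W_29 (nat_lit 3) (nat_lit 0x4000200010000c0004000200000001000080000000000000000000000000000000) (nat_lit 0x0) (nat_lit 0x8000000000002800100008000000000000000000000000000000000000000000000000) := T_29 (nat_lit 279) (nat_lit 227) (nat_lit 4) (nat_lit 7) (nat_lit 16) L80518 (by decide +kernel)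
theorem L80520 : W_29 (nat_lit 4) (nat_lit 0x200010000c0004000200000001000080000000000000000000000000000000) (nat_lit 0x0) (nat_lit 0x800040000000280010000a000000000000000000000000000000000000000000000000) := T_29 (nat_lit 262) (nat_lit 193) (nat_lit 4) (nat_lit 7) (nat_lit 15) L80519 (by decide +kernel)
theorem L80521 : W_29 (nat_lit 2) (nat_lit 0x4000200030000c0004000200000001000080000000000000000000000000000000) (nat_lit 0x0) (nat_lit 0x8000000000000800100000000000000000000000000000000000000000000000000000) := D_29 (nat_lit 279) (nat_lit 227) (nat_lit 212) (nat_lit 4) (nat_lit 7) (nat_lit 16) (nat_lit 6) (nat_lit 7) (nat_lit 16) (by decide +kernel)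
theorem L80522 : W_29 (nat_lit 3) (nat_lit 0x200030000c0004000200000001000080000000000000000000000000000000) (nat_lit 0x0) (nat_lit 0x8000400000000800100002000000000000000000000000000000000000000000000000) := T_29 (nat_lit 262) (nat_lit 193) (nat_lit 4) (nat_lit 7) (nat_lit 15) L80521 (by decide +kernel)
theorem L80523 : W_29 (nat_lit 2) (nat_lit 0x200030000e0004000200000001000080000000000000000000000000000000) (nat_lit 0x0) (nat_lit 0xc800000000000000000000000000000000000000000000000000000000) := D_29 (nat_lit 230) (nat_lit 231) (nat_lit 227) (nat_lit 0) (nat_lit 10) (nat_lit 13) (nat_lit 0) (nat_lit 9) (nat_lit 13) (by decide +kernel)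
theorem L80524 : W_29 (nat_lit 3) (nat_lit 0x200030000c0004000200000001000080000000000000000000000000000000) (nat_lit 0x0) (nat_lit 0xc800030000000000000000000000000000000000000000000000000000) := T_29 (nat_lit 209) (nat_lit 208) (nat_lit 3) (nat_lit 4) (nat_lit 12) L80523 (by decide +kernel)
theorem L80525 : W_29 (nat_lit 2) (nat_lit 0x200070000c0004000200000001000080000000000000000000000000000000) (nat_lit 0x0) (nat_lit 0x130000000000000000000000000000000000000000000000000000) := D_29 (nat_lit 209) (nat_lit 208) (nat_lit 212) (nat_lit 3) (nat_lit 4) (nat_lit 12) (nat_lit 3) (nat_lit 5) (nat_lit 12) (by decide +kernel)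
theorem L80526 : W_29 (nat_lit 3) (nat_lit 0x200030000c0004000200000001000080000000000000000000000000000000) (nat_lit 0x0) (nat_lit 0xc000130000000000000000000000000000000000000000000000000000) := T_29 (nat_lit 230) (nat_lit 231) (nat_lit 0) (nat_lit 10) (nat_lit 13) L80525 (by decide +kernel)
theorem L80527 : W_29 (nat_lit 4) (nat_lit 0x200010000c0004000200000001000080000000000000000000000000000000) (nat_lit 0x0) (nat_lit 0x800040000000e800130002000000000000000000000000000000000000000000000000) := Q_29 (nat_lit 229) (C_29 L80522 (C_29 L80524 (C_29 L80526 N_29))) (by decide +kernel)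
theorem L80528 : W_29 (nat_lit 2) (nat_lit 0x200010000e000c000200000001000080000000000000000000000000000000) (nat_lit 0x0) (nat_lit 0x400000000000100010000000000000000000000000000000000000000000000000) := D_29 (nat_lit 212) (nat_lit 262) (nat_lit 196) (nat_lit 6) (nat_lit 7) (nat_lit 15) (nat_lit 2) (nat_lit 5) (nat_lit 12) (by decide +kernel)
theorem L80529 : W_29 (nat_lit 3) (nat_lit 0x200010000c000c000200000001000080000000000000000000000000000000) (nat_lit 0x0) (nat_lit 0x400000000000130010000000000000000000000000000000000000000000000000) := T_29 (nat_lit 209) (nat_lit 208) (nat_lit 2) (nat_lit 4) (nat_lit 12) L80528 (by decide +kernel)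
theorem L80530 : W_29 (nat_lit 4) (nat_lit 0x200010000c0004000200000001000080000000000000000000000000000000) (nat_lit 0x0) (nat_lit 0x400000000000130018000400000000000000000000000000000000000000000000) := T_29 (nat_lit 195) (nat_lit 178) (nat_lit 6) (nat_lit 7) (nat_lit 14) L80529 (by decide +kernel)
theorem L80531 : W_29 (nat_lit 5) (nat_lit 0x20001000080004000200000001000080000000000000000000000000000000) (nat_lit 0x0) (nat_lit 0x800040000000e80017003a000400000000000000000000000000000000000000000000) := Q_29 (nat_lit 210) (C_29 L80514 (C_29 L80517 (C_29 L80520 (C_29 L80527 (C_29 L80530 N_29))))) (by decide +kernel)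
theorem L80532 : W_29 (nat_lit 6) (nat_lit 0x1000080004000200000001000080000000000000000000000000000000) (nat_lit 0x0) (nat_lit 0xc00060003000e80017003a000400000000000000000000000000000000000000000000) := Q_29 (nat_lit 245) (C_29 L18145 (C_29 L18148 (C_29 L80531 N_29))) (by decide +kernel)
theorem L80533 : W_29 (nat_lit 2) (nat_lit 0x1c00180004000200000001000080000000000000000000000000000000) (nat_lit 0x0) (nat_lit 0x2000600000000000000000000000000000000000000000000000000000) := D_29 (nat_lit 213) (nat_lit 214) (nat_lit 229) (nat_lit 1) (nat_lit 10) (nat_lit 12) (nat_lit 2) (nat_lit 5) (nat_lit 13) (by decide +kernel)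
theorem L80534 : W_29 (nat_lit 3) (nat_lit 0x1800180004000200000001000080000000000000000000000000000000) (nat_lit 0x0) (nat_lit 0x2600600000000000000000000000000000000000000000000000000000) := T_29 (nat_lit 226) (nat_lit 225) (nat_lit 2) (nat_lit 4) (nat_lit 13) L80533 (by decide +kernel)
theorem L80535 : W_29 (nat_lit 4) (nat_lit 0x1000180004000200000001000080000000000000000000000000000000) (nat_lit 0x0) (nat_lit 0x10002e00600000000000000000000000000000000000000000000000000000) := T_29 (nat_lit 227) (nat_lit 244) (nat_lit 5) (nat_lit 7) (nat_lit 10) L80534 (by decide +kernel)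
theorem L80536 : W_29 (nat_lit 2) (nat_lit 0x1000f80004000200000001000080000000000000000000000000000000) (nat_lit 0x0) (nat_lit 0x38000000000000000000000000000000000000000000000000000000000) := D_29 (nat_lit 232) (nat_lit 231) (nat_lit 233) (nat_lit 3) (nat_lit 7) (nat_lit 12) (nat_lit 3) (nat_lit 8) (nat_lit 12) (by decide +kernel)
theorem L80537 : W_29 (nat_lit 3) (nat_lit 0x1000780004000200000001000080000000000000000000000000000000) (nat_lit 0x0) (nat_lit 0x38000800008000000000000000000000000000000000000000000000000) := T_29 (nat_lit 215) (nat_lit 195) (nat_lit 0) (nat_lit 11) (nat_lit 12) L80536 (by decide +kernel)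
theorem L80538 : W_29 (nat_lit 4) (nat_lit 0x1000380004000200000001000080000000000000000000000000000000) (nat_lit 0x0) (nat_lit 0x38000c0000a000000000000000000000000000000000000000000000000) := T_29 (nat_lit 214) (nat_lit 193) (nat_lit 0) (nat_lit 10) (nat_lit 12) L80537 (by decide +kernel)
theorem L80539 : W_29 (nat_lit 2) (nat_lit 0x1000780004000200000001000080000000000000000000000000000000) (nat_lit 0x0) (nat_lit 0x40002000800000000000000000000000000000000000000000000000000000) := D_29 (nat_lit 229) (nat_lit 246) (nat_lit 215) (nat_lit 7) (nat_lit 7) (nat_lit 10) (nat_lit 1) (nat_lit 11) (nat_lit 12) (by decide +kernel)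
theorem L80540 : W_29 (nat_lit 3) (nat_lit 0x1000380004000200000001000080000000000000000000000000000000) (nat_lit 0x0) (nat_lit 0x40002000c00002000000000000000000000000000000000000000000000000) := T_29 (nat_lit 214) (nat_lit 193) (nat_lit 0) (nat_lit 10) (nat_lit 12) L80539 (by decide +kernel)
theorem L80541 : W_29 (nat_lit 2) (nat_lit 0xb0007c0004000200000001000080000000000000000000000000000000) (nat_lit 0x0) (nat_lit 0x70000000000000000000000000000000000000000000000000) := D_29 (nat_lit 197) (nat_lit 198) (nat_lit 196) (nat_lit 2) (nat_lit 7) (nat_lit 12) (nat_lit 2) (nat_lit 6) (nat_lit 12) (by decide +kernel)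
theorem L80542 : W_29 (nat_lit 3) (nat_lit 0xb000780004000200000001000080000000000000000000000000000000) (nat_lit 0x0) (nat_lit 0x4000040070000000000000000000000000000000000000000000000000) := T_29 (nat_lit 210) (nat_lit 230) (nat_lit 3) (nat_lit 6) (nat_lit 12) L80541 (by decide +kernel)
theorem L80543 : W_29 (nat_lit 4) (nat_lit 0x3000780004000200000001000080000000000000000000000000000000) (nat_lit 0x0) (nat_lit 0x1c000040070000000000000000000000000000000000000000000000000) := T_29 (nat_lit 231) (nat_lit 232) (nat_lit 3) (nat_lit 7) (nat_lit 12) L80542 (by decide +kernel)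
theorem L80544 : W_29 (nat_lit 5) (nat_lit 0x3000380004000200000001000080000000000000000000000000000000) (nat_lit 0x0) (nat_lit 0x1c000c40070000000000000000000000000000000000000000000000000) := T_29 (nat_lit 214) (nat_lit 215) (nat_lit 1) (nat_lit 11) (nat_lit 12) L80543 (by decide +kernel)
theorem L80545 : W_29 (nat_lit 6) (nat_lit 0x1000380004000200000001000080000000000000000000000000000000) (nat_lit 0x0) (nat_lit 0x4001e000c40070000000000000000000000000000000000000000000000000) := T_29 (nat_lit 229) (nat_lit 246) (nat_lit 7) (nat_lit 7) (nat_lit 10) L80544 (by decide +kernel)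
theorem L80546 : W_29 (nat_lit 2) (nat_lit 0x30003c0004000200000001000080000000000000000000000000000000) (nat_lit 0x0) (nat_lit 0x4000030000000000000000000000000000000000000000000000000000) := D_29 (nat_lit 209) (nat_lit 230) (nat_lit 208) (nat_lit 3) (nat_lit 5) (nat_lit 12) (nat_lit 3) (nat_lit 4) (nat_lit 12) (by decide +kernel)
theorem L80547 : W_29 (nat_lit 3) (nat_lit 0x10003c0004000200000001000080000000000000000000000000000000) (nat_lit 0x0) (nat_lit 0x40006000030000000000000000000000000000000000000000000000000000) := T_29 (nat_lit 229) (nat_lit 246) (nat_lit 7) (nat_lit 7) (nat_lit 10) L80546 (by decide +kernel)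
theorem L80548 : W_29 (nat_lit 2) (nat_lit 0x70003c0016000a00000001000080000000000000000000000000000000) (nat_lit 0x0) (nat_lit 0x1400080000000000000000000000000000000000000000) := D_29 (nat_lit 180) (nat_lit 163) (nat_lit 178) (nat_lit 6) (nat_lit 9) (nat_lit 13) (nat_lit 1) (nat_lit 10) (nat_lit 10) (by decide +kernel)
theorem L80549 : W_29 (nat_lit 3) (nat_lit 0x70003c0014000a00000001000080000000000000000000000000000000) (nat_lit 0x0) (nat_lit 0x3001400080000000000000000000000000000000000000000) := T_29 (nat_lit 193) (nat_lit 192) (nat_lit 0) (nat_lit 9) (nat_lit 12) L80548 (by decide +kernel)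
theorem L80550 : W_29 (nat_lit 4) (nat_lit 0x70003c0014000200000001000080000000000000000000000000000000) (nat_lit 0x0) (nat_lit 0x3001c000c0000000000000000000000000000000000000000) := T_29 (nat_lit 179) (nat_lit 162) (nat_lit 5) (nat_lit 9) (nat_lit 9) L80549 (by decide +kernel)
theorem L80551 : W_29 (nat_lit 5) (nat_lit 0x70003c0004000200000001000080000000000000000000000000000000) (nat_lit 0x0) (nat_lit 0x33001c000c0000000000000000000000000000000000000000) := T_29 (nat_lit 196) (nat_lit 197) (nat_lit 2) (nat_lit 6) (nat_lit 12) L80550 (by decide +kernel)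
theorem L80552 : W_29 (nat_lit 6) (nat_lit 0x50003c0004000200000001000080000000000000000000000000000000) (nat_lit 0x0) (nat_lit 0x40002000000033001c000c0000000000000000000000000000000000000000) := T_29 (nat_lit 229) (nat_lit 246) (nat_lit 7) (nat_lit 7) (nat_lit 10) L80551 (by decide +kernel)
theorem L80553 : W_29 (nat_lit 7) (nat_lit 0x10003c0004000200000001000080000000000000000000000000000000) (nat_lit 0x0) (nat_lit 0x4000e000000033001c000c0000000000000000000000000000000000000000) := T_29 (nat_lit 230) (nat_lit 231) (nat_lit 3) (nat_lit 6) (nat_lit 12) L80552 (by decide +kernel)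
theorem L80554 : W_29 (nat_lit 2) (nat_lit 0x10003e0014000200000001000080000000000000000000000000000000) (nat_lit 0x0) (nat_lit 0x6000010000000000000000000000000000000000000000000000000000) := D_29 (nat_lit 229) (nat_lit 208) (nat_lit 230) (nat_lit 3) (nat_lit 4) (nat_lit 12) (nat_lit 3) (nat_lit 5) (nat_lit 12) (by decide +kernel)
theorem L80555 : W_29 (nat_lit 3) (nat_lit 0x10003c0014000200000001000080000000000000000000000000000000) (nat_lit 0x0) (nat_lit 0x6000030008000000000000000000000000000000000000000000000000) := T_29 (nat_lit 209) (nat_lit 195) (nat_lit 2) (nat_lit 5) (nat_lit 12) L80554 (by decide +kernel)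
theorem L80556 : W_29 (nat_lit 4) (nat_lit 0x10003c0004000200000001000080000000000000000000000000000000) (nat_lit 0x0) (nat_lit 0x6000030038000000000000000000000000000000000000000000000000) := T_29 (nat_lit 196) (nat_lit 197) (nat_lit 2) (nat_lit 6) (nat_lit 12) L80555 (by decide +kernel)
theorem L80557 : W_29 (nat_lit 2) (nat_lit 0x50003e0014000200000001000080000000000000000000000000000000) (nat_lit 0x0) (nat_lit 0x3800000000000000000000000000000000000000000000000) := D_29 (nat_lit 192) (nat_lit 193) (nat_lit 191) (nat_lit 0) (nat_lit 9) (nat_lit 12) (nat_lit 0) (nat_lit 8) (nat_lit 12) (by decide +kernel)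
theorem L80558 : W_29 (nat_lit 3) (nat_lit 0x50003c0014000200000001000080000000000000000000000000000000) (nat_lit 0x0) (nat_lit 0x2000b800000000000000000000000000000000000000000000000) := T_29 (nat_lit 209) (nat_lit 195) (nat_lit 2) (nat_lit 5) (nat_lit 12) L80557 (by decide +kernel)
theorem L80559 : W_29 (nat_lit 4) (nat_lit 0x50003c0004000200000001000080000000000000000000000000000000) (nat_lit 0x0) (nat_lit 0x2003b800000000000000000000000000000000000000000000000) := T_29 (nat_lit 196) (nat_lit 197) (nat_lit 2) (nat_lit 6) (nat_lit 12) L80558 (by decide +kernel)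
theorem L80560 : W_29 (nat_lit 5) (nat_lit 0x10003c0004000200000001000080000000000000000000000000000000) (nat_lit 0x0) (nat_lit 0xc00002003b800000000000000000000000000000000000000000000000) := T_29 (nat_lit 230) (nat_lit 231) (nat_lit 3) (nat_lit 6) (nat_lit 12) L80559 (by decide +kernel)
theorem L80561 : W_29 (nat_lit 2) (nat_lit 0x30003d0016000a00000001000080000000000000000000000000000000) (nat_lit 0x0) (nat_lit 0x8001400000000000000000000000000000000000000000000) := D_29 (nat_lit 180) (nat_lit 195) (nat_lit 178) (nat_lit 2) (nat_lit 6) (nat_lit 11) (nat_lit 1) (nat_lit 10) (nat_lit 10) (by decide +kernel)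
theorem L80562 : W_29 (nat_lit 3) (nat_lit 0x30003d0016000200000001000080000000000000000000000000000000) (nat_lit 0x0) (nat_lit 0x8001c00040000000000000000000000000000000000000000) := T_29 (nat_lit 179) (nat_lit 162) (nat_lit 5) (nat_lit 9) (nat_lit 9) L80561 (by decide +kernel)
theorem L80563 : W_29 (nat_lit 4) (nat_lit 0x30003d0006000200000001000080000000000000000000000000000000) (nat_lit 0x0) (nat_lit 0x38001c00040000000000000000000000000000000000000000) := T_29 (nat_lit 196) (nat_lit 197) (nat_lit 2) (nat_lit 6) (nat_lit 12) L80562 (by decide +kernel)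
theorem L80564 : W_29 (nat_lit 5) (nat_lit 0x30003c0006000200000001000080000000000000000000000000000000) (nat_lit 0x0) (nat_lit 0x30038001c00040000000000000000000000000000000000000000) := T_29 (nat_lit 208) (nat_lit 209) (nat_lit 3) (nat_lit 4) (nat_lit 12) L80563 (by decide +kernel)
theorem L80565 : W_29 (nat_lit 6) (nat_lit 0x10003c0006000200000001000080000000000000000000000000000000) (nat_lit 0x0) (nat_lit 0x40002000030038001c00040000000000000000000000000000000000000000) := T_29 (nat_lit 229) (nat_lit 246) (nat_lit 7) (nat_lit 7) (nat_lit 10) L80564 (by decide +kernel)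
theorem L80566 : W_29 (nat_lit 7) (nat_lit 0x10003c0004000200000001000080000000000000000000000000000000) (nat_lit 0x0) (nat_lit 0x4000200003003b001c00040000000000000000000000000000000000000000) := T_29 (nat_lit 193) (nat_lit 192) (nat_lit 0) (nat_lit 9) (nat_lit 12) L80565 (by decide +kernel)
theorem L80567 : W_29 (nat_lit 8) (nat_lit 0x1000380004000200000001000080000000000000000000000000000000) (nat_lit 0x0) (nat_lit 0x4000e00007003b801c000c0000000000000000000000000000000000000000) := Q_29 (nat_lit 210) (C_29 L80547 (C_29 L80553 (C_29 L80556 (C_29 L80560 (C_29 L80566 N_29))))) (by decide +kernel)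
theorem L80568 : W_29 (nat_lit 9) (nat_lit 0x1000180004000200000001000080000000000000000000000000000000) (nat_lit 0x0) (nat_lit 0x4003e000e7007b801c000c0000000000000000000000000000000000000000) := Q_29 (nat_lit 213) (C_29 L80538 (C_29 L80540 (C_29 L80545 (C_29 L80567 N_29)))) (by decide +kernel)
theorem L80569 : W_29 (nat_lit 2) (nat_lit 0x800fc001a0004000200000001000080000000000000000000000000000000) (nat_lit 0x0) (nat_lit 0x380000000000000000000000000000000000000000000000000000000000000) := D_29 (nat_lit 248) (nat_lit 247) (nat_lit 249) (nat_lit 3) (nat_lit 6) (nat_lit 13) (nat_lit 3) (nat_lit 7) (nat_lit 13) (by decide +kernel)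
theorem L80570 : W_29 (nat_lit 3) (nat_lit 0x8007c001a0004000200000001000080000000000000000000000000000000) (nat_lit 0x0) (nat_lit 0x380018000000000000000000000000000000000000000000000000000000000) := T_29 (nat_lit 231) (nat_lit 232) (nat_lit 0) (nat_lit 11) (nat_lit 13) L80569 (by decide +kernel)
theorem L80571 : W_29 (nat_lit 4) (nat_lit 0x8003c001a0004000200000001000080000000000000000000000000000000) (nat_lit 0x0) (nat_lit 0x38001c000040000000000000000000000000000000000000000000000000000) := T_29 (nat_lit 230) (nat_lit 210) (nat_lit 3) (nat_lit 5) (nat_lit 12) L80570 (by decide +kernel)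
theorem L80572 : W_29 (nat_lit 5) (nat_lit 0x8003c00180004000200000001000080000000000000000000000000000000) (nat_lit 0x0) (nat_lit 0x38001c000070000000000000000000000000000000000000000000000000000) := T_29 (nat_lit 209) (nat_lit 208) (nat_lit 0) (nat_lit 8) (nat_lit 13) L80571 (by decide +kernel)
theorem L80573 : W_29 (nat_lit 6) (nat_lit 0x3c00180004000200000001000080000000000000000000000000000000) (nat_lit 0x0) (nat_lit 0x38c01c000070000000000000000000000000000000000000000000000000000) := T_29 (nat_lit 243) (nat_lit 242) (nat_lit 1) (nat_lit 8) (nat_lit 13) L80572 (by decide +kernel)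
theorem L80574 : W_29 (nat_lit 7) (nat_lit 0x3800180004000200000001000080000000000000000000000000000000) (nat_lit 0x0) (nat_lit 0x38c01c600070000000000000000000000000000000000000000000000000000) := T_29 (nat_lit 226) (nat_lit 225) (nat_lit 2) (nat_lit 4) (nat_lit 13) L80573 (by decide +kernel)
theorem L80575 : W_29 (nat_lit 8) (nat_lit 0x3000180004000200000001000080000000000000000000000000000000) (nat_lit 0x0) (nat_lit 0x39c01ce00070000000000000000000000000000000000000000000000000000) := T_29 (nat_lit 227) (nat_lit 244) (nat_lit 5) (nat_lit 7) (nat_lit 10) L80574 (by decide +kernel)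
theorem L80576 : W_29 (nat_lit 9) (nat_lit 0x1000180004000200000001000080000000000000000000000000000000) (nat_lit 0x0) (nat_lit 0x3dc01ee00070000000000000000000000000000000000000000000000000000) := T_29 (nat_lit 229) (nat_lit 246) (nat_lit 7) (nat_lit 7) (nat_lit 10) L80575 (by decide +kernel)
theorem L80577 : W_29 (nat_lit 10) (nat_lit 0x1000080004000200000001000080000000000000000000000000000000) (nat_lit 0x0) (nat_lit 0x3dc03ee00f7007b801c000c0000000000000000000000000000000000000000) := Q_29 (nat_lit 212) (C_29 L6237 (C_29 L80535 (C_29 L80568 (C_29 L80576 N_29)))) (by decide +kernel)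
theorem L80578 : W_29 (nat_lit 2) (nat_lit 0x80002000100008000c000200000001000080000000000000000000000000000000) (nat_lit 0x0) (nat_lit 0x10000400000000000100000000000000000000000000000000000000000000000000000) := D_29 (nat_lit 262) (nat_lit 280) (nat_lit 212) (nat_lit 7) (nat_lit 7) (nat_lit 12) (nat_lit 6) (nat_lit 7) (nat_lit 15) (by decide +kernel)
theorem L80579 : W_29 (nat_lit 3) (nat_lit 0x800020001000080004000200000001000080000000000000000000000000000000) (nat_lit 0x0) (nat_lit 0x10000400000000000100008000400000000000000000000000000000000000000000000) := T_29 (nat_lit 195) (nat_lit 178) (nat_lit 6) (nat_lit 7) (nat_lit 14) L80578 (by decide +kernel)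
theorem L80580 : W_29 (nat_lit 4) (nat_lit 0x20001000080004000200000001000080000000000000000000000000000000) (nat_lit 0x0) (nat_lit 0x10000c00040000000100008000400000000000000000000000000000000000000000000) := T_29 (nat_lit 263) (nat_lit 246) (nat_lit 7) (nat_lit 7) (nat_lit 11) L80579 (by decide +kernel)
theorem L80581 : W_29 (nat_lit 2) (nat_lit 0x20001000080004000200000001000080000000000000000000000000000000) (nat_lit 0x0) (nat_lit 0x800040002000000000000000000000000000000000000000000000000000000000) := D_29 (nat_lit 246) (nat_lit 263) (nat_lit 229) (nat_lit 7) (nat_lit 7) (nat_lit 11) (nat_lit 7) (nat_lit 7) (nat_lit 10) (by decide +kernel)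
theorem L80582 : W_29 (nat_lit 6) (nat_lit 0x1000080004000200000001000080000000000000000000000000000000) (nat_lit 0x0) (nat_lit 0x18000c0006000e80017003a000400000000000000000000000000000000000000000000) := Q_29 (nat_lit 245) (C_29 L80580 (C_29 L80581 (C_29 L80531 N_29))) (by decide +kernel)
theorem L80583 : W_29 (nat_lit 11) (nat_lit 0x80004000200000001000080000000000000000000000000000000) (nat_lit 0x0) (nat_lit 0x1c000e003fc03fe00f7007b801c000c0000000000000000000000000000000000000000) := Q_29 (nat_lit 228) (C_29 L6677 (C_29 L6682 (C_29 L6047 (C_29 L80532 (C_29 L80577 (C_29 L80582 N_29)))))) (by decide +kernel)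
theorem L80584 : W_29 (nat_lit 2) (nat_lit 0x180004000200000001000080000000000000000000000000000000) (nat_lit 0x0) (nat_lit 0x2000000000000000010000800000000000000000000000000000000000) := D_29 (nat_lit 160) (nat_lit 143) (nat_lit 229) (nat_lit 6) (nat_lit 7) (nat_lit 11) (nat_lit 7) (nat_lit 7) (nat_lit 9) (by decide +kernel)
theorem L80585 : W_29 (nat_lit 2) (nat_lit 0x2000180004000200000001000080000000000000000000000000000000) (nat_lit 0x0) (nat_lit 0x800040000000000008000000000000000000000000000000000000000000000000) := D_29 (nat_lit 246) (nat_lit 263) (nat_lit 195) (nat_lit 4) (nat_lit 8) (nat_lit 15) (nat_lit 4) (nat_lit 8) (nat_lit 14) (by decide +kernel)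
theorem L80586 : W_29 (nat_lit 3) (nat_lit 0x180004000200000001000080000000000000000000000000000000) (nat_lit 0x0) (nat_lit 0x800040002000000008000000010000000000000000000000000000000000000000) := T_29 (nat_lit 229) (nat_lit 160) (nat_lit 7) (nat_lit 7) (nat_lit 9) L80585 (by decide +kernel)
theorem L80587 : W_29 (nat_lit 2) (nat_lit 0x380006000200000001000080000000000000000000000000000000) (nat_lit 0x0) (nat_lit 0x40001800000000000000000000000000000000000000000000000) := D_29 (nat_lit 192) (nat_lit 191) (nat_lit 210) (nat_lit 3) (nat_lit 4) (nat_lit 11) (nat_lit 0) (nat_lit 9) (nat_lit 12) (by decide +kernel)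
theorem L80588 : W_29 (nat_lit 3) (nat_lit 0x180006000200000001000080000000000000000000000000000000) (nat_lit 0x0) (nat_lit 0x640001800000000000000000000000000000000000000000000000) := T_29 (nat_lit 213) (nat_lit 214) (nat_lit 0) (nat_lit 10) (nat_lit 12) L80587 (by decide +kernel)
theorem L80589 : W_29 (nat_lit 2) (nat_lit 0x180007000200000001000080000000000000000000000000000000) (nat_lit 0x0) (nat_lit 0x600008000000000000000000000000000000000000000000000000) := D_29 (nat_lit 213) (nat_lit 214) (nat_lit 195) (nat_lit 0) (nat_lit 10) (nat_lit 12) (nat_lit 3) (nat_lit 5) (nat_lit 11) (by decide +kernel)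
theorem L80590 : W_29 (nat_lit 3) (nat_lit 0x180006000200000001000080000000000000000000000000000000) (nat_lit 0x0) (nat_lit 0x600009800000000000000000000000000000000000000000000000) := T_29 (nat_lit 192) (nat_lit 191) (nat_lit 3) (nat_lit 4) (nat_lit 11) L80589 (by decide +kernel)
theorem L80591 : W_29 (nat_lit 5) (nat_lit 0x1e0006000200000001000080000000000000000000000000000000) (nat_lit 0x0) (nat_lit 0x300018000e00000001800000000000000000000000000000000000000000000000) := T_29 (nat_lit 192) (nat_lit 191) (nat_lit 3) (nat_lit 4) (nat_lit 11) L78856 (by decide +kernel)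
theorem L80592 : W_29 (nat_lit 6) (nat_lit 0x1c0006000200000001000080000000000000000000000000000000) (nat_lit 0x0) (nat_lit 0x300018000f00038001c00000000000000000000000000000000000000000000000) := Q_29 (nat_lit 209) (C_29 L78868 (C_29 L80591 (C_29 L78866 N_29))) (by decide +kernel)
theorem L80593 : W_29 (nat_lit 2) (nat_lit 0x4000000018001f000a80000001000080000000000000000000000000000000) (nat_lit 0x0) (nat_lit 0x40060000000000000000000000000000000000000000000000000) := D_29 (nat_lit 197) (nat_lit 198) (nat_lit 210) (nat_lit 1) (nat_lit 11) (nat_lit 11) (nat_lit 1) (nat_lit 10) (nat_lit 11) (by decide +kernel)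
theorem L80594 : W_29 (nat_lit 3) (nat_lit 0x4000000018000f000a80000001000080000000000000000000000000000000) (nat_lit 0x0) (nat_lit 0x40070001000000000000000000000000000000000000000000000) := T_29 (nat_lit 196) (nat_lit 180) (nat_lit 2) (nat_lit 6) (nat_lit 11) L80593 (by decide +kernel)
theorem L80595 : W_29 (nat_lit 4) (nat_lit 0x4000000018000f000280000001000080000000000000000000000000000000) (nat_lit 0x0) (nat_lit 0x40070001c00000000000000000000000000000000000000000000) := T_29 (nat_lit 179) (nat_lit 178) (nat_lit 2) (nat_lit 5) (nat_lit 11) L80594 (by decide +kernel)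
theorem L80596 : W_29 (nat_lit 5) (nat_lit 0x4000000018000f000200000001000080000000000000000000000000000000) (nat_lit 0x0) (nat_lit 0x40070001cc0000000000000000000000000000000000000000000) := T_29 (nat_lit 175) (nat_lit 174) (nat_lit 0) (nat_lit 8) (nat_lit 11) L80595 (by decide +kernel)
theorem L80597 : W_29 (nat_lit 6) (nat_lit 0x18000f000200000001000080000000000000000000000000000000) (nat_lit 0x0) (nat_lit 0x40002000040070001cc0000000000000000000000000000000000000000000) := T_29 (nat_lit 246) (nat_lit 229) (nat_lit 4) (nat_lit 8) (nat_lit 14) L80596 (by decide +kernel)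
theorem L80598 : W_29 (nat_lit 7) (nat_lit 0x18000e000200000001000080000000000000000000000000000000) (nat_lit 0x0) (nat_lit 0x40002000040071801cc0000000000000000000000000000000000000000000) := T_29 (nat_lit 192) (nat_lit 191) (nat_lit 3) (nat_lit 4) (nat_lit 11) L80597 (by decide +kernel)
theorem L80599 : W_29 (nat_lit 2) (nat_lit 0x400000001e000f000280000001000080000000000000000000000000000000) (nat_lit 0x0) (nat_lit 0x800000000000000004000200000000000000000000000000000000000) := D_29 (nat_lit 158) (nat_lit 227) (nat_lit 141) (nat_lit 7) (nat_lit 5) (nat_lit 9) (nat_lit 7) (nat_lit 5) (nat_lit 8) (by decide +kernel)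
theorem L80600 : W_29 (nat_lit 3) (nat_lit 0x400000001a000f000280000001000080000000000000000000000000000000) (nat_lit 0x0) (nat_lit 0x800040010000000004000200000000000000000000000000000000000) := T_29 (nat_lit 210) (nat_lit 196) (nat_lit 2) (nat_lit 5) (nat_lit 12) L80599 (by decide +kernel)
theorem L80601 : W_29 (nat_lit 4) (nat_lit 0x400000001a000f000200000001000080000000000000000000000000000000) (nat_lit 0x0) (nat_lit 0x8000400100000c0004000200000000000000000000000000000000000) := T_29 (nat_lit 175) (nat_lit 174) (nat_lit 0) (nat_lit 8) (nat_lit 11) L80600 (by decide +kernel)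
theorem L80602 : W_29 (nat_lit 5) (nat_lit 0x4000000018000f000200000001000080000000000000000000000000000000) (nat_lit 0x0) (nat_lit 0x8000700100000c0004000200000000000000000000000000000000000) := T_29 (nat_lit 209) (nat_lit 208) (nat_lit 1) (nat_lit 8) (nat_lit 11) L80601 (by decide +kernel)
theorem L80603 : W_29 (nat_lit 6) (nat_lit 0x4000000018000e000200000001000080000000000000000000000000000000) (nat_lit 0x0) (nat_lit 0x8000700118000c0004000200000000000000000000000000000000000) := T_29 (nat_lit 192) (nat_lit 191) (nat_lit 3) (nat_lit 4) (nat_lit 11) L80602 (by decide +kernel)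
theorem L80604 : W_29 (nat_lit 7) (nat_lit 0x18000e000200000001000080000000000000000000000000000000) (nat_lit 0x0) (nat_lit 0x400028000700118000c0004000200000000000000000000000000000000000) := T_29 (nat_lit 246) (nat_lit 229) (nat_lit 4) (nat_lit 8) (nat_lit 14) L80603 (by decide +kernel)
theorem L80605 : W_29 (nat_lit 2) (nat_lit 0x600018000f000600000001000080000000000000000000000000000000) (nat_lit 0x0) (nat_lit 0x70000000000000000000000000000000000000000000000000000) := D_29 (nat_lit 209) (nat_lit 210) (nat_lit 208) (nat_lit 3) (nat_lit 5) (nat_lit 12) (nat_lit 1) (nat_lit 8) (nat_lit 11) (by decide +kernel)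
theorem L80606 : W_29 (nat_lit 3) (nat_lit 0x200018000f000600000001000080000000000000000000000000000000) (nat_lit 0x0) (nat_lit 0x80004000070000000000000000000000000000000000000000000000000000) := T_29 (nat_lit 230) (nat_lit 247) (nat_lit 7) (nat_lit 8) (nat_lit 10) L80605 (by decide +kernel)
theorem L80607 : W_29 (nat_lit 4) (nat_lit 0x200018000f000200000001000080000000000000000000000000000000) (nat_lit 0x0) (nat_lit 0x80004000070000000c00000000000000000000000000000000000000000000) := T_29 (nat_lit 178) (nat_lit 179) (nat_lit 2) (nat_lit 5) (nat_lit 11) L80606 (by decide +kernel)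
theorem L80608 : W_29 (nat_lit 5) (nat_lit 0x18000f000200000001000080000000000000000000000000000000) (nat_lit 0x0) (nat_lit 0xc0006000070000000c00000000000000000000000000000000000000000000) := T_29 (nat_lit 229) (nat_lit 246) (nat_lit 4) (nat_lit 8) (nat_lit 14) L80607 (by decide +kernel)
theorem L80609 : W_29 (nat_lit 6) (nat_lit 0x18000e000200000001000080000000000000000000000000000000) (nat_lit 0x0) (nat_lit 0xc0006000070001800c00000000000000000000000000000000000000000000) := T_29 (nat_lit 192) (nat_lit 191) (nat_lit 3) (nat_lit 4) (nat_lit 11) L80608 (by decide +kernel)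
theorem L80610 : W_29 (nat_lit 2) (nat_lit 0x58001e000200000001000080000000000000000000000000000000) (nat_lit 0x0) (nat_lit 0x800060000000000000000000000000000000000000000000000000) := D_29 (nat_lit 197) (nat_lit 198) (nat_lit 215) (nat_lit 1) (nat_lit 11) (nat_lit 11) (nat_lit 3) (nat_lit 7) (nat_lit 11) (by decide +kernel)
theorem L80611 : W_29 (nat_lit 2) (nat_lit 0xf80004000200000001000080000000000000000000000000000000) (nat_lit 0x0) (nat_lit 0x38000000000000000000000000000000000000000000000000000000000) := D_29 (nat_lit 232) (nat_lit 231) (nat_lit 233) (nat_lit 3) (nat_lit 7) (nat_lit 12) (nat_lit 3) (nat_lit 8) (nat_lit 12) (by decide +kernel)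
theorem L80612 : W_29 (nat_lit 3) (nat_lit 0x780004000200000001000080000000000000000000000000000000) (nat_lit 0x0) (nat_lit 0x38000800008000000000000000000000000000000000000000000000000) := T_29 (nat_lit 215) (nat_lit 195) (nat_lit 0) (nat_lit 11) (nat_lit 12) L80611 (by decide +kernel)
theorem L80613 : W_29 (nat_lit 4) (nat_lit 0x380004000200000001000080000000000000000000000000000000) (nat_lit 0x0) (nat_lit 0x38000c0000a000000000000000000000000000000000000000000000000) := T_29 (nat_lit 214) (nat_lit 193) (nat_lit 0) (nat_lit 10) (nat_lit 12) L80612 (by decide +kernel)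
theorem L80618 : W_29 (nat_lit 2) (nat_lit 0x2000000008007e002c000200000001000080000000000000000000000000000000) (nat_lit 0x0) (nat_lit 0x40006000000000000000000000000000000000000000000000000000000000) := D_29 (nat_lit 229) (nat_lit 246) (nat_lit 230) (nat_lit 4) (nat_lit 8) (nat_lit 14) (nat_lit 3) (nat_lit 5) (nat_lit 12) (by decide +kernel)
theorem L80619 : W_29 (nat_lit 3) (nat_lit 0x2000000008007c002c000200000001000080000000000000000000000000000000) (nat_lit 0x0) (nat_lit 0x40006000030000000000000000000000000000000000000000000000000000) := T_29 (nat_lit 209) (nat_lit 208) (nat_lit 2) (nat_lit 4) (nat_lit 12) L80618 (by decide +kernel)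
theorem L80620 : W_29 (nat_lit 4) (nat_lit 0x2000000008007c0024000200000001000080000000000000000000000000000000) (nat_lit 0x0) (nat_lit 0x40006000830008000000000000000000000000000000000000000000000000) := T_29 (nat_lit 195) (nat_lit 215) (nat_lit 0) (nat_lit 11) (nat_lit 12) L80619 (by decide +kernel)
theorem L80621 : W_29 (nat_lit 5) (nat_lit 0x2000000008003c0024000200000001000080000000000000000000000000000000) (nat_lit 0x0) (nat_lit 0x40006000c30048000000000000000000000000000000000000000000000000) := T_29 (nat_lit 214) (nat_lit 198) (nat_lit 2) (nat_lit 7) (nat_lit 12) L80620 (by decide +kernel)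
theorem L80622 : W_29 (nat_lit 6) (nat_lit 0x8003c0024000200000001000080000000000000000000000000000000) (nat_lit 0x0) (nat_lit 0x200050006000c30048000000000000000000000000000000000000000000000000) := T_29 (nat_lit 261) (nat_lit 244) (nat_lit 6) (nat_lit 6) (nat_lit 15) L80621 (by decide +kernel)
theorem L80623 : W_29 (nat_lit 7) (nat_lit 0x8003c0004000200000001000080000000000000000000000000000000) (nat_lit 0x0) (nat_lit 0x200050006000c30078000000000000000000000000000000000000000000000000) := T_29 (nat_lit 197) (nat_lit 196) (nat_lit 2) (nat_lit 6) (nat_lit 12) L80622 (by decide +kernel)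
theorem L80624 : W_29 (nat_lit 8) (nat_lit 0x3c0004000200000001000080000000000000000000000000000000) (nat_lit 0x0) (nat_lit 0x200050006c00c30078000000000000000000000000000000000000000000000000) := T_29 (nat_lit 227) (nat_lit 226) (nat_lit 1) (nat_lit 9) (nat_lit 12) L80623 (by decide +kernel)
theorem L80625 : W_29 (nat_lit 3) (nat_lit 0x3c0014000200000001000080000000000000000000000000000000) (nat_lit 0x0) (nat_lit 0xe00020008000000000000000000000000000000000000000000000000) := T_29 (nat_lit 209) (nat_lit 195) (nat_lit 2) (nat_lit 5) (nat_lit 12) L79022 (by decide +kernel)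
theorem L80626 : W_29 (nat_lit 4) (nat_lit 0x3c0004000200000001000080000000000000000000000000000000) (nat_lit 0x0) (nat_lit 0xe00020038000000000000000000000000000000000000000000000000) := T_29 (nat_lit 196) (nat_lit 197) (nat_lit 2) (nat_lit 6) (nat_lit 12) L80625 (by decide +kernel)
theorem L80627 : W_29 (nat_lit 9) (nat_lit 0x380004000200000001000080000000000000000000000000000000) (nat_lit 0x0) (nat_lit 0x20005001ee00c70078000000000000000000000000000000000000000000000000) := Q_29 (nat_lit 210) (C_29 L79287 (C_29 L79015 (C_29 L80624 (C_29 L80626 N_29)))) (by decide +kernel)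
theorem L80628 : W_29 (nat_lit 2) (nat_lit 0x3c0006000200000001000080000000000000000000000000000000) (nat_lit 0x0) (nat_lit 0x10000c00000000000000000000000000000000000000000000000000000000) := D_29 (nat_lit 227) (nat_lit 226) (nat_lit 244) (nat_lit 1) (nat_lit 9) (nat_lit 12) (nat_lit 6) (nat_lit 6) (nat_lit 14) (by decide +kernel)
theorem L80629 : W_29 (nat_lit 3) (nat_lit 0x3c0004000200000001000080000000000000000000000000000000) (nat_lit 0x0) (nat_lit 0x10000c00000003000000000000000000000000000000000000000000000000) := T_29 (nat_lit 193) (nat_lit 192) (nat_lit 0) (nat_lit 9) (nat_lit 12) L80628 (by decide +kernel)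
theorem L80631 : W_29 (nat_lit 2) (nat_lit 0xf80004000200000001000080000000000000000000000000000000) (nat_lit 0x0) (nat_lit 0xe0000000000000000000000000000000000000000000000000) := D_29 (nat_lit 198) (nat_lit 197) (nat_lit 199) (nat_lit 2) (nat_lit 7) (nat_lit 12) (nat_lit 2) (nat_lit 8) (nat_lit 12) (by decide +kernel)
theorem L80632 : W_29 (nat_lit 3) (nat_lit 0x780004000200000001000080000000000000000000000000000000) (nat_lit 0x0) (nat_lit 0x8000e8000000000000000000000000000000000000000000000000) := T_29 (nat_lit 215) (nat_lit 195) (nat_lit 0) (nat_lit 11) (nat_lit 12) L80631 (by decide +kernel)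
theorem L80633 : W_29 (nat_lit 4) (nat_lit 0x380004000200000001000080000000000000000000000000000000) (nat_lit 0x0) (nat_lit 0xc000ea000000000000000000000000000000000000000000000000) := T_29 (nat_lit 214) (nat_lit 193) (nat_lit 0) (nat_lit 10) (nat_lit 12) L80632 (by decide +kernel)
theorem L80635 : W_29 (nat_lit 2) (nat_lit 0x1c0004000200000001000080000000000000000000000000000000) (nat_lit 0x0) (nat_lit 0x800000000000000010000800000000000000000000000000000000000) := D_29 (nat_lit 160) (nat_lit 143) (nat_lit 227) (nat_lit 6) (nat_lit 7) (nat_lit 11) (nat_lit 5) (nat_lit 7) (nat_lit 9) (by decide +kernel)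
theorem L80650 : W_29 (nat_lit 5) (nat_lit 0x1000080004000200018001000080000000000000000000000000000000) (nat_lit 0x0) (nat_lit 0x600030002800100008000400000000000000000000000000000000000000000000) := T_29 (nat_lit 212) (nat_lit 229) (nat_lit 7) (nat_lit 7) (nat_lit 9) L17842 (by decide +kernel)
theorem L80651 : W_29 (nat_lit 6) (nat_lit 0x1000080004000200010001000080000000000000000000000000000000) (nat_lit 0x0) (nat_lit 0x600030002800100008000400008000400000000000000000000000000000000000) := T_29 (nat_lit 159) (nat_lit 142) (nat_lit 4) (nat_lit 7) (nat_lit 12) L80650 (by decide +kernel)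
theorem L80652 : W_29 (nat_lit 7) (nat_lit 0x1000080004000200000001000080000000000000000000000000000000) (nat_lit 0x0) (nat_lit 0x600030002800100008000400018000c00000000000000000000000000000000000) := T_29 (nat_lit 160) (nat_lit 143) (nat_lit 6) (nat_lit 7) (nat_lit 11) L80651 (by decide +kernel)
theorem L80653 : W_29 (nat_lit 2) (nat_lit 0x3800080004000200000001000080000000000000000000000000000000) (nat_lit 0x0) (nat_lit 0x100000000000010000800000000000000000000000000000000000) := D_29 (nat_lit 160) (nat_lit 212) (nat_lit 143) (nat_lit 7) (nat_lit 7) (nat_lit 9) (nat_lit 6) (nat_lit 7) (nat_lit 11) (by decide +kernel)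
theorem L80654 : W_29 (nat_lit 3) (nat_lit 0x1800080004000200000001000080000000000000000000000000000000) (nat_lit 0x0) (nat_lit 0x40002000100000000000010000800000000000000000000000000000000000) := T_29 (nat_lit 229) (nat_lit 246) (nat_lit 7) (nat_lit 7) (nat_lit 10) L80653 (by decide +kernel)
theorem L80655 : W_29 (nat_lit 4) (nat_lit 0x1000080004000200000001000080000000000000000000000000000000) (nat_lit 0x0) (nat_lit 0x50002800100000000000010000800000000000000000000000000000000000) := T_29 (nat_lit 227) (nat_lit 244) (nat_lit 5) (nat_lit 7) (nat_lit 10) L80654 (by decide +kernel)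
theorem L80656 : W_29 (nat_lit 2) (nat_lit 0x1000080004000200010001000080000000000000000000000000000000) (nat_lit 0x0) (nat_lit 0x40002000100000000000000000000000000000000000000000000000000000) := D_29 (nat_lit 229) (nat_lit 246) (nat_lit 212) (nat_lit 7) (nat_lit 7) (nat_lit 10) (nat_lit 7) (nat_lit 7) (nat_lit 9) (by decide +kernel)
theorem L80657 : W_29 (nat_lit 3) (nat_lit 0x1000080004000200000001000080000000000000000000000000000000) (nat_lit 0x0) (nat_lit 0x40002000100000000000010000800000000000000000000000000000000000) := T_29 (nat_lit 160) (nat_lit 143) (nat_lit 6) (nat_lit 7) (nat_lit 11) L80656 (by decide +kernel)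
theorem L80658 : W_29 (nat_lit 8) (nat_lit 0x80004000200000001000080000000000000000000000000000000) (nat_lit 0x0) (nat_lit 0x14000e00070003800100008000400018000c00000000000000000000000000000000000) := Q_29 (nat_lit 228) (C_29 L6677 (C_29 L6682 (C_29 L6047 (C_29 L80652 (C_29 L80655 (C_29 L80657 N_29)))))) (by decide +kernel)
theorem L80672 : W_29 (nat_lit 2) (nat_lit 0xc0007000200010001000080000000000000000000000000000000) (nat_lit 0x0) (nat_lit 0xc00400000000000000000000000000000000000000000000) := D_29 (nat_lit 191) (nat_lit 178) (nat_lit 190) (nat_lit 2) (nat_lit 4) (nat_lit 11) (nat_lit 3) (nat_lit 3) (nat_lit 11) (by decide +kernel)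
theorem L80673 : W_29 (nat_lit 2) (nat_lit 0xd00078002c0018001000080000000000000000000000000000000) (nat_lit 0x0) (nat_lit 0x200000000000000004000200000000000000000000000000000000000) := D_29 (nat_lit 158) (nat_lit 141) (nat_lit 225) (nat_lit 7) (nat_lit 5) (nat_lit 8) (nat_lit 6) (nat_lit 4) (nat_lit 13) (by decide +kernel)
theorem L80674 : W_29 (nat_lit 3) (nat_lit 0xd0007800240018001000080000000000000000000000000000000) (nat_lit 0x0) (nat_lit 0x200000008000080004000200000000000000000000000000000000000) := T_29 (nat_lit 175) (nat_lit 195) (nat_lit 0) (nat_lit 8) (nat_lit 11) L80673 (by decide +kernel)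
theorem L80675 : W_29 (nat_lit 4) (nat_lit 0xd0007800200018001000080000000000000000000000000000000) (nat_lit 0x0) (nat_lit 0x2000000080000e0004000200000000000000000000000000000000000) := T_29 (nat_lit 174) (nat_lit 173) (nat_lit 0) (nat_lit 7) (nat_lit 11) L80674 (by decide +kernel)
theorem L80676 : W_29 (nat_lit 5) (nat_lit 0xc0007800200018001000080000000000000000000000000000000) (nat_lit 0x0) (nat_lit 0x2000180080000e0004000200000000000000000000000000000000000) := T_29 (nat_lit 208) (nat_lit 207) (nat_lit 1) (nat_lit 7) (nat_lit 11) L80675 (by decide +kernel)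
theorem L80677 : W_29 (nat_lit 6) (nat_lit 0xc0007000200018001000080000000000000000000000000000000) (nat_lit 0x0) (nat_lit 0x200018008c000e0004000200000000000000000000000000000000000) := T_29 (nat_lit 191) (nat_lit 190) (nat_lit 3) (nat_lit 3) (nat_lit 11) L80676 (by decide +kernel)
theorem L80678 : W_29 (nat_lit 7) (nat_lit 0xc0007000200010001000080000000000000000000000000000000) (nat_lit 0x0) (nat_lit 0x200018008c000e000c000600000000000000000000000000000000000) := T_29 (nat_lit 159) (nat_lit 142) (nat_lit 4) (nat_lit 7) (nat_lit 12) L80677 (by decide +kernel)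
theorem L80679 : W_29 (nat_lit 2) (nat_lit 0xc001f000280018001200080000000000000000000000000000000) (nat_lit 0x0) (nat_lit 0x1c00000000000000000000000000000000000000000000) := D_29 (nat_lit 179) (nat_lit 178) (nat_lit 180) (nat_lit 2) (nat_lit 5) (nat_lit 11) (nat_lit 2) (nat_lit 6) (nat_lit 11) (by decide +kernel)
theorem L80680 : W_29 (nat_lit 3) (nat_lit 0xc000f000280018001200080000000000000000000000000000000) (nat_lit 0x0) (nat_lit 0x30001c00000000000000000000000000000000000000000000) := T_29 (nat_lit 196) (nat_lit 197) (nat_lit 1) (nat_lit 10) (nat_lit 11) L80679 (by decide +kernel)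
theorem L80681 : W_29 (nat_lit 4) (nat_lit 0xc0007000280018001200080000000000000000000000000000000) (nat_lit 0x0) (nat_lit 0x38001c40000000000000000000000000000000000000000000) := T_29 (nat_lit 195) (nat_lit 174) (nat_lit 0) (nat_lit 8) (nat_lit 11) L80680 (by decide +kernel)
theorem L80682 : W_29 (nat_lit 5) (nat_lit 0xc0007000280018001000080000000000000000000000000000000) (nat_lit 0x0) (nat_lit 0x38001c40004000200000000000000000000000000000000000) := T_29 (nat_lit 141) (nat_lit 158) (nat_lit 7) (nat_lit 5) (nat_lit 8) L80681 (by decide +kernel)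
theorem L80683 : W_29 (nat_lit 6) (nat_lit 0xc0007000280010001000080000000000000000000000000000000) (nat_lit 0x0) (nat_lit 0x38001c4000c000600000000000000000000000000000000000) := T_29 (nat_lit 159) (nat_lit 142) (nat_lit 4) (nat_lit 7) (nat_lit 12) L80682 (by decide +kernel)
theorem L80684 : W_29 (nat_lit 2) (nat_lit 0xc00070002e0014001000080000000000000000000000000000000) (nat_lit 0x0) (nat_lit 0xa000400000000000000000000000000000000000) := D_29 (nat_lit 159) (nat_lit 142) (nat_lit 157) (nat_lit 4) (nat_lit 7) (nat_lit 12) (nat_lit 1) (nat_lit 7) (nat_lit 9) (by decide +kernel)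
theorem L80685 : W_29 (nat_lit 3) (nat_lit 0xc00070002c0014001000080000000000000000000000000000000) (nat_lit 0x0) (nat_lit 0x3000a000400000000000000000000000000000000000) := T_29 (nat_lit 173) (nat_lit 172) (nat_lit 3) (nat_lit 2) (nat_lit 10) L80684 (by decide +kernel)
theorem L80686 : W_29 (nat_lit 4) (nat_lit 0xc00070002c0010001000080000000000000000000000000000000) (nat_lit 0x0) (nat_lit 0x3000e000600000000000000000000000000000000000) := T_29 (nat_lit 158) (nat_lit 141) (nat_lit 7) (nat_lit 5) (nat_lit 8) L80685 (by decide +kernel)
theorem L80687 : W_29 (nat_lit 5) (nat_lit 0xc0007000280010001000080000000000000000000000000000000) (nat_lit 0x0) (nat_lit 0x800007000e000600000000000000000000000000000000000) := T_29 (nat_lit 174) (nat_lit 195) (nat_lit 0) (nat_lit 8) (nat_lit 11) L80686 (by decide +kernel)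
theorem L80688 : W_29 (nat_lit 2) (nat_lit 0xc00070002c001e001000080000000000000000000000000000000) (nat_lit 0x0) (nat_lit 0x180008000000000000000000000000000000) := D_29 (nat_lit 140) (nat_lit 139) (nat_lit 123) (nat_lit 0) (nat_lit 7) (nat_lit 9) (nat_lit 7) (nat_lit 4) (nat_lit 7) (by decide +kernel)
theorem L80689 : W_29 (nat_lit 3) (nat_lit 0xc000700028001e001000080000000000000000000000000000000) (nat_lit 0x0) (nat_lit 0x60000000180008000000000000000000000000000000) := T_29 (nat_lit 174) (nat_lit 173) (nat_lit 1) (nat_lit 7) (nat_lit 9) L80688 (by decide +kernel)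
theorem L80690 : W_29 (nat_lit 4) (nat_lit 0xc000700028001c001000080000000000000000000000000000000) (nat_lit 0x0) (nat_lit 0x460002000180008000000000000000000000000000000) := T_29 (nat_lit 157) (nat_lit 178) (nat_lit 3) (nat_lit 4) (nat_lit 9) L80689 (by decide +kernel)
theorem L80691 : W_29 (nat_lit 5) (nat_lit 0xc0007000280018001000080000000000000000000000000000000) (nat_lit 0x0) (nat_lit 0x460006000380008000000000000000000000000000000) := T_29 (nat_lit 158) (nat_lit 141) (nat_lit 7) (nat_lit 5) (nat_lit 8) L80690 (by decide +kernel)
theorem L80692 : W_29 (nat_lit 6) (nat_lit 0xc0007000280010001000080000000000000000000000000000000) (nat_lit 0x0) (nat_lit 0x46000e000780008000000000000000000000000000000) := T_29 (nat_lit 159) (nat_lit 142) (nat_lit 4) (nat_lit 7) (nat_lit 12) L80691 (by decide +kernel)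
theorem L80693 : W_29 (nat_lit 2) (nat_lit 0xc001f000280010001200080000000000000000000000000000000) (nat_lit 0x0) (nat_lit 0x1c00000000000000000000000000000000000000000000) := D_29 (nat_lit 179) (nat_lit 178) (nat_lit 180) (nat_lit 2) (nat_lit 5) (nat_lit 11) (nat_lit 2) (nat_lit 6) (nat_lit 11) (by decide +kernel)
theorem L80694 : W_29 (nat_lit 3) (nat_lit 0xc000f000280010001200080000000000000000000000000000000) (nat_lit 0x0) (nat_lit 0x30001c00000000000000000000000000000000000000000000) := T_29 (nat_lit 196) (nat_lit 197) (nat_lit 1) (nat_lit 10) (nat_lit 11) L80693 (by decide +kernel)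
theorem L80695 : W_29 (nat_lit 4) (nat_lit 0xc0007000280010001200080000000000000000000000000000000) (nat_lit 0x0) (nat_lit 0x38001c40000000000000000000000000000000000000000000) := T_29 (nat_lit 195) (nat_lit 174) (nat_lit 0) (nat_lit 8) (nat_lit 11) L80694 (by decide +kernel)
theorem L80696 : W_29 (nat_lit 5) (nat_lit 0xc0007000280010001000080000000000000000000000000000000) (nat_lit 0x0) (nat_lit 0x38001c40004000200000000000000000000000000000000000) := T_29 (nat_lit 141) (nat_lit 158) (nat_lit 7) (nat_lit 5) (nat_lit 8) L80695 (by decide +kernel)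
theorem L80697 : W_29 (nat_lit 2) (nat_lit 0x70000c001f000680018001000080000000000000000000000000000000) (nat_lit 0x0) (nat_lit 0x80000000600000000000000000000000000000000000000000000000000000) := D_29 (nat_lit 213) (nat_lit 214) (nat_lit 247) (nat_lit 3) (nat_lit 6) (nat_lit 11) (nat_lit 4) (nat_lit 9) (nat_lit 14) (by decide +kernel)
theorem L80698 : W_29 (nat_lit 3) (nat_lit 0x30000c001f000680018001000080000000000000000000000000000000) (nat_lit 0x0) (nat_lit 0x8000c000600000000000000000000000000000000000000000000000000000) := T_29 (nat_lit 230) (nat_lit 231) (nat_lit 0) (nat_lit 10) (nat_lit 13) L80697 (by decide +kernel)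
theorem L80699 : W_29 (nat_lit 4) (nat_lit 0x10000c001f000680018001000080000000000000000000000000000000) (nat_lit 0x0) (nat_lit 0xc000e000600000000000000000000000000000000000000000000000000000) := T_29 (nat_lit 229) (nat_lit 246) (nat_lit 7) (nat_lit 7) (nat_lit 10) L80698 (by decide +kernel)
theorem L80700 : W_29 (nat_lit 5) (nat_lit 0x10000c000f000680018001000080000000000000000000000000000000) (nat_lit 0x0) (nat_lit 0xc000e000600030000000000000000000000000000000000000000000000000) := T_29 (nat_lit 196) (nat_lit 197) (nat_lit 1) (nat_lit 10) (nat_lit 11) L80699 (by decide +kernel)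
theorem L80701 : W_29 (nat_lit 6) (nat_lit 0xc000f000680018001000080000000000000000000000000000000) (nat_lit 0x0) (nat_lit 0xe000f000600030000000000000000000000000000000000000000000000000) := T_29 (nat_lit 228) (nat_lit 245) (nat_lit 6) (nat_lit 7) (nat_lit 14) L80700 (by decide +kernel)
theorem L80702 : W_29 (nat_lit 7) (nat_lit 0xc000f000280018001000080000000000000000000000000000000) (nat_lit 0x0) (nat_lit 0xe000f000600030000c00000000000000000000000000000000000000000000) := T_29 (nat_lit 178) (nat_lit 179) (nat_lit 2) (nat_lit 5) (nat_lit 11) L80701 (by decide +kernel)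
theorem L80703 : W_29 (nat_lit 8) (nat_lit 0xc000f000280010001000080000000000000000000000000000000) (nat_lit 0x0) (nat_lit 0xe000f000600030000c00008000400000000000000000000000000000000000) := T_29 (nat_lit 159) (nat_lit 142) (nat_lit 4) (nat_lit 7) (nat_lit 12) L80702 (by decide +kernel)
theorem L80704 : W_29 (nat_lit 9) (nat_lit 0xc0007000280010001000080000000000000000000000000000000) (nat_lit 0x0) (nat_lit 0xe000f000600038000c40008000400000000000000000000000000000000000) := T_29 (nat_lit 195) (nat_lit 174) (nat_lit 0) (nat_lit 8) (nat_lit 11) L80703 (by decide +kernel)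
theorem L80705 : W_29 (nat_lit 2) (nat_lit 0xc000700068001c001000080000000000000000000000000000000) (nat_lit 0x0) (nat_lit 0x8001800000000000000000000000000000000000000000000) := D_29 (nat_lit 179) (nat_lit 195) (nat_lit 180) (nat_lit 2) (nat_lit 5) (nat_lit 11) (nat_lit 1) (nat_lit 10) (nat_lit 10) (by decide +kernel)
theorem L80706 : W_29 (nat_lit 3) (nat_lit 0xc000700028001c001000080000000000000000000000000000000) (nat_lit 0x0) (nat_lit 0x8001c00002000000000000000000000000000000000000000) := T_29 (nat_lit 178) (nat_lit 157) (nat_lit 3) (nat_lit 4) (nat_lit 9) L80705 (by decide +kernel)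
theorem L80707 : W_29 (nat_lit 4) (nat_lit 0xc0007000280014001000080000000000000000000000000000000) (nat_lit 0x0) (nat_lit 0x8001c0000a000400000000000000000000000000000000000) := T_29 (nat_lit 159) (nat_lit 142) (nat_lit 4) (nat_lit 7) (nat_lit 12) L80706 (by decide +kernel)
theorem L80708 : W_29 (nat_lit 5) (nat_lit 0xc0007000280010001000080000000000000000000000000000000) (nat_lit 0x0) (nat_lit 0x8001c0000e000600000000000000000000000000000000000) := T_29 (nat_lit 158) (nat_lit 141) (nat_lit 7) (nat_lit 5) (nat_lit 8) L80707 (by decide +kernel)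
theorem L80709 : W_29 (nat_lit 10) (nat_lit 0xc0007000200010001000080000000000000000000000000000000) (nat_lit 0x0) (nat_lit 0xe000f000600038001cf000e000780008000000000000000000000000000000) := Q_29 (nat_lit 175) (C_29 L80683 (C_29 L80687 (C_29 L80692 (C_29 L80696 (C_29 L80704 (C_29 L80708 N_29)))))) (by decide +kernel)
theorem L80710 : W_29 (nat_lit 11) (nat_lit 0xc0006000200010001000080000000000000000000000000000000) (nat_lit 0x0) (nat_lit 0xe000f200618039c01cf000e000780008000000000000000000000000000000) := Q_29 (nat_lit 192) (C_29 L80672 (C_29 L80678 (C_29 L80709 N_29))) (by decide +kernel)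
theorem L80711 : W_29 (nat_lit 2) (nat_lit 0x50001000080006000200000001000080000000000000000000000000000000) (nat_lit 0x0) (nat_lit 0xa00020000000000000000000000000000000000000000000000000000000000000) := D_29 (nat_lit 245) (nat_lit 261) (nat_lit 263) (nat_lit 5) (nat_lit 7) (nat_lit 11) (nat_lit 7) (nat_lit 7) (nat_lit 11) (by decide +kernel)
theorem L80712 : W_29 (nat_lit 3) (nat_lit 0x10001000080006000200000001000080000000000000000000000000000000) (nat_lit 0x0) (nat_lit 0xa00060002000000000000000000000000000000000000000000000000000000000) := T_29 (nat_lit 246) (nat_lit 229) (nat_lit 7) (nat_lit 7) (nat_lit 10) L80711 (by decide +kernel)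
theorem L80713 : W_29 (nat_lit 4) (nat_lit 0x1000080006000200000001000080000000000000000000000000000000) (nat_lit 0x0) (nat_lit 0xa00070002800000000000000000000000000000000000000000000000000000000) := T_29 (nat_lit 244) (nat_lit 227) (nat_lit 5) (nat_lit 7) (nat_lit 10) L80712 (by decide +kernel)
theorem L80720 : W_29 (nat_lit 3) (nat_lit 0x300010000c0006000200000001000080000000000000000000000000000000) (nat_lit 0x0) (nat_lit 0x20038000400000000000000000000000000000000000000000000) := T_29 (nat_lit 195) (nat_lit 178) (nat_lit 6) (nat_lit 7) (nat_lit 14) L6699 (by decide +kernel)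
theorem L80721 : W_29 (nat_lit 4) (nat_lit 0x30001000080006000200000001000080000000000000000000000000000000) (nat_lit 0x0) (nat_lit 0x400000000000060038000400000000000000000000000000000000000000000000) := T_29 (nat_lit 210) (nat_lit 262) (nat_lit 4) (nat_lit 7) (nat_lit 15) L80720 (by decide +kernel)
theorem L80722 : W_29 (nat_lit 5) (nat_lit 0x10001000080006000200000001000080000000000000000000000000000000) (nat_lit 0x0) (nat_lit 0x600020000000060038000400000000000000000000000000000000000000000000) := T_29 (nat_lit 245) (nat_lit 261) (nat_lit 5) (nat_lit 7) (nat_lit 11) L80721 (by decide +kernel)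
theorem L80723 : W_29 (nat_lit 6) (nat_lit 0x1000080006000200000001000080000000000000000000000000000000) (nat_lit 0x0) (nat_lit 0x600030000800060038000400000000000000000000000000000000000000000000) := T_29 (nat_lit 244) (nat_lit 227) (nat_lit 5) (nat_lit 7) (nat_lit 10) L80722 (by decide +kernel)
theorem L80724 : W_29 (nat_lit 2) (nat_lit 0x3000090007800200000001000080000000000000000000000000000000) (nat_lit 0x0) (nat_lit 0x60000400000000000000000000000000000000000000000000000) := D_29 (nat_lit 210) (nat_lit 190) (nat_lit 209) (nat_lit 3) (nat_lit 3) (nat_lit 11) (nat_lit 3) (nat_lit 4) (nat_lit 12) (by decide +kernel)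
theorem L80725 : W_29 (nat_lit 3) (nat_lit 0x3000080007800200000001000080000000000000000000000000000000) (nat_lit 0x0) (nat_lit 0x78000400000000000000000000000000000000000000000000000) := T_29 (nat_lit 208) (nat_lit 207) (nat_lit 1) (nat_lit 7) (nat_lit 11) L80724 (by decide +kernel)
theorem L80726 : W_29 (nat_lit 4) (nat_lit 0x3000080007000200000001000080000000000000000000000000000000) (nat_lit 0x0) (nat_lit 0x78000c00400000000000000000000000000000000000000000000) := T_29 (nat_lit 191) (nat_lit 178) (nat_lit 2) (nat_lit 4) (nat_lit 11) L80725 (by decide +kernel)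
theorem L80727 : W_29 (nat_lit 5) (nat_lit 0x1000080007000200000001000080000000000000000000000000000000) (nat_lit 0x0) (nat_lit 0x40002000078000c00400000000000000000000000000000000000000000000) := T_29 (nat_lit 229) (nat_lit 246) (nat_lit 7) (nat_lit 7) (nat_lit 10) L80726 (by decide +kernel)
theorem L80744 : W_29 (nat_lit 2) (nat_lit 0x1800090007800240000001000080000000000000000000000000000000) (nat_lit 0x0) (nat_lit 0x20008000080000000000000000000000000000000000000000000) := D_29 (nat_lit 195) (nat_lit 209) (nat_lit 175) (nat_lit 1) (nat_lit 8) (nat_lit 11) (nat_lit 0) (nat_lit 8) (nat_lit 11) (by decide +kernel)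
theorem L80745 : W_29 (nat_lit 3) (nat_lit 0x1800090007800200000001000080000000000000000000000000000000) (nat_lit 0x0) (nat_lit 0x200080000e0000000000000000000000000000000000000000000) := T_29 (nat_lit 174) (nat_lit 173) (nat_lit 0) (nat_lit 7) (nat_lit 11) L80744 (by decide +kernel)
theorem L80746 : W_29 (nat_lit 4) (nat_lit 0x1800080007800200000001000080000000000000000000000000000000) (nat_lit 0x0) (nat_lit 0x380080000e0000000000000000000000000000000000000000000) := T_29 (nat_lit 208) (nat_lit 207) (nat_lit 1) (nat_lit 7) (nat_lit 11) L80745 (by decide +kernel)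
theorem L80747 : W_29 (nat_lit 5) (nat_lit 0x1800080007000200000001000080000000000000000000000000000000) (nat_lit 0x0) (nat_lit 0x380088004e0000000000000000000000000000000000000000000) := T_29 (nat_lit 191) (nat_lit 178) (nat_lit 2) (nat_lit 4) (nat_lit 11) L80746 (by decide +kernel)
theorem L80748 : W_29 (nat_lit 6) (nat_lit 0x1000080007000200000001000080000000000000000000000000000000) (nat_lit 0x0) (nat_lit 0x100008000380088004e0000000000000000000000000000000000000000000) := T_29 (nat_lit 227) (nat_lit 244) (nat_lit 5) (nat_lit 7) (nat_lit 10) L80747 (by decide +kernel)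
theorem L80749 : W_29 (nat_lit 2) (nat_lit 0x3800090007c00200000001000080000000000000000000000000000000) (nat_lit 0x0) (nat_lit 0x70000000000000000000000000000000000000000000) := D_29 (nat_lit 173) (nat_lit 172) (nat_lit 174) (nat_lit 0) (nat_lit 6) (nat_lit 11) (nat_lit 0) (nat_lit 7) (nat_lit 11) (by decide +kernel)
theorem L80750 : W_29 (nat_lit 3) (nat_lit 0x3800090007800200000001000080000000000000000000000000000000) (nat_lit 0x0) (nat_lit 0x40000400070000000000000000000000000000000000000000000) := T_29 (nat_lit 190) (nat_lit 210) (nat_lit 3) (nat_lit 3) (nat_lit 11) L80749 (by decide +kernel)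
theorem L80751 : W_29 (nat_lit 4) (nat_lit 0x3800080007800200000001000080000000000000000000000000000000) (nat_lit 0x0) (nat_lit 0x58000400070000000000000000000000000000000000000000000) := T_29 (nat_lit 208) (nat_lit 207) (nat_lit 1) (nat_lit 7) (nat_lit 11) L80750 (by decide +kernel)
theorem L80752 : W_29 (nat_lit 5) (nat_lit 0x3800080007000200000001000080000000000000000000000000000000) (nat_lit 0x0) (nat_lit 0x58000c00470000000000000000000000000000000000000000000) := T_29 (nat_lit 191) (nat_lit 178) (nat_lit 2) (nat_lit 4) (nat_lit 11) L80751 (by decide +kernel)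
theorem L80753 : W_29 (nat_lit 6) (nat_lit 0x3000080007000200000001000080000000000000000000000000000000) (nat_lit 0x0) (nat_lit 0x10000800058000c00470000000000000000000000000000000000000000000) := T_29 (nat_lit 227) (nat_lit 244) (nat_lit 5) (nat_lit 7) (nat_lit 10) L80752 (by decide +kernel)
theorem L80754 : W_29 (nat_lit 7) (nat_lit 0x1000080007000200000001000080000000000000000000000000000000) (nat_lit 0x0) (nat_lit 0x50002800058000c00470000000000000000000000000000000000000000000) := T_29 (nat_lit 229) (nat_lit 246) (nat_lit 7) (nat_lit 7) (nat_lit 10) L80753 (by decide +kernel)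
theorem L80755 : W_29 (nat_lit 2) (nat_lit 0x30000a003f000680000001000080000000000000000000000000000000) (nat_lit 0x0) (nat_lit 0xe00000000000000000000000000000000000000000000000000000) := D_29 (nat_lit 214) (nat_lit 213) (nat_lit 215) (nat_lit 3) (nat_lit 6) (nat_lit 11) (nat_lit 3) (nat_lit 7) (nat_lit 11) (by decide +kernel)
theorem L80756 : W_29 (nat_lit 3) (nat_lit 0x30000a001f000680000001000080000000000000000000000000000000) (nat_lit 0x0) (nat_lit 0xe00060000000000000000000000000000000000000000000000000) := T_29 (nat_lit 197) (nat_lit 198) (nat_lit 0) (nat_lit 11) (nat_lit 11) L80755 (by decide +kernel)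
theorem L80757 : W_29 (nat_lit 4) (nat_lit 0x30000a000f000680000001000080000000000000000000000000000000) (nat_lit 0x0) (nat_lit 0xe40070000000000000000000000000000000000000000000000000) := T_29 (nat_lit 196) (nat_lit 210) (nat_lit 1) (nat_lit 9) (nat_lit 11) L80756 (by decide +kernel)
theorem L80758 : W_29 (nat_lit 5) (nat_lit 0x30000a000f000600000001000080000000000000000000000000000000) (nat_lit 0x0) (nat_lit 0xe400700000c0000000000000000000000000000000000000000000) := T_29 (nat_lit 175) (nat_lit 174) (nat_lit 0) (nat_lit 8) (nat_lit 11) L80757 (by decide +kernel)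
theorem L80759 : W_29 (nat_lit 6) (nat_lit 0x300008000f000600000001000080000000000000000000000000000000) (nat_lit 0x0) (nat_lit 0xe700700000c0000000000000000000000000000000000000000000) := T_29 (nat_lit 209) (nat_lit 208) (nat_lit 1) (nat_lit 8) (nat_lit 11) L80758 (by decide +kernel)
theorem L80760 : W_29 (nat_lit 7) (nat_lit 0x300008000f000200000001000080000000000000000000000000000000) (nat_lit 0x0) (nat_lit 0xe70070000cc0000000000000000000000000000000000000000000) := T_29 (nat_lit 178) (nat_lit 179) (nat_lit 2) (nat_lit 5) (nat_lit 11) L80759 (by decide +kernel)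
theorem L80761 : W_29 (nat_lit 8) (nat_lit 0x100008000f000200000001000080000000000000000000000000000000) (nat_lit 0x0) (nat_lit 0x40002000e70070000cc0000000000000000000000000000000000000000000) := T_29 (nat_lit 229) (nat_lit 246) (nat_lit 7) (nat_lit 7) (nat_lit 10) L80760 (by decide +kernel)
theorem L80762 : W_29 (nat_lit 2) (nat_lit 0x30004a001f001280000001000080000000000000000000000000000000) (nat_lit 0x0) (nat_lit 0x800020002000000000000000000000000000000000000000000000) := D_29 (nat_lit 197) (nat_lit 181) (nat_lit 215) (nat_lit 2) (nat_lit 7) (nat_lit 11) (nat_lit 3) (nat_lit 7) (nat_lit 11) (by decide +kernel)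
theorem L80763 : W_29 (nat_lit 3) (nat_lit 0x30000a001f001280000001000080000000000000000000000000000000) (nat_lit 0x0) (nat_lit 0xe00020002000000000000000000000000000000000000000000000) := T_29 (nat_lit 214) (nat_lit 213) (nat_lit 3) (nat_lit 6) (nat_lit 11) L80762 (by decide +kernel)
theorem L80764 : W_29 (nat_lit 4) (nat_lit 0x30000a001f000280000001000080000000000000000000000000000000) (nat_lit 0x0) (nat_lit 0xe00020003800000000000000000000000000000000000000000000) := T_29 (nat_lit 180) (nat_lit 179) (nat_lit 2) (nat_lit 6) (nat_lit 11) L80763 (by decide +kernel)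
theorem L80765 : W_29 (nat_lit 5) (nat_lit 0x30000a001f000200000001000080000000000000000000000000000000) (nat_lit 0x0) (nat_lit 0xe000200038c0000000000000000000000000000000000000000000) := T_29 (nat_lit 175) (nat_lit 174) (nat_lit 0) (nat_lit 8) (nat_lit 11) L80764 (by decide +kernel)
theorem L80766 : W_29 (nat_lit 6) (nat_lit 0x30000a000f000200000001000080000000000000000000000000000000) (nat_lit 0x0) (nat_lit 0xe400300038c0000000000000000000000000000000000000000000) := T_29 (nat_lit 196) (nat_lit 210) (nat_lit 1) (nat_lit 9) (nat_lit 11) L80765 (by decide +kernel)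
theorem L80767 : W_29 (nat_lit 7) (nat_lit 0x10000a000f000200000001000080000000000000000000000000000000) (nat_lit 0x0) (nat_lit 0x40002000e400300038c0000000000000000000000000000000000000000000) := T_29 (nat_lit 229) (nat_lit 246) (nat_lit 7) (nat_lit 7) (nat_lit 10) L80766 (by decide +kernel)
theorem L80768 : W_29 (nat_lit 8) (nat_lit 0x100008000f000200000001000080000000000000000000000000000000) (nat_lit 0x0) (nat_lit 0x40002000e700300038c0000000000000000000000000000000000000000000) := T_29 (nat_lit 209) (nat_lit 208) (nat_lit 1) (nat_lit 8) (nat_lit 11) L80767 (by decide +kernel)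
theorem L80769 : W_29 (nat_lit 2) (nat_lit 0x38004a003f002280000001000080000000000000000000000000000000) (nat_lit 0x0) (nat_lit 0x40004400000000000000000000000000000000000000000000) := D_29 (nat_lit 198) (nat_lit 178) (nat_lit 182) (nat_lit 0) (nat_lit 11) (nat_lit 11) (nat_lit 2) (nat_lit 8) (nat_lit 11) (by decide +kernel)
theorem L80770 : W_29 (nat_lit 3) (nat_lit 0x38004a003f000280000001000080000000000000000000000000000000) (nat_lit 0x0) (nat_lit 0x40007400000000000000000000000000000000000000000000) := T_29 (nat_lit 181) (nat_lit 180) (nat_lit 2) (nat_lit 7) (nat_lit 11) L80769 (by decide +kernel)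
theorem L80771 : W_29 (nat_lit 4) (nat_lit 0x38004a001f000280000001000080000000000000000000000000000000) (nat_lit 0x0) (nat_lit 0x800060007400000000000000000000000000000000000000000000) := T_29 (nat_lit 197) (nat_lit 215) (nat_lit 3) (nat_lit 7) (nat_lit 11) L80770 (by decide +kernel)
theorem L80772 : W_29 (nat_lit 5) (nat_lit 0x30004a001f000280000001000080000000000000000000000000000000) (nat_lit 0x0) (nat_lit 0x10000800800060007400000000000000000000000000000000000000000000) := T_29 (nat_lit 227) (nat_lit 244) (nat_lit 5) (nat_lit 7) (nat_lit 10) L80771 (by decide +kernel)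
theorem L80773 : W_29 (nat_lit 6) (nat_lit 0x30000a001f000280000001000080000000000000000000000000000000) (nat_lit 0x0) (nat_lit 0x10000800e00060007400000000000000000000000000000000000000000000) := T_29 (nat_lit 214) (nat_lit 213) (nat_lit 3) (nat_lit 6) (nat_lit 11) L80772 (by decide +kernel)
theorem L80774 : W_29 (nat_lit 7) (nat_lit 0x30000a001f000200000001000080000000000000000000000000000000) (nat_lit 0x0) (nat_lit 0x10000800e000600074c0000000000000000000000000000000000000000000) := T_29 (nat_lit 175) (nat_lit 174) (nat_lit 0) (nat_lit 8) (nat_lit 11) L80773 (by decide +kernel)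
theorem L80775 : W_29 (nat_lit 8) (nat_lit 0x30000a000f000200000001000080000000000000000000000000000000) (nat_lit 0x0) (nat_lit 0x10000800e400700074c0000000000000000000000000000000000000000000) := T_29 (nat_lit 196) (nat_lit 210) (nat_lit 1) (nat_lit 9) (nat_lit 11) L80774 (by decide +kernel)
theorem L80776 : W_29 (nat_lit 9) (nat_lit 0x10000a000f000200000001000080000000000000000000000000000000) (nat_lit 0x0) (nat_lit 0x50002800e400700074c0000000000000000000000000000000000000000000) := T_29 (nat_lit 229) (nat_lit 246) (nat_lit 7) (nat_lit 7) (nat_lit 10) L80775 (by decide +kernel)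
theorem L80777 : W_29 (nat_lit 10) (nat_lit 0x100008000f000200000001000080000000000000000000000000000000) (nat_lit 0x0) (nat_lit 0x50002800e700700074c0000000000000000000000000000000000000000000) := T_29 (nat_lit 209) (nat_lit 208) (nat_lit 1) (nat_lit 8) (nat_lit 11) L80776 (by decide +kernel)
theorem L80778 : W_29 (nat_lit 2) (nat_lit 0x38000a000f000680000001000080000000000000000000000000000000) (nat_lit 0x0) (nat_lit 0x4000040000000000004000000000000000000000000000000000000000) := D_29 (nat_lit 210) (nat_lit 158) (nat_lit 230) (nat_lit 7) (nat_lit 5) (nat_lit 9) (nat_lit 0) (nat_lit 9) (nat_lit 13) (by decide +kernel)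
theorem L80779 : W_29 (nat_lit 3) (nat_lit 0x30000a000f000680000001000080000000000000000000000000000000) (nat_lit 0x0) (nat_lit 0x10004800040000000000004000000000000000000000000000000000000000) := T_29 (nat_lit 227) (nat_lit 244) (nat_lit 5) (nat_lit 7) (nat_lit 10) L80778 (by decide +kernel)
theorem L80780 : W_29 (nat_lit 4) (nat_lit 0x30000a000f000600000001000080000000000000000000000000000000) (nat_lit 0x0) (nat_lit 0x100048000400000000c0004000000000000000000000000000000000000000) := T_29 (nat_lit 175) (nat_lit 174) (nat_lit 0) (nat_lit 8) (nat_lit 11) L80779 (by decide +kernel)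
theorem L80781 : W_29 (nat_lit 5) (nat_lit 0x10000a000f000600000001000080000000000000000000000000000000) (nat_lit 0x0) (nat_lit 0x500068000400000000c0004000000000000000000000000000000000000000) := T_29 (nat_lit 229) (nat_lit 246) (nat_lit 7) (nat_lit 7) (nat_lit 10) L80780 (by decide +kernel)
theorem L80782 : W_29 (nat_lit 6) (nat_lit 0x10000a000f000200000001000080000000000000000000000000000000) (nat_lit 0x0) (nat_lit 0x50006800040000000cc0004000000000000000000000000000000000000000) := T_29 (nat_lit 178) (nat_lit 179) (nat_lit 2) (nat_lit 5) (nat_lit 11) L80781 (by decide +kernel)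
theorem L80783 : W_29 (nat_lit 7) (nat_lit 0x100008000f000200000001000080000000000000000000000000000000) (nat_lit 0x0) (nat_lit 0x50006800070000000cc0004000000000000000000000000000000000000000) := T_29 (nat_lit 209) (nat_lit 208) (nat_lit 1) (nat_lit 8) (nat_lit 11) L80782 (by decide +kernel)
theorem L80784 : W_29 (nat_lit 2) (nat_lit 0x38000a000f000600000001000080000000000000000000000000000000) (nat_lit 0x0) (nat_lit 0x4000040010000000000000000000000000000000000000000000000000) := D_29 (nat_lit 210) (nat_lit 230) (nat_lit 196) (nat_lit 0) (nat_lit 9) (nat_lit 13) (nat_lit 1) (nat_lit 9) (nat_lit 11) (by decide +kernel)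
theorem L80785 : W_29 (nat_lit 3) (nat_lit 0x380008000f000600000001000080000000000000000000000000000000) (nat_lit 0x0) (nat_lit 0x4000070010000000000000000000000000000000000000000000000000) := T_29 (nat_lit 209) (nat_lit 208) (nat_lit 1) (nat_lit 8) (nat_lit 11) L80784 (by decide +kernel)
theorem L80786 : W_29 (nat_lit 4) (nat_lit 0x180008000f000600000001000080000000000000000000000000000000) (nat_lit 0x0) (nat_lit 0x40006000070010000000000000000000000000000000000000000000000000) := T_29 (nat_lit 229) (nat_lit 246) (nat_lit 7) (nat_lit 7) (nat_lit 10) L80785 (by decide +kernel)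
theorem L80787 : W_29 (nat_lit 5) (nat_lit 0x180008000f000200000001000080000000000000000000000000000000) (nat_lit 0x0) (nat_lit 0x40006000070010000c00000000000000000000000000000000000000000000) := T_29 (nat_lit 178) (nat_lit 179) (nat_lit 2) (nat_lit 5) (nat_lit 11) L80786 (by decide +kernel)
theorem L80788 : W_29 (nat_lit 6) (nat_lit 0x100008000f000200000001000080000000000000000000000000000000) (nat_lit 0x0) (nat_lit 0x50006800070010000c00000000000000000000000000000000000000000000) := T_29 (nat_lit 227) (nat_lit 244) (nat_lit 5) (nat_lit 7) (nat_lit 10) L80787 (by decide +kernel)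
theorem L80789 : W_29 (nat_lit 2) (nat_lit 0x100008001f000200000001000080000000000000000000000000000000) (nat_lit 0x0) (nat_lit 0x1c00000000000000000000000000000000000000000000) := D_29 (nat_lit 179) (nat_lit 178) (nat_lit 180) (nat_lit 2) (nat_lit 5) (nat_lit 11) (nat_lit 2) (nat_lit 6) (nat_lit 11) (by decide +kernel)
theorem L80790 : W_29 (nat_lit 2) (nat_lit 0x300008003f001280000001000080000000000000000000000000000000) (nat_lit 0x0) (nat_lit 0xe00000000000000000000000000000000000000000000000000000) := D_29 (nat_lit 214) (nat_lit 213) (nat_lit 215) (nat_lit 3) (nat_lit 6) (nat_lit 11) (nat_lit 3) (nat_lit 7) (nat_lit 11) (by decide +kernel)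
theorem L80791 : W_29 (nat_lit 3) (nat_lit 0x300008001f001280000001000080000000000000000000000000000000) (nat_lit 0x0) (nat_lit 0xe00020002000000000000000000000000000000000000000000000) := T_29 (nat_lit 197) (nat_lit 181) (nat_lit 2) (nat_lit 7) (nat_lit 11) L80790 (by decide +kernel)
theorem L80792 : W_29 (nat_lit 4) (nat_lit 0x300008001f001200000001000080000000000000000000000000000000) (nat_lit 0x0) (nat_lit 0xe000200020c0000000000000000000000000000000000000000000) := T_29 (nat_lit 175) (nat_lit 174) (nat_lit 0) (nat_lit 8) (nat_lit 11) L80791 (by decide +kernel)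
theorem L80793 : W_29 (nat_lit 5) (nat_lit 0x300008001f000200000001000080000000000000000000000000000000) (nat_lit 0x0) (nat_lit 0xe000200038c0000000000000000000000000000000000000000000) := T_29 (nat_lit 180) (nat_lit 179) (nat_lit 2) (nat_lit 6) (nat_lit 11) L80792 (by decide +kernel)
theorem L80794 : W_29 (nat_lit 6) (nat_lit 0x100008001f000200000001000080000000000000000000000000000000) (nat_lit 0x0) (nat_lit 0x40002000e000200038c0000000000000000000000000000000000000000000) := T_29 (nat_lit 229) (nat_lit 246) (nat_lit 7) (nat_lit 7) (nat_lit 10) L80793 (by decide +kernel)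
theorem L80795 : W_29 (nat_lit 2) (nat_lit 0x10004a003f002200000001000080000000000000000000000000000000) (nat_lit 0x0) (nat_lit 0x40004400000000000000000000000000000000000000000000) := D_29 (nat_lit 198) (nat_lit 178) (nat_lit 182) (nat_lit 0) (nat_lit 11) (nat_lit 11) (nat_lit 2) (nat_lit 8) (nat_lit 11) (by decide +kernel)
theorem L80796 : W_29 (nat_lit 3) (nat_lit 0x10004a003f000200000001000080000000000000000000000000000000) (nat_lit 0x0) (nat_lit 0x40007400000000000000000000000000000000000000000000) := T_29 (nat_lit 181) (nat_lit 180) (nat_lit 2) (nat_lit 7) (nat_lit 11) L80795 (by decide +kernel)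
theorem L80797 : W_29 (nat_lit 4) (nat_lit 0x10004a001f000200000001000080000000000000000000000000000000) (nat_lit 0x0) (nat_lit 0x800060007400000000000000000000000000000000000000000000) := T_29 (nat_lit 197) (nat_lit 215) (nat_lit 3) (nat_lit 7) (nat_lit 11) L80796 (by decide +kernel)
theorem L80798 : W_29 (nat_lit 5) (nat_lit 0x100048001f000200000001000080000000000000000000000000000000) (nat_lit 0x0) (nat_lit 0x830060007400000000000000000000000000000000000000000000) := T_29 (nat_lit 209) (nat_lit 208) (nat_lit 1) (nat_lit 8) (nat_lit 11) L80797 (by decide +kernel)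
theorem L80799 : W_29 (nat_lit 6) (nat_lit 0x100008001f000200000001000080000000000000000000000000000000) (nat_lit 0x0) (nat_lit 0xe30060007400000000000000000000000000000000000000000000) := T_29 (nat_lit 214) (nat_lit 213) (nat_lit 3) (nat_lit 6) (nat_lit 11) L80798 (by decide +kernel)
theorem L80800 : W_29 (nat_lit 2) (nat_lit 0x180008003f000600000001000080000000000000000000000000000000) (nat_lit 0x0) (nat_lit 0xe00000000000000000000000000000000000000000000000000000) := D_29 (nat_lit 214) (nat_lit 213) (nat_lit 215) (nat_lit 3) (nat_lit 6) (nat_lit 11) (nat_lit 3) (nat_lit 7) (nat_lit 11) (by decide +kernel)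
theorem L80801 : W_29 (nat_lit 3) (nat_lit 0x180008001f000600000001000080000000000000000000000000000000) (nat_lit 0x0) (nat_lit 0xe00060000000000000000000000000000000000000000000000000) := T_29 (nat_lit 197) (nat_lit 198) (nat_lit 0) (nat_lit 11) (nat_lit 11) L80800 (by decide +kernel)
theorem L80802 : W_29 (nat_lit 4) (nat_lit 0x180008001f000200000001000080000000000000000000000000000000) (nat_lit 0x0) (nat_lit 0xe00060000c00000000000000000000000000000000000000000000) := T_29 (nat_lit 178) (nat_lit 179) (nat_lit 2) (nat_lit 5) (nat_lit 11) L80801 (by decide +kernel)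
theorem L80803 : W_29 (nat_lit 5) (nat_lit 0x100008001f000200000001000080000000000000000000000000000000) (nat_lit 0x0) (nat_lit 0x10000800e00060000c00000000000000000000000000000000000000000000) := T_29 (nat_lit 227) (nat_lit 244) (nat_lit 5) (nat_lit 7) (nat_lit 10) L80802 (by decide +kernel)
theorem L80804 : W_29 (nat_lit 7) (nat_lit 0x100008000f000200000001000080000000000000000000000000000000) (nat_lit 0x0) (nat_lit 0x50002800e30070007cc0000000000000000000000000000000000000000000) := Q_29 (nat_lit 196) (C_29 L80789 (C_29 L80794 (C_29 L80799 (C_29 L80803 N_29)))) (by decide +kernel)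
theorem L80805 : W_29 (nat_lit 2) (nat_lit 0x380008003f000a80000001000080000000000000000000000000000000) (nat_lit 0x0) (nat_lit 0xe00000000000000000000000000000000000000000000000000000) := D_29 (nat_lit 214) (nat_lit 213) (nat_lit 215) (nat_lit 3) (nat_lit 6) (nat_lit 11) (nat_lit 3) (nat_lit 7) (nat_lit 11) (by decide +kernel)
theorem L80806 : W_29 (nat_lit 3) (nat_lit 0x380008001f000a80000001000080000000000000000000000000000000) (nat_lit 0x0) (nat_lit 0xe40020000000000000000000000000000000000000000000000000) := T_29 (nat_lit 197) (nat_lit 210) (nat_lit 1) (nat_lit 10) (nat_lit 11) L80805 (by decide +kernel)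
theorem L80807 : W_29 (nat_lit 4) (nat_lit 0x380008000f000a80000001000080000000000000000000000000000000) (nat_lit 0x0) (nat_lit 0xe40030001000000000000000000000000000000000000000000000) := T_29 (nat_lit 196) (nat_lit 180) (nat_lit 2) (nat_lit 6) (nat_lit 11) L80806 (by decide +kernel)
theorem L80808 : W_29 (nat_lit 5) (nat_lit 0x380008000f000280000001000080000000000000000000000000000000) (nat_lit 0x0) (nat_lit 0xe40030001c00000000000000000000000000000000000000000000) := T_29 (nat_lit 179) (nat_lit 178) (nat_lit 2) (nat_lit 5) (nat_lit 11) L80807 (by decide +kernel)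
theorem L80809 : W_29 (nat_lit 6) (nat_lit 0x180008000f000280000001000080000000000000000000000000000000) (nat_lit 0x0) (nat_lit 0x40002000e40030001c00000000000000000000000000000000000000000000) := T_29 (nat_lit 229) (nat_lit 246) (nat_lit 7) (nat_lit 7) (nat_lit 10) L80808 (by decide +kernel)
theorem L80810 : W_29 (nat_lit 7) (nat_lit 0x100008000f000280000001000080000000000000000000000000000000) (nat_lit 0x0) (nat_lit 0x50002800e40030001c00000000000000000000000000000000000000000000) := T_29 (nat_lit 227) (nat_lit 244) (nat_lit 5) (nat_lit 7) (nat_lit 10) L80809 (by decide +kernel)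
theorem L80811 : W_29 (nat_lit 8) (nat_lit 0x100008000f000200000001000080000000000000000000000000000000) (nat_lit 0x0) (nat_lit 0x50002800e40030001cc0000000000000000000000000000000000000000000) := T_29 (nat_lit 175) (nat_lit 174) (nat_lit 0) (nat_lit 8) (nat_lit 11) L80810 (by decide +kernel)
theorem L80812 : W_29 (nat_lit 3) (nat_lit 0x180008000f000680000001000080000000000000000000000000000000) (nat_lit 0x0) (nat_lit 0x70010000000004000000000000000000000000000000000000000) := T_29 (nat_lit 209) (nat_lit 208) (nat_lit 1) (nat_lit 8) (nat_lit 11) L76966 (by decide +kernel)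
theorem L80813 : W_29 (nat_lit 4) (nat_lit 0x100008000f000680000001000080000000000000000000000000000000) (nat_lit 0x0) (nat_lit 0x10000800070010000000004000000000000000000000000000000000000000) := T_29 (nat_lit 227) (nat_lit 244) (nat_lit 5) (nat_lit 7) (nat_lit 10) L80812 (by decide +kernel)
theorem L80814 : W_29 (nat_lit 5) (nat_lit 0x100008000f000600000001000080000000000000000000000000000000) (nat_lit 0x0) (nat_lit 0x100008000700100000c0004000000000000000000000000000000000000000) := T_29 (nat_lit 175) (nat_lit 174) (nat_lit 0) (nat_lit 8) (nat_lit 11) L80813 (by decide +kernel)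
theorem L80815 : W_29 (nat_lit 6) (nat_lit 0x100008000f000200000001000080000000000000000000000000000000) (nat_lit 0x0) (nat_lit 0x10000800070010000cc0004000000000000000000000000000000000000000) := T_29 (nat_lit 178) (nat_lit 179) (nat_lit 2) (nat_lit 5) (nat_lit 11) L80814 (by decide +kernel)
theorem L80816 : W_29 (nat_lit 11) (nat_lit 0x1000080007000200000001000080000000000000000000000000000000) (nat_lit 0x0) (nat_lit 0x50006800e70078007cc0004000000000000000000000000000000000000000) := Q_29 (nat_lit 195) (C_29 L80761 (C_29 L80768 (C_29 L80777 (C_29 L80783 (C_29 L80788 (C_29 L80804 (C_29 L80811 (C_29 L80815 N_29)))))))) (by decide +kernel)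
theorem L80817 : W_29 (nat_lit 2) (nat_lit 0x2003c00088007d002c0002001000080000000000000000000000000000000) (nat_lit 0x0) (nat_lit 0xc000200000000000000000000000000000000000000000000000000000000) := D_29 (nat_lit 242) (nat_lit 243) (nat_lit 225) (nat_lit 1) (nat_lit 8) (nat_lit 13) (nat_lit 1) (nat_lit 7) (nat_lit 13) (by decide +kernel)
theorem L80818 : W_29 (nat_lit 3) (nat_lit 0x2003800088007d002c0002001000080000000000000000000000000000000) (nat_lit 0x0) (nat_lit 0xc000600020000000000000000000000000000000000000000000000000000) := T_29 (nat_lit 226) (nat_lit 209) (nat_lit 4) (nat_lit 5) (nat_lit 13) L80817 (by decide +kernel)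
theorem L80819 : W_29 (nat_lit 4) (nat_lit 0x3800088007d002c0002001000080000000000000000000000000000000) (nat_lit 0x0) (nat_lit 0xe000700020000000000000000000000000000000000000000000000000000) := T_29 (nat_lit 241) (nat_lit 224) (nat_lit 6) (nat_lit 3) (nat_lit 14) L80818 (by decide +kernel)
theorem L80820 : W_29 (nat_lit 5) (nat_lit 0x3800088007d002c0000001000080000000000000000000000000000000) (nat_lit 0x0) (nat_lit 0xe000700020000000000002000100000000000000000000000000000000000) := T_29 (nat_lit 157) (nat_lit 140) (nat_lit 5) (nat_lit 4) (nat_lit 8) L80819 (by decide +kernel)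
theorem L80821 : W_29 (nat_lit 6) (nat_lit 0x3800088007c002c0000001000080000000000000000000000000000000) (nat_lit 0x0) (nat_lit 0xe000700020000300000002000100000000000000000000000000000000000) := T_29 (nat_lit 188) (nat_lit 189) (nat_lit 2) (nat_lit 1) (nat_lit 11) L80820 (by decide +kernel)
theorem L80822 : W_29 (nat_lit 7) (nat_lit 0x3000088007c002c0000001000080000000000000000000000000000000) (nat_lit 0x0) (nat_lit 0x1e000f00020000300000002000100000000000000000000000000000000000) := T_29 (nat_lit 227) (nat_lit 244) (nat_lit 5) (nat_lit 7) (nat_lit 10) L80821 (by decide +kernel)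
theorem L80823 : W_29 (nat_lit 8) (nat_lit 0x3000088007c00240000001000080000000000000000000000000000000) (nat_lit 0x0) (nat_lit 0x1e000f00020008300080002000100000000000000000000000000000000000) := T_29 (nat_lit 175) (nat_lit 195) (nat_lit 0) (nat_lit 8) (nat_lit 11) L80822 (by decide +kernel)
theorem L80824 : W_29 (nat_lit 9) (nat_lit 0x3000080007c00240000001000080000000000000000000000000000000) (nat_lit 0x0) (nat_lit 0x1e000f0002c008300080002000100000000000000000000000000000000000) := T_29 (nat_lit 207) (nat_lit 206) (nat_lit 1) (nat_lit 6) (nat_lit 11) L80823 (by decide +kernel)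
theorem L80825 : W_29 (nat_lit 10) (nat_lit 0x3000080007800240000001000080000000000000000000000000000000) (nat_lit 0x0) (nat_lit 0x1e000f0006c008700080002000100000000000000000000000000000000000) := T_29 (nat_lit 190) (nat_lit 210) (nat_lit 3) (nat_lit 3) (nat_lit 11) L80824 (by decide +kernel)
theorem L80826 : W_29 (nat_lit 11) (nat_lit 0x3000080007800200000001000080000000000000000000000000000000) (nat_lit 0x0) (nat_lit 0x1e000f0006c0087000e0002000100000000000000000000000000000000000) := T_29 (nat_lit 174) (nat_lit 173) (nat_lit 0) (nat_lit 7) (nat_lit 11) L80825 (by decide +kernel)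
theorem L80827 : W_29 (nat_lit 12) (nat_lit 0x3000080007000200000001000080000000000000000000000000000000) (nat_lit 0x0) (nat_lit 0x1e000f0006c008f004e0002000100000000000000000000000000000000000) := T_29 (nat_lit 191) (nat_lit 178) (nat_lit 2) (nat_lit 4) (nat_lit 11) L80826 (by decide +kernel)
theorem L80828 : W_29 (nat_lit 13) (nat_lit 0x1000080007000200000001000080000000000000000000000000000000) (nat_lit 0x0) (nat_lit 0x5e002f0006c008f004e0002000100000000000000000000000000000000000) := T_29 (nat_lit 229) (nat_lit 246) (nat_lit 7) (nat_lit 7) (nat_lit 10) L80827 (by decide +kernel)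
theorem L80830 : W_29 (nat_lit 2) (nat_lit 0x600010000c000e000200000001000080000000000000000000000000000000) (nat_lit 0x0) (nat_lit 0x30010000000000000000000000000000000000000000000000000) := D_29 (nat_lit 209) (nat_lit 208) (nat_lit 196) (nat_lit 2) (nat_lit 4) (nat_lit 12) (nat_lit 1) (nat_lit 9) (nat_lit 11) (by decide +kernel)
theorem L80831 : W_29 (nat_lit 3) (nat_lit 0x6000100008000e000200000001000080000000000000000000000000000000) (nat_lit 0x0) (nat_lit 0x400000000000070010000000000000000000000000000000000000000000000000) := T_29 (nat_lit 210) (nat_lit 262) (nat_lit 4) (nat_lit 7) (nat_lit 15) L80830 (by decide +kernel)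
theorem L80832 : W_29 (nat_lit 4) (nat_lit 0x60001000080006000200000001000080000000000000000000000000000000) (nat_lit 0x0) (nat_lit 0x400000000000070018000400000000000000000000000000000000000000000000) := T_29 (nat_lit 195) (nat_lit 178) (nat_lit 6) (nat_lit 7) (nat_lit 14) L80831 (by decide +kernel)
theorem L80833 : W_29 (nat_lit 5) (nat_lit 0x40001000080006000200000001000080000000000000000000000000000000) (nat_lit 0x0) (nat_lit 0xc00020000000070018000400000000000000000000000000000000000000000000) := T_29 (nat_lit 245) (nat_lit 263) (nat_lit 7) (nat_lit 7) (nat_lit 11) L80832 (by decide +kernel)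
theorem L80834 : W_29 (nat_lit 6) (nat_lit 0x1000080006000200000001000080000000000000000000000000000000) (nat_lit 0x0) (nat_lit 0xc00060002000070018000400000000000000000000000000000000000000000000) := T_29 (nat_lit 246) (nat_lit 229) (nat_lit 7) (nat_lit 7) (nat_lit 10) L80833 (by decide +kernel)
theorem L80967 : W_29 (nat_lit 2) (nat_lit 0x400010000c0006000200000001000080000000000000000000000000000000) (nat_lit 0x0) (nat_lit 0xc00020000000000000000000000000000000000000000000000000000000000000) := D_29 (nat_lit 245) (nat_lit 262) (nat_lit 263) (nat_lit 4) (nat_lit 7) (nat_lit 15) (nat_lit 7) (nat_lit 7) (nat_lit 11) (by decide +kernel)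
theorem L80968 : W_29 (nat_lit 3) (nat_lit 0x10000c0006000200000001000080000000000000000000000000000000) (nat_lit 0x0) (nat_lit 0xc00060002000000000000000000000000000000000000000000000000000000000) := T_29 (nat_lit 246) (nat_lit 229) (nat_lit 7) (nat_lit 7) (nat_lit 10) L80967 (by decide +kernel)
theorem L80976 : W_29 (nat_lit 2) (nat_lit 0xd0007800240000001000080000000000000000000000000000000) (nat_lit 0x0) (nat_lit 0x20008000080000000000000000000000000000000000000000000) := D_29 (nat_lit 195) (nat_lit 209) (nat_lit 175) (nat_lit 2) (nat_lit 4) (nat_lit 12) (nat_lit 0) (nat_lit 8) (nat_lit 11) (by decide +kernel)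
theorem L80977 : W_29 (nat_lit 3) (nat_lit 0xd0007800200000001000080000000000000000000000000000000) (nat_lit 0x0) (nat_lit 0x200080000e0000000000000000000000000000000000000000000) := T_29 (nat_lit 174) (nat_lit 173) (nat_lit 0) (nat_lit 7) (nat_lit 11) L80976 (by decide +kernel)
theorem L80978 : W_29 (nat_lit 4) (nat_lit 0xc0007800200000001000080000000000000000000000000000000) (nat_lit 0x0) (nat_lit 0x380080000e0000000000000000000000000000000000000000000) := T_29 (nat_lit 208) (nat_lit 207) (nat_lit 1) (nat_lit 7) (nat_lit 11) L80977 (by decide +kernel)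
theorem L80979 : W_29 (nat_lit 5) (nat_lit 0xc0007000200000001000080000000000000000000000000000000) (nat_lit 0x0) (nat_lit 0x38008c000e0000000000000000000000000000000000000000000) := T_29 (nat_lit 191) (nat_lit 190) (nat_lit 3) (nat_lit 3) (nat_lit 11) L80978 (by decide +kernel)
theorem L81007 : W_29 (nat_lit 4) (nat_lit 0xd0007800200000001800080000000000000000000000000000000) (nat_lit 0x0) (nat_lit 0x4000300020008000080004000000000000000000000000000000000000000) := T_29 (nat_lit 209) (nat_lit 195) (nat_lit 2) (nat_lit 4) (nat_lit 12) L79736 (by decide +kernel)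
theorem L81008 : W_29 (nat_lit 5) (nat_lit 0xc0007800200000001800080000000000000000000000000000000) (nat_lit 0x0) (nat_lit 0x4000300038008000080004000000000000000000000000000000000000000) := T_29 (nat_lit 208) (nat_lit 207) (nat_lit 1) (nat_lit 7) (nat_lit 11) L81007 (by decide +kernel)
theorem L81009 : W_29 (nat_lit 6) (nat_lit 0xc0007000200000001800080000000000000000000000000000000) (nat_lit 0x0) (nat_lit 0x4000300038008c00080004000000000000000000000000000000000000000) := T_29 (nat_lit 191) (nat_lit 190) (nat_lit 3) (nat_lit 3) (nat_lit 11) L81008 (by decide +kernel)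
theorem L81010 : W_29 (nat_lit 7) (nat_lit 0xc0007000200000001000080000000000000000000000000000000) (nat_lit 0x0) (nat_lit 0x4000300038008c00080014000800000000000000000000000000000000000) := T_29 (nat_lit 143) (nat_lit 160) (nat_lit 6) (nat_lit 7) (nat_lit 11) L81009 (by decide +kernel)
theorem L81011 : W_29 (nat_lit 2) (nat_lit 0xe0007000200000001000080000000000000000000000000000000) (nat_lit 0x0) (nat_lit 0x18008000000000000000000000000000000000000000000000000) := D_29 (nat_lit 208) (nat_lit 207) (nat_lit 195) (nat_lit 2) (nat_lit 3) (nat_lit 12) (nat_lit 2) (nat_lit 4) (nat_lit 12) (by decide +kernel)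
theorem L81028 : W_29 (nat_lit 2) (nat_lit 0xc0006000200000001000080000000000000000000000000000000) (nat_lit 0x0) (nat_lit 0x800000000000000010000800000000000000000000000000000000000) := D_29 (nat_lit 160) (nat_lit 143) (nat_lit 227) (nat_lit 6) (nat_lit 7) (nat_lit 11) (nat_lit 5) (nat_lit 7) (nat_lit 9) (by decide +kernel)
theorem L81030 : W_29 (nat_lit 2) (nat_lit 0x200060001000080006000200018001000080000000000000000000000000000000) (nat_lit 0x0) (nat_lit 0x4000400000000000040000000000000000000000000000000000000000000000000000) := D_29 (nat_lit 262) (nat_lit 210) (nat_lit 278) (nat_lit 4) (nat_lit 7) (nat_lit 15) (nat_lit 5) (nat_lit 7) (nat_lit 12) (by decide +kernel)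
theorem L81031 : W_29 (nat_lit 3) (nat_lit 0x60001000080006000200018001000080000000000000000000000000000000) (nat_lit 0x0) (nat_lit 0x4000600010000000040000000000000000000000000000000000000000000000000000) := T_29 (nat_lit 261) (nat_lit 244) (nat_lit 5) (nat_lit 7) (nat_lit 11) L81030 (by decide +kernel)
theorem L81032 : W_29 (nat_lit 4) (nat_lit 0x40001000080006000200018001000080000000000000000000000000000000) (nat_lit 0x0) (nat_lit 0x4000e00030000000040000000000000000000000000000000000000000000000000000) := T_29 (nat_lit 245) (nat_lit 263) (nat_lit 7) (nat_lit 7) (nat_lit 11) L81031 (by decide +kernel)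
theorem L81033 : W_29 (nat_lit 5) (nat_lit 0x1000080006000200018001000080000000000000000000000000000000) (nat_lit 0x0) (nat_lit 0x4000e00070002000040000000000000000000000000000000000000000000000000000) := T_29 (nat_lit 246) (nat_lit 229) (nat_lit 7) (nat_lit 7) (nat_lit 10) L81032 (by decide +kernel)
theorem L81034 : W_29 (nat_lit 6) (nat_lit 0x1000080006000200010001000080000000000000000000000000000000) (nat_lit 0x0) (nat_lit 0x4000e00070002000040000000000008000400000000000000000000000000000000000) := T_29 (nat_lit 159) (nat_lit 142) (nat_lit 4) (nat_lit 7) (nat_lit 12) L81033 (by decide +kernel)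
theorem L81035 : W_29 (nat_lit 7) (nat_lit 0x1000080006000200000001000080000000000000000000000000000000) (nat_lit 0x0) (nat_lit 0x4000e00070002000040000000000018000c00000000000000000000000000000000000) := T_29 (nat_lit 160) (nat_lit 143) (nat_lit 6) (nat_lit 7) (nat_lit 11) L81034 (by decide +kernel)
theorem L81036 : W_29 (nat_lit 2) (nat_lit 0x1800080006000200000001000080000000000000000000000000000000) (nat_lit 0x0) (nat_lit 0x40000000000010000800000000000000000000000000000000000) := D_29 (nat_lit 160) (nat_lit 210) (nat_lit 143) (nat_lit 5) (nat_lit 7) (nat_lit 9) (nat_lit 6) (nat_lit 7) (nat_lit 11) (by decide +kernel)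
theorem L81037 : W_29 (nat_lit 3) (nat_lit 0x1000080006000200000001000080000000000000000000000000000000) (nat_lit 0x0) (nat_lit 0x10000800040000000000010000800000000000000000000000000000000000) := T_29 (nat_lit 227) (nat_lit 244) (nat_lit 5) (nat_lit 7) (nat_lit 10) L81036 (by decide +kernel)
theorem L81038 : W_29 (nat_lit 2) (nat_lit 0x400010000c0006000200010001000080000000000000000000000000000000) (nat_lit 0x0) (nat_lit 0xc00020000000000000000000000000000000000000000000000000000000000000) := D_29 (nat_lit 245) (nat_lit 262) (nat_lit 263) (nat_lit 4) (nat_lit 7) (nat_lit 15) (nat_lit 7) (nat_lit 7) (nat_lit 11) (by decide +kernel)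
theorem L81039 : W_29 (nat_lit 3) (nat_lit 0x40001000080006000200010001000080000000000000000000000000000000) (nat_lit 0x0) (nat_lit 0xc00020000800040000000000000000000000000000000000000000000000000000) := T_29 (nat_lit 210) (nat_lit 227) (nat_lit 5) (nat_lit 7) (nat_lit 9) L81038 (by decide +kernel)
theorem L81040 : W_29 (nat_lit 4) (nat_lit 0x40001000080006000200000001000080000000000000000000000000000000) (nat_lit 0x0) (nat_lit 0xc00020000800040000000000010000800000000000000000000000000000000000) := T_29 (nat_lit 160) (nat_lit 143) (nat_lit 6) (nat_lit 7) (nat_lit 11) L81039 (by decide +kernel)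
theorem L81041 : W_29 (nat_lit 5) (nat_lit 0x1000080006000200000001000080000000000000000000000000000000) (nat_lit 0x0) (nat_lit 0xc00060002800040000000000010000800000000000000000000000000000000000) := T_29 (nat_lit 246) (nat_lit 229) (nat_lit 7) (nat_lit 7) (nat_lit 10) L81040 (by decide +kernel)
theorem L81042 : W_29 (nat_lit 8) (nat_lit 0x80006000200000001000080000000000000000000000000000000) (nat_lit 0x0) (nat_lit 0x4000e00070003800040000000000018000c00000000000000000000000000000000000) := Q_29 (nat_lit 228) (C_29 L80713 (C_29 L81035 (C_29 L81037 (C_29 L81041 N_29)))) (by decide +kernel)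
theorem L81050 : W_29 (nat_lit 2) (nat_lit 0x8000e000f000200000001000080000000000000000000000000000000) (nat_lit 0x0) (nat_lit 0xc0004000000000000000000000000000000000000000) := D_29 (nat_lit 175) (nat_lit 158) (nat_lit 174) (nat_lit 7) (nat_lit 5) (nat_lit 9) (nat_lit 0) (nat_lit 8) (nat_lit 11) (by decide +kernel)
theorem L81051 : W_29 (nat_lit 3) (nat_lit 0x8000e0007000200000001000080000000000000000000000000000000) (nat_lit 0x0) (nat_lit 0x180000c0004000000000000000000000000000000000000000) := T_29 (nat_lit 195) (nat_lit 196) (nat_lit 1) (nat_lit 9) (nat_lit 11) L81050 (by decide +kernel)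
theorem L81052 : W_29 (nat_lit 4) (nat_lit 0xe0007000200000001000080000000000000000000000000000000) (nat_lit 0x0) (nat_lit 0x100008000000180000c0004000000000000000000000000000000000000000) := T_29 (nat_lit 227) (nat_lit 244) (nat_lit 6) (nat_lit 6) (nat_lit 14) L81051 (by decide +kernel)
theorem L81053 : W_29 (nat_lit 7) (nat_lit 0xe0006000200000001000080000000000000000000000000000000) (nat_lit 0x0) (nat_lit 0x18000c00000019c004e0006000100000000000000000000000000000000000) := Q_29 (nat_lit 192) (C_29 L79202 (C_29 L78815 (C_29 L81052 N_29))) (by decide +kernel)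
theorem L81054 : W_29 (nat_lit 8) (nat_lit 0xc0006000200000001000080000000000000000000000000000000) (nat_lit 0x0) (nat_lit 0x1c000f00038019c004e0006000100000000000000000000000000000000000) := Q_29 (nat_lit 209) (C_29 L79389 (C_29 L79190 (C_29 L81053 N_29))) (by decide +kernel)
theorem L81283 : W_29 (nat_lit 6) (nat_lit 0x20003c0004000200000001000080000000000000000000000000000000) (nat_lit 0x0) (nat_lit 0x4700030031c00000000000000000000000000000000000000000000000) := T_29 (nat_lit 196) (nat_lit 197) (nat_lit 2) (nat_lit 6) (nat_lit 12) L79021 (by decide +kernel)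
theorem L81284 : W_29 (nat_lit 5) (nat_lit 0x20003c0014000200000001000080000000000000000000000000000000) (nat_lit 0x0) (nat_lit 0x700030009c00000000000000000000000000000000000000000000000) := T_29 (nat_lit 209) (nat_lit 195) (nat_lit 2) (nat_lit 5) (nat_lit 12) L79020 (by decide +kernel)
theorem L81285 : W_29 (nat_lit 6) (nat_lit 0x20003c0004000200000001000080000000000000000000000000000000) (nat_lit 0x0) (nat_lit 0x700030039c00000000000000000000000000000000000000000000000) := T_29 (nat_lit 196) (nat_lit 197) (nat_lit 2) (nat_lit 6) (nat_lit 12) L81284 (by decide +kernel)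
theorem L81432 : W_29 (nat_lit 2) (nat_lit 0x1a001f001280000001000080000000000000000000000000000000) (nat_lit 0x0) (nat_lit 0x60002000000000000000000000000000000000000000000000) := D_29 (nat_lit 197) (nat_lit 198) (nat_lit 181) (nat_lit 1) (nat_lit 11) (nat_lit 11) (nat_lit 2) (nat_lit 7) (nat_lit 11) (by decide +kernel)
theorem L81433 : W_29 (nat_lit 3) (nat_lit 0x1a001f000280000001000080000000000000000000000000000000) (nat_lit 0x0) (nat_lit 0x60003800000000000000000000000000000000000000000000) := T_29 (nat_lit 180) (nat_lit 179) (nat_lit 2) (nat_lit 6) (nat_lit 11) L81432 (by decide +kernel)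
theorem L81605 : W_29 (nat_lit 2) (nat_lit 0x4007e000d000200000001000080000000000000000000000000000000) (nat_lit 0x0) (nat_lit 0x1c000000000000000000000000000000000000000000000000000000000) := D_29 (nat_lit 231) (nat_lit 230) (nat_lit 232) (nat_lit 3) (nat_lit 6) (nat_lit 12) (nat_lit 3) (nat_lit 7) (nat_lit 12) (by decide +kernel)
theorem L81606 : W_29 (nat_lit 3) (nat_lit 0x4003e000d000200000001000080000000000000000000000000000000) (nat_lit 0x0) (nat_lit 0x1c000c00000000000000000000000000000000000000000000000000000) := T_29 (nat_lit 214) (nat_lit 215) (nat_lit 0) (nat_lit 11) (nat_lit 12) L81605 (by decide +kernel)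
theorem L81607 : W_29 (nat_lit 4) (nat_lit 0x4001e000d000200000001000080000000000000000000000000000000) (nat_lit 0x0) (nat_lit 0x1c000e00002000000000000000000000000000000000000000000000000) := T_29 (nat_lit 213) (nat_lit 193) (nat_lit 3) (nat_lit 5) (nat_lit 11) L81606 (by decide +kernel)
theorem L81608 : W_29 (nat_lit 5) (nat_lit 0x4001e000c000200000001000080000000000000000000000000000000) (nat_lit 0x0) (nat_lit 0x1c000e00003800000000000000000000000000000000000000000000000) := T_29 (nat_lit 192) (nat_lit 191) (nat_lit 0) (nat_lit 8) (nat_lit 12) L81607 (by decide +kernel)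
theorem L81609 : W_29 (nat_lit 6) (nat_lit 0x1e000c000200000001000080000000000000000000000000000000) (nat_lit 0x0) (nat_lit 0x1c600e00003800000000000000000000000000000000000000000000000) := T_29 (nat_lit 226) (nat_lit 225) (nat_lit 1) (nat_lit 8) (nat_lit 12) L81608 (by decide +kernel)
theorem L81610 : W_29 (nat_lit 7) (nat_lit 0x1c000c000200000001000080000000000000000000000000000000) (nat_lit 0x0) (nat_lit 0x1c600e30003800000000000000000000000000000000000000000000000) := T_29 (nat_lit 209) (nat_lit 208) (nat_lit 2) (nat_lit 4) (nat_lit 12) L81609 (by decide +kernel)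
theorem L81750 : W_29 (nat_lit 2) (nat_lit 0x40003c001c000200000001000080000000000000000000000000000000) (nat_lit 0x0) (nat_lit 0x1000080000000000000000400000000000000000000000000000000000000000000) := D_29 (nat_lit 247) (nat_lit 178) (nat_lit 264) (nat_lit 4) (nat_lit 9) (nat_lit 14) (nat_lit 4) (nat_lit 9) (nat_lit 15) (by decide +kernel)
theorem L81776 : W_29 (nat_lit 2) (nat_lit 0x100000000c000e000300008001000080000000000000000000000000000000) (nat_lit 0x0) (nat_lit 0x400030000000000000000000000000000000000000000000000000000) := D_29 (nat_lit 209) (nat_lit 208) (nat_lit 226) (nat_lit 2) (nat_lit 4) (nat_lit 12) (nat_lit 5) (nat_lit 6) (nat_lit 9) (by decide +kernel)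
theorem L81777 : W_29 (nat_lit 3) (nat_lit 0x100000000c000e000300000001000080000000000000000000000000000000) (nat_lit 0x0) (nat_lit 0x400030000000000008000400000000000000000000000000000000000) := T_29 (nat_lit 159) (nat_lit 142) (nat_lit 7) (nat_lit 6) (nat_lit 8) L81776 (by decide +kernel)
theorem L81778 : W_29 (nat_lit 4) (nat_lit 0xc000e000300000001000080000000000000000000000000000000) (nat_lit 0x0) (nat_lit 0x10000c00030000000000008000400000000000000000000000000000000000) := T_29 (nat_lit 244) (nat_lit 227) (nat_lit 6) (nat_lit 6) (nat_lit 14) L81777 (by decide +kernel)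
theorem L81782 : W_29 (nat_lit 2) (nat_lit 0x1c0016000200000001000080000000000000000000000000000000) (nat_lit 0x0) (nat_lit 0x600020000000000000000000000000000000000000000000000000) := D_29 (nat_lit 213) (nat_lit 197) (nat_lit 214) (nat_lit 2) (nat_lit 6) (nat_lit 12) (nat_lit 0) (nat_lit 10) (nat_lit 12) (by decide +kernel)
theorem L81783 : W_29 (nat_lit 2) (nat_lit 0x3c000c000200000001000080000000000000000000000000000000) (nat_lit 0x0) (nat_lit 0xc00002000000000000000000000000000000000000000000000000) := D_29 (nat_lit 214) (nat_lit 193) (nat_lit 215) (nat_lit 0) (nat_lit 10) (nat_lit 12) (nat_lit 0) (nat_lit 11) (nat_lit 12) (by decide +kernel)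
theorem L81784 : W_29 (nat_lit 2) (nat_lit 0x400000007c000c000200000001000080000000000000000000000000000000) (nat_lit 0x0) (nat_lit 0x1c000000000000000000000000000000000000000000000000000000000) := D_29 (nat_lit 231) (nat_lit 230) (nat_lit 232) (nat_lit 3) (nat_lit 6) (nat_lit 12) (nat_lit 3) (nat_lit 7) (nat_lit 12) (by decide +kernel)
theorem L81785 : W_29 (nat_lit 3) (nat_lit 0x400000003c000c000200000001000080000000000000000000000000000000) (nat_lit 0x0) (nat_lit 0x1c000c00000000000000000000000000000000000000000000000000000) := T_29 (nat_lit 214) (nat_lit 215) (nat_lit 0) (nat_lit 11) (nat_lit 12) L81784 (by decide +kernel)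
theorem L81786 : W_29 (nat_lit 4) (nat_lit 0x3c000c000200000001000080000000000000000000000000000000) (nat_lit 0x0) (nat_lit 0x4001e000c00000000000000000000000000000000000000000000000000000) := T_29 (nat_lit 246) (nat_lit 229) (nat_lit 4) (nat_lit 8) (nat_lit 14) L81785 (by decide +kernel)
theorem L81787 : W_29 (nat_lit 2) (nat_lit 0x8003c000c000200000001000080000000000000000000000000000000) (nat_lit 0x0) (nat_lit 0x10000000000003000000000000000000000000000000000000000000000000) := D_29 (nat_lit 193) (nat_lit 192) (nat_lit 244) (nat_lit 3) (nat_lit 5) (nat_lit 11) (nat_lit 6) (nat_lit 6) (nat_lit 14) (by decide +kernel)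
theorem L81788 : W_29 (nat_lit 3) (nat_lit 0x3c000c000200000001000080000000000000000000000000000000) (nat_lit 0x0) (nat_lit 0x10000c00000003000000000000000000000000000000000000000000000000) := T_29 (nat_lit 227) (nat_lit 226) (nat_lit 1) (nat_lit 9) (nat_lit 12) L81787 (by decide +kernel)
theorem L81789 : W_29 (nat_lit 5) (nat_lit 0x1c000c000200000001000080000000000000000000000000000000) (nat_lit 0x0) (nat_lit 0x5001ec00e00003000000000000000000000000000000000000000000000000) := Q_29 (nat_lit 213) (C_29 L81783 (C_29 L81786 (C_29 L81788 N_29))) (by decide +kernel)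
theorem L81790 : W_29 (nat_lit 3) (nat_lit 0x40003c000c000200000001000080000000000000000000000000000000) (nat_lit 0x0) (nat_lit 0x1000080000000000030000400000000000000000000000000000000000000000000) := T_29 (nat_lit 196) (nat_lit 197) (nat_lit 2) (nat_lit 6) (nat_lit 12) L81750 (by decide +kernel)
theorem L81791 : W_29 (nat_lit 4) (nat_lit 0x3c000c000200000001000080000000000000000000000000000000) (nat_lit 0x0) (nat_lit 0x100008000c000000030000400000000000000000000000000000000000000000000) := T_29 (nat_lit 230) (nat_lit 231) (nat_lit 3) (nat_lit 6) (nat_lit 12) L81790 (by decide +kernel)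
theorem L81792 : W_29 (nat_lit 2) (nat_lit 0x400000003c002c000200000001000080000000000000000000000000000000) (nat_lit 0x0) (nat_lit 0xc00040000000000000000000000000000000000000000000000000) := D_29 (nat_lit 214) (nat_lit 198) (nat_lit 215) (nat_lit 2) (nat_lit 7) (nat_lit 12) (nat_lit 0) (nat_lit 11) (nat_lit 12) (by decide +kernel)
theorem L81793 : W_29 (nat_lit 3) (nat_lit 0x400000003c000c000200000001000080000000000000000000000000000000) (nat_lit 0x0) (nat_lit 0xc00070000000000000000000000000000000000000000000000000) := T_29 (nat_lit 197) (nat_lit 196) (nat_lit 2) (nat_lit 6) (nat_lit 12) L81792 (by decide +kernel)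
theorem L81794 : W_29 (nat_lit 4) (nat_lit 0x3c000c000200000001000080000000000000000000000000000000) (nat_lit 0x0) (nat_lit 0x40002000c00070000000000000000000000000000000000000000000000000) := T_29 (nat_lit 246) (nat_lit 229) (nat_lit 4) (nat_lit 8) (nat_lit 14) L81793 (by decide +kernel)
theorem L81810 : W_29 (nat_lit 2) (nat_lit 0xc001c000300000001000080000000000000000000000000000000) (nat_lit 0x0) (nat_lit 0x20000c0000000000000000000000000000000000000000000) := D_29 (nat_lit 175) (nat_lit 174) (nat_lit 193) (nat_lit 3) (nat_lit 4) (nat_lit 10) (nat_lit 0) (nat_lit 9) (nat_lit 11) (by decide +kernel)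
theorem L81811 : W_29 (nat_lit 3) (nat_lit 0xc000c000300000001000080000000000000000000000000000000) (nat_lit 0x0) (nat_lit 0x320000c0000000000000000000000000000000000000000000) := T_29 (nat_lit 196) (nat_lit 197) (nat_lit 1) (nat_lit 10) (nat_lit 11) L81810 (by decide +kernel)
theorem L81812 : W_29 (nat_lit 2) (nat_lit 0x80003c000c000300000001000080000000000000000000000000000000) (nat_lit 0x0) (nat_lit 0x10000c00000000000000000000000000000000000000000000000000000) := D_29 (nat_lit 214) (nat_lit 215) (nat_lit 232) (nat_lit 0) (nat_lit 11) (nat_lit 12) (nat_lit 3) (nat_lit 7) (nat_lit 12) (by decide +kernel)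
theorem L81813 : W_29 (nat_lit 3) (nat_lit 0x3c000c000300000001000080000000000000000000000000000000) (nat_lit 0x0) (nat_lit 0x1c000c00000000000000000000000000000000000000000000000000000) := T_29 (nat_lit 231) (nat_lit 230) (nat_lit 3) (nat_lit 6) (nat_lit 12) L81812 (by decide +kernel)
theorem L81814 : W_29 (nat_lit 2) (nat_lit 0x60001c000c000700000001000080000000000000000000000000000000) (nat_lit 0x0) (nat_lit 0x18000200000000000000000000000000000000000000000000000000000) := D_29 (nat_lit 231) (nat_lit 213) (nat_lit 232) (nat_lit 3) (nat_lit 6) (nat_lit 12) (nat_lit 0) (nat_lit 11) (nat_lit 13) (by decide +kernel)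
theorem L81815 : W_29 (nat_lit 3) (nat_lit 0x20001c000c000700000001000080000000000000000000000000000000) (nat_lit 0x0) (nat_lit 0x8001c000200000000000000000000000000000000000000000000000000000) := T_29 (nat_lit 230) (nat_lit 247) (nat_lit 7) (nat_lit 8) (nat_lit 10) L81814 (by decide +kernel)
theorem L81816 : W_29 (nat_lit 4) (nat_lit 0x1c000c000700000001000080000000000000000000000000000000) (nat_lit 0x0) (nat_lit 0xc001e000200000000000000000000000000000000000000000000000000000) := T_29 (nat_lit 229) (nat_lit 246) (nat_lit 4) (nat_lit 8) (nat_lit 14) L81815 (by decide +kernel)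
theorem L81817 : W_29 (nat_lit 5) (nat_lit 0x2c000c000200000001000080000000000000000000000000000000) (nat_lit 0x0) (nat_lit 0x10000c001e000d00070000400000000000000000000000000000000000000000000) := Q_29 (nat_lit 212) (C_29 L81794 (C_29 L81786 (C_29 L81791 N_29))) (by decide +kernel)
theorem L81818 : W_29 (nat_lit 5) (nat_lit 0x2c000c000200000001000080000000000000000000000000000000) (nat_lit 0x0) (nat_lit 0x5001ec00d00003000000000000000000000000000000000000000000000000) := Q_29 (nat_lit 212) (C_29 L81788 (C_29 L81786 N_29)) (by decide +kernel)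
theorem L81819 : W_29 (nat_lit 2) (nat_lit 0x2c001f000a00000001000080000000000000000000000000000000) (nat_lit 0x0) (nat_lit 0x1c0000000000000000000000000000000000000000000) := D_29 (nat_lit 175) (nat_lit 176) (nat_lit 174) (nat_lit 0) (nat_lit 9) (nat_lit 11) (nat_lit 0) (nat_lit 8) (nat_lit 11) (by decide +kernel)
theorem L81820 : W_29 (nat_lit 3) (nat_lit 0x2c001e000a00000001000080000000000000000000000000000000) (nat_lit 0x0) (nat_lit 0x10005c0000000000000000000000000000000000000000000) := T_29 (nat_lit 192) (nat_lit 178) (nat_lit 2) (nat_lit 5) (nat_lit 11) L81819 (by decide +kernel)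
theorem L81821 : W_29 (nat_lit 4) (nat_lit 0x2c001e000200000001000080000000000000000000000000000000) (nat_lit 0x0) (nat_lit 0x1001dc0000000000000000000000000000000000000000000) := T_29 (nat_lit 179) (nat_lit 180) (nat_lit 2) (nat_lit 6) (nat_lit 11) L81820 (by decide +kernel)
theorem L81822 : W_29 (nat_lit 5) (nat_lit 0x2c001c000200000001000080000000000000000000000000000000) (nat_lit 0x0) (nat_lit 0x400003001dc0000000000000000000000000000000000000000000) := T_29 (nat_lit 193) (nat_lit 214) (nat_lit 3) (nat_lit 6) (nat_lit 11) L81821 (by decide +kernel)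
theorem L81823 : W_29 (nat_lit 6) (nat_lit 0x2c000c000200000001000080000000000000000000000000000000) (nat_lit 0x0) (nat_lit 0x400033001dc0000000000000000000000000000000000000000000) := T_29 (nat_lit 196) (nat_lit 197) (nat_lit 1) (nat_lit 10) (nat_lit 11) L81822 (by decide +kernel)
theorem L81824 : W_29 (nat_lit 5) (nat_lit 0x2c000c000200000001000080000000000000000000000000000000) (nat_lit 0x0) (nat_lit 0x100009000cc00100033000400000000000000000000000000000000000000000000) := Q_29 (nat_lit 212) (C_29 L81788 (C_29 L81791 N_29)) (by decide +kernel)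
theorem L81825 : W_29 (nat_lit 7) (nat_lit 0xc000c000200000001000080000000000000000000000000000000) (nat_lit 0x0) (nat_lit 0x10000d001ec00f00073001dc0000000000000000000000000000000000000000000) := Q_29 (nat_lit 213) (C_29 L81817 (C_29 L81818 (C_29 L81823 (C_29 L81824 N_29)))) (by decide +kernel)
theorem L81826 : W_29 (nat_lit 2) (nat_lit 0x400004001e000d000200000001000080000000000000000000000000000000) (nat_lit 0x0) (nat_lit 0x800200002000000000000000000000000000000000000000000000000) := D_29 (nat_lit 213) (nat_lit 193) (nat_lit 227) (nat_lit 3) (nat_lit 5) (nat_lit 11) (nat_lit 1) (nat_lit 9) (nat_lit 12) (by decide +kernel)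
theorem L81827 : W_29 (nat_lit 3) (nat_lit 0x400000001e000d000200000001000080000000000000000000000000000000) (nat_lit 0x0) (nat_lit 0xe00200002000000000000000000000000000000000000000000000000) := T_29 (nat_lit 226) (nat_lit 225) (nat_lit 1) (nat_lit 8) (nat_lit 12) L81826 (by decide +kernel)
theorem L81828 : W_29 (nat_lit 4) (nat_lit 0x400000001e000c000200000001000080000000000000000000000000000000) (nat_lit 0x0) (nat_lit 0xe00200003800000000000000000000000000000000000000000000000) := T_29 (nat_lit 192) (nat_lit 191) (nat_lit 0) (nat_lit 8) (nat_lit 12) L81827 (by decide +kernel)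
theorem L81829 : W_29 (nat_lit 5) (nat_lit 0x1e000c000200000001000080000000000000000000000000000000) (nat_lit 0x0) (nat_lit 0x40002e00200003800000000000000000000000000000000000000000000000) := T_29 (nat_lit 246) (nat_lit 229) (nat_lit 4) (nat_lit 8) (nat_lit 14) L81828 (by decide +kernel)
theorem L81830 : W_29 (nat_lit 6) (nat_lit 0x1c000c000200000001000080000000000000000000000000000000) (nat_lit 0x0) (nat_lit 0x40002e00230003800000000000000000000000000000000000000000000000) := T_29 (nat_lit 209) (nat_lit 208) (nat_lit 2) (nat_lit 4) (nat_lit 12) L81829 (by decide +kernel)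
theorem L81831 : W_29 (nat_lit 8) (nat_lit 0xc000c000200000001000080000000000000000000000000000000) (nat_lit 0x0) (nat_lit 0x5001ee00f30003800000000000000000000000000000000000000000000000) := Q_29 (nat_lit 212) (C_29 L18712 (C_29 L81789 (C_29 L81610 (C_29 L81830 N_29)))) (by decide +kernel)
theorem L81832 : W_29 (nat_lit 9) (nat_lit 0xc0004000200000001000080000000000000000000000000000000) (nat_lit 0x0) (nat_lit 0x10000d001ee00f3007b801dc0000000000000000000000000000000000000000000) := Q_29 (nat_lit 195) (C_29 L81825 (C_29 L9036 (C_29 L19598 (C_29 L81831 N_29)))) (by decide +kernel)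
theorem L81833 : W_29 (nat_lit 10) (nat_lit 0x80004000200000001000080000000000000000000000000000000) (nat_lit 0x0) (nat_lit 0x1b000d801ef00f7807bc01dc0010000000000000000000000000000000000000000) := Q_29 (nat_lit 210) (C_29 L81832 (C_29 L79503 (C_29 L6744 (C_29 L79493 N_29)))) (by decide +kernel)
theorem L81835 : W_29 (nat_lit 2) (nat_lit 0x2000100038000c000200000001000080000000000000000000000000000000) (nat_lit 0x0) (nat_lit 0x800c00000000000000000000000000000000000000000000000000000) := D_29 (nat_lit 214) (nat_lit 215) (nat_lit 227) (nat_lit 0) (nat_lit 11) (nat_lit 12) (nat_lit 1) (nat_lit 10) (nat_lit 12) (by decide +kernel)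
theorem L81836 : W_29 (nat_lit 2) (nat_lit 0x2000100038002c000340000001000080000000000000000000000000000000) (nat_lit 0x0) (nat_lit 0xc00040000000000000000000000000000000000000000000000000) := D_29 (nat_lit 214) (nat_lit 215) (nat_lit 198) (nat_lit 0) (nat_lit 11) (nat_lit 12) (nat_lit 2) (nat_lit 7) (nat_lit 12) (by decide +kernel)
theorem L81837 : W_29 (nat_lit 3) (nat_lit 0x2000100038000c000340000001000080000000000000000000000000000000) (nat_lit 0x0) (nat_lit 0xc00070000000000000000000000000000000000000000000000000) := T_29 (nat_lit 197) (nat_lit 196) (nat_lit 0) (nat_lit 10) (nat_lit 11) L81836 (by decide +kernel)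
theorem L81838 : W_29 (nat_lit 4) (nat_lit 0x2000100038000c000300000001000080000000000000000000000000000000) (nat_lit 0x0) (nat_lit 0xc000700000c0000000000000000000000000000000000000000000) := T_29 (nat_lit 174) (nat_lit 175) (nat_lit 3) (nat_lit 4) (nat_lit 10) L81837 (by decide +kernel)
theorem L81839 : W_29 (nat_lit 5) (nat_lit 0x2000100038000c000200000001000080000000000000000000000000000000) (nat_lit 0x0) (nat_lit 0xc000700001c0008000000000000000000000000000000000000000) := T_29 (nat_lit 176) (nat_lit 159) (nat_lit 4) (nat_lit 7) (nat_lit 13) L81838 (by decide +kernel)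
theorem L81840 : W_29 (nat_lit 2) (nat_lit 0xa00058003c001c000340000001000080000000000000000000000000000000) (nat_lit 0x0) (nat_lit 0x2000100002000000000000000000000000000000000000000000000000000000000) := D_29 (nat_lit 248) (nat_lit 265) (nat_lit 229) (nat_lit 7) (nat_lit 9) (nat_lit 11) (nat_lit 3) (nat_lit 6) (nat_lit 13) (by decide +kernel)
theorem L81841 : W_29 (nat_lit 3) (nat_lit 0xa00050003c001c000340000001000080000000000000000000000000000000) (nat_lit 0x0) (nat_lit 0x2000100002c00000000000000000000000000000000000000000000000000000000) := T_29 (nat_lit 227) (nat_lit 226) (nat_lit 1) (nat_lit 9) (nat_lit 12) L81840 (by decide +kernel)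
theorem L81842 : W_29 (nat_lit 4) (nat_lit 0x200050003c001c000340000001000080000000000000000000000000000000) (nat_lit 0x0) (nat_lit 0x3000180002c00000000000000000000000000000000000000000000000000000000) := T_29 (nat_lit 247) (nat_lit 264) (nat_lit 4) (nat_lit 9) (nat_lit 15) L81841 (by decide +kernel)
theorem L81843 : W_29 (nat_lit 5) (nat_lit 0x200010003c001c000340000001000080000000000000000000000000000000) (nat_lit 0x0) (nat_lit 0x300018000ec00000000000000000000000000000000000000000000000000000000) := T_29 (nat_lit 230) (nat_lit 231) (nat_lit 3) (nat_lit 6) (nat_lit 12) L81842 (by decide +kernel)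
theorem L81844 : W_29 (nat_lit 6) (nat_lit 0x2000100038001c000340000001000080000000000000000000000000000000) (nat_lit 0x0) (nat_lit 0x300018000ec00060000000000000000000000000000000000000000000000000000) := T_29 (nat_lit 210) (nat_lit 209) (nat_lit 2) (nat_lit 5) (nat_lit 12) L81843 (by decide +kernel)
theorem L81845 : W_29 (nat_lit 7) (nat_lit 0x2000100038000c000340000001000080000000000000000000000000000000) (nat_lit 0x0) (nat_lit 0x300018000ec00060030000000000000000000000000000000000000000000000000) := T_29 (nat_lit 196) (nat_lit 197) (nat_lit 0) (nat_lit 10) (nat_lit 11) L81844 (by decide +kernel)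
theorem L81846 : W_29 (nat_lit 8) (nat_lit 0x2000100038000c000300000001000080000000000000000000000000000000) (nat_lit 0x0) (nat_lit 0x300018000ec000600300000c0000000000000000000000000000000000000000000) := T_29 (nat_lit 174) (nat_lit 175) (nat_lit 3) (nat_lit 4) (nat_lit 10) L81845 (by decide +kernel)
theorem L81847 : W_29 (nat_lit 9) (nat_lit 0x2000100038000c000200000001000080000000000000000000000000000000) (nat_lit 0x0) (nat_lit 0x300018000ec000600300001c0008000000000000000000000000000000000000000) := T_29 (nat_lit 176) (nat_lit 159) (nat_lit 4) (nat_lit 7) (nat_lit 13) L81846 (by decide +kernel)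
theorem L81848 : W_29 (nat_lit 10) (nat_lit 0x2000100018000c000200000001000080000000000000000000000000000000) (nat_lit 0x0) (nat_lit 0x300018000ec00e600700001c0008000000000000000000000000000000000000000) := Q_29 (nat_lit 213) (C_29 L81835 (C_29 L81839 (C_29 L81847 N_29))) (by decide +kernel)
theorem L81852 : W_29 (nat_lit 2) (nat_lit 0x80007e002c0004000300000001000080000000000000000000000000000000) (nat_lit 0x0) (nat_lit 0xe000000000000000000000000000000000000000000000000000000000000) := D_29 (nat_lit 242) (nat_lit 243) (nat_lit 241) (nat_lit 1) (nat_lit 8) (nat_lit 13) (nat_lit 1) (nat_lit 7) (nat_lit 13) (by decide +kernel)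
theorem L81853 : W_29 (nat_lit 3) (nat_lit 0x80007c002c0004000300000001000080000000000000000000000000000000) (nat_lit 0x0) (nat_lit 0xe000300000000000000000000000000000000000000000000000000000000) := T_29 (nat_lit 225) (nat_lit 224) (nat_lit 2) (nat_lit 3) (nat_lit 13) L81852 (by decide +kernel)
theorem L81854 : W_29 (nat_lit 4) (nat_lit 0x800078002c0004000300000001000080000000000000000000000000000000) (nat_lit 0x0) (nat_lit 0xe000700100000000000000000000000000000000000000000000000000000) := T_29 (nat_lit 226) (nat_lit 212) (nat_lit 2) (nat_lit 5) (nat_lit 13) L81853 (by decide +kernel)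
theorem L81855 : W_29 (nat_lit 5) (nat_lit 0x800078000c0004000300000001000080000000000000000000000000000000) (nat_lit 0x0) (nat_lit 0xe000700700000000000000000000000000000000000000000000000000000) := T_29 (nat_lit 213) (nat_lit 214) (nat_lit 2) (nat_lit 6) (nat_lit 13) L81854 (by decide +kernel)
theorem L81856 : W_29 (nat_lit 6) (nat_lit 0x78000c0004000300000001000080000000000000000000000000000000) (nat_lit 0x0) (nat_lit 0x18e000700700000000000000000000000000000000000000000000000000000) := T_29 (nat_lit 247) (nat_lit 248) (nat_lit 3) (nat_lit 6) (nat_lit 13) L81855 (by decide +kernel)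
theorem L81857 : W_29 (nat_lit 7) (nat_lit 0x78000c0004000200000001000080000000000000000000000000000000) (nat_lit 0x0) (nat_lit 0x18e000700700000000100008000000000000000000000000000000000000000) := T_29 (nat_lit 176) (nat_lit 159) (nat_lit 4) (nat_lit 7) (nat_lit 13) L81856 (by decide +kernel)
theorem L81858 : W_29 (nat_lit 8) (nat_lit 0x38000c0004000200000001000080000000000000000000000000000000) (nat_lit 0x0) (nat_lit 0x18e00c700700000000100008000000000000000000000000000000000000000) := T_29 (nat_lit 230) (nat_lit 231) (nat_lit 0) (nat_lit 10) (nat_lit 13) L81857 (by decide +kernel)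
theorem L81859 : W_29 (nat_lit 9) (nat_lit 0x18000c0004000200000001000080000000000000000000000000000000) (nat_lit 0x0) (nat_lit 0x1ce00e700700000000100008000000000000000000000000000000000000000) := T_29 (nat_lit 229) (nat_lit 246) (nat_lit 7) (nat_lit 7) (nat_lit 10) L81858 (by decide +kernel)
theorem L81860 : W_29 (nat_lit 10) (nat_lit 0x10000c0004000200000001000080000000000000000000000000000000) (nat_lit 0x0) (nat_lit 0x1de00ef00700000000100008000000000000000000000000000000000000000) := T_29 (nat_lit 227) (nat_lit 244) (nat_lit 5) (nat_lit 7) (nat_lit 10) L81859 (by decide +kernel)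
theorem L81861 : W_29 (nat_lit 2) (nat_lit 0x10000f0004000300000001000080000000000000000000000000000000) (nat_lit 0x0) (nat_lit 0x10000800008000000000000000000000000000000000000000000000000000) := D_29 (nat_lit 227) (nat_lit 207) (nat_lit 244) (nat_lit 3) (nat_lit 3) (nat_lit 12) (nat_lit 5) (nat_lit 7) (nat_lit 10) (by decide +kernel)
theorem L81862 : W_29 (nat_lit 3) (nat_lit 0x10000e0004000300000001000080000000000000000000000000000000) (nat_lit 0x0) (nat_lit 0x10002800018000000000000000000000000000000000000000000000000000) := T_29 (nat_lit 208) (nat_lit 229) (nat_lit 3) (nat_lit 4) (nat_lit 12) L81861 (by decide +kernel)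
theorem L81863 : W_29 (nat_lit 4) (nat_lit 0x10000e0004000200000001000080000000000000000000000000000000) (nat_lit 0x0) (nat_lit 0x10002800018000000100008000000000000000000000000000000000000000) := T_29 (nat_lit 176) (nat_lit 159) (nat_lit 4) (nat_lit 7) (nat_lit 13) L81862 (by decide +kernel)
theorem L81880 : W_29 (nat_lit 2) (nat_lit 0x18000c001c000200000001000080000000000000000000000000000000) (nat_lit 0x0) (nat_lit 0x130000000000000000000000000000000000000000000000000000) := D_29 (nat_lit 209) (nat_lit 208) (nat_lit 212) (nat_lit 2) (nat_lit 4) (nat_lit 12) (nat_lit 2) (nat_lit 5) (nat_lit 12) (by decide +kernel)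
theorem L81881 : W_29 (nat_lit 3) (nat_lit 0x18000c000c000200000001000080000000000000000000000000000000) (nat_lit 0x0) (nat_lit 0x130030000000000000000000000000000000000000000000000000) := T_29 (nat_lit 196) (nat_lit 197) (nat_lit 1) (nat_lit 10) (nat_lit 11) L81880 (by decide +kernel)
theorem L81882 : W_29 (nat_lit 4) (nat_lit 0x10000c000c000200000001000080000000000000000000000000000000) (nat_lit 0x0) (nat_lit 0x10000800130030000000000000000000000000000000000000000000000000) := T_29 (nat_lit 227) (nat_lit 244) (nat_lit 5) (nat_lit 7) (nat_lit 10) L81881 (by decide +kernel)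
theorem L81883 : W_29 (nat_lit 2) (nat_lit 0x10000d000c000380000001000080000000000000000000000000000000) (nat_lit 0x0) (nat_lit 0x30000400000000000000000000000000000000000000000000) := D_29 (nat_lit 196) (nat_lit 197) (nat_lit 178) (nat_lit 1) (nat_lit 10) (nat_lit 11) (nat_lit 3) (nat_lit 5) (nat_lit 10) (by decide +kernel)
theorem L81884 : W_29 (nat_lit 3) (nat_lit 0x10000d000c000300000001000080000000000000000000000000000000) (nat_lit 0x0) (nat_lit 0x300004c0000000000000000000000000000000000000000000) := T_29 (nat_lit 175) (nat_lit 174) (nat_lit 3) (nat_lit 4) (nat_lit 10) L81883 (by decide +kernel)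
theorem L81885 : W_29 (nat_lit 4) (nat_lit 0x10000d000c000200000001000080000000000000000000000000000000) (nat_lit 0x0) (nat_lit 0x300005c0008000000000000000000000000000000000000000) := T_29 (nat_lit 176) (nat_lit 159) (nat_lit 4) (nat_lit 7) (nat_lit 13) L81884 (by decide +kernel)
theorem L81886 : W_29 (nat_lit 5) (nat_lit 0x10000c000c000200000001000080000000000000000000000000000000) (nat_lit 0x0) (nat_lit 0x300300005c0008000000000000000000000000000000000000000) := T_29 (nat_lit 208) (nat_lit 209) (nat_lit 2) (nat_lit 4) (nat_lit 12) L81885 (by decide +kernel)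
theorem L81887 : W_29 (nat_lit 2) (nat_lit 0x18000c000c000380000001000080000000000000000000000000000000) (nat_lit 0x0) (nat_lit 0x30000400000000000000000000000000000000000000000000) := D_29 (nat_lit 196) (nat_lit 197) (nat_lit 178) (nat_lit 1) (nat_lit 10) (nat_lit 11) (nat_lit 3) (nat_lit 5) (nat_lit 10) (by decide +kernel)
theorem L81888 : W_29 (nat_lit 3) (nat_lit 0x18000c000c000300000001000080000000000000000000000000000000) (nat_lit 0x0) (nat_lit 0x300004c0000000000000000000000000000000000000000000) := T_29 (nat_lit 175) (nat_lit 174) (nat_lit 3) (nat_lit 4) (nat_lit 10) L81887 (by decide +kernel)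
theorem L81889 : W_29 (nat_lit 4) (nat_lit 0x18000c000c000200000001000080000000000000000000000000000000) (nat_lit 0x0) (nat_lit 0x300005c0008000000000000000000000000000000000000000) := T_29 (nat_lit 176) (nat_lit 159) (nat_lit 4) (nat_lit 7) (nat_lit 13) L81888 (by decide +kernel)
theorem L81890 : W_29 (nat_lit 5) (nat_lit 0x10000c000c000200000001000080000000000000000000000000000000) (nat_lit 0x0) (nat_lit 0x100008000000300005c0008000000000000000000000000000000000000000) := T_29 (nat_lit 227) (nat_lit 244) (nat_lit 5) (nat_lit 7) (nat_lit 10) L81889 (by decide +kernel)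
theorem L81893 : W_29 (nat_lit 2) (nat_lit 0x300008000c000700000001000080000000000000000000000000000000) (nat_lit 0x0) (nat_lit 0x100000c0000000000000000000000000000000000000000000) := D_29 (nat_lit 175) (nat_lit 196) (nat_lit 174) (nat_lit 3) (nat_lit 5) (nat_lit 10) (nat_lit 3) (nat_lit 4) (nat_lit 10) (by decide +kernel)
theorem L81894 : W_29 (nat_lit 3) (nat_lit 0x300008000c000600000001000080000000000000000000000000000000) (nat_lit 0x0) (nat_lit 0x100001c0008000000000000000000000000000000000000000) := T_29 (nat_lit 176) (nat_lit 159) (nat_lit 4) (nat_lit 7) (nat_lit 13) L81893 (by decide +kernel)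
theorem L81895 : W_29 (nat_lit 4) (nat_lit 0x300008000c000200000001000080000000000000000000000000000000) (nat_lit 0x0) (nat_lit 0x200000000000100005c0008000000000000000000000000000000000000000) := T_29 (nat_lit 178) (nat_lit 245) (nat_lit 6) (nat_lit 7) (nat_lit 14) L81894 (by decide +kernel)
theorem L81896 : W_29 (nat_lit 5) (nat_lit 0x100008000c000200000001000080000000000000000000000000000000) (nat_lit 0x0) (nat_lit 0x600020000000100005c0008000000000000000000000000000000000000000) := T_29 (nat_lit 229) (nat_lit 246) (nat_lit 7) (nat_lit 7) (nat_lit 10) L81895 (by decide +kernel)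
theorem L81897 : W_29 (nat_lit 2) (nat_lit 0x2000100018000c000340000001000080000000000000000000000000000000) (nat_lit 0x0) (nat_lit 0x800040002000000000000000000000000000000000000000000000000000000000) := D_29 (nat_lit 246) (nat_lit 229) (nat_lit 263) (nat_lit 7) (nat_lit 7) (nat_lit 10) (nat_lit 7) (nat_lit 7) (nat_lit 11) (by decide +kernel)
theorem L81898 : W_29 (nat_lit 3) (nat_lit 0x100018000c000340000001000080000000000000000000000000000000) (nat_lit 0x0) (nat_lit 0xc00060002000000000000000000000000000000000000000000000000000000000) := T_29 (nat_lit 245) (nat_lit 262) (nat_lit 6) (nat_lit 7) (nat_lit 15) L81897 (by decide +kernel)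
theorem L81899 : W_29 (nat_lit 4) (nat_lit 0x100018000c000300000001000080000000000000000000000000000000) (nat_lit 0x0) (nat_lit 0xc000600020000000000000c0000000000000000000000000000000000000000000) := T_29 (nat_lit 174) (nat_lit 175) (nat_lit 3) (nat_lit 4) (nat_lit 10) L81898 (by decide +kernel)
theorem L81900 : W_29 (nat_lit 5) (nat_lit 0x100018000c000200000001000080000000000000000000000000000000) (nat_lit 0x0) (nat_lit 0xc000600020000000000001c0008000000000000000000000000000000000000000) := T_29 (nat_lit 176) (nat_lit 159) (nat_lit 4) (nat_lit 7) (nat_lit 13) L81899 (by decide +kernel)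
theorem L81901 : W_29 (nat_lit 11) (nat_lit 0x100018000c000200000001000080000000000000000000000000000000) (nat_lit 0x0) (nat_lit 0x34001a000ec00e600700001c0008000000000000000000000000000000000000000) := T_29 (nat_lit 245) (nat_lit 262) (nat_lit 6) (nat_lit 7) (nat_lit 15) L81848 (by decide +kernel)
theorem L81902 : W_29 (nat_lit 2) (nat_lit 0x100038000c000200000001000080000000000000000000000000000000) (nat_lit 0x0) (nat_lit 0x800c00000000000000000000000000000000000000000000000000000) := D_29 (nat_lit 214) (nat_lit 215) (nat_lit 227) (nat_lit 0) (nat_lit 11) (nat_lit 12) (nat_lit 1) (nat_lit 10) (nat_lit 12) (by decide +kernel)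
theorem L81903 : W_29 (nat_lit 2) (nat_lit 0x100038002c000340000001000080000000000000000000000000000000) (nat_lit 0x0) (nat_lit 0xc00040000000000000000000000000000000000000000000000000) := D_29 (nat_lit 214) (nat_lit 215) (nat_lit 198) (nat_lit 0) (nat_lit 11) (nat_lit 12) (nat_lit 2) (nat_lit 7) (nat_lit 12) (by decide +kernel)
theorem L81904 : W_29 (nat_lit 3) (nat_lit 0x100038000c000340000001000080000000000000000000000000000000) (nat_lit 0x0) (nat_lit 0xc00070000000000000000000000000000000000000000000000000) := T_29 (nat_lit 197) (nat_lit 196) (nat_lit 0) (nat_lit 10) (nat_lit 11) L81903 (by decide +kernel)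
theorem L81905 : W_29 (nat_lit 4) (nat_lit 0x100038000c000300000001000080000000000000000000000000000000) (nat_lit 0x0) (nat_lit 0xc000700000c0000000000000000000000000000000000000000000) := T_29 (nat_lit 174) (nat_lit 175) (nat_lit 3) (nat_lit 4) (nat_lit 10) L81904 (by decide +kernel)
theorem L81906 : W_29 (nat_lit 5) (nat_lit 0x100038000c000200000001000080000000000000000000000000000000) (nat_lit 0x0) (nat_lit 0xc000700001c0008000000000000000000000000000000000000000) := T_29 (nat_lit 176) (nat_lit 159) (nat_lit 4) (nat_lit 7) (nat_lit 13) L81905 (by decide +kernel)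
theorem L81907 : W_29 (nat_lit 2) (nat_lit 0xe00018003c001c000340000001000080000000000000000000000000000000) (nat_lit 0x0) (nat_lit 0x100000000c000000000000000000000000000000000000000000000000000000000) := D_29 (nat_lit 230) (nat_lit 231) (nat_lit 264) (nat_lit 3) (nat_lit 6) (nat_lit 12) (nat_lit 4) (nat_lit 9) (nat_lit 15) (by decide +kernel)
theorem L81908 : W_29 (nat_lit 3) (nat_lit 0x600018003c001c000340000001000080000000000000000000000000000000) (nat_lit 0x0) (nat_lit 0x100018000c000000000000000000000000000000000000000000000000000000000) := T_29 (nat_lit 247) (nat_lit 248) (nat_lit 0) (nat_lit 10) (nat_lit 14) L81907 (by decide +kernel)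
theorem L81909 : W_29 (nat_lit 4) (nat_lit 0x600010003c001c000340000001000080000000000000000000000000000000) (nat_lit 0x0) (nat_lit 0x100018000cc00000000000000000000000000000000000000000000000000000000) := T_29 (nat_lit 227) (nat_lit 226) (nat_lit 1) (nat_lit 9) (nat_lit 12) L81908 (by decide +kernel)
theorem L81910 : W_29 (nat_lit 5) (nat_lit 0x200010003c001c000340000001000080000000000000000000000000000000) (nat_lit 0x0) (nat_lit 0x18001c000cc00000000000000000000000000000000000000000000000000000000) := T_29 (nat_lit 246) (nat_lit 263) (nat_lit 7) (nat_lit 7) (nat_lit 11) L81909 (by decide +kernel)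
theorem L81911 : W_29 (nat_lit 6) (nat_lit 0x2000100038001c000340000001000080000000000000000000000000000000) (nat_lit 0x0) (nat_lit 0x18001c000cc00060000000000000000000000000000000000000000000000000000) := T_29 (nat_lit 210) (nat_lit 209) (nat_lit 2) (nat_lit 5) (nat_lit 12) L81910 (by decide +kernel)
theorem L81912 : W_29 (nat_lit 7) (nat_lit 0x100038001c000340000001000080000000000000000000000000000000) (nat_lit 0x0) (nat_lit 0x1c001e000cc00060000000000000000000000000000000000000000000000000000) := T_29 (nat_lit 245) (nat_lit 262) (nat_lit 6) (nat_lit 7) (nat_lit 15) L81911 (by decide +kernel)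
theorem L81913 : W_29 (nat_lit 8) (nat_lit 0x100038000c000340000001000080000000000000000000000000000000) (nat_lit 0x0) (nat_lit 0x1c001e000cc00060030000000000000000000000000000000000000000000000000) := T_29 (nat_lit 196) (nat_lit 197) (nat_lit 0) (nat_lit 10) (nat_lit 11) L81912 (by decide +kernel)
theorem L81914 : W_29 (nat_lit 9) (nat_lit 0x100038000c000300000001000080000000000000000000000000000000) (nat_lit 0x0) (nat_lit 0x1c001e000cc000600300000c0000000000000000000000000000000000000000000) := T_29 (nat_lit 174) (nat_lit 175) (nat_lit 3) (nat_lit 4) (nat_lit 10) L81913 (by decide +kernel)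
theorem L81915 : W_29 (nat_lit 10) (nat_lit 0x100038000c000200000001000080000000000000000000000000000000) (nat_lit 0x0) (nat_lit 0x1c001e000cc000600300001c0008000000000000000000000000000000000000000) := T_29 (nat_lit 176) (nat_lit 159) (nat_lit 4) (nat_lit 7) (nat_lit 13) L81914 (by decide +kernel)
theorem L81916 : W_29 (nat_lit 11) (nat_lit 0x100018000c000200000001000080000000000000000000000000000000) (nat_lit 0x0) (nat_lit 0x1c001e000cc00e600700001c0008000000000000000000000000000000000000000) := Q_29 (nat_lit 213) (C_29 L81902 (C_29 L81906 (C_29 L81915 N_29))) (by decide +kernel)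
theorem L81917 : W_29 (nat_lit 2) (nat_lit 0x400050003c001c000340000001000080000000000000000000000000000000) (nat_lit 0x0) (nat_lit 0x1800080000000000000000000000000000000000000000000000000000000000000) := D_29 (nat_lit 247) (nat_lit 264) (nat_lit 263) (nat_lit 4) (nat_lit 9) (nat_lit 15) (nat_lit 5) (nat_lit 9) (nat_lit 11) (by decide +kernel)
theorem L81918 : W_29 (nat_lit 3) (nat_lit 0x400010003c001c000340000001000080000000000000000000000000000000) (nat_lit 0x0) (nat_lit 0x180008000c000000000000000000000000000000000000000000000000000000000) := T_29 (nat_lit 230) (nat_lit 231) (nat_lit 3) (nat_lit 6) (nat_lit 12) L81917 (by decide +kernel)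
theorem L81919 : W_29 (nat_lit 4) (nat_lit 0x4000100038001c000340000001000080000000000000000000000000000000) (nat_lit 0x0) (nat_lit 0x180008000c000060000000000000000000000000000000000000000000000000000) := T_29 (nat_lit 210) (nat_lit 209) (nat_lit 2) (nat_lit 5) (nat_lit 12) L81918 (by decide +kernel)
theorem L81920 : W_29 (nat_lit 5) (nat_lit 0x4000100038000c000340000001000080000000000000000000000000000000) (nat_lit 0x0) (nat_lit 0x180008000c000060030000000000000000000000000000000000000000000000000) := T_29 (nat_lit 196) (nat_lit 197) (nat_lit 0) (nat_lit 10) (nat_lit 11) L81919 (by decide +kernel)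
theorem L81921 : W_29 (nat_lit 6) (nat_lit 0x4000100038000c000300000001000080000000000000000000000000000000) (nat_lit 0x0) (nat_lit 0x180008000c0000600300000c0000000000000000000000000000000000000000000) := T_29 (nat_lit 174) (nat_lit 175) (nat_lit 3) (nat_lit 4) (nat_lit 10) L81920 (by decide +kernel)
theorem L81922 : W_29 (nat_lit 7) (nat_lit 0x4000100038000c000200000001000080000000000000000000000000000000) (nat_lit 0x0) (nat_lit 0x180008000c0000600300001c0008000000000000000000000000000000000000000) := T_29 (nat_lit 176) (nat_lit 159) (nat_lit 4) (nat_lit 7) (nat_lit 13) L81921 (by decide +kernel)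
theorem L81923 : W_29 (nat_lit 8) (nat_lit 0x100038000c000200000001000080000000000000000000000000000000) (nat_lit 0x0) (nat_lit 0x18000c000e0000600300001c0008000000000000000000000000000000000000000) := T_29 (nat_lit 246) (nat_lit 229) (nat_lit 7) (nat_lit 7) (nat_lit 10) L81922 (by decide +kernel)
theorem L81924 : W_29 (nat_lit 9) (nat_lit 0x100018000c000200000001000080000000000000000000000000000000) (nat_lit 0x0) (nat_lit 0x18000c000e800e600700001c0008000000000000000000000000000000000000000) := Q_29 (nat_lit 213) (C_29 L81906 (C_29 L81902 (C_29 L81923 N_29))) (by decide +kernel)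
theorem L81925 : W_29 (nat_lit 12) (nat_lit 0x100008000c000200000001000080000000000000000000000000000000) (nat_lit 0x0) (nat_lit 0x3c001e000ec00f600700001c0008000000000000000000000000000000000000000) := Q_29 (nat_lit 212) (C_29 L81900 (C_29 L18270 (C_29 L81901 (C_29 L81916 (C_29 L81924 N_29))))) (by decide +kernel)
theorem L81926 : W_29 (nat_lit 2) (nat_lit 0x100008000c000380000001000080000000000000000000000000000000) (nat_lit 0x0) (nat_lit 0x30000400000000000000000000000000000000000000000000) := D_29 (nat_lit 196) (nat_lit 197) (nat_lit 178) (nat_lit 0) (nat_lit 10) (nat_lit 11) (nat_lit 3) (nat_lit 5) (nat_lit 10) (by decide +kernel)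
theorem L81927 : W_29 (nat_lit 3) (nat_lit 0x100008000c000300000001000080000000000000000000000000000000) (nat_lit 0x0) (nat_lit 0x300004c0000000000000000000000000000000000000000000) := T_29 (nat_lit 175) (nat_lit 174) (nat_lit 3) (nat_lit 4) (nat_lit 10) L81926 (by decide +kernel)
theorem L81928 : W_29 (nat_lit 4) (nat_lit 0x100008000c000200000001000080000000000000000000000000000000) (nat_lit 0x0) (nat_lit 0x300005c0008000000000000000000000000000000000000000) := T_29 (nat_lit 176) (nat_lit 159) (nat_lit 4) (nat_lit 7) (nat_lit 13) L81927 (by decide +kernel)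
theorem L81929 : W_29 (nat_lit 13) (nat_lit 0x1000080004000200000001000080000000000000000000000000000000) (nat_lit 0x0) (nat_lit 0x3c001e000ec00f600780005c0008000000000000000000000000000000000000000) := Q_29 (nat_lit 195) (C_29 L81896 (C_29 L81925 (C_29 L20132 (C_29 L81928 N_29)))) (by decide +kernel)
theorem L81931 : W_29 (nat_lit 2) (nat_lit 0x40003c002c000200000001000080000000000000000000000000000000) (nat_lit 0x0) (nat_lit 0xc00040000000000000000000000000000000000000000000000000) := D_29 (nat_lit 214) (nat_lit 215) (nat_lit 198) (nat_lit 0) (nat_lit 11) (nat_lit 12) (nat_lit 2) (nat_lit 7) (nat_lit 12) (by decide +kernel)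
theorem L81932 : W_29 (nat_lit 3) (nat_lit 0x40003c000c000200000001000080000000000000000000000000000000) (nat_lit 0x0) (nat_lit 0xc00070000000000000000000000000000000000000000000000000) := T_29 (nat_lit 197) (nat_lit 196) (nat_lit 2) (nat_lit 6) (nat_lit 12) L81931 (by decide +kernel)
theorem L81933 : W_29 (nat_lit 4) (nat_lit 0x3c000c000200000001000080000000000000000000000000000000) (nat_lit 0x0) (nat_lit 0xc000c00070000000000000000000000000000000000000000000000000) := T_29 (nat_lit 230) (nat_lit 231) (nat_lit 3) (nat_lit 6) (nat_lit 12) L81932 (by decide +kernel)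
theorem L81934 : W_29 (nat_lit 2) (nat_lit 0x800040003c001c000200000001000080000000000000000000000000000000) (nat_lit 0x0) (nat_lit 0x800040002000000000000000000000000000000000000000000000000000000000) := D_29 (nat_lit 246) (nat_lit 229) (nat_lit 263) (nat_lit 4) (nat_lit 8) (nat_lit 14) (nat_lit 5) (nat_lit 9) (nat_lit 11) (by decide +kernel)
theorem L81935 : W_29 (nat_lit 3) (nat_lit 0x40003c001c000200000001000080000000000000000000000000000000) (nat_lit 0x0) (nat_lit 0x18000c0002000000000000000000000000000000000000000000000000000000000) := T_29 (nat_lit 247) (nat_lit 264) (nat_lit 4) (nat_lit 9) (nat_lit 15) L81934 (by decide +kernel)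
theorem L81936 : W_29 (nat_lit 4) (nat_lit 0x40003c000c000200000001000080000000000000000000000000000000) (nat_lit 0x0) (nat_lit 0x18000c0002000000030000000000000000000000000000000000000000000000000) := T_29 (nat_lit 196) (nat_lit 197) (nat_lit 2) (nat_lit 6) (nat_lit 12) L81935 (by decide +kernel)
theorem L81937 : W_29 (nat_lit 5) (nat_lit 0x3c000c000200000001000080000000000000000000000000000000) (nat_lit 0x0) (nat_lit 0x18000c000e000000030000000000000000000000000000000000000000000000000) := T_29 (nat_lit 230) (nat_lit 231) (nat_lit 3) (nat_lit 6) (nat_lit 12) L81936 (by decide +kernel)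
theorem L81938 : W_29 (nat_lit 2) (nat_lit 0x3c002c000200000001000080000000000000000000000000000000) (nat_lit 0x0) (nat_lit 0xc00040000000000000000000000000000000000000000000000000) := D_29 (nat_lit 214) (nat_lit 215) (nat_lit 198) (nat_lit 0) (nat_lit 11) (nat_lit 12) (nat_lit 2) (nat_lit 7) (nat_lit 12) (by decide +kernel)
theorem L81939 : W_29 (nat_lit 2) (nat_lit 0x2000000068003c000c000200000001000080000000000000000000000000000000) (nat_lit 0x0) (nat_lit 0x1000080000000000000000400000000000000000000000000000000000000000000) := D_29 (nat_lit 247) (nat_lit 178) (nat_lit 264) (nat_lit 7) (nat_lit 8) (nat_lit 10) (nat_lit 4) (nat_lit 9) (nat_lit 15) (by decide +kernel)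
theorem L81940 : W_29 (nat_lit 3) (nat_lit 0x2000000028003c000c000200000001000080000000000000000000000000000000) (nat_lit 0x0) (nat_lit 0x100008000c000000000000400000000000000000000000000000000000000000000) := T_29 (nat_lit 230) (nat_lit 231) (nat_lit 3) (nat_lit 6) (nat_lit 12) L81939 (by decide +kernel)
theorem L81941 : W_29 (nat_lit 4) (nat_lit 0x28003c000c000200000001000080000000000000000000000000000000) (nat_lit 0x0) (nat_lit 0x120009000c000000000000400000000000000000000000000000000000000000000) := T_29 (nat_lit 261) (nat_lit 244) (nat_lit 6) (nat_lit 6) (nat_lit 15) L81940 (by decide +kernel)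
theorem L81942 : W_29 (nat_lit 5) (nat_lit 0x8003c000c000200000001000080000000000000000000000000000000) (nat_lit 0x0) (nat_lit 0x12000d000e000000000000400000000000000000000000000000000000000000000) := T_29 (nat_lit 229) (nat_lit 246) (nat_lit 4) (nat_lit 8) (nat_lit 14) L81941 (by decide +kernel)
theorem L81943 : W_29 (nat_lit 6) (nat_lit 0x3c000c000200000001000080000000000000000000000000000000) (nat_lit 0x0) (nat_lit 0x12000d000ec00000000000400000000000000000000000000000000000000000000) := T_29 (nat_lit 227) (nat_lit 226) (nat_lit 1) (nat_lit 9) (nat_lit 12) L81942 (by decide +kernel)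
theorem L81947 : W_29 (nat_lit 2) (nat_lit 0x800000002000380034000200040001000080000000000000000000000000000000) (nat_lit 0x0) (nat_lit 0x4000c0000000000000000000000000000000000000000000000000) := D_29 (nat_lit 198) (nat_lit 199) (nat_lit 214) (nat_lit 1) (nat_lit 12) (nat_lit 11) (nat_lit 2) (nat_lit 7) (nat_lit 12) (by decide +kernel)
theorem L81948 : W_29 (nat_lit 3) (nat_lit 0x800000002000380014000200040001000080000000000000000000000000000000) (nat_lit 0x0) (nat_lit 0x4400e0000000000000000000000000000000000000000000000000) := T_29 (nat_lit 197) (nat_lit 210) (nat_lit 2) (nat_lit 6) (nat_lit 12) L81947 (by decide +kernel)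
theorem L81949 : W_29 (nat_lit 4) (nat_lit 0x800000002000380014000200000001000080000000000000000000000000000000) (nat_lit 0x0) (nat_lit 0x4400e0000800040000000000000000000000000000000000000000) := T_29 (nat_lit 162) (nat_lit 179) (nat_lit 5) (nat_lit 9) (nat_lit 9) L81948 (by decide +kernel)
theorem L81950 : W_29 (nat_lit 5) (nat_lit 0x2000380014000200000001000080000000000000000000000000000000) (nat_lit 0x0) (nat_lit 0x8000400000004400e0000800040000000000000000000000000000000000000000) := T_29 (nat_lit 263) (nat_lit 246) (nat_lit 6) (nat_lit 8) (nat_lit 15) L81949 (by decide +kernel)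
theorem L81951 : W_29 (nat_lit 2) (nat_lit 0x2000380034000200000001000080000000000000000000000000000000) (nat_lit 0x0) (nat_lit 0x4000c0000000000000000000000000000000000000000000000000) := D_29 (nat_lit 198) (nat_lit 199) (nat_lit 214) (nat_lit 1) (nat_lit 12) (nat_lit 11) (nat_lit 2) (nat_lit 7) (nat_lit 12) (by decide +kernel)
theorem L81952 : W_29 (nat_lit 3) (nat_lit 0x2000380014000200000001000080000000000000000000000000000000) (nat_lit 0x0) (nat_lit 0x4400e0000000000000000000000000000000000000000000000000) := T_29 (nat_lit 197) (nat_lit 210) (nat_lit 2) (nat_lit 6) (nat_lit 12) L81951 (by decide +kernel)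
theorem L81953 : W_29 (nat_lit 2) (nat_lit 0x2000380014000a00000001000080000000000000000000000000000000) (nat_lit 0x0) (nat_lit 0x800040004000000000000000000000000000000000000000000000000000000000) := D_29 (nat_lit 246) (nat_lit 263) (nat_lit 230) (nat_lit 6) (nat_lit 8) (nat_lit 15) (nat_lit 5) (nat_lit 9) (nat_lit 10) (by decide +kernel)
theorem L81954 : W_29 (nat_lit 3) (nat_lit 0x2000380014000200000001000080000000000000000000000000000000) (nat_lit 0x0) (nat_lit 0x800040004000000000000800040000000000000000000000000000000000000000) := T_29 (nat_lit 179) (nat_lit 162) (nat_lit 5) (nat_lit 9) (nat_lit 9) L81953 (by decide +kernel)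
theorem L81955 : W_29 (nat_lit 6) (nat_lit 0x2000380004000200000001000080000000000000000000000000000000) (nat_lit 0x0) (nat_lit 0x8000400040004400f0000800040000000000000000000000000000000000000000) := Q_29 (nat_lit 196) (C_29 L81950 (C_29 L81952 (C_29 L81954 N_29))) (by decide +kernel)
theorem L81956 : W_29 (nat_lit 2) (nat_lit 0x40002000780014000200000001000080000000000000000000000000000000) (nat_lit 0x0) (nat_lit 0x4000000000000800040000000000000000000000000000000000000000) := D_29 (nat_lit 179) (nat_lit 162) (nat_lit 230) (nat_lit 5) (nat_lit 9) (nat_lit 9) (nat_lit 5) (nat_lit 9) (nat_lit 10) (by decide +kernel)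
theorem L81957 : W_29 (nat_lit 3) (nat_lit 0x2000780014000200000001000080000000000000000000000000000000) (nat_lit 0x0) (nat_lit 0x800040004000000000000800040000000000000000000000000000000000000000) := T_29 (nat_lit 246) (nat_lit 263) (nat_lit 6) (nat_lit 8) (nat_lit 15) L81956 (by decide +kernel)
theorem L81958 : W_29 (nat_lit 2) (nat_lit 0x80000000a000780014000a00000001000080000000000000000000000000000000) (nat_lit 0x0) (nat_lit 0x2000100000000000020000000000000000000000000000000000000000000000000) := D_29 (nat_lit 248) (nat_lit 265) (nat_lit 197) (nat_lit 4) (nat_lit 10) (nat_lit 15) (nat_lit 4) (nat_lit 10) (nat_lit 14) (by decide +kernel)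
theorem L81959 : W_29 (nat_lit 3) (nat_lit 0x80000000a000780014000200000001000080000000000000000000000000000000) (nat_lit 0x0) (nat_lit 0x2000100000000000020000800040000000000000000000000000000000000000000) := T_29 (nat_lit 179) (nat_lit 162) (nat_lit 7) (nat_lit 9) (nat_lit 9) L81958 (by decide +kernel)
theorem L81960 : W_29 (nat_lit 4) (nat_lit 0x800000002000780014000200000001000080000000000000000000000000000000) (nat_lit 0x0) (nat_lit 0x2000100018000000020000800040000000000000000000000000000000000000000) := T_29 (nat_lit 231) (nat_lit 232) (nat_lit 3) (nat_lit 7) (nat_lit 12) L81959 (by decide +kernel)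
theorem L81961 : W_29 (nat_lit 5) (nat_lit 0x2000780014000200000001000080000000000000000000000000000000) (nat_lit 0x0) (nat_lit 0x2800140018000000020000800040000000000000000000000000000000000000000) := T_29 (nat_lit 263) (nat_lit 246) (nat_lit 6) (nat_lit 8) (nat_lit 15) L81960 (by decide +kernel)
theorem L81962 : W_29 (nat_lit 2) (nat_lit 0x80038000a000780034000200000001000080000000000000000000000000000000) (nat_lit 0x0) (nat_lit 0x400004000000000001000000000000000000000000000000000000000000000) := D_29 (nat_lit 230) (nat_lit 180) (nat_lit 250) (nat_lit 6) (nat_lit 9) (nat_lit 14) (nat_lit 0) (nat_lit 12) (nat_lit 14) (by decide +kernel)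
theorem L81963 : W_29 (nat_lit 3) (nat_lit 0x80030000a000780034000200000001000080000000000000000000000000000000) (nat_lit 0x0) (nat_lit 0x1000480004000000000001000000000000000000000000000000000000000000000) := T_29 (nat_lit 247) (nat_lit 264) (nat_lit 5) (nat_lit 10) (nat_lit 11) L81962 (by decide +kernel)
theorem L81964 : W_29 (nat_lit 4) (nat_lit 0x80010000a000780034000200000001000080000000000000000000000000000000) (nat_lit 0x0) (nat_lit 0x5000680004000000000001000000000000000000000000000000000000000000000) := T_29 (nat_lit 249) (nat_lit 266) (nat_lit 7) (nat_lit 10) (nat_lit 11) L81963 (by decide +kernel)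
theorem L81965 : W_29 (nat_lit 5) (nat_lit 0x80010000a000780014000200000001000080000000000000000000000000000000) (nat_lit 0x0) (nat_lit 0x5000680004000000060001000000000000000000000000000000000000000000000) := T_29 (nat_lit 197) (nat_lit 198) (nat_lit 2) (nat_lit 7) (nat_lit 12) L81964 (by decide +kernel)
theorem L81966 : W_29 (nat_lit 6) (nat_lit 0x80000000a000780014000200000001000080000000000000000000000000000000) (nat_lit 0x0) (nat_lit 0x7000780004000000060001000000000000000000000000000000000000000000000) := T_29 (nat_lit 248) (nat_lit 265) (nat_lit 4) (nat_lit 10) (nat_lit 15) L81965 (by decide +kernel)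
theorem L81967 : W_29 (nat_lit 7) (nat_lit 0x800000002000780014000200000001000080000000000000000000000000000000) (nat_lit 0x0) (nat_lit 0x700078001c000000060001000000000000000000000000000000000000000000000) := T_29 (nat_lit 231) (nat_lit 232) (nat_lit 3) (nat_lit 7) (nat_lit 12) L81966 (by decide +kernel)
theorem L81968 : W_29 (nat_lit 8) (nat_lit 0x2000780014000200000001000080000000000000000000000000000000) (nat_lit 0x0) (nat_lit 0x78007c001c000000060001000000000000000000000000000000000000000000000) := T_29 (nat_lit 263) (nat_lit 246) (nat_lit 6) (nat_lit 8) (nat_lit 15) L81967 (by decide +kernel)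
theorem L81969 : W_29 (nat_lit 2) (nat_lit 0x18000a0007800340012000c0001000080000000000000000000000000000000) (nat_lit 0x0) (nat_lit 0x2000100008000000000000000000000000000000000000) := D_29 (nat_lit 164) (nat_lit 181) (nat_lit 147) (nat_lit 6) (nat_lit 10) (nat_lit 13) (nat_lit 6) (nat_lit 10) (nat_lit 12) (by decide +kernel)
theorem L81970 : W_29 (nat_lit 3) (nat_lit 0x18000a000780034001200040001000080000000000000000000000000000000) (nat_lit 0x0) (nat_lit 0x200018000c000000000000000000000000000000000000) := T_29 (nat_lit 163) (nat_lit 146) (nat_lit 5) (nat_lit 10) (nat_lit 8) L81969 (by decide +kernel)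
theorem L81971 : W_29 (nat_lit 4) (nat_lit 0x18000a000780034000200040001000080000000000000000000000000000000) (nat_lit 0x0) (nat_lit 0x400000000000300018000c000000000000000000000000000000000000) := T_29 (nat_lit 180) (nat_lit 230) (nat_lit 6) (nat_lit 9) (nat_lit 14) L81970 (by decide +kernel)
theorem L81972 : W_29 (nat_lit 5) (nat_lit 0x10000a000780034000200040001000080000000000000000000000000000000) (nat_lit 0x0) (nat_lit 0x100008000400000000000300018000c000000000000000000000000000000000000) := T_29 (nat_lit 247) (nat_lit 264) (nat_lit 5) (nat_lit 10) (nat_lit 11) L81971 (by decide +kernel)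
theorem L81973 : W_29 (nat_lit 6) (nat_lit 0xa000780034000200040001000080000000000000000000000000000000) (nat_lit 0x0) (nat_lit 0x300018000400000000000300018000c000000000000000000000000000000000000) := T_29 (nat_lit 248) (nat_lit 265) (nat_lit 4) (nat_lit 10) (nat_lit 15) L81972 (by decide +kernel)
theorem L81974 : W_29 (nat_lit 7) (nat_lit 0x2000780034000200040001000080000000000000000000000000000000) (nat_lit 0x0) (nat_lit 0x300018001c00000000000300018000c000000000000000000000000000000000000) := T_29 (nat_lit 231) (nat_lit 232) (nat_lit 3) (nat_lit 7) (nat_lit 12) L81973 (by decide +kernel)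
theorem L81975 : W_29 (nat_lit 8) (nat_lit 0x2000780034000200000001000080000000000000000000000000000000) (nat_lit 0x0) (nat_lit 0x300018001c0000000000038001c000c000000000000000000000000000000000000) := T_29 (nat_lit 162) (nat_lit 179) (nat_lit 5) (nat_lit 9) (nat_lit 9) L81974 (by decide +kernel)
theorem L81976 : W_29 (nat_lit 9) (nat_lit 0x2000780014000200000001000080000000000000000000000000000000) (nat_lit 0x0) (nat_lit 0x300018001c0000000600038001c000c000000000000000000000000000000000000) := T_29 (nat_lit 197) (nat_lit 198) (nat_lit 2) (nat_lit 7) (nat_lit 12) L81975 (by decide +kernel)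
theorem L81977 : W_29 (nat_lit 10) (nat_lit 0x2000780004000200000001000080000000000000000000000000000000) (nat_lit 0x0) (nat_lit 0x78007c001c0000000700038001c000c000000000000000000000000000000000000) := Q_29 (nat_lit 196) (C_29 L81957 (C_29 L81961 (C_29 L81968 (C_29 L81976 N_29)))) (by decide +kernel)
theorem L81978 : W_29 (nat_lit 2) (nat_lit 0x20000d00048003c0014000200000001000080000000000000000000000000000000) (nat_lit 0x0) (nat_lit 0x40001000020000000000000000000000000000000000000000000000000000000000000) := D_29 (nat_lit 264) (nat_lit 245) (nat_lit 282) (nat_lit 3) (nat_lit 6) (nat_lit 14) (nat_lit 7) (nat_lit 9) (nat_lit 12) (by decide +kernel)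
theorem L81979 : W_29 (nat_lit 3) (nat_lit 0xd00048003c0014000200000001000080000000000000000000000000000000) (nat_lit 0x0) (nat_lit 0x40003000120000000000000000000000000000000000000000000000000000000000000) := T_29 (nat_lit 265) (nat_lit 248) (nat_lit 7) (nat_lit 9) (nat_lit 11) L81978 (by decide +kernel)
theorem L81980 : W_29 (nat_lit 4) (nat_lit 0x500048003c0014000200000001000080000000000000000000000000000000) (nat_lit 0x0) (nat_lit 0x400038001a0000000000000000000000000000000000000000000000000000000000000) := T_29 (nat_lit 247) (nat_lit 263) (nat_lit 5) (nat_lit 9) (nat_lit 11) L81979 (by decide +kernel)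
theorem L81981 : W_29 (nat_lit 5) (nat_lit 0x500048003c0004000200000001000080000000000000000000000000000000) (nat_lit 0x0) (nat_lit 0x400038001a0000000000030000000000000000000000000000000000000000000000000) := T_29 (nat_lit 196) (nat_lit 197) (nat_lit 2) (nat_lit 6) (nat_lit 12) L81980 (by decide +kernel)
theorem L81982 : W_29 (nat_lit 6) (nat_lit 0x400048003c0004000200000001000080000000000000000000000000000000) (nat_lit 0x0) (nat_lit 0x40003a001b0000000000030000000000000000000000000000000000000000000000000) := T_29 (nat_lit 244) (nat_lit 261) (nat_lit 6) (nat_lit 6) (nat_lit 15) L81981 (by decide +kernel)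
theorem L81983 : W_29 (nat_lit 7) (nat_lit 0x400008003c0004000200000001000080000000000000000000000000000000) (nat_lit 0x0) (nat_lit 0x40003a001b000c000000030000000000000000000000000000000000000000000000000) := T_29 (nat_lit 230) (nat_lit 231) (nat_lit 3) (nat_lit 6) (nat_lit 12) L81982 (by decide +kernel)
theorem L81984 : W_29 (nat_lit 8) (nat_lit 0x400000003c0004000200000001000080000000000000000000000000000000) (nat_lit 0x0) (nat_lit 0x40003a001b000cc00000030000000000000000000000000000000000000000000000000) := T_29 (nat_lit 227) (nat_lit 226) (nat_lit 1) (nat_lit 9) (nat_lit 12) L81983 (by decide +kernel)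
theorem L81985 : W_29 (nat_lit 4) (nat_lit 0x8000380004000200000001000080000000000000000000000000000000) (nat_lit 0x0) (nat_lit 0x14000440070000000000000000000000000000000000000000000000000) := T_29 (nat_lit 210) (nat_lit 230) (nat_lit 3) (nat_lit 6) (nat_lit 12) L79025 (by decide +kernel)
theorem L81986 : W_29 (nat_lit 2) (nat_lit 0xc000780024000200000001000080000000000000000000000000000000) (nat_lit 0x0) (nat_lit 0x80000000000000001000080000000000000000000000000000000000000000) := D_29 (nat_lit 180) (nat_lit 163) (nat_lit 247) (nat_lit 5) (nat_lit 10) (nat_lit 9) (nat_lit 5) (nat_lit 10) (nat_lit 10) (by decide +kernel)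
theorem L81987 : W_29 (nat_lit 3) (nat_lit 0x8000780024000200000001000080000000000000000000000000000000) (nat_lit 0x0) (nat_lit 0x80004000040000001000080000000000000000000000000000000000000000) := T_29 (nat_lit 230) (nat_lit 210) (nat_lit 3) (nat_lit 6) (nat_lit 12) L81986 (by decide +kernel)
theorem L81988 : W_29 (nat_lit 4) (nat_lit 0x8000780004000200000001000080000000000000000000000000000000) (nat_lit 0x0) (nat_lit 0x80004000040060001000080000000000000000000000000000000000000000) := T_29 (nat_lit 197) (nat_lit 198) (nat_lit 2) (nat_lit 7) (nat_lit 12) L81987 (by decide +kernel)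
theorem L81989 : W_29 (nat_lit 5) (nat_lit 0x8000380004000200000001000080000000000000000000000000000000) (nat_lit 0x0) (nat_lit 0x80014000440060001000080000000000000000000000000000000000000000) := T_29 (nat_lit 214) (nat_lit 232) (nat_lit 3) (nat_lit 7) (nat_lit 12) L81988 (by decide +kernel)
theorem L81990 : W_29 (nat_lit 2) (nat_lit 0x18000380004000200000001000080000000000000000000000000000000) (nat_lit 0x0) (nat_lit 0x26000000000000000000000000000000000000000000000000000000000) := D_29 (nat_lit 230) (nat_lit 233) (nat_lit 229) (nat_lit 0) (nat_lit 12) (nat_lit 13) (nat_lit 0) (nat_lit 11) (nat_lit 13) (by decide +kernel)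
theorem L81991 : W_29 (nat_lit 3) (nat_lit 0x8000380004000200000001000080000000000000000000000000000000) (nat_lit 0x0) (nat_lit 0x36000400000000000000000000000000000000000000000000000000000) := T_29 (nat_lit 232) (nat_lit 214) (nat_lit 3) (nat_lit 7) (nat_lit 12) L81990 (by decide +kernel)
theorem L81992 : W_29 (nat_lit 2) (nat_lit 0xc000380004000200000001000080000000000000000000000000000000) (nat_lit 0x0) (nat_lit 0x32000000000000000000000000000000000000000000000000000000000) := D_29 (nat_lit 232) (nat_lit 233) (nat_lit 229) (nat_lit 0) (nat_lit 12) (nat_lit 13) (nat_lit 0) (nat_lit 11) (nat_lit 13) (by decide +kernel)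
theorem L81993 : W_29 (nat_lit 3) (nat_lit 0x8000380004000200000001000080000000000000000000000000000000) (nat_lit 0x0) (nat_lit 0x36000040000000000000000000000000000000000000000000000000000) := T_29 (nat_lit 230) (nat_lit 210) (nat_lit 3) (nat_lit 6) (nat_lit 12) L81992 (by decide +kernel)
theorem L81994 : W_29 (nat_lit 2) (nat_lit 0x8000780034000200000001000080000000000000000000000000000000) (nat_lit 0x0) (nat_lit 0x2000100000000000000000800000000000000000000000000000000000000000000) := D_29 (nat_lit 248) (nat_lit 179) (nat_lit 265) (nat_lit 4) (nat_lit 10) (nat_lit 14) (nat_lit 4) (nat_lit 10) (nat_lit 15) (by decide +kernel)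
theorem L81995 : W_29 (nat_lit 3) (nat_lit 0x8000780024000200000001000080000000000000000000000000000000) (nat_lit 0x0) (nat_lit 0x2000100000000040010000800000000000000000000000000000000000000000000) := T_29 (nat_lit 196) (nat_lit 210) (nat_lit 2) (nat_lit 6) (nat_lit 12) L81994 (by decide +kernel)
theorem L81996 : W_29 (nat_lit 4) (nat_lit 0x8000780004000200000001000080000000000000000000000000000000) (nat_lit 0x0) (nat_lit 0x2000100000000040070000800000000000000000000000000000000000000000000) := T_29 (nat_lit 197) (nat_lit 198) (nat_lit 2) (nat_lit 7) (nat_lit 12) L81995 (by decide +kernel)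
theorem L81997 : W_29 (nat_lit 5) (nat_lit 0x8000380004000200000001000080000000000000000000000000000000) (nat_lit 0x0) (nat_lit 0x2000100010000440070000800000000000000000000000000000000000000000000) := T_29 (nat_lit 214) (nat_lit 232) (nat_lit 3) (nat_lit 7) (nat_lit 12) L81996 (by decide +kernel)
theorem L81998 : W_29 (nat_lit 2) (nat_lit 0x8000380034000200000001000080000000000000000000000000000000) (nat_lit 0x0) (nat_lit 0x4000c0000000000000000000000000000000000000000000000000) := D_29 (nat_lit 198) (nat_lit 214) (nat_lit 199) (nat_lit 2) (nat_lit 7) (nat_lit 12) (nat_lit 1) (nat_lit 12) (nat_lit 11) (by decide +kernel)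
theorem L81999 : W_29 (nat_lit 2) (nat_lit 0xc000380014000a00040001000080000000000000000000000000000000) (nat_lit 0x0) (nat_lit 0x1000080004000000000000000000000000000000000000) := D_29 (nat_lit 163) (nat_lit 180) (nat_lit 146) (nat_lit 6) (nat_lit 9) (nat_lit 13) (nat_lit 6) (nat_lit 9) (nat_lit 12) (by decide +kernel)
theorem L82000 : W_29 (nat_lit 3) (nat_lit 0x8000380014000a00040001000080000000000000000000000000000000) (nat_lit 0x0) (nat_lit 0x100004000000000001000080004000000000000000000000000000000000000) := T_29 (nat_lit 230) (nat_lit 248) (nat_lit 7) (nat_lit 9) (nat_lit 10) L81999 (by decide +kernel)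
theorem L82001 : W_29 (nat_lit 4) (nat_lit 0x8000380014000a00000001000080000000000000000000000000000000) (nat_lit 0x0) (nat_lit 0x1000060000000000010000c0004000000000000000000000000000000000000) := T_29 (nat_lit 162) (nat_lit 229) (nat_lit 5) (nat_lit 9) (nat_lit 9) L82000 (by decide +kernel)
theorem L82002 : W_29 (nat_lit 2) (nat_lit 0x8000380014000a00000001000080000000000000000000000000000000) (nat_lit 0x0) (nat_lit 0x2000400000000000040000000000000000000000000000000000000000) := D_29 (nat_lit 162) (nat_lit 229) (nat_lit 214) (nat_lit 5) (nat_lit 9) (nat_lit 9) (nat_lit 7) (nat_lit 9) (nat_lit 9) (by decide +kernel)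
theorem L82003 : W_29 (nat_lit 4) (nat_lit 0x8000380014000a00000001000080000000000000000000000000000000) (nat_lit 0x0) (nat_lit 0x1000040004000000010000c0004000000000000000000000000000000000000) := T_29 (nat_lit 162) (nat_lit 214) (nat_lit 7) (nat_lit 9) (nat_lit 9) L82000 (by decide +kernel)
theorem L82004 : W_29 (nat_lit 2) (nat_lit 0xe000380034001a00000001000080000000000000000000000000000000) (nat_lit 0x0) (nat_lit 0x40000500000000000000000000000000000000000000000000) := D_29 (nat_lit 178) (nat_lit 198) (nat_lit 176) (nat_lit 3) (nat_lit 7) (nat_lit 10) (nat_lit 3) (nat_lit 6) (nat_lit 10) (by decide +kernel)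
theorem L82005 : W_29 (nat_lit 3) (nat_lit 0xe000380014001a00000001000080000000000000000000000000000000) (nat_lit 0x0) (nat_lit 0x80000000000060000500000000000000000000000000000000000000000000) := T_29 (nat_lit 197) (nat_lit 247) (nat_lit 6) (nat_lit 9) (nat_lit 14) L82004 (by decide +kernel)
theorem L82006 : W_29 (nat_lit 4) (nat_lit 0xc000380014001a00000001000080000000000000000000000000000000) (nat_lit 0x0) (nat_lit 0xc0002000000060000500000000000000000000000000000000000000000000) := T_29 (nat_lit 229) (nat_lit 246) (nat_lit 5) (nat_lit 9) (nat_lit 10) L82005 (by decide +kernel)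
theorem L82007 : W_29 (nat_lit 5) (nat_lit 0xc000380014000a00000001000080000000000000000000000000000000) (nat_lit 0x0) (nat_lit 0xc0002000000060001500080000000000000000000000000000000000000000) := T_29 (nat_lit 180) (nat_lit 163) (nat_lit 6) (nat_lit 9) (nat_lit 13) L82006 (by decide +kernel)
theorem L82008 : W_29 (nat_lit 6) (nat_lit 0x8000380014000a00000001000080000000000000000000000000000000) (nat_lit 0x0) (nat_lit 0x1c0006000000060001500080000000000000000000000000000000000000000) := T_29 (nat_lit 230) (nat_lit 248) (nat_lit 7) (nat_lit 9) (nat_lit 10) L82007 (by decide +kernel)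
theorem L82009 : W_29 (nat_lit 7) (nat_lit 0x8000380014000200000001000080000000000000000000000000000000) (nat_lit 0x0) (nat_lit 0x1c0006000400060001d000c0004000000000000000000000000000000000000) := Q_29 (nat_lit 179) (C_29 L82001 (C_29 L82002 (C_29 L82003 (C_29 L82008 N_29)))) (by decide +kernel)
theorem L82010 : W_29 (nat_lit 2) (nat_lit 0x8000380014000200000001000080000000000000000000000000000000) (nat_lit 0x0) (nat_lit 0x4000040020000000000000000000000000000000000000000000000000) := D_29 (nat_lit 210) (nat_lit 197) (nat_lit 230) (nat_lit 2) (nat_lit 6) (nat_lit 12) (nat_lit 3) (nat_lit 6) (nat_lit 12) (by decide +kernel)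
theorem L82011 : W_29 (nat_lit 2) (nat_lit 0xc000380014000a00000001000080000000000000000000000000000000) (nat_lit 0x0) (nat_lit 0x2000400000000000040000000000000000000000000000000000000000) := D_29 (nat_lit 162) (nat_lit 214) (nat_lit 229) (nat_lit 7) (nat_lit 9) (nat_lit 9) (nat_lit 5) (nat_lit 9) (nat_lit 9) (by decide +kernel)
theorem L82012 : W_29 (nat_lit 3) (nat_lit 0xc000380014000200000001000080000000000000000000000000000000) (nat_lit 0x0) (nat_lit 0x100002000400000000800040000000000000000000000000000000000000000) := T_29 (nat_lit 179) (nat_lit 248) (nat_lit 7) (nat_lit 9) (nat_lit 10) L82011 (by decide +kernel)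
theorem L82013 : W_29 (nat_lit 4) (nat_lit 0x8000380014000200000001000080000000000000000000000000000000) (nat_lit 0x0) (nat_lit 0x100006000440000000800040000000000000000000000000000000000000000) := T_29 (nat_lit 230) (nat_lit 210) (nat_lit 3) (nat_lit 6) (nat_lit 12) L82012 (by decide +kernel)
theorem L82014 : W_29 (nat_lit 3) (nat_lit 0x8000380014000200000001000080000000000000000000000000000000) (nat_lit 0x0) (nat_lit 0x4400e0000000000000000000000000000000000000000000000000) := T_29 (nat_lit 197) (nat_lit 210) (nat_lit 2) (nat_lit 6) (nat_lit 12) L81998 (by decide +kernel)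
theorem L82015 : W_29 (nat_lit 8) (nat_lit 0x8000380004000200000001000080000000000000000000000000000000) (nat_lit 0x0) (nat_lit 0x1c00060004400f0001d000c0004000000000000000000000000000000000000) := Q_29 (nat_lit 196) (C_29 L82009 (C_29 L82010 (C_29 L82013 (C_29 L82014 N_29)))) (by decide +kernel)
theorem L82016 : W_29 (nat_lit 9) (nat_lit 0x380004000200000001000080000000000000000000000000000000) (nat_lit 0x0) (nat_lit 0x20001c003e0004400f0001d000c0004000000000000000000000000000000000000) := Q_29 (nat_lit 231) (C_29 L81985 (C_29 L81989 (C_29 L81991 (C_29 L81993 (C_29 L81997 (C_29 L82015 N_29)))))) (by decide +kernel)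
theorem L82017 : W_29 (nat_lit 5) (nat_lit 0x780004000200000001000080000000000000000000000000000000) (nat_lit 0x0) (nat_lit 0x8001c000040060001000080000000000000000000000000000000000000000) := T_29 (nat_lit 231) (nat_lit 232) (nat_lit 3) (nat_lit 7) (nat_lit 12) L81988 (by decide +kernel)
theorem L82018 : W_29 (nat_lit 6) (nat_lit 0x380004000200000001000080000000000000000000000000000000) (nat_lit 0x0) (nat_lit 0x8003c000c400e8001000080000000000000000000000000000000000000000) := Q_29 (nat_lit 214) (C_29 L80632 (C_29 L82017 (C_29 L80612 N_29))) (by decide +kernel)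
theorem L82019 : W_29 (nat_lit 2) (nat_lit 0x10000780044000200000001000080000000000000000000000000000000) (nat_lit 0x0) (nat_lit 0x20000800080000000000000000000000000000000000000000000000000) := D_29 (nat_lit 215) (nat_lit 233) (nat_lit 199) (nat_lit 3) (nat_lit 8) (nat_lit 12) (nat_lit 2) (nat_lit 8) (nat_lit 12) (by decide +kernel)
theorem L82020 : W_29 (nat_lit 3) (nat_lit 0x10000780004000200000001000080000000000000000000000000000000) (nat_lit 0x0) (nat_lit 0x200008000e0000000000000000000000000000000000000000000000000) := T_29 (nat_lit 198) (nat_lit 197) (nat_lit 2) (nat_lit 7) (nat_lit 12) L82019 (by decide +kernel)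
theorem L82021 : W_29 (nat_lit 4) (nat_lit 0x780004000200000001000080000000000000000000000000000000) (nat_lit 0x0) (nat_lit 0x380008000e0000000000000000000000000000000000000000000000000) := T_29 (nat_lit 232) (nat_lit 231) (nat_lit 3) (nat_lit 7) (nat_lit 12) L82020 (by decide +kernel)
theorem L82022 : W_29 (nat_lit 2) (nat_lit 0x2000780004000200000001000080000000000000000000000000000000) (nat_lit 0x0) (nat_lit 0x800040000000000008000000000000000000000000000000000000000000000000) := D_29 (nat_lit 246) (nat_lit 263) (nat_lit 195) (nat_lit 4) (nat_lit 8) (nat_lit 15) (nat_lit 4) (nat_lit 8) (nat_lit 14) (by decide +kernel)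
theorem L82023 : W_29 (nat_lit 2) (nat_lit 0xa000780014000a00000001000080000000000000000000000000000000) (nat_lit 0x0) (nat_lit 0x2000100004000000000000000000000000000000000000000000000000000000000) := D_29 (nat_lit 248) (nat_lit 230) (nat_lit 265) (nat_lit 7) (nat_lit 9) (nat_lit 10) (nat_lit 4) (nat_lit 10) (nat_lit 15) (by decide +kernel)
theorem L82024 : W_29 (nat_lit 3) (nat_lit 0x2000780014000a00000001000080000000000000000000000000000000) (nat_lit 0x0) (nat_lit 0x200010001c000000000000000000000000000000000000000000000000000000000) := T_29 (nat_lit 231) (nat_lit 232) (nat_lit 3) (nat_lit 7) (nat_lit 12) L82023 (by decide +kernel)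
theorem L82025 : W_29 (nat_lit 4) (nat_lit 0x2000780014000200000001000080000000000000000000000000000000) (nat_lit 0x0) (nat_lit 0x200010001c000000000000800040000000000000000000000000000000000000000) := T_29 (nat_lit 179) (nat_lit 162) (nat_lit 5) (nat_lit 9) (nat_lit 9) L82024 (by decide +kernel)
theorem L82026 : W_29 (nat_lit 2) (nat_lit 0x200000000a00078003c001200000001000080000000000000000000000000000000) (nat_lit 0x0) (nat_lit 0x4000000000000000080004000000000000000000000000000000000000) := D_29 (nat_lit 163) (nat_lit 146) (nat_lit 230) (nat_lit 5) (nat_lit 10) (nat_lit 8) (nat_lit 5) (nat_lit 10) (nat_lit 9) (by decide +kernel)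
theorem L82027 : W_29 (nat_lit 3) (nat_lit 0x200000000a00078003c000200000001000080000000000000000000000000000000) (nat_lit 0x0) (nat_lit 0x4000000000003000080004000000000000000000000000000000000000) := T_29 (nat_lit 180) (nat_lit 181) (nat_lit 2) (nat_lit 7) (nat_lit 11) L82026 (by decide +kernel)
theorem L82028 : W_29 (nat_lit 4) (nat_lit 0x200000000a000780034000200000001000080000000000000000000000000000000) (nat_lit 0x0) (nat_lit 0x4000000008003100080004000000000000000000000000000000000000) := T_29 (nat_lit 195) (nat_lit 176) (nat_lit 0) (nat_lit 10) (nat_lit 11) L82027 (by decide +kernel)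
theorem L82029 : W_29 (nat_lit 5) (nat_lit 0x200000000a000780014000200000001000080000000000000000000000000000000) (nat_lit 0x0) (nat_lit 0x4000000068003100080004000000000000000000000000000000000000) := T_29 (nat_lit 197) (nat_lit 198) (nat_lit 2) (nat_lit 7) (nat_lit 12) L82028 (by decide +kernel)
theorem L82030 : W_29 (nat_lit 6) (nat_lit 0xa000780014000200000001000080000000000000000000000000000000) (nat_lit 0x0) (nat_lit 0x2000100004000000068003100080004000000000000000000000000000000000000) := T_29 (nat_lit 265) (nat_lit 248) (nat_lit 4) (nat_lit 10) (nat_lit 15) L82029 (by decide +kernel)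
theorem L82031 : W_29 (nat_lit 7) (nat_lit 0x2000780014000200000001000080000000000000000000000000000000) (nat_lit 0x0) (nat_lit 0x200010001c000000068003100080004000000000000000000000000000000000000) := T_29 (nat_lit 231) (nat_lit 232) (nat_lit 3) (nat_lit 7) (nat_lit 12) L82030 (by decide +kernel)
theorem L82032 : W_29 (nat_lit 2) (nat_lit 0x200078003c001200040001000080000000000000000000000000000000) (nat_lit 0x0) (nat_lit 0x4000000000000000080004000000000000000000000000000000000000) := D_29 (nat_lit 163) (nat_lit 146) (nat_lit 230) (nat_lit 5) (nat_lit 10) (nat_lit 8) (nat_lit 5) (nat_lit 10) (nat_lit 9) (by decide +kernel)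
theorem L82033 : W_29 (nat_lit 3) (nat_lit 0x200078003c000200040001000080000000000000000000000000000000) (nat_lit 0x0) (nat_lit 0x4000000000003000080004000000000000000000000000000000000000) := T_29 (nat_lit 180) (nat_lit 181) (nat_lit 2) (nat_lit 7) (nat_lit 11) L82032 (by decide +kernel)
theorem L82034 : W_29 (nat_lit 4) (nat_lit 0x200078003c000200000001000080000000000000000000000000000000) (nat_lit 0x0) (nat_lit 0x40000000000038000c0004000000000000000000000000000000000000) := T_29 (nat_lit 162) (nat_lit 179) (nat_lit 5) (nat_lit 9) (nat_lit 9) L82033 (by decide +kernel)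
theorem L82035 : W_29 (nat_lit 5) (nat_lit 0x2000780034000200000001000080000000000000000000000000000000) (nat_lit 0x0) (nat_lit 0x40000000080039000c0004000000000000000000000000000000000000) := T_29 (nat_lit 195) (nat_lit 176) (nat_lit 0) (nat_lit 10) (nat_lit 11) L82034 (by decide +kernel)
theorem L82036 : W_29 (nat_lit 6) (nat_lit 0x2000780014000200000001000080000000000000000000000000000000) (nat_lit 0x0) (nat_lit 0x40000000680039000c0004000000000000000000000000000000000000) := T_29 (nat_lit 197) (nat_lit 198) (nat_lit 2) (nat_lit 7) (nat_lit 12) L82035 (by decide +kernel)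
theorem L82037 : W_29 (nat_lit 2) (nat_lit 0xa000780014000a00000001000080000000000000000000000000000000) (nat_lit 0x0) (nat_lit 0x100000000000060000000000000000000000000000000000000000000000000) := D_29 (nat_lit 197) (nat_lit 198) (nat_lit 248) (nat_lit 2) (nat_lit 7) (nat_lit 12) (nat_lit 4) (nat_lit 10) (nat_lit 14) (by decide +kernel)
theorem L82038 : W_29 (nat_lit 3) (nat_lit 0x2000780014000a00000001000080000000000000000000000000000000) (nat_lit 0x0) (nat_lit 0x100018000000060000000000000000000000000000000000000000000000000) := T_29 (nat_lit 231) (nat_lit 232) (nat_lit 3) (nat_lit 7) (nat_lit 12) L82037 (by decide +kernel)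
theorem L82039 : W_29 (nat_lit 4) (nat_lit 0x2000780014000200000001000080000000000000000000000000000000) (nat_lit 0x0) (nat_lit 0x100018000000060000800040000000000000000000000000000000000000000) := T_29 (nat_lit 179) (nat_lit 162) (nat_lit 5) (nat_lit 9) (nat_lit 9) L82038 (by decide +kernel)
theorem L82040 : W_29 (nat_lit 8) (nat_lit 0x2000780004000200000001000080000000000000000000000000000000) (nat_lit 0x0) (nat_lit 0x200010001c0000000780039000c0004000000000000000000000000000000000000) := Q_29 (nat_lit 196) (C_29 L82025 (C_29 L82031 (C_29 L82036 (C_29 L82039 N_29)))) (by decide +kernel)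
theorem L82041 : W_29 (nat_lit 11) (nat_lit 0x780004000200000001000080000000000000000000000000000000) (nat_lit 0x0) (nat_lit 0x78007c001e0000000780039001c000c000000000000000000000000000000000000) := Q_29 (nat_lit 229) (C_29 L82022 (C_29 L81977 (C_29 L82040 N_29))) (by decide +kernel)
theorem L82042 : W_29 (nat_lit 12) (nat_lit 0x380004000200000001000080000000000000000000000000000000) (nat_lit 0x0) (nat_lit 0x78007c003e000c000f80039001c000c000000000000000000000000000000000000) := Q_29 (nat_lit 214) (C_29 L80632 (C_29 L82021 (C_29 L80612 (C_29 L82041 N_29)))) (by decide +kernel)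
theorem L82043 : W_29 (nat_lit 2) (nat_lit 0x4003e0004000200000001000080000000000000000000000000000000) (nat_lit 0x0) (nat_lit 0x10018000000000000000000000000000000000000000000000000) := D_29 (nat_lit 195) (nat_lit 208) (nat_lit 196) (nat_lit 2) (nat_lit 4) (nat_lit 12) (nat_lit 2) (nat_lit 5) (nat_lit 12) (by decide +kernel)
theorem L82044 : W_29 (nat_lit 3) (nat_lit 0x4003c0004000200000001000080000000000000000000000000000000) (nat_lit 0x0) (nat_lit 0x200030018000000000000000000000000000000000000000000000000) := T_29 (nat_lit 209) (nat_lit 225) (nat_lit 1) (nat_lit 8) (nat_lit 12) L82043 (by decide +kernel)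
theorem L82045 : W_29 (nat_lit 4) (nat_lit 0x3c0004000200000001000080000000000000000000000000000000) (nat_lit 0x0) (nat_lit 0xe00030018000000000000000000000000000000000000000000000000) := T_29 (nat_lit 226) (nat_lit 227) (nat_lit 1) (nat_lit 9) (nat_lit 12) L82044 (by decide +kernel)
theorem L82046 : W_29 (nat_lit 2) (nat_lit 0x7c0004000200000001000080000000000000000000000000000000) (nat_lit 0x0) (nat_lit 0x1c000000000000000000000000000000000000000000000000000000000) := D_29 (nat_lit 231) (nat_lit 230) (nat_lit 232) (nat_lit 3) (nat_lit 6) (nat_lit 12) (nat_lit 3) (nat_lit 7) (nat_lit 12) (by decide +kernel)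
theorem L82047 : W_29 (nat_lit 2) (nat_lit 0x200000020800fc0084000200000001000080000000000000000000000000000000) (nat_lit 0x0) (nat_lit 0x40001000100000000000000000000000000000000000000000000000000) := D_29 (nat_lit 216) (nat_lit 234) (nat_lit 200) (nat_lit 3) (nat_lit 9) (nat_lit 12) (nat_lit 2) (nat_lit 9) (nat_lit 12) (by decide +kernel)
theorem L82048 : W_29 (nat_lit 3) (nat_lit 0x200000020800fc0004000200000001000080000000000000000000000000000000) (nat_lit 0x0) (nat_lit 0x400010001c0000000000000000000000000000000000000000000000000) := T_29 (nat_lit 199) (nat_lit 198) (nat_lit 2) (nat_lit 8) (nat_lit 12) L82047 (by decide +kernel)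
theorem L82049 : W_29 (nat_lit 4) (nat_lit 0x200000000800fc0004000200000001000080000000000000000000000000000000) (nat_lit 0x0) (nat_lit 0x700010001c0000000000000000000000000000000000000000000000000) := T_29 (nat_lit 233) (nat_lit 232) (nat_lit 3) (nat_lit 8) (nat_lit 12) L82048 (by decide +kernel)
theorem L82050 : W_29 (nat_lit 5) (nat_lit 0x800fc0004000200000001000080000000000000000000000000000000) (nat_lit 0x0) (nat_lit 0x2000100700010001c0000000000000000000000000000000000000000000000000) := T_29 (nat_lit 261) (nat_lit 244) (nat_lit 6) (nat_lit 6) (nat_lit 15) L82049 (by decide +kernel)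
theorem L82051 : W_29 (nat_lit 6) (nat_lit 0x8007c0004000200000001000080000000000000000000000000000000) (nat_lit 0x0) (nat_lit 0x2000100700018001c8000000000000000000000000000000000000000000000000) := T_29 (nat_lit 215) (nat_lit 195) (nat_lit 0) (nat_lit 11) (nat_lit 12) L82050 (by decide +kernel)
theorem L82052 : W_29 (nat_lit 7) (nat_lit 0x7c0004000200000001000080000000000000000000000000000000) (nat_lit 0x0) (nat_lit 0x200010070c018001c8000000000000000000000000000000000000000000000000) := T_29 (nat_lit 227) (nat_lit 226) (nat_lit 1) (nat_lit 9) (nat_lit 12) L82051 (by decide +kernel)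
theorem L82053 : W_29 (nat_lit 2) (nat_lit 0x200000004801fc0004000200000001000080000000000000000000000000000000) (nat_lit 0x0) (nat_lit 0x1c0000000000000000000000000000000000000000000000000) := D_29 (nat_lit 199) (nat_lit 198) (nat_lit 200) (nat_lit 2) (nat_lit 8) (nat_lit 12) (nat_lit 2) (nat_lit 9) (nat_lit 12) (by decide +kernel)
theorem L82054 : W_29 (nat_lit 3) (nat_lit 0x200000004800fc0004000200000001000080000000000000000000000000000000) (nat_lit 0x0) (nat_lit 0x20010001c0000000000000000000000000000000000000000000000000) := T_29 (nat_lit 216) (nat_lit 229) (nat_lit 1) (nat_lit 12) (nat_lit 12) L82053 (by decide +kernel)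
theorem L82055 : W_29 (nat_lit 4) (nat_lit 0x2000000048007c0004000200000001000080000000000000000000000000000000) (nat_lit 0x0) (nat_lit 0x20018001c8000000000000000000000000000000000000000000000000) := T_29 (nat_lit 215) (nat_lit 195) (nat_lit 0) (nat_lit 11) (nat_lit 12) L82054 (by decide +kernel)
theorem L82056 : W_29 (nat_lit 5) (nat_lit 0x48007c0004000200000001000080000000000000000000000000000000) (nat_lit 0x0) (nat_lit 0x2000100020018001c8000000000000000000000000000000000000000000000000) := T_29 (nat_lit 261) (nat_lit 244) (nat_lit 6) (nat_lit 6) (nat_lit 15) L82055 (by decide +kernel)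
theorem L82057 : W_29 (nat_lit 6) (nat_lit 0x8007c0004000200000001000080000000000000000000000000000000) (nat_lit 0x0) (nat_lit 0x20001000e0018001c8000000000000000000000000000000000000000000000000) := T_29 (nat_lit 230) (nat_lit 231) (nat_lit 3) (nat_lit 6) (nat_lit 12) L82056 (by decide +kernel)
theorem L82058 : W_29 (nat_lit 7) (nat_lit 0x7c0004000200000001000080000000000000000000000000000000) (nat_lit 0x0) (nat_lit 0x20001000ec018001c8000000000000000000000000000000000000000000000000) := T_29 (nat_lit 227) (nat_lit 226) (nat_lit 1) (nat_lit 9) (nat_lit 12) L82057 (by decide +kernel)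
theorem L82059 : W_29 (nat_lit 8) (nat_lit 0x3c0004000200000001000080000000000000000000000000000000) (nat_lit 0x0) (nat_lit 0x20001007ec01c001c8000000000000000000000000000000000000000000000000) := Q_29 (nat_lit 214) (C_29 L82046 (C_29 L82052 (C_29 L82058 N_29))) (by decide +kernel)
theorem L82060 : W_29 (nat_lit 2) (nat_lit 0x40003e0004000200000001000080000000000000000000000000000000) (nat_lit 0x0) (nat_lit 0x10018000000000000000000000000000000000000000000000000) := D_29 (nat_lit 195) (nat_lit 196) (nat_lit 208) (nat_lit 2) (nat_lit 5) (nat_lit 12) (nat_lit 2) (nat_lit 4) (nat_lit 12) (by decide +kernel)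
theorem L82061 : W_29 (nat_lit 3) (nat_lit 0x40003c0004000200000001000080000000000000000000000000000000) (nat_lit 0x0) (nat_lit 0x2000030018000000000000000000000000000000000000000000000000) := T_29 (nat_lit 209) (nat_lit 229) (nat_lit 3) (nat_lit 5) (nat_lit 12) L82060 (by decide +kernel)
theorem L82062 : W_29 (nat_lit 4) (nat_lit 0x3c0004000200000001000080000000000000000000000000000000) (nat_lit 0x0) (nat_lit 0xe000030018000000000000000000000000000000000000000000000000) := T_29 (nat_lit 230) (nat_lit 231) (nat_lit 3) (nat_lit 6) (nat_lit 12) L82061 (by decide +kernel)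
theorem L82063 : W_29 (nat_lit 9) (nat_lit 0x380004000200000001000080000000000000000000000000000000) (nat_lit 0x0) (nat_lit 0x20001007ee01c701d8000000000000000000000000000000000000000000000000) := Q_29 (nat_lit 210) (C_29 L82045 (C_29 L79015 (C_29 L82059 (C_29 L82062 N_29)))) (by decide +kernel)
theorem L82064 : W_29 (nat_lit 2) (nat_lit 0x400000003c0004000200000001000080000000000000000000000000000000) (nat_lit 0x0) (nat_lit 0x800000002000000008000000000000000000000000000000000000000000000000) := D_29 (nat_lit 229) (nat_lit 195) (nat_lit 263) (nat_lit 4) (nat_lit 8) (nat_lit 14) (nat_lit 4) (nat_lit 8) (nat_lit 15) (by decide +kernel)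
theorem L82065 : W_29 (nat_lit 2) (nat_lit 0x2000400048003c0014000200000001000080000000000000000000000000000000) (nat_lit 0x0) (nat_lit 0x2000000008000800000000000000000000000000000000000000000000) := D_29 (nat_lit 229) (nat_lit 195) (nat_lit 179) (nat_lit 4) (nat_lit 8) (nat_lit 14) (nat_lit 5) (nat_lit 9) (nat_lit 10) (by decide +kernel)
theorem L82066 : W_29 (nat_lit 3) (nat_lit 0x2000400008003c0014000200000001000080000000000000000000000000000000) (nat_lit 0x0) (nat_lit 0xe000000008000800000000000000000000000000000000000000000000) := T_29 (nat_lit 230) (nat_lit 231) (nat_lit 3) (nat_lit 6) (nat_lit 12) L82065 (by decide +kernel)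
theorem L82067 : W_29 (nat_lit 4) (nat_lit 0x400008003c0014000200000001000080000000000000000000000000000000) (nat_lit 0x0) (nat_lit 0x20001000e000000008000800000000000000000000000000000000000000000000) := T_29 (nat_lit 261) (nat_lit 244) (nat_lit 6) (nat_lit 6) (nat_lit 15) L82066 (by decide +kernel)
theorem L82068 : W_29 (nat_lit 5) (nat_lit 0x400008003c0004000200000001000080000000000000000000000000000000) (nat_lit 0x0) (nat_lit 0x20001000e000000038000800000000000000000000000000000000000000000000) := T_29 (nat_lit 196) (nat_lit 197) (nat_lit 2) (nat_lit 6) (nat_lit 12) L82067 (by decide +kernel)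
theorem L82069 : W_29 (nat_lit 6) (nat_lit 0x400000003c0004000200000001000080000000000000000000000000000000) (nat_lit 0x0) (nat_lit 0x20001000ec00000038000800000000000000000000000000000000000000000000) := T_29 (nat_lit 227) (nat_lit 226) (nat_lit 1) (nat_lit 9) (nat_lit 12) L82068 (by decide +kernel)
theorem L82070 : W_29 (nat_lit 9) (nat_lit 0x3c0004000200000001000080000000000000000000000000000000) (nat_lit 0x0) (nat_lit 0x40003a001f000ec00000038000800000000000000000000000000000000000000000000) := Q_29 (nat_lit 246) (C_29 L81984 (C_29 L82064 (C_29 L82069 N_29))) (by decide +kernel)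
theorem L82071 : W_29 (nat_lit 10) (nat_lit 0x380004000200000001000080000000000000000000000000000000) (nat_lit 0x0) (nat_lit 0x40003a001f000ee00070038000800000000000000000000000000000000000000000000) := Q_29 (nat_lit 210) (C_29 L82045 (C_29 L82062 (C_29 L79015 (C_29 L82070 N_29)))) (by decide +kernel)
theorem L82072 : W_29 (nat_lit 2) (nat_lit 0x24003e0005000200000001000080000000000000000000000000000000) (nat_lit 0x0) (nat_lit 0x40000000010008000000000000000000000000000000000000000000000000) := D_29 (nat_lit 195) (nat_lit 208) (nat_lit 246) (nat_lit 2) (nat_lit 4) (nat_lit 12) (nat_lit 4) (nat_lit 8) (nat_lit 14) (by decide +kernel)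
theorem L82073 : W_29 (nat_lit 3) (nat_lit 0x4003e0005000200000001000080000000000000000000000000000000) (nat_lit 0x0) (nat_lit 0x40006000010008000000000000000000000000000000000000000000000000) := T_29 (nat_lit 229) (nat_lit 230) (nat_lit 3) (nat_lit 5) (nat_lit 12) L82072 (by decide +kernel)
theorem L82074 : W_29 (nat_lit 4) (nat_lit 0x4003e0004000200000001000080000000000000000000000000000000) (nat_lit 0x0) (nat_lit 0x40006000010009800000000000000000000000000000000000000000000000) := T_29 (nat_lit 192) (nat_lit 191) (nat_lit 0) (nat_lit 8) (nat_lit 12) L82073 (by decide +kernel)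
theorem L82075 : W_29 (nat_lit 5) (nat_lit 0x4003c0004000200000001000080000000000000000000000000000000) (nat_lit 0x0) (nat_lit 0x40006200030009800000000000000000000000000000000000000000000000) := T_29 (nat_lit 209) (nat_lit 225) (nat_lit 1) (nat_lit 8) (nat_lit 12) L82074 (by decide +kernel)
theorem L82076 : W_29 (nat_lit 6) (nat_lit 0x3c0004000200000001000080000000000000000000000000000000) (nat_lit 0x0) (nat_lit 0x40006e00030009800000000000000000000000000000000000000000000000) := T_29 (nat_lit 226) (nat_lit 227) (nat_lit 1) (nat_lit 9) (nat_lit 12) L82075 (by decide +kernel)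
theorem L82077 : W_29 (nat_lit 2) (nat_lit 0x2000380004000200000001000080000000000000000000000000000000) (nat_lit 0x0) (nat_lit 0x800040000000000008000000000000000000000000000000000000000000000000) := D_29 (nat_lit 246) (nat_lit 195) (nat_lit 263) (nat_lit 4) (nat_lit 8) (nat_lit 14) (nat_lit 4) (nat_lit 8) (nat_lit 15) (by decide +kernel)
theorem L82078 : W_29 (nat_lit 2) (nat_lit 0x200000022800fc0024000200000001000080000000000000000000000000000000) (nat_lit 0x0) (nat_lit 0x44001000000000000000000000000000000000000000000000000000000) := D_29 (nat_lit 216) (nat_lit 230) (nat_lit 234) (nat_lit 1) (nat_lit 12) (nat_lit 12) (nat_lit 3) (nat_lit 9) (nat_lit 12) (by decide +kernel)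
theorem L82079 : W_29 (nat_lit 3) (nat_lit 0x200000002800fc0024000200000001000080000000000000000000000000000000) (nat_lit 0x0) (nat_lit 0x74001000000000000000000000000000000000000000000000000000000) := T_29 (nat_lit 233) (nat_lit 232) (nat_lit 3) (nat_lit 8) (nat_lit 12) L82078 (by decide +kernel)
theorem L82080 : W_29 (nat_lit 4) (nat_lit 0x2800fc0024000200000001000080000000000000000000000000000000) (nat_lit 0x0) (nat_lit 0x200010074001000000000000000000000000000000000000000000000000000000) := T_29 (nat_lit 261) (nat_lit 244) (nat_lit 6) (nat_lit 6) (nat_lit 15) L82079 (by decide +kernel)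
theorem L82081 : W_29 (nat_lit 5) (nat_lit 0x28007c0024000200000001000080000000000000000000000000000000) (nat_lit 0x0) (nat_lit 0x200010074001800008000000000000000000000000000000000000000000000000) := T_29 (nat_lit 215) (nat_lit 195) (nat_lit 0) (nat_lit 11) (nat_lit 12) L82080 (by decide +kernel)
theorem L82082 : W_29 (nat_lit 6) (nat_lit 0x28003c0024000200000001000080000000000000000000000000000000) (nat_lit 0x0) (nat_lit 0x200010074001c00048000000000000000000000000000000000000000000000000) := T_29 (nat_lit 214) (nat_lit 198) (nat_lit 2) (nat_lit 7) (nat_lit 12) L82081 (by decide +kernel)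
theorem L82083 : W_29 (nat_lit 7) (nat_lit 0x28003c0004000200000001000080000000000000000000000000000000) (nat_lit 0x0) (nat_lit 0x200010074001c00078000000000000000000000000000000000000000000000000) := T_29 (nat_lit 197) (nat_lit 196) (nat_lit 2) (nat_lit 6) (nat_lit 12) L82082 (by decide +kernel)
theorem L82084 : W_29 (nat_lit 8) (nat_lit 0x20003c0004000200000001000080000000000000000000000000000000) (nat_lit 0x0) (nat_lit 0x200010074c01c00078000000000000000000000000000000000000000000000000) := T_29 (nat_lit 227) (nat_lit 226) (nat_lit 1) (nat_lit 9) (nat_lit 12) L82083 (by decide +kernel)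
theorem L82085 : W_29 (nat_lit 2) (nat_lit 0x20003e0004000200000001000080000000000000000000000000000000) (nat_lit 0x0) (nat_lit 0x10018000000000000000000000000000000000000000000000000) := D_29 (nat_lit 195) (nat_lit 196) (nat_lit 208) (nat_lit 2) (nat_lit 5) (nat_lit 12) (nat_lit 2) (nat_lit 4) (nat_lit 12) (by decide +kernel)
theorem L82086 : W_29 (nat_lit 3) (nat_lit 0x20003c0004000200000001000080000000000000000000000000000000) (nat_lit 0x0) (nat_lit 0x4000030018000000000000000000000000000000000000000000000000) := T_29 (nat_lit 209) (nat_lit 230) (nat_lit 3) (nat_lit 5) (nat_lit 12) L82085 (by decide +kernel)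
theorem L82087 : W_29 (nat_lit 9) (nat_lit 0x2000380004000200000001000080000000000000000000000000000000) (nat_lit 0x0) (nat_lit 0x200010074f01c70079c00000000000000000000000000000000000000000000000) := Q_29 (nat_lit 210) (C_29 L81283 (C_29 L81285 (C_29 L79017 (C_29 L82084 (C_29 L82086 N_29))))) (by decide +kernel)
theorem L82088 : W_29 (nat_lit 10) (nat_lit 0x380004000200000001000080000000000000000000000000000000) (nat_lit 0x0) (nat_lit 0xa00050076f01c700f9c00800040000000000000000000000000000000000000000) := Q_29 (nat_lit 229) (C_29 L82077 (C_29 L81955 (C_29 L82087 N_29))) (by decide +kernel)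
theorem L82089 : W_29 (nat_lit 5) (nat_lit 0x780004000200000001000080000000000000000000000000000000) (nat_lit 0x0) (nat_lit 0x2000100018000040070000800000000000000000000000000000000000000000000) := T_29 (nat_lit 231) (nat_lit 232) (nat_lit 3) (nat_lit 7) (nat_lit 12) L81996 (by decide +kernel)
theorem L82090 : W_29 (nat_lit 6) (nat_lit 0x380004000200000001000080000000000000000000000000000000) (nat_lit 0x0) (nat_lit 0x2000100038000c400f8000800000000000000000000000000000000000000000000) := Q_29 (nat_lit 214) (C_29 L80612 (C_29 L82021 (C_29 L80632 (C_29 L82089 N_29)))) (by decide +kernel)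
theorem L82091 : W_29 (nat_lit 13) (nat_lit 0x180004000200000001000080000000000000000000000000000000) (nat_lit 0x0) (nat_lit 0x40007a007f007ef01e701f9c03d001c000c000000000000000000000000000000000000) := Q_29 (nat_lit 213) (C_29 L82016 (C_29 L82018 (C_29 L82042 (C_29 L80627 (C_29 L82063 (C_29 L82071 (C_29 L82088 (C_29 L82090 N_29)))))))) (by decide +kernel)
theorem L82092 : W_29 (nat_lit 2) (nat_lit 0x1f0005000200000001000080000000000000000000000000000000) (nat_lit 0x0) (nat_lit 0x700000000000000000000000000000000000000000000000000000000) := D_29 (nat_lit 225) (nat_lit 224) (nat_lit 226) (nat_lit 1) (nat_lit 7) (nat_lit 12) (nat_lit 1) (nat_lit 8) (nat_lit 12) (by decide +kernel)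
theorem L82093 : W_29 (nat_lit 3) (nat_lit 0x1e0005000200000001000080000000000000000000000000000000) (nat_lit 0x0) (nat_lit 0x700010008000000000000000000000000000000000000000000000000) := T_29 (nat_lit 208) (nat_lit 195) (nat_lit 2) (nat_lit 4) (nat_lit 12) L82092 (by decide +kernel)
theorem L82094 : W_29 (nat_lit 4) (nat_lit 0x1e0004000200000001000080000000000000000000000000000000) (nat_lit 0x0) (nat_lit 0x700010009800000000000000000000000000000000000000000000000) := T_29 (nat_lit 192) (nat_lit 191) (nat_lit 0) (nat_lit 8) (nat_lit 12) L82093 (by decide +kernel)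
theorem L82095 : W_29 (nat_lit 8) (nat_lit 0x1c0004000200000001000080000000000000000000000000000000) (nat_lit 0x0) (nat_lit 0x1cf00630079800000000000000000000000000000000000000000000000) := Q_29 (nat_lit 209) (C_29 L17815 (C_29 L82094 (C_29 L79002 N_29))) (by decide +kernel)
theorem L82096 : W_29 (nat_lit 2) (nat_lit 0x4001e000d00028001a001000080000000000000000000000000000000) (nat_lit 0x0) (nat_lit 0x400004000100000000000000000000000000000000000) := D_29 (nat_lit 158) (nat_lit 140) (nat_lit 178) (nat_lit 4) (nat_lit 5) (nat_lit 12) (nat_lit 3) (nat_lit 4) (nat_lit 9) (by decide +kernel)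
theorem L82097 : W_29 (nat_lit 3) (nat_lit 0x4001e000d000280018001000080000000000000000000000000000000) (nat_lit 0x0) (nat_lit 0x440006000100000000000000000000000000000000000) := T_29 (nat_lit 157) (nat_lit 174) (nat_lit 4) (nat_lit 5) (nat_lit 13) L82096 (by decide +kernel)
theorem L82098 : W_29 (nat_lit 4) (nat_lit 0x4001e000d000200018001000080000000000000000000000000000000) (nat_lit 0x0) (nat_lit 0x5c0006000100000000000000000000000000000000000) := T_29 (nat_lit 175) (nat_lit 176) (nat_lit 6) (nat_lit 5) (nat_lit 13) L82097 (by decide +kernel)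
theorem L82099 : W_29 (nat_lit 5) (nat_lit 0x4001e000c000200018001000080000000000000000000000000000000) (nat_lit 0x0) (nat_lit 0x18005c0006000100000000000000000000000000000000000) := T_29 (nat_lit 192) (nat_lit 191) (nat_lit 0) (nat_lit 8) (nat_lit 12) L82098 (by decide +kernel)
theorem L82100 : W_29 (nat_lit 6) (nat_lit 0x1e000c000200018001000080000000000000000000000000000000) (nat_lit 0x0) (nat_lit 0x6000000018005c0006000100000000000000000000000000000000000) := T_29 (nat_lit 226) (nat_lit 225) (nat_lit 1) (nat_lit 8) (nat_lit 12) L82099 (by decide +kernel)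
theorem L82101 : W_29 (nat_lit 7) (nat_lit 0x1c000c000200018001000080000000000000000000000000000000) (nat_lit 0x0) (nat_lit 0x6000300018005c0006000100000000000000000000000000000000000) := T_29 (nat_lit 209) (nat_lit 208) (nat_lit 2) (nat_lit 4) (nat_lit 12) L82100 (by decide +kernel)
theorem L82102 : W_29 (nat_lit 8) (nat_lit 0x1c000c000200010001000080000000000000000000000000000000) (nat_lit 0x0) (nat_lit 0x6000300018005c000e000500000000000000000000000000000000000) := T_29 (nat_lit 159) (nat_lit 142) (nat_lit 4) (nat_lit 7) (nat_lit 12) L82101 (by decide +kernel)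
theorem L82103 : W_29 (nat_lit 9) (nat_lit 0x1c000c000200000001000080000000000000000000000000000000) (nat_lit 0x0) (nat_lit 0x6000300018005c001e000d00000000000000000000000000000000000) := T_29 (nat_lit 160) (nat_lit 143) (nat_lit 7) (nat_lit 7) (nat_lit 8) L82102 (by decide +kernel)
theorem L82104 : W_29 (nat_lit 3) (nat_lit 0x3c000c000200000001000080000000000000000000000000000000) (nat_lit 0x0) (nat_lit 0xc00070000000000000000000000000000000000000000000000000) := T_29 (nat_lit 197) (nat_lit 196) (nat_lit 2) (nat_lit 6) (nat_lit 12) L81938 (by decide +kernel)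
theorem L82105 : W_29 (nat_lit 5) (nat_lit 0x1c000c000200000001000080000000000000000000000000000000) (nat_lit 0x0) (nat_lit 0x100008001c000e00070000400000000000000000000000000000000000000000000) := Q_29 (nat_lit 213) (C_29 L81933 (C_29 L18703 (C_29 L81791 (C_29 L82104 N_29)))) (by decide +kernel)
theorem L82106 : W_29 (nat_lit 10) (nat_lit 0x1c0004000200000001000080000000000000000000000000000000) (nat_lit 0x0) (nat_lit 0x100008001c600e300798005c001e000d00000000000000000000000000000000000) := Q_29 (nat_lit 195) (C_29 L18673 (C_29 L82103 (C_29 L82105 N_29))) (by decide +kernel)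
theorem L82107 : W_29 (nat_lit 11) (nat_lit 0x180004000200000001000080000000000000000000000000000000) (nat_lit 0x0) (nat_lit 0x100008001cf00e700798005c001e000d00000000000000000000000000000000000) := Q_29 (nat_lit 210) (C_29 L80635 (C_29 L79492 (C_29 L82095 (C_29 L82106 N_29)))) (by decide +kernel)
theorem L82108 : W_29 (nat_lit 14) (nat_lit 0x80004000200000001000080000000000000000000000000000000) (nat_lit 0x0) (nat_lit 0x40007a007f007ef01f701f9c03dc01de00cd00000000000000000000000000000000000) := Q_29 (nat_lit 212) (C_29 L82091 (C_29 L80586 (C_29 L80584 (C_29 L82107 N_29)))) (by decide +kernel)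
theorem L82110 : W_29 (nat_lit 2) (nat_lit 0x3c00180007000b00000001000080000000000000000000000000000000) (nat_lit 0x0) (nat_lit 0xc000000040000000000000000000000000000000000000000000000000000) := D_29 (nat_lit 243) (nat_lit 242) (nat_lit 210) (nat_lit 1) (nat_lit 8) (nat_lit 13) (nat_lit 5) (nat_lit 6) (nat_lit 10) (by decide +kernel)
theorem L82111 : W_29 (nat_lit 3) (nat_lit 0x3800180007000b00000001000080000000000000000000000000000000) (nat_lit 0x0) (nat_lit 0xc000600040000000000000000000000000000000000000000000000000000) := T_29 (nat_lit 226) (nat_lit 225) (nat_lit 2) (nat_lit 4) (nat_lit 13) L82110 (by decide +kernel)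
theorem L82112 : W_29 (nat_lit 4) (nat_lit 0x3000180007000b00000001000080000000000000000000000000000000) (nat_lit 0x0) (nat_lit 0x1c000e00040000000000000000000000000000000000000000000000000000) := T_29 (nat_lit 227) (nat_lit 244) (nat_lit 5) (nat_lit 7) (nat_lit 10) L82111 (by decide +kernel)
theorem L82113 : W_29 (nat_lit 5) (nat_lit 0x3000180007000300000001000080000000000000000000000000000000) (nat_lit 0x0) (nat_lit 0x1c000e00040000000c00000000000000000000000000000000000000000000) := T_29 (nat_lit 179) (nat_lit 178) (nat_lit 1) (nat_lit 9) (nat_lit 10) L82112 (by decide +kernel)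
theorem L82114 : W_29 (nat_lit 6) (nat_lit 0x3000180007000200000001000080000000000000000000000000000000) (nat_lit 0x0) (nat_lit 0x1c000e00040000000d00008000000000000000000000000000000000000000) := T_29 (nat_lit 176) (nat_lit 159) (nat_lit 4) (nat_lit 7) (nat_lit 13) L82113 (by decide +kernel)
theorem L82115 : W_29 (nat_lit 7) (nat_lit 0x1000180007000200000001000080000000000000000000000000000000) (nat_lit 0x0) (nat_lit 0x5c002e00040000000d00008000000000000000000000000000000000000000) := T_29 (nat_lit 229) (nat_lit 246) (nat_lit 7) (nat_lit 7) (nat_lit 10) L82114 (by decide +kernel)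
theorem L82116 : W_29 (nat_lit 8) (nat_lit 0x1000080007000200000001000080000000000000000000000000000000) (nat_lit 0x0) (nat_lit 0x5c002e00740000000d00008000000000000000000000000000000000000000) := Q_29 (nat_lit 212) (C_29 L78638 (C_29 L78554 (C_29 L82115 N_29))) (by decide +kernel)
theorem L82117 : W_29 (nat_lit 9) (nat_lit 0x1000080006000200000001000080000000000000000000000000000000) (nat_lit 0x0) (nat_lit 0x5c002e00758001c00d70008000000000000000000000000000000000000000) := Q_29 (nat_lit 192) (C_29 L80754 (C_29 L78632 (C_29 L82116 N_29))) (by decide +kernel)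
theorem L82170 : W_29 (nat_lit 2) (nat_lit 0x1c000e000380000001000080000000000000000000000000000000) (nat_lit 0x0) (nat_lit 0x10000800000000000000004000000000000000000000000000000000000000) := D_29 (nat_lit 227) (nat_lit 244) (nat_lit 158) (nat_lit 6) (nat_lit 6) (nat_lit 14) (nat_lit 4) (nat_lit 6) (nat_lit 13) (by decide +kernel)
theorem L82174 : W_29 (nat_lit 5) (nat_lit 0x380004000200000001000080000000000000000000000000000000) (nat_lit 0x0) (nat_lit 0x38000c000e2000000000000000000000000000000000000000000000000) := T_29 (nat_lit 214) (nat_lit 193) (nat_lit 0) (nat_lit 10) (nat_lit 12) L82021 (by decide +kernel)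
theorem L82175 : W_29 (nat_lit 2) (nat_lit 0x40003e0004000200000001000080000000000000000000000000000000) (nat_lit 0x0) (nat_lit 0x3800000000000000000000000000000000000000000000000) := D_29 (nat_lit 192) (nat_lit 193) (nat_lit 191) (nat_lit 0) (nat_lit 9) (nat_lit 12) (nat_lit 0) (nat_lit 8) (nat_lit 12) (by decide +kernel)
theorem L82176 : W_29 (nat_lit 3) (nat_lit 0x40003c0004000200000001000080000000000000000000000000000000) (nat_lit 0x0) (nat_lit 0x2000020003800000000000000000000000000000000000000000000000) := T_29 (nat_lit 209) (nat_lit 229) (nat_lit 3) (nat_lit 5) (nat_lit 12) L82175 (by decide +kernel)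
theorem L82177 : W_29 (nat_lit 4) (nat_lit 0x3c0004000200000001000080000000000000000000000000000000) (nat_lit 0x0) (nat_lit 0xe000020003800000000000000000000000000000000000000000000000) := T_29 (nat_lit 230) (nat_lit 231) (nat_lit 3) (nat_lit 6) (nat_lit 12) L82176 (by decide +kernel)
theorem L82178 : W_29 (nat_lit 7) (nat_lit 0x380004000200000001000080000000000000000000000000000000) (nat_lit 0x0) (nat_lit 0x5000ee0007000b800000000000000000000000000000000000000000000000) := Q_29 (nat_lit 210) (C_29 L82076 (C_29 L80629 (C_29 L79015 (C_29 L82177 N_29)))) (by decide +kernel)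
theorem L82179 : W_29 (nat_lit 8) (nat_lit 0x180004000200000001000080000000000000000000000000000000) (nat_lit 0x0) (nat_lit 0xd003ee00e700eb801000080000000000000000000000000000000000000000) := Q_29 (nat_lit 213) (C_29 L82174 (C_29 L82018 (C_29 L80613 (C_29 L82178 (C_29 L80633 N_29))))) (by decide +kernel)
theorem L82180 : W_29 (nat_lit 2) (nat_lit 0x1c0006000200000001000080000000000000000000000000000000) (nat_lit 0x0) (nat_lit 0x800000000000000010000800000000000000000000000000000000000) := D_29 (nat_lit 160) (nat_lit 143) (nat_lit 227) (nat_lit 6) (nat_lit 7) (nat_lit 11) (nat_lit 5) (nat_lit 7) (nat_lit 9) (by decide +kernel)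
theorem L82181 : W_29 (nat_lit 7) (nat_lit 0x180006000200000001000080000000000000000000000000000000) (nat_lit 0x0) (nat_lit 0x300018000f00078001c00100010000800000000000000000000000000000000000) := Q_29 (nat_lit 210) (C_29 L80592 (C_29 L82180 (C_29 L78918 N_29))) (by decide +kernel)
theorem L82182 : W_29 (nat_lit 2) (nat_lit 0x1e0006000200000001000080000000000000000000000000000000) (nat_lit 0x0) (nat_lit 0x18008000000000000000000000000000000000000000000000000) := D_29 (nat_lit 208) (nat_lit 207) (nat_lit 195) (nat_lit 2) (nat_lit 3) (nat_lit 12) (nat_lit 2) (nat_lit 4) (nat_lit 12) (by decide +kernel)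
theorem L82183 : W_29 (nat_lit 6) (nat_lit 0x1c0006000200000001000080000000000000000000000000000000) (nat_lit 0x0) (nat_lit 0x700638008000100018000c00000000000000000000000000000000000) := Q_29 (nat_lit 209) (C_29 L79253 (C_29 L78868 (C_29 L82182 N_29))) (by decide +kernel)
theorem L82184 : W_29 (nat_lit 7) (nat_lit 0x180006000200000001000080000000000000000000000000000000) (nat_lit 0x0) (nat_lit 0x10000f00678008000100018000c00000000000000000000000000000000000) := Q_29 (nat_lit 210) (C_29 L82180 (C_29 L78921 (C_29 L82183 N_29))) (by decide +kernel)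
theorem L82185 : W_29 (nat_lit 8) (nat_lit 0x180004000200000001000080000000000000000000000000000000) (nat_lit 0x0) (nat_lit 0x300018000f0067800bc00100018000c00000000000000000000000000000000000) := Q_29 (nat_lit 193) (C_29 L82181 (C_29 L80590 (C_29 L82184 N_29))) (by decide +kernel)
theorem L82186 : W_29 (nat_lit 9) (nat_lit 0x80004000200000001000080000000000000000000000000000000) (nat_lit 0x0) (nat_lit 0xb000d803ef00f780ebc01100098000c00000000000000000000000000000000000) := Q_29 (nat_lit 212) (C_29 L82179 (C_29 L80586 (C_29 L80584 (C_29 L82185 N_29)))) (by decide +kernel)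
theorem L82189 : W_29 (nat_lit 2) (nat_lit 0x1c000300000001000080000000000000000000000000000000) (nat_lit 0x0) (nat_lit 0x20000c0000000000000000000000000000000000000000000) := D_29 (nat_lit 175) (nat_lit 174) (nat_lit 193) (nat_lit 3) (nat_lit 4) (nat_lit 10) (nat_lit 0) (nat_lit 9) (nat_lit 11) (by decide +kernel)
theorem L82190 : W_29 (nat_lit 3) (nat_lit 0xc000300000001000080000000000000000000000000000000) (nat_lit 0x0) (nat_lit 0x320000c0000000000000000000000000000000000000000000) := T_29 (nat_lit 196) (nat_lit 197) (nat_lit 0) (nat_lit 10) (nat_lit 11) L82189 (by decide +kernel)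
theorem L82191 : W_29 (nat_lit 2) (nat_lit 0x40002000f000b00000001000080000000000000000000000000000000) (nat_lit 0x0) (nat_lit 0xc0008000000000000000000000000000000000000000) := D_29 (nat_lit 175) (nat_lit 174) (nat_lit 159) (nat_lit 3) (nat_lit 4) (nat_lit 10) (nat_lit 6) (nat_lit 5) (nat_lit 13) (by decide +kernel)
theorem L82192 : W_29 (nat_lit 3) (nat_lit 0x2000f000b00000001000080000000000000000000000000000000) (nat_lit 0x0) (nat_lit 0x80004000000000000c0008000000000000000000000000000000000000000) := T_29 (nat_lit 226) (nat_lit 243) (nat_lit 6) (nat_lit 5) (nat_lit 14) L82191 (by decide +kernel)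
theorem L82193 : W_29 (nat_lit 4) (nat_lit 0x2000f000300000001000080000000000000000000000000000000) (nat_lit 0x0) (nat_lit 0x8000400000000000cc0008000000000000000000000000000000000000000) := T_29 (nat_lit 179) (nat_lit 178) (nat_lit 2) (nat_lit 5) (nat_lit 11) L82192 (by decide +kernel)
theorem L82194 : W_29 (nat_lit 5) (nat_lit 0xf000300000001000080000000000000000000000000000000) (nat_lit 0x0) (nat_lit 0x8000400030000000cc0008000000000000000000000000000000000000000) := T_29 (nat_lit 209) (nat_lit 208) (nat_lit 1) (nat_lit 8) (nat_lit 11) L82193 (by decide +kernel)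
theorem L82201 : W_29 (nat_lit 2) (nat_lit 0x4000000012000f000380000001000080000000000000000000000000000000) (nat_lit 0x0) (nat_lit 0x400000000000000008000400000000000000000000000000000000000) := D_29 (nat_lit 159) (nat_lit 142) (nat_lit 226) (nat_lit 5) (nat_lit 6) (nat_lit 8) (nat_lit 6) (nat_lit 5) (nat_lit 13) (by decide +kernel)
theorem L82202 : W_29 (nat_lit 3) (nat_lit 0x4000000010000f000380000001000080000000000000000000000000000000) (nat_lit 0x0) (nat_lit 0x400030000000000008000400000000000000000000000000000000000) := T_29 (nat_lit 209) (nat_lit 208) (nat_lit 1) (nat_lit 8) (nat_lit 11) L82201 (by decide +kernel)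
theorem L82203 : W_29 (nat_lit 4) (nat_lit 0x10000f000380000001000080000000000000000000000000000000) (nat_lit 0x0) (nat_lit 0x40002400030000000000008000400000000000000000000000000000000000) := T_29 (nat_lit 246) (nat_lit 229) (nat_lit 4) (nat_lit 8) (nat_lit 14) L82202 (by decide +kernel)
theorem L82204 : W_29 (nat_lit 5) (nat_lit 0x10000f000300000001000080000000000000000000000000000000) (nat_lit 0x0) (nat_lit 0x400024000300000000c0008000400000000000000000000000000000000000) := T_29 (nat_lit 175) (nat_lit 174) (nat_lit 3) (nat_lit 4) (nat_lit 10) L82203 (by decide +kernel)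
theorem L82205 : W_29 (nat_lit 6) (nat_lit 0xf000300000001000080000000000000000000000000000000) (nat_lit 0x0) (nat_lit 0x400024003300000000c0008000400000000000000000000000000000000000) := T_29 (nat_lit 212) (nat_lit 213) (nat_lit 3) (nat_lit 5) (nat_lit 11) L82204 (by decide +kernel)
theorem L82217 : W_29 (nat_lit 2) (nat_lit 0x4000000012000f000b00008001000080000000000000000000000000000000) (nat_lit 0x0) (nat_lit 0x8000400040000000000000000000000000000000000000000000000000000) := D_29 (nat_lit 226) (nat_lit 243) (nat_lit 210) (nat_lit 6) (nat_lit 5) (nat_lit 14) (nat_lit 5) (nat_lit 6) (nat_lit 9) (by decide +kernel)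
theorem L82218 : W_29 (nat_lit 3) (nat_lit 0x4000000012000f000b00000001000080000000000000000000000000000000) (nat_lit 0x0) (nat_lit 0x8000400040000000000008000400000000000000000000000000000000000) := T_29 (nat_lit 159) (nat_lit 142) (nat_lit 5) (nat_lit 6) (nat_lit 8) L82217 (by decide +kernel)
theorem L82219 : W_29 (nat_lit 4) (nat_lit 0x4000000010000f000b00000001000080000000000000000000000000000000) (nat_lit 0x0) (nat_lit 0x8000400070000000000008000400000000000000000000000000000000000) := T_29 (nat_lit 209) (nat_lit 208) (nat_lit 1) (nat_lit 8) (nat_lit 11) L82218 (by decide +kernel)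
theorem L82220 : W_29 (nat_lit 5) (nat_lit 0x10000f000b00000001000080000000000000000000000000000000) (nat_lit 0x0) (nat_lit 0x48002400070000000000008000400000000000000000000000000000000000) := T_29 (nat_lit 246) (nat_lit 229) (nat_lit 4) (nat_lit 8) (nat_lit 14) L82219 (by decide +kernel)
theorem L82221 : W_29 (nat_lit 6) (nat_lit 0x10000f000300000001000080000000000000000000000000000000) (nat_lit 0x0) (nat_lit 0x48002400070000000c00008000400000000000000000000000000000000000) := T_29 (nat_lit 179) (nat_lit 178) (nat_lit 2) (nat_lit 5) (nat_lit 11) L82220 (by decide +kernel)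
theorem L82222 : W_29 (nat_lit 7) (nat_lit 0xf000300000001000080000000000000000000000000000000) (nat_lit 0x0) (nat_lit 0x48002400370000000c00008000400000000000000000000000000000000000) := T_29 (nat_lit 212) (nat_lit 213) (nat_lit 3) (nat_lit 5) (nat_lit 11) L82221 (by decide +kernel)
theorem L82224 : W_29 (nat_lit 5) (nat_lit 0x180008000e000380000001000080000000000000000000000000000000) (nat_lit 0x0) (nat_lit 0x8000600178000000000004000000000000000000000000000000000000000) := T_29 (nat_lit 210) (nat_lit 158) (nat_lit 4) (nat_lit 6) (nat_lit 13) L6005 (by decide +kernel)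
theorem L82225 : W_29 (nat_lit 6) (nat_lit 0x100008000e000380000001000080000000000000000000000000000000) (nat_lit 0x0) (nat_lit 0x18000e00178000000000004000000000000000000000000000000000000000) := T_29 (nat_lit 227) (nat_lit 244) (nat_lit 5) (nat_lit 7) (nat_lit 10) L82224 (by decide +kernel)
theorem L82226 : W_29 (nat_lit 7) (nat_lit 0x8000e000380000001000080000000000000000000000000000000) (nat_lit 0x0) (nat_lit 0x38001e00178000000000004000000000000000000000000000000000000000) := T_29 (nat_lit 228) (nat_lit 245) (nat_lit 4) (nat_lit 7) (nat_lit 14) L82225 (by decide +kernel)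
theorem L82227 : W_29 (nat_lit 8) (nat_lit 0x8000e000300000001000080000000000000000000000000000000) (nat_lit 0x0) (nat_lit 0x38001e001780000000c0004000000000000000000000000000000000000000) := T_29 (nat_lit 175) (nat_lit 174) (nat_lit 3) (nat_lit 4) (nat_lit 10) L82226 (by decide +kernel)
theorem L82228 : W_29 (nat_lit 2) (nat_lit 0xc000e000300008001000080000000000000000000000000000000) (nat_lit 0x0) (nat_lit 0x400030000000000000000000000000000000000000000000000000000) := D_29 (nat_lit 209) (nat_lit 208) (nat_lit 226) (nat_lit 2) (nat_lit 4) (nat_lit 12) (nat_lit 5) (nat_lit 6) (nat_lit 9) (by decide +kernel)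
theorem L82229 : W_29 (nat_lit 3) (nat_lit 0xc000e000300000001000080000000000000000000000000000000) (nat_lit 0x0) (nat_lit 0x400030000000000008000400000000000000000000000000000000000) := T_29 (nat_lit 159) (nat_lit 142) (nat_lit 7) (nat_lit 6) (nat_lit 8) L82228 (by decide +kernel)
theorem L82230 : W_29 (nat_lit 5) (nat_lit 0x8000e000300000001000080000000000000000000000000000000) (nat_lit 0x0) (nat_lit 0x10000c000700000000c000c000400000000000000000000000000000000000) := Q_29 (nat_lit 210) (C_29 L81778 (C_29 L80393 (C_29 L82229 N_29))) (by decide +kernel)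
theorem L82263 : W_29 (nat_lit 2) (nat_lit 0x180024001e000b00008001000080000000000000000000000000000000) (nat_lit 0x0) (nat_lit 0x400004000200000000000000000000000000000000000) := D_29 (nat_lit 158) (nat_lit 141) (nat_lit 178) (nat_lit 4) (nat_lit 6) (nat_lit 12) (nat_lit 0) (nat_lit 9) (nat_lit 10) (by decide +kernel)
theorem L82264 : W_29 (nat_lit 3) (nat_lit 0x180024001e000b00000001000080000000000000000000000000000000) (nat_lit 0x0) (nat_lit 0x8000000040000c000200000000000000000000000000000000000) := T_29 (nat_lit 159) (nat_lit 211) (nat_lit 7) (nat_lit 6) (nat_lit 9) L82263 (by decide +kernel)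
theorem L82265 : W_29 (nat_lit 4) (nat_lit 0x80024001e000b00000001000080000000000000000000000000000000) (nat_lit 0x0) (nat_lit 0x2000100008000000040000c000200000000000000000000000000000000000) := T_29 (nat_lit 228) (nat_lit 245) (nat_lit 7) (nat_lit 6) (nat_lit 10) L82264 (by decide +kernel)
theorem L82266 : W_29 (nat_lit 5) (nat_lit 0x80024001e000300000001000080000000000000000000000000000000) (nat_lit 0x0) (nat_lit 0x20001000080000001c0000c000200000000000000000000000000000000000) := T_29 (nat_lit 179) (nat_lit 180) (nat_lit 2) (nat_lit 6) (nat_lit 11) L82265 (by decide +kernel)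
theorem L82267 : W_29 (nat_lit 6) (nat_lit 0x24001e000300000001000080000000000000000000000000000000) (nat_lit 0x0) (nat_lit 0x30001800080000001c0000c000200000000000000000000000000000000000) := T_29 (nat_lit 227) (nat_lit 244) (nat_lit 6) (nat_lit 6) (nat_lit 14) L82266 (by decide +kernel)
theorem L82297 : W_29 (nat_lit 2) (nat_lit 0x400000003c000e000300000001400080000000000000000000000000000000) (nat_lit 0x0) (nat_lit 0x10000c00000000000000000000000000000000000000000000000000000000) := D_29 (nat_lit 227) (nat_lit 244) (nat_lit 226) (nat_lit 6) (nat_lit 6) (nat_lit 14) (nat_lit 1) (nat_lit 9) (nat_lit 12) (by decide +kernel)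
theorem L82298 : W_29 (nat_lit 3) (nat_lit 0x400000001c000e000300000001400080000000000000000000000000000000) (nat_lit 0x0) (nat_lit 0x10000c00600000000000000000000000000000000000000000000000000000) := T_29 (nat_lit 213) (nat_lit 214) (nat_lit 0) (nat_lit 10) (nat_lit 12) L82297 (by decide +kernel)
theorem L82299 : W_29 (nat_lit 4) (nat_lit 0x1c000e000300000001400080000000000000000000000000000000) (nat_lit 0x0) (nat_lit 0x50002c00600000000000000000000000000000000000000000000000000000) := T_29 (nat_lit 246) (nat_lit 229) (nat_lit 4) (nat_lit 8) (nat_lit 14) L82298 (by decide +kernel)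
theorem L82300 : W_29 (nat_lit 5) (nat_lit 0x1c000e000300000001000080000000000000000000000000000000) (nat_lit 0x0) (nat_lit 0x50002c00600000000000008000400000000000000000000000000000000000) := T_29 (nat_lit 142) (nat_lit 159) (nat_lit 7) (nat_lit 6) (nat_lit 8) L82299 (by decide +kernel)
theorem L82307 : W_29 (nat_lit 2) (nat_lit 0xc0004000e000340008001000080000000000000000000000000000000) (nat_lit 0x0) (nat_lit 0x80000000000000000400020000000000000000000000000000000) := D_29 (nat_lit 142) (nat_lit 125) (nat_lit 211) (nat_lit 7) (nat_lit 6) (nat_lit 7) (nat_lit 7) (nat_lit 6) (nat_lit 8) (by decide +kernel)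
theorem L82308 : W_29 (nat_lit 3) (nat_lit 0xc0004000e000340000001000080000000000000000000000000000000) (nat_lit 0x0) (nat_lit 0xa0000000000008000400020000000000000000000000000000000) := T_29 (nat_lit 159) (nat_lit 209) (nat_lit 5) (nat_lit 6) (nat_lit 9) L82307 (by decide +kernel)
theorem L82309 : W_29 (nat_lit 4) (nat_lit 0x80004000e000340000001000080000000000000000000000000000000) (nat_lit 0x0) (nat_lit 0x80004000a0000000000008000400020000000000000000000000000000000) := T_29 (nat_lit 226) (nat_lit 243) (nat_lit 5) (nat_lit 6) (nat_lit 10) L82308 (by decide +kernel)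
theorem L82310 : W_29 (nat_lit 5) (nat_lit 0x80004000e000300000001000080000000000000000000000000000000) (nat_lit 0x0) (nat_lit 0x80004000a00000000c0008000400020000000000000000000000000000000) := T_29 (nat_lit 174) (nat_lit 175) (nat_lit 3) (nat_lit 4) (nat_lit 10) L82309 (by decide +kernel)
theorem L82311 : W_29 (nat_lit 6) (nat_lit 0x4000e000300000001000080000000000000000000000000000000) (nat_lit 0x0) (nat_lit 0x18000c000a00000000c0008000400020000000000000000000000000000000) := T_29 (nat_lit 227) (nat_lit 244) (nat_lit 6) (nat_lit 6) (nat_lit 14) L82310 (by decide +kernel)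
theorem L82321 : W_29 (nat_lit 2) (nat_lit 0xc000e000300000001000080000000000000000000000000000000) (nat_lit 0x0) (nat_lit 0x1000000000000000008000400000000000000000000000000000000000) := D_29 (nat_lit 159) (nat_lit 228) (nat_lit 142) (nat_lit 7) (nat_lit 6) (nat_lit 9) (nat_lit 7) (nat_lit 6) (nat_lit 8) (by decide +kernel)
theorem L82387 : W_29 (nat_lit 2) (nat_lit 0x7c000c000300000001000080000000000000000000000000000000) (nat_lit 0x0) (nat_lit 0x70000000000000000000000000000000000000000000000000) := D_29 (nat_lit 197) (nat_lit 196) (nat_lit 198) (nat_lit 2) (nat_lit 6) (nat_lit 12) (nat_lit 2) (nat_lit 7) (nat_lit 12) (by decide +kernel)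
theorem L82388 : W_29 (nat_lit 3) (nat_lit 0x3c000c000300000001000080000000000000000000000000000000) (nat_lit 0x0) (nat_lit 0xc00070000000000000000000000000000000000000000000000000) := T_29 (nat_lit 214) (nat_lit 215) (nat_lit 0) (nat_lit 11) (nat_lit 12) L82387 (by decide +kernel)
theorem L82389 : W_29 (nat_lit 2) (nat_lit 0x400040003c001c000300000001000080000000000000000000000000000000) (nat_lit 0x0) (nat_lit 0x1800080000000000000000000000000000000000000000000000000000000000000) := D_29 (nat_lit 247) (nat_lit 264) (nat_lit 263) (nat_lit 4) (nat_lit 9) (nat_lit 15) (nat_lit 5) (nat_lit 9) (nat_lit 11) (by decide +kernel)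
theorem L82390 : W_29 (nat_lit 3) (nat_lit 0x400000003c001c000300000001000080000000000000000000000000000000) (nat_lit 0x0) (nat_lit 0x180008000c000000000000000000000000000000000000000000000000000000000) := T_29 (nat_lit 230) (nat_lit 231) (nat_lit 3) (nat_lit 6) (nat_lit 12) L82389 (by decide +kernel)
theorem L82391 : W_29 (nat_lit 2) (nat_lit 0xc00030000d001380080000000000000000000000000000000) (nat_lit 0x0) (nat_lit 0x800400020000000000000000000000000000000) := D_29 (nat_lit 142) (nat_lit 125) (nat_lit 155) (nat_lit 7) (nat_lit 6) (nat_lit 7) (nat_lit 1) (nat_lit 6) (nat_lit 8) (by decide +kernel)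
theorem L82392 : W_29 (nat_lit 3) (nat_lit 0xc00030000d001300080000000000000000000000000000000) (nat_lit 0x0) (nat_lit 0x8004c0020000000000000000000000000000000) := T_29 (nat_lit 139) (nat_lit 138) (nat_lit 3) (nat_lit 2) (nat_lit 8) L82391 (by decide +kernel)
theorem L82393 : W_29 (nat_lit 4) (nat_lit 0xc00030000c001300080000000000000000000000000000000) (nat_lit 0x0) (nat_lit 0x38004c0020000000000000000000000000000000) := T_29 (nat_lit 156) (nat_lit 157) (nat_lit 3) (nat_lit 3) (nat_lit 9) L82392 (by decide +kernel)
theorem L82394 : W_29 (nat_lit 2) (nat_lit 0xc80034000e0012000a0000000000000000000000000000000) (nat_lit 0x0) (nat_lit 0x100010000800000000000000000000000000) := D_29 (nat_lit 124) (nat_lit 107) (nat_lit 140) (nat_lit 7) (nat_lit 5) (nat_lit 6) (nat_lit 6) (nat_lit 4) (nat_lit 11) (by decide +kernel)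
theorem L82395 : W_29 (nat_lit 3) (nat_lit 0xc00034000e0012000a0000000000000000000000000000000) (nat_lit 0x0) (nat_lit 0x10000800000000000100010000800000000000000000000000000) := T_29 (nat_lit 191) (nat_lit 208) (nat_lit 6) (nat_lit 4) (nat_lit 12) L82394 (by decide +kernel)
theorem L82396 : W_29 (nat_lit 4) (nat_lit 0xc00034000e001200080000000000000000000000000000000) (nat_lit 0x0) (nat_lit 0x10000800000000000500030000800000000000000000000000000) := T_29 (nat_lit 125) (nat_lit 142) (nat_lit 7) (nat_lit 6) (nat_lit 7) L82395 (by decide +kernel)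
theorem L82397 : W_29 (nat_lit 5) (nat_lit 0xc00034000c001200080000000000000000000000000000000) (nat_lit 0x0) (nat_lit 0x10000800000003000500030000800000000000000000000000000) := T_29 (nat_lit 157) (nat_lit 156) (nat_lit 3) (nat_lit 3) (nat_lit 9) L82396 (by decide +kernel)
theorem L82398 : W_29 (nat_lit 2) (nat_lit 0xc00034000e001600090000000000000000000000000000000) (nat_lit 0x0) (nat_lit 0x10000800000000000100000000000000000000000000000000000) := D_29 (nat_lit 191) (nat_lit 208) (nat_lit 140) (nat_lit 6) (nat_lit 4) (nat_lit 12) (nat_lit 6) (nat_lit 4) (nat_lit 11) (by decide +kernel)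
theorem L82399 : W_29 (nat_lit 3) (nat_lit 0xc00034000e001600080000000000000000000000000000000) (nat_lit 0x0) (nat_lit 0x10000800000000000100010000800000000000000000000000000) := T_29 (nat_lit 124) (nat_lit 107) (nat_lit 7) (nat_lit 5) (nat_lit 6) L82398 (by decide +kernel)
theorem L82400 : W_29 (nat_lit 4) (nat_lit 0xc00034000e001400080000000000000000000000000000000) (nat_lit 0x0) (nat_lit 0x10000800000000000b00010000800000000000000000000000000) := T_29 (nat_lit 141) (nat_lit 143) (nat_lit 1) (nat_lit 8) (nat_lit 8) L82399 (by decide +kernel)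
theorem L82403 : W_29 (nat_lit 2) (nat_lit 0xc00038000c0012000a0000000000000000000000000000000) (nat_lit 0x0) (nat_lit 0x10001800000000000000000000000000) := D_29 (nat_lit 124) (nat_lit 108) (nat_lit 107) (nat_lit 6) (nat_lit 5) (nat_lit 10) (nat_lit 7) (nat_lit 5) (nat_lit 6) (by decide +kernel)
theorem L82404 : W_29 (nat_lit 2) (nat_lit 0xd00038000e001600090000000000000000000000000000000) (nat_lit 0x0) (nat_lit 0x100008000400000000000000000000000000) := D_29 (nat_lit 123) (nat_lit 140) (nat_lit 106) (nat_lit 4) (nat_lit 5) (nat_lit 11) (nat_lit 4) (nat_lit 5) (nat_lit 10) (by decide +kernel)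
theorem L82405 : W_29 (nat_lit 3) (nat_lit 0xd00038000e001600080000000000000000000000000000000) (nat_lit 0x0) (nat_lit 0x100018000c00000000000000000000000000) := T_29 (nat_lit 124) (nat_lit 107) (nat_lit 7) (nat_lit 5) (nat_lit 6) L82404 (by decide +kernel)
theorem L82406 : W_29 (nat_lit 4) (nat_lit 0xd00038000e001400080000000000000000000000000000000) (nat_lit 0x0) (nat_lit 0xb00018000c00000000000000000000000000) := T_29 (nat_lit 141) (nat_lit 143) (nat_lit 1) (nat_lit 8) (nat_lit 8) L82405 (by decide +kernel)
theorem L82407 : W_29 (nat_lit 5) (nat_lit 0xc00038000e001400080000000000000000000000000000000) (nat_lit 0x0) (nat_lit 0x20001000000000000b00018000c00000000000000000000000000) := T_29 (nat_lit 192) (nat_lit 209) (nat_lit 6) (nat_lit 5) (nat_lit 12) L82406 (by decide +kernel)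
theorem L82408 : W_29 (nat_lit 6) (nat_lit 0xc00038000c001400080000000000000000000000000000000) (nat_lit 0x0) (nat_lit 0x20001000000003000b00018000c00000000000000000000000000) := T_29 (nat_lit 157) (nat_lit 156) (nat_lit 3) (nat_lit 3) (nat_lit 9) L82407 (by decide +kernel)
theorem L82409 : W_29 (nat_lit 2) (nat_lit 0x1000d00038000d0012000b8000000000000000000000000000000) (nat_lit 0x0) (nat_lit 0x600020000000000000000000000000000000000000000000000000000) := D_29 (nat_lit 209) (nat_lit 226) (nat_lit 225) (nat_lit 6) (nat_lit 5) (nat_lit 13) (nat_lit 5) (nat_lit 5) (nat_lit 9) (by decide +kernel)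
theorem L82410 : W_29 (nat_lit 3) (nat_lit 0xd00038000d0012000b8000000000000000000000000000000) (nat_lit 0x0) (nat_lit 0x600030000800000000000000000000000000000000000000000000000) := T_29 (nat_lit 208) (nat_lit 191) (nat_lit 5) (nat_lit 5) (nat_lit 8) L82409 (by decide +kernel)
theorem L82411 : W_29 (nat_lit 4) (nat_lit 0xc00038000d0012000b8000000000000000000000000000000) (nat_lit 0x0) (nat_lit 0x600030001800000000000100000000000000000000000000000000000) := T_29 (nat_lit 192) (nat_lit 140) (nat_lit 4) (nat_lit 5) (nat_lit 11) L82410 (by decide +kernel)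
theorem L82412 : W_29 (nat_lit 5) (nat_lit 0xc00038000d0012000b0000000000000000000000000000000) (nat_lit 0x0) (nat_lit 0x600030001800000000000100008000400000000000000000000000000) := T_29 (nat_lit 123) (nat_lit 106) (nat_lit 4) (nat_lit 5) (nat_lit 10) L82411 (by decide +kernel)
theorem L82415 : W_29 (nat_lit 2) (nat_lit 0x80007c0000000c000300000001000080000000000000000000000000000000) (nat_lit 0x0) (nat_lit 0x1c000000000000000000000000000000000000000000000000000000000000) := D_29 (nat_lit 243) (nat_lit 242) (nat_lit 244) (nat_lit 1) (nat_lit 8) (nat_lit 13) (nat_lit 1) (nat_lit 9) (nat_lit 13) (by decide +kernel)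
theorem L82416 : W_29 (nat_lit 3) (nat_lit 0x8000780000000c000300000001000080000000000000000000000000000000) (nat_lit 0x0) (nat_lit 0x5c000400000000000000000000000000000000000000000000000000000000) := T_29 (nat_lit 226) (nat_lit 246) (nat_lit 3) (nat_lit 5) (nat_lit 13) L82415 (by decide +kernel)
theorem L82417 : W_29 (nat_lit 4) (nat_lit 0x780000000c000300000001000080000000000000000000000000000000) (nat_lit 0x0) (nat_lit 0x1dc000400000000000000000000000000000000000000000000000000000000) := T_29 (nat_lit 247) (nat_lit 248) (nat_lit 3) (nat_lit 6) (nat_lit 13) L82416 (by decide +kernel)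
theorem L82526 : W_29 (nat_lit 2) (nat_lit 0x10000c0003800040016000a0000000000000000000000000000000) (nat_lit 0x0) (nat_lit 0x2000800100000000000000000000000000000000) := D_29 (nat_lit 143) (nat_lit 128) (nat_lit 157) (nat_lit 2) (nat_lit 5) (nat_lit 8) (nat_lit 1) (nat_lit 8) (nat_lit 8) (by decide +kernel)
theorem L82530 : W_29 (nat_lit 2) (nat_lit 0xc000300004001e00090000000000000000000000000000000) (nat_lit 0x0) (nat_lit 0x8000000020000800000000000000000000000000) := D_29 (nat_lit 159) (nat_lit 125) (nat_lit 107) (nat_lit 7) (nat_lit 6) (nat_lit 7) (nat_lit 7) (nat_lit 5) (nat_lit 6) (by decide +kernel)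
theorem L82531 : W_29 (nat_lit 3) (nat_lit 0xc000300004001e00080000000000000000000000000000000) (nat_lit 0x0) (nat_lit 0x8000000038000800000000000000000000000000) := T_29 (nat_lit 124) (nat_lit 123) (nat_lit 0) (nat_lit 8) (nat_lit 8) L82530 (by decide +kernel)
theorem L82532 : W_29 (nat_lit 4) (nat_lit 0xc000300000001e00080000000000000000000000000000000) (nat_lit 0x0) (nat_lit 0xe000000038000800000000000000000000000000) := T_29 (nat_lit 158) (nat_lit 157) (nat_lit 1) (nat_lit 8) (nat_lit 8) L82531 (by decide +kernel)
theorem L82533 : W_29 (nat_lit 5) (nat_lit 0xc000300000001600080000000000000000000000000000000) (nat_lit 0x0) (nat_lit 0xe000800138000800000000000000000000000000) := T_29 (nat_lit 143) (nat_lit 128) (nat_lit 2) (nat_lit 5) (nat_lit 8) L82532 (by decide +kernel)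
theorem L82534 : W_29 (nat_lit 2) (nat_lit 0x2c0003800040016000a0000000000000000000000000000000) (nat_lit 0x0) (nat_lit 0x10001000080000000000000000000000) := D_29 (nat_lit 108) (nat_lit 124) (nat_lit 91) (nat_lit 6) (nat_lit 5) (nat_lit 10) (nat_lit 5) (nat_lit 6) (nat_lit 5) (by decide +kernel)
theorem L82535 : W_29 (nat_lit 3) (nat_lit 0x2c0003800000016000a0000000000000000000000000000000) (nat_lit 0x0) (nat_lit 0x1000000004000000010001000080000000000000000000000) := T_29 (nat_lit 158) (nat_lit 192) (nat_lit 6) (nat_lit 5) (nat_lit 11) L82534 (by decide +kernel)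
theorem L82536 : W_29 (nat_lit 4) (nat_lit 0x2c0003000000016000a0000000000000000000000000000000) (nat_lit 0x0) (nat_lit 0x10000c0004000000010001000080000000000000000000000) := T_29 (nat_lit 175) (nat_lit 174) (nat_lit 3) (nat_lit 4) (nat_lit 10) L82535 (by decide +kernel)
theorem L82537 : W_29 (nat_lit 5) (nat_lit 0xc0003000000016000a0000000000000000000000000000000) (nat_lit 0x0) (nat_lit 0x310000c0004000000010001000080000000000000000000000) := T_29 (nat_lit 197) (nat_lit 196) (nat_lit 0) (nat_lit 10) (nat_lit 11) L82536 (by decide +kernel)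
theorem L82538 : W_29 (nat_lit 6) (nat_lit 0xc000300000001600080000000000000000000000000000000) (nat_lit 0x0) (nat_lit 0x310000c000c000000030001000080000000000000000000000) := T_29 (nat_lit 125) (nat_lit 159) (nat_lit 7) (nat_lit 6) (nat_lit 7) L82537 (by decide +kernel)
theorem L82539 : W_29 (nat_lit 5) (nat_lit 0xc000340000001600080000000000000000000000000000000) (nat_lit 0x0) (nat_lit 0x800000007000900118000000000000000000000000000000) := T_29 (nat_lit 143) (nat_lit 128) (nat_lit 2) (nat_lit 5) (nat_lit 8) L5333 (by decide +kernel)
theorem L82540 : W_29 (nat_lit 6) (nat_lit 0xc000300000001600080000000000000000000000000000000) (nat_lit 0x0) (nat_lit 0x8000c0007000900118000000000000000000000000000000) := T_29 (nat_lit 174) (nat_lit 175) (nat_lit 3) (nat_lit 4) (nat_lit 10) L82539 (by decide +kernel)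
theorem L82541 : W_29 (nat_lit 2) (nat_lit 0x2c000300001001780084000000000000000000000000000000) (nat_lit 0x0) (nat_lit 0x2000800008000000000000000000000000000000) := D_29 (nat_lit 143) (nat_lit 157) (nat_lit 123) (nat_lit 1) (nat_lit 7) (nat_lit 8) (nat_lit 0) (nat_lit 7) (nat_lit 8) (by decide +kernel)
theorem L82542 : W_29 (nat_lit 3) (nat_lit 0x2c000300001001780080000000000000000000000000000000) (nat_lit 0x0) (nat_lit 0x200080000e000000000000000000000000000000) := T_29 (nat_lit 122) (nat_lit 121) (nat_lit 0) (nat_lit 6) (nat_lit 8) L82541 (by decide +kernel)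
theorem L82543 : W_29 (nat_lit 4) (nat_lit 0x2c000300000001780080000000000000000000000000000000) (nat_lit 0x0) (nat_lit 0x380080000e000000000000000000000000000000) := T_29 (nat_lit 156) (nat_lit 155) (nat_lit 1) (nat_lit 6) (nat_lit 8) L82542 (by decide +kernel)
theorem L82544 : W_29 (nat_lit 5) (nat_lit 0xc000300000001780080000000000000000000000000000000) (nat_lit 0x0) (nat_lit 0x3000000000380080000e000000000000000000000000000000) := T_29 (nat_lit 197) (nat_lit 196) (nat_lit 0) (nat_lit 10) (nat_lit 11) L82543 (by decide +kernel)
theorem L82545 : W_29 (nat_lit 2) (nat_lit 0xc000340001001780084000000000000000000000000000000) (nat_lit 0x0) (nat_lit 0x800020002000000000000000000000000000000000000000) := D_29 (nat_lit 191) (nat_lit 157) (nat_lit 173) (nat_lit 4) (nat_lit 4) (nat_lit 11) (nat_lit 7) (nat_lit 3) (nat_lit 7) (by decide +kernel)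
theorem L82546 : W_29 (nat_lit 3) (nat_lit 0xc000340000001780084000000000000000000000000000000) (nat_lit 0x0) (nat_lit 0x800020003800000000000000000000000000000000000000) := T_29 (nat_lit 156) (nat_lit 155) (nat_lit 1) (nat_lit 6) (nat_lit 8) L82545 (by decide +kernel)
theorem L82547 : W_29 (nat_lit 4) (nat_lit 0xc000340000001780080000000000000000000000000000000) (nat_lit 0x0) (nat_lit 0x800020003800000006000000000000000000000000000000) := T_29 (nat_lit 122) (nat_lit 121) (nat_lit 0) (nat_lit 6) (nat_lit 8) L82546 (by decide +kernel)
theorem L82548 : W_29 (nat_lit 5) (nat_lit 0xc000300000001780080000000000000000000000000000000) (nat_lit 0x0) (nat_lit 0x8000e0003800000006000000000000000000000000000000) := T_29 (nat_lit 174) (nat_lit 175) (nat_lit 3) (nat_lit 4) (nat_lit 10) L82547 (by decide +kernel)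
theorem L82549 : W_29 (nat_lit 2) (nat_lit 0xc000300000001f00080000000000000000000000000000000) (nat_lit 0x0) (nat_lit 0x1c000000000000000000000000000000) := D_29 (nat_lit 123) (nat_lit 122) (nat_lit 124) (nat_lit 0) (nat_lit 7) (nat_lit 8) (nat_lit 0) (nat_lit 8) (nat_lit 8) (by decide +kernel)
theorem L82550 : W_29 (nat_lit 2) (nat_lit 0xc000300004001e000a0000000000000000000000000000000) (nat_lit 0x0) (nat_lit 0x10000c0000000000000000000000000000000000000000000) := D_29 (nat_lit 175) (nat_lit 192) (nat_lit 174) (nat_lit 6) (nat_lit 5) (nat_lit 11) (nat_lit 3) (nat_lit 4) (nat_lit 10) (by decide +kernel)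
theorem L82551 : W_29 (nat_lit 3) (nat_lit 0xc000300004001e00080000000000000000000000000000000) (nat_lit 0x0) (nat_lit 0x10000c0008000000020000000000000000000000000000000) := T_29 (nat_lit 125) (nat_lit 159) (nat_lit 7) (nat_lit 6) (nat_lit 7) L82550 (by decide +kernel)
theorem L82552 : W_29 (nat_lit 4) (nat_lit 0xc000300000001e00080000000000000000000000000000000) (nat_lit 0x0) (nat_lit 0x10000c000e000000020000000000000000000000000000000) := T_29 (nat_lit 158) (nat_lit 157) (nat_lit 1) (nat_lit 8) (nat_lit 8) L82551 (by decide +kernel)
theorem L82553 : W_29 (nat_lit 5) (nat_lit 0xc000300000001600080000000000000000000000000000000) (nat_lit 0x0) (nat_lit 0x10000c000e000800120000000000000000000000000000000) := T_29 (nat_lit 143) (nat_lit 128) (nat_lit 2) (nat_lit 5) (nat_lit 8) L82552 (by decide +kernel)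
theorem L82554 : W_29 (nat_lit 2) (nat_lit 0xc000300002001e00088000000000000000000000000000000) (nat_lit 0x0) (nat_lit 0x1000100004000000000000000000000000000000) := D_29 (nat_lit 140) (nat_lit 156) (nat_lit 122) (nat_lit 1) (nat_lit 7) (nat_lit 8) (nat_lit 0) (nat_lit 7) (nat_lit 8) (by decide +kernel)
theorem L82555 : W_29 (nat_lit 3) (nat_lit 0xc000300002001e00080000000000000000000000000000000) (nat_lit 0x0) (nat_lit 0x100010001c000000000000000000000000000000) := T_29 (nat_lit 123) (nat_lit 124) (nat_lit 0) (nat_lit 8) (nat_lit 8) L82554 (by decide +kernel)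
theorem L82556 : W_29 (nat_lit 4) (nat_lit 0xc000300000001e00080000000000000000000000000000000) (nat_lit 0x0) (nat_lit 0x700010001c000000000000000000000000000000) := T_29 (nat_lit 157) (nat_lit 158) (nat_lit 1) (nat_lit 8) (nat_lit 8) L82555 (by decide +kernel)
theorem L82557 : W_29 (nat_lit 2) (nat_lit 0x2802c800340002001f00080000000000000000000000000000000) (nat_lit 0x0) (nat_lit 0x500010000000000000000000000000000000000000000000000000000) := D_29 (nat_lit 208) (nat_lit 224) (nat_lit 226) (nat_lit 5) (nat_lit 4) (nat_lit 9) (nat_lit 7) (nat_lit 4) (nat_lit 9) (by decide +kernel)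
theorem L82558 : W_29 (nat_lit 3) (nat_lit 0x802c800340002001f00080000000000000000000000000000000) (nat_lit 0x0) (nat_lit 0x500030001000000000000000000000000000000000000000000000000) := T_29 (nat_lit 209) (nat_lit 192) (nat_lit 7) (nat_lit 4) (nat_lit 8) L82557 (by decide +kernel)
theorem L82559 : W_29 (nat_lit 4) (nat_lit 0x2c800340002001f00080000000000000000000000000000000) (nat_lit 0x0) (nat_lit 0x500038001400000000000000000000000000000000000000000000000) := T_29 (nat_lit 207) (nat_lit 190) (nat_lit 5) (nat_lit 4) (nat_lit 8) L82558 (by decide +kernel)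
theorem L82560 : W_29 (nat_lit 5) (nat_lit 0x2c000340002001f00080000000000000000000000000000000) (nat_lit 0x0) (nat_lit 0x500038001c00000000000000010000000000000000000000000000000) := T_29 (nat_lit 191) (nat_lit 124) (nat_lit 6) (nat_lit 4) (nat_lit 11) L82559 (by decide +kernel)
theorem L82561 : W_29 (nat_lit 6) (nat_lit 0x2c000300002001f00080000000000000000000000000000000) (nat_lit 0x0) (nat_lit 0x500038001c000c0000000000010000000000000000000000000000000) := T_29 (nat_lit 174) (nat_lit 175) (nat_lit 3) (nat_lit 4) (nat_lit 10) L82560 (by decide +kernel)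
theorem L82562 : W_29 (nat_lit 7) (nat_lit 0x2c000300000001f00080000000000000000000000000000000) (nat_lit 0x0) (nat_lit 0x500038001c000c0003000000010000000000000000000000000000000) := T_29 (nat_lit 157) (nat_lit 156) (nat_lit 1) (nat_lit 7) (nat_lit 8) L82561 (by decide +kernel)
theorem L82563 : W_29 (nat_lit 8) (nat_lit 0xc000300000001f00080000000000000000000000000000000) (nat_lit 0x0) (nat_lit 0x500038031c000c0003000000010000000000000000000000000000000) := T_29 (nat_lit 197) (nat_lit 196) (nat_lit 0) (nat_lit 10) (nat_lit 11) L82562 (by decide +kernel)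
theorem L82564 : W_29 (nat_lit 2) (nat_lit 0x2c000340000001f80084000000000000000000000000000000) (nat_lit 0x0) (nat_lit 0x800000003000000000000000000000000000000000000000) := D_29 (nat_lit 157) (nat_lit 156) (nat_lit 191) (nat_lit 1) (nat_lit 7) (nat_lit 8) (nat_lit 4) (nat_lit 4) (nat_lit 11) (by decide +kernel)
theorem L82565 : W_29 (nat_lit 3) (nat_lit 0x2c000340000001f00084000000000000000000000000000000) (nat_lit 0x0) (nat_lit 0x800000003000080002000000000000000000000000000000) := T_29 (nat_lit 139) (nat_lit 121) (nat_lit 0) (nat_lit 6) (nat_lit 8) L82564 (by decide +kernel)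
theorem L82566 : W_29 (nat_lit 4) (nat_lit 0xc000340000001f00084000000000000000000000000000000) (nat_lit 0x0) (nat_lit 0x30800000003000080002000000000000000000000000000000) := T_29 (nat_lit 197) (nat_lit 196) (nat_lit 0) (nat_lit 10) (nat_lit 11) L82565 (by decide +kernel)
theorem L82567 : W_29 (nat_lit 5) (nat_lit 0xc000340000001f00080000000000000000000000000000000) (nat_lit 0x0) (nat_lit 0x3080000000300008000e000000000000000000000000000000) := T_29 (nat_lit 122) (nat_lit 123) (nat_lit 0) (nat_lit 7) (nat_lit 8) L82566 (by decide +kernel)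
theorem L82568 : W_29 (nat_lit 6) (nat_lit 0xc000300000001f00080000000000000000000000000000000) (nat_lit 0x0) (nat_lit 0x308000c000300008000e000000000000000000000000000000) := T_29 (nat_lit 174) (nat_lit 175) (nat_lit 3) (nat_lit 4) (nat_lit 10) L82567 (by decide +kernel)
theorem L82569 : W_29 (nat_lit 9) (nat_lit 0xc000300000001e00080000000000000000000000000000000) (nat_lit 0x0) (nat_lit 0x500038031c000c000300018001e000000000000000000000000000000) := Q_29 (nat_lit 140) (C_29 L82549 (C_29 L82563 (C_29 L82568 N_29))) (by decide +kernel)
theorem L82570 : W_29 (nat_lit 2) (nat_lit 0x2c0003000010017e0092000000000000000000000000000000) (nat_lit 0x0) (nat_lit 0x6000010000000000000000000000000000000000) := D_29 (nat_lit 157) (nat_lit 136) (nat_lit 158) (nat_lit 3) (nat_lit 0) (nat_lit 8) (nat_lit 3) (nat_lit 1) (nat_lit 8) (by decide +kernel)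
theorem L82571 : W_29 (nat_lit 3) (nat_lit 0x2c0003000010017c0092000000000000000000000000000000) (nat_lit 0x0) (nat_lit 0x6000030008000000000000000000000000000000) := T_29 (nat_lit 137) (nat_lit 123) (nat_lit 2) (nat_lit 1) (nat_lit 8) L82570 (by decide +kernel)
theorem L82572 : W_29 (nat_lit 4) (nat_lit 0x2c0003000010017c0082000000000000000000000000000000) (nat_lit 0x0) (nat_lit 0x6000030038000000000000000000000000000000) := T_29 (nat_lit 124) (nat_lit 125) (nat_lit 2) (nat_lit 2) (nat_lit 8) L82571 (by decide +kernel)
theorem L82573 : W_29 (nat_lit 5) (nat_lit 0x2c000300001001780082000000000000000000000000000000) (nat_lit 0x0) (nat_lit 0x6000070039000000000000000000000000000000) := T_29 (nat_lit 138) (nat_lit 120) (nat_lit 0) (nat_lit 5) (nat_lit 8) L82572 (by decide +kernel)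
theorem L82574 : W_29 (nat_lit 6) (nat_lit 0xc000300001001780082000000000000000000000000000000) (nat_lit 0x0) (nat_lit 0x30000000006000070039000000000000000000000000000000) := T_29 (nat_lit 197) (nat_lit 196) (nat_lit 0) (nat_lit 10) (nat_lit 11) L82573 (by decide +kernel)
theorem L82575 : W_29 (nat_lit 7) (nat_lit 0xc000300001001780080000000000000000000000000000000) (nat_lit 0x0) (nat_lit 0x3000000000600007003f000000000000000000000000000000) := T_29 (nat_lit 121) (nat_lit 122) (nat_lit 0) (nat_lit 6) (nat_lit 8) L82574 (by decide +kernel)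
theorem L82576 : W_29 (nat_lit 8) (nat_lit 0xc000300000001780080000000000000000000000000000000) (nat_lit 0x0) (nat_lit 0x3000000000780007003f000000000000000000000000000000) := T_29 (nat_lit 156) (nat_lit 155) (nat_lit 1) (nat_lit 6) (nat_lit 8) L82575 (by decide +kernel)
theorem L82577 : W_29 (nat_lit 2) (nat_lit 0x2c000360001001780084000000000000000000000000000000) (nat_lit 0x0) (nat_lit 0x400000000000000008000400000000000000000000000000) := D_29 (nat_lit 123) (nat_lit 190) (nat_lit 106) (nat_lit 6) (nat_lit 3) (nat_lit 11) (nat_lit 6) (nat_lit 3) (nat_lit 10) (by decide +kernel)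
theorem L82578 : W_29 (nat_lit 3) (nat_lit 0x2c000340001001780084000000000000000000000000000000) (nat_lit 0x0) (nat_lit 0xc00020000000000008000400000000000000000000000000) := T_29 (nat_lit 173) (nat_lit 191) (nat_lit 7) (nat_lit 3) (nat_lit 7) L82577 (by decide +kernel)
theorem L82579 : W_29 (nat_lit 4) (nat_lit 0x2c000340001001780080000000000000000000000000000000) (nat_lit 0x0) (nat_lit 0xc0002000000000000e000400000000000000000000000000) := T_29 (nat_lit 122) (nat_lit 121) (nat_lit 0) (nat_lit 6) (nat_lit 8) L82578 (by decide +kernel)
theorem L82580 : W_29 (nat_lit 5) (nat_lit 0x2c000340000001780080000000000000000000000000000000) (nat_lit 0x0) (nat_lit 0xc0002000180000000e000400000000000000000000000000) := T_29 (nat_lit 156) (nat_lit 155) (nat_lit 1) (nat_lit 6) (nat_lit 8) L82579 (by decide +kernel)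
theorem L82581 : W_29 (nat_lit 6) (nat_lit 0x2c000300000001780080000000000000000000000000000000) (nat_lit 0x0) (nat_lit 0xc000e000180000000e000400000000000000000000000000) := T_29 (nat_lit 174) (nat_lit 175) (nat_lit 3) (nat_lit 4) (nat_lit 10) L82580 (by decide +kernel)
theorem L82582 : W_29 (nat_lit 7) (nat_lit 0xc000300000001780080000000000000000000000000000000) (nat_lit 0x0) (nat_lit 0x30c000e000180000000e000400000000000000000000000000) := T_29 (nat_lit 197) (nat_lit 196) (nat_lit 0) (nat_lit 10) (nat_lit 11) L82581 (by decide +kernel)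
theorem L82583 : W_29 (nat_lit 2) (nat_lit 0x2c000340002001780084000000000000000000000000000000) (nat_lit 0x0) (nat_lit 0x8000200010000000000000000000000) := D_29 (nat_lit 105) (nat_lit 123) (nat_lit 88) (nat_lit 4) (nat_lit 4) (nat_lit 10) (nat_lit 7) (nat_lit 3) (nat_lit 5) (by decide +kernel)
theorem L82584 : W_29 (nat_lit 3) (nat_lit 0x2c000340000001780084000000000000000000000000000000) (nat_lit 0x0) (nat_lit 0x800000002000000008000200010000000000000000000000) := T_29 (nat_lit 157) (nat_lit 191) (nat_lit 4) (nat_lit 4) (nat_lit 11) L82583 (by decide +kernel)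
theorem L82585 : W_29 (nat_lit 4) (nat_lit 0xc000340000001780084000000000000000000000000000000) (nat_lit 0x0) (nat_lit 0x30800000002000000008000200010000000000000000000000) := T_29 (nat_lit 197) (nat_lit 196) (nat_lit 0) (nat_lit 10) (nat_lit 11) L82584 (by decide +kernel)
theorem L82586 : W_29 (nat_lit 5) (nat_lit 0xc000300000001780084000000000000000000000000000000) (nat_lit 0x0) (nat_lit 0x308000c0002000000008000200010000000000000000000000) := T_29 (nat_lit 174) (nat_lit 175) (nat_lit 3) (nat_lit 4) (nat_lit 10) L82585 (by decide +kernel)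
theorem L82587 : W_29 (nat_lit 6) (nat_lit 0xc000300000001780080000000000000000000000000000000) (nat_lit 0x0) (nat_lit 0x308000c000200000000e000200010000000000000000000000) := T_29 (nat_lit 122) (nat_lit 121) (nat_lit 0) (nat_lit 6) (nat_lit 8) L82586 (by decide +kernel)
theorem L82588 : W_29 (nat_lit 2) (nat_lit 0x2c0003400008017e0092000000000000000000000000000000) (nat_lit 0x0) (nat_lit 0x800000006000000000000000000000000000000000000000) := D_29 (nat_lit 157) (nat_lit 191) (nat_lit 158) (nat_lit 6) (nat_lit 4) (nat_lit 11) (nat_lit 3) (nat_lit 1) (nat_lit 8) (by decide +kernel)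
theorem L82589 : W_29 (nat_lit 3) (nat_lit 0x2c0003400008017c0092000000000000000000000000000000) (nat_lit 0x0) (nat_lit 0x800000006000020008000000000000000000000000000000) := T_29 (nat_lit 137) (nat_lit 123) (nat_lit 2) (nat_lit 1) (nat_lit 8) L82588 (by decide +kernel)
theorem L82590 : W_29 (nat_lit 4) (nat_lit 0x2c0003400008017c0082000000000000000000000000000000) (nat_lit 0x0) (nat_lit 0x800000006000020038000000000000000000000000000000) := T_29 (nat_lit 124) (nat_lit 125) (nat_lit 2) (nat_lit 2) (nat_lit 8) L82589 (by decide +kernel)
theorem L82591 : W_29 (nat_lit 5) (nat_lit 0x2c0003400008017c0080000000000000000000000000000000) (nat_lit 0x0) (nat_lit 0x80000000600002003b000000000000000000000000000000) := T_29 (nat_lit 121) (nat_lit 120) (nat_lit 0) (nat_lit 5) (nat_lit 8) L82590 (by decide +kernel)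
theorem L82592 : W_29 (nat_lit 6) (nat_lit 0x2c000340000801780080000000000000000000000000000000) (nat_lit 0x0) (nat_lit 0x80000000640006003b000000000000000000000000000000) := T_29 (nat_lit 138) (nat_lit 154) (nat_lit 1) (nat_lit 5) (nat_lit 8) L82591 (by decide +kernel)
theorem L82593 : W_29 (nat_lit 7) (nat_lit 0xc000340000801780080000000000000000000000000000000) (nat_lit 0x0) (nat_lit 0x3080000000640006003b000000000000000000000000000000) := T_29 (nat_lit 197) (nat_lit 196) (nat_lit 0) (nat_lit 10) (nat_lit 11) L82592 (by decide +kernel)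
theorem L82594 : W_29 (nat_lit 8) (nat_lit 0xc000340000001780080000000000000000000000000000000) (nat_lit 0x0) (nat_lit 0x30800000007c0006003b000000000000000000000000000000) := T_29 (nat_lit 155) (nat_lit 156) (nat_lit 1) (nat_lit 6) (nat_lit 8) L82593 (by decide +kernel)
theorem L82595 : W_29 (nat_lit 9) (nat_lit 0xc000300000001780080000000000000000000000000000000) (nat_lit 0x0) (nat_lit 0x308000c0007c0006003b000000000000000000000000000000) := T_29 (nat_lit 174) (nat_lit 175) (nat_lit 3) (nat_lit 4) (nat_lit 10) L82594 (by decide +kernel)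
theorem L82596 : W_29 (nat_lit 2) (nat_lit 0x2c0003400008017e0090000000000000000000000000000000) (nat_lit 0x0) (nat_lit 0x800000006000000000000000000000000000000000000000) := D_29 (nat_lit 157) (nat_lit 191) (nat_lit 158) (nat_lit 6) (nat_lit 4) (nat_lit 11) (nat_lit 3) (nat_lit 1) (nat_lit 8) (by decide +kernel)
theorem L82597 : W_29 (nat_lit 3) (nat_lit 0x2c0003400008017c0090000000000000000000000000000000) (nat_lit 0x0) (nat_lit 0x800000006000020008000000000000000000000000000000) := T_29 (nat_lit 137) (nat_lit 123) (nat_lit 2) (nat_lit 1) (nat_lit 8) L82596 (by decide +kernel)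
theorem L82598 : W_29 (nat_lit 4) (nat_lit 0x2c0003400008017c0080000000000000000000000000000000) (nat_lit 0x0) (nat_lit 0x800000006000020038000000000000000000000000000000) := T_29 (nat_lit 124) (nat_lit 125) (nat_lit 2) (nat_lit 2) (nat_lit 8) L82597 (by decide +kernel)
theorem L82599 : W_29 (nat_lit 5) (nat_lit 0x2c000340000801780080000000000000000000000000000000) (nat_lit 0x0) (nat_lit 0x800000006400060038000000000000000000000000000000) := T_29 (nat_lit 138) (nat_lit 154) (nat_lit 1) (nat_lit 5) (nat_lit 8) L82598 (by decide +kernel)
theorem L82600 : W_29 (nat_lit 6) (nat_lit 0x2c000340000001780080000000000000000000000000000000) (nat_lit 0x0) (nat_lit 0x800000007c00060038000000000000000000000000000000) := T_29 (nat_lit 155) (nat_lit 156) (nat_lit 1) (nat_lit 6) (nat_lit 8) L82599 (by decide +kernel)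
theorem L82601 : W_29 (nat_lit 7) (nat_lit 0x2c000300000001780080000000000000000000000000000000) (nat_lit 0x0) (nat_lit 0x8000c0007c00060038000000000000000000000000000000) := T_29 (nat_lit 174) (nat_lit 175) (nat_lit 3) (nat_lit 4) (nat_lit 10) L82600 (by decide +kernel)
theorem L82602 : W_29 (nat_lit 8) (nat_lit 0xc000300000001780080000000000000000000000000000000) (nat_lit 0x0) (nat_lit 0x308000c0007c00060038000000000000000000000000000000) := T_29 (nat_lit 197) (nat_lit 196) (nat_lit 0) (nat_lit 10) (nat_lit 11) L82601 (by decide +kernel)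
theorem L82603 : W_29 (nat_lit 10) (nat_lit 0xc000300000001700080000000000000000000000000000000) (nat_lit 0x0) (nat_lit 0x30c000e0007c000f003f000600010000000000000000000000) := Q_29 (nat_lit 139) (C_29 L82548 (C_29 L82576 (C_29 L82582 (C_29 L82587 (C_29 L82595 (C_29 L82602 N_29)))))) (by decide +kernel)
theorem L82604 : W_29 (nat_lit 2) (nat_lit 0xc000300000001f00080000000000000000000000000000000) (nat_lit 0x0) (nat_lit 0x7000000000000000000000000000000000000000) := D_29 (nat_lit 157) (nat_lit 158) (nat_lit 156) (nat_lit 1) (nat_lit 8) (nat_lit 8) (nat_lit 1) (nat_lit 7) (nat_lit 8) (by decide +kernel)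
theorem L82605 : W_29 (nat_lit 3) (nat_lit 0xc000300000001700080000000000000000000000000000000) (nat_lit 0x0) (nat_lit 0x700080001c000000000000000000000000000000) := Q_29 (nat_lit 143) (C_29 L82549 (C_29 L82604 N_29)) (by decide +kernel)
theorem L82606 : W_29 (nat_lit 2) (nat_lit 0xc000300000001700088000000000000000000000000000000) (nat_lit 0x0) (nat_lit 0x800014000000000000000000000000000000) := D_29 (nat_lit 143) (nat_lit 124) (nat_lit 122) (nat_lit 0) (nat_lit 8) (nat_lit 8) (nat_lit 0) (nat_lit 7) (nat_lit 8) (by decide +kernel)
theorem L82607 : W_29 (nat_lit 2) (nat_lit 0xc000340003001780080000000000000000000000000000000) (nat_lit 0x0) (nat_lit 0x10000800000000000000010000000000000000000000000000000) := D_29 (nat_lit 191) (nat_lit 208) (nat_lit 124) (nat_lit 4) (nat_lit 4) (nat_lit 12) (nat_lit 6) (nat_lit 4) (nat_lit 11) (by decide +kernel)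
theorem L82608 : W_29 (nat_lit 3) (nat_lit 0xc000340001001780080000000000000000000000000000000) (nat_lit 0x0) (nat_lit 0x10000800000002000800010000000000000000000000000000000) := T_29 (nat_lit 157) (nat_lit 143) (nat_lit 1) (nat_lit 7) (nat_lit 8) L82607 (by decide +kernel)
theorem L82609 : W_29 (nat_lit 4) (nat_lit 0xc000300001001780080000000000000000000000000000000) (nat_lit 0x0) (nat_lit 0x100008000c0002000800010000000000000000000000000000000) := T_29 (nat_lit 174) (nat_lit 175) (nat_lit 3) (nat_lit 4) (nat_lit 10) L82608 (by decide +kernel)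
theorem L82610 : W_29 (nat_lit 5) (nat_lit 0xc000300000001780080000000000000000000000000000000) (nat_lit 0x0) (nat_lit 0x100008000c0003800800010000000000000000000000000000000) := T_29 (nat_lit 156) (nat_lit 155) (nat_lit 1) (nat_lit 6) (nat_lit 8) L82609 (by decide +kernel)
theorem L82611 : W_29 (nat_lit 8) (nat_lit 0xc000300000001700080000000000000000000000000000000) (nat_lit 0x0) (nat_lit 0x10030c000e000380088001e000600010000000000000000000000) := Q_29 (nat_lit 139) (C_29 L82587 (C_29 L82548 (C_29 L82544 (C_29 L82582 (C_29 L82610 N_29))))) (by decide +kernel)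
theorem L82612 : W_29 (nat_lit 2) (nat_lit 0x2c000380004001700088000000000000000000000000000000) (nat_lit 0x0) (nat_lit 0x10000400020000000000000000000000) := D_29 (nat_lit 106) (nat_lit 124) (nat_lit 89) (nat_lit 4) (nat_lit 5) (nat_lit 10) (nat_lit 7) (nat_lit 4) (nat_lit 5) (by decide +kernel)
theorem L82613 : W_29 (nat_lit 3) (nat_lit 0x2c000380000001700088000000000000000000000000000000) (nat_lit 0x0) (nat_lit 0x1000000004000000010000400020000000000000000000000) := T_29 (nat_lit 158) (nat_lit 192) (nat_lit 4) (nat_lit 5) (nat_lit 11) L82612 (by decide +kernel)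
theorem L82614 : W_29 (nat_lit 4) (nat_lit 0x2c000300000001700088000000000000000000000000000000) (nat_lit 0x0) (nat_lit 0x10000c0004000000010000400020000000000000000000000) := T_29 (nat_lit 175) (nat_lit 174) (nat_lit 3) (nat_lit 4) (nat_lit 10) L82613 (by decide +kernel)
theorem L82615 : W_29 (nat_lit 5) (nat_lit 0xc000300000001700088000000000000000000000000000000) (nat_lit 0x0) (nat_lit 0x310000c0004000000010000400020000000000000000000000) := T_29 (nat_lit 197) (nat_lit 196) (nat_lit 0) (nat_lit 10) (nat_lit 11) L82614 (by decide +kernel)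
theorem L82616 : W_29 (nat_lit 2) (nat_lit 0xc00034000000170008c000000000000000000000000000000) (nat_lit 0x0) (nat_lit 0x80003000000000000000000000000000000) := D_29 (nat_lit 121) (nat_lit 139) (nat_lit 120) (nat_lit 0) (nat_lit 6) (nat_lit 8) (nat_lit 3) (nat_lit 1) (nat_lit 7) (by decide +kernel)
theorem L82617 : W_29 (nat_lit 3) (nat_lit 0xc000340000001700088000000000000000000000000000000) (nat_lit 0x0) (nat_lit 0x880007000000000000000000000000000000) := T_29 (nat_lit 122) (nat_lit 143) (nat_lit 0) (nat_lit 7) (nat_lit 8) L82616 (by decide +kernel)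
theorem L82618 : W_29 (nat_lit 4) (nat_lit 0xc000300000001700088000000000000000000000000000000) (nat_lit 0x0) (nat_lit 0xc0000000880007000000000000000000000000000000) := T_29 (nat_lit 174) (nat_lit 175) (nat_lit 3) (nat_lit 4) (nat_lit 10) L82617 (by decide +kernel)
theorem L82619 : W_29 (nat_lit 6) (nat_lit 0xc000300000001700080000000000000000000000000000000) (nat_lit 0x0) (nat_lit 0x310000c000400088001f000400020000000000000000000000) := Q_29 (nat_lit 123) (C_29 L82615 (C_29 L82606 (C_29 L82618 N_29))) (by decide +kernel)
theorem L82620 : W_29 (nat_lit 2) (nat_lit 0x1002dc00340002001700080000000000000000000000000000000) (nat_lit 0x0) (nat_lit 0x1000080004000000000000000000000000000000) := D_29 (nat_lit 139) (nat_lit 156) (nat_lit 122) (nat_lit 4) (nat_lit 4) (nat_lit 12) (nat_lit 4) (nat_lit 4) (nat_lit 11) (by decide +kernel)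
theorem L82621 : W_29 (nat_lit 3) (nat_lit 0x2dc00340002001700080000000000000000000000000000000) (nat_lit 0x0) (nat_lit 0x10000000000005000080004000000000000000000000000000000) := T_29 (nat_lit 208) (nat_lit 158) (nat_lit 6) (nat_lit 4) (nat_lit 12) L82620 (by decide +kernel)
theorem L82622 : W_29 (nat_lit 4) (nat_lit 0x2cc00340002001700080000000000000000000000000000000) (nat_lit 0x0) (nat_lit 0x30001000000005000080004000000000000000000000000000000) := T_29 (nat_lit 192) (nat_lit 209) (nat_lit 7) (nat_lit 4) (nat_lit 8) L82621 (by decide +kernel)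
theorem L82623 : W_29 (nat_lit 5) (nat_lit 0x2c800340002001700080000000000000000000000000000000) (nat_lit 0x0) (nat_lit 0x38001400000005000080004000000000000000000000000000000) := T_29 (nat_lit 190) (nat_lit 207) (nat_lit 5) (nat_lit 4) (nat_lit 8) L82622 (by decide +kernel)
theorem L82624 : W_29 (nat_lit 6) (nat_lit 0x2c000340002001700080000000000000000000000000000000) (nat_lit 0x0) (nat_lit 0x38001c00000005000080014000000000000000000000000000000) := T_29 (nat_lit 191) (nat_lit 124) (nat_lit 6) (nat_lit 4) (nat_lit 11) L82623 (by decide +kernel)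
theorem L82625 : W_29 (nat_lit 7) (nat_lit 0x2c000300002001700080000000000000000000000000000000) (nat_lit 0x0) (nat_lit 0x38001c000c0005000080014000000000000000000000000000000) := T_29 (nat_lit 174) (nat_lit 175) (nat_lit 3) (nat_lit 4) (nat_lit 10) L82624 (by decide +kernel)
theorem L82626 : W_29 (nat_lit 8) (nat_lit 0xc000300002001700080000000000000000000000000000000) (nat_lit 0x0) (nat_lit 0x38031c000c0005000080014000000000000000000000000000000) := T_29 (nat_lit 197) (nat_lit 196) (nat_lit 0) (nat_lit 10) (nat_lit 11) L82625 (by decide +kernel)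
theorem L82627 : W_29 (nat_lit 2) (nat_lit 0xdc00340002001780080000000000000000000000000000000) (nat_lit 0x0) (nat_lit 0x1800800000000000000000000000000000000000) := D_29 (nat_lit 156) (nat_lit 155) (nat_lit 143) (nat_lit 1) (nat_lit 6) (nat_lit 8) (nat_lit 1) (nat_lit 7) (nat_lit 8) (by decide +kernel)
theorem L82628 : W_29 (nat_lit 3) (nat_lit 0xdc00340002001700080000000000000000000000000000000) (nat_lit 0x0) (nat_lit 0x1800880004000000000000000000000000000000) := T_29 (nat_lit 139) (nat_lit 122) (nat_lit 4) (nat_lit 4) (nat_lit 11) L82627 (by decide +kernel)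
theorem L82629 : W_29 (nat_lit 4) (nat_lit 0xcc00340002001700080000000000000000000000000000000) (nat_lit 0x0) (nat_lit 0x20001000000001800880004000000000000000000000000000000) := T_29 (nat_lit 192) (nat_lit 209) (nat_lit 7) (nat_lit 4) (nat_lit 8) L82628 (by decide +kernel)
theorem L82630 : W_29 (nat_lit 5) (nat_lit 0xc800340002001700080000000000000000000000000000000) (nat_lit 0x0) (nat_lit 0x28001400000001800880004000000000000000000000000000000) := T_29 (nat_lit 190) (nat_lit 207) (nat_lit 5) (nat_lit 4) (nat_lit 8) L82629 (by decide +kernel)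
theorem L82631 : W_29 (nat_lit 6) (nat_lit 0xc000340002001700080000000000000000000000000000000) (nat_lit 0x0) (nat_lit 0x28001c00000001800880014000000000000000000000000000000) := T_29 (nat_lit 191) (nat_lit 124) (nat_lit 6) (nat_lit 4) (nat_lit 11) L82630 (by decide +kernel)
theorem L82632 : W_29 (nat_lit 7) (nat_lit 0xc000300002001700080000000000000000000000000000000) (nat_lit 0x0) (nat_lit 0x28001c000c0001800880014000000000000000000000000000000) := T_29 (nat_lit 174) (nat_lit 175) (nat_lit 3) (nat_lit 4) (nat_lit 10) L82631 (by decide +kernel)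
theorem L82633 : W_29 (nat_lit 2) (nat_lit 0xc000300002001700080000000000000000000000000000000) (nat_lit 0x0) (nat_lit 0x5000800000000000000000000000000000000000) := D_29 (nat_lit 143) (nat_lit 158) (nat_lit 156) (nat_lit 1) (nat_lit 8) (nat_lit 8) (nat_lit 1) (nat_lit 7) (nat_lit 8) (by decide +kernel)
theorem L82634 : W_29 (nat_lit 6) (nat_lit 0xc000340002001f00080000000000000000000000000000000) (nat_lit 0x0) (nat_lit 0x500038031c00000000000000010000000000000000000000000000000) := T_29 (nat_lit 197) (nat_lit 196) (nat_lit 0) (nat_lit 10) (nat_lit 11) L82560 (by decide +kernel)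
theorem L82635 : W_29 (nat_lit 7) (nat_lit 0xc000300002001f00080000000000000000000000000000000) (nat_lit 0x0) (nat_lit 0x500038031c000c0000000000010000000000000000000000000000000) := T_29 (nat_lit 174) (nat_lit 175) (nat_lit 3) (nat_lit 4) (nat_lit 10) L82634 (by decide +kernel)
theorem L82636 : W_29 (nat_lit 8) (nat_lit 0xc000300002001700080000000000000000000000000000000) (nat_lit 0x0) (nat_lit 0x500038031c000c0004000800010000000000000000000000000000000) := T_29 (nat_lit 143) (nat_lit 158) (nat_lit 1) (nat_lit 8) (nat_lit 8) L82635 (by decide +kernel)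
theorem L82637 : W_29 (nat_lit 9) (nat_lit 0xc000300000001700080000000000000000000000000000000) (nat_lit 0x0) (nat_lit 0x500038031c000c0007800880014000000000000000000000000000000) := Q_29 (nat_lit 157) (C_29 L82626 (C_29 L82632 (C_29 L82633 (C_29 L82636 N_29)))) (by decide +kernel)
theorem L82638 : W_29 (nat_lit 2) (nat_lit 0x2dc003600030017c0080000000000000000000000000000000) (nat_lit 0x0) (nat_lit 0x4000030000000000000000000000000000000000) := D_29 (nat_lit 137) (nat_lit 158) (nat_lit 136) (nat_lit 3) (nat_lit 1) (nat_lit 8) (nat_lit 3) (nat_lit 0) (nat_lit 8) (by decide +kernel)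
theorem L82639 : W_29 (nat_lit 3) (nat_lit 0x2dc00360003001780080000000000000000000000000000000) (nat_lit 0x0) (nat_lit 0x4000070002000000000000000000000000000000) := T_29 (nat_lit 138) (nat_lit 121) (nat_lit 4) (nat_lit 3) (nat_lit 11) L82638 (by decide +kernel)
theorem L82640 : W_29 (nat_lit 4) (nat_lit 0x2cc00360003001780080000000000000000000000000000000) (nat_lit 0x0) (nat_lit 0x20001000000004000070002000000000000000000000000000000) := T_29 (nat_lit 192) (nat_lit 209) (nat_lit 7) (nat_lit 4) (nat_lit 8) L82639 (by decide +kernel)
theorem L82641 : W_29 (nat_lit 5) (nat_lit 0x2cc00340003001780080000000000000000000000000000000) (nat_lit 0x0) (nat_lit 0x2000100002000400007000a000000000000000000000000000000) := T_29 (nat_lit 173) (nat_lit 123) (nat_lit 6) (nat_lit 3) (nat_lit 11) L82640 (by decide +kernel)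
theorem L82642 : W_29 (nat_lit 6) (nat_lit 0x2c800340003001780080000000000000000000000000000000) (nat_lit 0x0) (nat_lit 0x2800140002000400007000a000000000000000000000000000000) := T_29 (nat_lit 190) (nat_lit 207) (nat_lit 5) (nat_lit 4) (nat_lit 8) L82641 (by decide +kernel)
theorem L82643 : W_29 (nat_lit 7) (nat_lit 0x2c000340003001780080000000000000000000000000000000) (nat_lit 0x0) (nat_lit 0x38001c0002000400007000a000000000000000000000000000000) := T_29 (nat_lit 191) (nat_lit 208) (nat_lit 4) (nat_lit 4) (nat_lit 12) L82642 (by decide +kernel)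
theorem L82644 : W_29 (nat_lit 8) (nat_lit 0x2c000340001001780080000000000000000000000000000000) (nat_lit 0x0) (nat_lit 0x38001c0002000600087000a000000000000000000000000000000) := T_29 (nat_lit 157) (nat_lit 143) (nat_lit 1) (nat_lit 7) (nat_lit 8) L82643 (by decide +kernel)
theorem L82645 : W_29 (nat_lit 9) (nat_lit 0x2c000340000001780080000000000000000000000000000000) (nat_lit 0x0) (nat_lit 0x38001c0002000780087000a000000000000000000000000000000) := T_29 (nat_lit 156) (nat_lit 155) (nat_lit 1) (nat_lit 6) (nat_lit 8) L82644 (by decide +kernel)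
theorem L82646 : W_29 (nat_lit 10) (nat_lit 0x2c000300000001780080000000000000000000000000000000) (nat_lit 0x0) (nat_lit 0x38001c000e000780087000a000000000000000000000000000000) := T_29 (nat_lit 174) (nat_lit 175) (nat_lit 3) (nat_lit 4) (nat_lit 10) L82645 (by decide +kernel)
theorem L82647 : W_29 (nat_lit 11) (nat_lit 0xc000300000001780080000000000000000000000000000000) (nat_lit 0x0) (nat_lit 0x38031c000e000780087000a000000000000000000000000000000) := T_29 (nat_lit 197) (nat_lit 196) (nat_lit 0) (nat_lit 10) (nat_lit 11) L82646 (by decide +kernel)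
theorem L82648 : W_29 (nat_lit 2) (nat_lit 0x2c000340003001780080000000000000000000000000000000) (nat_lit 0x0) (nat_lit 0x10000800000000000000004000000000000000000000000000000) := D_29 (nat_lit 191) (nat_lit 122) (nat_lit 208) (nat_lit 4) (nat_lit 4) (nat_lit 11) (nat_lit 4) (nat_lit 4) (nat_lit 12) (by decide +kernel)
theorem L82649 : W_29 (nat_lit 3) (nat_lit 0x2c000300003001780080000000000000000000000000000000) (nat_lit 0x0) (nat_lit 0x100008000c0000000000004000000000000000000000000000000) := T_29 (nat_lit 174) (nat_lit 175) (nat_lit 3) (nat_lit 4) (nat_lit 10) L82648 (by decide +kernel)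
theorem L82650 : W_29 (nat_lit 4) (nat_lit 0x2c000300001001780080000000000000000000000000000000) (nat_lit 0x0) (nat_lit 0x100008000c0002000800004000000000000000000000000000000) := T_29 (nat_lit 157) (nat_lit 143) (nat_lit 1) (nat_lit 7) (nat_lit 8) L82649 (by decide +kernel)
theorem L82651 : W_29 (nat_lit 5) (nat_lit 0xc000300001001780080000000000000000000000000000000) (nat_lit 0x0) (nat_lit 0x100308000c0002000800004000000000000000000000000000000) := T_29 (nat_lit 197) (nat_lit 196) (nat_lit 0) (nat_lit 10) (nat_lit 11) L82650 (by decide +kernel)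
theorem L82652 : W_29 (nat_lit 6) (nat_lit 0xc000300000001780080000000000000000000000000000000) (nat_lit 0x0) (nat_lit 0x100308000c0003800800004000000000000000000000000000000) := T_29 (nat_lit 156) (nat_lit 155) (nat_lit 1) (nat_lit 6) (nat_lit 8) L82651 (by decide +kernel)
theorem L82653 : W_29 (nat_lit 12) (nat_lit 0xc000300000001700080000000000000000000000000000000) (nat_lit 0x0) (nat_lit 0x38031c000e00078008f000e000600010000000000000000000000) := Q_29 (nat_lit 139) (C_29 L82587 (C_29 L82548 (C_29 L82544 (C_29 L82582 (C_29 L82647 (C_29 L82652 N_29)))))) (by decide +kernel)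
theorem L82654 : W_29 (nat_lit 2) (nat_lit 0x2000cc00340002001700088000000000000000000000000000000) (nat_lit 0x0) (nat_lit 0x400010000000000004000000000000000000000000000000000000000) := D_29 (nat_lit 208) (nat_lit 158) (nat_lit 226) (nat_lit 6) (nat_lit 4) (nat_lit 12) (nat_lit 7) (nat_lit 4) (nat_lit 9) (by decide +kernel)
theorem L82655 : W_29 (nat_lit 3) (nat_lit 0xcc00340002001700088000000000000000000000000000000) (nat_lit 0x0) (nat_lit 0x400030001000000004000000000000000000000000000000000000000) := T_29 (nat_lit 209) (nat_lit 192) (nat_lit 7) (nat_lit 4) (nat_lit 8) L82654 (by decide +kernel)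
theorem L82656 : W_29 (nat_lit 4) (nat_lit 0xcc00340002001700080000000000000000000000000000000) (nat_lit 0x0) (nat_lit 0x400030001000020004000000008000000000000000000000000000000) := T_29 (nat_lit 123) (nat_lit 173) (nat_lit 5) (nat_lit 4) (nat_lit 7) L82655 (by decide +kernel)
theorem L82657 : W_29 (nat_lit 5) (nat_lit 0xc800340002001700080000000000000000000000000000000) (nat_lit 0x0) (nat_lit 0x400038001400020004000000008000000000000000000000000000000) := T_29 (nat_lit 190) (nat_lit 207) (nat_lit 5) (nat_lit 4) (nat_lit 8) L82656 (by decide +kernel)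
theorem L82658 : W_29 (nat_lit 6) (nat_lit 0xc000340002001700080000000000000000000000000000000) (nat_lit 0x0) (nat_lit 0x400038001c00020004000000018000000000000000000000000000000) := T_29 (nat_lit 191) (nat_lit 124) (nat_lit 6) (nat_lit 4) (nat_lit 11) L82657 (by decide +kernel)
theorem L82659 : W_29 (nat_lit 7) (nat_lit 0xc000300002001700080000000000000000000000000000000) (nat_lit 0x0) (nat_lit 0x400038001c000e0004000000018000000000000000000000000000000) := T_29 (nat_lit 174) (nat_lit 175) (nat_lit 3) (nat_lit 4) (nat_lit 10) L82658 (by decide +kernel)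
theorem L82660 : W_29 (nat_lit 2) (nat_lit 0xdc00340003001700088000000000000000000000000000000) (nat_lit 0x0) (nat_lit 0x10000000000000800080000000000000000000000000000000000) := D_29 (nat_lit 139) (nat_lit 155) (nat_lit 208) (nat_lit 1) (nat_lit 6) (nat_lit 8) (nat_lit 4) (nat_lit 4) (nat_lit 12) (by decide +kernel)
theorem L82661 : W_29 (nat_lit 3) (nat_lit 0xdc00340002001700088000000000000000000000000000000) (nat_lit 0x0) (nat_lit 0x10000000000001800880000000000000000000000000000000000) := T_29 (nat_lit 156) (nat_lit 143) (nat_lit 1) (nat_lit 7) (nat_lit 8) L82660 (by decide +kernel)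
theorem L82662 : W_29 (nat_lit 4) (nat_lit 0xcc00340002001700088000000000000000000000000000000) (nat_lit 0x0) (nat_lit 0x30001000000001800880000000000000000000000000000000000) := T_29 (nat_lit 192) (nat_lit 209) (nat_lit 7) (nat_lit 4) (nat_lit 8) L82661 (by decide +kernel)
theorem L82663 : W_29 (nat_lit 5) (nat_lit 0xcc00340002001700080000000000000000000000000000000) (nat_lit 0x0) (nat_lit 0x30001000020001800880008000000000000000000000000000000) := T_29 (nat_lit 123) (nat_lit 173) (nat_lit 5) (nat_lit 4) (nat_lit 7) L82662 (by decide +kernel)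
theorem L82664 : W_29 (nat_lit 6) (nat_lit 0xc800340002001700080000000000000000000000000000000) (nat_lit 0x0) (nat_lit 0x38001400020001800880008000000000000000000000000000000) := T_29 (nat_lit 190) (nat_lit 207) (nat_lit 5) (nat_lit 4) (nat_lit 8) L82663 (by decide +kernel)
theorem L82665 : W_29 (nat_lit 7) (nat_lit 0xc000340002001700080000000000000000000000000000000) (nat_lit 0x0) (nat_lit 0x38001c00020001800880018000000000000000000000000000000) := T_29 (nat_lit 191) (nat_lit 124) (nat_lit 6) (nat_lit 4) (nat_lit 11) L82664 (by decide +kernel)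
theorem L82666 : W_29 (nat_lit 8) (nat_lit 0xc000300002001700080000000000000000000000000000000) (nat_lit 0x0) (nat_lit 0x38001c000e0001800880018000000000000000000000000000000) := T_29 (nat_lit 174) (nat_lit 175) (nat_lit 3) (nat_lit 4) (nat_lit 10) L82665 (by decide +kernel)
theorem L82667 : W_29 (nat_lit 9) (nat_lit 0xc000300000001700080000000000000000000000000000000) (nat_lit 0x0) (nat_lit 0x500038031c000e0007800880018000000000000000000000000000000) := Q_29 (nat_lit 157) (C_29 L82636 (C_29 L82659 (C_29 L82666 (C_29 L82633 N_29)))) (by decide +kernel)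
theorem L82668 : W_29 (nat_lit 13) (nat_lit 0xc000300000001600080000000000000000000000000000000) (nat_lit 0x0) (nat_lit 0x500038031c000e0007c009f003f000600030000000000000000000000) := Q_29 (nat_lit 140) (C_29 L82603 (C_29 L82605 (C_29 L82611 (C_29 L82619 (C_29 L82637 (C_29 L82653 (C_29 L82667 N_29))))))) (by decide +kernel)
theorem L82673 : W_29 (nat_lit 2) (nat_lit 0x38002c000300000001000080000000000000000000000000000000) (nat_lit 0x0) (nat_lit 0xc00040000000000000000000000000000000000000000000000000) := D_29 (nat_lit 214) (nat_lit 215) (nat_lit 198) (nat_lit 0) (nat_lit 11) (nat_lit 12) (nat_lit 2) (nat_lit 7) (nat_lit 12) (by decide +kernel)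
theorem L82687 : W_29 (nat_lit 2) (nat_lit 0xa0002000d000380006801000080000000000000000000000000000000) (nat_lit 0x0) (nat_lit 0x14000400000000000000000000000000000000000000000000000000000000) := D_29 (nat_lit 226) (nat_lit 244) (nat_lit 242) (nat_lit 7) (nat_lit 5) (nat_lit 10) (nat_lit 5) (nat_lit 5) (nat_lit 10) (by decide +kernel)
theorem L82688 : W_29 (nat_lit 3) (nat_lit 0x80002000d000380006801000080000000000000000000000000000000) (nat_lit 0x0) (nat_lit 0x14000600010000000000000000000000000000000000000000000000000000) := T_29 (nat_lit 225) (nat_lit 208) (nat_lit 5) (nat_lit 5) (nat_lit 9) L82687 (by decide +kernel)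
theorem L82689 : W_29 (nat_lit 4) (nat_lit 0x2000d000380006801000080000000000000000000000000000000) (nat_lit 0x0) (nat_lit 0x14000e00050000000000000000000000000000000000000000000000000000) := T_29 (nat_lit 227) (nat_lit 210) (nat_lit 7) (nat_lit 5) (nat_lit 9) L82688 (by decide +kernel)
theorem L82690 : W_29 (nat_lit 5) (nat_lit 0x2000d000380006001000080000000000000000000000000000000) (nat_lit 0x0) (nat_lit 0x14000e00050000000000001800000000000000000000000000000000000000) := T_29 (nat_lit 155) (nat_lit 156) (nat_lit 3) (nat_lit 2) (nat_lit 9) L82689 (by decide +kernel)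
theorem L82691 : W_29 (nat_lit 6) (nat_lit 0x2000d000380004001000080000000000000000000000000000000) (nat_lit 0x0) (nat_lit 0x14000e00050000000000003800100000000000000000000000000000000000) := T_29 (nat_lit 157) (nat_lit 140) (nat_lit 4) (nat_lit 5) (nat_lit 12) L82690 (by decide +kernel)
theorem L82736 : W_29 (nat_lit 2) (nat_lit 0xf800300000001000080000000000000000000000000000000) (nat_lit 0x0) (nat_lit 0x38000000000000000000000000000000000000000000000000000) := D_29 (nat_lit 208) (nat_lit 209) (nat_lit 207) (nat_lit 1) (nat_lit 8) (nat_lit 11) (nat_lit 1) (nat_lit 7) (nat_lit 11) (by decide +kernel)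
theorem L82737 : W_29 (nat_lit 3) (nat_lit 0xf000300000001000080000000000000000000000000000000) (nat_lit 0x0) (nat_lit 0x38000c00000000000000000000000000000000000000000000000) := T_29 (nat_lit 191) (nat_lit 190) (nat_lit 2) (nat_lit 3) (nat_lit 11) L82736 (by decide +kernel)
theorem L82841 : W_29 (nat_lit 2) (nat_lit 0x40007400380001001f00088000000000000000000000000000000) (nat_lit 0x0) (nat_lit 0x20000800080000000000000000000000000000000000) := D_29 (nat_lit 139) (nat_lit 155) (nat_lit 173) (nat_lit 1) (nat_lit 6) (nat_lit 8) (nat_lit 6) (nat_lit 3) (nat_lit 11) (by decide +kernel)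
theorem L82842 : W_29 (nat_lit 3) (nat_lit 0x40007400380000001f00088000000000000000000000000000000) (nat_lit 0x0) (nat_lit 0x20003800080000000000000000000000000000000000) := T_29 (nat_lit 156) (nat_lit 157) (nat_lit 1) (nat_lit 7) (nat_lit 8) L82841 (by decide +kernel)
theorem L82843 : W_29 (nat_lit 4) (nat_lit 0x40007400380000001e00088000000000000000000000000000000) (nat_lit 0x0) (nat_lit 0x20003800180004000000000000000000000000000000) := T_29 (nat_lit 140) (nat_lit 122) (nat_lit 0) (nat_lit 7) (nat_lit 8) L82842 (by decide +kernel)
theorem L82844 : W_29 (nat_lit 5) (nat_lit 0x40007400380000001e00080000000000000000000000000000000) (nat_lit 0x0) (nat_lit 0x2000380018001c000000000000000000000000000000) := T_29 (nat_lit 123) (nat_lit 124) (nat_lit 0) (nat_lit 8) (nat_lit 8) L82843 (by decide +kernel)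
theorem L82848 : W_29 (nat_lit 2) (nat_lit 0x4000e000380000001000080000000000000000000000000000000) (nat_lit 0x0) (nat_lit 0x10000800000000000000004000000000000000000000000000000000000000) := D_29 (nat_lit 227) (nat_lit 158) (nat_lit 244) (nat_lit 4) (nat_lit 6) (nat_lit 13) (nat_lit 6) (nat_lit 6) (nat_lit 14) (by decide +kernel)
theorem L82933 : W_29 (nat_lit 4) (nat_lit 0x1c00040007000300000001000080000000000000000000000000000000) (nat_lit 0x0) (nat_lit 0x200000000e0007000000000000000000000000000000000000000) := T_29 (nat_lit 175) (nat_lit 158) (nat_lit 4) (nat_lit 6) (nat_lit 13) L79670 (by decide +kernel)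
theorem L82934 : W_29 (nat_lit 5) (nat_lit 0xc00040007000300000001000080000000000000000000000000000000) (nat_lit 0x0) (nat_lit 0x200010000200000000e0007000000000000000000000000000000000000000) := T_29 (nat_lit 228) (nat_lit 245) (nat_lit 7) (nat_lit 6) (nat_lit 10) L82933 (by decide +kernel)
theorem L82935 : W_29 (nat_lit 6) (nat_lit 0x800040007000300000001000080000000000000000000000000000000) (nat_lit 0x0) (nat_lit 0x280014000200000000e0007000000000000000000000000000000000000000) := T_29 (nat_lit 226) (nat_lit 243) (nat_lit 5) (nat_lit 6) (nat_lit 10) L82934 (by decide +kernel)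
theorem L82936 : W_29 (nat_lit 7) (nat_lit 0x40007000300000001000080000000000000000000000000000000) (nat_lit 0x0) (nat_lit 0x38001c000200000000e0007000000000000000000000000000000000000000) := T_29 (nat_lit 227) (nat_lit 244) (nat_lit 6) (nat_lit 6) (nat_lit 14) L82935 (by decide +kernel)
theorem L82937 : W_29 (nat_lit 2) (nat_lit 0xc00040007000bc0000001000080000000000000000000000000000000) (nat_lit 0x0) (nat_lit 0x20000000000003000000000000000000000000000000000000000) := D_29 (nat_lit 157) (nat_lit 209) (nat_lit 156) (nat_lit 4) (nat_lit 5) (nat_lit 13) (nat_lit 0) (nat_lit 7) (nat_lit 10) (by decide +kernel)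
theorem L82938 : W_29 (nat_lit 3) (nat_lit 0x800040007000bc0000001000080000000000000000000000000000000) (nat_lit 0x0) (nat_lit 0x8000400020000000000003000000000000000000000000000000000000000) := T_29 (nat_lit 226) (nat_lit 243) (nat_lit 5) (nat_lit 6) (nat_lit 10) L82937 (by decide +kernel)
theorem L82939 : W_29 (nat_lit 4) (nat_lit 0x800040007000b80000001000080000000000000000000000000000000) (nat_lit 0x0) (nat_lit 0x8000400020000000060003000000000000000000000000000000000000000) := T_29 (nat_lit 174) (nat_lit 173) (nat_lit 3) (nat_lit 3) (nat_lit 10) L82938 (by decide +kernel)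
theorem L82940 : W_29 (nat_lit 5) (nat_lit 0x800040007000b00000001000080000000000000000000000000000000) (nat_lit 0x0) (nat_lit 0x80004000200000000e0007000000000000000000000000000000000000000) := T_29 (nat_lit 175) (nat_lit 158) (nat_lit 4) (nat_lit 6) (nat_lit 13) L82939 (by decide +kernel)
theorem L82941 : W_29 (nat_lit 6) (nat_lit 0x800040007000300000001000080000000000000000000000000000000) (nat_lit 0x0) (nat_lit 0x8000400020000000ce0007000000000000000000000000000000000000000) := T_29 (nat_lit 179) (nat_lit 178) (nat_lit 1) (nat_lit 9) (nat_lit 10) L82940 (by decide +kernel)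
theorem L82942 : W_29 (nat_lit 7) (nat_lit 0x40007000300000001000080000000000000000000000000000000) (nat_lit 0x0) (nat_lit 0x18000c00020000000ce0007000000000000000000000000000000000000000) := T_29 (nat_lit 227) (nat_lit 244) (nat_lit 6) (nat_lit 6) (nat_lit 14) L82941 (by decide +kernel)
theorem L82943 : W_29 (nat_lit 2) (nat_lit 0x400070007c0000001000080000000000000000000000000000000) (nat_lit 0x0) (nat_lit 0x7000000000000000000000000000000000000000) := D_29 (nat_lit 157) (nat_lit 156) (nat_lit 158) (nat_lit 0) (nat_lit 7) (nat_lit 10) (nat_lit 0) (nat_lit 8) (nat_lit 10) (by decide +kernel)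
theorem L82944 : W_29 (nat_lit 3) (nat_lit 0x400070003c0000001000080000000000000000000000000000000) (nat_lit 0x0) (nat_lit 0xc00007000000000000000000000000000000000000000) := T_29 (nat_lit 178) (nat_lit 179) (nat_lit 1) (nat_lit 9) (nat_lit 10) L82943 (by decide +kernel)
theorem L82948 : W_29 (nat_lit 3) (nat_lit 0x60007000380000001000080000000000000000000000000000000) (nat_lit 0x0) (nat_lit 0x200018000000000004000200000000000000000000000000000000000) := T_29 (nat_lit 208) (nat_lit 207) (nat_lit 2) (nat_lit 3) (nat_lit 12) L79802 (by decide +kernel)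
theorem L82949 : W_29 (nat_lit 2) (nat_lit 0x600070003c0000001200080000000000000000000000000000000) (nat_lit 0x0) (nat_lit 0x8000400000000000000002000000000000000000000000000000000000000) := D_29 (nat_lit 226) (nat_lit 243) (nat_lit 157) (nat_lit 6) (nat_lit 5) (nat_lit 14) (nat_lit 4) (nat_lit 5) (nat_lit 13) (by decide +kernel)
theorem L82950 : W_29 (nat_lit 3) (nat_lit 0x60007000380000001200080000000000000000000000000000000) (nat_lit 0x0) (nat_lit 0x8000400000000000060002000000000000000000000000000000000000000) := T_29 (nat_lit 174) (nat_lit 173) (nat_lit 3) (nat_lit 3) (nat_lit 10) L82949 (by decide +kernel)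
theorem L82951 : W_29 (nat_lit 4) (nat_lit 0x60007000380000001000080000000000000000000000000000000) (nat_lit 0x0) (nat_lit 0x8000400000000000060006000200000000000000000000000000000000000) := T_29 (nat_lit 141) (nat_lit 158) (nat_lit 7) (nat_lit 5) (nat_lit 8) L82950 (by decide +kernel)
theorem L82952 : W_29 (nat_lit 5) (nat_lit 0x60007000300000001000080000000000000000000000000000000) (nat_lit 0x0) (nat_lit 0x80006000180000000e0006000200000000000000000000000000000000000) := Q_29 (nat_lit 175) (C_29 L79698 (C_29 L82948 (C_29 L82951 N_29))) (by decide +kernel)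
theorem L82953 : W_29 (nat_lit 2) (nat_lit 0x200070003c0002001000080000000000000000000000000000000) (nat_lit 0x0) (nat_lit 0x4000100008000000000000000000000000000000) := D_29 (nat_lit 140) (nat_lit 123) (nat_lit 158) (nat_lit 7) (nat_lit 4) (nat_lit 7) (nat_lit 4) (nat_lit 5) (nat_lit 12) (by decide +kernel)
theorem L82954 : W_29 (nat_lit 3) (nat_lit 0x70003c0002001000080000000000000000000000000000000) (nat_lit 0x0) (nat_lit 0x400020000000000004000100008000000000000000000000000000000) := T_29 (nat_lit 209) (nat_lit 226) (nat_lit 4) (nat_lit 5) (nat_lit 13) L82953 (by decide +kernel)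
theorem L82955 : W_29 (nat_lit 4) (nat_lit 0x70003c0000001000080000000000000000000000000000000) (nat_lit 0x0) (nat_lit 0x400020000000000007000100008000000000000000000000000000000) := T_29 (nat_lit 157) (nat_lit 156) (nat_lit 0) (nat_lit 7) (nat_lit 10) L82954 (by decide +kernel)
theorem L82956 : W_29 (nat_lit 2) (nat_lit 0x6800780000001000080000000000000000000000000000000) (nat_lit 0x0) (nat_lit 0x400060000000000000000000000000000000000000000000) := D_29 (nat_lit 174) (nat_lit 173) (nat_lit 190) (nat_lit 3) (nat_lit 3) (nat_lit 10) (nat_lit 1) (nat_lit 7) (nat_lit 10) (by decide +kernel)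
theorem L82957 : W_29 (nat_lit 3) (nat_lit 0x6000780000001000080000000000000000000000000000000) (nat_lit 0x0) (nat_lit 0x1c00060000000000000000000000000000000000000000000) := T_29 (nat_lit 191) (nat_lit 192) (nat_lit 2) (nat_lit 4) (nat_lit 11) L82956 (by decide +kernel)
theorem L82958 : W_29 (nat_lit 2) (nat_lit 0x60007c0000001000080000000000000000000000000000000) (nat_lit 0x0) (nat_lit 0x7000000000000000000000000000000000000000) := D_29 (nat_lit 157) (nat_lit 158) (nat_lit 156) (nat_lit 0) (nat_lit 8) (nat_lit 10) (nat_lit 0) (nat_lit 7) (nat_lit 10) (by decide +kernel)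
theorem L82959 : W_29 (nat_lit 3) (nat_lit 0x6000780000001000080000000000000000000000000000000) (nat_lit 0x0) (nat_lit 0x60007000000000000000000000000000000000000000) := T_29 (nat_lit 174) (nat_lit 173) (nat_lit 3) (nat_lit 3) (nat_lit 10) L82958 (by decide +kernel)
theorem L82960 : W_29 (nat_lit 2) (nat_lit 0x7000780004001000080000000000000000000000000000000) (nat_lit 0x0) (nat_lit 0x40000000000000000200010000000000000000000000000000000) := D_29 (nat_lit 141) (nat_lit 124) (nat_lit 210) (nat_lit 7) (nat_lit 5) (nat_lit 7) (nat_lit 7) (nat_lit 5) (nat_lit 8) (by decide +kernel)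
theorem L82961 : W_29 (nat_lit 3) (nat_lit 0x6000780004001000080000000000000000000000000000000) (nat_lit 0x0) (nat_lit 0x40001800000000000200010000000000000000000000000000000) := T_29 (nat_lit 192) (nat_lit 191) (nat_lit 2) (nat_lit 4) (nat_lit 11) L82960 (by decide +kernel)
theorem L82962 : W_29 (nat_lit 4) (nat_lit 0x6000780000001000080000000000000000000000000000000) (nat_lit 0x0) (nat_lit 0x40001800000006000200010000000000000000000000000000000) := T_29 (nat_lit 158) (nat_lit 157) (nat_lit 0) (nat_lit 8) (nat_lit 10) L82961 (by decide +kernel)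
theorem L82963 : W_29 (nat_lit 5) (nat_lit 0x6000700000001000080000000000000000000000000000000) (nat_lit 0x0) (nat_lit 0x40001c000e0007000200010000000000000000000000000000000) := Q_29 (nat_lit 175) (C_29 L82957 (C_29 L82959 (C_29 L82962 N_29))) (by decide +kernel)
theorem L82997 : W_29 (nat_lit 2) (nat_lit 0x38000c0006000700000001000080000000000000000000000000000000) (nat_lit 0x0) (nat_lit 0x4000030000000000000000000000000000000000000000000000000000) := D_29 (nat_lit 209) (nat_lit 208) (nat_lit 230) (nat_lit 3) (nat_lit 4) (nat_lit 12) (nat_lit 0) (nat_lit 9) (nat_lit 13) (by decide +kernel)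
theorem L83175 : W_29 (nat_lit 2) (nat_lit 0x68003c0006001000080000000000000000000000000000000) (nat_lit 0x0) (nat_lit 0x10000000000000000200010000000000000000000000000000000) := D_29 (nat_lit 141) (nat_lit 124) (nat_lit 208) (nat_lit 7) (nat_lit 5) (nat_lit 7) (nat_lit 6) (nat_lit 4) (nat_lit 12) (by decide +kernel)
theorem L83176 : W_29 (nat_lit 3) (nat_lit 0x68003c0002001000080000000000000000000000000000000) (nat_lit 0x0) (nat_lit 0x10000000400004000200010000000000000000000000000000000) := T_29 (nat_lit 158) (nat_lit 178) (nat_lit 0) (nat_lit 8) (nat_lit 10) L83175 (by decide +kernel)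
theorem L83177 : W_29 (nat_lit 4) (nat_lit 0x68003c0000001000080000000000000000000000000000000) (nat_lit 0x0) (nat_lit 0x10000000400007000200010000000000000000000000000000000) := T_29 (nat_lit 157) (nat_lit 156) (nat_lit 0) (nat_lit 7) (nat_lit 10) L83176 (by decide +kernel)
theorem L83192 : W_29 (nat_lit 2) (nat_lit 0x7000300008001000080000000000000000000000000000000) (nat_lit 0x0) (nat_lit 0x20000000000000000400020000000000000000000000000000000) := D_29 (nat_lit 142) (nat_lit 125) (nat_lit 209) (nat_lit 7) (nat_lit 6) (nat_lit 7) (nat_lit 5) (nat_lit 6) (nat_lit 8) (by decide +kernel)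
theorem L83194 : W_29 (nat_lit 2) (nat_lit 0xc00070007000b00000001000080000000000000000000000000000000) (nat_lit 0x0) (nat_lit 0x20003000000000000000000000000000000000000000000000000000000000) := D_29 (nat_lit 228) (nat_lit 245) (nat_lit 229) (nat_lit 7) (nat_lit 6) (nat_lit 10) (nat_lit 0) (nat_lit 8) (nat_lit 13) (by decide +kernel)
theorem L83195 : W_29 (nat_lit 3) (nat_lit 0xc00060007000b00000001000080000000000000000000000000000000) (nat_lit 0x0) (nat_lit 0x20003000018000000000000000000000000000000000000000000000000000) := T_29 (nat_lit 208) (nat_lit 207) (nat_lit 2) (nat_lit 3) (nat_lit 12) L83194 (by decide +kernel)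
theorem L83196 : W_29 (nat_lit 4) (nat_lit 0xc00040007000b00000001000080000000000000000000000000000000) (nat_lit 0x0) (nat_lit 0x20003000038000000000008000000000000000000000000000000000000000) := T_29 (nat_lit 209) (nat_lit 159) (nat_lit 5) (nat_lit 6) (nat_lit 9) L83195 (by decide +kernel)
theorem L83197 : W_29 (nat_lit 5) (nat_lit 0x800040007000b00000001000080000000000000000000000000000000) (nat_lit 0x0) (nat_lit 0x28003400038000000000008000000000000000000000000000000000000000) := T_29 (nat_lit 226) (nat_lit 243) (nat_lit 5) (nat_lit 6) (nat_lit 10) L83196 (by decide +kernel)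
theorem L83198 : W_29 (nat_lit 6) (nat_lit 0x40007000b00000001000080000000000000000000000000000000) (nat_lit 0x0) (nat_lit 0x38003c00038000000000008000000000000000000000000000000000000000) := T_29 (nat_lit 227) (nat_lit 244) (nat_lit 6) (nat_lit 6) (nat_lit 14) L83197 (by decide +kernel)
theorem L83199 : W_29 (nat_lit 7) (nat_lit 0x40007000300000001000080000000000000000000000000000000) (nat_lit 0x0) (nat_lit 0x38003c00038000000c00008000000000000000000000000000000000000000) := T_29 (nat_lit 179) (nat_lit 178) (nat_lit 1) (nat_lit 9) (nat_lit 10) L83198 (by decide +kernel)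
theorem L83200 : W_29 (nat_lit 2) (nat_lit 0xc00040007000b00008001000080000000000000000000000000000000) (nat_lit 0x0) (nat_lit 0x80000000000000000400020000000000000000000000000000000) := D_29 (nat_lit 142) (nat_lit 211) (nat_lit 125) (nat_lit 7) (nat_lit 6) (nat_lit 8) (nat_lit 7) (nat_lit 6) (nat_lit 7) (by decide +kernel)
theorem L83201 : W_29 (nat_lit 3) (nat_lit 0xc00040007000b00000001000080000000000000000000000000000000) (nat_lit 0x0) (nat_lit 0xa0000000000008000400020000000000000000000000000000000) := T_29 (nat_lit 159) (nat_lit 209) (nat_lit 5) (nat_lit 6) (nat_lit 9) L83200 (by decide +kernel)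
theorem L83202 : W_29 (nat_lit 4) (nat_lit 0x800040007000b00000001000080000000000000000000000000000000) (nat_lit 0x0) (nat_lit 0x80004000a0000000000008000400020000000000000000000000000000000) := T_29 (nat_lit 226) (nat_lit 243) (nat_lit 5) (nat_lit 6) (nat_lit 10) L83201 (by decide +kernel)
theorem L83203 : W_29 (nat_lit 5) (nat_lit 0x800040007000300000001000080000000000000000000000000000000) (nat_lit 0x0) (nat_lit 0x80004000a0000000c00008000400020000000000000000000000000000000) := T_29 (nat_lit 179) (nat_lit 178) (nat_lit 1) (nat_lit 9) (nat_lit 10) L83202 (by decide +kernel)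
theorem L83204 : W_29 (nat_lit 6) (nat_lit 0x40007000300000001000080000000000000000000000000000000) (nat_lit 0x0) (nat_lit 0x18000c000a0000000c00008000400020000000000000000000000000000000) := T_29 (nat_lit 227) (nat_lit 244) (nat_lit 6) (nat_lit 6) (nat_lit 14) L83203 (by decide +kernel)
theorem L83205 : W_29 (nat_lit 2) (nat_lit 0x40007000300008001000080000000000000000000000000000000) (nat_lit 0x0) (nat_lit 0x400020000000000000000400000000000000000000000000000000000) := D_29 (nat_lit 209) (nat_lit 226) (nat_lit 142) (nat_lit 5) (nat_lit 6) (nat_lit 9) (nat_lit 5) (nat_lit 6) (nat_lit 8) (by decide +kernel)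
theorem L83233 : W_29 (nat_lit 2) (nat_lit 0x4000700030000c001000080000000000000000000000000000000) (nat_lit 0x0) (nat_lit 0x10000800000000000080000000000000000000000000000000000000000000) := D_29 (nat_lit 227) (nat_lit 244) (nat_lit 175) (nat_lit 6) (nat_lit 6) (nat_lit 14) (nat_lit 4) (nat_lit 6) (nat_lit 13) (by decide +kernel)
theorem L83235 : W_29 (nat_lit 2) (nat_lit 0x4000700030000e001000080000000000000000000000000000000) (nat_lit 0x0) (nat_lit 0xc80000000000000000000000000000000000000000000) := D_29 (nat_lit 178) (nat_lit 179) (nat_lit 175) (nat_lit 1) (nat_lit 9) (nat_lit 10) (nat_lit 0) (nat_lit 8) (nat_lit 10) (by decide +kernel)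
theorem L83236 : W_29 (nat_lit 3) (nat_lit 0x4000700030000c001000080000000000000000000000000000000) (nat_lit 0x0) (nat_lit 0xc80003000000000000000000000000000000000000000) := T_29 (nat_lit 157) (nat_lit 156) (nat_lit 3) (nat_lit 3) (nat_lit 9) L83235 (by decide +kernel)
theorem L83237 : W_29 (nat_lit 4) (nat_lit 0x40007000300008001000080000000000000000000000000000000) (nat_lit 0x0) (nat_lit 0xc80007000200000000000000000000000000000000000) := T_29 (nat_lit 158) (nat_lit 141) (nat_lit 4) (nat_lit 6) (nat_lit 12) L83236 (by decide +kernel)
theorem L83253 : W_29 (nat_lit 2) (nat_lit 0x400040007000b0000d001000080000000000000000000000000000000) (nat_lit 0x0) (nat_lit 0x18000800000000000000000000000000000000000000000000000000000000) := D_29 (nat_lit 227) (nat_lit 244) (nat_lit 243) (nat_lit 6) (nat_lit 6) (nat_lit 14) (nat_lit 5) (nat_lit 6) (nat_lit 10) (by decide +kernel)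
theorem L83254 : W_29 (nat_lit 3) (nat_lit 0x40007000b0000d001000080000000000000000000000000000000) (nat_lit 0x0) (nat_lit 0x18000c00020000000000000000000000000000000000000000000000000000) := T_29 (nat_lit 226) (nat_lit 209) (nat_lit 5) (nat_lit 6) (nat_lit 9) L83253 (by decide +kernel)
theorem L83255 : W_29 (nat_lit 4) (nat_lit 0x7000b0000d001000080000000000000000000000000000000) (nat_lit 0x0) (nat_lit 0x18000c00060000000000000000200000000000000000000000000000000000) := T_29 (nat_lit 210) (nat_lit 141) (nat_lit 4) (nat_lit 6) (nat_lit 12) L83254 (by decide +kernel)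
theorem L83256 : W_29 (nat_lit 5) (nat_lit 0x7000b0000c001000080000000000000000000000000000000) (nat_lit 0x0) (nat_lit 0x18000c00060000000000003000200000000000000000000000000000000000) := T_29 (nat_lit 156) (nat_lit 157) (nat_lit 3) (nat_lit 3) (nat_lit 9) L83255 (by decide +kernel)
theorem L83257 : W_29 (nat_lit 6) (nat_lit 0x700030000c001000080000000000000000000000000000000) (nat_lit 0x0) (nat_lit 0x18000c00060000000c00003000200000000000000000000000000000000000) := T_29 (nat_lit 179) (nat_lit 178) (nat_lit 1) (nat_lit 9) (nat_lit 10) L83256 (by decide +kernel)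
theorem L83258 : W_29 (nat_lit 3) (nat_lit 0x700030000c001000080000000000000000000000000000000) (nat_lit 0x0) (nat_lit 0x10000800040000000080000000200000000000000000000000000000000000) := T_29 (nat_lit 210) (nat_lit 141) (nat_lit 4) (nat_lit 6) (nat_lit 12) L83233 (by decide +kernel)
theorem L83259 : W_29 (nat_lit 2) (nat_lit 0x700030000e001000080000000000000000000000000000000) (nat_lit 0x0) (nat_lit 0xc80000000000000000000000000000000000000000000) := D_29 (nat_lit 178) (nat_lit 179) (nat_lit 175) (nat_lit 1) (nat_lit 9) (nat_lit 10) (nat_lit 0) (nat_lit 8) (nat_lit 10) (by decide +kernel)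
theorem L83260 : W_29 (nat_lit 3) (nat_lit 0x700030000c001000080000000000000000000000000000000) (nat_lit 0x0) (nat_lit 0xc80003000000000000000000000000000000000000000) := T_29 (nat_lit 157) (nat_lit 156) (nat_lit 3) (nat_lit 3) (nat_lit 9) L83259 (by decide +kernel)
theorem L83261 : W_29 (nat_lit 7) (nat_lit 0x7000300008001000080000000000000000000000000000000) (nat_lit 0x0) (nat_lit 0x18000c00060000000c80007000200000000000000000000000000000000000) := Q_29 (nat_lit 158) (C_29 L83257 (C_29 L83258 (C_29 L83260 N_29))) (by decide +kernel)
theorem L83262 : W_29 (nat_lit 2) (nat_lit 0x7000b00008001e00080000000000000000000000000000000) (nat_lit 0x0) (nat_lit 0x40000000000006000000000000000000000000000000000000000) := D_29 (nat_lit 158) (nat_lit 157) (nat_lit 210) (nat_lit 1) (nat_lit 8) (nat_lit 8) (nat_lit 4) (nat_lit 6) (nat_lit 12) (by decide +kernel)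
theorem L83263 : W_29 (nat_lit 3) (nat_lit 0x7000b00008001600080000000000000000000000000000000) (nat_lit 0x0) (nat_lit 0x40000000000006000800100000000000000000000000000000000) := T_29 (nat_lit 143) (nat_lit 128) (nat_lit 2) (nat_lit 5) (nat_lit 8) L83262 (by decide +kernel)
theorem L83264 : W_29 (nat_lit 4) (nat_lit 0x7000b00008001400080000000000000000000000000000000) (nat_lit 0x0) (nat_lit 0x40000000000006000a00110000000000000000000000000000000) := T_29 (nat_lit 141) (nat_lit 124) (nat_lit 4) (nat_lit 6) (nat_lit 11) L83263 (by decide +kernel)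
theorem L83265 : W_29 (nat_lit 5) (nat_lit 0x7000b00008001000080000000000000000000000000000000) (nat_lit 0x0) (nat_lit 0x40000000000006000e00130000000000000000000000000000000) := T_29 (nat_lit 142) (nat_lit 125) (nat_lit 7) (nat_lit 6) (nat_lit 7) L83264 (by decide +kernel)
theorem L83266 : W_29 (nat_lit 6) (nat_lit 0x7000300008001000080000000000000000000000000000000) (nat_lit 0x0) (nat_lit 0x40000000c00006000e00130000000000000000000000000000000) := T_29 (nat_lit 179) (nat_lit 178) (nat_lit 1) (nat_lit 9) (nat_lit 10) L83265 (by decide +kernel)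
theorem L83267 : W_29 (nat_lit 8) (nat_lit 0x7000300000001000080000000000000000000000000000000) (nat_lit 0x0) (nat_lit 0x18000c00060000000c8000f000e00130000000000000000000000000000000) := Q_29 (nat_lit 159) (C_29 L83261 (C_29 L83192 (C_29 L83266 N_29))) (by decide +kernel)
theorem L83268 : W_29 (nat_lit 2) (nat_lit 0x100078003c0002001000080000000000000000000000000000000) (nat_lit 0x0) (nat_lit 0x400020000000000000000100000000000000000000000000000000000) := D_29 (nat_lit 209) (nat_lit 226) (nat_lit 140) (nat_lit 7) (nat_lit 4) (nat_lit 9) (nat_lit 7) (nat_lit 4) (nat_lit 8) (by decide +kernel)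
theorem L83269 : W_29 (nat_lit 3) (nat_lit 0x100078003c0000001000080000000000000000000000000000000) (nat_lit 0x0) (nat_lit 0x400020000000000003000100000000000000000000000000000000000) := T_29 (nat_lit 157) (nat_lit 156) (nat_lit 0) (nat_lit 7) (nat_lit 10) L83268 (by decide +kernel)
theorem L83270 : W_29 (nat_lit 4) (nat_lit 0x78003c0000001000080000000000000000000000000000000) (nat_lit 0x0) (nat_lit 0x400038000000000003000100000000000000000000000000000000000) := T_29 (nat_lit 208) (nat_lit 207) (nat_lit 1) (nat_lit 7) (nat_lit 11) L83269 (by decide +kernel)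
theorem L83271 : W_29 (nat_lit 5) (nat_lit 0x7800380000001000080000000000000000000000000000000) (nat_lit 0x0) (nat_lit 0x400038000000060003000100000000000000000000000000000000000) := T_29 (nat_lit 174) (nat_lit 173) (nat_lit 3) (nat_lit 3) (nat_lit 10) L83270 (by decide +kernel)
theorem L83272 : W_29 (nat_lit 6) (nat_lit 0x7000380000001000080000000000000000000000000000000) (nat_lit 0x0) (nat_lit 0x400038000c00060003000100000000000000000000000000000000000) := T_29 (nat_lit 191) (nat_lit 190) (nat_lit 2) (nat_lit 3) (nat_lit 11) L83271 (by decide +kernel)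
theorem L83273 : W_29 (nat_lit 5) (nat_lit 0x7000380000001000080000000000000000000000000000000) (nat_lit 0x0) (nat_lit 0x400020000000060007000100008000000000000000000000000000000) := T_29 (nat_lit 174) (nat_lit 173) (nat_lit 3) (nat_lit 3) (nat_lit 10) L82955 (by decide +kernel)
theorem L83274 : W_29 (nat_lit 2) (nat_lit 0x10007800380004001000080000000000000000000000000000000) (nat_lit 0x0) (nat_lit 0x4000200020000000000000000000000000000000000000000000000000000) := D_29 (nat_lit 225) (nat_lit 242) (nat_lit 209) (nat_lit 6) (nat_lit 4) (nat_lit 14) (nat_lit 5) (nat_lit 5) (nat_lit 9) (by decide +kernel)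
theorem L83275 : W_29 (nat_lit 3) (nat_lit 0x10007800380000001000080000000000000000000000000000000) (nat_lit 0x0) (nat_lit 0x4000200020000000000004000200000000000000000000000000000000000) := T_29 (nat_lit 158) (nat_lit 141) (nat_lit 5) (nat_lit 5) (nat_lit 8) L83274 (by decide +kernel)
theorem L83276 : W_29 (nat_lit 4) (nat_lit 0x7800380000001000080000000000000000000000000000000) (nat_lit 0x0) (nat_lit 0x4000200038000000000004000200000000000000000000000000000000000) := T_29 (nat_lit 208) (nat_lit 207) (nat_lit 1) (nat_lit 7) (nat_lit 11) L83275 (by decide +kernel)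
theorem L83277 : W_29 (nat_lit 5) (nat_lit 0x7000380000001000080000000000000000000000000000000) (nat_lit 0x0) (nat_lit 0x4000200038000c00000004000200000000000000000000000000000000000) := T_29 (nat_lit 191) (nat_lit 190) (nat_lit 2) (nat_lit 3) (nat_lit 11) L83276 (by decide +kernel)
theorem L83278 : W_29 (nat_lit 2) (nat_lit 0x100078003c0000001000080000000000000000000000000000000) (nat_lit 0x0) (nat_lit 0x200000000000000004000200000000000000000000000000000000000) := D_29 (nat_lit 158) (nat_lit 141) (nat_lit 225) (nat_lit 5) (nat_lit 5) (nat_lit 8) (nat_lit 6) (nat_lit 4) (nat_lit 13) (by decide +kernel)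
theorem L83279 : W_29 (nat_lit 3) (nat_lit 0x78003c0000001000080000000000000000000000000000000) (nat_lit 0x0) (nat_lit 0x200018000000000004000200000000000000000000000000000000000) := T_29 (nat_lit 208) (nat_lit 207) (nat_lit 1) (nat_lit 7) (nat_lit 11) L83278 (by decide +kernel)
theorem L83280 : W_29 (nat_lit 4) (nat_lit 0x7800380000001000080000000000000000000000000000000) (nat_lit 0x0) (nat_lit 0x200018000000060004000200000000000000000000000000000000000) := T_29 (nat_lit 174) (nat_lit 173) (nat_lit 3) (nat_lit 3) (nat_lit 10) L83279 (by decide +kernel)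
theorem L83281 : W_29 (nat_lit 5) (nat_lit 0x7000380000001000080000000000000000000000000000000) (nat_lit 0x0) (nat_lit 0x200018000c00060004000200000000000000000000000000000000000) := T_29 (nat_lit 191) (nat_lit 190) (nat_lit 2) (nat_lit 3) (nat_lit 11) L83280 (by decide +kernel)
theorem L83282 : W_29 (nat_lit 7) (nat_lit 0x7000300000001000080000000000000000000000000000000) (nat_lit 0x0) (nat_lit 0x4000600038000c000e0007000300008000000000000000000000000000000) := Q_29 (nat_lit 175) (C_29 L83272 (C_29 L83273 (C_29 L83277 (C_29 L83281 N_29)))) (by decide +kernel)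
theorem L83283 : W_29 (nat_lit 9) (nat_lit 0x6000300000001000080000000000000000000000000000000) (nat_lit 0x0) (nat_lit 0x1c000e00078001c00ce000f000f00138000000000000000000000000000000) := Q_29 (nat_lit 192) (C_29 L12149 (C_29 L83267 (C_29 L83282 N_29))) (by decide +kernel)
theorem L83284 : W_29 (nat_lit 2) (nat_lit 0x7000780004001600080000000000000000000000000000000) (nat_lit 0x0) (nat_lit 0xa0000000000008000000000000000000000000000000000000000) := D_29 (nat_lit 159) (nat_lit 209) (nat_lit 211) (nat_lit 6) (nat_lit 5) (nat_lit 12) (nat_lit 7) (nat_lit 6) (nat_lit 8) (by decide +kernel)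
theorem L83285 : W_29 (nat_lit 3) (nat_lit 0x7000780004001200080000000000000000000000000000000) (nat_lit 0x0) (nat_lit 0xa0000000000008000400020000000000000000000000000000000) := T_29 (nat_lit 142) (nat_lit 125) (nat_lit 6) (nat_lit 5) (nat_lit 11) L83284 (by decide +kernel)
theorem L83286 : W_29 (nat_lit 4) (nat_lit 0x7000780004001000080000000000000000000000000000000) (nat_lit 0x0) (nat_lit 0xa0000000000008000600030000000000000000000000000000000) := T_29 (nat_lit 141) (nat_lit 124) (nat_lit 7) (nat_lit 5) (nat_lit 7) L83285 (by decide +kernel)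
theorem L83287 : W_29 (nat_lit 5) (nat_lit 0x7000780000001000080000000000000000000000000000000) (nat_lit 0x0) (nat_lit 0xa000000000000e000600030000000000000000000000000000000) := T_29 (nat_lit 158) (nat_lit 157) (nat_lit 0) (nat_lit 8) (nat_lit 10) L83286 (by decide +kernel)
theorem L83288 : W_29 (nat_lit 6) (nat_lit 0x6000780000001000080000000000000000000000000000000) (nat_lit 0x0) (nat_lit 0xa000180000000e000600030000000000000000000000000000000) := T_29 (nat_lit 192) (nat_lit 191) (nat_lit 2) (nat_lit 4) (nat_lit 11) L83287 (by decide +kernel)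
theorem L83289 : W_29 (nat_lit 7) (nat_lit 0x6000700000001000080000000000000000000000000000000) (nat_lit 0x0) (nat_lit 0xa0001c000e000f000600030000000000000000000000000000000) := Q_29 (nat_lit 175) (C_29 L82959 (C_29 L82957 (C_29 L83288 N_29))) (by decide +kernel)
theorem L83290 : W_29 (nat_lit 3) (nat_lit 0x6000f00000001000080000000000000000000000000000000) (nat_lit 0x0) (nat_lit 0x100008000000000000c000400000000000000000000000000000000000) := T_29 (nat_lit 159) (nat_lit 158) (nat_lit 0) (nat_lit 9) (nat_lit 10) L16978 (by decide +kernel)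
theorem L83291 : W_29 (nat_lit 4) (nat_lit 0x6000700000001000080000000000000000000000000000000) (nat_lit 0x0) (nat_lit 0x100008000000180000c000400000000000000000000000000000000000) := T_29 (nat_lit 179) (nat_lit 180) (nat_lit 1) (nat_lit 10) (nat_lit 10) L83290 (by decide +kernel)
theorem L83292 : W_29 (nat_lit 8) (nat_lit 0x6000300000001000080000000000000000000000000000000) (nat_lit 0x0) (nat_lit 0x10000a0001c01ce000f000600030000000000000000000000000000000) := Q_29 (nat_lit 178) (C_29 L8242 (C_29 L83289 (C_29 L83291 N_29))) (by decide +kernel)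
theorem L83293 : W_29 (nat_lit 2) (nat_lit 0x60007000300000001000080000000000000000000000000000000) (nat_lit 0x0) (nat_lit 0x8000400000000000000008000000000000000000000000000000000000000) := D_29 (nat_lit 226) (nat_lit 159) (nat_lit 243) (nat_lit 5) (nat_lit 6) (nat_lit 9) (nat_lit 6) (nat_lit 5) (nat_lit 14) (by decide +kernel)
theorem L83294 : W_29 (nat_lit 2) (nat_lit 0x60007000300004001000080000000000000000000000000000000) (nat_lit 0x0) (nat_lit 0x80008000200000000000000000000000000000000000) := D_29 (nat_lit 141) (nat_lit 175) (nat_lit 159) (nat_lit 7) (nat_lit 5) (nat_lit 8) (nat_lit 4) (nat_lit 6) (nat_lit 12) (by decide +kernel)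
theorem L83321 : W_29 (nat_lit 2) (nat_lit 0x6000300008001e00080000000000000000000000000000000) (nat_lit 0x0) (nat_lit 0x40000000000006000000000000000000000000000000000000000) := D_29 (nat_lit 158) (nat_lit 157) (nat_lit 210) (nat_lit 1) (nat_lit 8) (nat_lit 8) (nat_lit 4) (nat_lit 6) (nat_lit 12) (by decide +kernel)
theorem L83322 : W_29 (nat_lit 3) (nat_lit 0x6000300008001600080000000000000000000000000000000) (nat_lit 0x0) (nat_lit 0x40000000000006000800100000000000000000000000000000000) := T_29 (nat_lit 143) (nat_lit 128) (nat_lit 2) (nat_lit 5) (nat_lit 8) L83321 (by decide +kernel)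
theorem L83323 : W_29 (nat_lit 4) (nat_lit 0x6000300008001400080000000000000000000000000000000) (nat_lit 0x0) (nat_lit 0x40000000000006000a00110000000000000000000000000000000) := T_29 (nat_lit 141) (nat_lit 124) (nat_lit 4) (nat_lit 6) (nat_lit 11) L83322 (by decide +kernel)
theorem L83324 : W_29 (nat_lit 5) (nat_lit 0x6000300008001000080000000000000000000000000000000) (nat_lit 0x0) (nat_lit 0x40000000000006000e00130000000000000000000000000000000) := T_29 (nat_lit 142) (nat_lit 125) (nat_lit 7) (nat_lit 6) (nat_lit 7) L83323 (by decide +kernel)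
theorem L83325 : W_29 (nat_lit 2) (nat_lit 0x100006800600030000e001000080000000000000000000000000000000) (nat_lit 0x0) (nat_lit 0xc80000000000000000000000000000000000000000000) := D_29 (nat_lit 178) (nat_lit 179) (nat_lit 175) (nat_lit 0) (nat_lit 9) (nat_lit 10) (nat_lit 0) (nat_lit 8) (nat_lit 10) (by decide +kernel)
theorem L83326 : W_29 (nat_lit 3) (nat_lit 0x100006800600030000c001000080000000000000000000000000000000) (nat_lit 0x0) (nat_lit 0xc80003000000000000000000000000000000000000000) := T_29 (nat_lit 157) (nat_lit 156) (nat_lit 3) (nat_lit 3) (nat_lit 9) L83325 (by decide +kernel)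
theorem L83327 : W_29 (nat_lit 4) (nat_lit 0x1000068006000300008001000080000000000000000000000000000000) (nat_lit 0x0) (nat_lit 0xc80007000200000000000000000000000000000000000) := T_29 (nat_lit 158) (nat_lit 141) (nat_lit 4) (nat_lit 6) (nat_lit 12) L83326 (by decide +kernel)
theorem L83328 : W_29 (nat_lit 5) (nat_lit 0x68006000300008001000080000000000000000000000000000000) (nat_lit 0x0) (nat_lit 0x1000080000000c80007000200000000000000000000000000000000000) := T_29 (nat_lit 228) (nat_lit 211) (nat_lit 7) (nat_lit 6) (nat_lit 9) L83327 (by decide +kernel)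
theorem L83329 : W_29 (nat_lit 6) (nat_lit 0x60006000300008001000080000000000000000000000000000000) (nat_lit 0x0) (nat_lit 0x1000098000000c80007000200000000000000000000000000000000000) := T_29 (nat_lit 207) (nat_lit 208) (nat_lit 2) (nat_lit 3) (nat_lit 12) L83328 (by decide +kernel)
theorem L83330 : W_29 (nat_lit 7) (nat_lit 0x40006000300008001000080000000000000000000000000000000) (nat_lit 0x0) (nat_lit 0x14000b8000000c80007000200000000000000000000000000000000000) := T_29 (nat_lit 209) (nat_lit 226) (nat_lit 5) (nat_lit 6) (nat_lit 9) L83329 (by decide +kernel)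
theorem L83331 : W_29 (nat_lit 8) (nat_lit 0x6000300008001000080000000000000000000000000000000) (nat_lit 0x0) (nat_lit 0x38001c000f8000000c80007000200000000000000000000000000000000000) := Q_29 (nat_lit 210) (C_29 L15183 (C_29 L14862 (C_29 L83330 N_29))) (by decide +kernel)
theorem L83332 : W_29 (nat_lit 9) (nat_lit 0x6000300000001000080000000000000000000000000000000) (nat_lit 0x0) (nat_lit 0x38001c000f8000000c8000f000e00130000000000000000000000000000000) := Q_29 (nat_lit 159) (C_29 L15180 (C_29 L83324 (C_29 L83331 N_29))) (by decide +kernel)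
theorem L83439 : W_29 (nat_lit 2) (nat_lit 0x800700012000f000740000001000080000000000000000000000000000000) (nat_lit 0x0) (nat_lit 0x10000800040000000000000000000000000000000000000000000000000000) := D_29 (nat_lit 227) (nat_lit 244) (nat_lit 210) (nat_lit 1) (nat_lit 9) (nat_lit 13) (nat_lit 0) (nat_lit 9) (nat_lit 13) (by decide +kernel)
theorem L83440 : W_29 (nat_lit 3) (nat_lit 0x800300012000f000740000001000080000000000000000000000000000000) (nat_lit 0x0) (nat_lit 0x90004800040000000000000000000000000000000000000000000000000000) := T_29 (nat_lit 230) (nat_lit 247) (nat_lit 7) (nat_lit 8) (nat_lit 10) L83439 (by decide +kernel)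
theorem L83441 : W_29 (nat_lit 4) (nat_lit 0x800200012000f000740000001000080000000000000000000000000000000) (nat_lit 0x0) (nat_lit 0xb0005800040000000000000000000000000000000000000000000000000000) := T_29 (nat_lit 228) (nat_lit 245) (nat_lit 5) (nat_lit 8) (nat_lit 10) L83440 (by decide +kernel)
theorem L83442 : W_29 (nat_lit 5) (nat_lit 0x800000012000f000740000001000080000000000000000000000000000000) (nat_lit 0x0) (nat_lit 0xf0007800040000000000000000000000000000000000000000000000000000) := T_29 (nat_lit 229) (nat_lit 246) (nat_lit 4) (nat_lit 8) (nat_lit 14) L83441 (by decide +kernel)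
theorem L83443 : W_29 (nat_lit 6) (nat_lit 0x12000f000740000001000080000000000000000000000000000000) (nat_lit 0x0) (nat_lit 0xf8007c00040000000000000000000000000000000000000000000000000000) := T_29 (nat_lit 243) (nat_lit 226) (nat_lit 6) (nat_lit 5) (nat_lit 14) L83442 (by decide +kernel)
theorem L83444 : W_29 (nat_lit 7) (nat_lit 0x2000f000740000001000080000000000000000000000000000000) (nat_lit 0x0) (nat_lit 0xf8007c00340000000000000000000000000000000000000000000000000000) := T_29 (nat_lit 212) (nat_lit 213) (nat_lit 3) (nat_lit 5) (nat_lit 11) L83443 (by decide +kernel)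
theorem L83445 : W_29 (nat_lit 8) (nat_lit 0xf000740000001000080000000000000000000000000000000) (nat_lit 0x0) (nat_lit 0xf8007c00370000000000000000000000000000000000000000000000000000) := T_29 (nat_lit 209) (nat_lit 208) (nat_lit 1) (nat_lit 8) (nat_lit 11) L83444 (by decide +kernel)
theorem L83446 : W_29 (nat_lit 9) (nat_lit 0xf000340000001000080000000000000000000000000000000) (nat_lit 0x0) (nat_lit 0xf8007c00370000000c00000000000000000000000000000000000000000000) := T_29 (nat_lit 178) (nat_lit 179) (nat_lit 2) (nat_lit 5) (nat_lit 11) L83445 (by decide +kernel)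
theorem L83447 : W_29 (nat_lit 10) (nat_lit 0xf000300000001000080000000000000000000000000000000) (nat_lit 0x0) (nat_lit 0xf8007c00370000000cc0000000000000000000000000000000000000000000) := T_29 (nat_lit 174) (nat_lit 175) (nat_lit 3) (nat_lit 4) (nat_lit 10) L83446 (by decide +kernel)
theorem L83476 : W_29 (nat_lit 3) (nat_lit 0x4000e000300000001000080000000000000000000000000000000) (nat_lit 0x0) (nat_lit 0x100008000000000000c0004000000000000000000000000000000000000000) := T_29 (nat_lit 175) (nat_lit 174) (nat_lit 3) (nat_lit 4) (nat_lit 10) L82848 (by decide +kernel)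
theorem L83517 : W_29 (nat_lit 2) (nat_lit 0x25000f80084001000080000000000000000000000000000000) (nat_lit 0x0) (nat_lit 0x40001000100000000000000000000000000000000000000000) := D_29 (nat_lit 180) (nat_lit 164) (nat_lit 198) (nat_lit 2) (nat_lit 7) (nat_lit 10) (nat_lit 3) (nat_lit 7) (nat_lit 10) (by decide +kernel)
theorem L83518 : W_29 (nat_lit 3) (nat_lit 0x5000f80084001000080000000000000000000000000000000) (nat_lit 0x0) (nat_lit 0x70001000100000000000000000000000000000000000000000) := T_29 (nat_lit 197) (nat_lit 196) (nat_lit 3) (nat_lit 6) (nat_lit 10) L83517 (by decide +kernel)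
theorem L83519 : W_29 (nat_lit 4) (nat_lit 0x5000f80004001000080000000000000000000000000000000) (nat_lit 0x0) (nat_lit 0x700010001c0000000000000000000000000000000000000000) := T_29 (nat_lit 163) (nat_lit 162) (nat_lit 2) (nat_lit 6) (nat_lit 10) L83518 (by decide +kernel)
theorem L83520 : W_29 (nat_lit 5) (nat_lit 0x5000780004001000080000000000000000000000000000000) (nat_lit 0x0) (nat_lit 0x700018001c8000000000000000000000000000000000000000) := T_29 (nat_lit 179) (nat_lit 159) (nat_lit 0) (nat_lit 9) (nat_lit 10) L83519 (by decide +kernel)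
theorem L83578 : W_29 (nat_lit 2) (nat_lit 0x5003f80084001000080000000000000000000000000000000) (nat_lit 0x0) (nat_lit 0xe0000000000000000000000000000000000000000000000000) := D_29 (nat_lit 198) (nat_lit 197) (nat_lit 199) (nat_lit 3) (nat_lit 7) (nat_lit 10) (nat_lit 3) (nat_lit 8) (nat_lit 10) (by decide +kernel)
theorem L83579 : W_29 (nat_lit 3) (nat_lit 0x5001f80084001000080000000000000000000000000000000) (nat_lit 0x0) (nat_lit 0xe8002000000000000000000000000000000000000000000000) := T_29 (nat_lit 181) (nat_lit 195) (nat_lit 1) (nat_lit 11) (nat_lit 10) L83578 (by decide +kernel)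
theorem L83580 : W_29 (nat_lit 4) (nat_lit 0x5000f80084001000080000000000000000000000000000000) (nat_lit 0x0) (nat_lit 0xe8003000100000000000000000000000000000000000000000) := T_29 (nat_lit 180) (nat_lit 164) (nat_lit 2) (nat_lit 7) (nat_lit 10) L83579 (by decide +kernel)
theorem L83581 : W_29 (nat_lit 5) (nat_lit 0x5000f80004001000080000000000000000000000000000000) (nat_lit 0x0) (nat_lit 0xe80030001c0000000000000000000000000000000000000000) := T_29 (nat_lit 163) (nat_lit 162) (nat_lit 2) (nat_lit 6) (nat_lit 10) L83580 (by decide +kernel)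
theorem L83582 : W_29 (nat_lit 6) (nat_lit 0x5000780004001000080000000000000000000000000000000) (nat_lit 0x0) (nat_lit 0xe80038001c8000000000000000000000000000000000000000) := T_29 (nat_lit 179) (nat_lit 159) (nat_lit 0) (nat_lit 9) (nat_lit 10) L83581 (by decide +kernel)
theorem L83588 : W_29 (nat_lit 2) (nat_lit 0x12000f000300000001000080000000000000000000000000000000) (nat_lit 0x0) (nat_lit 0x40030000000000000000000000000000000000000000000000000) := D_29 (nat_lit 196) (nat_lit 197) (nat_lit 210) (nat_lit 0) (nat_lit 10) (nat_lit 11) (nat_lit 1) (nat_lit 9) (nat_lit 11) (by decide +kernel)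
theorem L83589 : W_29 (nat_lit 3) (nat_lit 0x10000f000300000001000080000000000000000000000000000000) (nat_lit 0x0) (nat_lit 0x70030000000000000000000000000000000000000000000000000) := T_29 (nat_lit 209) (nat_lit 208) (nat_lit 1) (nat_lit 8) (nat_lit 11) L83588 (by decide +kernel)
theorem L83590 : W_29 (nat_lit 4) (nat_lit 0xf000300000001000080000000000000000000000000000000) (nat_lit 0x0) (nat_lit 0x370030000000000000000000000000000000000000000000000000) := T_29 (nat_lit 212) (nat_lit 213) (nat_lit 3) (nat_lit 5) (nat_lit 11) L83589 (by decide +kernel)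
theorem L83594 : W_29 (nat_lit 2) (nat_lit 0x1f000300000001000080000000000000000000000000000000) (nat_lit 0x0) (nat_lit 0x1c00000000000000000000000000000000000000000000) := D_29 (nat_lit 179) (nat_lit 178) (nat_lit 180) (nat_lit 2) (nat_lit 5) (nat_lit 11) (nat_lit 2) (nat_lit 6) (nat_lit 11) (by decide +kernel)
theorem L83595 : W_29 (nat_lit 3) (nat_lit 0xf000300000001000080000000000000000000000000000000) (nat_lit 0x0) (nat_lit 0x30001c00000000000000000000000000000000000000000000) := T_29 (nat_lit 196) (nat_lit 197) (nat_lit 0) (nat_lit 10) (nat_lit 11) L83594 (by decide +kernel)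
theorem L83605 : W_29 (nat_lit 8) (nat_lit 0x7000300000001000080000000000000000000000000000000) (nat_lit 0x0) (nat_lit 0x48002400370038001c00008000400000000000000000000000000000000000) := Q_29 (nat_lit 195) (C_29 L83590 (C_29 L83595 (C_29 L82222 N_29))) (by decide +kernel)
theorem L83624 : W_29 (nat_lit 2) (nat_lit 0x22000f000300000001000080000000000000000000000000000000) (nat_lit 0x0) (nat_lit 0x400030000000000000000000000000000000000000000000000000) := D_29 (nat_lit 196) (nat_lit 197) (nat_lit 214) (nat_lit 0) (nat_lit 10) (nat_lit 11) (nat_lit 3) (nat_lit 6) (nat_lit 11) (by decide +kernel)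
theorem L83625 : W_29 (nat_lit 3) (nat_lit 0x2000f000300000001000080000000000000000000000000000000) (nat_lit 0x0) (nat_lit 0x700030000000000000000000000000000000000000000000000000) := T_29 (nat_lit 213) (nat_lit 212) (nat_lit 3) (nat_lit 5) (nat_lit 11) L83624 (by decide +kernel)
theorem L83626 : W_29 (nat_lit 4) (nat_lit 0xf000300000001000080000000000000000000000000000000) (nat_lit 0x0) (nat_lit 0x730030000000000000000000000000000000000000000000000000) := T_29 (nat_lit 209) (nat_lit 208) (nat_lit 1) (nat_lit 8) (nat_lit 11) L83625 (by decide +kernel)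
theorem L83627 : W_29 (nat_lit 2) (nat_lit 0x800600012000f000700008001000080000000000000000000000000000000) (nat_lit 0x0) (nat_lit 0x20001000080000000000000000000000000000000000000000000000000000) := D_29 (nat_lit 228) (nat_lit 245) (nat_lit 211) (nat_lit 5) (nat_lit 8) (nat_lit 10) (nat_lit 4) (nat_lit 7) (nat_lit 13) (by decide +kernel)
theorem L83628 : W_29 (nat_lit 3) (nat_lit 0x800600012000f000700000001000080000000000000000000000000000000) (nat_lit 0x0) (nat_lit 0x20001000080000000000008000400000000000000000000000000000000000) := T_29 (nat_lit 159) (nat_lit 142) (nat_lit 5) (nat_lit 6) (nat_lit 8) L83627 (by decide +kernel)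
theorem L83629 : W_29 (nat_lit 4) (nat_lit 0x600012000f000700000001000080000000000000000000000000000000) (nat_lit 0x0) (nat_lit 0x28001400080000000000008000400000000000000000000000000000000000) := T_29 (nat_lit 243) (nat_lit 226) (nat_lit 6) (nat_lit 5) (nat_lit 14) L83628 (by decide +kernel)
theorem L83630 : W_29 (nat_lit 5) (nat_lit 0x200012000f000700000001000080000000000000000000000000000000) (nat_lit 0x0) (nat_lit 0xa8005400080000000000008000400000000000000000000000000000000000) := T_29 (nat_lit 230) (nat_lit 247) (nat_lit 7) (nat_lit 8) (nat_lit 10) L83629 (by decide +kernel)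
theorem L83631 : W_29 (nat_lit 6) (nat_lit 0x200010000f000700000001000080000000000000000000000000000000) (nat_lit 0x0) (nat_lit 0xa80054000b0000000000008000400000000000000000000000000000000000) := T_29 (nat_lit 209) (nat_lit 208) (nat_lit 1) (nat_lit 8) (nat_lit 11) L83630 (by decide +kernel)
theorem L83632 : W_29 (nat_lit 7) (nat_lit 0x10000f000700000001000080000000000000000000000000000000) (nat_lit 0x0) (nat_lit 0xe80074000b0000000000008000400000000000000000000000000000000000) := T_29 (nat_lit 229) (nat_lit 246) (nat_lit 4) (nat_lit 8) (nat_lit 14) L83631 (by decide +kernel)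
theorem L83633 : W_29 (nat_lit 8) (nat_lit 0x10000f000300000001000080000000000000000000000000000000) (nat_lit 0x0) (nat_lit 0xe80074000b0000000c00008000400000000000000000000000000000000000) := T_29 (nat_lit 178) (nat_lit 179) (nat_lit 2) (nat_lit 5) (nat_lit 11) L83632 (by decide +kernel)
theorem L83634 : W_29 (nat_lit 9) (nat_lit 0xf000300000001000080000000000000000000000000000000) (nat_lit 0x0) (nat_lit 0xe80074003b0000000c00008000400000000000000000000000000000000000) := T_29 (nat_lit 212) (nat_lit 213) (nat_lit 3) (nat_lit 5) (nat_lit 11) L83633 (by decide +kernel)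
theorem L83643 : W_29 (nat_lit 2) (nat_lit 0x400000001c001e000b00008001000080000000000000000000000000000000) (nat_lit 0x0) (nat_lit 0x400004000200000000000000000000000000000000000) := D_29 (nat_lit 158) (nat_lit 178) (nat_lit 141) (nat_lit 0) (nat_lit 9) (nat_lit 10) (nat_lit 4) (nat_lit 6) (nat_lit 12) (by decide +kernel)
theorem L83644 : W_29 (nat_lit 3) (nat_lit 0x400000001c001e000300008001000080000000000000000000000000000000) (nat_lit 0x0) (nat_lit 0x1c00004000200000000000000000000000000000000000) := T_29 (nat_lit 179) (nat_lit 180) (nat_lit 2) (nat_lit 6) (nat_lit 11) L83643 (by decide +kernel)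
theorem L83645 : W_29 (nat_lit 4) (nat_lit 0x400000001c001e000300000001000080000000000000000000000000000000) (nat_lit 0x0) (nat_lit 0x1c0000c000600000000000000000000000000000000000) := T_29 (nat_lit 159) (nat_lit 142) (nat_lit 7) (nat_lit 6) (nat_lit 8) L83644 (by decide +kernel)
theorem L83646 : W_29 (nat_lit 8) (nat_lit 0x8000e000300008001000080000000000000000000000000000000) (nat_lit 0x0) (nat_lit 0xc0006000700030001c000c4000000000000000000000000000000000000000) := T_29 (nat_lit 196) (nat_lit 197) (nat_lit 0) (nat_lit 10) (nat_lit 11) L15633 (by decide +kernel)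
theorem L83647 : W_29 (nat_lit 9) (nat_lit 0x8000e000300000001000080000000000000000000000000000000) (nat_lit 0x0) (nat_lit 0xc0006000700030001c000cc000400000000000000000000000000000000000) := T_29 (nat_lit 159) (nat_lit 142) (nat_lit 7) (nat_lit 6) (nat_lit 8) L83646 (by decide +kernel)
theorem L83648 : W_29 (nat_lit 4) (nat_lit 0x40006000300008001000080000000000000000000000000000000) (nat_lit 0x0) (nat_lit 0x14000b8008000000000000000000000000000000000000000000000000) := T_29 (nat_lit 211) (nat_lit 228) (nat_lit 7) (nat_lit 6) (nat_lit 9) L6421 (by decide +kernel)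
theorem L83649 : W_29 (nat_lit 5) (nat_lit 0x6000300008001000080000000000000000000000000000000) (nat_lit 0x0) (nat_lit 0x38001c000f8008000000000000000000000000000000000000000000000000) := Q_29 (nat_lit 210) (C_29 L15183 (C_29 L14862 (C_29 L83648 N_29))) (by decide +kernel)
theorem L83650 : W_29 (nat_lit 6) (nat_lit 0x6000300000001000080000000000000000000000000000000) (nat_lit 0x0) (nat_lit 0x38001c000f800800000000e000e00130000000000000000000000000000000) := Q_29 (nat_lit 159) (C_29 L83324 (C_29 L15180 (C_29 L83649 N_29))) (by decide +kernel)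
theorem L83666 : W_29 (nat_lit 2) (nat_lit 0x8000c000e000300008001000080000000000000000000000000000000) (nat_lit 0x0) (nat_lit 0x8000400020000000000000000000000000000000000000000000000000000) := D_29 (nat_lit 226) (nat_lit 243) (nat_lit 209) (nat_lit 5) (nat_lit 6) (nat_lit 10) (nat_lit 5) (nat_lit 6) (nat_lit 9) (by decide +kernel)
theorem L83667 : W_29 (nat_lit 3) (nat_lit 0x8000c000e000300000001000080000000000000000000000000000000) (nat_lit 0x0) (nat_lit 0x8000400020000000000008000400000000000000000000000000000000000) := T_29 (nat_lit 159) (nat_lit 142) (nat_lit 7) (nat_lit 6) (nat_lit 8) L83666 (by decide +kernel)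
theorem L83668 : W_29 (nat_lit 4) (nat_lit 0xc000e000300000001000080000000000000000000000000000000) (nat_lit 0x0) (nat_lit 0x18000c00020000000000008000400000000000000000000000000000000000) := T_29 (nat_lit 227) (nat_lit 244) (nat_lit 6) (nat_lit 6) (nat_lit 14) L83667 (by decide +kernel)
theorem L83805 : W_29 (nat_lit 2) (nat_lit 0xc0034001e000b00000001000080000000000000000000000000000000) (nat_lit 0x0) (nat_lit 0x40002000000000000000040000000000000000000000000000000000000000) := D_29 (nat_lit 229) (nat_lit 246) (nat_lit 162) (nat_lit 6) (nat_lit 8) (nat_lit 14) (nat_lit 5) (nat_lit 9) (nat_lit 9) (by decide +kernel)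
theorem L83806 : W_29 (nat_lit 3) (nat_lit 0xc0024001e000b00000001000080000000000000000000000000000000) (nat_lit 0x0) (nat_lit 0x40002000180000000000040000000000000000000000000000000000000000) := T_29 (nat_lit 212) (nat_lit 211) (nat_lit 1) (nat_lit 9) (nat_lit 12) L83805 (by decide +kernel)
theorem L83807 : W_29 (nat_lit 4) (nat_lit 0x80024001e000b00000001000080000000000000000000000000000000) (nat_lit 0x0) (nat_lit 0x48002400180000000000040000000000000000000000000000000000000000) := T_29 (nat_lit 226) (nat_lit 243) (nat_lit 5) (nat_lit 6) (nat_lit 10) L83806 (by decide +kernel)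
theorem L83827 : W_29 (nat_lit 3) (nat_lit 0xc000340008001000080000000000000000000000000000000) (nat_lit 0x0) (nat_lit 0x1000080002000000000000400020000000000000000000000000000000) := T_29 (nat_lit 142) (nat_lit 125) (nat_lit 7) (nat_lit 6) (nat_lit 7) L5321 (by decide +kernel)
theorem L83828 : W_29 (nat_lit 4) (nat_lit 0xc000300008001000080000000000000000000000000000000) (nat_lit 0x0) (nat_lit 0x10000800020000c0000000400020000000000000000000000000000000) := T_29 (nat_lit 174) (nat_lit 175) (nat_lit 3) (nat_lit 4) (nat_lit 10) L83827 (by decide +kernel)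
theorem L83829 : W_29 (nat_lit 2) (nat_lit 0x8000c000300008001000080000000000000000000000000000000) (nat_lit 0x0) (nat_lit 0x2000000000000400020000000000000000000000000000000) := D_29 (nat_lit 142) (nat_lit 125) (nat_lit 193) (nat_lit 7) (nat_lit 6) (nat_lit 7) (nat_lit 7) (nat_lit 6) (nat_lit 8) (by decide +kernel)
theorem L83830 : W_29 (nat_lit 3) (nat_lit 0xc000300008001000080000000000000000000000000000000) (nat_lit 0x0) (nat_lit 0x1000080002000000000000400020000000000000000000000000000000) := T_29 (nat_lit 211) (nat_lit 228) (nat_lit 4) (nat_lit 7) (nat_lit 13) L83829 (by decide +kernel)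
theorem L83831 : W_29 (nat_lit 2) (nat_lit 0x100000000c000f00088001000080000000000000000000000000000000) (nat_lit 0x0) (nat_lit 0x3000100000000000000000000000000000000000000000) := D_29 (nat_lit 180) (nat_lit 181) (nat_lit 164) (nat_lit 1) (nat_lit 11) (nat_lit 10) (nat_lit 2) (nat_lit 7) (nat_lit 10) (by decide +kernel)
theorem L83832 : W_29 (nat_lit 3) (nat_lit 0x100000000c000f00008001000080000000000000000000000000000000) (nat_lit 0x0) (nat_lit 0x30001c0000000000000000000000000000000000000000) := T_29 (nat_lit 163) (nat_lit 162) (nat_lit 2) (nat_lit 6) (nat_lit 10) L83831 (by decide +kernel)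
theorem L83833 : W_29 (nat_lit 4) (nat_lit 0xc000f00008001000080000000000000000000000000000000) (nat_lit 0x0) (nat_lit 0x10000800000030001c0000000000000000000000000000000000000000) := T_29 (nat_lit 228) (nat_lit 211) (nat_lit 4) (nat_lit 7) (nat_lit 13) L83832 (by decide +kernel)
theorem L83834 : W_29 (nat_lit 5) (nat_lit 0xc000700008001000080000000000000000000000000000000) (nat_lit 0x0) (nat_lit 0x10000800000038001c4000000000000000000000000000000000000000) := T_29 (nat_lit 179) (nat_lit 158) (nat_lit 0) (nat_lit 9) (nat_lit 10) L83833 (by decide +kernel)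
theorem L83835 : W_29 (nat_lit 2) (nat_lit 0xc000f00088001000080000000000000000000000000000000) (nat_lit 0x0) (nat_lit 0x3000100000000000000000000000000000000000000000) := D_29 (nat_lit 180) (nat_lit 181) (nat_lit 164) (nat_lit 1) (nat_lit 11) (nat_lit 10) (nat_lit 2) (nat_lit 7) (nat_lit 10) (by decide +kernel)
theorem L83836 : W_29 (nat_lit 3) (nat_lit 0xc000f00008001000080000000000000000000000000000000) (nat_lit 0x0) (nat_lit 0x30001c0000000000000000000000000000000000000000) := T_29 (nat_lit 163) (nat_lit 162) (nat_lit 2) (nat_lit 6) (nat_lit 10) L83835 (by decide +kernel)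
theorem L83839 : W_29 (nat_lit 2) (nat_lit 0x10000c000f00088001000080000000000000000000000000000000) (nat_lit 0x0) (nat_lit 0x3000100000000000000000000000000000000000000000) := D_29 (nat_lit 180) (nat_lit 181) (nat_lit 164) (nat_lit 1) (nat_lit 11) (nat_lit 10) (nat_lit 2) (nat_lit 7) (nat_lit 10) (by decide +kernel)
theorem L83840 : W_29 (nat_lit 3) (nat_lit 0x10000c000f00008001000080000000000000000000000000000000) (nat_lit 0x0) (nat_lit 0x30001c0000000000000000000000000000000000000000) := T_29 (nat_lit 163) (nat_lit 162) (nat_lit 2) (nat_lit 6) (nat_lit 10) L83839 (by decide +kernel)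
theorem L83845 : W_29 (nat_lit 2) (nat_lit 0xc00038000c001400080000000000000000000000000000000) (nat_lit 0x0) (nat_lit 0x400003000000000000000000000000000000000000000) := D_29 (nat_lit 157) (nat_lit 156) (nat_lit 178) (nat_lit 3) (nat_lit 3) (nat_lit 9) (nat_lit 0) (nat_lit 8) (nat_lit 10) (by decide +kernel)
theorem L83846 : W_29 (nat_lit 2) (nat_lit 0x100000000c00078000c001400080000000000000000000000000000000) (nat_lit 0x0) (nat_lit 0x20001800000000000000000000000000000000000000000000000) := D_29 (nat_lit 192) (nat_lit 209) (nat_lit 191) (nat_lit 6) (nat_lit 5) (nat_lit 12) (nat_lit 1) (nat_lit 8) (nat_lit 10) (by decide +kernel)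
theorem L83847 : W_29 (nat_lit 3) (nat_lit 0x100000000c00038000c001400080000000000000000000000000000000) (nat_lit 0x0) (nat_lit 0x20001800c00000000000000000000000000000000000000000000) := T_29 (nat_lit 178) (nat_lit 179) (nat_lit 0) (nat_lit 9) (nat_lit 10) L83846 (by decide +kernel)
theorem L83848 : W_29 (nat_lit 4) (nat_lit 0xc00038000c001400080000000000000000000000000000000) (nat_lit 0x0) (nat_lit 0x10000a0001800c00000000000000000000000000000000000000000000) := T_29 (nat_lit 228) (nat_lit 211) (nat_lit 4) (nat_lit 7) (nat_lit 13) L83847 (by decide +kernel)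
theorem L83849 : W_29 (nat_lit 7) (nat_lit 0xc000380008001400080000000000000000000000000000000) (nat_lit 0x0) (nat_lit 0x10000a0001800c00007000b00018000c00000000000000000000000000) := Q_29 (nat_lit 158) (C_29 L82408 (C_29 L83845 (C_29 L83848 N_29))) (by decide +kernel)
theorem L83850 : W_29 (nat_lit 8) (nat_lit 0xc000300008001400080000000000000000000000000000000) (nat_lit 0x0) (nat_lit 0x10000a0001800cc0007000b00018000c00000000000000000000000000) := T_29 (nat_lit 175) (nat_lit 174) (nat_lit 3) (nat_lit 4) (nat_lit 10) L83849 (by decide +kernel)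
theorem L83851 : W_29 (nat_lit 9) (nat_lit 0xc000300008001000080000000000000000000000000000000) (nat_lit 0x0) (nat_lit 0x10000a0001800cc0007000f00038000c00000000000000000000000000) := T_29 (nat_lit 142) (nat_lit 125) (nat_lit 7) (nat_lit 6) (nat_lit 7) L83850 (by decide +kernel)
theorem L83852 : W_29 (nat_lit 2) (nat_lit 0xf000340008001400080000000000000000000000000000000) (nat_lit 0x0) (nat_lit 0xc00020000000000000000000000000000000000000000000) := D_29 (nat_lit 191) (nat_lit 173) (nat_lit 190) (nat_lit 0) (nat_lit 7) (nat_lit 11) (nat_lit 2) (nat_lit 3) (nat_lit 11) (by decide +kernel)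
theorem L83853 : W_29 (nat_lit 3) (nat_lit 0xe000340008001400080000000000000000000000000000000) (nat_lit 0x0) (nat_lit 0x20001c00020000000000000000000000000000000000000000000) := T_29 (nat_lit 192) (nat_lit 209) (nat_lit 5) (nat_lit 6) (nat_lit 8) L83852 (by decide +kernel)
theorem L83854 : W_29 (nat_lit 4) (nat_lit 0xc000340008001400080000000000000000000000000000000) (nat_lit 0x0) (nat_lit 0xa0003c00020000000000000000000000000000000000000000000) := T_29 (nat_lit 193) (nat_lit 211) (nat_lit 7) (nat_lit 6) (nat_lit 8) L83853 (by decide +kernel)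
theorem L83855 : W_29 (nat_lit 5) (nat_lit 0xc000300008001400080000000000000000000000000000000) (nat_lit 0x0) (nat_lit 0xa0003c000e0000000000000000000000000000000000000000000) := T_29 (nat_lit 174) (nat_lit 175) (nat_lit 3) (nat_lit 4) (nat_lit 10) L83854 (by decide +kernel)
theorem L83856 : W_29 (nat_lit 6) (nat_lit 0xc000300008001000080000000000000000000000000000000) (nat_lit 0x0) (nat_lit 0xa0003c000e0000000400020000000000000000000000000000000) := T_29 (nat_lit 142) (nat_lit 125) (nat_lit 7) (nat_lit 6) (nat_lit 7) L83855 (by decide +kernel)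
theorem L83857 : W_29 (nat_lit 5) (nat_lit 0xc00030000e001400080000000000000000000000000000000) (nat_lit 0x0) (nat_lit 0x100008000c0000000b00010000800000000000000000000000000) := T_29 (nat_lit 174) (nat_lit 175) (nat_lit 3) (nat_lit 4) (nat_lit 10) L82400 (by decide +kernel)
theorem L83858 : W_29 (nat_lit 6) (nat_lit 0xc00030000c001400080000000000000000000000000000000) (nat_lit 0x0) (nat_lit 0x100008000c0003000b00010000800000000000000000000000000) := T_29 (nat_lit 157) (nat_lit 156) (nat_lit 3) (nat_lit 3) (nat_lit 9) L83857 (by decide +kernel)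
theorem L83859 : W_29 (nat_lit 7) (nat_lit 0xc00030000c001000080000000000000000000000000000000) (nat_lit 0x0) (nat_lit 0x100008000c0003000f00030000800000000000000000000000000) := T_29 (nat_lit 142) (nat_lit 125) (nat_lit 7) (nat_lit 6) (nat_lit 7) L83858 (by decide +kernel)
theorem L83860 : W_29 (nat_lit 2) (nat_lit 0xc00038000c001000080000000000000000000000000000000) (nat_lit 0x0) (nat_lit 0x400003000000000000000000000000000000000000000) := D_29 (nat_lit 157) (nat_lit 156) (nat_lit 178) (nat_lit 3) (nat_lit 3) (nat_lit 9) (nat_lit 0) (nat_lit 8) (nat_lit 10) (by decide +kernel)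
theorem L83861 : W_29 (nat_lit 3) (nat_lit 0xc00030000c001000080000000000000000000000000000000) (nat_lit 0x0) (nat_lit 0x4c0003000000000000000000000000000000000000000) := T_29 (nat_lit 175) (nat_lit 174) (nat_lit 3) (nat_lit 4) (nat_lit 10) L83860 (by decide +kernel)
theorem L83862 : W_29 (nat_lit 2) (nat_lit 0xc000b0000e001600080000000000000000000000000000000) (nat_lit 0x0) (nat_lit 0x2000000000000000010000800000000000000000000000000) := D_29 (nat_lit 124) (nat_lit 107) (nat_lit 193) (nat_lit 7) (nat_lit 5) (nat_lit 6) (nat_lit 4) (nat_lit 6) (nat_lit 11) (by decide +kernel)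
theorem L83863 : W_29 (nat_lit 3) (nat_lit 0xc000b0000e001400080000000000000000000000000000000) (nat_lit 0x0) (nat_lit 0x2000000000000a00010000800000000000000000000000000) := T_29 (nat_lit 141) (nat_lit 143) (nat_lit 1) (nat_lit 8) (nat_lit 8) L83862 (by decide +kernel)
theorem L83864 : W_29 (nat_lit 4) (nat_lit 0xc00030000e001400080000000000000000000000000000000) (nat_lit 0x0) (nat_lit 0x2000c00000000a00010000800000000000000000000000000) := T_29 (nat_lit 179) (nat_lit 178) (nat_lit 0) (nat_lit 9) (nat_lit 10) L83863 (by decide +kernel)
theorem L83865 : W_29 (nat_lit 5) (nat_lit 0xc00030000e001000080000000000000000000000000000000) (nat_lit 0x0) (nat_lit 0x2000c00000000e00030000800000000000000000000000000) := T_29 (nat_lit 142) (nat_lit 125) (nat_lit 7) (nat_lit 6) (nat_lit 7) L83864 (by decide +kernel)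
theorem L83866 : W_29 (nat_lit 6) (nat_lit 0xc00030000c001000080000000000000000000000000000000) (nat_lit 0x0) (nat_lit 0x2000c00003000e00030000800000000000000000000000000) := T_29 (nat_lit 157) (nat_lit 156) (nat_lit 3) (nat_lit 3) (nat_lit 9) L83865 (by decide +kernel)
theorem L83867 : W_29 (nat_lit 2) (nat_lit 0x2000d00078000c0010000a0000000000000000000000000000000) (nat_lit 0x0) (nat_lit 0x200010002000000000000000000000000000000000000000000000000) := D_29 (nat_lit 208) (nat_lit 225) (nat_lit 193) (nat_lit 5) (nat_lit 5) (nat_lit 9) (nat_lit 1) (nat_lit 8) (nat_lit 11) (by decide +kernel)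
theorem L83868 : W_29 (nat_lit 3) (nat_lit 0xd00078000c0010000a0000000000000000000000000000000) (nat_lit 0x0) (nat_lit 0x600030002000000000000000000000000000000000000000000000000) := T_29 (nat_lit 209) (nat_lit 226) (nat_lit 6) (nat_lit 5) (nat_lit 13) L83867 (by decide +kernel)
theorem L83869 : W_29 (nat_lit 4) (nat_lit 0xc00078000c0010000a0000000000000000000000000000000) (nat_lit 0x0) (nat_lit 0x600030003800000000000000000000000000000000000000000000000) := T_29 (nat_lit 192) (nat_lit 191) (nat_lit 1) (nat_lit 8) (nat_lit 10) L83868 (by decide +kernel)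
theorem L83870 : W_29 (nat_lit 5) (nat_lit 0xc00078000c001000080000000000000000000000000000000) (nat_lit 0x0) (nat_lit 0x600030003800000000000400020000000000000000000000000000000) := T_29 (nat_lit 125) (nat_lit 142) (nat_lit 7) (nat_lit 6) (nat_lit 7) L83869 (by decide +kernel)
theorem L83871 : W_29 (nat_lit 6) (nat_lit 0xc00070000c001000080000000000000000000000000000000) (nat_lit 0x0) (nat_lit 0x6000300038000c0000000400020000000000000000000000000000000) := T_29 (nat_lit 175) (nat_lit 174) (nat_lit 3) (nat_lit 4) (nat_lit 10) L83870 (by decide +kernel)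
theorem L83872 : W_29 (nat_lit 7) (nat_lit 0xc00030000c001000080000000000000000000000000000000) (nat_lit 0x0) (nat_lit 0x600030003800cc0000000400020000000000000000000000000000000) := T_29 (nat_lit 178) (nat_lit 179) (nat_lit 0) (nat_lit 9) (nat_lit 10) L83871 (by decide +kernel)
theorem L83873 : W_29 (nat_lit 8) (nat_lit 0xc000300008001000080000000000000000000000000000000) (nat_lit 0x0) (nat_lit 0x600030003800cc0007000f00030000800000000000000000000000000) := Q_29 (nat_lit 158) (C_29 L83859 (C_29 L83861 (C_29 L83866 (C_29 L83872 N_29)))) (by decide +kernel)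
theorem L83874 : W_29 (nat_lit 2) (nat_lit 0x100000000d000f80088001000080000000000000000000000000000000) (nat_lit 0x0) (nat_lit 0x3000100000000000000000000000000000000000000000) := D_29 (nat_lit 180) (nat_lit 181) (nat_lit 164) (nat_lit 1) (nat_lit 11) (nat_lit 10) (nat_lit 2) (nat_lit 7) (nat_lit 10) (by decide +kernel)
theorem L83875 : W_29 (nat_lit 3) (nat_lit 0x100000000d000f80008001000080000000000000000000000000000000) (nat_lit 0x0) (nat_lit 0x30001c0000000000000000000000000000000000000000) := T_29 (nat_lit 163) (nat_lit 162) (nat_lit 2) (nat_lit 6) (nat_lit 10) L83874 (by decide +kernel)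
theorem L83876 : W_29 (nat_lit 4) (nat_lit 0x100000000d000780008001000080000000000000000000000000000000) (nat_lit 0x0) (nat_lit 0x20038001c0000000000000000000000000000000000000000) := T_29 (nat_lit 179) (nat_lit 193) (nat_lit 2) (nat_lit 5) (nat_lit 11) L83875 (by decide +kernel)
theorem L83877 : W_29 (nat_lit 5) (nat_lit 0x100000000c000780008001000080000000000000000000000000000000) (nat_lit 0x0) (nat_lit 0x38038001c0000000000000000000000000000000000000000) := T_29 (nat_lit 192) (nat_lit 191) (nat_lit 1) (nat_lit 8) (nat_lit 10) L83876 (by decide +kernel)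
theorem L83878 : W_29 (nat_lit 6) (nat_lit 0x100000000c000700008001000080000000000000000000000000000000) (nat_lit 0x0) (nat_lit 0x38038c01c0000000000000000000000000000000000000000) := T_29 (nat_lit 175) (nat_lit 174) (nat_lit 3) (nat_lit 4) (nat_lit 10) L83877 (by decide +kernel)
theorem L83879 : W_29 (nat_lit 7) (nat_lit 0xc000700008001000080000000000000000000000000000000) (nat_lit 0x0) (nat_lit 0x10000800038038c01c0000000000000000000000000000000000000000) := T_29 (nat_lit 228) (nat_lit 211) (nat_lit 4) (nat_lit 7) (nat_lit 13) L83878 (by decide +kernel)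
theorem L83880 : W_29 (nat_lit 4) (nat_lit 0x100000000c00078000c001000080000000000000000000000000000000) (nat_lit 0x0) (nat_lit 0x600030003800000000000000000000000000000000000000000000000) := T_29 (nat_lit 192) (nat_lit 191) (nat_lit 1) (nat_lit 8) (nat_lit 10) L78264 (by decide +kernel)
theorem L83881 : W_29 (nat_lit 5) (nat_lit 0x100000000c000780008001000080000000000000000000000000000000) (nat_lit 0x0) (nat_lit 0x600030003800000006000000000000000000000000000000000000000) := T_29 (nat_lit 158) (nat_lit 157) (nat_lit 0) (nat_lit 8) (nat_lit 10) L83880 (by decide +kernel)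
theorem L83882 : W_29 (nat_lit 6) (nat_lit 0xc000780008001000080000000000000000000000000000000) (nat_lit 0x0) (nat_lit 0x16000b0003800000006000000000000000000000000000000000000000) := T_29 (nat_lit 228) (nat_lit 211) (nat_lit 4) (nat_lit 7) (nat_lit 13) L83881 (by decide +kernel)
theorem L83883 : W_29 (nat_lit 7) (nat_lit 0xc000700008001000080000000000000000000000000000000) (nat_lit 0x0) (nat_lit 0x16000b00038000c0006000000000000000000000000000000000000000) := T_29 (nat_lit 175) (nat_lit 174) (nat_lit 3) (nat_lit 4) (nat_lit 10) L83882 (by decide +kernel)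
theorem L83884 : W_29 (nat_lit 4) (nat_lit 0xc000700008001000080000000000000000000000000000000) (nat_lit 0x0) (nat_lit 0x38001c4000000000000000000000000000000000000000) := T_29 (nat_lit 179) (nat_lit 158) (nat_lit 0) (nat_lit 9) (nat_lit 10) L83836 (by decide +kernel)
theorem L83885 : W_29 (nat_lit 8) (nat_lit 0xc000300008001000080000000000000000000000000000000) (nat_lit 0x0) (nat_lit 0x16000b0003803cc01c6000000000000000000000000000000000000000) := Q_29 (nat_lit 178) (C_29 L83879 (C_29 L83883 (C_29 L83834 (C_29 L83884 N_29)))) (by decide +kernel)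
theorem L83886 : W_29 (nat_lit 10) (nat_lit 0xc000300000001000080000000000000000000000000000000) (nat_lit 0x0) (nat_lit 0x16000b0003c03ce01cf000f00038000c00000000000000000000000000) := Q_29 (nat_lit 159) (C_29 L83828 (C_29 L83830 (C_29 L83851 (C_29 L83856 (C_29 L83873 (C_29 L83885 N_29)))))) (by decide +kernel)
theorem L83887 : W_29 (nat_lit 11) (nat_lit 0xe000300000001000080000000000000000000000000000000) (nat_lit 0x0) (nat_lit 0xfe007e007b8030001c000cc000400000000000000000000000000000000000) := Q_29 (nat_lit 211) (C_29 L11830 (C_29 L83647 (C_29 L15627 N_29))) (by decide +kernel)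
theorem L83888 : W_29 (nat_lit 10) (nat_lit 0xe000300000001000080000000000000000000000000000000) (nat_lit 0x0) (nat_lit 0xe80074003b8001c00c00008000400000000000000000000000000000000000) := Q_29 (nat_lit 192) (C_29 L83634 (C_29 L82737 (C_29 L11585 N_29))) (by decide +kernel)
theorem L83889 : W_29 (nat_lit 12) (nat_lit 0xc000300000001000080000000000000000000000000000000) (nat_lit 0x0) (nat_lit 0xfe007e007b8033c01c000cc000400000000000000000000000000000000000) := Q_29 (nat_lit 193) (C_29 L83887 (C_29 L15638 (C_29 L15642 (C_29 L83888 (C_29 L15647 N_29))))) (by decide +kernel)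
theorem L83921 : W_29 (nat_lit 4) (nat_lit 0x18000d000c000380000001000080000000000000000000000000000000) (nat_lit 0x0) (nat_lit 0x8000600108002000000004000000000000000000000000000000000000000) := T_29 (nat_lit 193) (nat_lit 158) (nat_lit 4) (nat_lit 6) (nat_lit 13) L6004 (by decide +kernel)
theorem L83926 : W_29 (nat_lit 2) (nat_lit 0x400000001c000c001f80004001000080000000000000000000000000000000) (nat_lit 0x0) (nat_lit 0x1c0000000000000000000000000000000000000000) := D_29 (nat_lit 163) (nat_lit 162) (nat_lit 164) (nat_lit 2) (nat_lit 6) (nat_lit 10) (nat_lit 2) (nat_lit 7) (nat_lit 10) (by decide +kernel)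
theorem L83927 : W_29 (nat_lit 3) (nat_lit 0x400000001c000c000f80004001000080000000000000000000000000000000) (nat_lit 0x0) (nat_lit 0x30001c0000000000000000000000000000000000000000) := T_29 (nat_lit 180) (nat_lit 181) (nat_lit 1) (nat_lit 11) (nat_lit 10) L83926 (by decide +kernel)
theorem L83928 : W_29 (nat_lit 4) (nat_lit 0x400000001c000c000780004001000080000000000000000000000000000000) (nat_lit 0x0) (nat_lit 0x38001c8000000000000000000000000000000000000000) := T_29 (nat_lit 179) (nat_lit 159) (nat_lit 0) (nat_lit 9) (nat_lit 10) L83927 (by decide +kernel)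
theorem L83929 : W_29 (nat_lit 5) (nat_lit 0x400000001c000c000780000001000080000000000000000000000000000000) (nat_lit 0x0) (nat_lit 0x38001ce000000000000000000000000000000000000000) := T_29 (nat_lit 158) (nat_lit 157) (nat_lit 0) (nat_lit 8) (nat_lit 10) L83928 (by decide +kernel)
theorem L83930 : W_29 (nat_lit 6) (nat_lit 0x400000001c000c000700000001000080000000000000000000000000000000) (nat_lit 0x0) (nat_lit 0x38c01ce000000000000000000000000000000000000000) := T_29 (nat_lit 175) (nat_lit 174) (nat_lit 3) (nat_lit 4) (nat_lit 10) L83929 (by decide +kernel)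
theorem L83931 : W_29 (nat_lit 7) (nat_lit 0x1c000c000700000001000080000000000000000000000000000000) (nat_lit 0x0) (nat_lit 0x400020000000000038c01ce000000000000000000000000000000000000000) := T_29 (nat_lit 246) (nat_lit 229) (nat_lit 4) (nat_lit 8) (nat_lit 14) L83930 (by decide +kernel)
theorem L83932 : W_29 (nat_lit 2) (nat_lit 0x1c000c000f80004001000080000000000000000000000000000000) (nat_lit 0x0) (nat_lit 0x20000000000000000c0000000000000000000000000000000000000000) := D_29 (nat_lit 162) (nat_lit 163) (nat_lit 229) (nat_lit 2) (nat_lit 6) (nat_lit 10) (nat_lit 6) (nat_lit 8) (nat_lit 13) (by decide +kernel)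
theorem L83933 : W_29 (nat_lit 3) (nat_lit 0x1c000c000780004001000080000000000000000000000000000000) (nat_lit 0x0) (nat_lit 0x20000000000008000c8000000000000000000000000000000000000000) := T_29 (nat_lit 179) (nat_lit 159) (nat_lit 0) (nat_lit 9) (nat_lit 10) L83932 (by decide +kernel)
theorem L83934 : W_29 (nat_lit 4) (nat_lit 0x1c000c000780000001000080000000000000000000000000000000) (nat_lit 0x0) (nat_lit 0x20000000000008000ce000000000000000000000000000000000000000) := T_29 (nat_lit 158) (nat_lit 157) (nat_lit 0) (nat_lit 8) (nat_lit 10) L83933 (by decide +kernel)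
theorem L83935 : W_29 (nat_lit 5) (nat_lit 0x1c000c000700000001000080000000000000000000000000000000) (nat_lit 0x0) (nat_lit 0x20000000000008c00ce000000000000000000000000000000000000000) := T_29 (nat_lit 175) (nat_lit 174) (nat_lit 3) (nat_lit 4) (nat_lit 10) L83934 (by decide +kernel)
theorem L83936 : W_29 (nat_lit 2) (nat_lit 0x1c000c001f80004001000080000000000000000000000000000000) (nat_lit 0x0) (nat_lit 0x1c0000000000000000000000000000000000000000) := D_29 (nat_lit 163) (nat_lit 162) (nat_lit 164) (nat_lit 2) (nat_lit 6) (nat_lit 10) (nat_lit 2) (nat_lit 7) (nat_lit 10) (by decide +kernel)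
theorem L83937 : W_29 (nat_lit 3) (nat_lit 0x1c000c000f80004001000080000000000000000000000000000000) (nat_lit 0x0) (nat_lit 0x30001c0000000000000000000000000000000000000000) := T_29 (nat_lit 180) (nat_lit 181) (nat_lit 1) (nat_lit 11) (nat_lit 10) L83936 (by decide +kernel)
theorem L83938 : W_29 (nat_lit 4) (nat_lit 0x1c000c000780004001000080000000000000000000000000000000) (nat_lit 0x0) (nat_lit 0x38001c8000000000000000000000000000000000000000) := T_29 (nat_lit 179) (nat_lit 159) (nat_lit 0) (nat_lit 9) (nat_lit 10) L83937 (by decide +kernel)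
theorem L83939 : W_29 (nat_lit 5) (nat_lit 0x1c000c000780000001000080000000000000000000000000000000) (nat_lit 0x0) (nat_lit 0x38001ce000000000000000000000000000000000000000) := T_29 (nat_lit 158) (nat_lit 157) (nat_lit 0) (nat_lit 8) (nat_lit 10) L83938 (by decide +kernel)
theorem L83940 : W_29 (nat_lit 6) (nat_lit 0x1c000c000700000001000080000000000000000000000000000000) (nat_lit 0x0) (nat_lit 0x38c01ce000000000000000000000000000000000000000) := T_29 (nat_lit 175) (nat_lit 174) (nat_lit 3) (nat_lit 4) (nat_lit 10) L83939 (by decide +kernel)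
theorem L83941 : W_29 (nat_lit 8) (nat_lit 0x1c000c000300000001000080000000000000000000000000000000) (nat_lit 0x0) (nat_lit 0xc001e000200000003cc01ce000000000000000000000000000000000000000) := Q_29 (nat_lit 178) (C_29 L83931 (C_29 L81816 (C_29 L83935 (C_29 L83940 N_29)))) (by decide +kernel)
theorem L83943 : W_29 (nat_lit 2) (nat_lit 0x48003c000c000300000001000080000000000000000000000000000000) (nat_lit 0x0) (nat_lit 0x200010000000000002000000000000000000000000000000000000000000000000) := D_29 (nat_lit 244) (nat_lit 193) (nat_lit 261) (nat_lit 6) (nat_lit 6) (nat_lit 14) (nat_lit 6) (nat_lit 6) (nat_lit 15) (by decide +kernel)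
theorem L83944 : W_29 (nat_lit 3) (nat_lit 0x40003c000c000300000001000080000000000000000000000000000000) (nat_lit 0x0) (nat_lit 0x200010000c00000002000000000000000000000000000000000000000000000000) := T_29 (nat_lit 227) (nat_lit 226) (nat_lit 1) (nat_lit 9) (nat_lit 12) L83943 (by decide +kernel)
theorem L83945 : W_29 (nat_lit 4) (nat_lit 0x3c000c000300000001000080000000000000000000000000000000) (nat_lit 0x0) (nat_lit 0x20001000cc00000002000000000000000000000000000000000000000000000000) := T_29 (nat_lit 230) (nat_lit 231) (nat_lit 3) (nat_lit 6) (nat_lit 12) L83944 (by decide +kernel)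
theorem L83968 : W_29 (nat_lit 2) (nat_lit 0x300010000c000f00000001000080000000000000000000000000000000) (nat_lit 0x0) (nat_lit 0x2003000000000000000000000000000000000000000000000) := D_29 (nat_lit 180) (nat_lit 181) (nat_lit 193) (nat_lit 1) (nat_lit 11) (nat_lit 10) (nat_lit 1) (nat_lit 10) (nat_lit 10) (by decide +kernel)
theorem L83969 : W_29 (nat_lit 3) (nat_lit 0x300010000c000700000001000080000000000000000000000000000000) (nat_lit 0x0) (nat_lit 0x2003800040000000000000000000000000000000000000000) := T_29 (nat_lit 179) (nat_lit 162) (nat_lit 6) (nat_lit 8) (nat_lit 13) L83968 (by decide +kernel)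
theorem L84150 : W_29 (nat_lit 2) (nat_lit 0x3c000c000300000001000080000000000000000000000000000000) (nat_lit 0x0) (nat_lit 0xc00002000000000000000000000000000000000000000000000000) := D_29 (nat_lit 214) (nat_lit 193) (nat_lit 215) (nat_lit 0) (nat_lit 10) (nat_lit 12) (nat_lit 0) (nat_lit 11) (nat_lit 12) (by decide +kernel)
theorem L84151 : W_29 (nat_lit 5) (nat_lit 0x1c000c000300000001000080000000000000000000000000000000) (nat_lit 0x0) (nat_lit 0x20001001cc00e00002000000000000000000000000000000000000000000000000) := Q_29 (nat_lit 213) (C_29 L83945 (C_29 L81813 (C_29 L84150 N_29))) (by decide +kernel)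
theorem L84160 : W_29 (nat_lit 4) (nat_lit 0x400000003c000c000300000001000080000000000000000000000000000000) (nat_lit 0x0) (nat_lit 0x180008000c000000030000000000000000000000000000000000000000000000000) := T_29 (nat_lit 196) (nat_lit 197) (nat_lit 2) (nat_lit 6) (nat_lit 12) L82390 (by decide +kernel)
theorem L84161 : W_29 (nat_lit 5) (nat_lit 0x3c000c000300000001000080000000000000000000000000000000) (nat_lit 0x0) (nat_lit 0x18000c000e000000030000000000000000000000000000000000000000000000000) := T_29 (nat_lit 246) (nat_lit 229) (nat_lit 4) (nat_lit 8) (nat_lit 14) L84160 (by decide +kernel)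
theorem L84162 : W_29 (nat_lit 6) (nat_lit 0x2c000c000300000001000080000000000000000000000000000000) (nat_lit 0x0) (nat_lit 0x18000c001e000d00070000000000000000000000000000000000000000000000000) := Q_29 (nat_lit 212) (C_29 L84161 (C_29 L81813 (C_29 L82388 N_29))) (by decide +kernel)
theorem L84163 : W_29 (nat_lit 5) (nat_lit 0x2c000c000300000001000080000000000000000000000000000000) (nat_lit 0x0) (nat_lit 0x20001001cc00d00002000000000000000000000000000000000000000000000000) := Q_29 (nat_lit 212) (C_29 L84150 (C_29 L81813 (C_29 L83945 N_29))) (by decide +kernel)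
theorem L84164 : W_29 (nat_lit 2) (nat_lit 0x2c001e000b00008001000080000000000000000000000000000000) (nat_lit 0x0) (nat_lit 0x400004000200000000000000000000000000000000000) := D_29 (nat_lit 158) (nat_lit 141) (nat_lit 178) (nat_lit 4) (nat_lit 6) (nat_lit 12) (nat_lit 0) (nat_lit 9) (nat_lit 10) (by decide +kernel)
theorem L84165 : W_29 (nat_lit 3) (nat_lit 0x2c001e000b00000001000080000000000000000000000000000000) (nat_lit 0x0) (nat_lit 0x40000c000600000000000000000000000000000000000) := T_29 (nat_lit 159) (nat_lit 142) (nat_lit 7) (nat_lit 6) (nat_lit 8) L84164 (by decide +kernel)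
theorem L84166 : W_29 (nat_lit 4) (nat_lit 0x2c001e000300000001000080000000000000000000000000000000) (nat_lit 0x0) (nat_lit 0x1c0000c000600000000000000000000000000000000000) := T_29 (nat_lit 179) (nat_lit 180) (nat_lit 2) (nat_lit 6) (nat_lit 11) L84165 (by decide +kernel)
theorem L84167 : W_29 (nat_lit 5) (nat_lit 0x2c001c000300000001000080000000000000000000000000000000) (nat_lit 0x0) (nat_lit 0x400002001c0000c000600000000000000000000000000000000000) := T_29 (nat_lit 193) (nat_lit 214) (nat_lit 3) (nat_lit 6) (nat_lit 11) L84166 (by decide +kernel)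
theorem L84168 : W_29 (nat_lit 6) (nat_lit 0x2c000c000300000001000080000000000000000000000000000000) (nat_lit 0x0) (nat_lit 0x400032001c0000c000600000000000000000000000000000000000) := T_29 (nat_lit 196) (nat_lit 197) (nat_lit 1) (nat_lit 10) (nat_lit 11) L84167 (by decide +kernel)
theorem L84169 : W_29 (nat_lit 2) (nat_lit 0x400008003c001c000300000001000080000000000000000000000000000000) (nat_lit 0x0) (nat_lit 0x200010000000000002000000000000000000000000000000000000000000000000) := D_29 (nat_lit 244) (nat_lit 193) (nat_lit 261) (nat_lit 6) (nat_lit 6) (nat_lit 14) (nat_lit 6) (nat_lit 6) (nat_lit 15) (by decide +kernel)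
theorem L84170 : W_29 (nat_lit 3) (nat_lit 0x400000003c001c000300000001000080000000000000000000000000000000) (nat_lit 0x0) (nat_lit 0x200010000c00000002000000000000000000000000000000000000000000000000) := T_29 (nat_lit 227) (nat_lit 226) (nat_lit 1) (nat_lit 9) (nat_lit 12) L84169 (by decide +kernel)
theorem L84171 : W_29 (nat_lit 4) (nat_lit 0x3c001c000300000001000080000000000000000000000000000000) (nat_lit 0x0) (nat_lit 0x200050002c00000002000000000000000000000000000000000000000000000000) := T_29 (nat_lit 246) (nat_lit 229) (nat_lit 4) (nat_lit 8) (nat_lit 14) L84170 (by decide +kernel)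
theorem L84172 : W_29 (nat_lit 5) (nat_lit 0x3c000c000300000001000080000000000000000000000000000000) (nat_lit 0x0) (nat_lit 0x200050002c00000032000000000000000000000000000000000000000000000000) := T_29 (nat_lit 196) (nat_lit 197) (nat_lit 2) (nat_lit 6) (nat_lit 12) L84171 (by decide +kernel)
theorem L84173 : W_29 (nat_lit 6) (nat_lit 0x2c000c000300000001000080000000000000000000000000000000) (nat_lit 0x0) (nat_lit 0x1a000d000ec00100032000000000000000000000000000000000000000000000000) := Q_29 (nat_lit 212) (C_29 L84161 (C_29 L83945 (C_29 L84172 N_29))) (by decide +kernel)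
theorem L84174 : W_29 (nat_lit 7) (nat_lit 0xc000c000300000001000080000000000000000000000000000000) (nat_lit 0x0) (nat_lit 0x1a000d001ec00f00072001c0000c000600000000000000000000000000000000000) := Q_29 (nat_lit 213) (C_29 L84162 (C_29 L84163 (C_29 L84168 (C_29 L84173 N_29)))) (by decide +kernel)
theorem L84186 : W_29 (nat_lit 2) (nat_lit 0xc000380000001000080000000000000000000000000000000) (nat_lit 0x0) (nat_lit 0x12000400000000000000000000000000000000000000000000) := D_29 (nat_lit 196) (nat_lit 193) (nat_lit 178) (nat_lit 0) (nat_lit 9) (nat_lit 11) (nat_lit 3) (nat_lit 5) (nat_lit 10) (by decide +kernel)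
theorem L84187 : W_29 (nat_lit 3) (nat_lit 0xc000300000001000080000000000000000000000000000000) (nat_lit 0x0) (nat_lit 0x120004c0000000000000000000000000000000000000000000) := T_29 (nat_lit 175) (nat_lit 174) (nat_lit 3) (nat_lit 4) (nat_lit 10) L84186 (by decide +kernel)
theorem L84191 : W_29 (nat_lit 6) (nat_lit 0xc00030000d0012000b0000000000000000000000000000000) (nat_lit 0x0) (nat_lit 0x600030001800080000000100008001400000000000000000000000000) := T_29 (nat_lit 175) (nat_lit 108) (nat_lit 6) (nat_lit 5) (nat_lit 10) L82412 (by decide +kernel)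
theorem L84193 : W_29 (nat_lit 2) (nat_lit 0x1000f800300000001000080000000000000000000000000000000) (nat_lit 0x0) (nat_lit 0x30000080000000000000000000000000000000000000000000) := D_29 (nat_lit 196) (nat_lit 197) (nat_lit 175) (nat_lit 0) (nat_lit 10) (nat_lit 11) (nat_lit 0) (nat_lit 9) (nat_lit 11) (by decide +kernel)
theorem L84194 : W_29 (nat_lit 3) (nat_lit 0x10007800300000001000080000000000000000000000000000000) (nat_lit 0x0) (nat_lit 0x20038000080000000000000000000000000000000000000000000) := T_29 (nat_lit 195) (nat_lit 209) (nat_lit 1) (nat_lit 8) (nat_lit 11) L84193 (by decide +kernel)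
theorem L84195 : W_29 (nat_lit 4) (nat_lit 0x7800300000001000080000000000000000000000000000000) (nat_lit 0x0) (nat_lit 0x38038000080000000000000000000000000000000000000000000) := T_29 (nat_lit 208) (nat_lit 207) (nat_lit 1) (nat_lit 7) (nat_lit 11) L84194 (by decide +kernel)
theorem L84196 : W_29 (nat_lit 5) (nat_lit 0x7000300000001000080000000000000000000000000000000) (nat_lit 0x0) (nat_lit 0x38038c00080000000000000000000000000000000000000000000) := T_29 (nat_lit 191) (nat_lit 190) (nat_lit 2) (nat_lit 3) (nat_lit 11) L84195 (by decide +kernel)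
theorem L84230 : W_29 (nat_lit 4) (nat_lit 0xf000380000001000080000000000000000000000000000000) (nat_lit 0x0) (nat_lit 0x800040000000c00006000200000000000000000000000000000000000) := T_29 (nat_lit 178) (nat_lit 179) (nat_lit 2) (nat_lit 5) (nat_lit 11) L78163 (by decide +kernel)
theorem L84231 : W_29 (nat_lit 5) (nat_lit 0xf000300000001000080000000000000000000000000000000) (nat_lit 0x0) (nat_lit 0x800040000000cc0006000200000000000000000000000000000000000) := T_29 (nat_lit 175) (nat_lit 174) (nat_lit 3) (nat_lit 4) (nat_lit 10) L84230 (by decide +kernel)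
theorem L84349 : W_29 (nat_lit 2) (nat_lit 0x800040007000b0000c001000080000000000000000000000000000000) (nat_lit 0x0) (nat_lit 0x80000000000000000400020000000000000000000000000000000) := D_29 (nat_lit 142) (nat_lit 125) (nat_lit 211) (nat_lit 7) (nat_lit 6) (nat_lit 7) (nat_lit 7) (nat_lit 6) (nat_lit 8) (by decide +kernel)
theorem L84350 : W_29 (nat_lit 3) (nat_lit 0x800040007000b00004001000080000000000000000000000000000000) (nat_lit 0x0) (nat_lit 0x80000000000008000600020000000000000000000000000000000) := T_29 (nat_lit 159) (nat_lit 141) (nat_lit 4) (nat_lit 6) (nat_lit 12) L84349 (by decide +kernel)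
theorem L84351 : W_29 (nat_lit 4) (nat_lit 0x800040007000b00000001000080000000000000000000000000000000) (nat_lit 0x0) (nat_lit 0x8000000008000c000600020000000000000000000000000000000) := T_29 (nat_lit 158) (nat_lit 175) (nat_lit 4) (nat_lit 6) (nat_lit 13) L84350 (by decide +kernel)
theorem L84352 : W_29 (nat_lit 5) (nat_lit 0x800040007000300000001000080000000000000000000000000000000) (nat_lit 0x0) (nat_lit 0x80000000c8000c000600020000000000000000000000000000000) := T_29 (nat_lit 179) (nat_lit 178) (nat_lit 1) (nat_lit 9) (nat_lit 10) L84351 (by decide +kernel)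
theorem L84353 : W_29 (nat_lit 6) (nat_lit 0x40007000300000001000080000000000000000000000000000000) (nat_lit 0x0) (nat_lit 0x10000800080000000c8000c000600020000000000000000000000000000000) := T_29 (nat_lit 227) (nat_lit 244) (nat_lit 6) (nat_lit 6) (nat_lit 14) L84352 (by decide +kernel)
theorem L84354 : W_29 (nat_lit 2) (nat_lit 0xc00040007000300008001000080000000000000000000000000000000) (nat_lit 0x0) (nat_lit 0x80000000000000000400020000000000000000000000000000000) := D_29 (nat_lit 142) (nat_lit 211) (nat_lit 125) (nat_lit 7) (nat_lit 6) (nat_lit 8) (nat_lit 7) (nat_lit 6) (nat_lit 7) (by decide +kernel)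
theorem L84355 : W_29 (nat_lit 3) (nat_lit 0xc00040007000300000001000080000000000000000000000000000000) (nat_lit 0x0) (nat_lit 0xa0000000000008000400020000000000000000000000000000000) := T_29 (nat_lit 159) (nat_lit 209) (nat_lit 5) (nat_lit 6) (nat_lit 9) L84354 (by decide +kernel)
theorem L84356 : W_29 (nat_lit 4) (nat_lit 0x800040007000300000001000080000000000000000000000000000000) (nat_lit 0x0) (nat_lit 0x80004000a0000000000008000400020000000000000000000000000000000) := T_29 (nat_lit 226) (nat_lit 243) (nat_lit 5) (nat_lit 6) (nat_lit 10) L84355 (by decide +kernel)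
theorem L84357 : W_29 (nat_lit 5) (nat_lit 0x40007000300000001000080000000000000000000000000000000) (nat_lit 0x0) (nat_lit 0x18000c000a0000000000008000400020000000000000000000000000000000) := T_29 (nat_lit 227) (nat_lit 244) (nat_lit 6) (nat_lit 6) (nat_lit 14) L84356 (by decide +kernel)
theorem L84358 : W_29 (nat_lit 5) (nat_lit 0x40007000300000001000080000000000000000000000000000000) (nat_lit 0x0) (nat_lit 0x400020000000c8000f000600000000000000000000000000000000000) := Q_29 (nat_lit 159) (C_29 L83237 (C_29 L83205 N_29)) (by decide +kernel)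
theorem L84359 : W_29 (nat_lit 8) (nat_lit 0x40007000200000001000080000000000000000000000000000000) (nat_lit 0x0) (nat_lit 0x18000c000a0000000de000f000600020000000000000000000000000000000) := Q_29 (nat_lit 176) (C_29 L83204 (C_29 L84353 (C_29 L84357 (C_29 L82942 (C_29 L84358 N_29))))) (by decide +kernel)
theorem L84360 : W_29 (nat_lit 9) (nat_lit 0x40006000200000001000080000000000000000000000000000000) (nat_lit 0x0) (nat_lit 0x1c000f001bc001c00df000f000700020000000000000000000000000000000) := Q_29 (nat_lit 192) (C_29 L79640 (C_29 L10509 (C_29 L79642 (C_29 L84359 N_29)))) (by decide +kernel)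
theorem L84361 : W_29 (nat_lit 2) (nat_lit 0x4000e0007000200018001000080000000000000000000000000000000) (nat_lit 0x0) (nat_lit 0x200300000000000000000000000000000000000000000000000000000) := D_29 (nat_lit 212) (nat_lit 225) (nat_lit 213) (nat_lit 1) (nat_lit 8) (nat_lit 12) (nat_lit 0) (nat_lit 9) (nat_lit 12) (by decide +kernel)
theorem L84362 : W_29 (nat_lit 3) (nat_lit 0x400060007000200018001000080000000000000000000000000000000) (nat_lit 0x0) (nat_lit 0x200380000000000000000400000000000000000000000000000000000) := T_29 (nat_lit 211) (nat_lit 142) (nat_lit 4) (nat_lit 7) (nat_lit 12) L84361 (by decide +kernel)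
theorem L84363 : W_29 (nat_lit 4) (nat_lit 0x400060007000200010001000080000000000000000000000000000000) (nat_lit 0x0) (nat_lit 0x200380000000100008000400000000000000000000000000000000000) := T_29 (nat_lit 159) (nat_lit 176) (nat_lit 5) (nat_lit 6) (nat_lit 9) L84362 (by decide +kernel)
theorem L84364 : W_29 (nat_lit 5) (nat_lit 0x400060007000200000001000080000000000000000000000000000000) (nat_lit 0x0) (nat_lit 0x200380000000100018000c00000000000000000000000000000000000) := T_29 (nat_lit 160) (nat_lit 143) (nat_lit 6) (nat_lit 7) (nat_lit 11) L84363 (by decide +kernel)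
theorem L84365 : W_29 (nat_lit 9) (nat_lit 0x60007000200000001000080000000000000000000000000000000) (nat_lit 0x0) (nat_lit 0x38003c000780398000000180018000c00000000000000000000000000000000000) := Q_29 (nat_lit 226) (C_29 L79781 (C_29 L79753 (C_29 L84364 N_29))) (by decide +kernel)
theorem L84366 : W_29 (nat_lit 2) (nat_lit 0xc000580070007000200000001000080000000000000000000000000000000) (nat_lit 0x0) (nat_lit 0x200012000000000000000000000000000000000000000000000000000000000000) := D_29 (nat_lit 244) (nat_lit 241) (nat_lit 261) (nat_lit 0) (nat_lit 6) (nat_lit 14) (nat_lit 7) (nat_lit 5) (nat_lit 11) (by decide +kernel)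
theorem L84367 : W_29 (nat_lit 3) (nat_lit 0x8000580070007000200000001000080000000000000000000000000000000) (nat_lit 0x0) (nat_lit 0x280016000000000000000000000000000000000000000000000000000000000000) := T_29 (nat_lit 242) (nat_lit 259) (nat_lit 5) (nat_lit 5) (nat_lit 11) L84366 (by decide +kernel)
theorem L84368 : W_29 (nat_lit 4) (nat_lit 0x580070007000200000001000080000000000000000000000000000000) (nat_lit 0x0) (nat_lit 0x38001e000000000000000000000000000000000000000000000000000000000000) := T_29 (nat_lit 243) (nat_lit 260) (nat_lit 6) (nat_lit 5) (nat_lit 15) L84367 (by decide +kernel)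
theorem L84369 : W_29 (nat_lit 5) (nat_lit 0x580060007000200000001000080000000000000000000000000000000) (nat_lit 0x0) (nat_lit 0x38001e000000018000000000000000000000000000000000000000000000000000) := T_29 (nat_lit 208) (nat_lit 207) (nat_lit 2) (nat_lit 3) (nat_lit 12) L84368 (by decide +kernel)
theorem L84370 : W_29 (nat_lit 6) (nat_lit 0x500060007000200000001000080000000000000000000000000000000) (nat_lit 0x0) (nat_lit 0x38001e000280018000000000000000000000000000000000000000000000000000) := T_29 (nat_lit 223) (nat_lit 225) (nat_lit 2) (nat_lit 2) (nat_lit 13) L84369 (by decide +kernel)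
theorem L84371 : W_29 (nat_lit 2) (nat_lit 0x18000580060007000200000001800080000000000000000000000000000000) (nat_lit 0x0) (nat_lit 0x80006000000000000000000000000000000000000000000000000000000000000) := D_29 (nat_lit 242) (nat_lit 241) (nat_lit 259) (nat_lit 0) (nat_lit 6) (nat_lit 14) (nat_lit 5) (nat_lit 5) (nat_lit 11) (by decide +kernel)
theorem L84372 : W_29 (nat_lit 3) (nat_lit 0x18000500060007000200000001800080000000000000000000000000000000) (nat_lit 0x0) (nat_lit 0x80006000280000000000000000000000000000000000000000000000000000000) := T_29 (nat_lit 223) (nat_lit 225) (nat_lit 3) (nat_lit 2) (nat_lit 13) L84371 (by decide +kernel)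
theorem L84373 : W_29 (nat_lit 4) (nat_lit 0x8000500060007000200000001800080000000000000000000000000000000) (nat_lit 0x0) (nat_lit 0x280016000280000000000000000000000000000000000000000000000000000000) := T_29 (nat_lit 244) (nat_lit 261) (nat_lit 7) (nat_lit 5) (nat_lit 11) L84372 (by decide +kernel)
theorem L84374 : W_29 (nat_lit 5) (nat_lit 0x8000500060007000200000001000080000000000000000000000000000000) (nat_lit 0x0) (nat_lit 0x280016000280000000000000010000800000000000000000000000000000000000) := T_29 (nat_lit 143) (nat_lit 160) (nat_lit 6) (nat_lit 7) (nat_lit 11) L84373 (by decide +kernel)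
theorem L84375 : W_29 (nat_lit 6) (nat_lit 0x500060007000200000001000080000000000000000000000000000000) (nat_lit 0x0) (nat_lit 0x38001e000280000000000000010000800000000000000000000000000000000000) := T_29 (nat_lit 243) (nat_lit 260) (nat_lit 6) (nat_lit 5) (nat_lit 15) L84374 (by decide +kernel)
theorem L84376 : W_29 (nat_lit 2) (nat_lit 0x500070007000200010001000080000000000000000000000000000000) (nat_lit 0x0) (nat_lit 0x280080000000000000000000000000000000000000000000000000000) := D_29 (nat_lit 225) (nat_lit 223) (nat_lit 211) (nat_lit 2) (nat_lit 2) (nat_lit 13) (nat_lit 1) (nat_lit 7) (nat_lit 12) (by decide +kernel)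
theorem L84377 : W_29 (nat_lit 3) (nat_lit 0x500060007000200010001000080000000000000000000000000000000) (nat_lit 0x0) (nat_lit 0x280098000000000000000000000000000000000000000000000000000) := T_29 (nat_lit 208) (nat_lit 207) (nat_lit 2) (nat_lit 3) (nat_lit 12) L84376 (by decide +kernel)
theorem L84378 : W_29 (nat_lit 4) (nat_lit 0x500060007000200000001000080000000000000000000000000000000) (nat_lit 0x0) (nat_lit 0x280098000000000010000800000000000000000000000000000000000) := T_29 (nat_lit 160) (nat_lit 143) (nat_lit 6) (nat_lit 7) (nat_lit 11) L84377 (by decide +kernel)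
theorem L84379 : W_29 (nat_lit 2) (nat_lit 0x2001e000500068007000200000001800080000000000000000000000000000000) (nat_lit 0x0) (nat_lit 0x10001000000000000400000000000000000000000000000000000000000000000) := D_29 (nat_lit 240) (nat_lit 256) (nat_lit 190) (nat_lit 1) (nat_lit 5) (nat_lit 14) (nat_lit 5) (nat_lit 3) (nat_lit 11) (by decide +kernel)
theorem L84380 : W_29 (nat_lit 3) (nat_lit 0x1e000500068007000200000001800080000000000000000000000000000000) (nat_lit 0x0) (nat_lit 0x70001000000000000400000000000000000000000000000000000000000000000) := T_29 (nat_lit 257) (nat_lit 258) (nat_lit 1) (nat_lit 6) (nat_lit 14) L84379 (by decide +kernel)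
theorem L84381 : W_29 (nat_lit 4) (nat_lit 0x1c000500068007000200000001800080000000000000000000000000000000) (nat_lit 0x0) (nat_lit 0x70003000080000000400000000000000000000000000000000000000000000000) := T_29 (nat_lit 241) (nat_lit 223) (nat_lit 0) (nat_lit 6) (nat_lit 14) L84380 (by decide +kernel)
theorem L84382 : W_29 (nat_lit 5) (nat_lit 0x18000500068007000200000001800080000000000000000000000000000000) (nat_lit 0x0) (nat_lit 0xf0007000080000000400000000000000000000000000000000000000000000000) := T_29 (nat_lit 242) (nat_lit 259) (nat_lit 5) (nat_lit 5) (nat_lit 11) L84381 (by decide +kernel)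
theorem L84383 : W_29 (nat_lit 6) (nat_lit 0x18000500060007000200000001800080000000000000000000000000000000) (nat_lit 0x0) (nat_lit 0xf0007000080018000400000000000000000000000000000000000000000000000) := T_29 (nat_lit 207) (nat_lit 208) (nat_lit 2) (nat_lit 3) (nat_lit 12) L84382 (by decide +kernel)
theorem L84384 : W_29 (nat_lit 7) (nat_lit 0x8000500060007000200000001800080000000000000000000000000000000) (nat_lit 0x0) (nat_lit 0x2f0017000080018000400000000000000000000000000000000000000000000000) := T_29 (nat_lit 244) (nat_lit 261) (nat_lit 7) (nat_lit 5) (nat_lit 11) L84383 (by decide +kernel)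
theorem L84385 : W_29 (nat_lit 8) (nat_lit 0x8000500060007000200000001000080000000000000000000000000000000) (nat_lit 0x0) (nat_lit 0x2f0017000080018000400000010000800000000000000000000000000000000000) := T_29 (nat_lit 143) (nat_lit 160) (nat_lit 6) (nat_lit 7) (nat_lit 11) L84384 (by decide +kernel)
theorem L84386 : W_29 (nat_lit 9) (nat_lit 0x500060007000200000001000080000000000000000000000000000000) (nat_lit 0x0) (nat_lit 0x3f001f000080018000400000010000800000000000000000000000000000000000) := T_29 (nat_lit 243) (nat_lit 260) (nat_lit 6) (nat_lit 5) (nat_lit 15) L84385 (by decide +kernel)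
theorem L84387 : W_29 (nat_lit 2) (nat_lit 0x1000000005000f0007000200010001000080000000000000000000000000000000) (nat_lit 0x0) (nat_lit 0x2000300000000000000000000000000000000000000000000000000000) := D_29 (nat_lit 212) (nat_lit 213) (nat_lit 229) (nat_lit 0) (nat_lit 9) (nat_lit 12) (nat_lit 7) (nat_lit 7) (nat_lit 9) (by decide +kernel)
theorem L84388 : W_29 (nat_lit 3) (nat_lit 0x100000000500070007000200010001000080000000000000000000000000000000) (nat_lit 0x0) (nat_lit 0x2200380000000000000000000000000000000000000000000000000000) := T_29 (nat_lit 211) (nat_lit 225) (nat_lit 1) (nat_lit 7) (nat_lit 12) L84387 (by decide +kernel)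
theorem L84389 : W_29 (nat_lit 4) (nat_lit 0x100000000500060007000200010001000080000000000000000000000000000000) (nat_lit 0x0) (nat_lit 0x2200398000000000000000000000000000000000000000000000000000) := T_29 (nat_lit 208) (nat_lit 207) (nat_lit 2) (nat_lit 3) (nat_lit 12) L84388 (by decide +kernel)
theorem L84390 : W_29 (nat_lit 5) (nat_lit 0x500060007000200010001000080000000000000000000000000000000) (nat_lit 0x0) (nat_lit 0x100008002200398000000000000000000000000000000000000000000000000000) := T_29 (nat_lit 260) (nat_lit 243) (nat_lit 6) (nat_lit 5) (nat_lit 15) L84389 (by decide +kernel)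
theorem L84391 : W_29 (nat_lit 6) (nat_lit 0x500060007000200000001000080000000000000000000000000000000) (nat_lit 0x0) (nat_lit 0x100008002200398000000000010000800000000000000000000000000000000000) := T_29 (nat_lit 160) (nat_lit 143) (nat_lit 6) (nat_lit 7) (nat_lit 11) L84390 (by decide +kernel)
theorem L84392 : W_29 (nat_lit 10) (nat_lit 0x400060007000200000001000080000000000000000000000000000000) (nat_lit 0x0) (nat_lit 0x3f001f002380398000400000010000800000000000000000000000000000000000) := Q_29 (nat_lit 224) (C_29 L84370 (C_29 L84375 (C_29 L84378 (C_29 L84386 (C_29 L84391 N_29))))) (by decide +kernel)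
theorem L84393 : W_29 (nat_lit 11) (nat_lit 0x60007000200000001000080000000000000000000000000000000) (nat_lit 0x0) (nat_lit 0x3f001f002780398000400100018000c00000000000000000000000000000000000) := Q_29 (nat_lit 226) (C_29 L79753 (C_29 L84364 (C_29 L84392 N_29))) (by decide +kernel)
theorem L84394 : W_29 (nat_lit 8) (nat_lit 0x60007000200000001000080000000000000000000000000000000) (nat_lit 0x0) (nat_lit 0x18000c0006003800000001c001e000f00000000000000000000000000000000000) := Q_29 (nat_lit 226) (C_29 L79787 (C_29 L84364 (C_29 L79753 N_29))) (by decide +kernel)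
theorem L84395 : W_29 (nat_lit 2) (nat_lit 0x60007000200018001000080000000000000000000000000000000) (nat_lit 0x0) (nat_lit 0x80000000100000000400000000000000000000000000000000000) := D_29 (nat_lit 142) (nat_lit 176) (nat_lit 211) (nat_lit 5) (nat_lit 6) (nat_lit 8) (nat_lit 4) (nat_lit 7) (nat_lit 12) (by decide +kernel)
theorem L84396 : W_29 (nat_lit 3) (nat_lit 0x60007000200008001000080000000000000000000000000000000) (nat_lit 0x0) (nat_lit 0x80000000100010000c00000000000000000000000000000000000) := T_29 (nat_lit 160) (nat_lit 143) (nat_lit 6) (nat_lit 7) (nat_lit 11) L84395 (by decide +kernel)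
theorem L84397 : W_29 (nat_lit 2) (nat_lit 0x6000700022001f001500080001000000000000000000000000000) (nat_lit 0x0) (nat_lit 0x18000400000000000000000000000000000000000000000000000) := D_29 (nat_lit 207) (nat_lit 208) (nat_lit 190) (nat_lit 2) (nat_lit 3) (nat_lit 12) (nat_lit 6) (nat_lit 3) (nat_lit 12) (by decide +kernel)
theorem L84398 : W_29 (nat_lit 3) (nat_lit 0x6000700022001e001500080001000000000000000000000000000) (nat_lit 0x0) (nat_lit 0x18000400010001000000000000000000000000000000000000000) := T_29 (nat_lit 156) (nat_lit 172) (nat_lit 1) (nat_lit 6) (nat_lit 9) L84397 (by decide +kernel)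
theorem L84399 : W_29 (nat_lit 4) (nat_lit 0x6000700022001e001400080001000000000000000000000000000) (nat_lit 0x0) (nat_lit 0x18000400010001000180000000000000000000000000000000000) := T_29 (nat_lit 140) (nat_lit 139) (nat_lit 0) (nat_lit 7) (nat_lit 9) L84398 (by decide +kernel)
theorem L84400 : W_29 (nat_lit 5) (nat_lit 0x6000700020001e001400080001000000000000000000000000000) (nat_lit 0x0) (nat_lit 0x18000400070001000180000000000000000000000000000000000) := T_29 (nat_lit 173) (nat_lit 174) (nat_lit 1) (nat_lit 7) (nat_lit 9) L84399 (by decide +kernel)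
theorem L84401 : W_29 (nat_lit 6) (nat_lit 0x6000700020001c001400080001000000000000000000000000000) (nat_lit 0x0) (nat_lit 0x18000400470003000180000000000000000000000000000000000) := T_29 (nat_lit 157) (nat_lit 178) (nat_lit 3) (nat_lit 4) (nat_lit 9) L84400 (by decide +kernel)
theorem L84402 : W_29 (nat_lit 7) (nat_lit 0x6000700020001c001400080000000000000000000000000000000) (nat_lit 0x0) (nat_lit 0x18000400470003000180020001000000000000000000000000000) := T_29 (nat_lit 108) (nat_lit 125) (nat_lit 7) (nat_lit 6) (nat_lit 6) L84401 (by decide +kernel)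
theorem L84403 : W_29 (nat_lit 8) (nat_lit 0x60007000200018001400080000000000000000000000000000000) (nat_lit 0x0) (nat_lit 0x180004004f0007000180020001000000000000000000000000000) := T_29 (nat_lit 158) (nat_lit 175) (nat_lit 6) (nat_lit 5) (nat_lit 12) L84402 (by decide +kernel)
theorem L84404 : W_29 (nat_lit 9) (nat_lit 0x60007000200008001400080000000000000000000000000000000) (nat_lit 0x0) (nat_lit 0x980004004f0017000180020001000000000000000000000000000) := T_29 (nat_lit 160) (nat_lit 211) (nat_lit 4) (nat_lit 7) (nat_lit 12) L84403 (by decide +kernel)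
theorem L84405 : W_29 (nat_lit 10) (nat_lit 0x60007000200008001000080000000000000000000000000000000) (nat_lit 0x0) (nat_lit 0x980004005f0017000580020001000000000000000000000000000) := T_29 (nat_lit 142) (nat_lit 176) (nat_lit 5) (nat_lit 6) (nat_lit 8) L84404 (by decide +kernel)
theorem L84406 : W_29 (nat_lit 2) (nat_lit 0xe8007000200018001000080000000000000000000000000000000) (nat_lit 0x0) (nat_lit 0x2000300000000000000000000000000000000000000000000000000000) := D_29 (nat_lit 212) (nat_lit 213) (nat_lit 229) (nat_lit 0) (nat_lit 9) (nat_lit 12) (nat_lit 7) (nat_lit 7) (nat_lit 9) (by decide +kernel)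
theorem L84407 : W_29 (nat_lit 3) (nat_lit 0x68007000200018001000080000000000000000000000000000000) (nat_lit 0x0) (nat_lit 0x2000380000000000000000400000000000000000000000000000000000) := T_29 (nat_lit 211) (nat_lit 142) (nat_lit 4) (nat_lit 7) (nat_lit 12) L84406 (by decide +kernel)
theorem L84408 : W_29 (nat_lit 4) (nat_lit 0x68007000200008001000080000000000000000000000000000000) (nat_lit 0x0) (nat_lit 0x2000380000000000010000c00000000000000000000000000000000000) := T_29 (nat_lit 160) (nat_lit 143) (nat_lit 6) (nat_lit 7) (nat_lit 11) L84407 (by decide +kernel)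
theorem L84409 : W_29 (nat_lit 5) (nat_lit 0x60007000200008001000080000000000000000000000000000000) (nat_lit 0x0) (nat_lit 0x2000398000000000010000c00000000000000000000000000000000000) := T_29 (nat_lit 207) (nat_lit 208) (nat_lit 2) (nat_lit 3) (nat_lit 12) L84408 (by decide +kernel)
theorem L84410 : W_29 (nat_lit 2) (nat_lit 0x6800700070000c001000080000000000000000000000000000000) (nat_lit 0x0) (nat_lit 0x80003000000000000000000000000000000000000000) := D_29 (nat_lit 157) (nat_lit 156) (nat_lit 175) (nat_lit 3) (nat_lit 3) (nat_lit 9) (nat_lit 0) (nat_lit 8) (nat_lit 10) (by decide +kernel)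
theorem L84411 : W_29 (nat_lit 3) (nat_lit 0x68007000700008001000080000000000000000000000000000000) (nat_lit 0x0) (nat_lit 0x80007000200000000000000000000000000000000000) := T_29 (nat_lit 158) (nat_lit 141) (nat_lit 4) (nat_lit 6) (nat_lit 12) L84410 (by decide +kernel)
theorem L84412 : W_29 (nat_lit 4) (nat_lit 0x68007000300008001000080000000000000000000000000000000) (nat_lit 0x0) (nat_lit 0xc80007000200000000000000000000000000000000000) := T_29 (nat_lit 178) (nat_lit 179) (nat_lit 1) (nat_lit 9) (nat_lit 10) L84411 (by decide +kernel)
theorem L84413 : W_29 (nat_lit 5) (nat_lit 0x60007000300008001000080000000000000000000000000000000) (nat_lit 0x0) (nat_lit 0x18000000c80007000200000000000000000000000000000000000) := T_29 (nat_lit 207) (nat_lit 208) (nat_lit 2) (nat_lit 3) (nat_lit 12) L84412 (by decide +kernel)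
theorem L84414 : W_29 (nat_lit 6) (nat_lit 0x60007000200008001000080000000000000000000000000000000) (nat_lit 0x0) (nat_lit 0x18000000d80007000600000000000000000000000000000000000) := T_29 (nat_lit 176) (nat_lit 142) (nat_lit 5) (nat_lit 6) (nat_lit 8) L84413 (by decide +kernel)
theorem L84415 : W_29 (nat_lit 2) (nat_lit 0x6000700020000c001000080000000000000000000000000000000) (nat_lit 0x0) (nat_lit 0x180000000200000000000000000000000000000000000) := D_29 (nat_lit 141) (nat_lit 176) (nat_lit 175) (nat_lit 4) (nat_lit 6) (nat_lit 12) (nat_lit 7) (nat_lit 5) (nat_lit 8) (by decide +kernel)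
theorem L84416 : W_29 (nat_lit 2) (nat_lit 0x6000700020001e001000080000000000000000000000000000000) (nat_lit 0x0) (nat_lit 0x80000000300000000000000000000000000000000000) := D_29 (nat_lit 175) (nat_lit 141) (nat_lit 140) (nat_lit 7) (nat_lit 5) (nat_lit 8) (nat_lit 4) (nat_lit 5) (nat_lit 12) (by decide +kernel)
theorem L84417 : W_29 (nat_lit 3) (nat_lit 0x6000700020001c001000080000000000000000000000000000000) (nat_lit 0x0) (nat_lit 0x480002000300000000000000000000000000000000000) := T_29 (nat_lit 157) (nat_lit 178) (nat_lit 3) (nat_lit 4) (nat_lit 9) L84416 (by decide +kernel)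
theorem L84418 : W_29 (nat_lit 4) (nat_lit 0x6000700020000c001000080000000000000000000000000000000) (nat_lit 0x0) (nat_lit 0x480012000b00000000000000000000000000000000000) := T_29 (nat_lit 160) (nat_lit 143) (nat_lit 6) (nat_lit 7) (nat_lit 11) L84417 (by decide +kernel)
theorem L84419 : W_29 (nat_lit 2) (nat_lit 0x6800700020001e001000080000000000000000000000000000000) (nat_lit 0x0) (nat_lit 0x100001000200000000000000000000000000000000000) := D_29 (nat_lit 176) (nat_lit 156) (nat_lit 141) (nat_lit 3) (nat_lit 3) (nat_lit 9) (nat_lit 4) (nat_lit 6) (nat_lit 12) (by decide +kernel)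
theorem L84420 : W_29 (nat_lit 3) (nat_lit 0x6800700020001c001000080000000000000000000000000000000) (nat_lit 0x0) (nat_lit 0x500003000200000000000000000000000000000000000) := T_29 (nat_lit 157) (nat_lit 178) (nat_lit 3) (nat_lit 4) (nat_lit 9) L84419 (by decide +kernel)
theorem L84421 : W_29 (nat_lit 4) (nat_lit 0x6800700020000c001000080000000000000000000000000000000) (nat_lit 0x0) (nat_lit 0x500013000a00000000000000000000000000000000000) := T_29 (nat_lit 160) (nat_lit 143) (nat_lit 6) (nat_lit 7) (nat_lit 11) L84420 (by decide +kernel)
theorem L84422 : W_29 (nat_lit 5) (nat_lit 0x6000700020000c001000080000000000000000000000000000000) (nat_lit 0x0) (nat_lit 0x18000000500013000a00000000000000000000000000000000000) := T_29 (nat_lit 207) (nat_lit 208) (nat_lit 2) (nat_lit 3) (nat_lit 12) L84421 (by decide +kernel)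
theorem L84423 : W_29 (nat_lit 2) (nat_lit 0x6800700020001e001000080000000000000000000000000000000) (nat_lit 0x0) (nat_lit 0x80000000180000000000000000000000000000000000) := D_29 (nat_lit 140) (nat_lit 139) (nat_lit 175) (nat_lit 0) (nat_lit 7) (nat_lit 9) (nat_lit 4) (nat_lit 5) (nat_lit 12) (by decide +kernel)
theorem L84424 : W_29 (nat_lit 3) (nat_lit 0x6800700020001c001000080000000000000000000000000000000) (nat_lit 0x0) (nat_lit 0x480002000180000000000000000000000000000000000) := T_29 (nat_lit 157) (nat_lit 178) (nat_lit 3) (nat_lit 4) (nat_lit 9) L84423 (by decide +kernel)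
theorem L84425 : W_29 (nat_lit 4) (nat_lit 0x6800700020000c001000080000000000000000000000000000000) (nat_lit 0x0) (nat_lit 0x480012000980000000000000000000000000000000000) := T_29 (nat_lit 160) (nat_lit 143) (nat_lit 6) (nat_lit 7) (nat_lit 11) L84424 (by decide +kernel)
theorem L84426 : W_29 (nat_lit 5) (nat_lit 0x6000700020000c001000080000000000000000000000000000000) (nat_lit 0x0) (nat_lit 0x18000000480012000980000000000000000000000000000000000) := T_29 (nat_lit 207) (nat_lit 208) (nat_lit 2) (nat_lit 3) (nat_lit 12) L84425 (by decide +kernel)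
theorem L84427 : W_29 (nat_lit 6) (nat_lit 0x60007000200008001000080000000000000000000000000000000) (nat_lit 0x0) (nat_lit 0x18000000580017000b80000000000000000000000000000000000) := Q_29 (nat_lit 158) (C_29 L84415 (C_29 L84418 (C_29 L84422 (C_29 L84426 N_29)))) (by decide +kernel)
theorem L84428 : W_29 (nat_lit 11) (nat_lit 0x60007000200000001000080000000000000000000000000000000) (nat_lit 0x0) (nat_lit 0x2000398000400df001f000f80020001000000000000000000000000000) := Q_29 (nat_lit 159) (C_29 L84396 (C_29 L84405 (C_29 L84409 (C_29 L84414 (C_29 L84427 N_29))))) (by decide +kernel)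
theorem L84429 : W_29 (nat_lit 12) (nat_lit 0x40007000200000001000080000000000000000000000000000000) (nat_lit 0x0) (nat_lit 0x3f003f0027803b8000400df001f000f80020001000000000000000000000000000) := Q_29 (nat_lit 209) (C_29 L84365 (C_29 L79768 (C_29 L79774 (C_29 L84393 (C_29 L84394 (C_29 L84428 N_29)))))) (by decide +kernel)
theorem L84430 : W_29 (nat_lit 3) (nat_lit 0x40007000200010001000080000000000000000000000000000000) (nat_lit 0x0) (nat_lit 0x801d00000000000000000000000000000000000000000000) := T_29 (nat_lit 178) (nat_lit 191) (nat_lit 2) (nat_lit 4) (nat_lit 11) L79807 (by decide +kernel)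
theorem L84431 : W_29 (nat_lit 4) (nat_lit 0x40007000200000001000080000000000000000000000000000000) (nat_lit 0x0) (nat_lit 0x801d00010000800000000000000000000000000000000000) := T_29 (nat_lit 160) (nat_lit 143) (nat_lit 6) (nat_lit 7) (nat_lit 11) L84430 (by decide +kernel)
theorem L84432 : W_29 (nat_lit 13) (nat_lit 0x40006000200000001000080000000000000000000000000000000) (nat_lit 0x0) (nat_lit 0x3f003f0027803bc001c01df001f000f80020001000000000000000000000000000) := Q_29 (nat_lit 192) (C_29 L79746 (C_29 L80212 (C_29 L79642 (C_29 L79750 (C_29 L84429 (C_29 L84431 N_29)))))) (by decide +kernel)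
theorem L84433 : W_29 (nat_lit 14) (nat_lit 0x6000200000001000080000000000000000000000000000000) (nat_lit 0x0) (nat_lit 0x3f003f002f803fc001c01df001f000f80020001000000000000000000000000000) := Q_29 (nat_lit 210) (C_29 L80043 (C_29 L79529 (C_29 L10108 (C_29 L84360 (C_29 L79564 (C_29 L84432 N_29)))))) (by decide +kernel)
theorem L84434 : W_29 (nat_lit 6) (nat_lit 0x40007000200000001000080000000000000000000000000000000) (nat_lit 0x0) (nat_lit 0x20003b00380005c0010000800000000000000000000000000000000000) := Q_29 (nat_lit 195) (C_29 L80509 (C_29 L80122 (C_29 L10152 N_29))) (by decide +kernel)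
theorem L84435 : W_29 (nat_lit 7) (nat_lit 0x40006000200000001000080000000000000000000000000000000) (nat_lit 0x0) (nat_lit 0x20003bc039c005e0010000800000000000000000000000000000000000) := Q_29 (nat_lit 192) (C_29 L80211 (C_29 L80212 (C_29 L10123 (C_29 L84434 N_29)))) (by decide +kernel)
theorem L84436 : W_29 (nat_lit 13) (nat_lit 0x6000200000001000080000000000000000000000000000000) (nat_lit 0x0) (nat_lit 0xb0005c00ef007fc079c075e0016000b00000000000000000000000000000000000) := Q_29 (nat_lit 210) (C_29 L80061 (C_29 L80043 (C_29 L80055 (C_29 L79564 (C_29 L84435 N_29))))) (by decide +kernel)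
theorem L84437 : W_29 (nat_lit 2) (nat_lit 0x1000000024001f000600000001000080000000000000000000000000000000) (nat_lit 0x0) (nat_lit 0x80060000000000000000000000000000000000000000000000000) := D_29 (nat_lit 197) (nat_lit 211) (nat_lit 198) (nat_lit 1) (nat_lit 10) (nat_lit 11) (nat_lit 0) (nat_lit 11) (nat_lit 11) (by decide +kernel)
theorem L84438 : W_29 (nat_lit 3) (nat_lit 0x1000000024000f000600000001000080000000000000000000000000000000) (nat_lit 0x0) (nat_lit 0x480070000000000000000000000000000000000000000000000000) := T_29 (nat_lit 196) (nat_lit 214) (nat_lit 3) (nat_lit 6) (nat_lit 11) L84437 (by decide +kernel)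
theorem L84439 : W_29 (nat_lit 4) (nat_lit 0x1000000004000f000600000001000080000000000000000000000000000000) (nat_lit 0x0) (nat_lit 0x780070000000000000000000000000000000000000000000000000) := T_29 (nat_lit 213) (nat_lit 212) (nat_lit 3) (nat_lit 5) (nat_lit 11) L84438 (by decide +kernel)
theorem L84440 : W_29 (nat_lit 5) (nat_lit 0x1000000004000f000200000001000080000000000000000000000000000000) (nat_lit 0x0) (nat_lit 0x780070000c00000000000000000000000000000000000000000000) := T_29 (nat_lit 178) (nat_lit 179) (nat_lit 2) (nat_lit 5) (nat_lit 11) L84439 (by decide +kernel)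
theorem L84441 : W_29 (nat_lit 6) (nat_lit 0x4000f000200000001000080000000000000000000000000000000) (nat_lit 0x0) (nat_lit 0x10000800780070000c00000000000000000000000000000000000000000000) := T_29 (nat_lit 244) (nat_lit 227) (nat_lit 6) (nat_lit 6) (nat_lit 14) L84440 (by decide +kernel)
theorem L84445 : W_29 (nat_lit 2) (nat_lit 0x1000600014000f000600000001000080000000000000000000000000000000) (nat_lit 0x0) (nat_lit 0xb0000000000000000000000000000000000000000000000000000) := D_29 (nat_lit 209) (nat_lit 211) (nat_lit 208) (nat_lit 3) (nat_lit 5) (nat_lit 12) (nat_lit 1) (nat_lit 8) (nat_lit 11) (by decide +kernel)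
theorem L84446 : W_29 (nat_lit 3) (nat_lit 0x1000200014000f000600000001000080000000000000000000000000000000) (nat_lit 0x0) (nat_lit 0x800040000b0000000000000000000000000000000000000000000000000000) := T_29 (nat_lit 230) (nat_lit 247) (nat_lit 7) (nat_lit 8) (nat_lit 10) L84445 (by decide +kernel)
theorem L84447 : W_29 (nat_lit 4) (nat_lit 0x1000200014000f000200000001000080000000000000000000000000000000) (nat_lit 0x0) (nat_lit 0x800040000b0000000c00000000000000000000000000000000000000000000) := T_29 (nat_lit 178) (nat_lit 179) (nat_lit 2) (nat_lit 5) (nat_lit 11) L84446 (by decide +kernel)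
theorem L84448 : W_29 (nat_lit 5) (nat_lit 0x1000000014000f000200000001000080000000000000000000000000000000) (nat_lit 0x0) (nat_lit 0xc00060000b0000000c00000000000000000000000000000000000000000000) := T_29 (nat_lit 229) (nat_lit 246) (nat_lit 4) (nat_lit 8) (nat_lit 14) L84447 (by decide +kernel)
theorem L84449 : W_29 (nat_lit 6) (nat_lit 0x1000000004000f000200000001000080000000000000000000000000000000) (nat_lit 0x0) (nat_lit 0xc00060003b0000000c00000000000000000000000000000000000000000000) := T_29 (nat_lit 212) (nat_lit 213) (nat_lit 3) (nat_lit 5) (nat_lit 11) L84448 (by decide +kernel)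
theorem L84450 : W_29 (nat_lit 7) (nat_lit 0x4000f000200000001000080000000000000000000000000000000) (nat_lit 0x0) (nat_lit 0xd00068003b0000000c00000000000000000000000000000000000000000000) := T_29 (nat_lit 244) (nat_lit 227) (nat_lit 6) (nat_lit 6) (nat_lit 14) L84449 (by decide +kernel)
theorem L84451 : W_29 (nat_lit 8) (nat_lit 0x40007000200000001000080000000000000000000000000000000) (nat_lit 0x0) (nat_lit 0xd00068007b0078000d00000000000000000000000000000000000000000000) := Q_29 (nat_lit 195) (C_29 L84441 (C_29 L80507 (C_29 L84450 (C_29 L10152 N_29)))) (by decide +kernel)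
theorem L84452 : W_29 (nat_lit 9) (nat_lit 0x40006000200000001000080000000000000000000000000000000) (nat_lit 0x0) (nat_lit 0xd0006c007bc079c00d70002000100000000000000000000000000000000000) := Q_29 (nat_lit 192) (C_29 L80146 (C_29 L10509 (C_29 L79642 (C_29 L84451 N_29)))) (by decide +kernel)
theorem L84453 : W_29 (nat_lit 5) (nat_lit 0x4000e000200000001000080000000000000000000000000000000) (nat_lit 0x0) (nat_lit 0x20003b8001800c00010000800000000000000000000000000000000000) := Q_29 (nat_lit 192) (C_29 L10064 (C_29 L10243 (C_29 L10461 N_29))) (by decide +kernel)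
theorem L84454 : W_29 (nat_lit 7) (nat_lit 0x40006000200000001000080000000000000000000000000000000) (nat_lit 0x0) (nat_lit 0x2000fb8039803d00010000800000000000000000000000000000000000) := Q_29 (nat_lit 195) (C_29 L10063 (C_29 L80153 (C_29 L79568 (C_29 L84453 (C_29 L10085 N_29))))) (by decide +kernel)
theorem L84455 : W_29 (nat_lit 11) (nat_lit 0x6000200000001000080000000000000000000000000000000) (nat_lit 0x0) (nat_lit 0xb000d800ef00ffc079c03d70012000900000000000000000000000000000000000) := Q_29 (nat_lit 210) (C_29 L80061 (C_29 L80043 (C_29 L84452 (C_29 L79564 (C_29 L84454 N_29))))) (by decide +kernel)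
theorem L84466 : W_29 (nat_lit 2) (nat_lit 0xc0004000e000300008001000080000000000000000000000000000000) (nat_lit 0x0) (nat_lit 0x80000000000000000400020000000000000000000000000000000) := D_29 (nat_lit 142) (nat_lit 125) (nat_lit 211) (nat_lit 7) (nat_lit 6) (nat_lit 7) (nat_lit 7) (nat_lit 6) (nat_lit 8) (by decide +kernel)
theorem L84467 : W_29 (nat_lit 3) (nat_lit 0xc0004000e000300000001000080000000000000000000000000000000) (nat_lit 0x0) (nat_lit 0xa0000000000008000400020000000000000000000000000000000) := T_29 (nat_lit 159) (nat_lit 209) (nat_lit 5) (nat_lit 6) (nat_lit 9) L84466 (by decide +kernel)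
theorem L84468 : W_29 (nat_lit 4) (nat_lit 0x80004000e000300000001000080000000000000000000000000000000) (nat_lit 0x0) (nat_lit 0x80004000a0000000000008000400020000000000000000000000000000000) := T_29 (nat_lit 226) (nat_lit 243) (nat_lit 5) (nat_lit 6) (nat_lit 10) L84467 (by decide +kernel)
theorem L84469 : W_29 (nat_lit 5) (nat_lit 0x4000e000300000001000080000000000000000000000000000000) (nat_lit 0x0) (nat_lit 0x18000c000a0000000000008000400020000000000000000000000000000000) := T_29 (nat_lit 227) (nat_lit 244) (nat_lit 6) (nat_lit 6) (nat_lit 14) L84468 (by decide +kernel)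
theorem L84470 : W_29 (nat_lit 2) (nat_lit 0x4000e000300008001000080000000000000000000000000000000) (nat_lit 0x0) (nat_lit 0x80000000000000000400020000000000000000000000000000000) := D_29 (nat_lit 142) (nat_lit 211) (nat_lit 125) (nat_lit 7) (nat_lit 6) (nat_lit 8) (nat_lit 7) (nat_lit 6) (nat_lit 7) (by decide +kernel)
theorem L84471 : W_29 (nat_lit 2) (nat_lit 0x4000e000340008001400080000000000000000000000000000000) (nat_lit 0x0) (nat_lit 0x4000200010000000000000000000000000000000) := D_29 (nat_lit 141) (nat_lit 158) (nat_lit 124) (nat_lit 4) (nat_lit 6) (nat_lit 12) (nat_lit 4) (nat_lit 6) (nat_lit 11) (by decide +kernel)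
theorem L84472 : W_29 (nat_lit 3) (nat_lit 0x4000e000340008001000080000000000000000000000000000000) (nat_lit 0x0) (nat_lit 0x4000600030000000000000000000000000000000) := T_29 (nat_lit 142) (nat_lit 125) (nat_lit 7) (nat_lit 6) (nat_lit 7) L84471 (by decide +kernel)
theorem L84473 : W_29 (nat_lit 4) (nat_lit 0x4000e000300008001000080000000000000000000000000000000) (nat_lit 0x0) (nat_lit 0xc0004000600030000000000000000000000000000000) := T_29 (nat_lit 174) (nat_lit 175) (nat_lit 3) (nat_lit 4) (nat_lit 10) L84472 (by decide +kernel)
theorem L84474 : W_29 (nat_lit 2) (nat_lit 0x6000e000300008001000080000000000000000000000000000000) (nat_lit 0x0) (nat_lit 0x98000000000000000000000000000000000000000000000000000) := D_29 (nat_lit 208) (nat_lit 211) (nat_lit 207) (nat_lit 2) (nat_lit 4) (nat_lit 12) (nat_lit 2) (nat_lit 3) (nat_lit 12) (by decide +kernel)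
theorem L84475 : W_29 (nat_lit 3) (nat_lit 0x4000e000300008001000080000000000000000000000000000000) (nat_lit 0x0) (nat_lit 0x4000b8000000000000000000000000000000000000000000000000000) := T_29 (nat_lit 209) (nat_lit 226) (nat_lit 5) (nat_lit 6) (nat_lit 9) L84474 (by decide +kernel)
theorem L84476 : W_29 (nat_lit 5) (nat_lit 0x4000e000300000001000080000000000000000000000000000000) (nat_lit 0x0) (nat_lit 0x4000b80000000c000c000600030000000000000000000000000000000) := Q_29 (nat_lit 159) (C_29 L84470 (C_29 L84473 (C_29 L84475 N_29))) (by decide +kernel)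
theorem L84477 : W_29 (nat_lit 7) (nat_lit 0x4000e000200000001000080000000000000000000000000000000) (nat_lit 0x0) (nat_lit 0x18000c000b80000001c000c000600030000000000000000000000000000000) := Q_29 (nat_lit 176) (C_29 L82311 (C_29 L83476 (C_29 L84469 (C_29 L84476 N_29)))) (by decide +kernel)
theorem L84478 : W_29 (nat_lit 5) (nat_lit 0x80024001e000a00000001000080000000000000000000000000000000) (nat_lit 0x0) (nat_lit 0x48002400180000000180040000000000000000000000000000000000000000) := T_29 (nat_lit 176) (nat_lit 175) (nat_lit 0) (nat_lit 9) (nat_lit 11) L83807 (by decide +kernel)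
theorem L84479 : W_29 (nat_lit 6) (nat_lit 0x80024001e000200000001000080000000000000000000000000000000) (nat_lit 0x0) (nat_lit 0x48002400180000001980040000000000000000000000000000000000000000) := T_29 (nat_lit 179) (nat_lit 180) (nat_lit 2) (nat_lit 6) (nat_lit 11) L84478 (by decide +kernel)
theorem L84480 : W_29 (nat_lit 7) (nat_lit 0x80004001e000200000001000080000000000000000000000000000000) (nat_lit 0x0) (nat_lit 0x48002400780000001980040000000000000000000000000000000000000000) := T_29 (nat_lit 213) (nat_lit 214) (nat_lit 3) (nat_lit 6) (nat_lit 11) L84479 (by decide +kernel)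
theorem L84481 : W_29 (nat_lit 8) (nat_lit 0x4001e000200000001000080000000000000000000000000000000) (nat_lit 0x0) (nat_lit 0x58002c00780000001980040000000000000000000000000000000000000000) := T_29 (nat_lit 227) (nat_lit 244) (nat_lit 6) (nat_lit 6) (nat_lit 14) L84480 (by decide +kernel)
theorem L84482 : W_29 (nat_lit 9) (nat_lit 0x4000e000200000001000080000000000000000000000000000000) (nat_lit 0x0) (nat_lit 0x58002c00780030003980040000000000000000000000000000000000000000) := Q_29 (nat_lit 196) (C_29 L10062 (C_29 L10248 (C_29 L84481 N_29))) (by decide +kernel)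
theorem L84483 : W_29 (nat_lit 10) (nat_lit 0x40006000200000001000080000000000000000000000000000000) (nat_lit 0x0) (nat_lit 0x58002c007b80380039c004c000600030000000000000000000000000000000) := Q_29 (nat_lit 195) (C_29 L10063 (C_29 L79555 (C_29 L84477 (C_29 L79553 (C_29 L84482 N_29))))) (by decide +kernel)
theorem L84495 : W_29 (nat_lit 2) (nat_lit 0x40006000300008001000080000000000000000000000000000000) (nat_lit 0x0) (nat_lit 0x80000000000000000400020000000000000000000000000000000) := D_29 (nat_lit 142) (nat_lit 211) (nat_lit 125) (nat_lit 7) (nat_lit 6) (nat_lit 8) (nat_lit 7) (nat_lit 6) (nat_lit 7) (by decide +kernel)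
theorem L84496 : W_29 (nat_lit 6) (nat_lit 0x40006000300008001000080000000000000000000000000000000) (nat_lit 0x0) (nat_lit 0x400038000000400017000a00000000000000000000000000000000000) := T_29 (nat_lit 160) (nat_lit 143) (nat_lit 6) (nat_lit 7) (nat_lit 11) L16865 (by decide +kernel)
theorem L84497 : W_29 (nat_lit 2) (nat_lit 0x4000e000300000001000080000000000000000000000000000000) (nat_lit 0x0) (nat_lit 0x30000080000000000000000000000000000000000000000000) := D_29 (nat_lit 196) (nat_lit 175) (nat_lit 197) (nat_lit 0) (nat_lit 9) (nat_lit 11) (nat_lit 0) (nat_lit 10) (nat_lit 11) (by decide +kernel)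
theorem L84499 : W_29 (nat_lit 2) (nat_lit 0x6800e00030001e001000080000000000000000000000000000000) (nat_lit 0x0) (nat_lit 0xe0000000000000000000000000000000000000000000) := D_29 (nat_lit 174) (nat_lit 175) (nat_lit 173) (nat_lit 3) (nat_lit 4) (nat_lit 10) (nat_lit 1) (nat_lit 7) (nat_lit 9) (by decide +kernel)
theorem L84500 : W_29 (nat_lit 3) (nat_lit 0x6800e00030001c001000080000000000000000000000000000000) (nat_lit 0x0) (nat_lit 0xe0003000000000000000000000000000000000000000) := T_29 (nat_lit 157) (nat_lit 156) (nat_lit 3) (nat_lit 3) (nat_lit 9) L84499 (by decide +kernel)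
theorem L84501 : W_29 (nat_lit 4) (nat_lit 0x6800e000300018001000080000000000000000000000000000000) (nat_lit 0x0) (nat_lit 0xe0007000200000000000000000000000000000000000) := T_29 (nat_lit 158) (nat_lit 141) (nat_lit 4) (nat_lit 6) (nat_lit 12) L84500 (by decide +kernel)
theorem L84502 : W_29 (nat_lit 5) (nat_lit 0x68006000300018001000080000000000000000000000000000000) (nat_lit 0x0) (nat_lit 0x180000e0007000200000000000000000000000000000000000) := T_29 (nat_lit 195) (nat_lit 196) (nat_lit 1) (nat_lit 9) (nat_lit 11) L84501 (by decide +kernel)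
theorem L84503 : W_29 (nat_lit 6) (nat_lit 0x60006000300018001000080000000000000000000000000000000) (nat_lit 0x0) (nat_lit 0x180180000e0007000200000000000000000000000000000000000) := T_29 (nat_lit 207) (nat_lit 208) (nat_lit 2) (nat_lit 3) (nat_lit 12) L84502 (by decide +kernel)
theorem L84504 : W_29 (nat_lit 7) (nat_lit 0x40006000300018001000080000000000000000000000000000000) (nat_lit 0x0) (nat_lit 0x4000380180000e0007000200000000000000000000000000000000000) := T_29 (nat_lit 209) (nat_lit 226) (nat_lit 5) (nat_lit 6) (nat_lit 9) L84503 (by decide +kernel)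
theorem L84505 : W_29 (nat_lit 8) (nat_lit 0x40006000300008001000080000000000000000000000000000000) (nat_lit 0x0) (nat_lit 0x4000380180000e0017000a00000000000000000000000000000000000) := T_29 (nat_lit 160) (nat_lit 143) (nat_lit 6) (nat_lit 7) (nat_lit 11) L84504 (by decide +kernel)
theorem L84507 : W_29 (nat_lit 2) (nat_lit 0x40006000200018001400080000000000000000000000000000000) (nat_lit 0x0) (nat_lit 0x100000000000020001000000000000000000000000000) := D_29 (nat_lit 125) (nat_lit 108) (nat_lit 176) (nat_lit 7) (nat_lit 6) (nat_lit 6) (nat_lit 7) (nat_lit 6) (nat_lit 7) (by decide +kernel)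
theorem L84508 : W_29 (nat_lit 3) (nat_lit 0x40006000200018001000080000000000000000000000000000000) (nat_lit 0x0) (nat_lit 0x80000000100000000400020001000000000000000000000000000) := T_29 (nat_lit 142) (nat_lit 211) (nat_lit 4) (nat_lit 7) (nat_lit 12) L84507 (by decide +kernel)
theorem L84509 : W_29 (nat_lit 4) (nat_lit 0x40006000200008001000080000000000000000000000000000000) (nat_lit 0x0) (nat_lit 0x80000000100010000c00020001000000000000000000000000000) := T_29 (nat_lit 160) (nat_lit 143) (nat_lit 6) (nat_lit 7) (nat_lit 11) L84508 (by decide +kernel)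
theorem L84510 : W_29 (nat_lit 2) (nat_lit 0x4000600030000e001000080000000000000000000000000000000) (nat_lit 0x0) (nat_lit 0xc80000000000000000000000000000000000000000000) := D_29 (nat_lit 178) (nat_lit 179) (nat_lit 175) (nat_lit 0) (nat_lit 9) (nat_lit 10) (nat_lit 0) (nat_lit 8) (nat_lit 10) (by decide +kernel)
theorem L84511 : W_29 (nat_lit 3) (nat_lit 0x4000600030000c001000080000000000000000000000000000000) (nat_lit 0x0) (nat_lit 0xc80003000000000000000000000000000000000000000) := T_29 (nat_lit 157) (nat_lit 156) (nat_lit 3) (nat_lit 3) (nat_lit 9) L84510 (by decide +kernel)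
theorem L84512 : W_29 (nat_lit 4) (nat_lit 0x40006000300008001000080000000000000000000000000000000) (nat_lit 0x0) (nat_lit 0xc80007000200000000000000000000000000000000000) := T_29 (nat_lit 158) (nat_lit 141) (nat_lit 4) (nat_lit 6) (nat_lit 12) L84511 (by decide +kernel)
theorem L84513 : W_29 (nat_lit 5) (nat_lit 0x40006000200008001000080000000000000000000000000000000) (nat_lit 0x0) (nat_lit 0x80000000d80007000600020000000000000000000000000000000) := Q_29 (nat_lit 176) (C_29 L84495 (C_29 L84512 N_29)) (by decide +kernel)
theorem L84514 : W_29 (nat_lit 2) (nat_lit 0x3f0016000200018001000080000000000000000000000000000000) (nat_lit 0x0) (nat_lit 0x700000000000000000000000000000000000000000000000000000000) := D_29 (nat_lit 225) (nat_lit 226) (nat_lit 224) (nat_lit 1) (nat_lit 8) (nat_lit 12) (nat_lit 1) (nat_lit 7) (nat_lit 12) (by decide +kernel)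
theorem L84515 : W_29 (nat_lit 3) (nat_lit 0x3e0016000200018001000080000000000000000000000000000000) (nat_lit 0x0) (nat_lit 0x700018000000000000000000000000000000000000000000000000000) := T_29 (nat_lit 208) (nat_lit 207) (nat_lit 2) (nat_lit 3) (nat_lit 12) L84514 (by decide +kernel)
theorem L84516 : W_29 (nat_lit 4) (nat_lit 0x3c0016000200018001000080000000000000000000000000000000) (nat_lit 0x0) (nat_lit 0x700038008000000000000000000000000000000000000000000000000) := T_29 (nat_lit 209) (nat_lit 195) (nat_lit 2) (nat_lit 5) (nat_lit 12) L84515 (by decide +kernel)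
theorem L84517 : W_29 (nat_lit 5) (nat_lit 0x3c0006000200018001000080000000000000000000000000000000) (nat_lit 0x0) (nat_lit 0x700038038000000000000000000000000000000000000000000000000) := T_29 (nat_lit 196) (nat_lit 197) (nat_lit 2) (nat_lit 6) (nat_lit 12) L84516 (by decide +kernel)
theorem L84518 : W_29 (nat_lit 6) (nat_lit 0x1c0006000200018001000080000000000000000000000000000000) (nat_lit 0x0) (nat_lit 0x700638038000000000000000000000000000000000000000000000000) := T_29 (nat_lit 213) (nat_lit 214) (nat_lit 0) (nat_lit 10) (nat_lit 12) L84517 (by decide +kernel)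
theorem L84519 : W_29 (nat_lit 7) (nat_lit 0xc0006000200018001000080000000000000000000000000000000) (nat_lit 0x0) (nat_lit 0x2700738038000000000000000000000000000000000000000000000000) := T_29 (nat_lit 212) (nat_lit 229) (nat_lit 7) (nat_lit 7) (nat_lit 9) L84518 (by decide +kernel)
theorem L84520 : W_29 (nat_lit 8) (nat_lit 0x40006000200018001000080000000000000000000000000000000) (nat_lit 0x0) (nat_lit 0x27007b8038000000000000400000000000000000000000000000000000) := T_29 (nat_lit 211) (nat_lit 142) (nat_lit 4) (nat_lit 7) (nat_lit 12) L84519 (by decide +kernel)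
theorem L84521 : W_29 (nat_lit 9) (nat_lit 0x40006000200008001000080000000000000000000000000000000) (nat_lit 0x0) (nat_lit 0x27007b8038000000010000c00000000000000000000000000000000000) := T_29 (nat_lit 160) (nat_lit 143) (nat_lit 6) (nat_lit 7) (nat_lit 11) L84520 (by decide +kernel)
theorem L84522 : W_29 (nat_lit 3) (nat_lit 0x40006000200008001400080000000000000000000000000000000) (nat_lit 0x0) (nat_lit 0x100010000800020001000000000000000000000000000) := T_29 (nat_lit 160) (nat_lit 143) (nat_lit 6) (nat_lit 7) (nat_lit 11) L84507 (by decide +kernel)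
theorem L84523 : W_29 (nat_lit 2) (nat_lit 0x4000600020000c0014000a0003000080000000000000000000000) (nat_lit 0x0) (nat_lit 0x800040002000000000000000000) := D_29 (nat_lit 90) (nat_lit 73) (nat_lit 107) (nat_lit 4) (nat_lit 6) (nat_lit 8) (nat_lit 4) (nat_lit 6) (nat_lit 9) (by decide +kernel)
theorem L84524 : W_29 (nat_lit 3) (nat_lit 0x4000600020000c0014000a0003000000000000000000000000000) (nat_lit 0x0) (nat_lit 0x2000000008000c0002000000000000000000) := T_29 (nat_lit 91) (nat_lit 141) (nat_lit 5) (nat_lit 6) (nat_lit 5) L84523 (by decide +kernel)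
theorem L84525 : W_29 (nat_lit 4) (nat_lit 0x400060002000080014000a0003000000000000000000000000000) (nat_lit 0x0) (nat_lit 0x800040002000000008000c0002000000000000000000) := T_29 (nat_lit 158) (nat_lit 175) (nat_lit 5) (nat_lit 6) (nat_lit 6) L84524 (by decide +kernel)
theorem L84526 : W_29 (nat_lit 5) (nat_lit 0x400060002000080014000a0001000000000000000000000000000) (nat_lit 0x0) (nat_lit 0x800040002000000028001c0002000000000000000000) := T_29 (nat_lit 109) (nat_lit 92) (nat_lit 6) (nat_lit 6) (nat_lit 9) L84525 (by decide +kernel)
theorem L84527 : W_29 (nat_lit 6) (nat_lit 0x400060002000080014000a0000000000000000000000000000000) (nat_lit 0x0) (nat_lit 0x800140002000000038001c0002000000000000000000) := T_29 (nat_lit 108) (nat_lit 160) (nat_lit 7) (nat_lit 6) (nat_lit 6) L84526 (by decide +kernel)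
theorem L84528 : W_29 (nat_lit 7) (nat_lit 0x40006000200008001400080000000000000000000000000000000) (nat_lit 0x0) (nat_lit 0x1800140002000200038001c0002000000000000000000) := T_29 (nat_lit 125) (nat_lit 176) (nat_lit 7) (nat_lit 6) (nat_lit 7) L84527 (by decide +kernel)
theorem L84529 : W_29 (nat_lit 2) (nat_lit 0x4000600020000a001e00088000000000000000000000000000000) (nat_lit 0x0) (nat_lit 0x1000100004000000000000000000000000000000) := D_29 (nat_lit 140) (nat_lit 156) (nat_lit 122) (nat_lit 1) (nat_lit 7) (nat_lit 8) (nat_lit 0) (nat_lit 7) (nat_lit 8) (by decide +kernel)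
theorem L84530 : W_29 (nat_lit 3) (nat_lit 0x4000600020000a001e00080000000000000000000000000000000) (nat_lit 0x0) (nat_lit 0x100010001c000000000000000000000000000000) := T_29 (nat_lit 123) (nat_lit 124) (nat_lit 0) (nat_lit 8) (nat_lit 8) L84529 (by decide +kernel)
theorem L84531 : W_29 (nat_lit 4) (nat_lit 0x40006000200008001e00080000000000000000000000000000000) (nat_lit 0x0) (nat_lit 0x700010001c000000000000000000000000000000) := T_29 (nat_lit 157) (nat_lit 158) (nat_lit 1) (nat_lit 8) (nat_lit 8) L84530 (by decide +kernel)
theorem L84532 : W_29 (nat_lit 5) (nat_lit 0x40006000200008001c00080000000000000000000000000000000) (nat_lit 0x0) (nat_lit 0x700030011c000000000000000000000000000000) := T_29 (nat_lit 141) (nat_lit 128) (nat_lit 2) (nat_lit 5) (nat_lit 8) L84531 (by decide +kernel)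
theorem L84533 : W_29 (nat_lit 6) (nat_lit 0x40006000200008001400080000000000000000000000000000000) (nat_lit 0x0) (nat_lit 0x17000b0011c000000000000000000000000000000) := T_29 (nat_lit 143) (nat_lit 160) (nat_lit 6) (nat_lit 7) (nat_lit 11) L84532 (by decide +kernel)
theorem L84534 : W_29 (nat_lit 2) (nat_lit 0x40006000300008001400080000000000000000000000000000000) (nat_lit 0x0) (nat_lit 0x4000200010000000000000000000000000000000) := D_29 (nat_lit 141) (nat_lit 124) (nat_lit 158) (nat_lit 4) (nat_lit 6) (nat_lit 11) (nat_lit 4) (nat_lit 6) (nat_lit 12) (by decide +kernel)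
theorem L84535 : W_29 (nat_lit 3) (nat_lit 0x40006000200008001400080000000000000000000000000000000) (nat_lit 0x0) (nat_lit 0x100004000200030000000000000000000000000000000) := T_29 (nat_lit 176) (nat_lit 125) (nat_lit 7) (nat_lit 6) (nat_lit 7) L84534 (by decide +kernel)
theorem L84536 : W_29 (nat_lit 8) (nat_lit 0x40006000200008001000080000000000000000000000000000000) (nat_lit 0x0) (nat_lit 0x180017000f0013c0038001c0002000000000000000000) := Q_29 (nat_lit 142) (C_29 L84522 (C_29 L84528 (C_29 L84533 (C_29 L84535 N_29)))) (by decide +kernel)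
theorem L84537 : W_29 (nat_lit 2) (nat_lit 0x70006000300018001000080000000000000000000000000000000) (nat_lit 0x0) (nat_lit 0x80018000000000000000000000000000000000000000000000000) := D_29 (nat_lit 195) (nat_lit 196) (nat_lit 211) (nat_lit 1) (nat_lit 9) (nat_lit 11) (nat_lit 2) (nat_lit 4) (nat_lit 12) (by decide +kernel)
theorem L84538 : W_29 (nat_lit 3) (nat_lit 0x60006000300018001000080000000000000000000000000000000) (nat_lit 0x0) (nat_lit 0x98018000000000000000000000000000000000000000000000000) := T_29 (nat_lit 208) (nat_lit 207) (nat_lit 2) (nat_lit 3) (nat_lit 12) L84537 (by decide +kernel)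
theorem L84539 : W_29 (nat_lit 4) (nat_lit 0x40006000300018001000080000000000000000000000000000000) (nat_lit 0x0) (nat_lit 0x4000b8018000000000000000000000000000000000000000000000000) := T_29 (nat_lit 209) (nat_lit 226) (nat_lit 5) (nat_lit 6) (nat_lit 9) L84538 (by decide +kernel)
theorem L84540 : W_29 (nat_lit 5) (nat_lit 0x40006000300008001000080000000000000000000000000000000) (nat_lit 0x0) (nat_lit 0x4000b8018000000010000800000000000000000000000000000000000) := T_29 (nat_lit 160) (nat_lit 143) (nat_lit 6) (nat_lit 7) (nat_lit 11) L84539 (by decide +kernel)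
theorem L84541 : W_29 (nat_lit 9) (nat_lit 0x40006000200008001000080000000000000000000000000000000) (nat_lit 0x0) (nat_lit 0x4000b8018000de0017000a00000000000000000000000000000000000) := Q_29 (nat_lit 176) (C_29 L84512 (C_29 L84496 (C_29 L84505 (C_29 L84540 N_29)))) (by decide +kernel)
theorem L84542 : W_29 (nat_lit 10) (nat_lit 0x40006000200000001000080000000000000000000000000000000) (nat_lit 0x0) (nat_lit 0x27007b8038000de001f000f0013c0038001c0002000000000000000000) := Q_29 (nat_lit 159) (C_29 L84509 (C_29 L84513 (C_29 L84521 (C_29 L84536 (C_29 L84541 N_29))))) (by decide +kernel)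
theorem L84543 : W_29 (nat_lit 11) (nat_lit 0x6000200000001000080000000000000000000000000000000) (nat_lit 0x0) (nat_lit 0x58002f007f8038003de005f000f0013c0038001c0002000000000000000000) := Q_29 (nat_lit 210) (C_29 L80043 (C_29 L79529 (C_29 L10108 (C_29 L84483 (C_29 L79564 (C_29 L84542 N_29)))))) (by decide +kernel)
theorem L84544 : W_29 (nat_lit 2) (nat_lit 0x60007800200000001000080000000000000000000000000000000) (nat_lit 0x0) (nat_lit 0x180000400000000000000000000000000000000000000000000000) := D_29 (nat_lit 211) (nat_lit 212) (nat_lit 190) (nat_lit 3) (nat_lit 4) (nat_lit 11) (nat_lit 3) (nat_lit 3) (nat_lit 11) (by decide +kernel)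
theorem L84545 : W_29 (nat_lit 2) (nat_lit 0x60007800200000001000080000000000000000000000000000000) (nat_lit 0x0) (nat_lit 0x600100000000000000000000000000000000000000000000) := D_29 (nat_lit 190) (nat_lit 189) (nat_lit 176) (nat_lit 3) (nat_lit 2) (nat_lit 11) (nat_lit 2) (nat_lit 3) (nat_lit 11) (by decide +kernel)
theorem L84546 : W_29 (nat_lit 7) (nat_lit 0x60007000200000001000080000000000000000000000000000000) (nat_lit 0x0) (nat_lit 0x14000b00198000e00180004000000000000000000000000000000000000000) := Q_29 (nat_lit 191) (C_29 L79629 (C_29 L84544 (C_29 L84545 N_29))) (by decide +kernel)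
theorem L84547 : W_29 (nat_lit 8) (nat_lit 0x40007000200000001000080000000000000000000000000000000) (nat_lit 0x0) (nat_lit 0x14000b003b8018e00180004000000000000000000000000000000000000000) := Q_29 (nat_lit 209) (C_29 L84546 (C_29 L80490 (C_29 L80071 N_29))) (by decide +kernel)
theorem L84548 : W_29 (nat_lit 9) (nat_lit 0x40006000200000001000080000000000000000000000000000000) (nat_lit 0x0) (nat_lit 0xd4006b007bc079e00d80004000000000000000000000000000000000000000) := Q_29 (nat_lit 192) (C_29 L84451 (C_29 L80212 (C_29 L84547 (C_29 L79642 (C_29 L79641 N_29))))) (by decide +kernel)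
theorem L84549 : W_29 (nat_lit 11) (nat_lit 0x6000200000001000080000000000000000000000000000000) (nat_lit 0x0) (nat_lit 0xb000dc00ef00ffc079e03d80014000800000000000000000000000000000000000) := Q_29 (nat_lit 210) (C_29 L80061 (C_29 L84454 (C_29 L80043 (C_29 L84548 (C_29 L79564 N_29))))) (by decide +kernel)
theorem L84550 : W_29 (nat_lit 9) (nat_lit 0x40006000200000001000080000000000000000000000000000000) (nat_lit 0x0) (nat_lit 0x18000c007a0039c00df000f000600020000000000000000000000000000000) := Q_29 (nat_lit 192) (C_29 L10509 (C_29 L84359 (C_29 L80502 (C_29 L79642 N_29)))) (by decide +kernel)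
theorem L84551 : W_29 (nat_lit 10) (nat_lit 0x6000200000001000080000000000000000000000000000000) (nat_lit 0x0) (nat_lit 0x18002c007e0039c03df001f000e00020000000000000000000000000000000) := Q_29 (nat_lit 210) (C_29 L80043 (C_29 L80499 (C_29 L79529 (C_29 L10108 (C_29 L84550 (C_29 L79564 N_29)))))) (by decide +kernel)
theorem L84553 : W_29 (nat_lit 2) (nat_lit 0xc00040006000300008001000080000000000000000000000000000000) (nat_lit 0x0) (nat_lit 0x80004000200000000000000000000000000000000000) := D_29 (nat_lit 158) (nat_lit 141) (nat_lit 175) (nat_lit 4) (nat_lit 6) (nat_lit 12) (nat_lit 4) (nat_lit 6) (nat_lit 13) (by decide +kernel)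
theorem L84554 : W_29 (nat_lit 3) (nat_lit 0xc00040006000300000001000080000000000000000000000000000000) (nat_lit 0x0) (nat_lit 0x2000000008000c000200000000000000000000000000000000000) := T_29 (nat_lit 159) (nat_lit 209) (nat_lit 5) (nat_lit 6) (nat_lit 9) L84553 (by decide +kernel)
theorem L84555 : W_29 (nat_lit 4) (nat_lit 0x800040006000300000001000080000000000000000000000000000000) (nat_lit 0x0) (nat_lit 0x800040002000000008000c000200000000000000000000000000000000000) := T_29 (nat_lit 226) (nat_lit 243) (nat_lit 5) (nat_lit 6) (nat_lit 10) L84554 (by decide +kernel)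
theorem L84556 : W_29 (nat_lit 5) (nat_lit 0x800040006000200000001000080000000000000000000000000000000) (nat_lit 0x0) (nat_lit 0x800040002000000018001c000200000000000000000000000000000000000) := T_29 (nat_lit 176) (nat_lit 160) (nat_lit 6) (nat_lit 6) (nat_lit 13) L84555 (by decide +kernel)
theorem L84557 : W_29 (nat_lit 6) (nat_lit 0x40006000200000001000080000000000000000000000000000000) (nat_lit 0x0) (nat_lit 0x18000c0002000000018001c000200000000000000000000000000000000000) := T_29 (nat_lit 227) (nat_lit 244) (nat_lit 6) (nat_lit 6) (nat_lit 14) L84556 (by decide +kernel)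
theorem L84558 : W_29 (nat_lit 2) (nat_lit 0x10000000070006000200000001000080000000000000000000000000000000) (nat_lit 0x0) (nat_lit 0x19000000000000000000000000000000000000000000000000) := D_29 (nat_lit 195) (nat_lit 196) (nat_lit 192) (nat_lit 1) (nat_lit 9) (nat_lit 11) (nat_lit 1) (nat_lit 8) (nat_lit 11) (by decide +kernel)
theorem L84559 : W_29 (nat_lit 3) (nat_lit 0x10000000060006000200000001000080000000000000000000000000000000) (nat_lit 0x0) (nat_lit 0x18019000000000000000000000000000000000000000000000000) := T_29 (nat_lit 208) (nat_lit 207) (nat_lit 2) (nat_lit 3) (nat_lit 12) L84558 (by decide +kernel)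
theorem L84560 : W_29 (nat_lit 4) (nat_lit 0x60006000200000001000080000000000000000000000000000000) (nat_lit 0x0) (nat_lit 0x10000800018019000000000000000000000000000000000000000000000000) := T_29 (nat_lit 244) (nat_lit 227) (nat_lit 6) (nat_lit 6) (nat_lit 14) L84559 (by decide +kernel)
theorem L84561 : W_29 (nat_lit 2) (nat_lit 0x60007c00200000001000080000000000000000000000000000000) (nat_lit 0x0) (nat_lit 0x70000000000000000000000000000000000000000000) := D_29 (nat_lit 173) (nat_lit 174) (nat_lit 172) (nat_lit 0) (nat_lit 7) (nat_lit 11) (nat_lit 0) (nat_lit 6) (nat_lit 11) (by decide +kernel)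
theorem L84562 : W_29 (nat_lit 3) (nat_lit 0x60007800200000001000080000000000000000000000000000000) (nat_lit 0x0) (nat_lit 0x600070000000000000000000000000000000000000000000) := T_29 (nat_lit 190) (nat_lit 189) (nat_lit 3) (nat_lit 2) (nat_lit 11) L84561 (by decide +kernel)
theorem L84563 : W_29 (nat_lit 2) (nat_lit 0x60007000280000001000080000000000000000000000000000000) (nat_lit 0x0) (nat_lit 0x800000000000000004000200000000000000000000000000000000000) := D_29 (nat_lit 158) (nat_lit 227) (nat_lit 141) (nat_lit 7) (nat_lit 5) (nat_lit 9) (nat_lit 7) (nat_lit 5) (nat_lit 8) (by decide +kernel)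
theorem L84564 : W_29 (nat_lit 6) (nat_lit 0x60007000200000001000080000000000000000000000000000000) (nat_lit 0x0) (nat_lit 0x800040001c000e00070012000800000000000000000000000000000000000) := Q_29 (nat_lit 191) (C_29 L84562 (C_29 L24870 (C_29 L79734 N_29))) (by decide +kernel)
theorem L84565 : W_29 (nat_lit 2) (nat_lit 0x40003c0006800e000200000001000080000000000000000000000000000000) (nat_lit 0x0) (nat_lit 0x10000c000000000000000000000000000000000000000000000000000000000000) := D_29 (nat_lit 243) (nat_lit 242) (nat_lit 260) (nat_lit 1) (nat_lit 8) (nat_lit 13) (nat_lit 6) (nat_lit 5) (nat_lit 15) (by decide +kernel)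
theorem L84566 : W_29 (nat_lit 3) (nat_lit 0x4000380006800e000200000001000080000000000000000000000000000000) (nat_lit 0x0) (nat_lit 0x10008c000400000000000000000000000000000000000000000000000000000000) := T_29 (nat_lit 226) (nat_lit 247) (nat_lit 3) (nat_lit 5) (nat_lit 13) L84565 (by decide +kernel)
theorem L84567 : W_29 (nat_lit 4) (nat_lit 0x380006800e000200000001000080000000000000000000000000000000) (nat_lit 0x0) (nat_lit 0x1000cc000400100000000000000000000000000000000000000000000000000000) := T_29 (nat_lit 246) (nat_lit 212) (nat_lit 4) (nat_lit 8) (nat_lit 14) L84566 (by decide +kernel)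
theorem L84574 : W_29 (nat_lit 2) (nat_lit 0x6000e000200000001000080000000000000000000000000000000) (nat_lit 0x0) (nat_lit 0x18001000000000000000000000000000000000000000000000000) := D_29 (nat_lit 208) (nat_lit 192) (nat_lit 207) (nat_lit 1) (nat_lit 8) (nat_lit 11) (nat_lit 2) (nat_lit 3) (nat_lit 12) (by decide +kernel)
theorem L84575 : W_29 (nat_lit 3) (nat_lit 0x4000e000200000001000080000000000000000000000000000000) (nat_lit 0x0) (nat_lit 0x38011000000000000000000000000000000000000000000000000) := T_29 (nat_lit 209) (nat_lit 196) (nat_lit 1) (nat_lit 9) (nat_lit 11) L84574 (by decide +kernel)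
theorem L84576 : W_29 (nat_lit 2) (nat_lit 0x15000f000240000001800080000000000000000000000000000000) (nat_lit 0x0) (nat_lit 0x8000800020000000000000000000000000000000000000000000) := D_29 (nat_lit 191) (nat_lit 207) (nat_lit 173) (nat_lit 1) (nat_lit 7) (nat_lit 11) (nat_lit 0) (nat_lit 7) (nat_lit 11) (by decide +kernel)
theorem L84577 : W_29 (nat_lit 3) (nat_lit 0x15000f000200000001800080000000000000000000000000000000) (nat_lit 0x0) (nat_lit 0x80008000e0000000000000000000000000000000000000000000) := T_29 (nat_lit 174) (nat_lit 175) (nat_lit 0) (nat_lit 8) (nat_lit 11) L84576 (by decide +kernel)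
theorem L84578 : W_29 (nat_lit 4) (nat_lit 0x15000f000200000001000080000000000000000000000000000000) (nat_lit 0x0) (nat_lit 0x80008000e0010000800000000000000000000000000000000000) := T_29 (nat_lit 143) (nat_lit 160) (nat_lit 7) (nat_lit 7) (nat_lit 8) L84577 (by decide +kernel)
theorem L84579 : W_29 (nat_lit 5) (nat_lit 0x14000f000200000001000080000000000000000000000000000000) (nat_lit 0x0) (nat_lit 0x380008000e0010000800000000000000000000000000000000000) := T_29 (nat_lit 208) (nat_lit 209) (nat_lit 1) (nat_lit 8) (nat_lit 11) L84578 (by decide +kernel)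
theorem L84580 : W_29 (nat_lit 6) (nat_lit 0x4000f000200000001000080000000000000000000000000000000) (nat_lit 0x0) (nat_lit 0x3380008000e0010000800000000000000000000000000000000000) := T_29 (nat_lit 212) (nat_lit 213) (nat_lit 3) (nat_lit 5) (nat_lit 11) L84579 (by decide +kernel)
theorem L84603 : W_29 (nat_lit 2) (nat_lit 0x4000f800200000001000080000000000000000000000000000000) (nat_lit 0x0) (nat_lit 0xe0000000000000000000000000000000000000000000) := D_29 (nat_lit 174) (nat_lit 175) (nat_lit 173) (nat_lit 0) (nat_lit 8) (nat_lit 11) (nat_lit 0) (nat_lit 7) (nat_lit 11) (by decide +kernel)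
theorem L84604 : W_29 (nat_lit 2) (nat_lit 0x4001f000200000001800080000000000000000000000000000000) (nat_lit 0x0) (nat_lit 0x700000000000000000000000000000000000000000000000000000) := D_29 (nat_lit 213) (nat_lit 212) (nat_lit 214) (nat_lit 3) (nat_lit 5) (nat_lit 11) (nat_lit 3) (nat_lit 6) (nat_lit 11) (by decide +kernel)
theorem L84605 : W_29 (nat_lit 2) (nat_lit 0x10000400060007000200000001000080000000000000000000000000000000) (nat_lit 0x0) (nat_lit 0x300008000000000000000000000000000000000000000000000000000000000000) := D_29 (nat_lit 243) (nat_lit 261) (nat_lit 260) (nat_lit 7) (nat_lit 5) (nat_lit 11) (nat_lit 6) (nat_lit 5) (nat_lit 15) (by decide +kernel)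
theorem L84606 : W_29 (nat_lit 3) (nat_lit 0x400060007000200000001000080000000000000000000000000000000) (nat_lit 0x0) (nat_lit 0x300018000800000000000000000000000000000000000000000000000000000000) := T_29 (nat_lit 244) (nat_lit 227) (nat_lit 6) (nat_lit 6) (nat_lit 14) L84605 (by decide +kernel)
theorem L84607 : W_29 (nat_lit 2) (nat_lit 0x2003f00068007000200000001800080000000000000000000000000000000) (nat_lit 0x0) (nat_lit 0xe0000000000000000000000000000000000000000000000000000000000000) := D_29 (nat_lit 246) (nat_lit 245) (nat_lit 247) (nat_lit 3) (nat_lit 4) (nat_lit 13) (nat_lit 3) (nat_lit 5) (nat_lit 13) (by decide +kernel)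
theorem L84608 : W_29 (nat_lit 3) (nat_lit 0x2001f00068007000200000001800080000000000000000000000000000000) (nat_lit 0x0) (nat_lit 0xe0006000000000000000000000000000000000000000000000000000000000) := T_29 (nat_lit 229) (nat_lit 230) (nat_lit 0) (nat_lit 9) (nat_lit 13) L84607 (by decide +kernel)
theorem L84609 : W_29 (nat_lit 4) (nat_lit 0x2000f00068007000200000001800080000000000000000000000000000000) (nat_lit 0x0) (nat_lit 0xe4007000000000000000000000000000000000000000000000000000000000) := T_29 (nat_lit 228) (nat_lit 242) (nat_lit 1) (nat_lit 7) (nat_lit 13) L84608 (by decide +kernel)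
theorem L84610 : W_29 (nat_lit 5) (nat_lit 0x2000f00060007000200000001800080000000000000000000000000000000) (nat_lit 0x0) (nat_lit 0xe400700000c000000000000000000000000000000000000000000000000000) := T_29 (nat_lit 207) (nat_lit 206) (nat_lit 0) (nat_lit 6) (nat_lit 13) L84609 (by decide +kernel)
theorem L84611 : W_29 (nat_lit 6) (nat_lit 0xf00060007000200000001800080000000000000000000000000000000) (nat_lit 0x0) (nat_lit 0xe700700000c000000000000000000000000000000000000000000000000000) := T_29 (nat_lit 241) (nat_lit 240) (nat_lit 1) (nat_lit 6) (nat_lit 13) L84610 (by decide +kernel)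
theorem L84612 : W_29 (nat_lit 7) (nat_lit 0x700060007000200000001800080000000000000000000000000000000) (nat_lit 0x0) (nat_lit 0xf700780000c000000000000000000000000000000000000000000000000000) := T_29 (nat_lit 227) (nat_lit 244) (nat_lit 6) (nat_lit 6) (nat_lit 14) L84611 (by decide +kernel)
theorem L84613 : W_29 (nat_lit 8) (nat_lit 0x600060007000200000001800080000000000000000000000000000000) (nat_lit 0x0) (nat_lit 0xf700798000c000000000000000000000000000000000000000000000000000) := T_29 (nat_lit 224) (nat_lit 223) (nat_lit 2) (nat_lit 2) (nat_lit 13) L84612 (by decide +kernel)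
theorem L84614 : W_29 (nat_lit 9) (nat_lit 0x600060007000200000001000080000000000000000000000000000000) (nat_lit 0x0) (nat_lit 0xf700798000c000000000010000800000000000000000000000000000000000) := T_29 (nat_lit 143) (nat_lit 160) (nat_lit 6) (nat_lit 7) (nat_lit 11) L84613 (by decide +kernel)
theorem L84615 : W_29 (nat_lit 2) (nat_lit 0x10000000060017800220000001000080000000000000000000000000000000) (nat_lit 0x0) (nat_lit 0x600010000000000000000000000000000000000000000000) := D_29 (nat_lit 190) (nat_lit 189) (nat_lit 172) (nat_lit 3) (nat_lit 2) (nat_lit 11) (nat_lit 0) (nat_lit 6) (nat_lit 11) (by decide +kernel)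
theorem L84616 : W_29 (nat_lit 3) (nat_lit 0x10000000060017800200000001000080000000000000000000000000000000) (nat_lit 0x0) (nat_lit 0x600070000000000000000000000000000000000000000000) := T_29 (nat_lit 173) (nat_lit 174) (nat_lit 0) (nat_lit 7) (nat_lit 11) L84615 (by decide +kernel)
theorem L84617 : W_29 (nat_lit 4) (nat_lit 0x10000000060007800200000001000080000000000000000000000000000000) (nat_lit 0x0) (nat_lit 0x18600070000000000000000000000000000000000000000000) := T_29 (nat_lit 196) (nat_lit 195) (nat_lit 1) (nat_lit 9) (nat_lit 11) L84616 (by decide +kernel)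
theorem L84618 : W_29 (nat_lit 3) (nat_lit 0x4000f000200000001800080000000000000000000000000000000) (nat_lit 0x0) (nat_lit 0x720010000000000000000000000000000000000000000000000000) := T_29 (nat_lit 196) (nat_lit 209) (nat_lit 1) (nat_lit 9) (nat_lit 11) L84604 (by decide +kernel)
theorem L84619 : W_29 (nat_lit 4) (nat_lit 0x4000f000200000001000080000000000000000000000000000000) (nat_lit 0x0) (nat_lit 0x720010000000010000800000000000000000000000000000000000) := T_29 (nat_lit 143) (nat_lit 160) (nat_lit 6) (nat_lit 7) (nat_lit 11) L84618 (by decide +kernel)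
theorem L84620 : W_29 (nat_lit 2) (nat_lit 0x10000000048007800220000001000080000000000000000000000000000000) (nat_lit 0x0) (nat_lit 0x4000400010000000000000000000000000000000000000000000) := D_29 (nat_lit 190) (nat_lit 206) (nat_lit 172) (nat_lit 1) (nat_lit 6) (nat_lit 11) (nat_lit 0) (nat_lit 6) (nat_lit 11) (by decide +kernel)
theorem L84621 : W_29 (nat_lit 3) (nat_lit 0x10000000048007800200000001000080000000000000000000000000000000) (nat_lit 0x0) (nat_lit 0x4000400070000000000000000000000000000000000000000000) := T_29 (nat_lit 173) (nat_lit 174) (nat_lit 0) (nat_lit 7) (nat_lit 11) L84620 (by decide +kernel)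
theorem L84622 : W_29 (nat_lit 4) (nat_lit 0x10000000040007800200000001000080000000000000000000000000000000) (nat_lit 0x0) (nat_lit 0x1c000400070000000000000000000000000000000000000000000) := T_29 (nat_lit 207) (nat_lit 208) (nat_lit 1) (nat_lit 7) (nat_lit 11) L84621 (by decide +kernel)
theorem L84623 : W_29 (nat_lit 5) (nat_lit 0x40007800200000001000080000000000000000000000000000000) (nat_lit 0x0) (nat_lit 0x1000080001c000400070000000000000000000000000000000000000000000) := T_29 (nat_lit 244) (nat_lit 227) (nat_lit 6) (nat_lit 6) (nat_lit 14) L84622 (by decide +kernel)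
theorem L84624 : W_29 (nat_lit 2) (nat_lit 0x10000000044007c00220010001000080000000000000000000000000000000) (nat_lit 0x0) (nat_lit 0x22000200000000000000000000000000000000000000000000000) := D_29 (nat_lit 189) (nat_lit 209) (nat_lit 205) (nat_lit 3) (nat_lit 2) (nat_lit 11) (nat_lit 1) (nat_lit 5) (nat_lit 11) (by decide +kernel)
theorem L84625 : W_29 (nat_lit 3) (nat_lit 0x10000000040007c00220010001000080000000000000000000000000000000) (nat_lit 0x0) (nat_lit 0x2e000200000000000000000000000000000000000000000000000) := T_29 (nat_lit 206) (nat_lit 207) (nat_lit 1) (nat_lit 6) (nat_lit 11) L84624 (by decide +kernel)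
theorem L84626 : W_29 (nat_lit 4) (nat_lit 0x10000000040007c00220000001000080000000000000000000000000000000) (nat_lit 0x0) (nat_lit 0x2e000200000010000800000000000000000000000000000000000) := T_29 (nat_lit 160) (nat_lit 143) (nat_lit 6) (nat_lit 7) (nat_lit 11) L84625 (by decide +kernel)
theorem L84627 : W_29 (nat_lit 5) (nat_lit 0x10000000040007800220000001000080000000000000000000000000000000) (nat_lit 0x0) (nat_lit 0x2e000600010010000800000000000000000000000000000000000) := T_29 (nat_lit 190) (nat_lit 172) (nat_lit 0) (nat_lit 6) (nat_lit 11) L84626 (by decide +kernel)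
theorem L84628 : W_29 (nat_lit 6) (nat_lit 0x40007800220000001000080000000000000000000000000000000) (nat_lit 0x0) (nat_lit 0x1000080002e000600010010000800000000000000000000000000000000000) := T_29 (nat_lit 244) (nat_lit 227) (nat_lit 6) (nat_lit 6) (nat_lit 14) L84627 (by decide +kernel)
theorem L84629 : W_29 (nat_lit 7) (nat_lit 0x40007800200000001000080000000000000000000000000000000) (nat_lit 0x0) (nat_lit 0x1000080002e000600070010000800000000000000000000000000000000000) := T_29 (nat_lit 173) (nat_lit 174) (nat_lit 0) (nat_lit 7) (nat_lit 11) L84628 (by decide +kernel)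
theorem L84631 : W_29 (nat_lit 4) (nat_lit 0x50007800200010001000080000000000000000000000000000000) (nat_lit 0x0) (nat_lit 0x8000400020008000060002000000000000000000000000000000000000000) := T_29 (nat_lit 209) (nat_lit 195) (nat_lit 1) (nat_lit 8) (nat_lit 11) L79732 (by decide +kernel)
theorem L84632 : W_29 (nat_lit 5) (nat_lit 0x50007800200000001000080000000000000000000000000000000) (nat_lit 0x0) (nat_lit 0x8000400020008000060012000800000000000000000000000000000000000) := T_29 (nat_lit 160) (nat_lit 143) (nat_lit 6) (nat_lit 7) (nat_lit 11) L84631 (by decide +kernel)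
theorem L84633 : W_29 (nat_lit 6) (nat_lit 0x40007800200000001000080000000000000000000000000000000) (nat_lit 0x0) (nat_lit 0x8000400038008000060012000800000000000000000000000000000000000) := T_29 (nat_lit 208) (nat_lit 207) (nat_lit 1) (nat_lit 7) (nat_lit 11) L84632 (by decide +kernel)
theorem L84634 : W_29 (nat_lit 2) (nat_lit 0x40007c00200000001000080000000000000000000000000000000) (nat_lit 0x0) (nat_lit 0x1c000000000000000000000000000000000000000000000000000) := D_29 (nat_lit 207) (nat_lit 208) (nat_lit 206) (nat_lit 1) (nat_lit 7) (nat_lit 11) (nat_lit 1) (nat_lit 6) (nat_lit 11) (by decide +kernel)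
theorem L84647 : W_29 (nat_lit 2) (nat_lit 0x10000000060007c00220000001800080000000000000000000000000000000) (nat_lit 0x0) (nat_lit 0x10018000000000000000000000000000000000000000000000000) := D_29 (nat_lit 195) (nat_lit 196) (nat_lit 208) (nat_lit 1) (nat_lit 9) (nat_lit 11) (nat_lit 1) (nat_lit 8) (nat_lit 11) (by decide +kernel)
theorem L84648 : W_29 (nat_lit 3) (nat_lit 0x10000000040007c00220000001800080000000000000000000000000000000) (nat_lit 0x0) (nat_lit 0x30018200000000000000000000000000000000000000000000000) := T_29 (nat_lit 209) (nat_lit 189) (nat_lit 3) (nat_lit 2) (nat_lit 11) L84647 (by decide +kernel)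
theorem L84649 : W_29 (nat_lit 4) (nat_lit 0x40007c00220000001800080000000000000000000000000000000) (nat_lit 0x0) (nat_lit 0x10000800030018200000000000000000000000000000000000000000000000) := T_29 (nat_lit 244) (nat_lit 227) (nat_lit 6) (nat_lit 6) (nat_lit 14) L84648 (by decide +kernel)
theorem L84650 : W_29 (nat_lit 5) (nat_lit 0x40007800220000001800080000000000000000000000000000000) (nat_lit 0x0) (nat_lit 0x10000800030018600010000000000000000000000000000000000000000000) := T_29 (nat_lit 190) (nat_lit 172) (nat_lit 0) (nat_lit 6) (nat_lit 11) L84649 (by decide +kernel)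
theorem L84651 : W_29 (nat_lit 6) (nat_lit 0x40007800220000001000080000000000000000000000000000000) (nat_lit 0x0) (nat_lit 0x10000800030018600010010000800000000000000000000000000000000000) := T_29 (nat_lit 143) (nat_lit 160) (nat_lit 6) (nat_lit 7) (nat_lit 11) L84650 (by decide +kernel)
theorem L84652 : W_29 (nat_lit 7) (nat_lit 0x40007800200000001000080000000000000000000000000000000) (nat_lit 0x0) (nat_lit 0x10000800030018600070010000800000000000000000000000000000000000) := T_29 (nat_lit 173) (nat_lit 174) (nat_lit 0) (nat_lit 7) (nat_lit 11) L84651 (by decide +kernel)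
theorem L84654 : W_29 (nat_lit 2) (nat_lit 0x1000000044001e001200010001000080000000000000000000000000000000) (nat_lit 0x0) (nat_lit 0x800020002000000000000000000000000000000000000000000000) := D_29 (nat_lit 197) (nat_lit 215) (nat_lit 181) (nat_lit 3) (nat_lit 7) (nat_lit 11) (nat_lit 2) (nat_lit 7) (nat_lit 11) (by decide +kernel)
theorem L84655 : W_29 (nat_lit 3) (nat_lit 0x1000000044001e000200010001000080000000000000000000000000000000) (nat_lit 0x0) (nat_lit 0x800020003800000000000000000000000000000000000000000000) := T_29 (nat_lit 180) (nat_lit 179) (nat_lit 2) (nat_lit 6) (nat_lit 11) L84654 (by decide +kernel)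
theorem L84656 : W_29 (nat_lit 4) (nat_lit 0x1000000004001e000200010001000080000000000000000000000000000000) (nat_lit 0x0) (nat_lit 0xe00020003800000000000000000000000000000000000000000000) := T_29 (nat_lit 214) (nat_lit 213) (nat_lit 3) (nat_lit 6) (nat_lit 11) L84655 (by decide +kernel)
theorem L84657 : W_29 (nat_lit 5) (nat_lit 0x4001e000200010001000080000000000000000000000000000000) (nat_lit 0x0) (nat_lit 0x10000800e00020003800000000000000000000000000000000000000000000) := T_29 (nat_lit 244) (nat_lit 227) (nat_lit 6) (nat_lit 6) (nat_lit 14) L84656 (by decide +kernel)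
theorem L84658 : W_29 (nat_lit 2) (nat_lit 0x10000000050007000200000001000080000000000000000000000000000000) (nat_lit 0x0) (nat_lit 0x28000800000000000000000000000000000000000000000000000) := D_29 (nat_lit 207) (nat_lit 191) (nat_lit 209) (nat_lit 1) (nat_lit 7) (nat_lit 11) (nat_lit 2) (nat_lit 3) (nat_lit 12) (by decide +kernel)
theorem L84659 : W_29 (nat_lit 2) (nat_lit 0x10000000050007000200000001000080000000000000000000000000000000) (nat_lit 0x0) (nat_lit 0x28008000000000000000000000000000000000000000000000000) := D_29 (nat_lit 209) (nat_lit 195) (nat_lit 207) (nat_lit 1) (nat_lit 8) (nat_lit 11) (nat_lit 2) (nat_lit 3) (nat_lit 12) (by decide +kernel)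
theorem L84660 : W_29 (nat_lit 2) (nat_lit 0x10000000050007000280004001000080000000000000000000000000000000) (nat_lit 0x0) (nat_lit 0x200020008000000000000000000000000000000000000000000000000) := D_29 (nat_lit 209) (nat_lit 195) (nat_lit 225) (nat_lit 1) (nat_lit 8) (nat_lit 11) (nat_lit 5) (nat_lit 5) (nat_lit 9) (by decide +kernel)
theorem L84661 : W_29 (nat_lit 3) (nat_lit 0x10000000050007000280000001000080000000000000000000000000000000) (nat_lit 0x0) (nat_lit 0x200020008000000004000200000000000000000000000000000000000) := T_29 (nat_lit 158) (nat_lit 141) (nat_lit 7) (nat_lit 5) (nat_lit 8) L84660 (by decide +kernel)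
theorem L84662 : W_29 (nat_lit 2) (nat_lit 0x100000000500070002c0000001000080000000000000000000000000000000) (nat_lit 0x0) (nat_lit 0x800030000000000000000000000000000000000000000000) := D_29 (nat_lit 173) (nat_lit 191) (nat_lit 172) (nat_lit 0) (nat_lit 7) (nat_lit 11) (nat_lit 3) (nat_lit 2) (nat_lit 10) (by decide +kernel)
theorem L84663 : W_29 (nat_lit 3) (nat_lit 0x10000000050007000280000001000080000000000000000000000000000000) (nat_lit 0x0) (nat_lit 0x8800070000000000000000000000000000000000000000000) := T_29 (nat_lit 174) (nat_lit 195) (nat_lit 0) (nat_lit 8) (nat_lit 11) L84662 (by decide +kernel)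
theorem L84664 : W_29 (nat_lit 2) (nat_lit 0x10000000040007800200000001e00080000000000000000000000000000000) (nat_lit 0x0) (nat_lit 0x80006000000000000000000000000000000000000000) := D_29 (nat_lit 158) (nat_lit 157) (nat_lit 175) (nat_lit 1) (nat_lit 8) (nat_lit 8) (nat_lit 7) (nat_lit 5) (nat_lit 8) (by decide +kernel)
theorem L84665 : W_29 (nat_lit 3) (nat_lit 0x10000000040007800200000001a00080000000000000000000000000000000) (nat_lit 0x0) (nat_lit 0x80006000400100000000000000000000000000000000) := T_29 (nat_lit 142) (nat_lit 128) (nat_lit 2) (nat_lit 5) (nat_lit 8) L84664 (by decide +kernel)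
theorem L84666 : W_29 (nat_lit 4) (nat_lit 0x10000000040007800200000001200080000000000000000000000000000000) (nat_lit 0x0) (nat_lit 0x80016000c00100000000000000000000000000000000) := T_29 (nat_lit 143) (nat_lit 160) (nat_lit 6) (nat_lit 7) (nat_lit 11) L84665 (by decide +kernel)
theorem L84667 : W_29 (nat_lit 2) (nat_lit 0x10000000050007800200004001a00080000000000000000000000000000000) (nat_lit 0x0) (nat_lit 0x40002000400000000000000000000000000000000000) := D_29 (nat_lit 157) (nat_lit 142) (nat_lit 174) (nat_lit 1) (nat_lit 8) (nat_lit 8) (nat_lit 6) (nat_lit 4) (nat_lit 12) (by decide +kernel)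
theorem L84668 : W_29 (nat_lit 3) (nat_lit 0x10000000050007800200000001a00080000000000000000000000000000000) (nat_lit 0x0) (nat_lit 0xc0006000400000000000000000000000000000000000) := T_29 (nat_lit 158) (nat_lit 175) (nat_lit 7) (nat_lit 5) (nat_lit 8) L84667 (by decide +kernel)
theorem L84669 : W_29 (nat_lit 4) (nat_lit 0x10000000050007800200000001200080000000000000000000000000000000) (nat_lit 0x0) (nat_lit 0xc0016000c00000000000000000000000000000000000) := T_29 (nat_lit 143) (nat_lit 160) (nat_lit 6) (nat_lit 7) (nat_lit 11) L84668 (by decide +kernel)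
theorem L84670 : W_29 (nat_lit 5) (nat_lit 0x10000000040007800200000001200080000000000000000000000000000000) (nat_lit 0x0) (nat_lit 0x180000000c0016000c00000000000000000000000000000000000) := T_29 (nat_lit 208) (nat_lit 207) (nat_lit 1) (nat_lit 7) (nat_lit 11) L84669 (by decide +kernel)
theorem L84671 : W_29 (nat_lit 2) (nat_lit 0x10000000048007f00280000001200080000000000000000000000000000000) (nat_lit 0x0) (nat_lit 0x1c000000000000000000000000000000000000000000) := D_29 (nat_lit 171) (nat_lit 172) (nat_lit 170) (nat_lit 0) (nat_lit 5) (nat_lit 11) (nat_lit 0) (nat_lit 4) (nat_lit 11) (by decide +kernel)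
theorem L84672 : W_29 (nat_lit 3) (nat_lit 0x10000000048007e00280000001200080000000000000000000000000000000) (nat_lit 0x0) (nat_lit 0x10005c000000000000000000000000000000000000000000) := T_29 (nat_lit 188) (nat_lit 174) (nat_lit 2) (nat_lit 1) (nat_lit 11) L84671 (by decide +kernel)
theorem L84673 : W_29 (nat_lit 4) (nat_lit 0x10000000048007c00280000001200080000000000000000000000000000000) (nat_lit 0x0) (nat_lit 0x2000030005c000000000000000000000000000000000000000000) := T_29 (nat_lit 189) (nat_lit 209) (nat_lit 3) (nat_lit 2) (nat_lit 11) L84672 (by decide +kernel)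
theorem L84674 : W_29 (nat_lit 5) (nat_lit 0x10000000048007c00200000001200080000000000000000000000000000000) (nat_lit 0x0) (nat_lit 0x200003000dc004000000000000000000000000000000000000000) := T_29 (nat_lit 175) (nat_lit 158) (nat_lit 7) (nat_lit 5) (nat_lit 8) L84673 (by decide +kernel)
theorem L84675 : W_29 (nat_lit 6) (nat_lit 0x10000000048007800200000001200080000000000000000000000000000000) (nat_lit 0x0) (nat_lit 0x240007000dc004000000000000000000000000000000000000000) := T_29 (nat_lit 190) (nat_lit 206) (nat_lit 1) (nat_lit 6) (nat_lit 11) L84674 (by decide +kernel)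
theorem L84676 : W_29 (nat_lit 7) (nat_lit 0x10000000040007800200000001200080000000000000000000000000000000) (nat_lit 0x0) (nat_lit 0x3c0007000dc004000000000000000000000000000000000000000) := T_29 (nat_lit 207) (nat_lit 208) (nat_lit 1) (nat_lit 7) (nat_lit 11) L84675 (by decide +kernel)
theorem L84677 : W_29 (nat_lit 2) (nat_lit 0x10000000050007800200002001f00088000000000000000000000000000000) (nat_lit 0x0) (nat_lit 0x200000000c0000000000000000000000000000000000000000000) := D_29 (nat_lit 174) (nat_lit 175) (nat_lit 209) (nat_lit 7) (nat_lit 4) (nat_lit 7) (nat_lit 7) (nat_lit 4) (nat_lit 8) (by decide +kernel)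
theorem L84678 : W_29 (nat_lit 3) (nat_lit 0x10000000050007800200000001f00088000000000000000000000000000000) (nat_lit 0x0) (nat_lit 0x200000000c0003000000000000000000000000000000000000000) := T_29 (nat_lit 157) (nat_lit 156) (nat_lit 1) (nat_lit 7) (nat_lit 8) L84677 (by decide +kernel)
theorem L84679 : W_29 (nat_lit 4) (nat_lit 0x10000000050007800200000001e00088000000000000000000000000000000) (nat_lit 0x0) (nat_lit 0x200000000c0003000100004000000000000000000000000000000) := T_29 (nat_lit 140) (nat_lit 122) (nat_lit 0) (nat_lit 7) (nat_lit 8) L84678 (by decide +kernel)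
theorem L84680 : W_29 (nat_lit 5) (nat_lit 0x10000000050007800200000001e00080000000000000000000000000000000) (nat_lit 0x0) (nat_lit 0x200000000c000300010001c000000000000000000000000000000) := T_29 (nat_lit 123) (nat_lit 124) (nat_lit 0) (nat_lit 8) (nat_lit 8) L84679 (by decide +kernel)
theorem L84681 : W_29 (nat_lit 6) (nat_lit 0x10000000050007800200000001a00080000000000000000000000000000000) (nat_lit 0x0) (nat_lit 0x200000000c000300050011c000000000000000000000000000000) := T_29 (nat_lit 142) (nat_lit 128) (nat_lit 2) (nat_lit 5) (nat_lit 8) L84680 (by decide +kernel)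
theorem L84682 : W_29 (nat_lit 7) (nat_lit 0x10000000050007800200000001200080000000000000000000000000000000) (nat_lit 0x0) (nat_lit 0x200000000c0013000d0011c000000000000000000000000000000) := T_29 (nat_lit 143) (nat_lit 160) (nat_lit 6) (nat_lit 7) (nat_lit 11) L84681 (by decide +kernel)
theorem L84683 : W_29 (nat_lit 8) (nat_lit 0x10000000040007800200000001200080000000000000000000000000000000) (nat_lit 0x0) (nat_lit 0x380000000c0013000d0011c000000000000000000000000000000) := T_29 (nat_lit 208) (nat_lit 207) (nat_lit 1) (nat_lit 7) (nat_lit 11) L84682 (by decide +kernel)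
theorem L84684 : W_29 (nat_lit 2) (nat_lit 0x10000000040007800200002001e00090000000000000000000000000000000) (nat_lit 0x0) (nat_lit 0x40001000100000000000000000000000000000000000) := D_29 (nat_lit 140) (nat_lit 156) (nat_lit 174) (nat_lit 1) (nat_lit 7) (nat_lit 8) (nat_lit 6) (nat_lit 4) (nat_lit 11) (by decide +kernel)
theorem L84685 : W_29 (nat_lit 3) (nat_lit 0x10000000040007800200002001e00080000000000000000000000000000000) (nat_lit 0x0) (nat_lit 0x40001000100018000000000000000000000000000000) := T_29 (nat_lit 124) (nat_lit 123) (nat_lit 0) (nat_lit 8) (nat_lit 8) L84684 (by decide +kernel)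
theorem L84686 : W_29 (nat_lit 4) (nat_lit 0x10000000040007800200000001e00080000000000000000000000000000000) (nat_lit 0x0) (nat_lit 0x40007000100018000000000000000000000000000000) := T_29 (nat_lit 157) (nat_lit 158) (nat_lit 1) (nat_lit 8) (nat_lit 8) L84685 (by decide +kernel)
theorem L84687 : W_29 (nat_lit 5) (nat_lit 0x10000000040007800200000001a00080000000000000000000000000000000) (nat_lit 0x0) (nat_lit 0x40007000500118000000000000000000000000000000) := T_29 (nat_lit 142) (nat_lit 128) (nat_lit 2) (nat_lit 5) (nat_lit 8) L84686 (by decide +kernel)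
theorem L84688 : W_29 (nat_lit 6) (nat_lit 0x10000000040007800200000001200080000000000000000000000000000000) (nat_lit 0x0) (nat_lit 0x40017000d00118000000000000000000000000000000) := T_29 (nat_lit 143) (nat_lit 160) (nat_lit 6) (nat_lit 7) (nat_lit 11) L84687 (by decide +kernel)
theorem L84689 : W_29 (nat_lit 9) (nat_lit 0x10000000040007800200000001000080000000000000000000000000000000) (nat_lit 0x0) (nat_lit 0x3c0007000dc017000f0011c000000000000000000000000000000) := Q_29 (nat_lit 141) (C_29 L84666 (C_29 L84670 (C_29 L84676 (C_29 L84683 (C_29 L84688 N_29))))) (by decide +kernel)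
theorem L84719 : W_29 (nat_lit 2) (nat_lit 0x100000000500078002c0000001000080000000000000000000000000000000) (nat_lit 0x0) (nat_lit 0x200000000000000004000200000000000000000000000000000000000) := D_29 (nat_lit 158) (nat_lit 141) (nat_lit 225) (nat_lit 7) (nat_lit 5) (nat_lit 8) (nat_lit 6) (nat_lit 4) (nat_lit 13) (by decide +kernel)
theorem L84720 : W_29 (nat_lit 3) (nat_lit 0x10000000050007800240000001000080000000000000000000000000000000) (nat_lit 0x0) (nat_lit 0x200000008000080004000200000000000000000000000000000000000) := T_29 (nat_lit 175) (nat_lit 195) (nat_lit 0) (nat_lit 8) (nat_lit 11) L84719 (by decide +kernel)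
theorem L84721 : W_29 (nat_lit 4) (nat_lit 0x10000000050007800200000001000080000000000000000000000000000000) (nat_lit 0x0) (nat_lit 0x2000000080000e0004000200000000000000000000000000000000000) := T_29 (nat_lit 174) (nat_lit 173) (nat_lit 0) (nat_lit 7) (nat_lit 11) L84720 (by decide +kernel)
theorem L84722 : W_29 (nat_lit 5) (nat_lit 0x10000000050007000200000001000080000000000000000000000000000000) (nat_lit 0x0) (nat_lit 0x2000080088000e0004000200000000000000000000000000000000000) := T_29 (nat_lit 191) (nat_lit 207) (nat_lit 1) (nat_lit 7) (nat_lit 11) L84721 (by decide +kernel)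
theorem L84723 : W_29 (nat_lit 2) (nat_lit 0x1000040007000700028000e001000080000000000000000000000000000000) (nat_lit 0x0) (nat_lit 0x300008000000000000000000000000000000000000000000000000000000000000) := D_29 (nat_lit 243) (nat_lit 260) (nat_lit 261) (nat_lit 6) (nat_lit 5) (nat_lit 15) (nat_lit 7) (nat_lit 5) (nat_lit 11) (by decide +kernel)
theorem L84724 : W_29 (nat_lit 3) (nat_lit 0x1000000007000700028000e001000080000000000000000000000000000000) (nat_lit 0x0) (nat_lit 0x300008000400000000000040000000000000000000000000000000000000000000) := T_29 (nat_lit 226) (nat_lit 174) (nat_lit 4) (nat_lit 5) (nat_lit 13) L84723 (by decide +kernel)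
theorem L84725 : W_29 (nat_lit 4) (nat_lit 0x10000000070007000280006001000080000000000000000000000000000000) (nat_lit 0x0) (nat_lit 0x300008000400000000000040008000400000000000000000000000000000000000) := T_29 (nat_lit 159) (nat_lit 142) (nat_lit 6) (nat_lit 5) (nat_lit 12) L84724 (by decide +kernel)
theorem L84726 : W_29 (nat_lit 5) (nat_lit 0x10000000070007000280004001000080000000000000000000000000000000) (nat_lit 0x0) (nat_lit 0x30000800040000000000004000a000500000000000000000000000000000000000) := T_29 (nat_lit 157) (nat_lit 140) (nat_lit 4) (nat_lit 5) (nat_lit 12) L84725 (by decide +kernel)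
theorem L84727 : W_29 (nat_lit 6) (nat_lit 0x10000000050007000280004001000080000000000000000000000000000000) (nat_lit 0x0) (nat_lit 0x30000800060002000000004000a000500000000000000000000000000000000000) := T_29 (nat_lit 209) (nat_lit 225) (nat_lit 5) (nat_lit 5) (nat_lit 9) L84726 (by decide +kernel)
theorem L84728 : W_29 (nat_lit 7) (nat_lit 0x10000000050007000280000001000080000000000000000000000000000000) (nat_lit 0x0) (nat_lit 0x30000800060002000000004000e000700000000000000000000000000000000000) := T_29 (nat_lit 158) (nat_lit 141) (nat_lit 7) (nat_lit 5) (nat_lit 8) L84727 (by decide +kernel)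
theorem L84729 : W_29 (nat_lit 8) (nat_lit 0x10000000050007000200000001000080000000000000000000000000000000) (nat_lit 0x0) (nat_lit 0x3000080006000200088000f000e000700000000000000000000000000000000000) := Q_29 (nat_lit 175) (C_29 L84663 (C_29 L84728 (C_29 L84661 N_29))) (by decide +kernel)
theorem L84730 : W_29 (nat_lit 9) (nat_lit 0x10000000040007000200000001000080000000000000000000000000000000) (nat_lit 0x0) (nat_lit 0x3000080006000380088000f000e000700000000000000000000000000000000000) := Q_29 (nat_lit 208) (C_29 L84659 (C_29 L84658 (C_29 L84722 (C_29 L84729 N_29)))) (by decide +kernel)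
theorem L84731 : W_29 (nat_lit 2) (nat_lit 0x48007f00240010001000080000000000000000000000000000000) (nat_lit 0x0) (nat_lit 0x1c000000000000000000000000000000000000000000) := D_29 (nat_lit 171) (nat_lit 172) (nat_lit 170) (nat_lit 0) (nat_lit 5) (nat_lit 11) (nat_lit 0) (nat_lit 4) (nat_lit 11) (by decide +kernel)
theorem L84732 : W_29 (nat_lit 3) (nat_lit 0x48007e00240010001000080000000000000000000000000000000) (nat_lit 0x0) (nat_lit 0x10009c000000000000000000000000000000000000000000) := T_29 (nat_lit 188) (nat_lit 175) (nat_lit 2) (nat_lit 1) (nat_lit 11) L84731 (by decide +kernel)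
theorem L84733 : W_29 (nat_lit 4) (nat_lit 0x48007c00240010001000080000000000000000000000000000000) (nat_lit 0x0) (nat_lit 0x2000030009c000000000000000000000000000000000000000000) := T_29 (nat_lit 189) (nat_lit 209) (nat_lit 3) (nat_lit 2) (nat_lit 11) L84732 (by decide +kernel)
theorem L84734 : W_29 (nat_lit 4) (nat_lit 0x4000000012000f000200000001000080000000000000000000000000000000) (nat_lit 0x0) (nat_lit 0x100008000400100000c0004000000000000000000000000000000000000000) := T_29 (nat_lit 210) (nat_lit 196) (nat_lit 1) (nat_lit 9) (nat_lit 11) L79546 (by decide +kernel)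
theorem L84735 : W_29 (nat_lit 5) (nat_lit 0x12000f000200000001000080000000000000000000000000000000) (nat_lit 0x0) (nat_lit 0x500028000400100000c0004000000000000000000000000000000000000000) := T_29 (nat_lit 246) (nat_lit 229) (nat_lit 4) (nat_lit 8) (nat_lit 14) L84734 (by decide +kernel)
theorem L84736 : W_29 (nat_lit 6) (nat_lit 0x10000f000200000001000080000000000000000000000000000000) (nat_lit 0x0) (nat_lit 0x500028000700100000c0004000000000000000000000000000000000000000) := T_29 (nat_lit 209) (nat_lit 208) (nat_lit 1) (nat_lit 8) (nat_lit 11) L84735 (by decide +kernel)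
theorem L84737 : W_29 (nat_lit 7) (nat_lit 0xf000200000001000080000000000000000000000000000000) (nat_lit 0x0) (nat_lit 0x500028003700100000c0004000000000000000000000000000000000000000) := T_29 (nat_lit 212) (nat_lit 213) (nat_lit 3) (nat_lit 5) (nat_lit 11) L84736 (by decide +kernel)
theorem L84738 : W_29 (nat_lit 2) (nat_lit 0x10000fe00210010001000080000000000000000000000000000000) (nat_lit 0x0) (nat_lit 0xe000000000000000000000000000000000000000000000000000) := D_29 (nat_lit 206) (nat_lit 207) (nat_lit 205) (nat_lit 1) (nat_lit 6) (nat_lit 11) (nat_lit 1) (nat_lit 5) (nat_lit 11) (by decide +kernel)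
theorem L84739 : W_29 (nat_lit 3) (nat_lit 0x10000fc00210010001000080000000000000000000000000000000) (nat_lit 0x0) (nat_lit 0xe000200008000000000000000000000000000000000000000000) := T_29 (nat_lit 189) (nat_lit 171) (nat_lit 0) (nat_lit 5) (nat_lit 11) L84738 (by decide +kernel)
theorem L84740 : W_29 (nat_lit 4) (nat_lit 0xfc00210010001000080000000000000000000000000000000) (nat_lit 0x0) (nat_lit 0x30e000200008000000000000000000000000000000000000000000) := T_29 (nat_lit 212) (nat_lit 213) (nat_lit 3) (nat_lit 5) (nat_lit 11) L84739 (by decide +kernel)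
theorem L84741 : W_29 (nat_lit 5) (nat_lit 0xfc00200010001000080000000000000000000000000000000) (nat_lit 0x0) (nat_lit 0x30e000200038000000000000000000000000000000000000000000) := T_29 (nat_lit 172) (nat_lit 173) (nat_lit 0) (nat_lit 6) (nat_lit 11) L84740 (by decide +kernel)
theorem L84742 : W_29 (nat_lit 6) (nat_lit 0xfc00200000001000080000000000000000000000000000000) (nat_lit 0x0) (nat_lit 0x30e000200038010000800000000000000000000000000000000000) := T_29 (nat_lit 160) (nat_lit 143) (nat_lit 6) (nat_lit 7) (nat_lit 11) L84741 (by decide +kernel)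
theorem L84743 : W_29 (nat_lit 2) (nat_lit 0x1f000200000001000080000000000000000000000000000000) (nat_lit 0x0) (nat_lit 0x700000000000000000000000000000000000000000000000000000) := D_29 (nat_lit 213) (nat_lit 214) (nat_lit 212) (nat_lit 3) (nat_lit 6) (nat_lit 11) (nat_lit 3) (nat_lit 5) (nat_lit 11) (by decide +kernel)
theorem L84744 : W_29 (nat_lit 2) (nat_lit 0x3f001280010001000080000000000000000000000000000000) (nat_lit 0x0) (nat_lit 0xe00000000000000000000000000000000000000000000000000000) := D_29 (nat_lit 214) (nat_lit 213) (nat_lit 215) (nat_lit 3) (nat_lit 6) (nat_lit 11) (nat_lit 3) (nat_lit 7) (nat_lit 11) (by decide +kernel)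
theorem L84745 : W_29 (nat_lit 3) (nat_lit 0x1f001280010001000080000000000000000000000000000000) (nat_lit 0x0) (nat_lit 0xe00020002000000000000000000000000000000000000000000000) := T_29 (nat_lit 197) (nat_lit 181) (nat_lit 2) (nat_lit 7) (nat_lit 11) L84744 (by decide +kernel)
theorem L84746 : W_29 (nat_lit 4) (nat_lit 0x1f001200010001000080000000000000000000000000000000) (nat_lit 0x0) (nat_lit 0xe000200020c0000000000000000000000000000000000000000000) := T_29 (nat_lit 175) (nat_lit 174) (nat_lit 0) (nat_lit 8) (nat_lit 11) L84745 (by decide +kernel)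
theorem L84747 : W_29 (nat_lit 5) (nat_lit 0x1f000200010001000080000000000000000000000000000000) (nat_lit 0x0) (nat_lit 0xe000200038c0000000000000000000000000000000000000000000) := T_29 (nat_lit 180) (nat_lit 179) (nat_lit 2) (nat_lit 6) (nat_lit 11) L84746 (by decide +kernel)
theorem L84748 : W_29 (nat_lit 6) (nat_lit 0x1f000200000001000080000000000000000000000000000000) (nat_lit 0x0) (nat_lit 0xe000200038c0010000800000000000000000000000000000000000) := T_29 (nat_lit 160) (nat_lit 143) (nat_lit 6) (nat_lit 7) (nat_lit 11) L84747 (by decide +kernel)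
theorem L84749 : W_29 (nat_lit 2) (nat_lit 0x1f000280000001e00080000000000000000000000000000000) (nat_lit 0x0) (nat_lit 0x40000000000006000000000000000000000000000000000000000) := D_29 (nat_lit 158) (nat_lit 157) (nat_lit 210) (nat_lit 1) (nat_lit 8) (nat_lit 8) (nat_lit 7) (nat_lit 5) (nat_lit 8) (by decide +kernel)
theorem L84750 : W_29 (nat_lit 3) (nat_lit 0x1f000280000001a00080000000000000000000000000000000) (nat_lit 0x0) (nat_lit 0x40000000000006000400100000000000000000000000000000000) := T_29 (nat_lit 142) (nat_lit 128) (nat_lit 2) (nat_lit 5) (nat_lit 8) L84749 (by decide +kernel)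
theorem L84751 : W_29 (nat_lit 4) (nat_lit 0x1f000200000001a00080000000000000000000000000000000) (nat_lit 0x0) (nat_lit 0x400000000c0006000400100000000000000000000000000000000) := T_29 (nat_lit 175) (nat_lit 174) (nat_lit 0) (nat_lit 8) (nat_lit 11) L84750 (by decide +kernel)
theorem L84752 : W_29 (nat_lit 2) (nat_lit 0x1f000a80004001a00080000000000000000000000000000000) (nat_lit 0x0) (nat_lit 0x2000400020000000000000000000000000000000) := D_29 (nat_lit 142) (nat_lit 125) (nat_lit 157) (nat_lit 6) (nat_lit 5) (nat_lit 11) (nat_lit 1) (nat_lit 8) (nat_lit 8) (by decide +kernel)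
theorem L84753 : W_29 (nat_lit 3) (nat_lit 0x1f000a80000001a00080000000000000000000000000000000) (nat_lit 0x0) (nat_lit 0x40000000000006000400020000000000000000000000000000000) := T_29 (nat_lit 158) (nat_lit 210) (nat_lit 7) (nat_lit 5) (nat_lit 8) L84752 (by decide +kernel)
theorem L84754 : W_29 (nat_lit 4) (nat_lit 0x1f000280000001a00080000000000000000000000000000000) (nat_lit 0x0) (nat_lit 0x40000001800006000400020000000000000000000000000000000) := T_29 (nat_lit 179) (nat_lit 180) (nat_lit 2) (nat_lit 6) (nat_lit 11) L84753 (by decide +kernel)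
theorem L84755 : W_29 (nat_lit 5) (nat_lit 0x1f000200000001a00080000000000000000000000000000000) (nat_lit 0x0) (nat_lit 0x400000018c0006000400020000000000000000000000000000000) := T_29 (nat_lit 175) (nat_lit 174) (nat_lit 0) (nat_lit 8) (nat_lit 11) L84754 (by decide +kernel)
theorem L84756 : W_29 (nat_lit 2) (nat_lit 0x801f800240000001f00088000000000000000000000000000000) (nat_lit 0x0) (nat_lit 0x400000003000000000000000000000000000000000000000) := D_29 (nat_lit 157) (nat_lit 156) (nat_lit 190) (nat_lit 1) (nat_lit 7) (nat_lit 8) (nat_lit 5) (nat_lit 4) (nat_lit 8) (by decide +kernel)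
theorem L84757 : W_29 (nat_lit 3) (nat_lit 0x1f800240000001f00088000000000000000000000000000000) (nat_lit 0x0) (nat_lit 0x18000400000003000000000000000000000000000000000000000) := T_29 (nat_lit 207) (nat_lit 208) (nat_lit 1) (nat_lit 7) (nat_lit 11) L84756 (by decide +kernel)
theorem L84758 : W_29 (nat_lit 4) (nat_lit 0x1f800240000001e00088000000000000000000000000000000) (nat_lit 0x0) (nat_lit 0x18000400000003000100004000000000000000000000000000000) := T_29 (nat_lit 140) (nat_lit 122) (nat_lit 0) (nat_lit 7) (nat_lit 8) L84757 (by decide +kernel)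
theorem L84759 : W_29 (nat_lit 5) (nat_lit 0x1f000240000001e00088000000000000000000000000000000) (nat_lit 0x0) (nat_lit 0x18000c00020003000100004000000000000000000000000000000) := T_29 (nat_lit 191) (nat_lit 173) (nat_lit 0) (nat_lit 7) (nat_lit 11) L84758 (by decide +kernel)
theorem L84760 : W_29 (nat_lit 6) (nat_lit 0x1f000240000001e00080000000000000000000000000000000) (nat_lit 0x0) (nat_lit 0x18000c0002000300010001c000000000000000000000000000000) := T_29 (nat_lit 123) (nat_lit 124) (nat_lit 0) (nat_lit 8) (nat_lit 8) L84759 (by decide +kernel)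
theorem L84761 : W_29 (nat_lit 7) (nat_lit 0x1f000240000001a00080000000000000000000000000000000) (nat_lit 0x0) (nat_lit 0x18000c0002000300050011c000000000000000000000000000000) := T_29 (nat_lit 142) (nat_lit 128) (nat_lit 2) (nat_lit 5) (nat_lit 8) L84760 (by decide +kernel)
theorem L84762 : W_29 (nat_lit 8) (nat_lit 0x1f000200000001a00080000000000000000000000000000000) (nat_lit 0x0) (nat_lit 0x18000c000e000300050011c000000000000000000000000000000) := T_29 (nat_lit 174) (nat_lit 175) (nat_lit 0) (nat_lit 8) (nat_lit 11) L84761 (by decide +kernel)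
theorem L84763 : W_29 (nat_lit 2) (nat_lit 0x1f000200002001e00088000000000000000000000000000000) (nat_lit 0x0) (nat_lit 0x1000100004000000000000000000000000000000) := D_29 (nat_lit 140) (nat_lit 156) (nat_lit 122) (nat_lit 1) (nat_lit 7) (nat_lit 8) (nat_lit 0) (nat_lit 7) (nat_lit 8) (by decide +kernel)
theorem L84764 : W_29 (nat_lit 3) (nat_lit 0x1f000200002001e00080000000000000000000000000000000) (nat_lit 0x0) (nat_lit 0x100010001c000000000000000000000000000000) := T_29 (nat_lit 123) (nat_lit 124) (nat_lit 0) (nat_lit 8) (nat_lit 8) L84763 (by decide +kernel)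
theorem L84765 : W_29 (nat_lit 4) (nat_lit 0x1f000200000001e00080000000000000000000000000000000) (nat_lit 0x0) (nat_lit 0x700010001c000000000000000000000000000000) := T_29 (nat_lit 157) (nat_lit 158) (nat_lit 1) (nat_lit 8) (nat_lit 8) L84764 (by decide +kernel)
theorem L84766 : W_29 (nat_lit 5) (nat_lit 0x1f000200000001a00080000000000000000000000000000000) (nat_lit 0x0) (nat_lit 0x700050011c000000000000000000000000000000) := T_29 (nat_lit 142) (nat_lit 128) (nat_lit 2) (nat_lit 5) (nat_lit 8) L84765 (by decide +kernel)
theorem L84767 : W_29 (nat_lit 2) (nat_lit 0x1001f800a40002001b00080000000000000000000000000000000) (nat_lit 0x0) (nat_lit 0x1000080004000000000000000000000000000000) := D_29 (nat_lit 139) (nat_lit 122) (nat_lit 156) (nat_lit 4) (nat_lit 4) (nat_lit 11) (nat_lit 4) (nat_lit 4) (nat_lit 12) (by decide +kernel)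
theorem L84768 : W_29 (nat_lit 3) (nat_lit 0x1001f800a40002001a00080000000000000000000000000000000) (nat_lit 0x0) (nat_lit 0x1000180014000000000000000000000000000000) := T_29 (nat_lit 140) (nat_lit 124) (nat_lit 6) (nat_lit 4) (nat_lit 11) L84767 (by decide +kernel)
theorem L84769 : W_29 (nat_lit 4) (nat_lit 0x1001f800a40000001a00080000000000000000000000000000000) (nat_lit 0x0) (nat_lit 0x7000180014000000000000000000000000000000) := T_29 (nat_lit 157) (nat_lit 158) (nat_lit 6) (nat_lit 4) (nat_lit 12) L84768 (by decide +kernel)
theorem L84770 : W_29 (nat_lit 5) (nat_lit 0x1f800a40000001a00080000000000000000000000000000000) (nat_lit 0x0) (nat_lit 0x18000000000007000180014000000000000000000000000000000) := T_29 (nat_lit 208) (nat_lit 207) (nat_lit 1) (nat_lit 7) (nat_lit 11) L84769 (by decide +kernel)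
theorem L84771 : W_29 (nat_lit 6) (nat_lit 0x1f000a40000001a00080000000000000000000000000000000) (nat_lit 0x0) (nat_lit 0x18000800020007000180014000000000000000000000000000000) := T_29 (nat_lit 191) (nat_lit 173) (nat_lit 0) (nat_lit 7) (nat_lit 11) L84770 (by decide +kernel)
theorem L84772 : W_29 (nat_lit 7) (nat_lit 0x1f000a00000001a00080000000000000000000000000000000) (nat_lit 0x0) (nat_lit 0x180008000e0007000180014000000000000000000000000000000) := T_29 (nat_lit 174) (nat_lit 175) (nat_lit 0) (nat_lit 8) (nat_lit 11) L84771 (by decide +kernel)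
theorem L84773 : W_29 (nat_lit 8) (nat_lit 0x1f000200000001a00080000000000000000000000000000000) (nat_lit 0x0) (nat_lit 0x180008018e0007000180014000000000000000000000000000000) := T_29 (nat_lit 179) (nat_lit 180) (nat_lit 2) (nat_lit 6) (nat_lit 11) L84772 (by decide +kernel)
theorem L84774 : W_29 (nat_lit 2) (nat_lit 0x1f000280000001e00080000000000000000000000000000000) (nat_lit 0x0) (nat_lit 0x40000000000004000000020000000000000000000000000000000) := D_29 (nat_lit 158) (nat_lit 210) (nat_lit 125) (nat_lit 7) (nat_lit 5) (nat_lit 8) (nat_lit 6) (nat_lit 5) (nat_lit 11) (by decide +kernel)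
theorem L84775 : W_29 (nat_lit 3) (nat_lit 0x1f000280000001a00080000000000000000000000000000000) (nat_lit 0x0) (nat_lit 0x40000000000004000400120000000000000000000000000000000) := T_29 (nat_lit 142) (nat_lit 128) (nat_lit 2) (nat_lit 5) (nat_lit 8) L84774 (by decide +kernel)
theorem L84776 : W_29 (nat_lit 4) (nat_lit 0x1f000200000001a00080000000000000000000000000000000) (nat_lit 0x0) (nat_lit 0x400000000c0004000400120000000000000000000000000000000) := T_29 (nat_lit 175) (nat_lit 174) (nat_lit 0) (nat_lit 8) (nat_lit 11) L84775 (by decide +kernel)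
theorem L84777 : W_29 (nat_lit 9) (nat_lit 0x1f000200000001800080000000000000000000000000000000) (nat_lit 0x0) (nat_lit 0x58000c018e000700078013c000000000000000000000000000000) := Q_29 (nat_lit 141) (C_29 L84751 (C_29 L84755 (C_29 L84762 (C_29 L84766 (C_29 L84773 (C_29 L84776 N_29)))))) (by decide +kernel)
theorem L84778 : W_29 (nat_lit 10) (nat_lit 0x1f000200000001000080000000000000000000000000000000) (nat_lit 0x0) (nat_lit 0x58000c018e0017000f8013c000000000000000000000000000000) := T_29 (nat_lit 143) (nat_lit 160) (nat_lit 6) (nat_lit 7) (nat_lit 11) L84777 (by decide +kernel)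
theorem L84779 : W_29 (nat_lit 11) (nat_lit 0xf000200000001000080000000000000000000000000000000) (nat_lit 0x0) (nat_lit 0xf58030c038e0017000f8013c000000000000000000000000000000) := Q_29 (nat_lit 196) (C_29 L84743 (C_29 L84748 (C_29 L84778 N_29))) (by decide +kernel)
theorem L84780 : W_29 (nat_lit 2) (nat_lit 0x1000000004001f000a40002001f00088000000000000000000000000000000) (nat_lit 0x0) (nat_lit 0xc00020000000000000000000000000000000000000000000) := D_29 (nat_lit 173) (nat_lit 191) (nat_lit 190) (nat_lit 0) (nat_lit 7) (nat_lit 11) (nat_lit 5) (nat_lit 4) (nat_lit 7) (by decide +kernel)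
theorem L84781 : W_29 (nat_lit 3) (nat_lit 0x1000000004001f000a00002001f00088000000000000000000000000000000) (nat_lit 0x0) (nat_lit 0xc000e0000000000000000000000000000000000000000000) := T_29 (nat_lit 174) (nat_lit 175) (nat_lit 0) (nat_lit 8) (nat_lit 11) L84780 (by decide +kernel)
theorem L84782 : W_29 (nat_lit 4) (nat_lit 0x1000000004001f000a00000001f00088000000000000000000000000000000) (nat_lit 0x0) (nat_lit 0xc000e0003000000000000000000000000000000000000000) := T_29 (nat_lit 157) (nat_lit 156) (nat_lit 1) (nat_lit 7) (nat_lit 8) L84781 (by decide +kernel)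
theorem L84783 : W_29 (nat_lit 5) (nat_lit 0x4001f000a00000001f00088000000000000000000000000000000) (nat_lit 0x0) (nat_lit 0x10000800000000c000e0003000000000000000000000000000000000000000) := T_29 (nat_lit 244) (nat_lit 227) (nat_lit 6) (nat_lit 6) (nat_lit 14) L84782 (by decide +kernel)
theorem L84784 : W_29 (nat_lit 6) (nat_lit 0x4001f000a00000001e00088000000000000000000000000000000) (nat_lit 0x0) (nat_lit 0x10000800000000c000e0003000100004000000000000000000000000000000) := T_29 (nat_lit 140) (nat_lit 122) (nat_lit 0) (nat_lit 7) (nat_lit 8) L84783 (by decide +kernel)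
theorem L84785 : W_29 (nat_lit 7) (nat_lit 0x1f000a00000001e00088000000000000000000000000000000) (nat_lit 0x0) (nat_lit 0x10000800060000c000e0003000100004000000000000000000000000000000) := T_29 (nat_lit 210) (nat_lit 209) (nat_lit 1) (nat_lit 9) (nat_lit 11) L84784 (by decide +kernel)
theorem L84786 : W_29 (nat_lit 8) (nat_lit 0x1f000a00000001e00080000000000000000000000000000000) (nat_lit 0x0) (nat_lit 0x10000800060000c000e000300010001c000000000000000000000000000000) := T_29 (nat_lit 123) (nat_lit 124) (nat_lit 0) (nat_lit 8) (nat_lit 8) L84785 (by decide +kernel)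
theorem L84787 : W_29 (nat_lit 9) (nat_lit 0x1f000a00000001a00080000000000000000000000000000000) (nat_lit 0x0) (nat_lit 0x10000800060000c000e000300050011c000000000000000000000000000000) := T_29 (nat_lit 142) (nat_lit 128) (nat_lit 2) (nat_lit 5) (nat_lit 8) L84786 (by decide +kernel)
theorem L84788 : W_29 (nat_lit 10) (nat_lit 0x1f000200000001a00080000000000000000000000000000000) (nat_lit 0x0) (nat_lit 0x10000800060000c018e000300050011c000000000000000000000000000000) := T_29 (nat_lit 179) (nat_lit 180) (nat_lit 2) (nat_lit 6) (nat_lit 11) L84787 (by decide +kernel)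
theorem L84789 : W_29 (nat_lit 2) (nat_lit 0x1f000a80000001a00080000000000000000000000000000000) (nat_lit 0x0) (nat_lit 0x60000000000004000000000000000000000000000000000000000) := D_29 (nat_lit 210) (nat_lit 209) (nat_lit 158) (nat_lit 1) (nat_lit 9) (nat_lit 11) (nat_lit 7) (nat_lit 5) (nat_lit 8) (by decide +kernel)
theorem L84790 : W_29 (nat_lit 3) (nat_lit 0x1f000a00000001a00080000000000000000000000000000000) (nat_lit 0x0) (nat_lit 0x600000000c0004000000000000000000000000000000000000000) := T_29 (nat_lit 175) (nat_lit 174) (nat_lit 0) (nat_lit 8) (nat_lit 11) L84789 (by decide +kernel)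
theorem L84791 : W_29 (nat_lit 4) (nat_lit 0x1f000200000001a00080000000000000000000000000000000) (nat_lit 0x0) (nat_lit 0x600000018c0004000000000000000000000000000000000000000) := T_29 (nat_lit 179) (nat_lit 180) (nat_lit 2) (nat_lit 6) (nat_lit 11) L84790 (by decide +kernel)
theorem L84792 : W_29 (nat_lit 11) (nat_lit 0x1f000200000001800080000000000000000000000000000000) (nat_lit 0x0) (nat_lit 0x10000800060000c018e000700070013c000000000000000000000000000000) := Q_29 (nat_lit 141) (C_29 L84776 (C_29 L84755 (C_29 L84788 (C_29 L84766 (C_29 L84791 N_29))))) (by decide +kernel)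
theorem L84793 : W_29 (nat_lit 12) (nat_lit 0x1f000200000001000080000000000000000000000000000000) (nat_lit 0x0) (nat_lit 0x10000800060000c018e0017000f0013c000000000000000000000000000000) := T_29 (nat_lit 143) (nat_lit 160) (nat_lit 6) (nat_lit 7) (nat_lit 11) L84792 (by decide +kernel)
theorem L84794 : W_29 (nat_lit 13) (nat_lit 0xf000200000001000080000000000000000000000000000000) (nat_lit 0x0) (nat_lit 0x10000800f60030c038e0017000f0013c000000000000000000000000000000) := Q_29 (nat_lit 196) (C_29 L84743 (C_29 L84748 (C_29 L84793 N_29))) (by decide +kernel)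
theorem L84803 : W_29 (nat_lit 3) (nat_lit 0x4001e000200000001000080000000000000000000000000000000) (nat_lit 0x0) (nat_lit 0x20003900000000000000000000000000000000000000000000) := T_29 (nat_lit 197) (nat_lit 176) (nat_lit 0) (nat_lit 10) (nat_lit 11) L10061 (by decide +kernel)
theorem L84804 : W_29 (nat_lit 4) (nat_lit 0x1e000200000001000080000000000000000000000000000000) (nat_lit 0x0) (nat_lit 0x60020003900000000000000000000000000000000000000000000) := T_29 (nat_lit 210) (nat_lit 209) (nat_lit 1) (nat_lit 9) (nat_lit 11) L84803 (by decide +kernel)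
theorem L84806 : W_29 (nat_lit 2) (nat_lit 0x11000f800220010001000080000000000000000000000000000000) (nat_lit 0x0) (nat_lit 0x400110000000000000000000000000000000000000000000) := D_29 (nat_lit 190) (nat_lit 176) (nat_lit 172) (nat_lit 2) (nat_lit 3) (nat_lit 11) (nat_lit 0) (nat_lit 6) (nat_lit 11) (by decide +kernel)
theorem L84807 : W_29 (nat_lit 3) (nat_lit 0x11000f800200010001000080000000000000000000000000000000) (nat_lit 0x0) (nat_lit 0x400170000000000000000000000000000000000000000000) := T_29 (nat_lit 173) (nat_lit 174) (nat_lit 0) (nat_lit 7) (nat_lit 11) L84806 (by decide +kernel)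
theorem L84808 : W_29 (nat_lit 4) (nat_lit 0x11000f000200010001000080000000000000000000000000000000) (nat_lit 0x0) (nat_lit 0x8000c00170000000000000000000000000000000000000000000) := T_29 (nat_lit 191) (nat_lit 207) (nat_lit 1) (nat_lit 7) (nat_lit 11) L84807 (by decide +kernel)
theorem L84809 : W_29 (nat_lit 5) (nat_lit 0x1000f000200010001000080000000000000000000000000000000) (nat_lit 0x0) (nat_lit 0x308000c00170000000000000000000000000000000000000000000) := T_29 (nat_lit 212) (nat_lit 213) (nat_lit 3) (nat_lit 5) (nat_lit 11) L84808 (by decide +kernel)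
theorem L84810 : W_29 (nat_lit 6) (nat_lit 0xf000200010001000080000000000000000000000000000000) (nat_lit 0x0) (nat_lit 0x338000c00170000000000000000000000000000000000000000000) := T_29 (nat_lit 208) (nat_lit 209) (nat_lit 1) (nat_lit 8) (nat_lit 11) L84809 (by decide +kernel)
theorem L84811 : W_29 (nat_lit 7) (nat_lit 0xf000200000001000080000000000000000000000000000000) (nat_lit 0x0) (nat_lit 0x338000c00170010000800000000000000000000000000000000000) := T_29 (nat_lit 160) (nat_lit 143) (nat_lit 6) (nat_lit 7) (nat_lit 11) L84810 (by decide +kernel)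
theorem L84812 : W_29 (nat_lit 2) (nat_lit 0x80014000f000200000001000080000000000000000000000000000000) (nat_lit 0x0) (nat_lit 0x100010000800000000000000000000000000000000000) := D_29 (nat_lit 160) (nat_lit 143) (nat_lit 176) (nat_lit 7) (nat_lit 7) (nat_lit 8) (nat_lit 6) (nat_lit 6) (nat_lit 13) (by decide +kernel)
theorem L84813 : W_29 (nat_lit 3) (nat_lit 0x14000f000200000001000080000000000000000000000000000000) (nat_lit 0x0) (nat_lit 0x10000800000000000100010000800000000000000000000000000000000000) := T_29 (nat_lit 227) (nat_lit 244) (nat_lit 6) (nat_lit 6) (nat_lit 14) L84812 (by decide +kernel)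
theorem L84814 : W_29 (nat_lit 4) (nat_lit 0x4000f000200000001000080000000000000000000000000000000) (nat_lit 0x0) (nat_lit 0x10000800300000000100010000800000000000000000000000000000000000) := T_29 (nat_lit 212) (nat_lit 213) (nat_lit 3) (nat_lit 5) (nat_lit 11) L84813 (by decide +kernel)
theorem L84815 : W_29 (nat_lit 2) (nat_lit 0x4000080016000f000300004001000080000000000000000000000000000000) (nat_lit 0x0) (nat_lit 0x8000400000000000000008000000000000000000000000000000000000000) := D_29 (nat_lit 226) (nat_lit 243) (nat_lit 159) (nat_lit 6) (nat_lit 5) (nat_lit 14) (nat_lit 5) (nat_lit 6) (nat_lit 9) (by decide +kernel)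
theorem L84816 : W_29 (nat_lit 3) (nat_lit 0x4000080016000f000200004001000080000000000000000000000000000000) (nat_lit 0x0) (nat_lit 0x8000400000000000100018000000000000000000000000000000000000000) := T_29 (nat_lit 176) (nat_lit 160) (nat_lit 6) (nat_lit 6) (nat_lit 13) L84815 (by decide +kernel)
theorem L84817 : W_29 (nat_lit 4) (nat_lit 0x80016000f000200004001000080000000000000000000000000000000) (nat_lit 0x0) (nat_lit 0x48002400000000000100018000000000000000000000000000000000000000) := T_29 (nat_lit 246) (nat_lit 229) (nat_lit 4) (nat_lit 8) (nat_lit 14) L84816 (by decide +kernel)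
theorem L84818 : W_29 (nat_lit 5) (nat_lit 0x80016000f000200000001000080000000000000000000000000000000) (nat_lit 0x0) (nat_lit 0x4800240000000000018001c000000000000000000000000000000000000000) := T_29 (nat_lit 158) (nat_lit 175) (nat_lit 7) (nat_lit 5) (nat_lit 9) L84817 (by decide +kernel)
theorem L84819 : W_29 (nat_lit 6) (nat_lit 0x80006000f000200000001000080000000000000000000000000000000) (nat_lit 0x0) (nat_lit 0x4800240030000000018001c000000000000000000000000000000000000000) := T_29 (nat_lit 212) (nat_lit 213) (nat_lit 3) (nat_lit 5) (nat_lit 11) L84818 (by decide +kernel)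
theorem L84820 : W_29 (nat_lit 7) (nat_lit 0x6000f000200000001000080000000000000000000000000000000) (nat_lit 0x0) (nat_lit 0x58002c0030000000018001c000000000000000000000000000000000000000) := T_29 (nat_lit 227) (nat_lit 244) (nat_lit 6) (nat_lit 6) (nat_lit 14) L84819 (by decide +kernel)
theorem L84821 : W_29 (nat_lit 8) (nat_lit 0x4000f000200000001000080000000000000000000000000000000) (nat_lit 0x0) (nat_lit 0x58002c0033000000018001c000000000000000000000000000000000000000) := T_29 (nat_lit 209) (nat_lit 208) (nat_lit 1) (nat_lit 8) (nat_lit 11) L84820 (by decide +kernel)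
theorem L84822 : W_29 (nat_lit 2) (nat_lit 0x800f800200010001000080000000000000000000000000000000) (nat_lit 0x0) (nat_lit 0x4000400100000000000000000000000000000000000000000000) := D_29 (nat_lit 190) (nat_lit 176) (nat_lit 206) (nat_lit 2) (nat_lit 3) (nat_lit 11) (nat_lit 1) (nat_lit 6) (nat_lit 11) (by decide +kernel)
theorem L84823 : W_29 (nat_lit 3) (nat_lit 0xf800200010001000080000000000000000000000000000000) (nat_lit 0x0) (nat_lit 0x1c000400100000000000000000000000000000000000000000000) := T_29 (nat_lit 207) (nat_lit 208) (nat_lit 1) (nat_lit 7) (nat_lit 11) L84822 (by decide +kernel)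
theorem L84824 : W_29 (nat_lit 4) (nat_lit 0xf800200000001000080000000000000000000000000000000) (nat_lit 0x0) (nat_lit 0x1c000400100010000800000000000000000000000000000000000) := T_29 (nat_lit 160) (nat_lit 143) (nat_lit 6) (nat_lit 7) (nat_lit 11) L84823 (by decide +kernel)
theorem L84825 : W_29 (nat_lit 7) (nat_lit 0xf800200000001000080000000000000000000000000000000) (nat_lit 0x0) (nat_lit 0x30e000600138010000800000000000000000000000000000000000) := T_29 (nat_lit 190) (nat_lit 176) (nat_lit 2) (nat_lit 3) (nat_lit 11) L84742 (by decide +kernel)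
theorem L84826 : W_29 (nat_lit 2) (nat_lit 0x2000fc00210010001000080000000000000000000000000000000) (nat_lit 0x0) (nat_lit 0x40000200008000000000000000000000000000000000000000000) := D_29 (nat_lit 189) (nat_lit 210) (nat_lit 171) (nat_lit 3) (nat_lit 2) (nat_lit 11) (nat_lit 0) (nat_lit 5) (nat_lit 11) (by decide +kernel)
theorem L84827 : W_29 (nat_lit 3) (nat_lit 0x2000fc00200010001000080000000000000000000000000000000) (nat_lit 0x0) (nat_lit 0x40000200038000000000000000000000000000000000000000000) := T_29 (nat_lit 172) (nat_lit 173) (nat_lit 0) (nat_lit 6) (nat_lit 11) L84826 (by decide +kernel)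
theorem L84828 : W_29 (nat_lit 4) (nat_lit 0x2000f800200010001000080000000000000000000000000000000) (nat_lit 0x0) (nat_lit 0x40000600138000000000000000000000000000000000000000000) := T_29 (nat_lit 190) (nat_lit 176) (nat_lit 2) (nat_lit 3) (nat_lit 11) L84827 (by decide +kernel)
theorem L84829 : W_29 (nat_lit 5) (nat_lit 0xf800200010001000080000000000000000000000000000000) (nat_lit 0x0) (nat_lit 0x70000600138000000000000000000000000000000000000000000) := T_29 (nat_lit 209) (nat_lit 208) (nat_lit 1) (nat_lit 8) (nat_lit 11) L84828 (by decide +kernel)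
theorem L84830 : W_29 (nat_lit 6) (nat_lit 0xf800200000001000080000000000000000000000000000000) (nat_lit 0x0) (nat_lit 0x70000600138010000800000000000000000000000000000000000) := T_29 (nat_lit 160) (nat_lit 143) (nat_lit 6) (nat_lit 7) (nat_lit 11) L84829 (by decide +kernel)
theorem L84831 : W_29 (nat_lit 8) (nat_lit 0xf000200000001000080000000000000000000000000000000) (nat_lit 0x0) (nat_lit 0x37e000e00138010000800000000000000000000000000000000000) := Q_29 (nat_lit 191) (C_29 L20384 (C_29 L84824 (C_29 L84825 (C_29 L84830 N_29)))) (by decide +kernel)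
theorem L84832 : W_29 (nat_lit 2) (nat_lit 0x4000000016000f00038000c001800080000000000000000000000000000000) (nat_lit 0x0) (nat_lit 0x3000100000000000000000000000000000000000) := D_29 (nat_lit 157) (nat_lit 156) (nat_lit 140) (nat_lit 3) (nat_lit 3) (nat_lit 9) (nat_lit 4) (nat_lit 5) (nat_lit 12) (by decide +kernel)
theorem L84833 : W_29 (nat_lit 3) (nat_lit 0x4000000016000f00028000c001800080000000000000000000000000000000) (nat_lit 0x0) (nat_lit 0x400000000000100003000100000000000000000000000000000000000) := T_29 (nat_lit 176) (nat_lit 226) (nat_lit 6) (nat_lit 5) (nat_lit 13) L84832 (by decide +kernel)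
theorem L84834 : W_29 (nat_lit 4) (nat_lit 0x4000000016000f000280004001800080000000000000000000000000000000) (nat_lit 0x0) (nat_lit 0x40000000000010000b000500000000000000000000000000000000000) := T_29 (nat_lit 159) (nat_lit 142) (nat_lit 6) (nat_lit 5) (nat_lit 12) L84833 (by decide +kernel)
theorem L84835 : W_29 (nat_lit 5) (nat_lit 0x4000000016000f000280000001800080000000000000000000000000000000) (nat_lit 0x0) (nat_lit 0x40000000000010000f000700000000000000000000000000000000000) := T_29 (nat_lit 158) (nat_lit 141) (nat_lit 7) (nat_lit 5) (nat_lit 8) L84834 (by decide +kernel)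
theorem L84836 : W_29 (nat_lit 6) (nat_lit 0x4000000016000f000200000001800080000000000000000000000000000000) (nat_lit 0x0) (nat_lit 0x4000000000001c000f000700000000000000000000000000000000000) := T_29 (nat_lit 175) (nat_lit 174) (nat_lit 0) (nat_lit 8) (nat_lit 11) L84835 (by decide +kernel)
theorem L84837 : W_29 (nat_lit 7) (nat_lit 0x16000f000200000001800080000000000000000000000000000000) (nat_lit 0x0) (nat_lit 0x400024000000000001c000f000700000000000000000000000000000000000) := T_29 (nat_lit 246) (nat_lit 229) (nat_lit 4) (nat_lit 8) (nat_lit 14) L84836 (by decide +kernel)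
theorem L84838 : W_29 (nat_lit 8) (nat_lit 0x14000f000200000001800080000000000000000000000000000000) (nat_lit 0x0) (nat_lit 0x400024000300000001c000f000700000000000000000000000000000000000) := T_29 (nat_lit 209) (nat_lit 208) (nat_lit 1) (nat_lit 8) (nat_lit 11) L84837 (by decide +kernel)
theorem L84839 : W_29 (nat_lit 9) (nat_lit 0x14000f000200000001000080000000000000000000000000000000) (nat_lit 0x0) (nat_lit 0x400024000300000001c001f000f00000000000000000000000000000000000) := T_29 (nat_lit 143) (nat_lit 160) (nat_lit 7) (nat_lit 7) (nat_lit 8) L84838 (by decide +kernel)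
theorem L84840 : W_29 (nat_lit 10) (nat_lit 0x4000f000200000001000080000000000000000000000000000000) (nat_lit 0x0) (nat_lit 0x400024003300000001c001f000f00000000000000000000000000000000000) := T_29 (nat_lit 212) (nat_lit 213) (nat_lit 3) (nat_lit 5) (nat_lit 11) L84839 (by decide +kernel)
theorem L84841 : W_29 (nat_lit 11) (nat_lit 0xf000200000001000080000000000000000000000000000000) (nat_lit 0x0) (nat_lit 0x58002c003700000001c001f000f00000000000000000000000000000000000) := Q_29 (nat_lit 210) (C_29 L80195 (C_29 L84821 (C_29 L84814 (C_29 L84840 N_29)))) (by decide +kernel)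
theorem L84842 : W_29 (nat_lit 2) (nat_lit 0x4000f000300000001000080000000000000000000000000000000) (nat_lit 0x0) (nat_lit 0x10000800000000000000010000000000000000000000000000000000000000) := D_29 (nat_lit 227) (nat_lit 244) (nat_lit 160) (nat_lit 6) (nat_lit 6) (nat_lit 14) (nat_lit 6) (nat_lit 6) (nat_lit 13) (by decide +kernel)
theorem L84843 : W_29 (nat_lit 2) (nat_lit 0x40001c0014000f000300004001000080000000000000000000000000000000) (nat_lit 0x0) (nat_lit 0x20000000000008000200000000000000000000000000000000000) := D_29 (nat_lit 159) (nat_lit 209) (nat_lit 141) (nat_lit 5) (nat_lit 6) (nat_lit 9) (nat_lit 4) (nat_lit 6) (nat_lit 12) (by decide +kernel)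
theorem L84844 : W_29 (nat_lit 3) (nat_lit 0x4000180014000f000300004001000080000000000000000000000000000000) (nat_lit 0x0) (nat_lit 0x8000400020000000000008000200000000000000000000000000000000000) := T_29 (nat_lit 226) (nat_lit 243) (nat_lit 5) (nat_lit 6) (nat_lit 10) L84843 (by decide +kernel)
theorem L84845 : W_29 (nat_lit 4) (nat_lit 0x4000180014000f000300000001000080000000000000000000000000000000) (nat_lit 0x0) (nat_lit 0x800040002000000008000c000200000000000000000000000000000000000) := T_29 (nat_lit 158) (nat_lit 175) (nat_lit 4) (nat_lit 6) (nat_lit 13) L84844 (by decide +kernel)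
theorem L84846 : W_29 (nat_lit 5) (nat_lit 0x180014000f000300000001000080000000000000000000000000000000) (nat_lit 0x0) (nat_lit 0x4800240002000000008000c000200000000000000000000000000000000000) := T_29 (nat_lit 246) (nat_lit 229) (nat_lit 4) (nat_lit 8) (nat_lit 14) L84845 (by decide +kernel)
theorem L84847 : W_29 (nat_lit 6) (nat_lit 0x80014000f000300000001000080000000000000000000000000000000) (nat_lit 0x0) (nat_lit 0x6800340002000000008000c000200000000000000000000000000000000000) := T_29 (nat_lit 228) (nat_lit 245) (nat_lit 7) (nat_lit 6) (nat_lit 10) L84846 (by decide +kernel)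
theorem L84848 : W_29 (nat_lit 7) (nat_lit 0x80004000f000300000001000080000000000000000000000000000000) (nat_lit 0x0) (nat_lit 0x6800340032000000008000c000200000000000000000000000000000000000) := T_29 (nat_lit 212) (nat_lit 213) (nat_lit 3) (nat_lit 5) (nat_lit 11) L84847 (by decide +kernel)
theorem L84849 : W_29 (nat_lit 8) (nat_lit 0x4000f000300000001000080000000000000000000000000000000) (nat_lit 0x0) (nat_lit 0x78003c0032000000008000c000200000000000000000000000000000000000) := T_29 (nat_lit 227) (nat_lit 244) (nat_lit 6) (nat_lit 6) (nat_lit 14) L84848 (by decide +kernel)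
theorem L84850 : W_29 (nat_lit 2) (nat_lit 0x4000f000300008001000080000000000000000000000000000000) (nat_lit 0x0) (nat_lit 0x20000000000000000400020000000000000000000000000000000) := D_29 (nat_lit 142) (nat_lit 209) (nat_lit 125) (nat_lit 5) (nat_lit 6) (nat_lit 8) (nat_lit 7) (nat_lit 6) (nat_lit 7) (by decide +kernel)
theorem L84851 : W_29 (nat_lit 2) (nat_lit 0x16000f40030001e001000080000000000000000000000000000000) (nat_lit 0x0) (nat_lit 0x80000000180000000000000000000000000000000000) := D_29 (nat_lit 140) (nat_lit 139) (nat_lit 175) (nat_lit 0) (nat_lit 7) (nat_lit 9) (nat_lit 4) (nat_lit 5) (nat_lit 12) (by decide +kernel)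
theorem L84852 : W_29 (nat_lit 3) (nat_lit 0x16000f40030001c001000080000000000000000000000000000000) (nat_lit 0x0) (nat_lit 0x80003000180000000000000000000000000000000000) := T_29 (nat_lit 157) (nat_lit 156) (nat_lit 3) (nat_lit 3) (nat_lit 9) L84851 (by decide +kernel)
theorem L84853 : W_29 (nat_lit 4) (nat_lit 0x16000f400300018001000080000000000000000000000000000000) (nat_lit 0x0) (nat_lit 0x80007000380000000000000000000000000000000000) := T_29 (nat_lit 158) (nat_lit 141) (nat_lit 4) (nat_lit 6) (nat_lit 12) L84852 (by decide +kernel)
theorem L84854 : W_29 (nat_lit 5) (nat_lit 0x16000f000300018001000080000000000000000000000000000000) (nat_lit 0x0) (nat_lit 0xc00080007000380000000000000000000000000000000000) := T_29 (nat_lit 190) (nat_lit 191) (nat_lit 2) (nat_lit 3) (nat_lit 11) L84853 (by decide +kernel)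
theorem L84855 : W_29 (nat_lit 6) (nat_lit 0x16000f000300008001000080000000000000000000000000000000) (nat_lit 0x0) (nat_lit 0xc00080017000b80000000000000000000000000000000000) := T_29 (nat_lit 160) (nat_lit 143) (nat_lit 7) (nat_lit 7) (nat_lit 8) L84854 (by decide +kernel)
theorem L84856 : W_29 (nat_lit 7) (nat_lit 0x14000f000300008001000080000000000000000000000000000000) (nat_lit 0x0) (nat_lit 0x400020000c00080017000b80000000000000000000000000000000000) := T_29 (nat_lit 209) (nat_lit 226) (nat_lit 5) (nat_lit 6) (nat_lit 9) L84855 (by decide +kernel)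
theorem L84857 : W_29 (nat_lit 8) (nat_lit 0x4000f000300008001000080000000000000000000000000000000) (nat_lit 0x0) (nat_lit 0x400320000c00080017000b80000000000000000000000000000000000) := T_29 (nat_lit 212) (nat_lit 213) (nat_lit 3) (nat_lit 5) (nat_lit 11) L84856 (by decide +kernel)
theorem L84858 : W_29 (nat_lit 2) (nat_lit 0x14000f000300008001400080000000000000000000000000000000) (nat_lit 0x0) (nat_lit 0x4000200010000000000000000000000000000000) := D_29 (nat_lit 141) (nat_lit 158) (nat_lit 124) (nat_lit 4) (nat_lit 6) (nat_lit 12) (nat_lit 4) (nat_lit 6) (nat_lit 11) (by decide +kernel)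
theorem L84859 : W_29 (nat_lit 3) (nat_lit 0x14000f000300008001000080000000000000000000000000000000) (nat_lit 0x0) (nat_lit 0x4000600030000000000000000000000000000000) := T_29 (nat_lit 142) (nat_lit 125) (nat_lit 7) (nat_lit 6) (nat_lit 7) L84858 (by decide +kernel)
theorem L84860 : W_29 (nat_lit 4) (nat_lit 0x4000f000300008001000080000000000000000000000000000000) (nat_lit 0x0) (nat_lit 0x300000000000004000600030000000000000000000000000000000) := T_29 (nat_lit 212) (nat_lit 213) (nat_lit 3) (nat_lit 5) (nat_lit 11) L84859 (by decide +kernel)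
theorem L84861 : W_29 (nat_lit 9) (nat_lit 0x4000f000300000001000080000000000000000000000000000000) (nat_lit 0x0) (nat_lit 0x400320000c0008001f000f80030000000000000000000000000000000) := Q_29 (nat_lit 159) (C_29 L84850 (C_29 L84857 (C_29 L84860 N_29))) (by decide +kernel)
theorem L84862 : W_29 (nat_lit 10) (nat_lit 0xf000300000001000080000000000000000000000000000000) (nat_lit 0x0) (nat_lit 0x78003c00360000c0008001f000f80030000000000000000000000000000000) := Q_29 (nat_lit 210) (C_29 L84842 (C_29 L84849 (C_29 L84861 N_29))) (by decide +kernel)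
theorem L84863 : W_29 (nat_lit 2) (nat_lit 0x40001c0014000f000300008001400080000000000000000000000000000000) (nat_lit 0x0) (nat_lit 0x4000200010000000000000000000000000000000) := D_29 (nat_lit 141) (nat_lit 158) (nat_lit 124) (nat_lit 4) (nat_lit 6) (nat_lit 12) (nat_lit 4) (nat_lit 6) (nat_lit 11) (by decide +kernel)
theorem L84864 : W_29 (nat_lit 3) (nat_lit 0x40001c0014000f000300008001000080000000000000000000000000000000) (nat_lit 0x0) (nat_lit 0x4000600030000000000000000000000000000000) := T_29 (nat_lit 142) (nat_lit 125) (nat_lit 7) (nat_lit 6) (nat_lit 7) L84863 (by decide +kernel)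
theorem L84865 : W_29 (nat_lit 4) (nat_lit 0x40001c0014000f000300000001000080000000000000000000000000000000) (nat_lit 0x0) (nat_lit 0x2000000000000c000600030000000000000000000000000000000) := T_29 (nat_lit 159) (nat_lit 209) (nat_lit 5) (nat_lit 6) (nat_lit 9) L84864 (by decide +kernel)
theorem L84866 : W_29 (nat_lit 5) (nat_lit 0x4000180014000f000300000001000080000000000000000000000000000000) (nat_lit 0x0) (nat_lit 0x800040002000000000000c000600030000000000000000000000000000000) := T_29 (nat_lit 226) (nat_lit 243) (nat_lit 5) (nat_lit 6) (nat_lit 10) L84865 (by decide +kernel)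
theorem L84867 : W_29 (nat_lit 6) (nat_lit 0x180014000f000300000001000080000000000000000000000000000000) (nat_lit 0x0) (nat_lit 0x4800240002000000000000c000600030000000000000000000000000000000) := T_29 (nat_lit 246) (nat_lit 229) (nat_lit 4) (nat_lit 8) (nat_lit 14) L84866 (by decide +kernel)
theorem L84868 : W_29 (nat_lit 7) (nat_lit 0x80014000f000300000001000080000000000000000000000000000000) (nat_lit 0x0) (nat_lit 0x6800340002000000000000c000600030000000000000000000000000000000) := T_29 (nat_lit 228) (nat_lit 245) (nat_lit 7) (nat_lit 6) (nat_lit 10) L84867 (by decide +kernel)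
theorem L84869 : W_29 (nat_lit 8) (nat_lit 0x80004000f000300000001000080000000000000000000000000000000) (nat_lit 0x0) (nat_lit 0x6800340032000000000000c000600030000000000000000000000000000000) := T_29 (nat_lit 212) (nat_lit 213) (nat_lit 3) (nat_lit 5) (nat_lit 11) L84868 (by decide +kernel)
theorem L84870 : W_29 (nat_lit 9) (nat_lit 0x4000f000300000001000080000000000000000000000000000000) (nat_lit 0x0) (nat_lit 0x78003c0032000000000000c000600030000000000000000000000000000000) := T_29 (nat_lit 227) (nat_lit 244) (nat_lit 6) (nat_lit 6) (nat_lit 14) L84869 (by decide +kernel)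
theorem L84871 : W_29 (nat_lit 2) (nat_lit 0x6000f80034000c001000080000000000000000000000000000000) (nat_lit 0x0) (nat_lit 0x3000100000000000000000000000000000000000) := D_29 (nat_lit 157) (nat_lit 156) (nat_lit 140) (nat_lit 3) (nat_lit 3) (nat_lit 9) (nat_lit 7) (nat_lit 4) (nat_lit 8) (by decide +kernel)
theorem L84872 : W_29 (nat_lit 3) (nat_lit 0x6000f800340008001000080000000000000000000000000000000) (nat_lit 0x0) (nat_lit 0x7000300000000000000000000000000000000000) := T_29 (nat_lit 158) (nat_lit 141) (nat_lit 4) (nat_lit 6) (nat_lit 12) L84871 (by decide +kernel)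
theorem L84873 : W_29 (nat_lit 4) (nat_lit 0x6000f800300008001000080000000000000000000000000000000) (nat_lit 0x0) (nat_lit 0x60007000300000000000000000000000000000000000) := T_29 (nat_lit 174) (nat_lit 173) (nat_lit 0) (nat_lit 7) (nat_lit 11) L84872 (by decide +kernel)
theorem L84874 : W_29 (nat_lit 5) (nat_lit 0x4000f800300008001000080000000000000000000000000000000) (nat_lit 0x0) (nat_lit 0x400020000000060007000300000000000000000000000000000000000) := T_29 (nat_lit 209) (nat_lit 226) (nat_lit 5) (nat_lit 6) (nat_lit 9) L84873 (by decide +kernel)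
theorem L84875 : W_29 (nat_lit 6) (nat_lit 0x4000f000300008001000080000000000000000000000000000000) (nat_lit 0x0) (nat_lit 0x400020000c00060007000300000000000000000000000000000000000) := T_29 (nat_lit 191) (nat_lit 190) (nat_lit 2) (nat_lit 3) (nat_lit 11) L84874 (by decide +kernel)
theorem L84876 : W_29 (nat_lit 7) (nat_lit 0x4000f000300000001000080000000000000000000000000000000) (nat_lit 0x0) (nat_lit 0x400320000c0006000f000700030000000000000000000000000000000) := Q_29 (nat_lit 159) (C_29 L84860 (C_29 L84850 (C_29 L84875 N_29))) (by decide +kernel)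
theorem L84877 : W_29 (nat_lit 10) (nat_lit 0xf000300000001000080000000000000000000000000000000) (nat_lit 0x0) (nat_lit 0x78003c00360000c0006001f000700030000000000000000000000000000000) := Q_29 (nat_lit 210) (C_29 L84842 (C_29 L84870 (C_29 L84876 N_29))) (by decide +kernel)
theorem L84878 : W_29 (nat_lit 2) (nat_lit 0x14000f000380000001e00080000000000000000000000000000000) (nat_lit 0x0) (nat_lit 0x8000000018000000000000000000000000000000) := D_29 (nat_lit 124) (nat_lit 123) (nat_lit 159) (nat_lit 0) (nat_lit 8) (nat_lit 8) (nat_lit 4) (nat_lit 6) (nat_lit 11) (by decide +kernel)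
theorem L84879 : W_29 (nat_lit 3) (nat_lit 0x14000f000380000001a00080000000000000000000000000000000) (nat_lit 0x0) (nat_lit 0x8000400118000000000000000000000000000000) := T_29 (nat_lit 142) (nat_lit 128) (nat_lit 2) (nat_lit 5) (nat_lit 8) L84878 (by decide +kernel)
theorem L84880 : W_29 (nat_lit 4) (nat_lit 0x14000f000380000001200080000000000000000000000000000000) (nat_lit 0x0) (nat_lit 0x18000c00118000000000000000000000000000000) := T_29 (nat_lit 143) (nat_lit 160) (nat_lit 7) (nat_lit 7) (nat_lit 8) L84879 (by decide +kernel)
theorem L84881 : W_29 (nat_lit 5) (nat_lit 0x14000f000380000001000080000000000000000000000000000000) (nat_lit 0x0) (nat_lit 0x1c000e00118000000000000000000000000000000) := T_29 (nat_lit 141) (nat_lit 158) (nat_lit 7) (nat_lit 5) (nat_lit 8) L84880 (by decide +kernel)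
theorem L84882 : W_29 (nat_lit 6) (nat_lit 0x4000f000380000001000080000000000000000000000000000000) (nat_lit 0x0) (nat_lit 0x30000000000001c000e00118000000000000000000000000000000) := T_29 (nat_lit 212) (nat_lit 213) (nat_lit 3) (nat_lit 5) (nat_lit 11) L84881 (by decide +kernel)
theorem L84883 : W_29 (nat_lit 7) (nat_lit 0x4000f000300000001000080000000000000000000000000000000) (nat_lit 0x0) (nat_lit 0x3000000000c001c000e00118000000000000000000000000000000) := T_29 (nat_lit 175) (nat_lit 174) (nat_lit 3) (nat_lit 4) (nat_lit 10) L84882 (by decide +kernel)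
theorem L84884 : W_29 (nat_lit 10) (nat_lit 0xf000300000001000080000000000000000000000000000000) (nat_lit 0x0) (nat_lit 0x78003c003600000000c001c000e00138000000000000000000000000000000) := Q_29 (nat_lit 210) (C_29 L84842 (C_29 L84870 (C_29 L84883 N_29))) (by decide +kernel)
theorem L84885 : W_29 (nat_lit 11) (nat_lit 0xf000200000001000080000000000000000000000000000000) (nat_lit 0x0) (nat_lit 0x78003c00360000c001e001f000f80138000000000000000000000000000000) := Q_29 (nat_lit 176) (C_29 L84862 (C_29 L11603 (C_29 L84877 (C_29 L84884 N_29)))) (by decide +kernel)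
theorem L84895 : W_29 (nat_lit 6) (nat_lit 0x1e000200010001000080000000000000000000000000000000) (nat_lit 0x0) (nat_lit 0x10000800e60020003800000000000000000000000000000000000000000000) := T_29 (nat_lit 210) (nat_lit 209) (nat_lit 1) (nat_lit 9) (nat_lit 11) L84657 (by decide +kernel)
theorem L84896 : W_29 (nat_lit 7) (nat_lit 0x1e000200000001000080000000000000000000000000000000) (nat_lit 0x0) (nat_lit 0x10000800e60020003800010000800000000000000000000000000000000000) := T_29 (nat_lit 160) (nat_lit 143) (nat_lit 6) (nat_lit 7) (nat_lit 11) L84895 (by decide +kernel)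
theorem L84897 : W_29 (nat_lit 8) (nat_lit 0xe000200000001000080000000000000000000000000000000) (nat_lit 0x0) (nat_lit 0x10000800e60030003980010000800000000000000000000000000000000000) := Q_29 (nat_lit 196) (C_29 L84804 (C_29 L17920 (C_29 L84896 (C_29 L80354 N_29)))) (by decide +kernel)
theorem L84898 : W_29 (nat_lit 2) (nat_lit 0x30001e000a00010001000080000000000000000000000000000000) (nat_lit 0x0) (nat_lit 0x40002000000000000000040000000000000000000000000000000000000000) := D_29 (nat_lit 229) (nat_lit 246) (nat_lit 162) (nat_lit 6) (nat_lit 8) (nat_lit 14) (nat_lit 5) (nat_lit 9) (nat_lit 9) (by decide +kernel)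
theorem L84899 : W_29 (nat_lit 3) (nat_lit 0x20001e000a00010001000080000000000000000000000000000000) (nat_lit 0x0) (nat_lit 0x40002000100001000000040000000000000000000000000000000000000000) := T_29 (nat_lit 212) (nat_lit 192) (nat_lit 3) (nat_lit 5) (nat_lit 11) L84898 (by decide +kernel)
theorem L84900 : W_29 (nat_lit 4) (nat_lit 0x1e000a00010001000080000000000000000000000000000000) (nat_lit 0x0) (nat_lit 0x40002000700001000000040000000000000000000000000000000000000000) := T_29 (nat_lit 213) (nat_lit 214) (nat_lit 3) (nat_lit 6) (nat_lit 11) L84899 (by decide +kernel)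
theorem L84901 : W_29 (nat_lit 5) (nat_lit 0x1e000200010001000080000000000000000000000000000000) (nat_lit 0x0) (nat_lit 0x40002000700001001800040000000000000000000000000000000000000000) := T_29 (nat_lit 179) (nat_lit 180) (nat_lit 2) (nat_lit 6) (nat_lit 11) L84900 (by decide +kernel)
theorem L84902 : W_29 (nat_lit 6) (nat_lit 0x1e000200000001000080000000000000000000000000000000) (nat_lit 0x0) (nat_lit 0x40002000700001001800050000800000000000000000000000000000000000) := T_29 (nat_lit 160) (nat_lit 143) (nat_lit 6) (nat_lit 7) (nat_lit 11) L84901 (by decide +kernel)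
theorem L84914 : W_29 (nat_lit 2) (nat_lit 0x4000000012003f000200000001000080000000000000000000000000000000) (nat_lit 0x0) (nat_lit 0x3800000000000000000000000000000000000000000000) := D_29 (nat_lit 180) (nat_lit 179) (nat_lit 181) (nat_lit 2) (nat_lit 6) (nat_lit 11) (nat_lit 2) (nat_lit 7) (nat_lit 11) (by decide +kernel)
theorem L84915 : W_29 (nat_lit 3) (nat_lit 0x4000000012001f000200000001000080000000000000000000000000000000) (nat_lit 0x0) (nat_lit 0x20003900000000000000000000000000000000000000000000) := T_29 (nat_lit 197) (nat_lit 176) (nat_lit 0) (nat_lit 10) (nat_lit 11) L84914 (by decide +kernel)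
theorem L84916 : W_29 (nat_lit 4) (nat_lit 0x4000000012000f000200000001000080000000000000000000000000000000) (nat_lit 0x0) (nat_lit 0x40030003900000000000000000000000000000000000000000000) := T_29 (nat_lit 196) (nat_lit 210) (nat_lit 1) (nat_lit 9) (nat_lit 11) L84915 (by decide +kernel)
theorem L84917 : W_29 (nat_lit 5) (nat_lit 0x12000f000200000001000080000000000000000000000000000000) (nat_lit 0x0) (nat_lit 0x40002000040030003900000000000000000000000000000000000000000000) := T_29 (nat_lit 246) (nat_lit 229) (nat_lit 4) (nat_lit 8) (nat_lit 14) L84916 (by decide +kernel)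
theorem L84918 : W_29 (nat_lit 6) (nat_lit 0x10000f000200000001000080000000000000000000000000000000) (nat_lit 0x0) (nat_lit 0x40002000070030003900000000000000000000000000000000000000000000) := T_29 (nat_lit 209) (nat_lit 208) (nat_lit 1) (nat_lit 8) (nat_lit 11) L84917 (by decide +kernel)
theorem L84919 : W_29 (nat_lit 7) (nat_lit 0xf000200000001000080000000000000000000000000000000) (nat_lit 0x0) (nat_lit 0x40002000370030003900000000000000000000000000000000000000000000) := T_29 (nat_lit 212) (nat_lit 213) (nat_lit 3) (nat_lit 5) (nat_lit 11) L84918 (by decide +kernel)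
theorem L84920 : W_29 (nat_lit 2) (nat_lit 0x20000f000280000001000080000000000000000000000000000000) (nat_lit 0x0) (nat_lit 0x400010000100000000000000000000000000000000000000000000) := D_29 (nat_lit 196) (nat_lit 176) (nat_lit 214) (nat_lit 0) (nat_lit 9) (nat_lit 11) (nat_lit 3) (nat_lit 6) (nat_lit 11) (by decide +kernel)
theorem L84921 : W_29 (nat_lit 3) (nat_lit 0xf000280000001000080000000000000000000000000000000) (nat_lit 0x0) (nat_lit 0x700010000100000000000000000000000000000000000000000000) := T_29 (nat_lit 213) (nat_lit 212) (nat_lit 3) (nat_lit 5) (nat_lit 11) L84920 (by decide +kernel)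
theorem L84922 : W_29 (nat_lit 4) (nat_lit 0xf000200000001000080000000000000000000000000000000) (nat_lit 0x0) (nat_lit 0x7000100001c0000000000000000000000000000000000000000000) := T_29 (nat_lit 175) (nat_lit 174) (nat_lit 0) (nat_lit 8) (nat_lit 11) L84921 (by decide +kernel)
theorem L84923 : W_29 (nat_lit 8) (nat_lit 0x7000200000001000080000000000000000000000000000000) (nat_lit 0x0) (nat_lit 0x400020007780388039e0000000000000000000000000000000000000000000) := Q_29 (nat_lit 195) (C_29 L20373 (C_29 L84919 (C_29 L84922 N_29))) (by decide +kernel)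
theorem L84924 : W_29 (nat_lit 6) (nat_lit 0x40007000200000001000080000000000000000000000000000000) (nat_lit 0x0) (nat_lit 0x1000080001c000c00470000000000000000000000000000000000000000000) := T_29 (nat_lit 191) (nat_lit 178) (nat_lit 2) (nat_lit 4) (nat_lit 11) L84623 (by decide +kernel)
theorem L84925 : W_29 (nat_lit 5) (nat_lit 0x10000000040007800200010001000080000000000000000000000000000000) (nat_lit 0x0) (nat_lit 0x3c000600038000000000000000000000000000000000000000000) := T_29 (nat_lit 207) (nat_lit 208) (nat_lit 1) (nat_lit 7) (nat_lit 11) L10163 (by decide +kernel)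
theorem L84926 : W_29 (nat_lit 6) (nat_lit 0x10000000040007000200010001000080000000000000000000000000000000) (nat_lit 0x0) (nat_lit 0x3c000e00438000000000000000000000000000000000000000000) := T_29 (nat_lit 191) (nat_lit 178) (nat_lit 2) (nat_lit 4) (nat_lit 11) L84925 (by decide +kernel)
theorem L84927 : W_29 (nat_lit 7) (nat_lit 0x10000000040007000200000001000080000000000000000000000000000000) (nat_lit 0x0) (nat_lit 0x3c000e00438010000800000000000000000000000000000000000) := T_29 (nat_lit 160) (nat_lit 143) (nat_lit 6) (nat_lit 7) (nat_lit 11) L84926 (by decide +kernel)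
theorem L84928 : W_29 (nat_lit 8) (nat_lit 0x40007000200000001000080000000000000000000000000000000) (nat_lit 0x0) (nat_lit 0x1000080003c000e00438010000800000000000000000000000000000000000) := T_29 (nat_lit 244) (nat_lit 227) (nat_lit 6) (nat_lit 6) (nat_lit 14) L84927 (by decide +kernel)
theorem L84929 : W_29 (nat_lit 5) (nat_lit 0x48007c00240000001000080000000000000000000000000000000) (nat_lit 0x0) (nat_lit 0x2000030009c010000800000000000000000000000000000000000) := T_29 (nat_lit 160) (nat_lit 143) (nat_lit 6) (nat_lit 7) (nat_lit 11) L84733 (by decide +kernel)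
theorem L84930 : W_29 (nat_lit 6) (nat_lit 0x48007800240000001000080000000000000000000000000000000) (nat_lit 0x0) (nat_lit 0x2400070009c010000800000000000000000000000000000000000) := T_29 (nat_lit 190) (nat_lit 206) (nat_lit 1) (nat_lit 6) (nat_lit 11) L84929 (by decide +kernel)
theorem L84931 : W_29 (nat_lit 7) (nat_lit 0x48007800200000001000080000000000000000000000000000000) (nat_lit 0x0) (nat_lit 0x240007000fc010000800000000000000000000000000000000000) := T_29 (nat_lit 174) (nat_lit 173) (nat_lit 0) (nat_lit 7) (nat_lit 11) L84930 (by decide +kernel)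
theorem L84932 : W_29 (nat_lit 8) (nat_lit 0x40007800200000001000080000000000000000000000000000000) (nat_lit 0x0) (nat_lit 0x3c0007000fc010000800000000000000000000000000000000000) := T_29 (nat_lit 207) (nat_lit 208) (nat_lit 1) (nat_lit 7) (nat_lit 11) L84931 (by decide +kernel)
theorem L84933 : W_29 (nat_lit 9) (nat_lit 0x40007000200000001000080000000000000000000000000000000) (nat_lit 0x0) (nat_lit 0x3c000f004fc010000800000000000000000000000000000000000) := T_29 (nat_lit 191) (nat_lit 178) (nat_lit 2) (nat_lit 4) (nat_lit 11) L84932 (by decide +kernel)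
theorem L84934 : W_29 (nat_lit 10) (nat_lit 0x10000000040007000200000001000080000000000000000000000000000000) (nat_lit 0x0) (nat_lit 0x3c000f004dc017000f0011c000000000000000000000000000000) := T_29 (nat_lit 191) (nat_lit 178) (nat_lit 2) (nat_lit 4) (nat_lit 11) L84689 (by decide +kernel)
theorem L84970 : W_29 (nat_lit 2) (nat_lit 0x400068007800240000001000080000000000000000000000000000000) (nat_lit 0x0) (nat_lit 0x80002000100000000000000000000000000000000000) := D_29 (nat_lit 157) (nat_lit 140) (nat_lit 175) (nat_lit 7) (nat_lit 4) (nat_lit 8) (nat_lit 4) (nat_lit 5) (nat_lit 13) (by decide +kernel)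
theorem L84971 : W_29 (nat_lit 3) (nat_lit 0x68007800240000001000080000000000000000000000000000000) (nat_lit 0x0) (nat_lit 0x8000400000000000080002000100000000000000000000000000000000000) := T_29 (nat_lit 226) (nat_lit 243) (nat_lit 4) (nat_lit 5) (nat_lit 14) L84970 (by decide +kernel)
theorem L84972 : W_29 (nat_lit 4) (nat_lit 0x68007800200000001000080000000000000000000000000000000) (nat_lit 0x0) (nat_lit 0x80004000000000000e0002000100000000000000000000000000000000000) := T_29 (nat_lit 174) (nat_lit 173) (nat_lit 0) (nat_lit 7) (nat_lit 11) L84971 (by decide +kernel)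
theorem L84973 : W_29 (nat_lit 5) (nat_lit 0x60007800200000001000080000000000000000000000000000000) (nat_lit 0x0) (nat_lit 0x80004000180000000e0002000100000000000000000000000000000000000) := T_29 (nat_lit 207) (nat_lit 208) (nat_lit 2) (nat_lit 3) (nat_lit 12) L84972 (by decide +kernel)
theorem L84991 : W_29 (nat_lit 2) (nat_lit 0x16000f00008001c00080000000000000000000000000000000) (nat_lit 0x0) (nat_lit 0x200110000000000000000000000000000000) := D_29 (nat_lit 141) (nat_lit 124) (nat_lit 128) (nat_lit 4) (nat_lit 6) (nat_lit 11) (nat_lit 2) (nat_lit 5) (nat_lit 8) (by decide +kernel)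
theorem L84992 : W_29 (nat_lit 3) (nat_lit 0x16000f00008001800080000000000000000000000000000000) (nat_lit 0x0) (nat_lit 0x600130000000000000000000000000000000) := T_29 (nat_lit 142) (nat_lit 125) (nat_lit 7) (nat_lit 6) (nat_lit 7) L84991 (by decide +kernel)
theorem L84993 : W_29 (nat_lit 4) (nat_lit 0x6000f00008001800080000000000000000000000000000000) (nat_lit 0x0) (nat_lit 0x30000000000000600130000000000000000000000000000000) := T_29 (nat_lit 196) (nat_lit 197) (nat_lit 3) (nat_lit 6) (nat_lit 10) L84992 (by decide +kernel)
theorem L84994 : W_29 (nat_lit 5) (nat_lit 0x6000f00000001800080000000000000000000000000000000) (nat_lit 0x0) (nat_lit 0x3000000000c000600130000000000000000000000000000000) := T_29 (nat_lit 159) (nat_lit 158) (nat_lit 0) (nat_lit 9) (nat_lit 10) L84993 (by decide +kernel)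
theorem L84998 : W_29 (nat_lit 5) (nat_lit 0x40006000300000001000080000000000000000000000000000000) (nat_lit 0x0) (nat_lit 0x18000c0002000000008000c000200000000000000000000000000000000000) := T_29 (nat_lit 227) (nat_lit 244) (nat_lit 6) (nat_lit 6) (nat_lit 14) L84555 (by decide +kernel)
theorem L84999 : W_29 (nat_lit 2) (nat_lit 0x40006000300008001c00080000000000000000000000000000000) (nat_lit 0x0) (nat_lit 0x200110000000000000000000000000000000) := D_29 (nat_lit 141) (nat_lit 128) (nat_lit 124) (nat_lit 2) (nat_lit 5) (nat_lit 8) (nat_lit 4) (nat_lit 6) (nat_lit 11) (by decide +kernel)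
theorem L85000 : W_29 (nat_lit 3) (nat_lit 0x40006000300008001400080000000000000000000000000000000) (nat_lit 0x0) (nat_lit 0x10000a00110000000000000000000000000000000) := T_29 (nat_lit 143) (nat_lit 160) (nat_lit 6) (nat_lit 7) (nat_lit 11) L84999 (by decide +kernel)
theorem L85001 : W_29 (nat_lit 4) (nat_lit 0x40006000300008001000080000000000000000000000000000000) (nat_lit 0x0) (nat_lit 0x10000e00130000000000000000000000000000000) := T_29 (nat_lit 142) (nat_lit 125) (nat_lit 7) (nat_lit 6) (nat_lit 7) L85000 (by decide +kernel)
theorem L85003 : W_29 (nat_lit 2) (nat_lit 0x6800640036001a0010000a0000000000000000000000000000000) (nat_lit 0x0) (nat_lit 0x1000100008000000000000000000000000000000) := D_29 (nat_lit 140) (nat_lit 156) (nat_lit 123) (nat_lit 6) (nat_lit 3) (nat_lit 12) (nat_lit 5) (nat_lit 4) (nat_lit 7) (by decide +kernel)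
theorem L85004 : W_29 (nat_lit 3) (nat_lit 0x6800600036001a0010000a0000000000000000000000000000000) (nat_lit 0x0) (nat_lit 0x100000000400000001000100008000000000000000000000000000000) := T_29 (nat_lit 190) (nat_lit 224) (nat_lit 6) (nat_lit 3) (nat_lit 13) L85003 (by decide +kernel)
theorem L85005 : W_29 (nat_lit 2) (nat_lit 0x40006000300016001000080000000000000000000000000000000) (nat_lit 0x0) (nat_lit 0x400009000000000000000000000000000000000000000) := D_29 (nat_lit 159) (nat_lit 156) (nat_lit 178) (nat_lit 3) (nat_lit 3) (nat_lit 9) (nat_lit 3) (nat_lit 4) (nat_lit 9) (by decide +kernel)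
theorem L85006 : W_29 (nat_lit 3) (nat_lit 0x40006000300006001000080000000000000000000000000000000) (nat_lit 0x0) (nat_lit 0x400019000800000000000000000000000000000000000) := T_29 (nat_lit 160) (nat_lit 143) (nat_lit 6) (nat_lit 7) (nat_lit 11) L85005 (by decide +kernel)
theorem L85007 : W_29 (nat_lit 2) (nat_lit 0x40006000300007001000080000000000000000000000000000000) (nat_lit 0x0) (nat_lit 0xc0000800000000000000000000000000000000000000) := D_29 (nat_lit 175) (nat_lit 155) (nat_lit 174) (nat_lit 3) (nat_lit 2) (nat_lit 9) (nat_lit 0) (nat_lit 7) (nat_lit 10) (by decide +kernel)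
theorem L85008 : W_29 (nat_lit 3) (nat_lit 0x40006000300006001000080000000000000000000000000000000) (nat_lit 0x0) (nat_lit 0xc0009800000000000000000000000000000000000000) := T_29 (nat_lit 156) (nat_lit 159) (nat_lit 3) (nat_lit 3) (nat_lit 9) L85007 (by decide +kernel)
theorem L85009 : W_29 (nat_lit 2) (nat_lit 0x40006000380006001800080000000000000000000000000000000) (nat_lit 0x0) (nat_lit 0x60001000000000000000000000000000000000000000) := D_29 (nat_lit 174) (nat_lit 156) (nat_lit 173) (nat_lit 0) (nat_lit 7) (nat_lit 10) (nat_lit 3) (nat_lit 3) (nat_lit 10) (by decide +kernel)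
theorem L85010 : W_29 (nat_lit 3) (nat_lit 0x40006000300006001800080000000000000000000000000000000) (nat_lit 0x0) (nat_lit 0x4e0001000000000000000000000000000000000000000) := T_29 (nat_lit 175) (nat_lit 178) (nat_lit 0) (nat_lit 8) (nat_lit 10) L85009 (by decide +kernel)
theorem L85011 : W_29 (nat_lit 4) (nat_lit 0x40006000300006001000080000000000000000000000000000000) (nat_lit 0x0) (nat_lit 0x4e0011000800000000000000000000000000000000000) := T_29 (nat_lit 143) (nat_lit 160) (nat_lit 6) (nat_lit 7) (nat_lit 11) L85010 (by decide +kernel)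
theorem L85012 : W_29 (nat_lit 2) (nat_lit 0x40006000700006001000080000000000000000000000000000000) (nat_lit 0x0) (nat_lit 0x18000800000000000000000000000000000000000) := D_29 (nat_lit 160) (nat_lit 143) (nat_lit 159) (nat_lit 6) (nat_lit 7) (nat_lit 11) (nat_lit 3) (nat_lit 4) (nat_lit 9) (by decide +kernel)
theorem L85013 : W_29 (nat_lit 3) (nat_lit 0x40006000300006001000080000000000000000000000000000000) (nat_lit 0x0) (nat_lit 0x480018000800000000000000000000000000000000000) := T_29 (nat_lit 178) (nat_lit 175) (nat_lit 0) (nat_lit 8) (nat_lit 10) L85012 (by decide +kernel)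
theorem L85014 : W_29 (nat_lit 5) (nat_lit 0x40006000300004001000080000000000000000000000000000000) (nat_lit 0x0) (nat_lit 0x4e001b800800000000000000000000000000000000000) := Q_29 (nat_lit 157) (C_29 L85006 (C_29 L85008 (C_29 L85011 (C_29 L85013 N_29)))) (by decide +kernel)
theorem L85015 : W_29 (nat_lit 2) (nat_lit 0x400068003c0014001200080000000000000000000000000000000) (nat_lit 0x0) (nat_lit 0x10000000000003000000000000000000000000000000000000000) := D_29 (nat_lit 157) (nat_lit 156) (nat_lit 208) (nat_lit 0) (nat_lit 7) (nat_lit 10) (nat_lit 6) (nat_lit 4) (nat_lit 12) (by decide +kernel)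
theorem L85016 : W_29 (nat_lit 3) (nat_lit 0x400060003c0014001200080000000000000000000000000000000) (nat_lit 0x0) (nat_lit 0x10000c00000003000000000000000000000000000000000000000) := T_29 (nat_lit 191) (nat_lit 190) (nat_lit 1) (nat_lit 7) (nat_lit 10) L85015 (by decide +kernel)
theorem L85017 : W_29 (nat_lit 4) (nat_lit 0x40006000380014001200080000000000000000000000000000000) (nat_lit 0x0) (nat_lit 0x10000c00060003000000000000000000000000000000000000000) := T_29 (nat_lit 174) (nat_lit 173) (nat_lit 3) (nat_lit 3) (nat_lit 10) L85016 (by decide +kernel)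
theorem L85018 : W_29 (nat_lit 5) (nat_lit 0x40006000300014001200080000000000000000000000000000000) (nat_lit 0x0) (nat_lit 0x10000c000e0003000000010000000000000000000000000000000) := T_29 (nat_lit 175) (nat_lit 124) (nat_lit 7) (nat_lit 5) (nat_lit 7) L85017 (by decide +kernel)
theorem L85019 : W_29 (nat_lit 6) (nat_lit 0x40006000300014001000080000000000000000000000000000000) (nat_lit 0x0) (nat_lit 0x10000c000e000b000200010000000000000000000000000000000) := T_29 (nat_lit 141) (nat_lit 159) (nat_lit 4) (nat_lit 6) (nat_lit 12) L85018 (by decide +kernel)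
theorem L85020 : W_29 (nat_lit 7) (nat_lit 0x40006000300004001000080000000000000000000000000000000) (nat_lit 0x0) (nat_lit 0x10000c000e001b000a00010000000000000000000000000000000) := T_29 (nat_lit 160) (nat_lit 143) (nat_lit 6) (nat_lit 7) (nat_lit 11) L85019 (by decide +kernel)
theorem L85021 : W_29 (nat_lit 4) (nat_lit 0x40006000300004001000080000000000000000000000000000000) (nat_lit 0x0) (nat_lit 0xc8000b000200000000000000000000000000000000000) := T_29 (nat_lit 159) (nat_lit 141) (nat_lit 4) (nat_lit 6) (nat_lit 12) L84511 (by decide +kernel)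
theorem L85022 : W_29 (nat_lit 2) (nat_lit 0x40006000300004001a00080000000000000000000000000000000) (nat_lit 0x0) (nat_lit 0x2000400100000000000000000000000000000000) := D_29 (nat_lit 142) (nat_lit 128) (nat_lit 157) (nat_lit 2) (nat_lit 5) (nat_lit 8) (nat_lit 1) (nat_lit 8) (nat_lit 8) (by decide +kernel)
theorem L85023 : W_29 (nat_lit 3) (nat_lit 0x40006000300004001200080000000000000000000000000000000) (nat_lit 0x0) (nat_lit 0x12000c00100000000000000000000000000000000) := T_29 (nat_lit 143) (nat_lit 160) (nat_lit 6) (nat_lit 7) (nat_lit 11) L85022 (by decide +kernel)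
theorem L85024 : W_29 (nat_lit 2) (nat_lit 0x40006000300004001a00090000000000000000000000000000000) (nat_lit 0x0) (nat_lit 0x2000400008000000000000000000000000000000) := D_29 (nat_lit 142) (nat_lit 157) (nat_lit 123) (nat_lit 1) (nat_lit 8) (nat_lit 8) (nat_lit 0) (nat_lit 8) (nat_lit 8) (by decide +kernel)
theorem L85025 : W_29 (nat_lit 3) (nat_lit 0x40006000300004001200090000000000000000000000000000000) (nat_lit 0x0) (nat_lit 0x12000c00008000000000000000000000000000000) := T_29 (nat_lit 143) (nat_lit 160) (nat_lit 6) (nat_lit 7) (nat_lit 11) L85024 (by decide +kernel)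
theorem L85026 : W_29 (nat_lit 4) (nat_lit 0x40006000300004001200080000000000000000000000000000000) (nat_lit 0x0) (nat_lit 0x80012000c00018000000000000000000000000000000) := T_29 (nat_lit 124) (nat_lit 175) (nat_lit 7) (nat_lit 5) (nat_lit 7) L85025 (by decide +kernel)
theorem L85027 : W_29 (nat_lit 2) (nat_lit 0x400060003c0004001200080000000000000000000000000000000) (nat_lit 0x0) (nat_lit 0x400003000000000000000000000000000000000000000) := D_29 (nat_lit 157) (nat_lit 178) (nat_lit 156) (nat_lit 0) (nat_lit 8) (nat_lit 10) (nat_lit 0) (nat_lit 7) (nat_lit 10) (by decide +kernel)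
theorem L85028 : W_29 (nat_lit 3) (nat_lit 0x40006000380004001200080000000000000000000000000000000) (nat_lit 0x0) (nat_lit 0x460003000000000000000000000000000000000000000) := T_29 (nat_lit 174) (nat_lit 173) (nat_lit 3) (nat_lit 3) (nat_lit 10) L85027 (by decide +kernel)
theorem L85029 : W_29 (nat_lit 4) (nat_lit 0x40006000300004001200080000000000000000000000000000000) (nat_lit 0x0) (nat_lit 0x4e0003000000010000000000000000000000000000000) := T_29 (nat_lit 175) (nat_lit 124) (nat_lit 7) (nat_lit 5) (nat_lit 7) L85028 (by decide +kernel)
theorem L85030 : W_29 (nat_lit 2) (nat_lit 0x40006000300004001a00090000000000000000000000000000000) (nat_lit 0x0) (nat_lit 0x400108000000000000000000000000000000) := D_29 (nat_lit 142) (nat_lit 128) (nat_lit 123) (nat_lit 2) (nat_lit 5) (nat_lit 8) (nat_lit 0) (nat_lit 8) (nat_lit 8) (by decide +kernel)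
theorem L85031 : W_29 (nat_lit 3) (nat_lit 0x40006000300004001200090000000000000000000000000000000) (nat_lit 0x0) (nat_lit 0x10000c00108000000000000000000000000000000) := T_29 (nat_lit 143) (nat_lit 160) (nat_lit 6) (nat_lit 7) (nat_lit 11) L85030 (by decide +kernel)
theorem L85032 : W_29 (nat_lit 4) (nat_lit 0x40006000300004001200080000000000000000000000000000000) (nat_lit 0x0) (nat_lit 0x80010000c00118000000000000000000000000000000) := T_29 (nat_lit 124) (nat_lit 175) (nat_lit 7) (nat_lit 5) (nat_lit 7) L85031 (by decide +kernel)
theorem L85033 : W_29 (nat_lit 5) (nat_lit 0x40006000300004001000080000000000000000000000000000000) (nat_lit 0x0) (nat_lit 0x4e0013000e00118000000000000000000000000000000) := Q_29 (nat_lit 141) (C_29 L85023 (C_29 L85026 (C_29 L85029 (C_29 L85032 N_29)))) (by decide +kernel)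
theorem L85034 : W_29 (nat_lit 3) (nat_lit 0x40006000300004001800080000000000000000000000000000000) (nat_lit 0x0) (nat_lit 0xa000600100000000000000000000000000000000) := T_29 (nat_lit 141) (nat_lit 159) (nat_lit 4) (nat_lit 6) (nat_lit 12) L85022 (by decide +kernel)
theorem L85035 : W_29 (nat_lit 4) (nat_lit 0x40006000300004001000080000000000000000000000000000000) (nat_lit 0x0) (nat_lit 0x1a000e00100000000000000000000000000000000) := T_29 (nat_lit 143) (nat_lit 160) (nat_lit 6) (nat_lit 7) (nat_lit 11) L85034 (by decide +kernel)
theorem L85036 : W_29 (nat_lit 5) (nat_lit 0x40006000300004001000080000000000000000000000000000000) (nat_lit 0x0) (nat_lit 0x80018000e00118000000000000000000000000000000) := T_29 (nat_lit 141) (nat_lit 159) (nat_lit 4) (nat_lit 6) (nat_lit 12) L85032 (by decide +kernel)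
theorem L85037 : W_29 (nat_lit 8) (nat_lit 0x40006000300000001000080000000000000000000000000000000) (nat_lit 0x0) (nat_lit 0x10000c00ce001f800e00118000000000000000000000000000000) := Q_29 (nat_lit 158) (C_29 L85014 (C_29 L85020 (C_29 L85021 (C_29 L85033 (C_29 L85035 (C_29 L85036 N_29)))))) (by decide +kernel)
theorem L85038 : W_29 (nat_lit 9) (nat_lit 0x6000300000001000080000000000000000000000000000000) (nat_lit 0x0) (nat_lit 0x18000c00070000c00ce001f800e00118000000000000000000000000000000) := Q_29 (nat_lit 210) (C_29 L12033 (C_29 L12034 (C_29 L84998 (C_29 L85037 N_29)))) (by decide +kernel)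
theorem L85039 : W_29 (nat_lit 2) (nat_lit 0x60006000300018001000080000000000000000000000000000000) (nat_lit 0x0) (nat_lit 0x1000000000000400020000000000000000000000000000000) := D_29 (nat_lit 142) (nat_lit 192) (nat_lit 125) (nat_lit 5) (nat_lit 6) (nat_lit 8) (nat_lit 7) (nat_lit 6) (nat_lit 7) (by decide +kernel)
theorem L85040 : W_29 (nat_lit 3) (nat_lit 0x40006000300018001000080000000000000000000000000000000) (nat_lit 0x0) (nat_lit 0x400020001000000000000400020000000000000000000000000000000) := T_29 (nat_lit 209) (nat_lit 226) (nat_lit 5) (nat_lit 6) (nat_lit 9) L85039 (by decide +kernel)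
theorem L85041 : W_29 (nat_lit 4) (nat_lit 0x40006000300008001000080000000000000000000000000000000) (nat_lit 0x0) (nat_lit 0x400020001000000010000c00020000000000000000000000000000000) := T_29 (nat_lit 160) (nat_lit 143) (nat_lit 6) (nat_lit 7) (nat_lit 11) L85040 (by decide +kernel)
theorem L85042 : W_29 (nat_lit 5) (nat_lit 0x40006000300000001000080000000000000000000000000000000) (nat_lit 0x0) (nat_lit 0x400020001000c8001f000e00020000000000000000000000000000000) := Q_29 (nat_lit 159) (C_29 L85041 (C_29 L84512 N_29)) (by decide +kernel)
theorem L85043 : W_29 (nat_lit 6) (nat_lit 0x6000300000001000080000000000000000000000000000000) (nat_lit 0x0) (nat_lit 0x18000c00060001000c8001f000e00020000000000000000000000000000000) := Q_29 (nat_lit 210) (C_29 L84998 (C_29 L12034 (C_29 L85042 N_29))) (by decide +kernel)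
theorem L85044 : W_29 (nat_lit 2) (nat_lit 0x60006000300008001000080000000000000000000000000000000) (nat_lit 0x0) (nat_lit 0x1000000000000400020000000000000000000000000000000) := D_29 (nat_lit 142) (nat_lit 192) (nat_lit 125) (nat_lit 5) (nat_lit 6) (nat_lit 8) (nat_lit 7) (nat_lit 6) (nat_lit 7) (by decide +kernel)
theorem L85045 : W_29 (nat_lit 3) (nat_lit 0x40006000300008001000080000000000000000000000000000000) (nat_lit 0x0) (nat_lit 0x400020001000000000000400020000000000000000000000000000000) := T_29 (nat_lit 209) (nat_lit 226) (nat_lit 5) (nat_lit 6) (nat_lit 9) L85044 (by decide +kernel)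
theorem L85046 : W_29 (nat_lit 2) (nat_lit 0x6800600034001e001100080000000000000000000000000000000) (nat_lit 0x0) (nat_lit 0x1800080000000000000000000000000000000000000000000) := D_29 (nat_lit 192) (nat_lit 175) (nat_lit 191) (nat_lit 4) (nat_lit 5) (nat_lit 12) (nat_lit 7) (nat_lit 4) (nat_lit 8) (by decide +kernel)
theorem L85047 : W_29 (nat_lit 3) (nat_lit 0x6800600034001e001000080000000000000000000000000000000) (nat_lit 0x0) (nat_lit 0x1800080000000180000000000000000000000000000000000) := T_29 (nat_lit 140) (nat_lit 139) (nat_lit 0) (nat_lit 7) (nat_lit 9) L85046 (by decide +kernel)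
theorem L85048 : W_29 (nat_lit 4) (nat_lit 0x6800600030001e001000080000000000000000000000000000000) (nat_lit 0x0) (nat_lit 0x18000e0000000180000000000000000000000000000000000) := T_29 (nat_lit 174) (nat_lit 173) (nat_lit 1) (nat_lit 7) (nat_lit 9) L85047 (by decide +kernel)
theorem L85049 : W_29 (nat_lit 5) (nat_lit 0x6800600030001c001000080000000000000000000000000000000) (nat_lit 0x0) (nat_lit 0x18000e0003000180000000000000000000000000000000000) := T_29 (nat_lit 157) (nat_lit 156) (nat_lit 3) (nat_lit 3) (nat_lit 9) L85048 (by decide +kernel)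
theorem L85050 : W_29 (nat_lit 6) (nat_lit 0x68006000300018001000080000000000000000000000000000000) (nat_lit 0x0) (nat_lit 0x18000e0007000380000000000000000000000000000000000) := T_29 (nat_lit 158) (nat_lit 141) (nat_lit 4) (nat_lit 6) (nat_lit 12) L85049 (by decide +kernel)
theorem L85051 : W_29 (nat_lit 7) (nat_lit 0x60006000300018001000080000000000000000000000000000000) (nat_lit 0x0) (nat_lit 0x180018000e0007000380000000000000000000000000000000000) := T_29 (nat_lit 207) (nat_lit 208) (nat_lit 2) (nat_lit 3) (nat_lit 12) L85050 (by decide +kernel)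
theorem L85052 : W_29 (nat_lit 8) (nat_lit 0x40006000300018001000080000000000000000000000000000000) (nat_lit 0x0) (nat_lit 0x4000380018000e0007000380000000000000000000000000000000000) := T_29 (nat_lit 209) (nat_lit 226) (nat_lit 5) (nat_lit 6) (nat_lit 9) L85051 (by decide +kernel)
theorem L85053 : W_29 (nat_lit 9) (nat_lit 0x40006000300008001000080000000000000000000000000000000) (nat_lit 0x0) (nat_lit 0x4000380018000e0017000b80000000000000000000000000000000000) := T_29 (nat_lit 160) (nat_lit 143) (nat_lit 6) (nat_lit 7) (nat_lit 11) L85052 (by decide +kernel)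
theorem L85054 : W_29 (nat_lit 10) (nat_lit 0x40006000300000001000080000000000000000000000000000000) (nat_lit 0x0) (nat_lit 0x4000380018000e001f000f80130000000000000000000000000000000) := Q_29 (nat_lit 159) (C_29 L85041 (C_29 L85045 (C_29 L85053 (C_29 L85001 N_29)))) (by decide +kernel)
theorem L85055 : W_29 (nat_lit 11) (nat_lit 0x6000300000001000080000000000000000000000000000000) (nat_lit 0x0) (nat_lit 0x18000c000780018000e001f000f80130000000000000000000000000000000) := Q_29 (nat_lit 210) (C_29 L84998 (C_29 L12034 (C_29 L85054 N_29))) (by decide +kernel)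
theorem L85056 : W_29 (nat_lit 2) (nat_lit 0x40007000300000001000080000000000000000000000000000000) (nat_lit 0x0) (nat_lit 0x10000800000000000000010000000000000000000000000000000000000000) := D_29 (nat_lit 227) (nat_lit 244) (nat_lit 160) (nat_lit 6) (nat_lit 6) (nat_lit 14) (nat_lit 6) (nat_lit 6) (nat_lit 13) (by decide +kernel)
theorem L85057 : W_29 (nat_lit 8) (nat_lit 0x7000300000001000080000000000000000000000000000000) (nat_lit 0x0) (nat_lit 0x38003c00078000000ce001f000600000000000000000000000000000000000) := Q_29 (nat_lit 210) (C_29 L83199 (C_29 L84358 (C_29 L82936 (C_29 L85056 N_29)))) (by decide +kernel)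
theorem L85058 : W_29 (nat_lit 9) (nat_lit 0x6000300000001000080000000000000000000000000000000) (nat_lit 0x0) (nat_lit 0x3c003e00078001c00ce001f000700008000000000000000000000000000000) := Q_29 (nat_lit 192) (C_29 L85057 (C_29 L83282 (C_29 L12149 N_29))) (by decide +kernel)
theorem L85059 : W_29 (nat_lit 2) (nat_lit 0x1c000400068003c0002001000080000000000000000000000000000000) (nat_lit 0x0) (nat_lit 0x20001000400000000000000000000000000000000000000000000) := D_29 (nat_lit 192) (nat_lit 178) (nat_lit 209) (nat_lit 2) (nat_lit 4) (nat_lit 11) (nat_lit 4) (nat_lit 5) (nat_lit 13) (by decide +kernel)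
theorem L85060 : W_29 (nat_lit 3) (nat_lit 0x1c000400068003c0000001000080000000000000000000000000000000) (nat_lit 0x0) (nat_lit 0x20001000400003000000000000000000000000000000000000000) := T_29 (nat_lit 157) (nat_lit 156) (nat_lit 0) (nat_lit 7) (nat_lit 10) L85059 (by decide +kernel)
theorem L85061 : W_29 (nat_lit 4) (nat_lit 0x1c000400060003c0000001000080000000000000000000000000000000) (nat_lit 0x0) (nat_lit 0x20001c00400003000000000000000000000000000000000000000) := T_29 (nat_lit 191) (nat_lit 190) (nat_lit 1) (nat_lit 7) (nat_lit 10) L85060 (by decide +kernel)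
theorem L85062 : W_29 (nat_lit 5) (nat_lit 0x1c00040006000380000001000080000000000000000000000000000000) (nat_lit 0x0) (nat_lit 0x20001c00460003000000000000000000000000000000000000000) := T_29 (nat_lit 174) (nat_lit 173) (nat_lit 3) (nat_lit 3) (nat_lit 10) L85061 (by decide +kernel)
theorem L85063 : W_29 (nat_lit 6) (nat_lit 0x1c00040006000300000001000080000000000000000000000000000000) (nat_lit 0x0) (nat_lit 0x20001c004e0007000000000000000000000000000000000000000) := T_29 (nat_lit 175) (nat_lit 158) (nat_lit 4) (nat_lit 6) (nat_lit 13) L85062 (by decide +kernel)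
theorem L85064 : W_29 (nat_lit 7) (nat_lit 0xc00040006000300000001000080000000000000000000000000000000) (nat_lit 0x0) (nat_lit 0x20001000020001c004e0007000000000000000000000000000000000000000) := T_29 (nat_lit 228) (nat_lit 245) (nat_lit 7) (nat_lit 6) (nat_lit 10) L85063 (by decide +kernel)
theorem L85065 : W_29 (nat_lit 8) (nat_lit 0x800040006000300000001000080000000000000000000000000000000) (nat_lit 0x0) (nat_lit 0x28001400020001c004e0007000000000000000000000000000000000000000) := T_29 (nat_lit 226) (nat_lit 243) (nat_lit 5) (nat_lit 6) (nat_lit 10) L85064 (by decide +kernel)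
theorem L85066 : W_29 (nat_lit 9) (nat_lit 0x40006000300000001000080000000000000000000000000000000) (nat_lit 0x0) (nat_lit 0x38001c00020001c004e0007000000000000000000000000000000000000000) := T_29 (nat_lit 227) (nat_lit 244) (nat_lit 6) (nat_lit 6) (nat_lit 14) L85065 (by decide +kernel)
theorem L85067 : W_29 (nat_lit 2) (nat_lit 0x40007000300000001000080000000000000000000000000000000) (nat_lit 0x0) (nat_lit 0x800c00000000000000000000000000000000000000000000) := D_29 (nat_lit 178) (nat_lit 179) (nat_lit 191) (nat_lit 1) (nat_lit 9) (nat_lit 10) (nat_lit 2) (nat_lit 4) (nat_lit 11) (by decide +kernel)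
theorem L85068 : W_29 (nat_lit 2) (nat_lit 0x500078003c0012001000080000000000000000000000000000000) (nat_lit 0x0) (nat_lit 0x400020000000000000000100000000000000000000000000000000000) := D_29 (nat_lit 209) (nat_lit 226) (nat_lit 140) (nat_lit 7) (nat_lit 4) (nat_lit 9) (nat_lit 7) (nat_lit 4) (nat_lit 8) (by decide +kernel)
theorem L85069 : W_29 (nat_lit 3) (nat_lit 0x500078003c0010001000080000000000000000000000000000000) (nat_lit 0x0) (nat_lit 0x400020000000000003000100000000000000000000000000000000000) := T_29 (nat_lit 157) (nat_lit 156) (nat_lit 0) (nat_lit 7) (nat_lit 10) L85068 (by decide +kernel)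
theorem L85070 : W_29 (nat_lit 4) (nat_lit 0x400078003c0010001000080000000000000000000000000000000) (nat_lit 0x0) (nat_lit 0x400038000000000003000100000000000000000000000000000000000) := T_29 (nat_lit 208) (nat_lit 207) (nat_lit 1) (nat_lit 7) (nat_lit 11) L85069 (by decide +kernel)
theorem L85071 : W_29 (nat_lit 5) (nat_lit 0x40007800380010001000080000000000000000000000000000000) (nat_lit 0x0) (nat_lit 0x400038000000060003000100000000000000000000000000000000000) := T_29 (nat_lit 174) (nat_lit 173) (nat_lit 3) (nat_lit 3) (nat_lit 10) L85070 (by decide +kernel)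
theorem L85072 : W_29 (nat_lit 6) (nat_lit 0x40007000380010001000080000000000000000000000000000000) (nat_lit 0x0) (nat_lit 0x400038000c00060003000100000000000000000000000000000000000) := T_29 (nat_lit 191) (nat_lit 190) (nat_lit 2) (nat_lit 3) (nat_lit 11) L85071 (by decide +kernel)
theorem L85073 : W_29 (nat_lit 7) (nat_lit 0x40007000380000001000080000000000000000000000000000000) (nat_lit 0x0) (nat_lit 0x400038000c00060013000900000000000000000000000000000000000) := T_29 (nat_lit 160) (nat_lit 143) (nat_lit 6) (nat_lit 7) (nat_lit 11) L85072 (by decide +kernel)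
theorem L85074 : W_29 (nat_lit 6) (nat_lit 0x40007400380000001a00080000000000000000000000000000000) (nat_lit 0x0) (nat_lit 0x2000380058011c000000000000000000000000000000) := T_29 (nat_lit 142) (nat_lit 128) (nat_lit 2) (nat_lit 5) (nat_lit 8) L82844 (by decide +kernel)
theorem L85075 : W_29 (nat_lit 7) (nat_lit 0x40007000380000001a00080000000000000000000000000000000) (nat_lit 0x0) (nat_lit 0xc0002000380058011c000000000000000000000000000000) := T_29 (nat_lit 190) (nat_lit 191) (nat_lit 2) (nat_lit 3) (nat_lit 11) L85074 (by decide +kernel)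
theorem L85076 : W_29 (nat_lit 8) (nat_lit 0x40007000380000001200080000000000000000000000000000000) (nat_lit 0x0) (nat_lit 0xc00020013800d8011c000000000000000000000000000000) := T_29 (nat_lit 143) (nat_lit 160) (nat_lit 6) (nat_lit 7) (nat_lit 11) L85075 (by decide +kernel)
theorem L85077 : W_29 (nat_lit 9) (nat_lit 0x40007000380000001000080000000000000000000000000000000) (nat_lit 0x0) (nat_lit 0xc00020017800f8011c000000000000000000000000000000) := T_29 (nat_lit 141) (nat_lit 158) (nat_lit 7) (nat_lit 5) (nat_lit 8) L85076 (by decide +kernel)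
theorem L85078 : W_29 (nat_lit 2) (nat_lit 0x50007800380014001000080000000000000000000000000000000) (nat_lit 0x0) (nat_lit 0x4000200000000000040000000000000000000000000000000000000000000) := D_29 (nat_lit 225) (nat_lit 242) (nat_lit 174) (nat_lit 6) (nat_lit 4) (nat_lit 14) (nat_lit 6) (nat_lit 4) (nat_lit 13) (by decide +kernel)
theorem L85079 : W_29 (nat_lit 3) (nat_lit 0x50007800380010001000080000000000000000000000000000000) (nat_lit 0x0) (nat_lit 0x4000200000000000040004000200000000000000000000000000000000000) := T_29 (nat_lit 158) (nat_lit 141) (nat_lit 7) (nat_lit 5) (nat_lit 8) L85078 (by decide +kernel)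
theorem L85080 : W_29 (nat_lit 4) (nat_lit 0x40007800380010001000080000000000000000000000000000000) (nat_lit 0x0) (nat_lit 0x4000200018000000040004000200000000000000000000000000000000000) := T_29 (nat_lit 208) (nat_lit 207) (nat_lit 1) (nat_lit 7) (nat_lit 11) L85079 (by decide +kernel)
theorem L85081 : W_29 (nat_lit 5) (nat_lit 0x40007800380000001000080000000000000000000000000000000) (nat_lit 0x0) (nat_lit 0x4000200018000000040014000a00000000000000000000000000000000000) := T_29 (nat_lit 160) (nat_lit 143) (nat_lit 6) (nat_lit 7) (nat_lit 11) L85080 (by decide +kernel)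
theorem L85082 : W_29 (nat_lit 6) (nat_lit 0x40007000380000001000080000000000000000000000000000000) (nat_lit 0x0) (nat_lit 0x4000200018000c00040014000a00000000000000000000000000000000000) := T_29 (nat_lit 191) (nat_lit 190) (nat_lit 2) (nat_lit 3) (nat_lit 11) L85081 (by decide +kernel)
theorem L85083 : W_29 (nat_lit 2) (nat_lit 0x40006000700000001000080000000000000000000000000000000) (nat_lit 0x0) (nat_lit 0x1001800000000000000000000000000000000000000000000) := D_29 (nat_lit 179) (nat_lit 192) (nat_lit 180) (nat_lit 1) (nat_lit 9) (nat_lit 10) (nat_lit 1) (nat_lit 10) (nat_lit 10) (by decide +kernel)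
theorem L85084 : W_29 (nat_lit 2) (nat_lit 0x40006800780000001000080000000000000000000000000000000) (nat_lit 0x0) (nat_lit 0x400060000000000000000000000000000000000000000000) := D_29 (nat_lit 174) (nat_lit 173) (nat_lit 190) (nat_lit 3) (nat_lit 3) (nat_lit 10) (nat_lit 1) (nat_lit 7) (nat_lit 10) (by decide +kernel)
theorem L85085 : W_29 (nat_lit 3) (nat_lit 0x40006000780000001000080000000000000000000000000000000) (nat_lit 0x0) (nat_lit 0x1c00060000000000000000000000000000000000000000000) := T_29 (nat_lit 191) (nat_lit 192) (nat_lit 2) (nat_lit 4) (nat_lit 11) L85084 (by decide +kernel)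
theorem L85086 : W_29 (nat_lit 2) (nat_lit 0x400060007c0002001800080000000000000000000000000000000) (nat_lit 0x0) (nat_lit 0x1001800000000000000000000000000000000000000000000) := D_29 (nat_lit 179) (nat_lit 192) (nat_lit 180) (nat_lit 1) (nat_lit 9) (nat_lit 10) (nat_lit 1) (nat_lit 10) (nat_lit 10) (by decide +kernel)
theorem L85087 : W_29 (nat_lit 3) (nat_lit 0x400060003c0002001800080000000000000000000000000000000) (nat_lit 0x0) (nat_lit 0x1001c00004000000000000000000000000000000000000000) := T_29 (nat_lit 178) (nat_lit 158) (nat_lit 0) (nat_lit 8) (nat_lit 10) L85086 (by decide +kernel)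
theorem L85088 : W_29 (nat_lit 4) (nat_lit 0x400060003c0000001800080000000000000000000000000000000) (nat_lit 0x0) (nat_lit 0x1001c00007000000000000000000000000000000000000000) := T_29 (nat_lit 157) (nat_lit 156) (nat_lit 0) (nat_lit 7) (nat_lit 10) L85087 (by decide +kernel)
theorem L85089 : W_29 (nat_lit 5) (nat_lit 0x40006000380000001800080000000000000000000000000000000) (nat_lit 0x0) (nat_lit 0x1001c60007000000000000000000000000000000000000000) := T_29 (nat_lit 174) (nat_lit 173) (nat_lit 3) (nat_lit 3) (nat_lit 10) L85088 (by decide +kernel)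
theorem L85090 : W_29 (nat_lit 6) (nat_lit 0x40006000380000001000080000000000000000000000000000000) (nat_lit 0x0) (nat_lit 0x1001c60017000800000000000000000000000000000000000) := T_29 (nat_lit 143) (nat_lit 160) (nat_lit 6) (nat_lit 7) (nat_lit 11) L85089 (by decide +kernel)
theorem L85091 : W_29 (nat_lit 10) (nat_lit 0x40006000380000001000080000000000000000000000000000000) (nat_lit 0x0) (nat_lit 0x4000600038001c00060017800f8011c000000000000000000000000000000) := Q_29 (nat_lit 192) (C_29 L85077 (C_29 L85082 (C_29 L79695 (C_29 L85073 N_29)))) (by decide +kernel)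
theorem L85092 : W_29 (nat_lit 2) (nat_lit 0x400078003c0012001000080000000000000000000000000000000) (nat_lit 0x0) (nat_lit 0x20000000000000000100008000000000000000000000000000000) := D_29 (nat_lit 140) (nat_lit 209) (nat_lit 123) (nat_lit 7) (nat_lit 4) (nat_lit 8) (nat_lit 7) (nat_lit 4) (nat_lit 7) (by decide +kernel)
theorem L85093 : W_29 (nat_lit 3) (nat_lit 0x400068003c0012001000080000000000000000000000000000000) (nat_lit 0x0) (nat_lit 0x20001000400000000100008000000000000000000000000000000) := T_29 (nat_lit 192) (nat_lit 178) (nat_lit 2) (nat_lit 4) (nat_lit 11) L85092 (by decide +kernel)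
theorem L85094 : W_29 (nat_lit 4) (nat_lit 0x400068003c0010001000080000000000000000000000000000000) (nat_lit 0x0) (nat_lit 0x20001000400003000100008000000000000000000000000000000) := T_29 (nat_lit 157) (nat_lit 156) (nat_lit 0) (nat_lit 7) (nat_lit 10) L85093 (by decide +kernel)
theorem L85095 : W_29 (nat_lit 5) (nat_lit 0x400060003c0010001000080000000000000000000000000000000) (nat_lit 0x0) (nat_lit 0x20001c00400003000100008000000000000000000000000000000) := T_29 (nat_lit 191) (nat_lit 190) (nat_lit 1) (nat_lit 7) (nat_lit 10) L85094 (by decide +kernel)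
theorem L85096 : W_29 (nat_lit 6) (nat_lit 0x40006000380010001000080000000000000000000000000000000) (nat_lit 0x0) (nat_lit 0x20001c00460003000100008000000000000000000000000000000) := T_29 (nat_lit 174) (nat_lit 173) (nat_lit 3) (nat_lit 3) (nat_lit 10) L85095 (by decide +kernel)
theorem L85097 : W_29 (nat_lit 7) (nat_lit 0x40006000380000001000080000000000000000000000000000000) (nat_lit 0x0) (nat_lit 0x20001c00460013000900008000000000000000000000000000000) := T_29 (nat_lit 160) (nat_lit 143) (nat_lit 6) (nat_lit 7) (nat_lit 11) L85096 (by decide +kernel)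
theorem L85098 : W_29 (nat_lit 2) (nat_lit 0x40007000380000001000080000000000000000000000000000000) (nat_lit 0x0) (nat_lit 0x800c00000000000000000000000000000000000000000000) := D_29 (nat_lit 178) (nat_lit 191) (nat_lit 179) (nat_lit 2) (nat_lit 4) (nat_lit 11) (nat_lit 1) (nat_lit 9) (nat_lit 10) (by decide +kernel)
theorem L85099 : W_29 (nat_lit 10) (nat_lit 0x40006000380000001000080000000000000000000000000000000) (nat_lit 0x0) (nat_lit 0x1c00c20017800f8011c000000000000000000000000000000) := Q_29 (nat_lit 192) (C_29 L85077 (C_29 L79691 (C_29 L85098 N_29))) (by decide +kernel)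
theorem L85100 : W_29 (nat_lit 2) (nat_lit 0x500078003c0000001800080000000000000000000000000000000) (nat_lit 0x0) (nat_lit 0x200000000000000004000200000000000000000000000000000000000) := D_29 (nat_lit 158) (nat_lit 141) (nat_lit 225) (nat_lit 7) (nat_lit 5) (nat_lit 8) (nat_lit 6) (nat_lit 4) (nat_lit 13) (by decide +kernel)
theorem L85101 : W_29 (nat_lit 3) (nat_lit 0x400078003c0000001800080000000000000000000000000000000) (nat_lit 0x0) (nat_lit 0x200018000000000004000200000000000000000000000000000000000) := T_29 (nat_lit 208) (nat_lit 207) (nat_lit 1) (nat_lit 7) (nat_lit 11) L85100 (by decide +kernel)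
theorem L85102 : W_29 (nat_lit 4) (nat_lit 0x400068003c0000001800080000000000000000000000000000000) (nat_lit 0x0) (nat_lit 0x200018001000400004000200000000000000000000000000000000000) := T_29 (nat_lit 192) (nat_lit 178) (nat_lit 2) (nat_lit 4) (nat_lit 11) L85101 (by decide +kernel)
theorem L85103 : W_29 (nat_lit 5) (nat_lit 0x400060003c0000001800080000000000000000000000000000000) (nat_lit 0x0) (nat_lit 0x200018001c00400004000200000000000000000000000000000000000) := T_29 (nat_lit 191) (nat_lit 190) (nat_lit 1) (nat_lit 7) (nat_lit 10) L85102 (by decide +kernel)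
theorem L85104 : W_29 (nat_lit 6) (nat_lit 0x40006000380000001800080000000000000000000000000000000) (nat_lit 0x0) (nat_lit 0x200018001c00460004000200000000000000000000000000000000000) := T_29 (nat_lit 174) (nat_lit 173) (nat_lit 3) (nat_lit 3) (nat_lit 10) L85103 (by decide +kernel)
theorem L85105 : W_29 (nat_lit 7) (nat_lit 0x40006000380000001000080000000000000000000000000000000) (nat_lit 0x0) (nat_lit 0x200018001c00460014000a00000000000000000000000000000000000) := T_29 (nat_lit 143) (nat_lit 160) (nat_lit 6) (nat_lit 7) (nat_lit 11) L85104 (by decide +kernel)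
theorem L85106 : W_29 (nat_lit 7) (nat_lit 0x40006000380000001000080000000000000000000000000000000) (nat_lit 0x0) (nat_lit 0x4000200018001c00c40016000a00000000000000000000000000000000000) := Q_29 (nat_lit 192) (C_29 L85098 (C_29 L85082 (C_29 L79691 N_29))) (by decide +kernel)
theorem L85107 : W_29 (nat_lit 11) (nat_lit 0x40006000300000001000080000000000000000000000000000000) (nat_lit 0x0) (nat_lit 0x4000600038001c01ce0017800f8011c000000000000000000000000000000) := Q_29 (nat_lit 175) (C_29 L80263 (C_29 L85090 (C_29 L85091 (C_29 L85097 (C_29 L85099 (C_29 L85105 (C_29 L85106 N_29))))))) (by decide +kernel)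
theorem L85108 : W_29 (nat_lit 12) (nat_lit 0x6000300000001000080000000000000000000000000000000) (nat_lit 0x0) (nat_lit 0x3c001e00078001c01ce0017800f8011c000000000000000000000000000000) := Q_29 (nat_lit 210) (C_29 L12034 (C_29 L85066 (C_29 L85107 N_29))) (by decide +kernel)
theorem L85109 : W_29 (nat_lit 2) (nat_lit 0x60006800340000001000080000000000000000000000000000000) (nat_lit 0x0) (nat_lit 0x4000a0000000000000000000000000000000000000000000) := D_29 (nat_lit 175) (nat_lit 173) (nat_lit 190) (nat_lit 3) (nat_lit 3) (nat_lit 10) (nat_lit 1) (nat_lit 7) (nat_lit 10) (by decide +kernel)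
theorem L85110 : W_29 (nat_lit 6) (nat_lit 0x60006800300000001000080000000000000000000000000000000) (nat_lit 0x0) (nat_lit 0x1000080006000180004000e0012000800000000000000000000000000000000000) := Q_29 (nat_lit 174) (C_29 L85109 (C_29 L80272 N_29)) (by decide +kernel)
theorem L85111 : W_29 (nat_lit 2) (nat_lit 0x68006000300008001c00080000000000000000000000000000000) (nat_lit 0x0) (nat_lit 0x200110000000000000000000000000000000) := D_29 (nat_lit 141) (nat_lit 124) (nat_lit 128) (nat_lit 4) (nat_lit 6) (nat_lit 11) (nat_lit 2) (nat_lit 5) (nat_lit 8) (by decide +kernel)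
theorem L85112 : W_29 (nat_lit 3) (nat_lit 0x68006000300008001800080000000000000000000000000000000) (nat_lit 0x0) (nat_lit 0x600130000000000000000000000000000000) := T_29 (nat_lit 142) (nat_lit 125) (nat_lit 7) (nat_lit 6) (nat_lit 7) L85111 (by decide +kernel)
theorem L85113 : W_29 (nat_lit 4) (nat_lit 0x68006000300000001800080000000000000000000000000000000) (nat_lit 0x0) (nat_lit 0x400000000000000008000600130000000000000000000000000000000) := T_29 (nat_lit 159) (nat_lit 226) (nat_lit 5) (nat_lit 6) (nat_lit 9) L85112 (by decide +kernel)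
theorem L85114 : W_29 (nat_lit 5) (nat_lit 0x60006000300000001800080000000000000000000000000000000) (nat_lit 0x0) (nat_lit 0x400018000000000008000600130000000000000000000000000000000) := T_29 (nat_lit 207) (nat_lit 208) (nat_lit 2) (nat_lit 3) (nat_lit 12) L85113 (by decide +kernel)
theorem L85115 : W_29 (nat_lit 6) (nat_lit 0x60006000300000001000080000000000000000000000000000000) (nat_lit 0x0) (nat_lit 0x400018000000000018000e00130000000000000000000000000000000) := T_29 (nat_lit 143) (nat_lit 160) (nat_lit 6) (nat_lit 7) (nat_lit 11) L85114 (by decide +kernel)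
theorem L85116 : W_29 (nat_lit 2) (nat_lit 0x400060006000300000001000080000000000000000000000000000000) (nat_lit 0x0) (nat_lit 0x100008000000000001000000000000000000000000000000000000000000000000) := D_29 (nat_lit 243) (nat_lit 192) (nat_lit 260) (nat_lit 6) (nat_lit 5) (nat_lit 14) (nat_lit 6) (nat_lit 5) (nat_lit 15) (by decide +kernel)
theorem L85117 : W_29 (nat_lit 3) (nat_lit 0x60006000300000001000080000000000000000000000000000000) (nat_lit 0x0) (nat_lit 0x100008000400000001000000008000000000000000000000000000000000000000) := T_29 (nat_lit 226) (nat_lit 159) (nat_lit 5) (nat_lit 6) (nat_lit 9) L85116 (by decide +kernel)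
theorem L85118 : W_29 (nat_lit 2) (nat_lit 0x8000000070007800340002001800080000000000000000000000000000000) (nat_lit 0x0) (nat_lit 0x80001000080000000000000000000000000000000000) := D_29 (nat_lit 156) (nat_lit 139) (nat_lit 175) (nat_lit 4) (nat_lit 4) (nat_lit 12) (nat_lit 0) (nat_lit 7) (nat_lit 10) (by decide +kernel)
theorem L85119 : W_29 (nat_lit 3) (nat_lit 0x8000000070007800340000001800080000000000000000000000000000000) (nat_lit 0x0) (nat_lit 0x80003000180000000000000000000000000000000000) := T_29 (nat_lit 157) (nat_lit 140) (nat_lit 7) (nat_lit 4) (nat_lit 8) L85118 (by decide +kernel)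
theorem L85120 : W_29 (nat_lit 4) (nat_lit 0x8000000060007800340000001800080000000000000000000000000000000) (nat_lit 0x0) (nat_lit 0x18000000080003000180000000000000000000000000000000000) := T_29 (nat_lit 208) (nat_lit 207) (nat_lit 2) (nat_lit 3) (nat_lit 12) L85119 (by decide +kernel)
theorem L85121 : W_29 (nat_lit 5) (nat_lit 0x8000000060007800300000001800080000000000000000000000000000000) (nat_lit 0x0) (nat_lit 0x180000000e0003000180000000000000000000000000000000000) := T_29 (nat_lit 174) (nat_lit 173) (nat_lit 0) (nat_lit 7) (nat_lit 11) L85120 (by decide +kernel)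
theorem L85122 : W_29 (nat_lit 6) (nat_lit 0x8000000060007800300000001000080000000000000000000000000000000) (nat_lit 0x0) (nat_lit 0x180000000e0013000980000000000000000000000000000000000) := T_29 (nat_lit 143) (nat_lit 160) (nat_lit 6) (nat_lit 7) (nat_lit 11) L85121 (by decide +kernel)
theorem L85123 : W_29 (nat_lit 7) (nat_lit 0x8000000060007000300000001000080000000000000000000000000000000) (nat_lit 0x0) (nat_lit 0x18000c000e0013000980000000000000000000000000000000000) := T_29 (nat_lit 191) (nat_lit 190) (nat_lit 2) (nat_lit 3) (nat_lit 11) L85122 (by decide +kernel)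
theorem L85124 : W_29 (nat_lit 8) (nat_lit 0x60007000300000001000080000000000000000000000000000000) (nat_lit 0x0) (nat_lit 0x8000400018000c000e0013000980000000000000000000000000000000000) := T_29 (nat_lit 243) (nat_lit 226) (nat_lit 6) (nat_lit 5) (nat_lit 14) L85123 (by decide +kernel)
theorem L85125 : W_29 (nat_lit 2) (nat_lit 0x60006800300000001000080000000000000000000000000000000) (nat_lit 0x0) (nat_lit 0x1400400000000000000000000000000000000000000000000) := D_29 (nat_lit 192) (nat_lit 178) (nat_lit 190) (nat_lit 2) (nat_lit 4) (nat_lit 11) (nat_lit 2) (nat_lit 3) (nat_lit 11) (by decide +kernel)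
theorem L85126 : W_29 (nat_lit 4) (nat_lit 0x8000000070007800300000001800080000000000000000000000000000000) (nat_lit 0x0) (nat_lit 0xe0003000180000000000000000000000000000000000) := T_29 (nat_lit 174) (nat_lit 173) (nat_lit 0) (nat_lit 7) (nat_lit 11) L85119 (by decide +kernel)
theorem L85127 : W_29 (nat_lit 5) (nat_lit 0x8000000070007800300000001000080000000000000000000000000000000) (nat_lit 0x0) (nat_lit 0xe0013000980000000000000000000000000000000000) := T_29 (nat_lit 143) (nat_lit 160) (nat_lit 6) (nat_lit 7) (nat_lit 11) L85126 (by decide +kernel)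
theorem L85128 : W_29 (nat_lit 6) (nat_lit 0x70007800300000001000080000000000000000000000000000000) (nat_lit 0x0) (nat_lit 0x80004000000000000e0013000980000000000000000000000000000000000) := T_29 (nat_lit 243) (nat_lit 226) (nat_lit 6) (nat_lit 5) (nat_lit 14) L85127 (by decide +kernel)
theorem L85129 : W_29 (nat_lit 7) (nat_lit 0x60007800300000001000080000000000000000000000000000000) (nat_lit 0x0) (nat_lit 0x80004000180000000e0013000980000000000000000000000000000000000) := T_29 (nat_lit 208) (nat_lit 207) (nat_lit 2) (nat_lit 3) (nat_lit 12) L85128 (by decide +kernel)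
theorem L85130 : W_29 (nat_lit 8) (nat_lit 0x60006800300000001000080000000000000000000000000000000) (nat_lit 0x0) (nat_lit 0x80004000180010004e0013000980000000000000000000000000000000000) := T_29 (nat_lit 192) (nat_lit 178) (nat_lit 2) (nat_lit 4) (nat_lit 11) L85129 (by decide +kernel)
theorem L85131 : W_29 (nat_lit 9) (nat_lit 0x60006000300000001000080000000000000000000000000000000) (nat_lit 0x0) (nat_lit 0x100008000600018001c004e0013000980000000000000000000000000000000000) := Q_29 (nat_lit 191) (C_29 L85110 (C_29 L85125 (C_29 L85130 N_29))) (by decide +kernel)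
theorem L85132 : W_29 (nat_lit 2) (nat_lit 0x60006000700000001000080000000000000000000000000000000) (nat_lit 0x0) (nat_lit 0x1001800000000000000000000000000000000000000000000) := D_29 (nat_lit 179) (nat_lit 192) (nat_lit 180) (nat_lit 1) (nat_lit 9) (nat_lit 10) (nat_lit 1) (nat_lit 10) (nat_lit 10) (by decide +kernel)
theorem L85136 : W_29 (nat_lit 3) (nat_lit 0x68006000300008001400080000000000000000000000000000000) (nat_lit 0x0) (nat_lit 0x10000a00110000000000000000000000000000000) := T_29 (nat_lit 143) (nat_lit 160) (nat_lit 6) (nat_lit 7) (nat_lit 11) L85111 (by decide +kernel)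
theorem L85137 : W_29 (nat_lit 4) (nat_lit 0x68006000300000001400080000000000000000000000000000000) (nat_lit 0x0) (nat_lit 0x18000a00130000000000000000000000000000000) := T_29 (nat_lit 159) (nat_lit 125) (nat_lit 7) (nat_lit 6) (nat_lit 7) L85136 (by decide +kernel)
theorem L85138 : W_29 (nat_lit 5) (nat_lit 0x60006000300000001400080000000000000000000000000000000) (nat_lit 0x0) (nat_lit 0x18000000000018000a00130000000000000000000000000000000) := T_29 (nat_lit 207) (nat_lit 208) (nat_lit 2) (nat_lit 3) (nat_lit 12) L85137 (by decide +kernel)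
theorem L85139 : W_29 (nat_lit 2) (nat_lit 0x60006000300000001400080000000000000000000000000000000) (nat_lit 0x0) (nat_lit 0x1000000008000000020000000000000000000000000000000) := D_29 (nat_lit 159) (nat_lit 125) (nat_lit 192) (nat_lit 7) (nat_lit 6) (nat_lit 7) (nat_lit 5) (nat_lit 6) (nat_lit 8) (by decide +kernel)
theorem L85140 : W_29 (nat_lit 2) (nat_lit 0x70006000360001001f80088000000020000000000000000000000) (nat_lit 0x0) (nat_lit 0x200000001800000000000000000000000000000000000000000000000) := D_29 (nat_lit 191) (nat_lit 192) (nat_lit 225) (nat_lit 0) (nat_lit 7) (nat_lit 11) (nat_lit 4) (nat_lit 4) (nat_lit 13) (by decide +kernel)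
theorem L85141 : W_29 (nat_lit 3) (nat_lit 0x70006000320001001f80088000000020000000000000000000000) (nat_lit 0x0) (nat_lit 0x2000000018000c0000000000000000000000000000000000000000000) := T_29 (nat_lit 174) (nat_lit 175) (nat_lit 3) (nat_lit 3) (nat_lit 10) L85140 (by decide +kernel)
theorem L85142 : W_29 (nat_lit 4) (nat_lit 0x70006000300001001f80088000000020000000000000000000000) (nat_lit 0x0) (nat_lit 0x200000001c000e0000000000000000000000000000000000000000000) := T_29 (nat_lit 173) (nat_lit 190) (nat_lit 6) (nat_lit 3) (nat_lit 11) L85141 (by decide +kernel)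
theorem L85143 : W_29 (nat_lit 5) (nat_lit 0x70006000300001001f80088000000000000000000000000000000) (nat_lit 0x0) (nat_lit 0x200000001c000e0000000000000000400020000000000000000000000) := T_29 (nat_lit 89) (nat_lit 106) (nat_lit 5) (nat_lit 4) (nat_lit 5) L85142 (by decide +kernel)
theorem L85144 : W_29 (nat_lit 6) (nat_lit 0x70006000300001001f00088000000000000000000000000000000) (nat_lit 0x0) (nat_lit 0x200000001c000e0000800080000000400020000000000000000000000) := T_29 (nat_lit 139) (nat_lit 155) (nat_lit 1) (nat_lit 6) (nat_lit 8) L85143 (by decide +kernel)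
theorem L85145 : W_29 (nat_lit 7) (nat_lit 0x70006000300000001f00088000000000000000000000000000000) (nat_lit 0x0) (nat_lit 0x200000001c000e0003800080000000400020000000000000000000000) := T_29 (nat_lit 156) (nat_lit 157) (nat_lit 1) (nat_lit 7) (nat_lit 8) L85144 (by decide +kernel)
theorem L85146 : W_29 (nat_lit 8) (nat_lit 0x70006000300000001e00088000000000000000000000000000000) (nat_lit 0x0) (nat_lit 0x200000001c000e0003800180004000400020000000000000000000000) := T_29 (nat_lit 140) (nat_lit 122) (nat_lit 0) (nat_lit 7) (nat_lit 8) L85145 (by decide +kernel)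
theorem L85147 : W_29 (nat_lit 9) (nat_lit 0x70006000300000001e00080000000000000000000000000000000) (nat_lit 0x0) (nat_lit 0x200000001c000e000380018001c000400020000000000000000000000) := T_29 (nat_lit 123) (nat_lit 124) (nat_lit 0) (nat_lit 8) (nat_lit 8) L85146 (by decide +kernel)
theorem L85148 : W_29 (nat_lit 10) (nat_lit 0x70006000300000001c00080000000000000000000000000000000) (nat_lit 0x0) (nat_lit 0x200000001c000e000380038011c000400020000000000000000000000) := T_29 (nat_lit 141) (nat_lit 128) (nat_lit 2) (nat_lit 5) (nat_lit 8) L85147 (by decide +kernel)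
theorem L85149 : W_29 (nat_lit 11) (nat_lit 0x60006000300000001c00080000000000000000000000000000000) (nat_lit 0x0) (nat_lit 0x200018001c000e000380038011c000400020000000000000000000000) := T_29 (nat_lit 208) (nat_lit 207) (nat_lit 2) (nat_lit 3) (nat_lit 12) L85148 (by decide +kernel)
theorem L85150 : W_29 (nat_lit 12) (nat_lit 0x60006000300000001400080000000000000000000000000000000) (nat_lit 0x0) (nat_lit 0x200018001c000e0013800b8011c000400020000000000000000000000) := T_29 (nat_lit 143) (nat_lit 160) (nat_lit 6) (nat_lit 7) (nat_lit 11) L85149 (by decide +kernel)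
theorem L85151 : W_29 (nat_lit 13) (nat_lit 0x60006000300000001000080000000000000000000000000000000) (nat_lit 0x0) (nat_lit 0x200018001c000e001b800f8013c000400020000000000000000000000) := Q_29 (nat_lit 142) (C_29 L85138 (C_29 L85139 (C_29 L85150 N_29))) (by decide +kernel)
theorem L85152 : W_29 (nat_lit 14) (nat_lit 0x40006000300000001000080000000000000000000000000000000) (nat_lit 0x0) (nat_lit 0x100008000600038001c004e001b800f8013c000400020000000000000000000000) := Q_29 (nat_lit 209) (C_29 L85115 (C_29 L85117 (C_29 L85131 (C_29 L85151 N_29)))) (by decide +kernel)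
theorem L85153 : W_29 (nat_lit 15) (nat_lit 0x6000300000001000080000000000000000000000000000000) (nat_lit 0x0) (nat_lit 0x100038003e00078001c004e001b800f8013c000400020000000000000000000000) := Q_29 (nat_lit 210) (C_29 L12034 (C_29 L12079 (C_29 L85152 N_29))) (by decide +kernel)
theorem L85154 : W_29 (nat_lit 7) (nat_lit 0x40006000300000001000080000000000000000000000000000000) (nat_lit 0x0) (nat_lit 0x40003800100040001f000e00130000000000000000000000000000000) := Q_29 (nat_lit 159) (C_29 L85001 (C_29 L84496 (C_29 L85045 N_29))) (by decide +kernel)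
theorem L85155 : W_29 (nat_lit 8) (nat_lit 0x6000300000001000080000000000000000000000000000000) (nat_lit 0x0) (nat_lit 0x38003c0007800100040001f000e00130000000000000000000000000000000) := Q_29 (nat_lit 210) (C_29 L12079 (C_29 L12034 (C_29 L85154 N_29))) (by decide +kernel)
theorem L85156 : W_29 (nat_lit 2) (nat_lit 0x7000b00004001e00080000000000000000000000000000000) (nat_lit 0x0) (nat_lit 0x80000000000018000000000000000000000000000000) := D_29 (nat_lit 124) (nat_lit 123) (nat_lit 175) (nat_lit 0) (nat_lit 8) (nat_lit 8) (nat_lit 7) (nat_lit 5) (nat_lit 7) (by decide +kernel)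
theorem L85157 : W_29 (nat_lit 3) (nat_lit 0x7000b00000001e00080000000000000000000000000000000) (nat_lit 0x0) (nat_lit 0x80006000000018000000000000000000000000000000) := T_29 (nat_lit 158) (nat_lit 157) (nat_lit 1) (nat_lit 8) (nat_lit 8) L85156 (by decide +kernel)
theorem L85158 : W_29 (nat_lit 4) (nat_lit 0x7000b00000001c00080000000000000000000000000000000) (nat_lit 0x0) (nat_lit 0x80006000200118000000000000000000000000000000) := T_29 (nat_lit 141) (nat_lit 128) (nat_lit 2) (nat_lit 5) (nat_lit 8) L85157 (by decide +kernel)
theorem L85159 : W_29 (nat_lit 5) (nat_lit 0x7000300000001c00080000000000000000000000000000000) (nat_lit 0x0) (nat_lit 0xc80006000200118000000000000000000000000000000) := T_29 (nat_lit 179) (nat_lit 178) (nat_lit 1) (nat_lit 9) (nat_lit 10) L85158 (by decide +kernel)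
theorem L85160 : W_29 (nat_lit 6) (nat_lit 0x7000300000001400080000000000000000000000000000000) (nat_lit 0x0) (nat_lit 0xc80016000a00118000000000000000000000000000000) := T_29 (nat_lit 143) (nat_lit 160) (nat_lit 6) (nat_lit 7) (nat_lit 11) L85159 (by decide +kernel)
theorem L85161 : W_29 (nat_lit 7) (nat_lit 0x7000300000001000080000000000000000000000000000000) (nat_lit 0x0) (nat_lit 0x20000000c8001e000e00138000000000000000000000000000000) := Q_29 (nat_lit 142) (C_29 L15274 (C_29 L85160 N_29)) (by decide +kernel)
theorem L85162 : W_29 (nat_lit 8) (nat_lit 0x6000300000001000080000000000000000000000000000000) (nat_lit 0x0) (nat_lit 0x4000600038001c00ce001f000f00138000000000000000000000000000000) := Q_29 (nat_lit 192) (C_29 L85161 (C_29 L83282 (C_29 L12149 N_29))) (by decide +kernel)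
theorem L85163 : W_29 (nat_lit 2) (nat_lit 0x70007800340002001800080000000000000000000000000000000) (nat_lit 0x0) (nat_lit 0x80001000080000000000000000000000000000000000) := D_29 (nat_lit 156) (nat_lit 175) (nat_lit 139) (nat_lit 0) (nat_lit 7) (nat_lit 10) (nat_lit 4) (nat_lit 4) (nat_lit 12) (by decide +kernel)
theorem L85164 : W_29 (nat_lit 3) (nat_lit 0x70007800340000001800080000000000000000000000000000000) (nat_lit 0x0) (nat_lit 0x80003000180000000000000000000000000000000000) := T_29 (nat_lit 157) (nat_lit 140) (nat_lit 7) (nat_lit 4) (nat_lit 8) L85163 (by decide +kernel)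
theorem L85165 : W_29 (nat_lit 4) (nat_lit 0x70007800300000001800080000000000000000000000000000000) (nat_lit 0x0) (nat_lit 0xe0003000180000000000000000000000000000000000) := T_29 (nat_lit 174) (nat_lit 173) (nat_lit 0) (nat_lit 7) (nat_lit 11) L85164 (by decide +kernel)
theorem L85166 : W_29 (nat_lit 5) (nat_lit 0x70007000300000001800080000000000000000000000000000000) (nat_lit 0x0) (nat_lit 0xc000e0003000180000000000000000000000000000000000) := T_29 (nat_lit 191) (nat_lit 190) (nat_lit 2) (nat_lit 3) (nat_lit 11) L85165 (by decide +kernel)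
theorem L85167 : W_29 (nat_lit 6) (nat_lit 0x60007000300000001800080000000000000000000000000000000) (nat_lit 0x0) (nat_lit 0x18000c000e0003000180000000000000000000000000000000000) := T_29 (nat_lit 208) (nat_lit 207) (nat_lit 2) (nat_lit 3) (nat_lit 12) L85166 (by decide +kernel)
theorem L85168 : W_29 (nat_lit 7) (nat_lit 0x60007000300000001000080000000000000000000000000000000) (nat_lit 0x0) (nat_lit 0x18000c000e0013000980000000000000000000000000000000000) := T_29 (nat_lit 143) (nat_lit 160) (nat_lit 6) (nat_lit 7) (nat_lit 11) L85167 (by decide +kernel)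
theorem L85169 : W_29 (nat_lit 9) (nat_lit 0x40007000300000001000080000000000000000000000000000000) (nat_lit 0x0) (nat_lit 0x8000400038000c000e001b000980000000000000000000000000000000000) := Q_29 (nat_lit 209) (C_29 L83293 (C_29 L85124 (C_29 L85168 N_29))) (by decide +kernel)
theorem L85170 : W_29 (nat_lit 2) (nat_lit 0x68007000700014001000080000000000000000000000000000000) (nat_lit 0x0) (nat_lit 0xa000200000000000000000000000000000000000) := D_29 (nat_lit 159) (nat_lit 141) (nat_lit 157) (nat_lit 4) (nat_lit 6) (nat_lit 12) (nat_lit 3) (nat_lit 4) (nat_lit 9) (by decide +kernel)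
theorem L85171 : W_29 (nat_lit 3) (nat_lit 0x68007000300014001000080000000000000000000000000000000) (nat_lit 0x0) (nat_lit 0xc0000a000200000000000000000000000000000000000) := T_29 (nat_lit 178) (nat_lit 179) (nat_lit 1) (nat_lit 9) (nat_lit 10) L85170 (by decide +kernel)
theorem L85172 : W_29 (nat_lit 4) (nat_lit 0x60007000300014001000080000000000000000000000000000000) (nat_lit 0x0) (nat_lit 0x18000000c0000a000200000000000000000000000000000000000) := T_29 (nat_lit 207) (nat_lit 208) (nat_lit 2) (nat_lit 3) (nat_lit 12) L85171 (by decide +kernel)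
theorem L85173 : W_29 (nat_lit 5) (nat_lit 0x60007000300004001000080000000000000000000000000000000) (nat_lit 0x0) (nat_lit 0x18000000c0001a000a00000000000000000000000000000000000) := T_29 (nat_lit 160) (nat_lit 143) (nat_lit 6) (nat_lit 7) (nat_lit 11) L85172 (by decide +kernel)
theorem L85174 : W_29 (nat_lit 2) (nat_lit 0x70007000b80016001000080000000000000000000000000000000) (nat_lit 0x0) (nat_lit 0x40009000000000000000000000000000000000000000) := D_29 (nat_lit 156) (nat_lit 159) (nat_lit 174) (nat_lit 3) (nat_lit 3) (nat_lit 9) (nat_lit 0) (nat_lit 7) (nat_lit 10) (by decide +kernel)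
theorem L85175 : W_29 (nat_lit 3) (nat_lit 0x70007000b80014001000080000000000000000000000000000000) (nat_lit 0x0) (nat_lit 0x4000b000100000000000000000000000000000000000) := T_29 (nat_lit 157) (nat_lit 140) (nat_lit 4) (nat_lit 5) (nat_lit 12) L85174 (by decide +kernel)
theorem L85176 : W_29 (nat_lit 4) (nat_lit 0x70007000b00014001000080000000000000000000000000000000) (nat_lit 0x0) (nat_lit 0x2000000000000c000b000100000000000000000000000000000000000) := T_29 (nat_lit 175) (nat_lit 225) (nat_lit 5) (nat_lit 5) (nat_lit 9) L85175 (by decide +kernel)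
theorem L85177 : W_29 (nat_lit 5) (nat_lit 0x60007000b00014001000080000000000000000000000000000000) (nat_lit 0x0) (nat_lit 0x2000180000000c000b000100000000000000000000000000000000000) := T_29 (nat_lit 208) (nat_lit 207) (nat_lit 2) (nat_lit 3) (nat_lit 12) L85176 (by decide +kernel)
theorem L85178 : W_29 (nat_lit 6) (nat_lit 0x60007000b00004001000080000000000000000000000000000000) (nat_lit 0x0) (nat_lit 0x2000180000000c001b000900000000000000000000000000000000000) := T_29 (nat_lit 160) (nat_lit 143) (nat_lit 6) (nat_lit 7) (nat_lit 11) L85177 (by decide +kernel)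
theorem L85179 : W_29 (nat_lit 7) (nat_lit 0x60007000300004001000080000000000000000000000000000000) (nat_lit 0x0) (nat_lit 0x200018000000cc001b000900000000000000000000000000000000000) := T_29 (nat_lit 179) (nat_lit 178) (nat_lit 1) (nat_lit 9) (nat_lit 10) L85178 (by decide +kernel)
theorem L85180 : W_29 (nat_lit 8) (nat_lit 0x60007000300000001000080000000000000000000000000000000) (nat_lit 0x0) (nat_lit 0x200018000000cc001f800b00000000000000000000000000000000000) := Q_29 (nat_lit 158) (C_29 L85173 (C_29 L83294 (C_29 L79791 (C_29 L85179 N_29)))) (by decide +kernel)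
theorem L85181 : W_29 (nat_lit 9) (nat_lit 0x40007000300000001000080000000000000000000000000000000) (nat_lit 0x0) (nat_lit 0x8000600038000000ce001f800b00000000000000000000000000000000000) := Q_29 (nat_lit 209) (C_29 L83293 (C_29 L82952 (C_29 L85180 N_29))) (by decide +kernel)
theorem L85182 : W_29 (nat_lit 10) (nat_lit 0x40006000300000001000080000000000000000000000000000000) (nat_lit 0x0) (nat_lit 0x8000600038001c00ce001f800b80000000000000000000000000000000000) := Q_29 (nat_lit 192) (C_29 L85067 (C_29 L85169 (C_29 L85181 N_29))) (by decide +kernel)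
theorem L85183 : W_29 (nat_lit 11) (nat_lit 0x6000300000001000080000000000000000000000000000000) (nat_lit 0x0) (nat_lit 0x38003e00078001c00ce001f800b80000000000000000000000000000000000) := Q_29 (nat_lit 210) (C_29 L12079 (C_29 L85066 (C_29 L84998 (C_29 L12034 (C_29 L85182 N_29))))) (by decide +kernel)
theorem L85184 : W_29 (nat_lit 6) (nat_lit 0x6000700000001800080000000000000000000000000000000) (nat_lit 0x0) (nat_lit 0x3000180000c000600130000000000000000000000000000000) := T_29 (nat_lit 179) (nat_lit 180) (nat_lit 1) (nat_lit 10) (nat_lit 10) L84994 (by decide +kernel)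
theorem L85185 : W_29 (nat_lit 7) (nat_lit 0x6000700000001000080000000000000000000000000000000) (nat_lit 0x0) (nat_lit 0x3000180001c000e00130000000000000000000000000000000) := T_29 (nat_lit 143) (nat_lit 160) (nat_lit 6) (nat_lit 7) (nat_lit 11) L85184 (by decide +kernel)
theorem L85186 : W_29 (nat_lit 8) (nat_lit 0x6000300000001000080000000000000000000000000000000) (nat_lit 0x0) (nat_lit 0x40031c01ce001f000e00130000000000000000000000000000000) := Q_29 (nat_lit 178) (C_29 L8242 (C_29 L82963 (C_29 L85185 N_29))) (by decide +kernel)
theorem L85187 : W_29 (nat_lit 2) (nat_lit 0x6800700030001e001000080000000000000000000000000000000) (nat_lit 0x0) (nat_lit 0x80000000180000000000000000000000000000000000) := D_29 (nat_lit 140) (nat_lit 139) (nat_lit 175) (nat_lit 0) (nat_lit 7) (nat_lit 9) (nat_lit 4) (nat_lit 5) (nat_lit 12) (by decide +kernel)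
theorem L85188 : W_29 (nat_lit 3) (nat_lit 0x6800700030001c001000080000000000000000000000000000000) (nat_lit 0x0) (nat_lit 0x80003000180000000000000000000000000000000000) := T_29 (nat_lit 157) (nat_lit 156) (nat_lit 3) (nat_lit 3) (nat_lit 9) L85187 (by decide +kernel)
theorem L85189 : W_29 (nat_lit 4) (nat_lit 0x40007000380000001000080000000000000000000000000000000) (nat_lit 0x0) (nat_lit 0xc60007000000000000000000000000000000000000000) := T_29 (nat_lit 174) (nat_lit 173) (nat_lit 3) (nat_lit 3) (nat_lit 10) L82944 (by decide +kernel)
theorem L85191 : W_29 (nat_lit 2) (nat_lit 0x70007000780010001000080000000000000000000000000000000) (nat_lit 0x0) (nat_lit 0x200000000000000006000000000000000000000000000000000000000) := D_29 (nat_lit 158) (nat_lit 157) (nat_lit 225) (nat_lit 0) (nat_lit 8) (nat_lit 10) (nat_lit 5) (nat_lit 5) (nat_lit 9) (by decide +kernel)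
theorem L85192 : W_29 (nat_lit 3) (nat_lit 0x60007000780010001000080000000000000000000000000000000) (nat_lit 0x0) (nat_lit 0x200018000000000006000000000000000000000000000000000000000) := T_29 (nat_lit 208) (nat_lit 207) (nat_lit 2) (nat_lit 3) (nat_lit 12) L85191 (by decide +kernel)
theorem L85193 : W_29 (nat_lit 4) (nat_lit 0x60007000780000001000080000000000000000000000000000000) (nat_lit 0x0) (nat_lit 0x200018000000000016000800000000000000000000000000000000000) := T_29 (nat_lit 160) (nat_lit 143) (nat_lit 6) (nat_lit 7) (nat_lit 11) L85192 (by decide +kernel)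
theorem L85194 : W_29 (nat_lit 5) (nat_lit 0x60006000780000001000080000000000000000000000000000000) (nat_lit 0x0) (nat_lit 0x200018001800000016000800000000000000000000000000000000000) := T_29 (nat_lit 192) (nat_lit 191) (nat_lit 2) (nat_lit 4) (nat_lit 11) L85193 (by decide +kernel)
theorem L85195 : W_29 (nat_lit 2) (nat_lit 0x60006800780000001000080000000000000000000000000000000) (nat_lit 0x0) (nat_lit 0x400060000000000000000000000000000000000000000000) := D_29 (nat_lit 174) (nat_lit 190) (nat_lit 173) (nat_lit 1) (nat_lit 7) (nat_lit 10) (nat_lit 3) (nat_lit 3) (nat_lit 10) (by decide +kernel)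
theorem L85196 : W_29 (nat_lit 3) (nat_lit 0x60006000780000001000080000000000000000000000000000000) (nat_lit 0x0) (nat_lit 0x1c00060000000000000000000000000000000000000000000) := T_29 (nat_lit 191) (nat_lit 192) (nat_lit 2) (nat_lit 4) (nat_lit 11) L85195 (by decide +kernel)
theorem L85197 : W_29 (nat_lit 6) (nat_lit 0x60006000700000001000080000000000000000000000000000000) (nat_lit 0x0) (nat_lit 0x200018001c000e0017000800000000000000000000000000000000000) := Q_29 (nat_lit 175) (C_29 L85194 (C_29 L80249 (C_29 L85196 N_29))) (by decide +kernel)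
theorem L85198 : W_29 (nat_lit 2) (nat_lit 0x8000400070006000340010001000080000000000000000000000000000000) (nat_lit 0x0) (nat_lit 0x200000000800000002000000000000000000000000000000000000000) := D_29 (nat_lit 191) (nat_lit 157) (nat_lit 225) (nat_lit 7) (nat_lit 4) (nat_lit 9) (nat_lit 7) (nat_lit 4) (nat_lit 10) (by decide +kernel)
theorem L85199 : W_29 (nat_lit 3) (nat_lit 0x400070006000340010001000080000000000000000000000000000000) (nat_lit 0x0) (nat_lit 0x100008000200000000800000002000000000000000000000000000000000000000) := T_29 (nat_lit 243) (nat_lit 260) (nat_lit 6) (nat_lit 5) (nat_lit 15) L85198 (by decide +kernel)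
theorem L85200 : W_29 (nat_lit 4) (nat_lit 0x400060006000340010001000080000000000000000000000000000000) (nat_lit 0x0) (nat_lit 0x100008000200018000800000002000000000000000000000000000000000000000) := T_29 (nat_lit 208) (nat_lit 207) (nat_lit 2) (nat_lit 3) (nat_lit 12) L85199 (by decide +kernel)
theorem L85201 : W_29 (nat_lit 5) (nat_lit 0x60006000340010001000080000000000000000000000000000000) (nat_lit 0x0) (nat_lit 0x10000800060001800080000000a000000000000000000000000000000000000000) := T_29 (nat_lit 226) (nat_lit 159) (nat_lit 5) (nat_lit 6) (nat_lit 9) L85200 (by decide +kernel)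
theorem L85202 : W_29 (nat_lit 6) (nat_lit 0x60006000340000001000080000000000000000000000000000000) (nat_lit 0x0) (nat_lit 0x10000800060001800080000001a000800000000000000000000000000000000000) := T_29 (nat_lit 160) (nat_lit 143) (nat_lit 6) (nat_lit 7) (nat_lit 11) L85201 (by decide +kernel)
theorem L85203 : W_29 (nat_lit 4) (nat_lit 0x6800600036001a001000080000000000000000000000000000000) (nat_lit 0x0) (nat_lit 0x100000000400000001000500028000000000000000000000000000000) := T_29 (nat_lit 125) (nat_lit 142) (nat_lit 7) (nat_lit 6) (nat_lit 7) L85004 (by decide +kernel)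
theorem L85204 : W_29 (nat_lit 5) (nat_lit 0x68006000360018001000080000000000000000000000000000000) (nat_lit 0x0) (nat_lit 0x100000000400000007000500028000000000000000000000000000000) := T_29 (nat_lit 157) (nat_lit 158) (nat_lit 1) (nat_lit 7) (nat_lit 9) L85203 (by decide +kernel)
theorem L85205 : W_29 (nat_lit 6) (nat_lit 0x68006000360010001000080000000000000000000000000000000) (nat_lit 0x0) (nat_lit 0x50000000040000000f000500028000000000000000000000000000000) := T_29 (nat_lit 159) (nat_lit 226) (nat_lit 5) (nat_lit 6) (nat_lit 9) L85204 (by decide +kernel)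
theorem L85206 : W_29 (nat_lit 7) (nat_lit 0x68006000360000001000080000000000000000000000000000000) (nat_lit 0x0) (nat_lit 0x50000000040000001f000d00028000000000000000000000000000000) := T_29 (nat_lit 160) (nat_lit 143) (nat_lit 6) (nat_lit 7) (nat_lit 11) L85205 (by decide +kernel)
theorem L85207 : W_29 (nat_lit 8) (nat_lit 0x68006000340000001000080000000000000000000000000000000) (nat_lit 0x0) (nat_lit 0x5000000004000a001f000d00028000000000000000000000000000000) := T_29 (nat_lit 173) (nat_lit 175) (nat_lit 3) (nat_lit 3) (nat_lit 10) L85206 (by decide +kernel)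
theorem L85208 : W_29 (nat_lit 9) (nat_lit 0x60006000340000001000080000000000000000000000000000000) (nat_lit 0x0) (nat_lit 0x5000180004000a001f000d00028000000000000000000000000000000) := T_29 (nat_lit 207) (nat_lit 208) (nat_lit 2) (nat_lit 3) (nat_lit 12) L85207 (by decide +kernel)
theorem L85209 : W_29 (nat_lit 2) (nat_lit 0x1000000006000700068003c0010001000080000000000000000000000000000000) (nat_lit 0x0) (nat_lit 0x2000180000000000000000000000000000000000000000000000000000000) := D_29 (nat_lit 224) (nat_lit 241) (nat_lit 223) (nat_lit 5) (nat_lit 4) (nat_lit 10) (nat_lit 2) (nat_lit 2) (nat_lit 13) (by decide +kernel)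
theorem L85210 : W_29 (nat_lit 3) (nat_lit 0x1000000004000700068003c0010001000080000000000000000000000000000000) (nat_lit 0x0) (nat_lit 0x2000380000000000000004000000000000000000000000000000000000000) := T_29 (nat_lit 225) (nat_lit 158) (nat_lit 6) (nat_lit 4) (nat_lit 13) L85209 (by decide +kernel)
theorem L85211 : W_29 (nat_lit 4) (nat_lit 0x1000000004000700060003c0010001000080000000000000000000000000000000) (nat_lit 0x0) (nat_lit 0x2000380000000c00000004000000000000000000000000000000000000000) := T_29 (nat_lit 191) (nat_lit 190) (nat_lit 1) (nat_lit 7) (nat_lit 10) L85210 (by decide +kernel)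
theorem L85212 : W_29 (nat_lit 5) (nat_lit 0x100000000400070006000340010001000080000000000000000000000000000000) (nat_lit 0x0) (nat_lit 0x2000380000000c000a0004000000000000000000000000000000000000000) := T_29 (nat_lit 175) (nat_lit 173) (nat_lit 3) (nat_lit 3) (nat_lit 10) L85211 (by decide +kernel)
theorem L85213 : W_29 (nat_lit 6) (nat_lit 0x100000000400070006000340000001000080000000000000000000000000000000) (nat_lit 0x0) (nat_lit 0x2000380000000c000a0014000800000000000000000000000000000000000) := T_29 (nat_lit 160) (nat_lit 143) (nat_lit 6) (nat_lit 7) (nat_lit 11) L85212 (by decide +kernel)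
theorem L85214 : W_29 (nat_lit 7) (nat_lit 0x400070006000340000001000080000000000000000000000000000000) (nat_lit 0x0) (nat_lit 0x10000a000380000000c000a0014000800000000000000000000000000000000000) := T_29 (nat_lit 260) (nat_lit 243) (nat_lit 6) (nat_lit 5) (nat_lit 15) L85213 (by decide +kernel)
theorem L85215 : W_29 (nat_lit 8) (nat_lit 0x400060006000340000001000080000000000000000000000000000000) (nat_lit 0x0) (nat_lit 0x10000a000380018000c000a0014000800000000000000000000000000000000000) := T_29 (nat_lit 208) (nat_lit 207) (nat_lit 2) (nat_lit 3) (nat_lit 12) L85214 (by decide +kernel)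
theorem L85216 : W_29 (nat_lit 9) (nat_lit 0x60006000340000001000080000000000000000000000000000000) (nat_lit 0x0) (nat_lit 0x10000a000780018000c000a001c000800000000000000000000000000000000000) := T_29 (nat_lit 226) (nat_lit 159) (nat_lit 5) (nat_lit 6) (nat_lit 9) L85215 (by decide +kernel)
theorem L85217 : W_29 (nat_lit 2) (nat_lit 0x6000600034001a001000080000000000000000000000000000000) (nat_lit 0x0) (nat_lit 0x420004000000000000000000000000000000000000000) := D_29 (nat_lit 158) (nat_lit 178) (nat_lit 173) (nat_lit 3) (nat_lit 4) (nat_lit 9) (nat_lit 1) (nat_lit 7) (nat_lit 9) (by decide +kernel)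
theorem L85218 : W_29 (nat_lit 3) (nat_lit 0x60006000340012001000080000000000000000000000000000000) (nat_lit 0x0) (nat_lit 0x40000000000042000c000000000000000000000000000000000000000) := T_29 (nat_lit 159) (nat_lit 226) (nat_lit 5) (nat_lit 6) (nat_lit 9) L85217 (by decide +kernel)
theorem L85219 : W_29 (nat_lit 4) (nat_lit 0x60006000340002001000080000000000000000000000000000000) (nat_lit 0x0) (nat_lit 0x40000000000042001c000800000000000000000000000000000000000) := T_29 (nat_lit 160) (nat_lit 143) (nat_lit 6) (nat_lit 7) (nat_lit 11) L85218 (by decide +kernel)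
theorem L85220 : W_29 (nat_lit 2) (nat_lit 0x6000600034000a001000080000000000000000000000000000000) (nat_lit 0x0) (nat_lit 0x80005000000000000000000000000000000000000000) := D_29 (nat_lit 156) (nat_lit 158) (nat_lit 175) (nat_lit 3) (nat_lit 3) (nat_lit 9) (nat_lit 0) (nat_lit 7) (nat_lit 10) (by decide +kernel)
theorem L85221 : W_29 (nat_lit 3) (nat_lit 0x60006000340002001000080000000000000000000000000000000) (nat_lit 0x0) (nat_lit 0x40000000000008000d000000000000000000000000000000000000000) := T_29 (nat_lit 159) (nat_lit 226) (nat_lit 5) (nat_lit 6) (nat_lit 9) L85220 (by decide +kernel)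
theorem L85222 : W_29 (nat_lit 5) (nat_lit 0x60006000340000001000080000000000000000000000000000000) (nat_lit 0x0) (nat_lit 0x4000000000004a001f000800000000000000000000000000000000000) := Q_29 (nat_lit 157) (C_29 L80274 (C_29 L85219 (C_29 L85221 N_29))) (by decide +kernel)
theorem L85223 : W_29 (nat_lit 2) (nat_lit 0x700068003c0012001000080000000000000000000000000000000) (nat_lit 0x0) (nat_lit 0x200000000000400004000000000000000000000000000000000000000) := D_29 (nat_lit 158) (nat_lit 225) (nat_lit 178) (nat_lit 6) (nat_lit 4) (nat_lit 13) (nat_lit 0) (nat_lit 8) (nat_lit 10) (by decide +kernel)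
theorem L85224 : W_29 (nat_lit 3) (nat_lit 0x700068003c0010001000080000000000000000000000000000000) (nat_lit 0x0) (nat_lit 0x200000000000400007000000000000000000000000000000000000000) := T_29 (nat_lit 157) (nat_lit 156) (nat_lit 0) (nat_lit 7) (nat_lit 10) L85223 (by decide +kernel)
theorem L85225 : W_29 (nat_lit 4) (nat_lit 0x700060003c0010001000080000000000000000000000000000000) (nat_lit 0x0) (nat_lit 0x200000000c00400007000000000000000000000000000000000000000) := T_29 (nat_lit 191) (nat_lit 190) (nat_lit 1) (nat_lit 7) (nat_lit 10) L85224 (by decide +kernel)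
theorem L85226 : W_29 (nat_lit 5) (nat_lit 0x700060003c0000001000080000000000000000000000000000000) (nat_lit 0x0) (nat_lit 0x200000000c00400017000800000000000000000000000000000000000) := T_29 (nat_lit 160) (nat_lit 143) (nat_lit 6) (nat_lit 7) (nat_lit 11) L85225 (by decide +kernel)
theorem L85227 : W_29 (nat_lit 6) (nat_lit 0x70006000340000001000080000000000000000000000000000000) (nat_lit 0x0) (nat_lit 0x200000000c004a0017000800000000000000000000000000000000000) := T_29 (nat_lit 175) (nat_lit 173) (nat_lit 3) (nat_lit 3) (nat_lit 10) L85226 (by decide +kernel)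
theorem L85228 : W_29 (nat_lit 7) (nat_lit 0x60006000340000001000080000000000000000000000000000000) (nat_lit 0x0) (nat_lit 0x200018000c004a0017000800000000000000000000000000000000000) := T_29 (nat_lit 208) (nat_lit 207) (nat_lit 2) (nat_lit 3) (nat_lit 12) L85227 (by decide +kernel)
theorem L85229 : W_29 (nat_lit 10) (nat_lit 0x60006000300000001000080000000000000000000000000000000) (nat_lit 0x0) (nat_lit 0x10000a000780018000c004e001f000d00028000000000000000000000000000000) := Q_29 (nat_lit 174) (C_29 L80273 (C_29 L85202 (C_29 L85208 (C_29 L85216 (C_29 L85222 (C_29 L85228 N_29)))))) (by decide +kernel)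
theorem L85230 : W_29 (nat_lit 2) (nat_lit 0x70016000fc0054001000080000000000000000000000000000000) (nat_lit 0x0) (nat_lit 0x200000000c00000000000000000000000000000000000000000000000) := D_29 (nat_lit 191) (nat_lit 190) (nat_lit 225) (nat_lit 1) (nat_lit 7) (nat_lit 10) (nat_lit 6) (nat_lit 4) (nat_lit 13) (by decide +kernel)
theorem L85231 : W_29 (nat_lit 3) (nat_lit 0x70016000f80054001000080000000000000000000000000000000) (nat_lit 0x0) (nat_lit 0x200000000c00060000000000000000000000000000000000000000000) := T_29 (nat_lit 174) (nat_lit 173) (nat_lit 3) (nat_lit 3) (nat_lit 10) L85230 (by decide +kernel)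
theorem L85232 : W_29 (nat_lit 4) (nat_lit 0x70016000f00054001000080000000000000000000000000000000) (nat_lit 0x0) (nat_lit 0x200000000c000e0002000000000000000000000000000000000000000) := T_29 (nat_lit 175) (nat_lit 157) (nat_lit 0) (nat_lit 8) (nat_lit 10) L85231 (by decide +kernel)
theorem L85233 : W_29 (nat_lit 5) (nat_lit 0x70016000f00050001000080000000000000000000000000000000) (nat_lit 0x0) (nat_lit 0x200000000c000e000e000000000000000000000000000000000000000) := T_29 (nat_lit 158) (nat_lit 159) (nat_lit 0) (nat_lit 9) (nat_lit 10) L85232 (by decide +kernel)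
theorem L85234 : W_29 (nat_lit 6) (nat_lit 0x70016000f00010001000080000000000000000000000000000000) (nat_lit 0x0) (nat_lit 0x200000000c000e00ce000000000000000000000000000000000000000) := T_29 (nat_lit 162) (nat_lit 163) (nat_lit 2) (nat_lit 6) (nat_lit 10) L85233 (by decide +kernel)
theorem L85235 : W_29 (nat_lit 7) (nat_lit 0x70006000f00010001000080000000000000000000000000000000) (nat_lit 0x0) (nat_lit 0x200000030c000e00ce000000000000000000000000000000000000000) := T_29 (nat_lit 196) (nat_lit 197) (nat_lit 3) (nat_lit 6) (nat_lit 10) L85234 (by decide +kernel)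
theorem L85236 : W_29 (nat_lit 8) (nat_lit 0x70006000700010001000080000000000000000000000000000000) (nat_lit 0x0) (nat_lit 0x200000030c018e00ce000000000000000000000000000000000000000) := T_29 (nat_lit 179) (nat_lit 180) (nat_lit 1) (nat_lit 10) (nat_lit 10) L85235 (by decide +kernel)
theorem L85237 : W_29 (nat_lit 9) (nat_lit 0x60006000700010001000080000000000000000000000000000000) (nat_lit 0x0) (nat_lit 0x200018030c018e00ce000000000000000000000000000000000000000) := T_29 (nat_lit 208) (nat_lit 207) (nat_lit 2) (nat_lit 3) (nat_lit 12) L85236 (by decide +kernel)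
theorem L85238 : W_29 (nat_lit 10) (nat_lit 0x60006000700000001000080000000000000000000000000000000) (nat_lit 0x0) (nat_lit 0x200018030c018e00de000800000000000000000000000000000000000) := T_29 (nat_lit 160) (nat_lit 143) (nat_lit 6) (nat_lit 7) (nat_lit 11) L85237 (by decide +kernel)
theorem L85239 : W_29 (nat_lit 11) (nat_lit 0x60006000300000001000080000000000000000000000000000000) (nat_lit 0x0) (nat_lit 0x200018031c01ce00df000800000000000000000000000000000000000) := Q_29 (nat_lit 178) (C_29 L85132 (C_29 L85197 (C_29 L85238 N_29))) (by decide +kernel)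
theorem L85240 : W_29 (nat_lit 12) (nat_lit 0x40006000300000001000080000000000000000000000000000000) (nat_lit 0x0) (nat_lit 0x10000a000780038031c01ce00df000d80028000000000000000000000000000000) := Q_29 (nat_lit 209) (C_29 L85229 (C_29 L85117 (C_29 L85131 (C_29 L85239 N_29)))) (by decide +kernel)
theorem L85241 : W_29 (nat_lit 13) (nat_lit 0x6000300000001000080000000000000000000000000000000) (nat_lit 0x0) (nat_lit 0x10003a003f80078031c01ce00df000d80028000000000000000000000000000000) := Q_29 (nat_lit 210) (C_29 L12079 (C_29 L85066 (C_29 L12034 (C_29 L85240 N_29)))) (by decide +kernel)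
theorem L85242 : W_29 (nat_lit 2) (nat_lit 0x40006000780000001200080000000000000000000000000000000) (nat_lit 0x0) (nat_lit 0xc000000010000000000000000000000000000000) := D_29 (nat_lit 158) (nat_lit 159) (nat_lit 124) (nat_lit 4) (nat_lit 6) (nat_lit 12) (nat_lit 7) (nat_lit 5) (nat_lit 7) (by decide +kernel)
theorem L85243 : W_29 (nat_lit 2) (nat_lit 0x400060007a0000001a00090000000000000000000000000000000) (nat_lit 0x0) (nat_lit 0x400108000000000000000000000000000000) := D_29 (nat_lit 142) (nat_lit 128) (nat_lit 123) (nat_lit 2) (nat_lit 5) (nat_lit 8) (nat_lit 0) (nat_lit 8) (nat_lit 8) (by decide +kernel)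
theorem L85244 : W_29 (nat_lit 3) (nat_lit 0x400060007a0000001200090000000000000000000000000000000) (nat_lit 0x0) (nat_lit 0x10000c00108000000000000000000000000000000) := T_29 (nat_lit 143) (nat_lit 160) (nat_lit 6) (nat_lit 7) (nat_lit 11) L85243 (by decide +kernel)
theorem L85245 : W_29 (nat_lit 4) (nat_lit 0x400060007a0000001200080000000000000000000000000000000) (nat_lit 0x0) (nat_lit 0x14000c00118000000000000000000000000000000) := T_29 (nat_lit 124) (nat_lit 158) (nat_lit 7) (nat_lit 5) (nat_lit 7) L85244 (by decide +kernel)
theorem L85246 : W_29 (nat_lit 5) (nat_lit 0x40006000780000001200080000000000000000000000000000000) (nat_lit 0x0) (nat_lit 0x60014000c00118000000000000000000000000000000) := T_29 (nat_lit 173) (nat_lit 174) (nat_lit 3) (nat_lit 3) (nat_lit 10) L85245 (by decide +kernel)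
theorem L85247 : W_29 (nat_lit 2) (nat_lit 0x40006000780000001e00080000000000000000000000000000000) (nat_lit 0x0) (nat_lit 0x8000000018000000000000000000000000000000) := D_29 (nat_lit 124) (nat_lit 123) (nat_lit 159) (nat_lit 0) (nat_lit 8) (nat_lit 8) (nat_lit 4) (nat_lit 6) (nat_lit 11) (by decide +kernel)
theorem L85248 : W_29 (nat_lit 3) (nat_lit 0x40006000780000001a00080000000000000000000000000000000) (nat_lit 0x0) (nat_lit 0x8000400118000000000000000000000000000000) := T_29 (nat_lit 142) (nat_lit 128) (nat_lit 2) (nat_lit 5) (nat_lit 8) L85247 (by decide +kernel)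
theorem L85249 : W_29 (nat_lit 4) (nat_lit 0x40006000780000001200080000000000000000000000000000000) (nat_lit 0x0) (nat_lit 0x18000c00118000000000000000000000000000000) := T_29 (nat_lit 143) (nat_lit 160) (nat_lit 6) (nat_lit 7) (nat_lit 11) L85248 (by decide +kernel)
theorem L85250 : W_29 (nat_lit 2) (nat_lit 0x40006000780008001a00080000000000000000000000000000000) (nat_lit 0x0) (nat_lit 0x400120000000000000000000000000000000) := D_29 (nat_lit 142) (nat_lit 128) (nat_lit 125) (nat_lit 2) (nat_lit 5) (nat_lit 8) (nat_lit 7) (nat_lit 6) (nat_lit 7) (by decide +kernel)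
theorem L85251 : W_29 (nat_lit 3) (nat_lit 0x40006000780000001a00080000000000000000000000000000000) (nat_lit 0x0) (nat_lit 0xc000400120000000000000000000000000000000) := T_29 (nat_lit 159) (nat_lit 158) (nat_lit 4) (nat_lit 6) (nat_lit 12) L85250 (by decide +kernel)
theorem L85252 : W_29 (nat_lit 4) (nat_lit 0x40006000780000001200080000000000000000000000000000000) (nat_lit 0x0) (nat_lit 0x1c000c00120000000000000000000000000000000) := T_29 (nat_lit 143) (nat_lit 160) (nat_lit 6) (nat_lit 7) (nat_lit 11) L85251 (by decide +kernel)
theorem L85253 : W_29 (nat_lit 6) (nat_lit 0x40006000780000001000080000000000000000000000000000000) (nat_lit 0x0) (nat_lit 0x6001c000e00138000000000000000000000000000000) := Q_29 (nat_lit 141) (C_29 L85242 (C_29 L85246 (C_29 L85249 (C_29 L85252 N_29)))) (by decide +kernel)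
theorem L85254 : W_29 (nat_lit 2) (nat_lit 0x40007000780000001e00080000000000000000000000000000000) (nat_lit 0x0) (nat_lit 0x8000000018000000000000000000000000000000) := D_29 (nat_lit 124) (nat_lit 123) (nat_lit 159) (nat_lit 0) (nat_lit 8) (nat_lit 8) (nat_lit 4) (nat_lit 6) (nat_lit 11) (by decide +kernel)
theorem L85255 : W_29 (nat_lit 3) (nat_lit 0x40007000780000001a00080000000000000000000000000000000) (nat_lit 0x0) (nat_lit 0x8000400118000000000000000000000000000000) := T_29 (nat_lit 142) (nat_lit 128) (nat_lit 2) (nat_lit 5) (nat_lit 8) L85254 (by decide +kernel)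
theorem L85256 : W_29 (nat_lit 4) (nat_lit 0x40007000780000001800080000000000000000000000000000000) (nat_lit 0x0) (nat_lit 0xc000600118000000000000000000000000000000) := T_29 (nat_lit 141) (nat_lit 158) (nat_lit 7) (nat_lit 5) (nat_lit 8) L85255 (by decide +kernel)
theorem L85257 : W_29 (nat_lit 5) (nat_lit 0x40006000780000001800080000000000000000000000000000000) (nat_lit 0x0) (nat_lit 0x180000000c000600118000000000000000000000000000000) := T_29 (nat_lit 192) (nat_lit 191) (nat_lit 2) (nat_lit 4) (nat_lit 11) L85256 (by decide +kernel)
theorem L85258 : W_29 (nat_lit 6) (nat_lit 0x40006000780000001000080000000000000000000000000000000) (nat_lit 0x0) (nat_lit 0x180000001c000e00118000000000000000000000000000000) := T_29 (nat_lit 143) (nat_lit 160) (nat_lit 6) (nat_lit 7) (nat_lit 11) L85257 (by decide +kernel)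
theorem L85259 : W_29 (nat_lit 7) (nat_lit 0x40006000700000001000080000000000000000000000000000000) (nat_lit 0x0) (nat_lit 0x1c000e001c000e00138000000000000000000000000000000) := Q_29 (nat_lit 175) (C_29 L85085 (C_29 L85253 (C_29 L85258 N_29))) (by decide +kernel)
theorem L85260 : W_29 (nat_lit 2) (nat_lit 0x68016000f00048001c00080000000000000000000000000000000) (nat_lit 0x0) (nat_lit 0x200110000000000000000000000000000000) := D_29 (nat_lit 141) (nat_lit 124) (nat_lit 128) (nat_lit 4) (nat_lit 6) (nat_lit 11) (nat_lit 2) (nat_lit 5) (nat_lit 8) (by decide +kernel)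
theorem L85261 : W_29 (nat_lit 3) (nat_lit 0x68016000f00048001800080000000000000000000000000000000) (nat_lit 0x0) (nat_lit 0x600130000000000000000000000000000000) := T_29 (nat_lit 142) (nat_lit 125) (nat_lit 7) (nat_lit 6) (nat_lit 7) L85260 (by decide +kernel)
theorem L85262 : W_29 (nat_lit 4) (nat_lit 0x60016000f00048001800080000000000000000000000000000000) (nat_lit 0x0) (nat_lit 0x18000000000000000600130000000000000000000000000000000) := T_29 (nat_lit 207) (nat_lit 208) (nat_lit 2) (nat_lit 3) (nat_lit 12) L85261 (by decide +kernel)
theorem L85263 : W_29 (nat_lit 5) (nat_lit 0x40016000f00048001800080000000000000000000000000000000) (nat_lit 0x0) (nat_lit 0x400038000000000000000600130000000000000000000000000000000) := T_29 (nat_lit 209) (nat_lit 226) (nat_lit 5) (nat_lit 6) (nat_lit 9) L85262 (by decide +kernel)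
theorem L85264 : W_29 (nat_lit 6) (nat_lit 0x40016000f00008001800080000000000000000000000000000000) (nat_lit 0x0) (nat_lit 0x4000380000000000c0000600130000000000000000000000000000000) := T_29 (nat_lit 162) (nat_lit 163) (nat_lit 2) (nat_lit 6) (nat_lit 10) L85263 (by decide +kernel)
theorem L85265 : W_29 (nat_lit 7) (nat_lit 0x40016000f00000001800080000000000000000000000000000000) (nat_lit 0x0) (nat_lit 0x4000380000000000cc000600130000000000000000000000000000000) := T_29 (nat_lit 159) (nat_lit 158) (nat_lit 0) (nat_lit 9) (nat_lit 10) L85264 (by decide +kernel)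
theorem L85266 : W_29 (nat_lit 8) (nat_lit 0x40006000f00000001800080000000000000000000000000000000) (nat_lit 0x0) (nat_lit 0x4000380300000000cc000600130000000000000000000000000000000) := T_29 (nat_lit 196) (nat_lit 197) (nat_lit 3) (nat_lit 6) (nat_lit 10) L85265 (by decide +kernel)
theorem L85267 : W_29 (nat_lit 9) (nat_lit 0x40006000f00000001000080000000000000000000000000000000) (nat_lit 0x0) (nat_lit 0x4000380300000000dc000e00130000000000000000000000000000000) := T_29 (nat_lit 143) (nat_lit 160) (nat_lit 6) (nat_lit 7) (nat_lit 11) L85266 (by decide +kernel)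
theorem L85268 : W_29 (nat_lit 10) (nat_lit 0x40006000700000001000080000000000000000000000000000000) (nat_lit 0x0) (nat_lit 0x4000380300018000dc000e00130000000000000000000000000000000) := T_29 (nat_lit 179) (nat_lit 180) (nat_lit 1) (nat_lit 10) (nat_lit 10) L85267 (by decide +kernel)
theorem L85269 : W_29 (nat_lit 11) (nat_lit 0x40006000300000001000080000000000000000000000000000000) (nat_lit 0x0) (nat_lit 0x400038031c01ce00dc000e00138000000000000000000000000000000) := Q_29 (nat_lit 178) (C_29 L85083 (C_29 L85259 (C_29 L85268 N_29))) (by decide +kernel)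
theorem L85270 : W_29 (nat_lit 12) (nat_lit 0x6000300000001000080000000000000000000000000000000) (nat_lit 0x0) (nat_lit 0x38003c00078031c01ce00dc000e00138000000000000000000000000000000) := Q_29 (nat_lit 210) (C_29 L12079 (C_29 L12034 (C_29 L85269 N_29))) (by decide +kernel)
theorem L85271 : W_29 (nat_lit 16) (nat_lit 0x6000200000001000080000000000000000000000000000000) (nat_lit 0x0) (nat_lit 0x10003e003f80078031c01de00df800f8013c000400020000000000000000000000) := Q_29 (nat_lit 176) (C_29 L85038 (C_29 L85043 (C_29 L85055 (C_29 L85058 (C_29 L85108 (C_29 L85153 (C_29 L85155 (C_29 L83283 (C_29 L85162 (C_29 L85183 (C_29 L85186 (C_29 L85241 (C_29 L85270 N_29))))))))))))) (by decide +kernel)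
theorem L85272 : W_29 (nat_lit 2) (nat_lit 0x14000f000200010001000080000000000000000000000000000000) (nat_lit 0x0) (nat_lit 0x40002000000000000400000000000000000000000000000000000000000000) := D_29 (nat_lit 229) (nat_lit 246) (nat_lit 178) (nat_lit 4) (nat_lit 8) (nat_lit 14) (nat_lit 4) (nat_lit 8) (nat_lit 13) (by decide +kernel)
theorem L85273 : W_29 (nat_lit 3) (nat_lit 0x14000f000200000001000080000000000000000000000000000000) (nat_lit 0x0) (nat_lit 0x40002000000000000400010000800000000000000000000000000000000000) := T_29 (nat_lit 160) (nat_lit 143) (nat_lit 7) (nat_lit 7) (nat_lit 8) L85272 (by decide +kernel)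
theorem L85274 : W_29 (nat_lit 4) (nat_lit 0x4000f000200000001000080000000000000000000000000000000) (nat_lit 0x0) (nat_lit 0x40002000300000000400010000800000000000000000000000000000000000) := T_29 (nat_lit 212) (nat_lit 213) (nat_lit 3) (nat_lit 5) (nat_lit 11) L85273 (by decide +kernel)
theorem L85284 : W_29 (nat_lit 3) (nat_lit 0x4000f000200000001000080000000000000000000000000000000) (nat_lit 0x0) (nat_lit 0x8004e0000000000000000000000000000000000000000000) := T_29 (nat_lit 191) (nat_lit 178) (nat_lit 2) (nat_lit 4) (nat_lit 11) L84603 (by decide +kernel)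
theorem L85296 : W_29 (nat_lit 14) (nat_lit 0x7000200000001000080000000000000000000000000000000) (nat_lit 0x0) (nat_lit 0x50002800f78038c038e0017000f8013c000000000000000000000000000000) := Q_29 (nat_lit 195) (C_29 L84737 (C_29 L84794 (C_29 L20373 (C_29 L10288 (C_29 L84779 N_29))))) (by decide +kernel)
theorem L85297 : W_29 (nat_lit 2) (nat_lit 0x7000600000001000080000000000000000000000000000000) (nat_lit 0x0) (nat_lit 0x8001800000000000000000000000000000000000000000000) := D_29 (nat_lit 179) (nat_lit 180) (nat_lit 195) (nat_lit 1) (nat_lit 10) (nat_lit 10) (nat_lit 2) (nat_lit 5) (nat_lit 11) (by decide +kernel)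
theorem L85298 : W_29 (nat_lit 3) (nat_lit 0x7000200000001000080000000000000000000000000000000) (nat_lit 0x0) (nat_lit 0x8801c00000000000000000000000000000000000000000000) := T_29 (nat_lit 178) (nat_lit 191) (nat_lit 2) (nat_lit 4) (nat_lit 11) L85297 (by decide +kernel)
theorem L85299 : W_29 (nat_lit 5) (nat_lit 0x2000f000600010001000080000000000000000000000000000000) (nat_lit 0x0) (nat_lit 0xe400700000c0000000000000000000000000000000000000000000) := T_29 (nat_lit 175) (nat_lit 174) (nat_lit 0) (nat_lit 8) (nat_lit 11) L23847 (by decide +kernel)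
theorem L85300 : W_29 (nat_lit 6) (nat_lit 0xf000600010001000080000000000000000000000000000000) (nat_lit 0x0) (nat_lit 0xe700700000c0000000000000000000000000000000000000000000) := T_29 (nat_lit 209) (nat_lit 208) (nat_lit 1) (nat_lit 8) (nat_lit 11) L85299 (by decide +kernel)
theorem L85301 : W_29 (nat_lit 7) (nat_lit 0xf000200010001000080000000000000000000000000000000) (nat_lit 0x0) (nat_lit 0xe70070000cc0000000000000000000000000000000000000000000) := T_29 (nat_lit 178) (nat_lit 179) (nat_lit 2) (nat_lit 5) (nat_lit 11) L85300 (by decide +kernel)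
theorem L85302 : W_29 (nat_lit 8) (nat_lit 0xf000200000001000080000000000000000000000000000000) (nat_lit 0x0) (nat_lit 0xe70070000cc0010000800000000000000000000000000000000000) := T_29 (nat_lit 160) (nat_lit 143) (nat_lit 6) (nat_lit 7) (nat_lit 11) L85301 (by decide +kernel)
theorem L85303 : W_29 (nat_lit 9) (nat_lit 0x7000200000001000080000000000000000000000000000000) (nat_lit 0x0) (nat_lit 0x50002800f70078001cc0014000800000000000000000000000000000000000) := Q_29 (nat_lit 195) (C_29 L84737 (C_29 L10288 (C_29 L5280 (C_29 L85302 (C_29 L23858 N_29))))) (by decide +kernel)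
theorem L85340 : W_29 (nat_lit 6) (nat_lit 0x800040006000200000001000080000000000000000000000000000000) (nat_lit 0x0) (nat_lit 0x28003400038000000100018000000000000000000000000000000000000000) := T_29 (nat_lit 176) (nat_lit 160) (nat_lit 6) (nat_lit 6) (nat_lit 13) L12078 (by decide +kernel)
theorem L85341 : W_29 (nat_lit 7) (nat_lit 0x40006000200000001000080000000000000000000000000000000) (nat_lit 0x0) (nat_lit 0x38003c00038000000100018000000000000000000000000000000000000000) := T_29 (nat_lit 227) (nat_lit 244) (nat_lit 6) (nat_lit 6) (nat_lit 14) L85340 (by decide +kernel)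
theorem L85342 : W_29 (nat_lit 2) (nat_lit 0x18000400060006000200000001000080000000000000000000000000000000) (nat_lit 0x0) (nat_lit 0x1000100008000000000000000000000000000000000000000) := D_29 (nat_lit 176) (nat_lit 159) (nat_lit 192) (nat_lit 5) (nat_lit 6) (nat_lit 9) (nat_lit 6) (nat_lit 5) (nat_lit 14) (by decide +kernel)
theorem L85343 : W_29 (nat_lit 3) (nat_lit 0x10000400060006000200000001000080000000000000000000000000000000) (nat_lit 0x0) (nat_lit 0x100008000000000001000100008000000000000000000000000000000000000000) := T_29 (nat_lit 243) (nat_lit 260) (nat_lit 6) (nat_lit 5) (nat_lit 15) L85342 (by decide +kernel)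
theorem L85344 : W_29 (nat_lit 4) (nat_lit 0x400060006000200000001000080000000000000000000000000000000) (nat_lit 0x0) (nat_lit 0x100018000800000001000100008000000000000000000000000000000000000000) := T_29 (nat_lit 244) (nat_lit 227) (nat_lit 6) (nat_lit 6) (nat_lit 14) L85343 (by decide +kernel)
theorem L85345 : W_29 (nat_lit 2) (nat_lit 0x18000400060006000200000001000080000000000000000000000000000000) (nat_lit 0x0) (nat_lit 0x200000000000000001000100000000000000000000000000000000000000000000) := D_29 (nat_lit 192) (nat_lit 176) (nat_lit 261) (nat_lit 6) (nat_lit 5) (nat_lit 14) (nat_lit 7) (nat_lit 5) (nat_lit 11) (by decide +kernel)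
theorem L85346 : W_29 (nat_lit 3) (nat_lit 0x10000400060006000200000001000080000000000000000000000000000000) (nat_lit 0x0) (nat_lit 0x300008000000000001000100000000000000000000000000000000000000000000) := T_29 (nat_lit 243) (nat_lit 260) (nat_lit 6) (nat_lit 5) (nat_lit 15) L85345 (by decide +kernel)
theorem L85347 : W_29 (nat_lit 4) (nat_lit 0x400060006000200000001000080000000000000000000000000000000) (nat_lit 0x0) (nat_lit 0x300018000800000001000100000000000000000000000000000000000000000000) := T_29 (nat_lit 244) (nat_lit 227) (nat_lit 6) (nat_lit 6) (nat_lit 14) L85346 (by decide +kernel)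
theorem L85348 : W_29 (nat_lit 2) (nat_lit 0x18000400068007000200000001000080000000000000000000000000000000) (nat_lit 0x0) (nat_lit 0x800440000000000000000000000000000000000000000000) := D_29 (nat_lit 191) (nat_lit 178) (nat_lit 174) (nat_lit 2) (nat_lit 4) (nat_lit 11) (nat_lit 4) (nat_lit 5) (nat_lit 14) (by decide +kernel)
theorem L85349 : W_29 (nat_lit 3) (nat_lit 0x18000400068006000200000001000080000000000000000000000000000000) (nat_lit 0x0) (nat_lit 0x200000000000000001800440000000000000000000000000000000000000000000) := T_29 (nat_lit 192) (nat_lit 261) (nat_lit 7) (nat_lit 5) (nat_lit 11) L85348 (by decide +kernel)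
theorem L85350 : W_29 (nat_lit 4) (nat_lit 0x10000400068006000200000001000080000000000000000000000000000000) (nat_lit 0x0) (nat_lit 0x300008000000000001800440000000000000000000000000000000000000000000) := T_29 (nat_lit 243) (nat_lit 260) (nat_lit 6) (nat_lit 5) (nat_lit 15) L85349 (by decide +kernel)
theorem L85351 : W_29 (nat_lit 5) (nat_lit 0x400068006000200000001000080000000000000000000000000000000) (nat_lit 0x0) (nat_lit 0x300018000800000001800440000000000000000000000000000000000000000000) := T_29 (nat_lit 244) (nat_lit 227) (nat_lit 6) (nat_lit 6) (nat_lit 14) L85350 (by decide +kernel)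
theorem L85352 : W_29 (nat_lit 6) (nat_lit 0x400060006000200000001000080000000000000000000000000000000) (nat_lit 0x0) (nat_lit 0x300018000800018001800440000000000000000000000000000000000000000000) := T_29 (nat_lit 207) (nat_lit 208) (nat_lit 2) (nat_lit 3) (nat_lit 12) L85351 (by decide +kernel)
theorem L85353 : W_29 (nat_lit 2) (nat_lit 0x100000000c00070006000300000001000080000000000000000000000000000000) (nat_lit 0x0) (nat_lit 0x20003000000000000000000000000000000000000000000000000000000000) := D_29 (nat_lit 228) (nat_lit 229) (nat_lit 245) (nat_lit 0) (nat_lit 8) (nat_lit 13) (nat_lit 7) (nat_lit 6) (nat_lit 10) (by decide +kernel)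
theorem L85354 : W_29 (nat_lit 3) (nat_lit 0x100000000400070006000300000001000080000000000000000000000000000000) (nat_lit 0x0) (nat_lit 0x30003800000000000000000000000000000000000000000000000000000000) := T_29 (nat_lit 227) (nat_lit 244) (nat_lit 6) (nat_lit 6) (nat_lit 14) L85353 (by decide +kernel)
theorem L85355 : W_29 (nat_lit 4) (nat_lit 0x100000000400060006000300000001000080000000000000000000000000000000) (nat_lit 0x0) (nat_lit 0x30003800018000000000000000000000000000000000000000000000000000) := T_29 (nat_lit 208) (nat_lit 207) (nat_lit 2) (nat_lit 3) (nat_lit 12) L85354 (by decide +kernel)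
theorem L85356 : W_29 (nat_lit 5) (nat_lit 0x100000000400060006000200000001000080000000000000000000000000000000) (nat_lit 0x0) (nat_lit 0x30003800018000000100008000000000000000000000000000000000000000) := T_29 (nat_lit 176) (nat_lit 159) (nat_lit 5) (nat_lit 6) (nat_lit 9) L85355 (by decide +kernel)
theorem L85357 : W_29 (nat_lit 6) (nat_lit 0x400060006000200000001000080000000000000000000000000000000) (nat_lit 0x0) (nat_lit 0x100038003800018000000100008000000000000000000000000000000000000000) := T_29 (nat_lit 260) (nat_lit 243) (nat_lit 6) (nat_lit 5) (nat_lit 15) L85356 (by decide +kernel)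
theorem L85358 : W_29 (nat_lit 2) (nat_lit 0x8000400060006000200000001000080000000000000000000000000000000) (nat_lit 0x0) (nat_lit 0x1000100008000000000000000000000000000000000000000) := D_29 (nat_lit 176) (nat_lit 159) (nat_lit 192) (nat_lit 5) (nat_lit 6) (nat_lit 9) (nat_lit 6) (nat_lit 5) (nat_lit 14) (by decide +kernel)
theorem L85359 : W_29 (nat_lit 3) (nat_lit 0x400060006000200000001000080000000000000000000000000000000) (nat_lit 0x0) (nat_lit 0x100008000000000001000100008000000000000000000000000000000000000000) := T_29 (nat_lit 243) (nat_lit 260) (nat_lit 6) (nat_lit 5) (nat_lit 15) L85358 (by decide +kernel)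
theorem L85360 : W_29 (nat_lit 4) (nat_lit 0x400060006000300000001000080000000000000000000000000000000) (nat_lit 0x0) (nat_lit 0x30003800018000000000000000000000000000000000000000000000000000) := T_29 (nat_lit 227) (nat_lit 244) (nat_lit 6) (nat_lit 6) (nat_lit 14) L12076 (by decide +kernel)
theorem L85361 : W_29 (nat_lit 5) (nat_lit 0x400060006000200000001000080000000000000000000000000000000) (nat_lit 0x0) (nat_lit 0x30003800018000000100008000000000000000000000000000000000000000) := T_29 (nat_lit 176) (nat_lit 159) (nat_lit 5) (nat_lit 6) (nat_lit 9) L85360 (by decide +kernel)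
theorem L85362 : W_29 (nat_lit 7) (nat_lit 0x60006000200000001000080000000000000000000000000000000) (nat_lit 0x0) (nat_lit 0x300038003c00018001800540008000000000000000000000000000000000000000) := Q_29 (nat_lit 226) (C_29 L85344 (C_29 L85347 (C_29 L85352 (C_29 L85357 (C_29 L85359 (C_29 L85361 N_29)))))) (by decide +kernel)
theorem L85363 : W_29 (nat_lit 2) (nat_lit 0x60006000300008001200080000000000000000000000000000000) (nat_lit 0x0) (nat_lit 0x400030000000000000000000000000000000) := D_29 (nat_lit 142) (nat_lit 125) (nat_lit 124) (nat_lit 7) (nat_lit 6) (nat_lit 7) (nat_lit 4) (nat_lit 6) (nat_lit 11) (by decide +kernel)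
theorem L85364 : W_29 (nat_lit 3) (nat_lit 0x60006000300008001000080000000000000000000000000000000) (nat_lit 0x0) (nat_lit 0x4000600030000000000000000000000000000000) := T_29 (nat_lit 141) (nat_lit 158) (nat_lit 4) (nat_lit 6) (nat_lit 12) L85363 (by decide +kernel)
theorem L85365 : W_29 (nat_lit 4) (nat_lit 0x60006000300000001000080000000000000000000000000000000) (nat_lit 0x0) (nat_lit 0x40000000000000000c000600030000000000000000000000000000000) := T_29 (nat_lit 159) (nat_lit 226) (nat_lit 5) (nat_lit 6) (nat_lit 9) L85364 (by decide +kernel)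
theorem L85368 : W_29 (nat_lit 2) (nat_lit 0x2000380006800e000200000001000080000000000000000000000000000000) (nat_lit 0x0) (nat_lit 0x40000000100000000400000000000000000000000000000000000000000000) := D_29 (nat_lit 212) (nat_lit 246) (nat_lit 178) (nat_lit 4) (nat_lit 8) (nat_lit 14) (nat_lit 5) (nat_lit 8) (nat_lit 10) (by decide +kernel)
theorem L85369 : W_29 (nat_lit 3) (nat_lit 0x2000180006800e000200000001000080000000000000000000000000000000) (nat_lit 0x0) (nat_lit 0x40006000100000000400000000000000000000000000000000000000000000) := T_29 (nat_lit 229) (nat_lit 230) (nat_lit 0) (nat_lit 9) (nat_lit 13) L85368 (by decide +kernel)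
theorem L85370 : W_29 (nat_lit 4) (nat_lit 0x180006800e000200000001000080000000000000000000000000000000) (nat_lit 0x0) (nat_lit 0x60006000100000000500000000000000000000000000000000000000000000) := T_29 (nat_lit 245) (nat_lit 176) (nat_lit 7) (nat_lit 6) (nat_lit 10) L85369 (by decide +kernel)
theorem L85371 : W_29 (nat_lit 5) (nat_lit 0x1800068006000200000001000080000000000000000000000000000000) (nat_lit 0x0) (nat_lit 0x60006000100018000500000000000000000000000000000000000000000000) := T_29 (nat_lit 195) (nat_lit 196) (nat_lit 1) (nat_lit 9) (nat_lit 11) L85370 (by decide +kernel)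
theorem L85372 : W_29 (nat_lit 5) (nat_lit 0x3800068006000200000001000080000000000000000000000000000000) (nat_lit 0x0) (nat_lit 0x1000cc000400100018000000000000000000000000000000000000000000000000) := T_29 (nat_lit 195) (nat_lit 196) (nat_lit 1) (nat_lit 9) (nat_lit 11) L84567 (by decide +kernel)
theorem L85373 : W_29 (nat_lit 6) (nat_lit 0x1800068006000200000001000080000000000000000000000000000000) (nat_lit 0x0) (nat_lit 0x1000cc006400100018000000000000000000000000000000000000000000000000) := T_29 (nat_lit 229) (nat_lit 230) (nat_lit 0) (nat_lit 9) (nat_lit 13) L85372 (by decide +kernel)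
theorem L85374 : W_29 (nat_lit 2) (nat_lit 0x1800068006000300000001000080000000000000000000000000000000) (nat_lit 0x0) (nat_lit 0x8000400000000000000008000000000000000000000000000000000000000) := D_29 (nat_lit 226) (nat_lit 243) (nat_lit 159) (nat_lit 5) (nat_lit 6) (nat_lit 10) (nat_lit 5) (nat_lit 6) (nat_lit 9) (by decide +kernel)
theorem L85375 : W_29 (nat_lit 3) (nat_lit 0x1800068006000200000001000080000000000000000000000000000000) (nat_lit 0x0) (nat_lit 0x28000400000000000100008000000000000000000000000000000000000000) := T_29 (nat_lit 176) (nat_lit 245) (nat_lit 7) (nat_lit 6) (nat_lit 10) L85374 (by decide +kernel)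
theorem L85376 : W_29 (nat_lit 7) (nat_lit 0x800068006000200000001000080000000000000000000000000000000) (nat_lit 0x0) (nat_lit 0x1000ec007400100018000500008000000000000000000000000000000000000000) := Q_29 (nat_lit 228) (C_29 L85371 (C_29 L85373 (C_29 L85375 N_29))) (by decide +kernel)
theorem L85377 : W_29 (nat_lit 8) (nat_lit 0x68006000200000001000080000000000000000000000000000000) (nat_lit 0x0) (nat_lit 0x1000fc007c00100018000500008000000000000000000000000000000000000000) := T_29 (nat_lit 227) (nat_lit 244) (nat_lit 6) (nat_lit 6) (nat_lit 14) L85376 (by decide +kernel)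
theorem L85378 : W_29 (nat_lit 9) (nat_lit 0x60006000200000001000080000000000000000000000000000000) (nat_lit 0x0) (nat_lit 0x1000fc007c00118018000500008000000000000000000000000000000000000000) := T_29 (nat_lit 207) (nat_lit 208) (nat_lit 2) (nat_lit 3) (nat_lit 12) L85377 (by decide +kernel)
theorem L85379 : W_29 (nat_lit 3) (nat_lit 0x60006000200000001000080000000000000000000000000000000) (nat_lit 0x0) (nat_lit 0x18019000000000000000000000000000000000000000000000000) := T_29 (nat_lit 195) (nat_lit 196) (nat_lit 1) (nat_lit 9) (nat_lit 11) L84574 (by decide +kernel)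
theorem L85380 : W_29 (nat_lit 5) (nat_lit 0x10000000060007000200000001000080000000000000000000000000000000) (nat_lit 0x0) (nat_lit 0x18e00470000000000000000000000000000000000000000000) := T_29 (nat_lit 191) (nat_lit 178) (nat_lit 2) (nat_lit 4) (nat_lit 11) L84617 (by decide +kernel)
theorem L85381 : W_29 (nat_lit 6) (nat_lit 0x60007000200000001000080000000000000000000000000000000) (nat_lit 0x0) (nat_lit 0x10000800000018e00470000000000000000000000000000000000000000000) := T_29 (nat_lit 244) (nat_lit 227) (nat_lit 6) (nat_lit 6) (nat_lit 14) L85380 (by decide +kernel)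
theorem L85382 : W_29 (nat_lit 2) (nat_lit 0x380016000f000300000001000080000000000000000000000000000000) (nat_lit 0x0) (nat_lit 0x8000400000000000000008000000000000000000000000000000000000000) := D_29 (nat_lit 226) (nat_lit 243) (nat_lit 159) (nat_lit 6) (nat_lit 5) (nat_lit 14) (nat_lit 5) (nat_lit 6) (nat_lit 9) (by decide +kernel)
theorem L85383 : W_29 (nat_lit 3) (nat_lit 0x380016000f000200000001000080000000000000000000000000000000) (nat_lit 0x0) (nat_lit 0x28000400000000000100008000000000000000000000000000000000000000) := T_29 (nat_lit 176) (nat_lit 245) (nat_lit 7) (nat_lit 6) (nat_lit 10) L85382 (by decide +kernel)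
theorem L85384 : W_29 (nat_lit 4) (nat_lit 0x280016000f000200000001000080000000000000000000000000000000) (nat_lit 0x0) (nat_lit 0x28005400000000000100008000000000000000000000000000000000000000) := T_29 (nat_lit 228) (nat_lit 230) (nat_lit 0) (nat_lit 9) (nat_lit 13) L85383 (by decide +kernel)
theorem L85385 : W_29 (nat_lit 5) (nat_lit 0x80016000f000200000001000080000000000000000000000000000000) (nat_lit 0x0) (nat_lit 0x68007400000000000100008000000000000000000000000000000000000000) := T_29 (nat_lit 229) (nat_lit 246) (nat_lit 4) (nat_lit 8) (nat_lit 14) L85384 (by decide +kernel)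
theorem L85386 : W_29 (nat_lit 6) (nat_lit 0x80006000f000200000001000080000000000000000000000000000000) (nat_lit 0x0) (nat_lit 0x68007400300000000100008000000000000000000000000000000000000000) := T_29 (nat_lit 212) (nat_lit 213) (nat_lit 3) (nat_lit 5) (nat_lit 11) L85385 (by decide +kernel)
theorem L85387 : W_29 (nat_lit 7) (nat_lit 0x800060007000200000001000080000000000000000000000000000000) (nat_lit 0x0) (nat_lit 0x68007400300018000100008000000000000000000000000000000000000000) := T_29 (nat_lit 195) (nat_lit 196) (nat_lit 1) (nat_lit 9) (nat_lit 11) L85386 (by decide +kernel)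
theorem L85388 : W_29 (nat_lit 8) (nat_lit 0x60007000200000001000080000000000000000000000000000000) (nat_lit 0x0) (nat_lit 0x78007c00300018000100008000000000000000000000000000000000000000) := T_29 (nat_lit 227) (nat_lit 244) (nat_lit 6) (nat_lit 6) (nat_lit 14) L85387 (by decide +kernel)
theorem L85389 : W_29 (nat_lit 4) (nat_lit 0x60007000200000001000080000000000000000000000000000000) (nat_lit 0x0) (nat_lit 0xe00470000000000000000000000000000000000000000000) := T_29 (nat_lit 191) (nat_lit 178) (nat_lit 2) (nat_lit 4) (nat_lit 11) L84562 (by decide +kernel)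
theorem L85390 : W_29 (nat_lit 9) (nat_lit 0x60006000200000001000080000000000000000000000000000000) (nat_lit 0x0) (nat_lit 0x78007c00300019e00570008000000000000000000000000000000000000000) := Q_29 (nat_lit 192) (C_29 L85381 (C_29 L85388 (C_29 L85389 N_29))) (by decide +kernel)
theorem L85391 : W_29 (nat_lit 10) (nat_lit 0x40006000200000001000080000000000000000000000000000000) (nat_lit 0x0) (nat_lit 0x3000fc007c00338019e00570008000000000000000000000000000000000000000) := Q_29 (nat_lit 209) (C_29 L84560 (C_29 L85362 (C_29 L85378 (C_29 L85379 (C_29 L85390 N_29))))) (by decide +kernel)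
theorem L85392 : W_29 (nat_lit 2) (nat_lit 0x15000f800220010001000080000000000000000000000000000000) (nat_lit 0x0) (nat_lit 0x400110000000000000000000000000000000000000000000) := D_29 (nat_lit 190) (nat_lit 176) (nat_lit 172) (nat_lit 2) (nat_lit 3) (nat_lit 11) (nat_lit 0) (nat_lit 6) (nat_lit 11) (by decide +kernel)
theorem L85393 : W_29 (nat_lit 3) (nat_lit 0x15000f800200010001000080000000000000000000000000000000) (nat_lit 0x0) (nat_lit 0x400170000000000000000000000000000000000000000000) := T_29 (nat_lit 173) (nat_lit 174) (nat_lit 0) (nat_lit 7) (nat_lit 11) L85392 (by decide +kernel)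
theorem L85394 : W_29 (nat_lit 4) (nat_lit 0x15000f000200010001000080000000000000000000000000000000) (nat_lit 0x0) (nat_lit 0x8000c00170000000000000000000000000000000000000000000) := T_29 (nat_lit 191) (nat_lit 207) (nat_lit 1) (nat_lit 7) (nat_lit 11) L85393 (by decide +kernel)
theorem L85395 : W_29 (nat_lit 5) (nat_lit 0x5000f000200010001000080000000000000000000000000000000) (nat_lit 0x0) (nat_lit 0x308000c00170000000000000000000000000000000000000000000) := T_29 (nat_lit 212) (nat_lit 213) (nat_lit 3) (nat_lit 5) (nat_lit 11) L85394 (by decide +kernel)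
theorem L85396 : W_29 (nat_lit 6) (nat_lit 0x4000f000200010001000080000000000000000000000000000000) (nat_lit 0x0) (nat_lit 0x338000c00170000000000000000000000000000000000000000000) := T_29 (nat_lit 208) (nat_lit 209) (nat_lit 1) (nat_lit 8) (nat_lit 11) L85395 (by decide +kernel)
theorem L85397 : W_29 (nat_lit 7) (nat_lit 0x4000f000200000001000080000000000000000000000000000000) (nat_lit 0x0) (nat_lit 0x338000c00170010000800000000000000000000000000000000000) := T_29 (nat_lit 160) (nat_lit 143) (nat_lit 6) (nat_lit 7) (nat_lit 11) L85396 (by decide +kernel)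
theorem L85399 : W_29 (nat_lit 3) (nat_lit 0x4001e000200010001000080000000000000000000000000000000) (nat_lit 0x0) (nat_lit 0x20003900000000000000000000000000000000000000000000) := T_29 (nat_lit 197) (nat_lit 176) (nat_lit 0) (nat_lit 10) (nat_lit 11) L66555 (by decide +kernel)
theorem L85400 : W_29 (nat_lit 4) (nat_lit 0x4000e000200010001000080000000000000000000000000000000) (nat_lit 0x0) (nat_lit 0x20030003900000000000000000000000000000000000000000000) := T_29 (nat_lit 196) (nat_lit 209) (nat_lit 1) (nat_lit 9) (nat_lit 11) L85399 (by decide +kernel)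
theorem L85401 : W_29 (nat_lit 5) (nat_lit 0x4000e000200000001000080000000000000000000000000000000) (nat_lit 0x0) (nat_lit 0x20030003900010000800000000000000000000000000000000000) := T_29 (nat_lit 160) (nat_lit 143) (nat_lit 6) (nat_lit 7) (nat_lit 11) L85400 (by decide +kernel)
theorem L85411 : W_29 (nat_lit 2) (nat_lit 0x780012000f000680000001000080000000000000000000000000000000) (nat_lit 0x0) (nat_lit 0x18000400000000000000000000000000000000000000000000000000000000) := D_29 (nat_lit 244) (nat_lit 243) (nat_lit 226) (nat_lit 1) (nat_lit 9) (nat_lit 13) (nat_lit 7) (nat_lit 5) (nat_lit 10) (by decide +kernel)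
theorem L85412 : W_29 (nat_lit 3) (nat_lit 0x780012000f000600000001000080000000000000000000000000000000) (nat_lit 0x0) (nat_lit 0x180004000000000000c0000000000000000000000000000000000000000000) := T_29 (nat_lit 175) (nat_lit 174) (nat_lit 0) (nat_lit 8) (nat_lit 11) L85411 (by decide +kernel)
theorem L85413 : W_29 (nat_lit 4) (nat_lit 0x700012000f000600000001000080000000000000000000000000000000) (nat_lit 0x0) (nat_lit 0x18000c000400000000c0000000000000000000000000000000000000000000) := T_29 (nat_lit 227) (nat_lit 210) (nat_lit 0) (nat_lit 9) (nat_lit 13) L85412 (by decide +kernel)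
theorem L85414 : W_29 (nat_lit 5) (nat_lit 0x600012000f000600000001000080000000000000000000000000000000) (nat_lit 0x0) (nat_lit 0x38001c000400000000c0000000000000000000000000000000000000000000) := T_29 (nat_lit 228) (nat_lit 245) (nat_lit 5) (nat_lit 8) (nat_lit 10) L85413 (by decide +kernel)
theorem L85415 : W_29 (nat_lit 6) (nat_lit 0x200012000f000600000001000080000000000000000000000000000000) (nat_lit 0x0) (nat_lit 0xb8005c000400000000c0000000000000000000000000000000000000000000) := T_29 (nat_lit 230) (nat_lit 247) (nat_lit 7) (nat_lit 8) (nat_lit 10) L85414 (by decide +kernel)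
theorem L85416 : W_29 (nat_lit 7) (nat_lit 0x200010000f000600000001000080000000000000000000000000000000) (nat_lit 0x0) (nat_lit 0xb8005c000700000000c0000000000000000000000000000000000000000000) := T_29 (nat_lit 209) (nat_lit 208) (nat_lit 1) (nat_lit 8) (nat_lit 11) L85415 (by decide +kernel)
theorem L85417 : W_29 (nat_lit 8) (nat_lit 0x10000f000600000001000080000000000000000000000000000000) (nat_lit 0x0) (nat_lit 0xf8007c000700000000c0000000000000000000000000000000000000000000) := T_29 (nat_lit 229) (nat_lit 246) (nat_lit 4) (nat_lit 8) (nat_lit 14) L85416 (by decide +kernel)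
theorem L85418 : W_29 (nat_lit 9) (nat_lit 0x10000f000200000001000080000000000000000000000000000000) (nat_lit 0x0) (nat_lit 0xf8007c00070000000cc0000000000000000000000000000000000000000000) := T_29 (nat_lit 178) (nat_lit 179) (nat_lit 2) (nat_lit 5) (nat_lit 11) L85417 (by decide +kernel)
theorem L85419 : W_29 (nat_lit 10) (nat_lit 0xf000200000001000080000000000000000000000000000000) (nat_lit 0x0) (nat_lit 0xf8007c00370000000cc0000000000000000000000000000000000000000000) := T_29 (nat_lit 212) (nat_lit 213) (nat_lit 3) (nat_lit 5) (nat_lit 11) L85418 (by decide +kernel)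
theorem L85420 : W_29 (nat_lit 2) (nat_lit 0x2000f000340002001e00088000000000000000000000000000000) (nat_lit 0x0) (nat_lit 0x1000100004000000000000000000000000000000) := D_29 (nat_lit 140) (nat_lit 156) (nat_lit 122) (nat_lit 1) (nat_lit 7) (nat_lit 8) (nat_lit 0) (nat_lit 7) (nat_lit 8) (by decide +kernel)
theorem L85421 : W_29 (nat_lit 3) (nat_lit 0x2000f000340002001e00080000000000000000000000000000000) (nat_lit 0x0) (nat_lit 0x100010001c000000000000000000000000000000) := T_29 (nat_lit 123) (nat_lit 124) (nat_lit 0) (nat_lit 8) (nat_lit 8) L85420 (by decide +kernel)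
theorem L85422 : W_29 (nat_lit 4) (nat_lit 0x2000f000340000001e00080000000000000000000000000000000) (nat_lit 0x0) (nat_lit 0x700010001c000000000000000000000000000000) := T_29 (nat_lit 157) (nat_lit 158) (nat_lit 1) (nat_lit 8) (nat_lit 8) L85421 (by decide +kernel)
theorem L85423 : W_29 (nat_lit 5) (nat_lit 0x2000f000340000001c00080000000000000000000000000000000) (nat_lit 0x0) (nat_lit 0x700030011c000000000000000000000000000000) := T_29 (nat_lit 141) (nat_lit 128) (nat_lit 2) (nat_lit 5) (nat_lit 8) L85422 (by decide +kernel)
theorem L85424 : W_29 (nat_lit 6) (nat_lit 0x2000f000340000001400080000000000000000000000000000000) (nat_lit 0x0) (nat_lit 0x17000b0011c000000000000000000000000000000) := T_29 (nat_lit 143) (nat_lit 160) (nat_lit 6) (nat_lit 7) (nat_lit 11) L85423 (by decide +kernel)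
theorem L85425 : W_29 (nat_lit 7) (nat_lit 0x2000f000340000001000080000000000000000000000000000000) (nat_lit 0x0) (nat_lit 0x1f000f0011c000000000000000000000000000000) := T_29 (nat_lit 142) (nat_lit 159) (nat_lit 5) (nat_lit 6) (nat_lit 8) L85424 (by decide +kernel)
theorem L85426 : W_29 (nat_lit 8) (nat_lit 0x2000f000300000001000080000000000000000000000000000000) (nat_lit 0x0) (nat_lit 0xc001f000f0011c000000000000000000000000000000) := T_29 (nat_lit 174) (nat_lit 175) (nat_lit 3) (nat_lit 4) (nat_lit 10) L85425 (by decide +kernel)
theorem L85427 : W_29 (nat_lit 9) (nat_lit 0xf000300000001000080000000000000000000000000000000) (nat_lit 0x0) (nat_lit 0x300000000c001f000f0011c000000000000000000000000000000) := T_29 (nat_lit 209) (nat_lit 208) (nat_lit 1) (nat_lit 8) (nat_lit 11) L85426 (by decide +kernel)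
theorem L85428 : W_29 (nat_lit 11) (nat_lit 0x7000200000001000080000000000000000000000000000000) (nat_lit 0x0) (nat_lit 0xf8007c00770078003dc0000000000000000000000000000000000000000000) := Q_29 (nat_lit 195) (C_29 L85419 (C_29 L84922 (C_29 L84919 (C_29 L10057 N_29)))) (by decide +kernel)
theorem L85430 : W_29 (nat_lit 2) (nat_lit 0x22001f000200010001000080000000000000000000000000000000) (nat_lit 0x0) (nat_lit 0x20000180000000000000000000000000000000000000000000) := D_29 (nat_lit 176) (nat_lit 175) (nat_lit 197) (nat_lit 0) (nat_lit 9) (nat_lit 11) (nat_lit 0) (nat_lit 10) (nat_lit 11) (by decide +kernel)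
theorem L85431 : W_29 (nat_lit 3) (nat_lit 0x22000f000200010001000080000000000000000000000000000000) (nat_lit 0x0) (nat_lit 0x400030000180000000000000000000000000000000000000000000) := T_29 (nat_lit 196) (nat_lit 214) (nat_lit 3) (nat_lit 6) (nat_lit 11) L85430 (by decide +kernel)
theorem L85432 : W_29 (nat_lit 4) (nat_lit 0x2000f000200010001000080000000000000000000000000000000) (nat_lit 0x0) (nat_lit 0x700030000180000000000000000000000000000000000000000000) := T_29 (nat_lit 213) (nat_lit 212) (nat_lit 3) (nat_lit 5) (nat_lit 11) L85431 (by decide +kernel)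
theorem L85433 : W_29 (nat_lit 5) (nat_lit 0xf000200010001000080000000000000000000000000000000) (nat_lit 0x0) (nat_lit 0x730030000180000000000000000000000000000000000000000000) := T_29 (nat_lit 209) (nat_lit 208) (nat_lit 1) (nat_lit 8) (nat_lit 11) L85432 (by decide +kernel)
theorem L85434 : W_29 (nat_lit 6) (nat_lit 0xf000200000001000080000000000000000000000000000000) (nat_lit 0x0) (nat_lit 0x730030000180010000800000000000000000000000000000000000) := T_29 (nat_lit 160) (nat_lit 143) (nat_lit 6) (nat_lit 7) (nat_lit 11) L85433 (by decide +kernel)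
theorem L85435 : W_29 (nat_lit 8) (nat_lit 0x7000200000001000080000000000000000000000000000000) (nat_lit 0x0) (nat_lit 0x738038c001f0010000800000000000000000000000000000000000) := Q_29 (nat_lit 195) (C_29 L84922 (C_29 L20373 (C_29 L84811 (C_29 L85434 N_29)))) (by decide +kernel)
theorem L85443 : W_29 (nat_lit 2) (nat_lit 0x7e000200000001000080000000000000000000000000000000) (nat_lit 0x0) (nat_lit 0x1c00000000000000000000000000000000000000000000000000000) := D_29 (nat_lit 215) (nat_lit 214) (nat_lit 216) (nat_lit 3) (nat_lit 7) (nat_lit 11) (nat_lit 3) (nat_lit 8) (nat_lit 11) (by decide +kernel)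
theorem L85444 : W_29 (nat_lit 3) (nat_lit 0x3e000200000001000080000000000000000000000000000000) (nat_lit 0x0) (nat_lit 0x1c00040000400000000000000000000000000000000000000000000) := T_29 (nat_lit 198) (nat_lit 178) (nat_lit 0) (nat_lit 11) (nat_lit 11) L85443 (by decide +kernel)
theorem L85445 : W_29 (nat_lit 2) (nat_lit 0x100007e004200010001000080000000000000000000000000000000) (nat_lit 0x0) (nat_lit 0x2000080008000000000000000000000000000000000000000000000) := D_29 (nat_lit 199) (nat_lit 217) (nat_lit 183) (nat_lit 3) (nat_lit 9) (nat_lit 11) (nat_lit 2) (nat_lit 9) (nat_lit 11) (by decide +kernel)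
theorem L85446 : W_29 (nat_lit 3) (nat_lit 0x100007e000200010001000080000000000000000000000000000000) (nat_lit 0x0) (nat_lit 0x200008000e000000000000000000000000000000000000000000000) := T_29 (nat_lit 182) (nat_lit 181) (nat_lit 2) (nat_lit 8) (nat_lit 11) L85445 (by decide +kernel)
theorem L85447 : W_29 (nat_lit 4) (nat_lit 0x7e000200010001000080000000000000000000000000000000) (nat_lit 0x0) (nat_lit 0x380008000e000000000000000000000000000000000000000000000) := T_29 (nat_lit 216) (nat_lit 215) (nat_lit 3) (nat_lit 8) (nat_lit 11) L85446 (by decide +kernel)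
theorem L85448 : W_29 (nat_lit 5) (nat_lit 0x7e000200000001000080000000000000000000000000000000) (nat_lit 0x0) (nat_lit 0x380008000e000010000800000000000000000000000000000000000) := T_29 (nat_lit 160) (nat_lit 143) (nat_lit 6) (nat_lit 7) (nat_lit 11) L85447 (by decide +kernel)
theorem L85449 : W_29 (nat_lit 6) (nat_lit 0x3e000200000001000080000000000000000000000000000000) (nat_lit 0x0) (nat_lit 0x38000c000e400010000800000000000000000000000000000000000) := T_29 (nat_lit 198) (nat_lit 178) (nat_lit 0) (nat_lit 11) (nat_lit 11) L85448 (by decide +kernel)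
theorem L85450 : W_29 (nat_lit 2) (nat_lit 0x24007e004200010001000080000000000000000000000000000000) (nat_lit 0x0) (nat_lit 0x100080008000000000000000000000000000000000000000000000) := D_29 (nat_lit 199) (nat_lit 212) (nat_lit 183) (nat_lit 1) (nat_lit 12) (nat_lit 11) (nat_lit 2) (nat_lit 9) (nat_lit 11) (by decide +kernel)
theorem L85451 : W_29 (nat_lit 3) (nat_lit 0x24007e000200010001000080000000000000000000000000000000) (nat_lit 0x0) (nat_lit 0x10008000e000000000000000000000000000000000000000000000) := T_29 (nat_lit 182) (nat_lit 181) (nat_lit 2) (nat_lit 8) (nat_lit 11) L85450 (by decide +kernel)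
theorem L85452 : W_29 (nat_lit 4) (nat_lit 0x20007e000200010001000080000000000000000000000000000000) (nat_lit 0x0) (nat_lit 0x16008000e000000000000000000000000000000000000000000000) := T_29 (nat_lit 210) (nat_lit 209) (nat_lit 1) (nat_lit 9) (nat_lit 11) L85451 (by decide +kernel)
theorem L85453 : W_29 (nat_lit 5) (nat_lit 0x20003e000200010001000080000000000000000000000000000000) (nat_lit 0x0) (nat_lit 0x1600c000e400000000000000000000000000000000000000000000) := T_29 (nat_lit 198) (nat_lit 178) (nat_lit 0) (nat_lit 11) (nat_lit 11) L85452 (by decide +kernel)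
theorem L85454 : W_29 (nat_lit 6) (nat_lit 0x3e000200010001000080000000000000000000000000000000) (nat_lit 0x0) (nat_lit 0x7600c000e400000000000000000000000000000000000000000000) := T_29 (nat_lit 213) (nat_lit 214) (nat_lit 3) (nat_lit 6) (nat_lit 11) L85453 (by decide +kernel)
theorem L85455 : W_29 (nat_lit 7) (nat_lit 0x3e000200000001000080000000000000000000000000000000) (nat_lit 0x0) (nat_lit 0x7600c000e400010000800000000000000000000000000000000000) := T_29 (nat_lit 160) (nat_lit 143) (nat_lit 6) (nat_lit 7) (nat_lit 11) L85454 (by decide +kernel)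
theorem L85456 : W_29 (nat_lit 8) (nat_lit 0x1e000200000001000080000000000000000000000000000000) (nat_lit 0x0) (nat_lit 0x3f600e000e400010000800000000000000000000000000000000000) := Q_29 (nat_lit 197) (C_29 L17919 (C_29 L85444 (C_29 L85449 (C_29 L85455 N_29)))) (by decide +kernel)
theorem L85463 : W_29 (nat_lit 2) (nat_lit 0x10001e000a00002001e00088000000000000000000000000000000) (nat_lit 0x0) (nat_lit 0x1000100004000000000000000000000000000000) := D_29 (nat_lit 140) (nat_lit 156) (nat_lit 122) (nat_lit 1) (nat_lit 7) (nat_lit 8) (nat_lit 0) (nat_lit 7) (nat_lit 8) (by decide +kernel)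
theorem L85464 : W_29 (nat_lit 3) (nat_lit 0x10001e000a00002001e00080000000000000000000000000000000) (nat_lit 0x0) (nat_lit 0x100010001c000000000000000000000000000000) := T_29 (nat_lit 123) (nat_lit 124) (nat_lit 0) (nat_lit 8) (nat_lit 8) L85463 (by decide +kernel)
theorem L85465 : W_29 (nat_lit 4) (nat_lit 0x10001e000a00000001e00080000000000000000000000000000000) (nat_lit 0x0) (nat_lit 0x700010001c000000000000000000000000000000) := T_29 (nat_lit 157) (nat_lit 158) (nat_lit 1) (nat_lit 8) (nat_lit 8) L85464 (by decide +kernel)
theorem L85466 : W_29 (nat_lit 2) (nat_lit 0x200030001e000a00000001000080000000000000000000000000000000) (nat_lit 0x0) (nat_lit 0x400010000800000000000000000000000000000000000) := D_29 (nat_lit 160) (nat_lit 143) (nat_lit 178) (nat_lit 7) (nat_lit 7) (nat_lit 8) (nat_lit 4) (nat_lit 8) (nat_lit 13) (by decide +kernel)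
theorem L85467 : W_29 (nat_lit 3) (nat_lit 0x200020001e000a00000001000080000000000000000000000000000000) (nat_lit 0x0) (nat_lit 0x100000000400050000800000000000000000000000000000000000) := T_29 (nat_lit 212) (nat_lit 162) (nat_lit 5) (nat_lit 9) (nat_lit 9) L85466 (by decide +kernel)
theorem L85468 : W_29 (nat_lit 4) (nat_lit 0x200020001e000200000001000080000000000000000000000000000000) (nat_lit 0x0) (nat_lit 0x100000001c00050000800000000000000000000000000000000000) := T_29 (nat_lit 179) (nat_lit 180) (nat_lit 2) (nat_lit 6) (nat_lit 11) L85467 (by decide +kernel)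
theorem L85469 : W_29 (nat_lit 5) (nat_lit 0x200000001e000200000001000080000000000000000000000000000000) (nat_lit 0x0) (nat_lit 0x700000001c00050000800000000000000000000000000000000000) := T_29 (nat_lit 213) (nat_lit 214) (nat_lit 3) (nat_lit 6) (nat_lit 11) L85468 (by decide +kernel)
theorem L85471 : W_29 (nat_lit 2) (nat_lit 0x8000600020001e000a00000001000080000000000000000000000000000000) (nat_lit 0x0) (nat_lit 0x2000100008000000000000000000000000000000000000000000000000000000000) := D_29 (nat_lit 248) (nat_lit 231) (nat_lit 265) (nat_lit 7) (nat_lit 9) (nat_lit 10) (nat_lit 7) (nat_lit 9) (nat_lit 11) (by decide +kernel)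
theorem L85472 : W_29 (nat_lit 3) (nat_lit 0x600020001e000a00000001000080000000000000000000000000000000) (nat_lit 0x0) (nat_lit 0x2000180008000000000000400000000000000000000000000000000000000000000) := T_29 (nat_lit 247) (nat_lit 178) (nat_lit 4) (nat_lit 9) (nat_lit 14) L85471 (by decide +kernel)
theorem L85473 : W_29 (nat_lit 4) (nat_lit 0x200020001e000a00000001000080000000000000000000000000000000) (nat_lit 0x0) (nat_lit 0x20001c000c000000000000400000000000000000000000000000000000000000000) := T_29 (nat_lit 230) (nat_lit 246) (nat_lit 5) (nat_lit 9) (nat_lit 10) L85472 (by decide +kernel)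
theorem L85474 : W_29 (nat_lit 5) (nat_lit 0x200020001e000200000001000080000000000000000000000000000000) (nat_lit 0x0) (nat_lit 0x20001c000c000000000001c00000000000000000000000000000000000000000000) := T_29 (nat_lit 179) (nat_lit 180) (nat_lit 2) (nat_lit 6) (nat_lit 11) L85473 (by decide +kernel)
theorem L85475 : W_29 (nat_lit 6) (nat_lit 0x200000001e000200000001000080000000000000000000000000000000) (nat_lit 0x0) (nat_lit 0x20001c000c000600000001c00000000000000000000000000000000000000000000) := T_29 (nat_lit 213) (nat_lit 214) (nat_lit 3) (nat_lit 6) (nat_lit 11) L85474 (by decide +kernel)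
theorem L85476 : W_29 (nat_lit 2) (nat_lit 0x24001e000200002001e00088000000000000000000000000000000) (nat_lit 0x0) (nat_lit 0x1000100004000000000000000000000000000000) := D_29 (nat_lit 140) (nat_lit 156) (nat_lit 122) (nat_lit 1) (nat_lit 7) (nat_lit 8) (nat_lit 0) (nat_lit 7) (nat_lit 8) (by decide +kernel)
theorem L85477 : W_29 (nat_lit 3) (nat_lit 0x24001e000200002001e00080000000000000000000000000000000) (nat_lit 0x0) (nat_lit 0x100010001c000000000000000000000000000000) := T_29 (nat_lit 123) (nat_lit 124) (nat_lit 0) (nat_lit 8) (nat_lit 8) L85476 (by decide +kernel)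
theorem L85478 : W_29 (nat_lit 4) (nat_lit 0x24001e000200000001e00080000000000000000000000000000000) (nat_lit 0x0) (nat_lit 0x700010001c000000000000000000000000000000) := T_29 (nat_lit 157) (nat_lit 158) (nat_lit 1) (nat_lit 8) (nat_lit 8) L85477 (by decide +kernel)
theorem L85479 : W_29 (nat_lit 2) (nat_lit 0x6000380000001000080000000000000000000000000000000) (nat_lit 0x0) (nat_lit 0x8000060000000000000000000000000000000000000000000) := D_29 (nat_lit 174) (nat_lit 195) (nat_lit 173) (nat_lit 3) (nat_lit 4) (nat_lit 10) (nat_lit 3) (nat_lit 3) (nat_lit 10) (by decide +kernel)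
theorem L85480 : W_29 (nat_lit 5) (nat_lit 0x60003c0000001000080000000000000000000000000000000) (nat_lit 0x0) (nat_lit 0x10000c00400007000200010000000000000000000000000000000) := T_29 (nat_lit 191) (nat_lit 190) (nat_lit 1) (nat_lit 7) (nat_lit 10) L83177 (by decide +kernel)
theorem L85481 : W_29 (nat_lit 6) (nat_lit 0x6000380000001000080000000000000000000000000000000) (nat_lit 0x0) (nat_lit 0x10000c00460007000200010000000000000000000000000000000) := T_29 (nat_lit 174) (nat_lit 173) (nat_lit 3) (nat_lit 3) (nat_lit 10) L85480 (by decide +kernel)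
theorem L85482 : W_29 (nat_lit 2) (nat_lit 0x16000780000001000080000000000000000000000000000000) (nat_lit 0x0) (nat_lit 0x20001800000000000000000000000000000000000000000000) := D_29 (nat_lit 179) (nat_lit 197) (nat_lit 180) (nat_lit 3) (nat_lit 6) (nat_lit 10) (nat_lit 1) (nat_lit 10) (nat_lit 10) (by decide +kernel)
theorem L85483 : W_29 (nat_lit 3) (nat_lit 0x6000780000001000080000000000000000000000000000000) (nat_lit 0x0) (nat_lit 0x38001800000000000000000000000000000000000000000000) := T_29 (nat_lit 196) (nat_lit 195) (nat_lit 3) (nat_lit 5) (nat_lit 10) L85482 (by decide +kernel)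
theorem L85487 : W_29 (nat_lit 2) (nat_lit 0x60006000300002001e00088000000000000000000000000000000) (nat_lit 0x0) (nat_lit 0x1000100004000000000000000000000000000000) := D_29 (nat_lit 140) (nat_lit 156) (nat_lit 122) (nat_lit 1) (nat_lit 7) (nat_lit 8) (nat_lit 0) (nat_lit 7) (nat_lit 8) (by decide +kernel)
theorem L85488 : W_29 (nat_lit 3) (nat_lit 0x60006000300002001e00080000000000000000000000000000000) (nat_lit 0x0) (nat_lit 0x100010001c000000000000000000000000000000) := T_29 (nat_lit 123) (nat_lit 124) (nat_lit 0) (nat_lit 8) (nat_lit 8) L85487 (by decide +kernel)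
theorem L85489 : W_29 (nat_lit 4) (nat_lit 0x60006000300000001e00080000000000000000000000000000000) (nat_lit 0x0) (nat_lit 0x700010001c000000000000000000000000000000) := T_29 (nat_lit 157) (nat_lit 158) (nat_lit 1) (nat_lit 8) (nat_lit 8) L85488 (by decide +kernel)
theorem L85504 : W_29 (nat_lit 2) (nat_lit 0x30001e000a00002001e00088000000000000000000000000000000) (nat_lit 0x0) (nat_lit 0x1000100004000000000000000000000000000000) := D_29 (nat_lit 140) (nat_lit 156) (nat_lit 122) (nat_lit 1) (nat_lit 7) (nat_lit 8) (nat_lit 0) (nat_lit 7) (nat_lit 8) (by decide +kernel)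
theorem L85505 : W_29 (nat_lit 3) (nat_lit 0x30001e000a00002001e00080000000000000000000000000000000) (nat_lit 0x0) (nat_lit 0x100010001c000000000000000000000000000000) := T_29 (nat_lit 123) (nat_lit 124) (nat_lit 0) (nat_lit 8) (nat_lit 8) L85504 (by decide +kernel)
theorem L85506 : W_29 (nat_lit 4) (nat_lit 0x30001e000a00000001e00080000000000000000000000000000000) (nat_lit 0x0) (nat_lit 0x700010001c000000000000000000000000000000) := T_29 (nat_lit 157) (nat_lit 158) (nat_lit 1) (nat_lit 8) (nat_lit 8) L85505 (by decide +kernel)
theorem L85507 : W_29 (nat_lit 5) (nat_lit 0x30001e000a00000001c00080000000000000000000000000000000) (nat_lit 0x0) (nat_lit 0x700030011c000000000000000000000000000000) := T_29 (nat_lit 141) (nat_lit 128) (nat_lit 2) (nat_lit 5) (nat_lit 8) L85506 (by decide +kernel)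
theorem L85516 : W_29 (nat_lit 7) (nat_lit 0x1e000200000001000080000000000000000000000000000000) (nat_lit 0x0) (nat_lit 0x20001c000e000700000001c00050000800000000000000000000000000000000000) := Q_29 (nat_lit 229) (C_29 L80317 (C_29 L85475 (C_29 L80322 (C_29 L85469 N_29)))) (by decide +kernel)
theorem L85523 : W_29 (nat_lit 6) (nat_lit 0xc000340000001400080000000000000000000000000000000) (nat_lit 0x0) (nat_lit 0x800000017000b00118000000000000000000000000000000) := T_29 (nat_lit 143) (nat_lit 160) (nat_lit 6) (nat_lit 7) (nat_lit 11) L5334 (by decide +kernel)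
theorem L85524 : W_29 (nat_lit 7) (nat_lit 0xc000300000001400080000000000000000000000000000000) (nat_lit 0x0) (nat_lit 0x8000c0017000b00118000000000000000000000000000000) := T_29 (nat_lit 174) (nat_lit 175) (nat_lit 3) (nat_lit 4) (nat_lit 10) L85523 (by decide +kernel)
theorem L85534 : W_29 (nat_lit 2) (nat_lit 0x10000d000380008001400080000000000000000000000000000000) (nat_lit 0x0) (nat_lit 0x400020000000000004000000000000000000000000000000000000000) := D_29 (nat_lit 209) (nat_lit 226) (nat_lit 158) (nat_lit 6) (nat_lit 5) (nat_lit 13) (nat_lit 6) (nat_lit 5) (nat_lit 12) (by decide +kernel)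
theorem L85535 : W_29 (nat_lit 3) (nat_lit 0x10000d000380000001400080000000000000000000000000000000) (nat_lit 0x0) (nat_lit 0x40002000000000000c000000020000000000000000000000000000000) := T_29 (nat_lit 159) (nat_lit 125) (nat_lit 7) (nat_lit 6) (nat_lit 7) L85534 (by decide +kernel)
theorem L85536 : W_29 (nat_lit 10) (nat_lit 0xc000300000001600080000000000000000000000000000000) (nat_lit 0x0) (nat_lit 0x500038031c000c001300098001e000000000000000000000000000000) := T_29 (nat_lit 143) (nat_lit 160) (nat_lit 6) (nat_lit 7) (nat_lit 11) L82569 (by decide +kernel)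
theorem L85537 : W_29 (nat_lit 2) (nat_lit 0xc0003800140016000a0000000000000000000000000000000) (nat_lit 0x0) (nat_lit 0x10001000080000000000000000000000) := D_29 (nat_lit 108) (nat_lit 124) (nat_lit 91) (nat_lit 6) (nat_lit 5) (nat_lit 10) (nat_lit 5) (nat_lit 6) (nat_lit 5) (by decide +kernel)
theorem L85538 : W_29 (nat_lit 3) (nat_lit 0xc0003800100016000a0000000000000000000000000000000) (nat_lit 0x0) (nat_lit 0x1000000004000000010001000080000000000000000000000) := T_29 (nat_lit 158) (nat_lit 192) (nat_lit 6) (nat_lit 5) (nat_lit 11) L85537 (by decide +kernel)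
theorem L85539 : W_29 (nat_lit 4) (nat_lit 0xc000380010001600080000000000000000000000000000000) (nat_lit 0x0) (nat_lit 0x100000000c000000030001000080000000000000000000000) := T_29 (nat_lit 125) (nat_lit 159) (nat_lit 7) (nat_lit 6) (nat_lit 7) L85538 (by decide +kernel)
theorem L85540 : W_29 (nat_lit 5) (nat_lit 0xc000300010001600080000000000000000000000000000000) (nat_lit 0x0) (nat_lit 0x10000c000c000000030001000080000000000000000000000) := T_29 (nat_lit 175) (nat_lit 174) (nat_lit 3) (nat_lit 4) (nat_lit 10) L85539 (by decide +kernel)
theorem L85541 : W_29 (nat_lit 6) (nat_lit 0xc000300000001600080000000000000000000000000000000) (nat_lit 0x0) (nat_lit 0x10000c001c000800030001000080000000000000000000000) := T_29 (nat_lit 160) (nat_lit 143) (nat_lit 6) (nat_lit 7) (nat_lit 11) L85540 (by decide +kernel)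
theorem L85542 : W_29 (nat_lit 5) (nat_lit 0xc000300000001e000a0000000000000000000000000000000) (nat_lit 0x0) (nat_lit 0x3000000000700010001c000000000000000000000000000000) := T_29 (nat_lit 197) (nat_lit 196) (nat_lit 0) (nat_lit 10) (nat_lit 11) L5363 (by decide +kernel)
theorem L85543 : W_29 (nat_lit 6) (nat_lit 0xc0003000000016000a0000000000000000000000000000000) (nat_lit 0x0) (nat_lit 0x3000000001700090001c000000000000000000000000000000) := T_29 (nat_lit 143) (nat_lit 160) (nat_lit 6) (nat_lit 7) (nat_lit 11) L85542 (by decide +kernel)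
theorem L85544 : W_29 (nat_lit 7) (nat_lit 0xc000300000001600080000000000000000000000000000000) (nat_lit 0x0) (nat_lit 0x3000000001f00090003c000000000000000000000000000000) := T_29 (nat_lit 125) (nat_lit 159) (nat_lit 7) (nat_lit 6) (nat_lit 7) L85543 (by decide +kernel)
theorem L85545 : W_29 (nat_lit 5) (nat_lit 0xc000300000001600080000000000000000000000000000000) (nat_lit 0x0) (nat_lit 0x10000c001e000800020000000000000000000000000000000) := T_29 (nat_lit 143) (nat_lit 160) (nat_lit 6) (nat_lit 7) (nat_lit 11) L82552 (by decide +kernel)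
theorem L85546 : W_29 (nat_lit 14) (nat_lit 0xc000300000001400080000000000000000000000000000000) (nat_lit 0x0) (nat_lit 0x500038031c000e001fc00bf003f0016000b0000000000000000000000) := Q_29 (nat_lit 141) (C_29 L82538 (C_29 L82668 (C_29 L85536 (C_29 L85541 (C_29 L85544 (C_29 L85545 N_29)))))) (by decide +kernel)
theorem L85551 : W_29 (nat_lit 6) (nat_lit 0xc00030000c001200080000000000000000000000000000000) (nat_lit 0x0) (nat_lit 0x100008000c0003000500030000800000000000000000000000000) := T_29 (nat_lit 174) (nat_lit 175) (nat_lit 3) (nat_lit 4) (nat_lit 10) L82397 (by decide +kernel)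
theorem L85552 : W_29 (nat_lit 2) (nat_lit 0xc00030000e001300080000000000000000000000000000000) (nat_lit 0x0) (nat_lit 0x100000c0000000000000000000000000000000000) := D_29 (nat_lit 139) (nat_lit 138) (nat_lit 160) (nat_lit 3) (nat_lit 2) (nat_lit 8) (nat_lit 0) (nat_lit 7) (nat_lit 9) (by decide +kernel)
theorem L85553 : W_29 (nat_lit 3) (nat_lit 0xc00030000c001300080000000000000000000000000000000) (nat_lit 0x0) (nat_lit 0x130000c0000000000000000000000000000000000) := T_29 (nat_lit 157) (nat_lit 156) (nat_lit 3) (nat_lit 3) (nat_lit 9) L85552 (by decide +kernel)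
theorem L85554 : W_29 (nat_lit 2) (nat_lit 0xc00030000c001380080000000000000000000000000000000) (nat_lit 0x0) (nat_lit 0x10000400020000000000000000000000000000000) := D_29 (nat_lit 142) (nat_lit 125) (nat_lit 160) (nat_lit 7) (nat_lit 6) (nat_lit 7) (nat_lit 3) (nat_lit 3) (nat_lit 8) (by decide +kernel)
theorem L85555 : W_29 (nat_lit 3) (nat_lit 0xc00030000c001300080000000000000000000000000000000) (nat_lit 0x0) (nat_lit 0x100004c0020000000000000000000000000000000) := T_29 (nat_lit 139) (nat_lit 138) (nat_lit 3) (nat_lit 2) (nat_lit 8) L85554 (by decide +kernel)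
theorem L85556 : W_29 (nat_lit 2) (nat_lit 0xc00036800e0013000b8000200000000000000000000000000) (nat_lit 0x0) (nat_lit 0x400030000000000000000000000) := D_29 (nat_lit 106) (nat_lit 89) (nat_lit 88) (nat_lit 7) (nat_lit 4) (nat_lit 5) (nat_lit 4) (nat_lit 4) (nat_lit 9) (by decide +kernel)
theorem L85557 : W_29 (nat_lit 3) (nat_lit 0xc00036800e0013000b8000000000000000000000000000000) (nat_lit 0x0) (nat_lit 0x4000600030000000000000000000000) := T_29 (nat_lit 105) (nat_lit 122) (nat_lit 4) (nat_lit 4) (nat_lit 10) L85556 (by decide +kernel)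
theorem L85558 : W_29 (nat_lit 4) (nat_lit 0xc00036800e0013000b0000000000000000000000000000000) (nat_lit 0x0) (nat_lit 0x40000000000000000c000600030000000000000000000000) := T_29 (nat_lit 123) (nat_lit 190) (nat_lit 5) (nat_lit 4) (nat_lit 7) L85557 (by decide +kernel)
theorem L85559 : W_29 (nat_lit 5) (nat_lit 0xc00036000e0013000b0000000000000000000000000000000) (nat_lit 0x0) (nat_lit 0x40001800000000000c000600030000000000000000000000) := T_29 (nat_lit 171) (nat_lit 172) (nat_lit 2) (nat_lit 1) (nat_lit 10) L85558 (by decide +kernel)
theorem L85560 : W_29 (nat_lit 6) (nat_lit 0xc00034000e0013000b0000000000000000000000000000000) (nat_lit 0x0) (nat_lit 0x40003801000000000c000600030000000000000000000000) := T_29 (nat_lit 173) (nat_lit 160) (nat_lit 1) (nat_lit 7) (nat_lit 9) L85559 (by decide +kernel)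
theorem L85561 : W_29 (nat_lit 7) (nat_lit 0xc00030000e0013000b0000000000000000000000000000000) (nat_lit 0x0) (nat_lit 0xc0007801000000000c000600030000000000000000000000) := T_29 (nat_lit 174) (nat_lit 191) (nat_lit 6) (nat_lit 4) (nat_lit 11) L85560 (by decide +kernel)
theorem L85562 : W_29 (nat_lit 8) (nat_lit 0xc00030000e0013000a0000000000000000000000000000000) (nat_lit 0x0) (nat_lit 0xc0007801000000001c000e00030000000000000000000000) := T_29 (nat_lit 124) (nat_lit 107) (nat_lit 7) (nat_lit 5) (nat_lit 6) L85561 (by decide +kernel)
theorem L85563 : W_29 (nat_lit 9) (nat_lit 0xc00030000c0013000a0000000000000000000000000000000) (nat_lit 0x0) (nat_lit 0xc0007801300000001c000e00030000000000000000000000) := T_29 (nat_lit 157) (nat_lit 156) (nat_lit 3) (nat_lit 3) (nat_lit 9) L85562 (by decide +kernel)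
theorem L85564 : W_29 (nat_lit 10) (nat_lit 0xc00030000c001300080000000000000000000000000000000) (nat_lit 0x0) (nat_lit 0xc0007801300040003c000e00030000000000000000000000) := T_29 (nat_lit 125) (nat_lit 142) (nat_lit 7) (nat_lit 6) (nat_lit 7) L85563 (by decide +kernel)
theorem L85565 : W_29 (nat_lit 11) (nat_lit 0xc00030000c001200080000000000000000000000000000000) (nat_lit 0x0) (nat_lit 0xc000780138005c003c000e00030000000000000000000000) := Q_29 (nat_lit 140) (C_29 L82393 (C_29 L85553 (C_29 L85555 (C_29 L85564 N_29)))) (by decide +kernel)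
theorem L85566 : W_29 (nat_lit 2) (nat_lit 0xc00034000e001200090000000000000000000000000000000) (nat_lit 0x0) (nat_lit 0x10000800000000000100000000000000000000000000000000000) := D_29 (nat_lit 191) (nat_lit 140) (nat_lit 208) (nat_lit 6) (nat_lit 4) (nat_lit 11) (nat_lit 6) (nat_lit 4) (nat_lit 12) (by decide +kernel)
theorem L85567 : W_29 (nat_lit 3) (nat_lit 0xc00034000c001200090000000000000000000000000000000) (nat_lit 0x0) (nat_lit 0x10000800000003000100000000000000000000000000000000000) := T_29 (nat_lit 157) (nat_lit 156) (nat_lit 3) (nat_lit 3) (nat_lit 9) L85566 (by decide +kernel)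
theorem L85568 : W_29 (nat_lit 4) (nat_lit 0xc00030000c001200090000000000000000000000000000000) (nat_lit 0x0) (nat_lit 0x100008000c0003000100000000000000000000000000000000000) := T_29 (nat_lit 174) (nat_lit 175) (nat_lit 3) (nat_lit 4) (nat_lit 10) L85567 (by decide +kernel)
theorem L85569 : W_29 (nat_lit 5) (nat_lit 0xc00030000c001200080000000000000000000000000000000) (nat_lit 0x0) (nat_lit 0x100008000c0003000100010000800000000000000000000000000) := T_29 (nat_lit 124) (nat_lit 107) (nat_lit 7) (nat_lit 5) (nat_lit 6) L85568 (by decide +kernel)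
theorem L85570 : W_29 (nat_lit 7) (nat_lit 0xc00030000d001200090000000000000000000000000000000) (nat_lit 0x0) (nat_lit 0x600030001800080000000500028001400000000000000000000000000) := T_29 (nat_lit 125) (nat_lit 142) (nat_lit 7) (nat_lit 6) (nat_lit 7) L84191 (by decide +kernel)
theorem L85571 : W_29 (nat_lit 8) (nat_lit 0xc00030000d001200080000000000000000000000000000000) (nat_lit 0x0) (nat_lit 0x600030001800080000000500038001c00000000000000000000000000) := T_29 (nat_lit 124) (nat_lit 107) (nat_lit 7) (nat_lit 5) (nat_lit 6) L85570 (by decide +kernel)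
theorem L85572 : W_29 (nat_lit 9) (nat_lit 0xc00030000c001200080000000000000000000000000000000) (nat_lit 0x0) (nat_lit 0x600030001800080003000500038001c00000000000000000000000000) := T_29 (nat_lit 156) (nat_lit 157) (nat_lit 3) (nat_lit 3) (nat_lit 9) L85571 (by decide +kernel)
theorem L85573 : W_29 (nat_lit 3) (nat_lit 0xc00030000c0012000a0000000000000000000000000000000) (nat_lit 0x0) (nat_lit 0xc0000000000010001800000000000000000000000000) := T_29 (nat_lit 175) (nat_lit 174) (nat_lit 3) (nat_lit 4) (nat_lit 10) L82403 (by decide +kernel)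
theorem L85574 : W_29 (nat_lit 4) (nat_lit 0xc00030000c001200080000000000000000000000000000000) (nat_lit 0x0) (nat_lit 0xc0000000400030001800000000000000000000000000) := T_29 (nat_lit 125) (nat_lit 142) (nat_lit 7) (nat_lit 6) (nat_lit 7) L85573 (by decide +kernel)
theorem L85575 : W_29 (nat_lit 6) (nat_lit 0xc00038000d0012000a0000000000000000000000000000000) (nat_lit 0x0) (nat_lit 0x600030001800000000000100018001400000000000000000000000000) := T_29 (nat_lit 124) (nat_lit 108) (nat_lit 6) (nat_lit 5) (nat_lit 10) L82412 (by decide +kernel)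
theorem L85576 : W_29 (nat_lit 7) (nat_lit 0xc00038000d001200080000000000000000000000000000000) (nat_lit 0x0) (nat_lit 0x600030001800000000000500038001400000000000000000000000000) := T_29 (nat_lit 125) (nat_lit 142) (nat_lit 7) (nat_lit 6) (nat_lit 7) L85575 (by decide +kernel)
theorem L85577 : W_29 (nat_lit 8) (nat_lit 0xc00030000d001200080000000000000000000000000000000) (nat_lit 0x0) (nat_lit 0x6000300018000c0000000500038001400000000000000000000000000) := T_29 (nat_lit 175) (nat_lit 174) (nat_lit 3) (nat_lit 4) (nat_lit 10) L85576 (by decide +kernel)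
theorem L85578 : W_29 (nat_lit 9) (nat_lit 0xc00030000c001200080000000000000000000000000000000) (nat_lit 0x0) (nat_lit 0x6000300018000c0003000500038001400000000000000000000000000) := T_29 (nat_lit 156) (nat_lit 157) (nat_lit 3) (nat_lit 3) (nat_lit 9) L85577 (by decide +kernel)
theorem L85579 : W_29 (nat_lit 2) (nat_lit 0xda0038000d001700080000000000000000000000000000000) (nat_lit 0x0) (nat_lit 0x10800080000000000000000000000000000000000) := D_29 (nat_lit 139) (nat_lit 160) (nat_lit 155) (nat_lit 3) (nat_lit 3) (nat_lit 8) (nat_lit 1) (nat_lit 6) (nat_lit 8) (by decide +kernel)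
theorem L85580 : W_29 (nat_lit 3) (nat_lit 0xda0038000d001600080000000000000000000000000000000) (nat_lit 0x0) (nat_lit 0x10800180008000000000000000000000000000000) := T_29 (nat_lit 140) (nat_lit 123) (nat_lit 4) (nat_lit 5) (nat_lit 11) L85579 (by decide +kernel)
theorem L85581 : W_29 (nat_lit 4) (nat_lit 0xd80038000d001600080000000000000000000000000000000) (nat_lit 0x0) (nat_lit 0x600000010800180008000000000000000000000000000000) := T_29 (nat_lit 189) (nat_lit 190) (nat_lit 2) (nat_lit 2) (nat_lit 11) L85580 (by decide +kernel)
theorem L85582 : W_29 (nat_lit 5) (nat_lit 0xd00038000d001600080000000000000000000000000000000) (nat_lit 0x0) (nat_lit 0x10000e00000010800180008000000000000000000000000000000) := T_29 (nat_lit 191) (nat_lit 208) (nat_lit 5) (nat_lit 5) (nat_lit 8) L85581 (by decide +kernel)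
theorem L85583 : W_29 (nat_lit 6) (nat_lit 0xc00038000d001600080000000000000000000000000000000) (nat_lit 0x0) (nat_lit 0x30001e00000010800180008000000000000000000000000000000) := T_29 (nat_lit 192) (nat_lit 209) (nat_lit 6) (nat_lit 5) (nat_lit 12) L85582 (by decide +kernel)
theorem L85584 : W_29 (nat_lit 7) (nat_lit 0xc00030000d001600080000000000000000000000000000000) (nat_lit 0x0) (nat_lit 0x30001e000c0010800180008000000000000000000000000000000) := T_29 (nat_lit 175) (nat_lit 174) (nat_lit 3) (nat_lit 4) (nat_lit 10) L85583 (by decide +kernel)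
theorem L85585 : W_29 (nat_lit 8) (nat_lit 0xc00030000c001600080000000000000000000000000000000) (nat_lit 0x0) (nat_lit 0x30001e000c0013800180008000000000000000000000000000000) := T_29 (nat_lit 156) (nat_lit 157) (nat_lit 3) (nat_lit 3) (nat_lit 9) L85584 (by decide +kernel)
theorem L85586 : W_29 (nat_lit 9) (nat_lit 0xc00030000c001200080000000000000000000000000000000) (nat_lit 0x0) (nat_lit 0x30001e000c0013800580028000000000000000000000000000000) := T_29 (nat_lit 142) (nat_lit 125) (nat_lit 7) (nat_lit 6) (nat_lit 7) L85585 (by decide +kernel)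
theorem L85587 : W_29 (nat_lit 12) (nat_lit 0xc00030000c001000080000000000000000000000000000000) (nat_lit 0x0) (nat_lit 0x600030001e000f80138007c003c001e00030000000000000000000000) := Q_29 (nat_lit 141) (C_29 L85551 (C_29 L85565 (C_29 L85569 (C_29 L85572 (C_29 L85574 (C_29 L85578 (C_29 L85586 N_29))))))) (by decide +kernel)
theorem L85589 : W_29 (nat_lit 5) (nat_lit 0xc000300000001a00080000000000000000000000000000000) (nat_lit 0x0) (nat_lit 0x700050011c000000000000000000000000000000) := T_29 (nat_lit 142) (nat_lit 128) (nat_lit 2) (nat_lit 5) (nat_lit 8) L82556 (by decide +kernel)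
theorem L85590 : W_29 (nat_lit 3) (nat_lit 0x1c000200000001000080000000000000000000000000000000) (nat_lit 0x0) (nat_lit 0x220001c0000000000000000000000000000000000000000000) := T_29 (nat_lit 176) (nat_lit 197) (nat_lit 0) (nat_lit 10) (nat_lit 11) L82189 (by decide +kernel)
theorem L85593 : W_29 (nat_lit 2) (nat_lit 0x10000c000f00000001000080000000000000000000000000000000) (nat_lit 0x0) (nat_lit 0x20000000000000000c0000000000000000000000000000000000000000) := D_29 (nat_lit 162) (nat_lit 163) (nat_lit 229) (nat_lit 2) (nat_lit 6) (nat_lit 10) (nat_lit 6) (nat_lit 8) (nat_lit 13) (by decide +kernel)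
theorem L85594 : W_29 (nat_lit 4) (nat_lit 0x200010000c000700000001000080000000000000000000000000000000) (nat_lit 0x0) (nat_lit 0x20001000000002003800040000000000000000000000000000000000000000) := T_29 (nat_lit 228) (nat_lit 245) (nat_lit 5) (nat_lit 8) (nat_lit 10) L83969 (by decide +kernel)
theorem L85595 : W_29 (nat_lit 5) (nat_lit 0x10000c000700000001000080000000000000000000000000000000) (nat_lit 0x0) (nat_lit 0x20003000000002003800050000000000000000000000000000000000000000) := T_29 (nat_lit 229) (nat_lit 160) (nat_lit 4) (nat_lit 8) (nat_lit 13) L85594 (by decide +kernel)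
theorem L85596 : W_29 (nat_lit 4) (nat_lit 0x10000c000f00000001000080000000000000000000000000000000) (nat_lit 0x0) (nat_lit 0x30001cc000000000000000000000000000000000000000) := T_29 (nat_lit 159) (nat_lit 158) (nat_lit 0) (nat_lit 9) (nat_lit 10) L83840 (by decide +kernel)
theorem L85597 : W_29 (nat_lit 2) (nat_lit 0x10000c00070000c001000080000000000000000000000000000000) (nat_lit 0x0) (nat_lit 0x13000000000000000000000000000000000000000) := D_29 (nat_lit 157) (nat_lit 156) (nat_lit 160) (nat_lit 3) (nat_lit 3) (nat_lit 9) (nat_lit 3) (nat_lit 4) (nat_lit 9) (by decide +kernel)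
theorem L85599 : W_29 (nat_lit 2) (nat_lit 0x10000c000300010001000080000000000000000000000000000000) (nat_lit 0x0) (nat_lit 0x40002000000000000400000000000000000000000000000000000000000000) := D_29 (nat_lit 229) (nat_lit 178) (nat_lit 246) (nat_lit 4) (nat_lit 8) (nat_lit 13) (nat_lit 4) (nat_lit 8) (nat_lit 14) (by decide +kernel)
theorem L85600 : W_29 (nat_lit 3) (nat_lit 0x10000c000300000001000080000000000000000000000000000000) (nat_lit 0x0) (nat_lit 0x40002000000000000400010000800000000000000000000000000000000000) := T_29 (nat_lit 160) (nat_lit 143) (nat_lit 7) (nat_lit 7) (nat_lit 8) L85599 (by decide +kernel)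
theorem L85601 : W_29 (nat_lit 2) (nat_lit 0x10000f000300000001000080000000000000000000000000000000) (nat_lit 0x0) (nat_lit 0xc00400000000000000000000000000000000000000000000) := D_29 (nat_lit 191) (nat_lit 178) (nat_lit 190) (nat_lit 2) (nat_lit 4) (nat_lit 11) (nat_lit 2) (nat_lit 3) (nat_lit 11) (by decide +kernel)
theorem L85602 : W_29 (nat_lit 3) (nat_lit 0x10000e000300000001000080000000000000000000000000000000) (nat_lit 0x0) (nat_lit 0x200001c00400000000000000000000000000000000000000000000) := T_29 (nat_lit 192) (nat_lit 213) (nat_lit 3) (nat_lit 5) (nat_lit 11) L85601 (by decide +kernel)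
theorem L85603 : W_29 (nat_lit 2) (nat_lit 0x10000c000200010001000080000000000000000000000000000000) (nat_lit 0x0) (nat_lit 0x40002000000000000400000000000000000000000000000000000000000000) := D_29 (nat_lit 229) (nat_lit 178) (nat_lit 246) (nat_lit 4) (nat_lit 8) (nat_lit 13) (nat_lit 4) (nat_lit 8) (nat_lit 14) (by decide +kernel)
theorem L85604 : W_29 (nat_lit 3) (nat_lit 0x10000c000200000001000080000000000000000000000000000000) (nat_lit 0x0) (nat_lit 0x40002000000000000400010000800000000000000000000000000000000000) := T_29 (nat_lit 160) (nat_lit 143) (nat_lit 7) (nat_lit 7) (nat_lit 8) L85603 (by decide +kernel)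
theorem L85608 : W_29 (nat_lit 2) (nat_lit 0x30001c000200000001000080000000000000000000000000000000) (nat_lit 0x0) (nat_lit 0xc00002000000000000000000000000000000000000000000000000) := D_29 (nat_lit 214) (nat_lit 215) (nat_lit 193) (nat_lit 0) (nat_lit 11) (nat_lit 12) (nat_lit 3) (nat_lit 6) (nat_lit 11) (by decide +kernel)
theorem L85609 : W_29 (nat_lit 2) (nat_lit 0x4000000070003c001200000001000080000000000000000000000000000000) (nat_lit 0x0) (nat_lit 0x4000000000000000080004000000000000000000000000000000000000) := D_29 (nat_lit 163) (nat_lit 146) (nat_lit 230) (nat_lit 5) (nat_lit 10) (nat_lit 8) (nat_lit 5) (nat_lit 10) (nat_lit 9) (by decide +kernel)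
theorem L85610 : W_29 (nat_lit 3) (nat_lit 0x4000000070003c000200000001000080000000000000000000000000000000) (nat_lit 0x0) (nat_lit 0x4000000000003000080004000000000000000000000000000000000000) := T_29 (nat_lit 180) (nat_lit 181) (nat_lit 2) (nat_lit 7) (nat_lit 11) L85609 (by decide +kernel)
theorem L85611 : W_29 (nat_lit 4) (nat_lit 0x70003c000200000001000080000000000000000000000000000000) (nat_lit 0x0) (nat_lit 0x40006000000000003000080004000000000000000000000000000000000000) := T_29 (nat_lit 246) (nat_lit 229) (nat_lit 4) (nat_lit 8) (nat_lit 14) L85610 (by decide +kernel)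
theorem L85612 : W_29 (nat_lit 5) (nat_lit 0x30003c000200000001000080000000000000000000000000000000) (nat_lit 0x0) (nat_lit 0x40006000c00000003000080004000000000000000000000000000000000000) := T_29 (nat_lit 214) (nat_lit 215) (nat_lit 3) (nat_lit 7) (nat_lit 11) L85611 (by decide +kernel)
theorem L85613 : W_29 (nat_lit 2) (nat_lit 0x30007c000200000001000080000000000000000000000000000000) (nat_lit 0x0) (nat_lit 0x1c00000000000000000000000000000000000000000000000000000) := D_29 (nat_lit 215) (nat_lit 214) (nat_lit 216) (nat_lit 3) (nat_lit 7) (nat_lit 11) (nat_lit 3) (nat_lit 8) (nat_lit 11) (by decide +kernel)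
theorem L85614 : W_29 (nat_lit 3) (nat_lit 0x30003c000200000001000080000000000000000000000000000000) (nat_lit 0x0) (nat_lit 0x1c000c0000000000000000000000000000000000000000000000000) := T_29 (nat_lit 198) (nat_lit 199) (nat_lit 1) (nat_lit 12) (nat_lit 11) L85613 (by decide +kernel)
theorem L85615 : W_29 (nat_lit 2) (nat_lit 0x4000000011000f000240000001000080000000000000000000000000000000) (nat_lit 0x0) (nat_lit 0x8000800020000000000000000000000000000000000000000000) := D_29 (nat_lit 191) (nat_lit 207) (nat_lit 173) (nat_lit 1) (nat_lit 7) (nat_lit 11) (nat_lit 0) (nat_lit 7) (nat_lit 11) (by decide +kernel)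
theorem L85616 : W_29 (nat_lit 3) (nat_lit 0x4000000011000f000200000001000080000000000000000000000000000000) (nat_lit 0x0) (nat_lit 0x80008000e0000000000000000000000000000000000000000000) := T_29 (nat_lit 174) (nat_lit 175) (nat_lit 0) (nat_lit 8) (nat_lit 11) L85615 (by decide +kernel)
theorem L85617 : W_29 (nat_lit 4) (nat_lit 0x4000000010000f000200000001000080000000000000000000000000000000) (nat_lit 0x0) (nat_lit 0x380008000e0000000000000000000000000000000000000000000) := T_29 (nat_lit 208) (nat_lit 209) (nat_lit 1) (nat_lit 8) (nat_lit 11) L85616 (by decide +kernel)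
theorem L85618 : W_29 (nat_lit 5) (nat_lit 0x4000000010000e000200000001000080000000000000000000000000000000) (nat_lit 0x0) (nat_lit 0x2380018000e0000000000000000000000000000000000000000000) := T_29 (nat_lit 192) (nat_lit 213) (nat_lit 3) (nat_lit 5) (nat_lit 11) L85617 (by decide +kernel)
theorem L85619 : W_29 (nat_lit 6) (nat_lit 0x10000e000200000001000080000000000000000000000000000000) (nat_lit 0x0) (nat_lit 0x400020002380018000e0000000000000000000000000000000000000000000) := T_29 (nat_lit 246) (nat_lit 229) (nat_lit 4) (nat_lit 8) (nat_lit 14) L85618 (by decide +kernel)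
theorem L85621 : W_29 (nat_lit 2) (nat_lit 0x70003c001200000001000080000000000000000000000000000000) (nat_lit 0x0) (nat_lit 0x4000000000000000080004000000000000000000000000000000000000) := D_29 (nat_lit 163) (nat_lit 146) (nat_lit 230) (nat_lit 5) (nat_lit 10) (nat_lit 8) (nat_lit 5) (nat_lit 10) (nat_lit 9) (by decide +kernel)
theorem L85622 : W_29 (nat_lit 2) (nat_lit 0x400000003000bc001200080001000080000000000000000000000000000000) (nat_lit 0x0) (nat_lit 0x80004000000000000800000000000000000000000000000000000000000000) := D_29 (nat_lit 230) (nat_lit 247) (nat_lit 179) (nat_lit 6) (nat_lit 9) (nat_lit 14) (nat_lit 6) (nat_lit 9) (nat_lit 13) (by decide +kernel)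
theorem L85623 : W_29 (nat_lit 3) (nat_lit 0x400000003000bc001200000001000080000000000000000000000000000000) (nat_lit 0x0) (nat_lit 0x80004000000000000800080004000000000000000000000000000000000000) := T_29 (nat_lit 163) (nat_lit 146) (nat_lit 5) (nat_lit 10) (nat_lit 8) L85622 (by decide +kernel)
theorem L85624 : W_29 (nat_lit 4) (nat_lit 0x400000003000bc000200000001000080000000000000000000000000000000) (nat_lit 0x0) (nat_lit 0x80004000000000003800080004000000000000000000000000000000000000) := T_29 (nat_lit 180) (nat_lit 181) (nat_lit 2) (nat_lit 7) (nat_lit 11) L85623 (by decide +kernel)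
theorem L85625 : W_29 (nat_lit 5) (nat_lit 0x4000000030003c000200000001000080000000000000000000000000000000) (nat_lit 0x0) (nat_lit 0x800040000000c0003800080004000000000000000000000000000000000000) := T_29 (nat_lit 199) (nat_lit 198) (nat_lit 1) (nat_lit 12) (nat_lit 11) L85624 (by decide +kernel)
theorem L85626 : W_29 (nat_lit 6) (nat_lit 0x30003c000200000001000080000000000000000000000000000000) (nat_lit 0x0) (nat_lit 0xc00060000000c0003800080004000000000000000000000000000000000000) := T_29 (nat_lit 246) (nat_lit 229) (nat_lit 4) (nat_lit 8) (nat_lit 14) L85625 (by decide +kernel)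
theorem L85627 : W_29 (nat_lit 7) (nat_lit 0x30001c000200000001000080000000000000000000000000000000) (nat_lit 0x0) (nat_lit 0xc0006001c000e0003800080004000000000000000000000000000000000000) := Q_29 (nat_lit 197) (C_29 L85614 (C_29 L85626 (C_29 L85612 N_29))) (by decide +kernel)
theorem L85628 : W_29 (nat_lit 2) (nat_lit 0x200030001e000200000001000080000000000000000000000000000000) (nat_lit 0x0) (nat_lit 0x1800040000000000000000000000000000000000000000) := D_29 (nat_lit 179) (nat_lit 180) (nat_lit 162) (nat_lit 2) (nat_lit 6) (nat_lit 11) (nat_lit 5) (nat_lit 9) (nat_lit 9) (by decide +kernel)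
theorem L85629 : W_29 (nat_lit 3) (nat_lit 0x30001e000200000001000080000000000000000000000000000000) (nat_lit 0x0) (nat_lit 0x40002000000000001800040000000000000000000000000000000000000000) := T_29 (nat_lit 229) (nat_lit 246) (nat_lit 4) (nat_lit 8) (nat_lit 14) L85628 (by decide +kernel)
theorem L85630 : W_29 (nat_lit 4) (nat_lit 0x30001c000200000001000080000000000000000000000000000000) (nat_lit 0x0) (nat_lit 0x40002000000003001800040000000000000000000000000000000000000000) := T_29 (nat_lit 193) (nat_lit 192) (nat_lit 3) (nat_lit 5) (nat_lit 11) L85629 (by decide +kernel)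
theorem L85631 : W_29 (nat_lit 8) (nat_lit 0x10001c000200000001000080000000000000000000000000000000) (nat_lit 0x0) (nat_lit 0xc0006001e000e30038000c0004000000000000000000000000000000000000) := Q_29 (nat_lit 213) (C_29 L85608 (C_29 L85627 (C_29 L85630 N_29))) (by decide +kernel)
theorem L85634 : W_29 (nat_lit 2) (nat_lit 0x800040003000bc000200000001000080000000000000000000000000000000) (nat_lit 0x0) (nat_lit 0x800040002000000000000000000000000000000000000000000000000000000000) := D_29 (nat_lit 246) (nat_lit 229) (nat_lit 263) (nat_lit 4) (nat_lit 8) (nat_lit 14) (nat_lit 5) (nat_lit 9) (nat_lit 11) (by decide +kernel)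
theorem L85635 : W_29 (nat_lit 3) (nat_lit 0x40003000bc000200000001000080000000000000000000000000000000) (nat_lit 0x0) (nat_lit 0x18000c0002000000000000000000000000000000000000000000000000000000000) := T_29 (nat_lit 247) (nat_lit 264) (nat_lit 4) (nat_lit 9) (nat_lit 15) L85634 (by decide +kernel)
theorem L85636 : W_29 (nat_lit 4) (nat_lit 0x400030003c000200000001000080000000000000000000000000000000) (nat_lit 0x0) (nat_lit 0x18000c00020000000c0000000000000000000000000000000000000000000000000) := T_29 (nat_lit 199) (nat_lit 198) (nat_lit 1) (nat_lit 12) (nat_lit 11) L85635 (by decide +kernel)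
theorem L85643 : W_29 (nat_lit 2) (nat_lit 0x4000400030001c000200010001000080000000000000000000000000000000) (nat_lit 0x0) (nat_lit 0x1800080000000000000000000000000000000000000000000000000000000000000) := D_29 (nat_lit 247) (nat_lit 264) (nat_lit 263) (nat_lit 4) (nat_lit 9) (nat_lit 15) (nat_lit 5) (nat_lit 9) (nat_lit 11) (by decide +kernel)
theorem L85644 : W_29 (nat_lit 3) (nat_lit 0x400030001c000200010001000080000000000000000000000000000000) (nat_lit 0x0) (nat_lit 0x18000c0002000000000000000000000000000000000000000000000000000000000) := T_29 (nat_lit 246) (nat_lit 229) (nat_lit 4) (nat_lit 8) (nat_lit 14) L85643 (by decide +kernel)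
theorem L85645 : W_29 (nat_lit 2) (nat_lit 0x10001e000200000001000080000000000000000000000000000000) (nat_lit 0x0) (nat_lit 0x600001000000000000000000000000000000000000000000000000) := D_29 (nat_lit 213) (nat_lit 214) (nat_lit 192) (nat_lit 3) (nat_lit 6) (nat_lit 11) (nat_lit 3) (nat_lit 5) (nat_lit 11) (by decide +kernel)
theorem L85646 : W_29 (nat_lit 2) (nat_lit 0x4000000010007c002200000001800080000000000000000000000000000000) (nat_lit 0x0) (nat_lit 0x1c00000000000000000000000000000000000000000000000000000) := D_29 (nat_lit 215) (nat_lit 214) (nat_lit 216) (nat_lit 3) (nat_lit 7) (nat_lit 11) (nat_lit 3) (nat_lit 8) (nat_lit 11) (by decide +kernel)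
theorem L85647 : W_29 (nat_lit 3) (nat_lit 0x4000000010003c002200000001800080000000000000000000000000000000) (nat_lit 0x0) (nat_lit 0x1c00040004000000000000000000000000000000000000000000000) := T_29 (nat_lit 198) (nat_lit 182) (nat_lit 2) (nat_lit 8) (nat_lit 11) L85646 (by decide +kernel)
theorem L85648 : W_29 (nat_lit 4) (nat_lit 0x10003c002200000001800080000000000000000000000000000000) (nat_lit 0x0) (nat_lit 0x40002001c00040004000000000000000000000000000000000000000000000) := T_29 (nat_lit 246) (nat_lit 229) (nat_lit 4) (nat_lit 8) (nat_lit 14) L85647 (by decide +kernel)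
theorem L85649 : W_29 (nat_lit 5) (nat_lit 0x10003c000200000001800080000000000000000000000000000000) (nat_lit 0x0) (nat_lit 0x40002001c00040007000000000000000000000000000000000000000000000) := T_29 (nat_lit 181) (nat_lit 180) (nat_lit 2) (nat_lit 7) (nat_lit 11) L85648 (by decide +kernel)
theorem L85650 : W_29 (nat_lit 6) (nat_lit 0x10003c000200000001000080000000000000000000000000000000) (nat_lit 0x0) (nat_lit 0x40002001c00040007000010000800000000000000000000000000000000000) := T_29 (nat_lit 143) (nat_lit 160) (nat_lit 7) (nat_lit 7) (nat_lit 8) L85649 (by decide +kernel)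
theorem L85651 : W_29 (nat_lit 2) (nat_lit 0x400000001000fc002200000001800080000000000000000000000000000000) (nat_lit 0x0) (nat_lit 0x3800000000000000000000000000000000000000000000000000000) := D_29 (nat_lit 216) (nat_lit 215) (nat_lit 217) (nat_lit 3) (nat_lit 8) (nat_lit 11) (nat_lit 3) (nat_lit 9) (nat_lit 11) (by decide +kernel)
theorem L85652 : W_29 (nat_lit 3) (nat_lit 0x4000000010007c002200000001800080000000000000000000000000000000) (nat_lit 0x0) (nat_lit 0x3a00080000000000000000000000000000000000000000000000000) := T_29 (nat_lit 199) (nat_lit 213) (nat_lit 1) (nat_lit 12) (nat_lit 11) L85651 (by decide +kernel)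
theorem L85653 : W_29 (nat_lit 4) (nat_lit 0x4000000010003c002200000001800080000000000000000000000000000000) (nat_lit 0x0) (nat_lit 0x3a000c0004000000000000000000000000000000000000000000000) := T_29 (nat_lit 198) (nat_lit 182) (nat_lit 2) (nat_lit 8) (nat_lit 11) L85652 (by decide +kernel)
theorem L85654 : W_29 (nat_lit 5) (nat_lit 0x4000000010003c000200000001800080000000000000000000000000000000) (nat_lit 0x0) (nat_lit 0x3a000c0007000000000000000000000000000000000000000000000) := T_29 (nat_lit 181) (nat_lit 180) (nat_lit 2) (nat_lit 7) (nat_lit 11) L85653 (by decide +kernel)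
theorem L85655 : W_29 (nat_lit 6) (nat_lit 0x10003c000200000001800080000000000000000000000000000000) (nat_lit 0x0) (nat_lit 0x40002003a000c0007000000000000000000000000000000000000000000000) := T_29 (nat_lit 246) (nat_lit 229) (nat_lit 4) (nat_lit 8) (nat_lit 14) L85654 (by decide +kernel)
theorem L85656 : W_29 (nat_lit 7) (nat_lit 0x10003c000200000001000080000000000000000000000000000000) (nat_lit 0x0) (nat_lit 0x40002003a000c0007000010000800000000000000000000000000000000000) := T_29 (nat_lit 143) (nat_lit 160) (nat_lit 7) (nat_lit 7) (nat_lit 8) L85655 (by decide +kernel)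
theorem L85657 : W_29 (nat_lit 3) (nat_lit 0x50003c001200000001000080000000000000000000000000000000) (nat_lit 0x0) (nat_lit 0x4000200002000000080004000000000000000000000000000000000000) := T_29 (nat_lit 213) (nat_lit 193) (nat_lit 3) (nat_lit 6) (nat_lit 11) L85621 (by decide +kernel)
theorem L85658 : W_29 (nat_lit 4) (nat_lit 0x10003c001200000001000080000000000000000000000000000000) (nat_lit 0x0) (nat_lit 0x4000e00002000000080004000000000000000000000000000000000000) := T_29 (nat_lit 214) (nat_lit 215) (nat_lit 3) (nat_lit 7) (nat_lit 11) L85657 (by decide +kernel)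
theorem L85659 : W_29 (nat_lit 5) (nat_lit 0x10003c000200000001000080000000000000000000000000000000) (nat_lit 0x0) (nat_lit 0x4000e00002003000080004000000000000000000000000000000000000) := T_29 (nat_lit 180) (nat_lit 181) (nat_lit 2) (nat_lit 7) (nat_lit 11) L85658 (by decide +kernel)
theorem L85660 : W_29 (nat_lit 2) (nat_lit 0x4000000090007c004200010001000080000000000000000000000000000000) (nat_lit 0x0) (nat_lit 0x200080008000000000000000000000000000000000000000000000) := D_29 (nat_lit 199) (nat_lit 213) (nat_lit 183) (nat_lit 1) (nat_lit 12) (nat_lit 11) (nat_lit 2) (nat_lit 9) (nat_lit 11) (by decide +kernel)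
theorem L85661 : W_29 (nat_lit 3) (nat_lit 0x4000000090007c000200010001000080000000000000000000000000000000) (nat_lit 0x0) (nat_lit 0x20008000e000000000000000000000000000000000000000000000) := T_29 (nat_lit 182) (nat_lit 181) (nat_lit 2) (nat_lit 8) (nat_lit 11) L85660 (by decide +kernel)
theorem L85662 : W_29 (nat_lit 4) (nat_lit 0x4000000090003c000200010001000080000000000000000000000000000000) (nat_lit 0x0) (nat_lit 0x12000c000e000000000000000000000000000000000000000000000) := T_29 (nat_lit 198) (nat_lit 216) (nat_lit 3) (nat_lit 8) (nat_lit 11) L85661 (by decide +kernel)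
theorem L85663 : W_29 (nat_lit 5) (nat_lit 0x4000000010003c000200010001000080000000000000000000000000000000) (nat_lit 0x0) (nat_lit 0x1e000c000e000000000000000000000000000000000000000000000) := T_29 (nat_lit 215) (nat_lit 214) (nat_lit 3) (nat_lit 7) (nat_lit 11) L85662 (by decide +kernel)
theorem L85664 : W_29 (nat_lit 6) (nat_lit 0x4000000010003c000200000001000080000000000000000000000000000000) (nat_lit 0x0) (nat_lit 0x1e000c000e000010000800000000000000000000000000000000000) := T_29 (nat_lit 160) (nat_lit 143) (nat_lit 7) (nat_lit 7) (nat_lit 8) L85663 (by decide +kernel)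
theorem L85665 : W_29 (nat_lit 7) (nat_lit 0x10003c000200000001000080000000000000000000000000000000) (nat_lit 0x0) (nat_lit 0x40002001e000c000e000010000800000000000000000000000000000000000) := T_29 (nat_lit 246) (nat_lit 229) (nat_lit 4) (nat_lit 8) (nat_lit 14) L85664 (by decide +kernel)
theorem L85666 : W_29 (nat_lit 2) (nat_lit 0x400030003c000200000001000080000000000000000000000000000000) (nat_lit 0x0) (nat_lit 0x1000080000000000000001000000000000000000000000000000000000000000000) := D_29 (nat_lit 247) (nat_lit 264) (nat_lit 180) (nat_lit 4) (nat_lit 9) (nat_lit 15) (nat_lit 6) (nat_lit 9) (nat_lit 14) (by decide +kernel)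
theorem L85667 : W_29 (nat_lit 2) (nat_lit 0x10007c000200000001000080000000000000000000000000000000) (nat_lit 0x0) (nat_lit 0x1c00000000000000000000000000000000000000000000000000000) := D_29 (nat_lit 215) (nat_lit 214) (nat_lit 216) (nat_lit 3) (nat_lit 7) (nat_lit 11) (nat_lit 3) (nat_lit 8) (nat_lit 11) (by decide +kernel)
theorem L85668 : W_29 (nat_lit 2) (nat_lit 0x1000fc000200000001000080000000000000000000000000000000) (nat_lit 0x0) (nat_lit 0x3800000000000000000000000000000000000000000000000000000) := D_29 (nat_lit 216) (nat_lit 215) (nat_lit 217) (nat_lit 3) (nat_lit 8) (nat_lit 11) (nat_lit 3) (nat_lit 9) (nat_lit 11) (by decide +kernel)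
theorem L85669 : W_29 (nat_lit 3) (nat_lit 0x10007c000200000001000080000000000000000000000000000000) (nat_lit 0x0) (nat_lit 0x3a00080000000000000000000000000000000000000000000000000) := T_29 (nat_lit 199) (nat_lit 213) (nat_lit 1) (nat_lit 12) (nat_lit 11) L85668 (by decide +kernel)
theorem L85670 : W_29 (nat_lit 2) (nat_lit 0x21000fc008200010001000080000000000000000000000000000000) (nat_lit 0x0) (nat_lit 0x4000100010000000000000000000000000000000000000000000000) := D_29 (nat_lit 200) (nat_lit 218) (nat_lit 184) (nat_lit 3) (nat_lit 10) (nat_lit 11) (nat_lit 2) (nat_lit 10) (nat_lit 11) (by decide +kernel)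
theorem L85671 : W_29 (nat_lit 3) (nat_lit 0x21000fc000200010001000080000000000000000000000000000000) (nat_lit 0x0) (nat_lit 0x400010001c000000000000000000000000000000000000000000000) := T_29 (nat_lit 183) (nat_lit 182) (nat_lit 2) (nat_lit 9) (nat_lit 11) L85670 (by decide +kernel)
theorem L85672 : W_29 (nat_lit 4) (nat_lit 0x1000fc000200010001000080000000000000000000000000000000) (nat_lit 0x0) (nat_lit 0x700010001c000000000000000000000000000000000000000000000) := T_29 (nat_lit 217) (nat_lit 216) (nat_lit 3) (nat_lit 9) (nat_lit 11) L85671 (by decide +kernel)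
theorem L85673 : W_29 (nat_lit 5) (nat_lit 0x1000fc000200000001000080000000000000000000000000000000) (nat_lit 0x0) (nat_lit 0x700010001c000010000800000000000000000000000000000000000) := T_29 (nat_lit 160) (nat_lit 143) (nat_lit 7) (nat_lit 7) (nat_lit 8) L85672 (by decide +kernel)
theorem L85674 : W_29 (nat_lit 6) (nat_lit 0x10007c000200000001000080000000000000000000000000000000) (nat_lit 0x0) (nat_lit 0x720018001c000010000800000000000000000000000000000000000) := T_29 (nat_lit 199) (nat_lit 213) (nat_lit 1) (nat_lit 12) (nat_lit 11) L85673 (by decide +kernel)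
theorem L85675 : W_29 (nat_lit 2) (nat_lit 0x50007c000200000001800080000000000000000000000000000000) (nat_lit 0x0) (nat_lit 0x200082000000000000000000000000000000000000000000000000) := D_29 (nat_lit 213) (nat_lit 193) (nat_lit 199) (nat_lit 3) (nat_lit 6) (nat_lit 11) (nat_lit 1) (nat_lit 12) (nat_lit 11) (by decide +kernel)
theorem L85676 : W_29 (nat_lit 3) (nat_lit 0x10007c000200000001800080000000000000000000000000000000) (nat_lit 0x0) (nat_lit 0xe00082000000000000000000000000000000000000000000000000) := T_29 (nat_lit 214) (nat_lit 215) (nat_lit 3) (nat_lit 7) (nat_lit 11) L85675 (by decide +kernel)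
theorem L85677 : W_29 (nat_lit 4) (nat_lit 0x10007c000200000001000080000000000000000000000000000000) (nat_lit 0x0) (nat_lit 0xe00082000000010000800000000000000000000000000000000000) := T_29 (nat_lit 143) (nat_lit 160) (nat_lit 7) (nat_lit 7) (nat_lit 8) L85676 (by decide +kernel)
theorem L85678 : W_29 (nat_lit 7) (nat_lit 0x10003c000200000001000080000000000000000000000000000000) (nat_lit 0x0) (nat_lit 0x7e001c201c000010000800000000000000000000000000000000000) := Q_29 (nat_lit 198) (C_29 L85667 (C_29 L85669 (C_29 L85674 (C_29 L85677 N_29)))) (by decide +kernel)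
theorem L85679 : W_29 (nat_lit 2) (nat_lit 0x4000000090007c000200000001000080000000000000000000000000000000) (nat_lit 0x0) (nat_lit 0x7000000000000000000000000000000000000000000000) := D_29 (nat_lit 181) (nat_lit 182) (nat_lit 180) (nat_lit 2) (nat_lit 8) (nat_lit 11) (nat_lit 2) (nat_lit 7) (nat_lit 11) (by decide +kernel)
theorem L85680 : W_29 (nat_lit 3) (nat_lit 0x4000000090003c000200000001000080000000000000000000000000000000) (nat_lit 0x0) (nat_lit 0x1000040007000000000000000000000000000000000000000000000) := T_29 (nat_lit 198) (nat_lit 216) (nat_lit 3) (nat_lit 8) (nat_lit 11) L85679 (by decide +kernel)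
theorem L85681 : W_29 (nat_lit 4) (nat_lit 0x90003c000200000001000080000000000000000000000000000000) (nat_lit 0x0) (nat_lit 0x40002001000040007000000000000000000000000000000000000000000000) := T_29 (nat_lit 246) (nat_lit 229) (nat_lit 4) (nat_lit 8) (nat_lit 14) L85680 (by decide +kernel)
theorem L85682 : W_29 (nat_lit 5) (nat_lit 0x10003c000200000001000080000000000000000000000000000000) (nat_lit 0x0) (nat_lit 0x40002001c00040007000000000000000000000000000000000000000000000) := T_29 (nat_lit 215) (nat_lit 214) (nat_lit 3) (nat_lit 7) (nat_lit 11) L85681 (by decide +kernel)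
theorem L85683 : W_29 (nat_lit 2) (nat_lit 0x9001fc001200010001000080000000000000000000000000000000) (nat_lit 0x0) (nat_lit 0x1c000000000000000000000000000000000000000000000) := D_29 (nat_lit 183) (nat_lit 182) (nat_lit 184) (nat_lit 2) (nat_lit 9) (nat_lit 11) (nat_lit 2) (nat_lit 10) (nat_lit 11) (by decide +kernel)
theorem L85684 : W_29 (nat_lit 3) (nat_lit 0x9000fc001200010001000080000000000000000000000000000000) (nat_lit 0x0) (nat_lit 0x10001c800000000000000000000000000000000000000000000) := T_29 (nat_lit 200) (nat_lit 179) (nat_lit 0) (nat_lit 13) (nat_lit 11) L85683 (by decide +kernel)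
theorem L85685 : W_29 (nat_lit 4) (nat_lit 0x90007c001200010001000080000000000000000000000000000000) (nat_lit 0x0) (nat_lit 0x20018001c800000000000000000000000000000000000000000000) := T_29 (nat_lit 199) (nat_lit 213) (nat_lit 1) (nat_lit 12) (nat_lit 11) L85684 (by decide +kernel)
theorem L85686 : W_29 (nat_lit 5) (nat_lit 0x90003c001200010001000080000000000000000000000000000000) (nat_lit 0x0) (nat_lit 0x12001c001c800000000000000000000000000000000000000000000) := T_29 (nat_lit 198) (nat_lit 216) (nat_lit 3) (nat_lit 8) (nat_lit 11) L85685 (by decide +kernel)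
theorem L85687 : W_29 (nat_lit 6) (nat_lit 0x10003c001200010001000080000000000000000000000000000000) (nat_lit 0x0) (nat_lit 0x1e001c001c800000000000000000000000000000000000000000000) := T_29 (nat_lit 215) (nat_lit 214) (nat_lit 3) (nat_lit 7) (nat_lit 11) L85686 (by decide +kernel)
theorem L85688 : W_29 (nat_lit 7) (nat_lit 0x10003c001200000001000080000000000000000000000000000000) (nat_lit 0x0) (nat_lit 0x1e001c001c800010000800000000000000000000000000000000000) := T_29 (nat_lit 160) (nat_lit 143) (nat_lit 7) (nat_lit 7) (nat_lit 8) L85687 (by decide +kernel)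
theorem L85689 : W_29 (nat_lit 8) (nat_lit 0x10003c000200000001000080000000000000000000000000000000) (nat_lit 0x0) (nat_lit 0x1e001c001f800010000800000000000000000000000000000000000) := T_29 (nat_lit 180) (nat_lit 181) (nat_lit 2) (nat_lit 7) (nat_lit 11) L85688 (by decide +kernel)
theorem L85690 : W_29 (nat_lit 2) (nat_lit 0x16000b0007c001a00000001800080000000000000000000000000000000) (nat_lit 0x0) (nat_lit 0x100028000000000000000000000000000000000000000000000000000000000) := D_29 (nat_lit 231) (nat_lit 248) (nat_lit 233) (nat_lit 7) (nat_lit 9) (nat_lit 10) (nat_lit 0) (nat_lit 12) (nat_lit 13) (by decide +kernel)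
theorem L85691 : W_29 (nat_lit 3) (nat_lit 0x6000b0007c001a00000001800080000000000000000000000000000000) (nat_lit 0x0) (nat_lit 0x300038000000000000000000000000000000000000000000000000000000000) := T_29 (nat_lit 232) (nat_lit 249) (nat_lit 4) (nat_lit 11) (nat_lit 14) L85690 (by decide +kernel)
theorem L85692 : W_29 (nat_lit 4) (nat_lit 0x6000b0007c000a00000001800080000000000000000000000000000000) (nat_lit 0x0) (nat_lit 0x300038000000000001000080000000000000000000000000000000000000000) := T_29 (nat_lit 180) (nat_lit 163) (nat_lit 6) (nat_lit 9) (nat_lit 13) L85691 (by decide +kernel)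
theorem L85693 : W_29 (nat_lit 5) (nat_lit 0x6000b0007c000200000001800080000000000000000000000000000000) (nat_lit 0x0) (nat_lit 0x3000380000000000018000c0000000000000000000000000000000000000000) := T_29 (nat_lit 179) (nat_lit 162) (nat_lit 5) (nat_lit 9) (nat_lit 9) L85692 (by decide +kernel)
theorem L85694 : W_29 (nat_lit 6) (nat_lit 0x600030007c000200000001800080000000000000000000000000000000) (nat_lit 0x0) (nat_lit 0x3000380018000000018000c0000000000000000000000000000000000000000) := T_29 (nat_lit 215) (nat_lit 216) (nat_lit 3) (nat_lit 8) (nat_lit 11) L85693 (by decide +kernel)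
theorem L85695 : W_29 (nat_lit 7) (nat_lit 0x400030007c000200000001800080000000000000000000000000000000) (nat_lit 0x0) (nat_lit 0x34003a0018000000018000c0000000000000000000000000000000000000000) := T_29 (nat_lit 229) (nat_lit 246) (nat_lit 4) (nat_lit 8) (nat_lit 14) L85694 (by decide +kernel)
theorem L85696 : W_29 (nat_lit 8) (nat_lit 0x400030003c000200000001800080000000000000000000000000000000) (nat_lit 0x0) (nat_lit 0x34003a0018000c00018000c0000000000000000000000000000000000000000) := T_29 (nat_lit 198) (nat_lit 199) (nat_lit 1) (nat_lit 12) (nat_lit 11) L85695 (by decide +kernel)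
theorem L85697 : W_29 (nat_lit 9) (nat_lit 0x400030003c000200000001000080000000000000000000000000000000) (nat_lit 0x0) (nat_lit 0x34003a0018000c00018000d0000800000000000000000000000000000000000) := T_29 (nat_lit 143) (nat_lit 160) (nat_lit 7) (nat_lit 7) (nat_lit 8) L85696 (by decide +kernel)
theorem L85698 : W_29 (nat_lit 10) (nat_lit 0x30003c000200000001000080000000000000000000000000000000) (nat_lit 0x0) (nat_lit 0x18003c003e0018000c00018000d0000800000000000000000000000000000000000) := Q_29 (nat_lit 230) (C_29 L85666 (C_29 L85636 (C_29 L85697 N_29))) (by decide +kernel)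
theorem L85699 : W_29 (nat_lit 2) (nat_lit 0x8000400070003c000200000001800080000000000000000000000000000000) (nat_lit 0x0) (nat_lit 0x800040002000000000000000000000000000000000000000000000000000000000) := D_29 (nat_lit 246) (nat_lit 229) (nat_lit 263) (nat_lit 4) (nat_lit 8) (nat_lit 14) (nat_lit 5) (nat_lit 9) (nat_lit 11) (by decide +kernel)
theorem L85700 : W_29 (nat_lit 3) (nat_lit 0x400070003c000200000001800080000000000000000000000000000000) (nat_lit 0x0) (nat_lit 0x18000c0002000000000000000000000000000000000000000000000000000000000) := T_29 (nat_lit 247) (nat_lit 264) (nat_lit 6) (nat_lit 9) (nat_lit 15) L85699 (by decide +kernel)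
theorem L85701 : W_29 (nat_lit 4) (nat_lit 0x400030003c000200000001800080000000000000000000000000000000) (nat_lit 0x0) (nat_lit 0x18000c0002000c00000000000000000000000000000000000000000000000000000) := T_29 (nat_lit 214) (nat_lit 215) (nat_lit 3) (nat_lit 7) (nat_lit 11) L85700 (by decide +kernel)
theorem L85702 : W_29 (nat_lit 5) (nat_lit 0x400030003c000200000001000080000000000000000000000000000000) (nat_lit 0x0) (nat_lit 0x18000c0002000c00000000000010000800000000000000000000000000000000000) := T_29 (nat_lit 143) (nat_lit 160) (nat_lit 7) (nat_lit 7) (nat_lit 8) L85701 (by decide +kernel)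
theorem L85703 : W_29 (nat_lit 2) (nat_lit 0xe000b0003c000a00010001000080000000000000000000000000000000) (nat_lit 0x0) (nat_lit 0x30001000000000000000000000000000000000000000000000000000000) := D_29 (nat_lit 232) (nat_lit 216) (nat_lit 233) (nat_lit 2) (nat_lit 8) (nat_lit 13) (nat_lit 0) (nat_lit 12) (nat_lit 13) (by decide +kernel)
theorem L85704 : W_29 (nat_lit 3) (nat_lit 0x6000b0003c000a00010001000080000000000000000000000000000000) (nat_lit 0x0) (nat_lit 0x100038001000000000000000000000000000000000000000000000000000000) := T_29 (nat_lit 231) (nat_lit 248) (nat_lit 7) (nat_lit 9) (nat_lit 10) L85703 (by decide +kernel)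
theorem L85705 : W_29 (nat_lit 4) (nat_lit 0x600030003c000a00010001000080000000000000000000000000000000) (nat_lit 0x0) (nat_lit 0x100038001c00000000000000000000000000000000000000000000000000000) := T_29 (nat_lit 215) (nat_lit 214) (nat_lit 3) (nat_lit 7) (nat_lit 11) L85704 (by decide +kernel)
theorem L85706 : W_29 (nat_lit 5) (nat_lit 0x600030003c000200010001000080000000000000000000000000000000) (nat_lit 0x0) (nat_lit 0x100038001c00000000800040000000000000000000000000000000000000000) := T_29 (nat_lit 179) (nat_lit 162) (nat_lit 5) (nat_lit 9) (nat_lit 9) L85705 (by decide +kernel)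
theorem L85707 : W_29 (nat_lit 6) (nat_lit 0x600030003c000200000001000080000000000000000000000000000000) (nat_lit 0x0) (nat_lit 0x100038001c00000000800050000800000000000000000000000000000000000) := T_29 (nat_lit 160) (nat_lit 143) (nat_lit 7) (nat_lit 7) (nat_lit 8) L85706 (by decide +kernel)
theorem L85708 : W_29 (nat_lit 7) (nat_lit 0x400030003c000200000001000080000000000000000000000000000000) (nat_lit 0x0) (nat_lit 0x14003a001c00000000800050000800000000000000000000000000000000000) := T_29 (nat_lit 229) (nat_lit 246) (nat_lit 4) (nat_lit 8) (nat_lit 14) L85707 (by decide +kernel)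
theorem L85709 : W_29 (nat_lit 8) (nat_lit 0x30003c000200000001000080000000000000000000000000000000) (nat_lit 0x0) (nat_lit 0x18001c003e001c00000001800050000800000000000000000000000000000000000) := Q_29 (nat_lit 230) (C_29 L85666 (C_29 L85702 (C_29 L85708 N_29))) (by decide +kernel)
theorem L85710 : W_29 (nat_lit 2) (nat_lit 0x1e0003000bc001a00000001800080000000000000000000000000000000) (nat_lit 0x0) (nat_lit 0x600000000400000000000000000000000000000000000000000000000000000) := D_29 (nat_lit 249) (nat_lit 250) (nat_lit 214) (nat_lit 3) (nat_lit 8) (nat_lit 13) (nat_lit 7) (nat_lit 10) (nat_lit 10) (by decide +kernel)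
theorem L85711 : W_29 (nat_lit 3) (nat_lit 0xe0003000bc001a00000001800080000000000000000000000000000000) (nat_lit 0x0) (nat_lit 0x600030000400000000000000000000000000000000000000000000000000000) := T_29 (nat_lit 232) (nat_lit 233) (nat_lit 0) (nat_lit 12) (nat_lit 13) L85710 (by decide +kernel)
theorem L85712 : W_29 (nat_lit 4) (nat_lit 0x60003000bc001a00000001800080000000000000000000000000000000) (nat_lit 0x0) (nat_lit 0x700038000400000000000000000000000000000000000000000000000000000) := T_29 (nat_lit 231) (nat_lit 248) (nat_lit 7) (nat_lit 9) (nat_lit 10) L85711 (by decide +kernel)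
theorem L85713 : W_29 (nat_lit 5) (nat_lit 0x60003000bc000a00000001800080000000000000000000000000000000) (nat_lit 0x0) (nat_lit 0x700038000400000001000080000000000000000000000000000000000000000) := T_29 (nat_lit 180) (nat_lit 163) (nat_lit 6) (nat_lit 9) (nat_lit 13) L85712 (by decide +kernel)
theorem L85714 : W_29 (nat_lit 6) (nat_lit 0x60003000bc000200000001800080000000000000000000000000000000) (nat_lit 0x0) (nat_lit 0x7000380004000000018000c0000000000000000000000000000000000000000) := T_29 (nat_lit 179) (nat_lit 162) (nat_lit 5) (nat_lit 9) (nat_lit 9) L85713 (by decide +kernel)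
theorem L85715 : W_29 (nat_lit 7) (nat_lit 0x600030003c000200000001800080000000000000000000000000000000) (nat_lit 0x0) (nat_lit 0x7000380004000c00018000c0000000000000000000000000000000000000000) := T_29 (nat_lit 199) (nat_lit 198) (nat_lit 1) (nat_lit 12) (nat_lit 11) L85714 (by decide +kernel)
theorem L85716 : W_29 (nat_lit 8) (nat_lit 0x400030003c000200000001800080000000000000000000000000000000) (nat_lit 0x0) (nat_lit 0x74003a0004000c00018000c0000000000000000000000000000000000000000) := T_29 (nat_lit 229) (nat_lit 246) (nat_lit 4) (nat_lit 8) (nat_lit 14) L85715 (by decide +kernel)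
theorem L85717 : W_29 (nat_lit 9) (nat_lit 0x400030003c000200000001000080000000000000000000000000000000) (nat_lit 0x0) (nat_lit 0x74003a0004000c00018000d0000800000000000000000000000000000000000) := T_29 (nat_lit 143) (nat_lit 160) (nat_lit 7) (nat_lit 7) (nat_lit 8) L85716 (by decide +kernel)
theorem L85718 : W_29 (nat_lit 10) (nat_lit 0x30003c000200000001000080000000000000000000000000000000) (nat_lit 0x0) (nat_lit 0x18007c003e0004000c00018000d0000800000000000000000000000000000000000) := Q_29 (nat_lit 230) (C_29 L85666 (C_29 L85636 (C_29 L85717 N_29))) (by decide +kernel)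
theorem L85719 : W_29 (nat_lit 11) (nat_lit 0x10003c000200000001000080000000000000000000000000000000) (nat_lit 0x0) (nat_lit 0x18007c003e001e000c00018000d0000800000000000000000000000000000000000) := Q_29 (nat_lit 213) (C_29 L85698 (C_29 L85614 (C_29 L85709 (C_29 L85718 N_29)))) (by decide +kernel)
theorem L85720 : W_29 (nat_lit 2) (nat_lit 0x18001e000b0003c000200000001800080000000000000000000000000000000) (nat_lit 0x0) (nat_lit 0x600001000000000000000000000000000000000000000000000000000000000) := D_29 (nat_lit 249) (nat_lit 250) (nat_lit 228) (nat_lit 3) (nat_lit 8) (nat_lit 13) (nat_lit 3) (nat_lit 7) (nat_lit 13) (by decide +kernel)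
theorem L85721 : W_29 (nat_lit 3) (nat_lit 0x18001c000b0003c000200000001800080000000000000000000000000000000) (nat_lit 0x0) (nat_lit 0x600003001000000000000000000000000000000000000000000000000000000) := T_29 (nat_lit 229) (nat_lit 216) (nat_lit 2) (nat_lit 8) (nat_lit 13) L85720 (by decide +kernel)
theorem L85722 : W_29 (nat_lit 4) (nat_lit 0x18000c000b0003c000200000001800080000000000000000000000000000000) (nat_lit 0x0) (nat_lit 0x600033001000000000000000000000000000000000000000000000000000000) := T_29 (nat_lit 232) (nat_lit 233) (nat_lit 0) (nat_lit 12) (nat_lit 13) L85721 (by decide +kernel)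
theorem L85723 : W_29 (nat_lit 5) (nat_lit 0x180004000b0003c000200000001800080000000000000000000000000000000) (nat_lit 0x0) (nat_lit 0x60003b001000000000800000000000000000000000000000000000000000000) := T_29 (nat_lit 231) (nat_lit 179) (nat_lit 7) (nat_lit 9) (nat_lit 10) L85722 (by decide +kernel)
theorem L85724 : W_29 (nat_lit 6) (nat_lit 0x80004000b0003c000200000001800080000000000000000000000000000000) (nat_lit 0x0) (nat_lit 0x200070003b001000000000800000000000000000000000000000000000000000000) := T_29 (nat_lit 248) (nat_lit 265) (nat_lit 7) (nat_lit 9) (nat_lit 11) L85723 (by decide +kernel)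
theorem L85725 : W_29 (nat_lit 7) (nat_lit 0x4000b0003c000200000001800080000000000000000000000000000000) (nat_lit 0x0) (nat_lit 0x300078003b001000000000800000000000000000000000000000000000000000000) := T_29 (nat_lit 247) (nat_lit 264) (nat_lit 4) (nat_lit 9) (nat_lit 15) L85724 (by decide +kernel)
theorem L85726 : W_29 (nat_lit 8) (nat_lit 0x400030003c000200000001800080000000000000000000000000000000) (nat_lit 0x0) (nat_lit 0x300078003b001c00000000800000000000000000000000000000000000000000000) := T_29 (nat_lit 215) (nat_lit 214) (nat_lit 3) (nat_lit 7) (nat_lit 11) L85725 (by decide +kernel)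
theorem L85727 : W_29 (nat_lit 9) (nat_lit 0x400030003c000200000001000080000000000000000000000000000000) (nat_lit 0x0) (nat_lit 0x300078003b001c00000000800010000800000000000000000000000000000000000) := T_29 (nat_lit 143) (nat_lit 160) (nat_lit 7) (nat_lit 7) (nat_lit 8) L85726 (by decide +kernel)
theorem L85728 : W_29 (nat_lit 2) (nat_lit 0x18001c000b0003c000200010001000080000000000000000000000000000000) (nat_lit 0x0) (nat_lit 0x800060000000000000000000000000000000000000000000000000000000000000) := D_29 (nat_lit 246) (nat_lit 263) (nat_lit 245) (nat_lit 5) (nat_lit 9) (nat_lit 11) (nat_lit 2) (nat_lit 7) (nat_lit 14) (by decide +kernel)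
theorem L85729 : W_29 (nat_lit 3) (nat_lit 0x18000c000b0003c000200010001000080000000000000000000000000000000) (nat_lit 0x0) (nat_lit 0x800060030000000000000000000000000000000000000000000000000000000000) := T_29 (nat_lit 232) (nat_lit 233) (nat_lit 0) (nat_lit 12) (nat_lit 13) L85728 (by decide +kernel)
theorem L85730 : W_29 (nat_lit 4) (nat_lit 0x18000c00030003c000200010001000080000000000000000000000000000000) (nat_lit 0x0) (nat_lit 0x800060030000c00000000000000000000000000000000000000000000000000000) := T_29 (nat_lit 215) (nat_lit 214) (nat_lit 3) (nat_lit 7) (nat_lit 11) L85729 (by decide +kernel)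
theorem L85731 : W_29 (nat_lit 5) (nat_lit 0x18000400030003c000200010001000080000000000000000000000000000000) (nat_lit 0x0) (nat_lit 0x800060038000c00000000800000000000000000000000000000000000000000000) := T_29 (nat_lit 231) (nat_lit 179) (nat_lit 7) (nat_lit 9) (nat_lit 10) L85730 (by decide +kernel)
theorem L85732 : W_29 (nat_lit 6) (nat_lit 0x8000400030003c000200010001000080000000000000000000000000000000) (nat_lit 0x0) (nat_lit 0x2800160038000c00000000800000000000000000000000000000000000000000000) := T_29 (nat_lit 248) (nat_lit 265) (nat_lit 7) (nat_lit 9) (nat_lit 11) L85731 (by decide +kernel)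
theorem L85733 : W_29 (nat_lit 7) (nat_lit 0x8000400030003c000200000001000080000000000000000000000000000000) (nat_lit 0x0) (nat_lit 0x2800160038000c00000000800010000800000000000000000000000000000000000) := T_29 (nat_lit 160) (nat_lit 143) (nat_lit 7) (nat_lit 7) (nat_lit 8) L85732 (by decide +kernel)
theorem L85734 : W_29 (nat_lit 8) (nat_lit 0x400030003c000200000001000080000000000000000000000000000000) (nat_lit 0x0) (nat_lit 0x38001e0038000c00000000800010000800000000000000000000000000000000000) := T_29 (nat_lit 247) (nat_lit 264) (nat_lit 4) (nat_lit 9) (nat_lit 15) L85733 (by decide +kernel)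
theorem L85738 : W_29 (nat_lit 10) (nat_lit 0x400010003c000200000001000080000000000000000000000000000000) (nat_lit 0x0) (nat_lit 0x38007e003b001e00000000800050000800000000000000000000000000000000000) := Q_29 (nat_lit 213) (C_29 L19095 (C_29 L85727 (C_29 L85734 (C_29 L85708 N_29)))) (by decide +kernel)
theorem L85739 : W_29 (nat_lit 2) (nat_lit 0x4000400050003c001200000001000080000000000000000000000000000000) (nat_lit 0x0) (nat_lit 0x80000000200000000000080000000000000000000000000000000000000000) := D_29 (nat_lit 213) (nat_lit 163) (nat_lit 247) (nat_lit 5) (nat_lit 10) (nat_lit 9) (nat_lit 6) (nat_lit 9) (nat_lit 14) (by decide +kernel)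
theorem L85740 : W_29 (nat_lit 3) (nat_lit 0x4000400050003c000200000001000080000000000000000000000000000000) (nat_lit 0x0) (nat_lit 0x80000000200000003000080000000000000000000000000000000000000000) := T_29 (nat_lit 180) (nat_lit 181) (nat_lit 2) (nat_lit 7) (nat_lit 11) L85739 (by decide +kernel)
theorem L85741 : W_29 (nat_lit 4) (nat_lit 0x4000400010003c000200000001000080000000000000000000000000000000) (nat_lit 0x0) (nat_lit 0x80000000e00000003000080000000000000000000000000000000000000000) := T_29 (nat_lit 214) (nat_lit 215) (nat_lit 3) (nat_lit 7) (nat_lit 11) L85740 (by decide +kernel)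
theorem L85742 : W_29 (nat_lit 5) (nat_lit 0x400010003c000200000001000080000000000000000000000000000000) (nat_lit 0x0) (nat_lit 0xc0002000e00000003000080000000000000000000000000000000000000000) := T_29 (nat_lit 246) (nat_lit 229) (nat_lit 4) (nat_lit 8) (nat_lit 14) L85741 (by decide +kernel)
theorem L85743 : W_29 (nat_lit 2) (nat_lit 0x4000c00050003c001200000001800080000000000000000000000000000000) (nat_lit 0x0) (nat_lit 0x100000000000000000800040000000000000000000000000000000000000000) := D_29 (nat_lit 179) (nat_lit 248) (nat_lit 162) (nat_lit 4) (nat_lit 10) (nat_lit 14) (nat_lit 4) (nat_lit 10) (nat_lit 13) (by decide +kernel)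
theorem L85744 : W_29 (nat_lit 3) (nat_lit 0x4000400050003c001200000001800080000000000000000000000000000000) (nat_lit 0x0) (nat_lit 0x180008000000000000800040000000000000000000000000000000000000000) := T_29 (nat_lit 231) (nat_lit 247) (nat_lit 5) (nat_lit 10) (nat_lit 10) L85743 (by decide +kernel)
theorem L85745 : W_29 (nat_lit 4) (nat_lit 0x4000400010003c001200000001800080000000000000000000000000000000) (nat_lit 0x0) (nat_lit 0x180008000c00000000800040000000000000000000000000000000000000000) := T_29 (nat_lit 214) (nat_lit 215) (nat_lit 3) (nat_lit 7) (nat_lit 11) L85744 (by decide +kernel)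
theorem L85746 : W_29 (nat_lit 5) (nat_lit 0x400010003c001200000001800080000000000000000000000000000000) (nat_lit 0x0) (nat_lit 0x1c000a000c00000000800040000000000000000000000000000000000000000) := T_29 (nat_lit 246) (nat_lit 229) (nat_lit 4) (nat_lit 8) (nat_lit 14) L85745 (by decide +kernel)
theorem L85747 : W_29 (nat_lit 6) (nat_lit 0x400010003c001200000001000080000000000000000000000000000000) (nat_lit 0x0) (nat_lit 0x1c000a000c00000000800050000800000000000000000000000000000000000) := T_29 (nat_lit 143) (nat_lit 160) (nat_lit 7) (nat_lit 7) (nat_lit 8) L85746 (by decide +kernel)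
theorem L85748 : W_29 (nat_lit 7) (nat_lit 0x400010003c000200000001000080000000000000000000000000000000) (nat_lit 0x0) (nat_lit 0x1c000a000c00000003800050000800000000000000000000000000000000000) := T_29 (nat_lit 180) (nat_lit 181) (nat_lit 2) (nat_lit 7) (nat_lit 11) L85747 (by decide +kernel)
theorem L85749 : W_29 (nat_lit 2) (nat_lit 0x400050003c001200000001800080000000000000000000000000000000) (nat_lit 0x0) (nat_lit 0x80000000200000000000080000000000000000000000000000000000000000) := D_29 (nat_lit 213) (nat_lit 163) (nat_lit 247) (nat_lit 5) (nat_lit 10) (nat_lit 9) (nat_lit 6) (nat_lit 9) (nat_lit 14) (by decide +kernel)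
theorem L85750 : W_29 (nat_lit 3) (nat_lit 0x400050003c000200000001800080000000000000000000000000000000) (nat_lit 0x0) (nat_lit 0x80000000200000003000080000000000000000000000000000000000000000) := T_29 (nat_lit 180) (nat_lit 181) (nat_lit 2) (nat_lit 7) (nat_lit 11) L85749 (by decide +kernel)
theorem L85751 : W_29 (nat_lit 4) (nat_lit 0x400050003c000200000001000080000000000000000000000000000000) (nat_lit 0x0) (nat_lit 0x80000000200000003000090000800000000000000000000000000000000000) := T_29 (nat_lit 143) (nat_lit 160) (nat_lit 7) (nat_lit 7) (nat_lit 8) L85750 (by decide +kernel)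
theorem L85752 : W_29 (nat_lit 5) (nat_lit 0x400010003c000200000001000080000000000000000000000000000000) (nat_lit 0x0) (nat_lit 0x80000000e00000003000090000800000000000000000000000000000000000) := T_29 (nat_lit 214) (nat_lit 215) (nat_lit 3) (nat_lit 7) (nat_lit 11) L85751 (by decide +kernel)
theorem L85753 : W_29 (nat_lit 2) (nat_lit 0x4000400030003c001200000001000080000000000000000000000000000000) (nat_lit 0x0) (nat_lit 0x800080004000000000000000000000000000000000000) := D_29 (nat_lit 163) (nat_lit 179) (nat_lit 146) (nat_lit 6) (nat_lit 9) (nat_lit 13) (nat_lit 5) (nat_lit 10) (nat_lit 8) (by decide +kernel)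
theorem L85754 : W_29 (nat_lit 3) (nat_lit 0x4000400010003c001200000001000080000000000000000000000000000000) (nat_lit 0x0) (nat_lit 0x80000000200000000800080004000000000000000000000000000000000000) := T_29 (nat_lit 213) (nat_lit 247) (nat_lit 6) (nat_lit 9) (nat_lit 14) L85753 (by decide +kernel)
theorem L85755 : W_29 (nat_lit 4) (nat_lit 0x400010003c001200000001000080000000000000000000000000000000) (nat_lit 0x0) (nat_lit 0xc0002000200000000800080004000000000000000000000000000000000000) := T_29 (nat_lit 246) (nat_lit 229) (nat_lit 4) (nat_lit 8) (nat_lit 14) L85754 (by decide +kernel)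
theorem L85756 : W_29 (nat_lit 5) (nat_lit 0x400010003c000200000001000080000000000000000000000000000000) (nat_lit 0x0) (nat_lit 0xc0002000200000003800080004000000000000000000000000000000000000) := T_29 (nat_lit 180) (nat_lit 181) (nat_lit 2) (nat_lit 7) (nat_lit 11) L85755 (by decide +kernel)
theorem L85757 : W_29 (nat_lit 2) (nat_lit 0x4000400050003c001a0009000d000080000000000000000000000000000000) (nat_lit 0x0) (nat_lit 0x100008000000000000000040000000000000000000000000000000000000000) := D_29 (nat_lit 231) (nat_lit 248) (nat_lit 162) (nat_lit 4) (nat_lit 10) (nat_lit 14) (nat_lit 4) (nat_lit 10) (nat_lit 13) (by decide +kernel)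
theorem L85758 : W_29 (nat_lit 3) (nat_lit 0x4000400050003c00120009000d000080000000000000000000000000000000) (nat_lit 0x0) (nat_lit 0x100008000000000000800040000000200000000000000000000000000000000) := T_29 (nat_lit 179) (nat_lit 129) (nat_lit 5) (nat_lit 10) (nat_lit 7) L85757 (by decide +kernel)
theorem L85759 : W_29 (nat_lit 4) (nat_lit 0x4000400050003c001200090009000080000000000000000000000000000000) (nat_lit 0x0) (nat_lit 0x100008000000000000800040004000600000000000000000000000000000000) := T_29 (nat_lit 146) (nat_lit 130) (nat_lit 6) (nat_lit 10) (nat_lit 11) L85758 (by decide +kernel)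
theorem L85760 : W_29 (nat_lit 5) (nat_lit 0x4000400050003c001200090001000080000000000000000000000000000000) (nat_lit 0x0) (nat_lit 0x10000800000000000080014000c000600000000000000000000000000000000) := T_29 (nat_lit 147) (nat_lit 164) (nat_lit 6) (nat_lit 10) (nat_lit 12) L85759 (by decide +kernel)
theorem L85761 : W_29 (nat_lit 6) (nat_lit 0x4000400050003c001200010001000080000000000000000000000000000000) (nat_lit 0x0) (nat_lit 0x1000080002000000008001c000c000600000000000000000000000000000000) := T_29 (nat_lit 163) (nat_lit 213) (nat_lit 5) (nat_lit 10) (nat_lit 9) L85760 (by decide +kernel)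
theorem L85762 : W_29 (nat_lit 7) (nat_lit 0x400050003c001200010001000080000000000000000000000000000000) (nat_lit 0x0) (nat_lit 0x14000a0002000000008001c000c000600000000000000000000000000000000) := T_29 (nat_lit 246) (nat_lit 229) (nat_lit 4) (nat_lit 8) (nat_lit 14) L85761 (by decide +kernel)
theorem L85763 : W_29 (nat_lit 8) (nat_lit 0x400050003c000200010001000080000000000000000000000000000000) (nat_lit 0x0) (nat_lit 0x14000a0002000000038001c000c000600000000000000000000000000000000) := T_29 (nat_lit 180) (nat_lit 181) (nat_lit 2) (nat_lit 7) (nat_lit 11) L85762 (by decide +kernel)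
theorem L85764 : W_29 (nat_lit 9) (nat_lit 0x400010003c000200010001000080000000000000000000000000000000) (nat_lit 0x0) (nat_lit 0x14000a000e000000038001c000c000600000000000000000000000000000000) := T_29 (nat_lit 214) (nat_lit 215) (nat_lit 3) (nat_lit 7) (nat_lit 11) L85763 (by decide +kernel)
theorem L85765 : W_29 (nat_lit 10) (nat_lit 0x400010003c000200000001000080000000000000000000000000000000) (nat_lit 0x0) (nat_lit 0x14000a000e000000038001d000c800600000000000000000000000000000000) := T_29 (nat_lit 160) (nat_lit 143) (nat_lit 7) (nat_lit 7) (nat_lit 8) L85764 (by decide +kernel)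
theorem L85766 : W_29 (nat_lit 11) (nat_lit 0x10003c000200000001000080000000000000000000000000000000) (nat_lit 0x0) (nat_lit 0x38007e003f001e000000038001d000c800600000000000000000000000000000000) := Q_29 (nat_lit 230) (C_29 L85738 (C_29 L85742 (C_29 L85748 (C_29 L85752 (C_29 L85756 (C_29 L85765 N_29)))))) (by decide +kernel)
theorem L85767 : W_29 (nat_lit 2) (nat_lit 0x10007c000200000001000080000000000000000000000000000000) (nat_lit 0x0) (nat_lit 0x7000000000000000000000000000000000000000000000) := D_29 (nat_lit 181) (nat_lit 182) (nat_lit 180) (nat_lit 2) (nat_lit 8) (nat_lit 11) (nat_lit 2) (nat_lit 7) (nat_lit 11) (by decide +kernel)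
theorem L85768 : W_29 (nat_lit 2) (nat_lit 0x1001fc001200000001800080000000000000000000000000000000) (nat_lit 0x0) (nat_lit 0x7000000000000000000000000000000000000000000000000000000) := D_29 (nat_lit 217) (nat_lit 216) (nat_lit 218) (nat_lit 3) (nat_lit 9) (nat_lit 11) (nat_lit 3) (nat_lit 10) (nat_lit 11) (by decide +kernel)
theorem L85769 : W_29 (nat_lit 3) (nat_lit 0x1000fc001200000001800080000000000000000000000000000000) (nat_lit 0x0) (nat_lit 0x7000100000800000000000000000000000000000000000000000000) := T_29 (nat_lit 200) (nat_lit 179) (nat_lit 0) (nat_lit 13) (nat_lit 11) L85768 (by decide +kernel)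
theorem L85770 : W_29 (nat_lit 4) (nat_lit 0x1000fc000200000001800080000000000000000000000000000000) (nat_lit 0x0) (nat_lit 0x7000100003800000000000000000000000000000000000000000000) := T_29 (nat_lit 180) (nat_lit 181) (nat_lit 2) (nat_lit 7) (nat_lit 11) L85769 (by decide +kernel)
theorem L85771 : W_29 (nat_lit 5) (nat_lit 0x10007c000200000001800080000000000000000000000000000000) (nat_lit 0x0) (nat_lit 0x7200180003800000000000000000000000000000000000000000000) := T_29 (nat_lit 199) (nat_lit 213) (nat_lit 1) (nat_lit 12) (nat_lit 11) L85770 (by decide +kernel)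
theorem L85772 : W_29 (nat_lit 6) (nat_lit 0x10007c000200000001000080000000000000000000000000000000) (nat_lit 0x0) (nat_lit 0x7200180003800010000800000000000000000000000000000000000) := T_29 (nat_lit 143) (nat_lit 160) (nat_lit 7) (nat_lit 7) (nat_lit 8) L85771 (by decide +kernel)
theorem L85773 : W_29 (nat_lit 7) (nat_lit 0x10003c000200000001000080000000000000000000000000000000) (nat_lit 0x0) (nat_lit 0x72001c001f800010000800000000000000000000000000000000000) := Q_29 (nat_lit 198) (C_29 L85674 (C_29 L85767 (C_29 L85772 N_29))) (by decide +kernel)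
theorem L85774 : W_29 (nat_lit 2) (nat_lit 0x4000000050003c001a0009000d000080000000000000000000000000000000) (nat_lit 0x0) (nat_lit 0x100008000000000000000040000000000000000000000000000000000000000) := D_29 (nat_lit 231) (nat_lit 248) (nat_lit 162) (nat_lit 4) (nat_lit 10) (nat_lit 14) (nat_lit 4) (nat_lit 10) (nat_lit 13) (by decide +kernel)
theorem L85775 : W_29 (nat_lit 3) (nat_lit 0x4000000050003c00120009000d000080000000000000000000000000000000) (nat_lit 0x0) (nat_lit 0x100008000000000000800040000000200000000000000000000000000000000) := T_29 (nat_lit 179) (nat_lit 129) (nat_lit 5) (nat_lit 10) (nat_lit 7) L85774 (by decide +kernel)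
theorem L85776 : W_29 (nat_lit 4) (nat_lit 0x4000000050003c001200090009000080000000000000000000000000000000) (nat_lit 0x0) (nat_lit 0x100008000000000000800040004000600000000000000000000000000000000) := T_29 (nat_lit 146) (nat_lit 130) (nat_lit 6) (nat_lit 10) (nat_lit 11) L85775 (by decide +kernel)
theorem L85777 : W_29 (nat_lit 5) (nat_lit 0x4000000050003c001200090001000080000000000000000000000000000000) (nat_lit 0x0) (nat_lit 0x10000800000000000080014000c000600000000000000000000000000000000) := T_29 (nat_lit 147) (nat_lit 164) (nat_lit 6) (nat_lit 10) (nat_lit 12) L85776 (by decide +kernel)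
theorem L85778 : W_29 (nat_lit 6) (nat_lit 0x4000000050003c001200080001000080000000000000000000000000000000) (nat_lit 0x0) (nat_lit 0x10000800000000000080015000c800600000000000000000000000000000000) := T_29 (nat_lit 160) (nat_lit 143) (nat_lit 7) (nat_lit 7) (nat_lit 8) L85777 (by decide +kernel)
theorem L85779 : W_29 (nat_lit 7) (nat_lit 0x4000000010003c001200080001000080000000000000000000000000000000) (nat_lit 0x0) (nat_lit 0x100008000c0000000080015000c800600000000000000000000000000000000) := T_29 (nat_lit 214) (nat_lit 215) (nat_lit 3) (nat_lit 7) (nat_lit 11) L85778 (by decide +kernel)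
theorem L85780 : W_29 (nat_lit 8) (nat_lit 0x10003c001200080001000080000000000000000000000000000000) (nat_lit 0x0) (nat_lit 0x14000a000c0000000080015000c800600000000000000000000000000000000) := T_29 (nat_lit 246) (nat_lit 229) (nat_lit 4) (nat_lit 8) (nat_lit 14) L85779 (by decide +kernel)
theorem L85781 : W_29 (nat_lit 2) (nat_lit 0x50003c001200080001000080000000000000000000000000000000) (nat_lit 0x0) (nat_lit 0x4000200000000000000004000000000000000000000000000000000000) := D_29 (nat_lit 213) (nat_lit 146) (nat_lit 230) (nat_lit 5) (nat_lit 10) (nat_lit 8) (nat_lit 5) (nat_lit 10) (nat_lit 9) (by decide +kernel)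
theorem L85782 : W_29 (nat_lit 3) (nat_lit 0x10003c001200080001000080000000000000000000000000000000) (nat_lit 0x0) (nat_lit 0x4000e00000000000000004000000000000000000000000000000000000) := T_29 (nat_lit 214) (nat_lit 215) (nat_lit 3) (nat_lit 7) (nat_lit 11) L85781 (by decide +kernel)
theorem L85783 : W_29 (nat_lit 2) (nat_lit 0x10003c001200080005000280000000000000000000000000000000) (nat_lit 0x0) (nat_lit 0x8000400020000000000000000000000000000) := D_29 (nat_lit 130) (nat_lit 147) (nat_lit 113) (nat_lit 6) (nat_lit 10) (nat_lit 11) (nat_lit 6) (nat_lit 10) (nat_lit 10) (by decide +kernel)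
theorem L85784 : W_29 (nat_lit 3) (nat_lit 0x10003c001200080005000080000000000000000000000000000000) (nat_lit 0x0) (nat_lit 0x800000008000600020000000000000000000000000000) := T_29 (nat_lit 129) (nat_lit 179) (nat_lit 5) (nat_lit 10) (nat_lit 7) L85783 (by decide +kernel)
theorem L85785 : W_29 (nat_lit 4) (nat_lit 0x10003c001200080001000080000000000000000000000000000000) (nat_lit 0x0) (nat_lit 0x20000000080000000c000600020000000000000000000000000000) := T_29 (nat_lit 146) (nat_lit 213) (nat_lit 5) (nat_lit 10) (nat_lit 8) L85784 (by decide +kernel)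
theorem L85786 : W_29 (nat_lit 2) (nat_lit 0x4000c00050003c001200180001000080000000000000000000000000000000) (nat_lit 0x0) (nat_lit 0x100000000000000000800040000000000000000000000000000000000000000) := D_29 (nat_lit 179) (nat_lit 248) (nat_lit 162) (nat_lit 4) (nat_lit 10) (nat_lit 14) (nat_lit 4) (nat_lit 10) (nat_lit 13) (by decide +kernel)
theorem L85787 : W_29 (nat_lit 3) (nat_lit 0x4000400050003c001200180001000080000000000000000000000000000000) (nat_lit 0x0) (nat_lit 0x180008000000000000800040000000000000000000000000000000000000000) := T_29 (nat_lit 231) (nat_lit 247) (nat_lit 5) (nat_lit 10) (nat_lit 10) L85786 (by decide +kernel)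
theorem L85788 : W_29 (nat_lit 4) (nat_lit 0x400050003c001200180001000080000000000000000000000000000000) (nat_lit 0x0) (nat_lit 0x1c000a000000000000800040000000000000000000000000000000000000000) := T_29 (nat_lit 246) (nat_lit 229) (nat_lit 4) (nat_lit 8) (nat_lit 14) L85787 (by decide +kernel)
theorem L85789 : W_29 (nat_lit 5) (nat_lit 0x50003c001200180001000080000000000000000000000000000000) (nat_lit 0x0) (nat_lit 0x1c000e000200000000800040000000000000000000000000000000000000000) := T_29 (nat_lit 230) (nat_lit 213) (nat_lit 5) (nat_lit 10) (nat_lit 9) L85788 (by decide +kernel)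
theorem L85790 : W_29 (nat_lit 6) (nat_lit 0x50003c001200080001000080000000000000000000000000000000) (nat_lit 0x0) (nat_lit 0x1c000e000200000000800140008000000000000000000000000000000000000) := T_29 (nat_lit 164) (nat_lit 147) (nat_lit 6) (nat_lit 10) (nat_lit 12) L85789 (by decide +kernel)
theorem L85791 : W_29 (nat_lit 7) (nat_lit 0x10003c001200080001000080000000000000000000000000000000) (nat_lit 0x0) (nat_lit 0x1c000e000e00000000800140008000000000000000000000000000000000000) := T_29 (nat_lit 214) (nat_lit 215) (nat_lit 3) (nat_lit 7) (nat_lit 11) L85790 (by decide +kernel)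
theorem L85792 : W_29 (nat_lit 9) (nat_lit 0x10003c001200000001000080000000000000000000000000000000) (nat_lit 0x0) (nat_lit 0x1c000e000e000000008001d000c800600020000000000000000000000000000) := Q_29 (nat_lit 163) (C_29 L85780 (C_29 L85782 (C_29 L85785 (C_29 L85791 N_29)))) (by decide +kernel)
theorem L85793 : W_29 (nat_lit 10) (nat_lit 0x10003c000200000001000080000000000000000000000000000000) (nat_lit 0x0) (nat_lit 0x1c000e000e000000038001d000c800600020000000000000000000000000000) := T_29 (nat_lit 180) (nat_lit 181) (nat_lit 2) (nat_lit 7) (nat_lit 11) L85792 (by decide +kernel)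
theorem L85794 : W_29 (nat_lit 12) (nat_lit 0x10001c000200000001000080000000000000000000000000000000) (nat_lit 0x0) (nat_lit 0x38007e003f007e001e001f8001d000c800600020000000000000000000000000000) := Q_29 (nat_lit 197) (C_29 L85650 (C_29 L85656 (C_29 L85665 (C_29 L85682 (C_29 L85689 (C_29 L85719 (C_29 L85766 (C_29 L85773 (C_29 L85793 N_29))))))))) (by decide +kernel)
theorem L85795 : W_29 (nat_lit 2) (nat_lit 0x30001c000a00000001000080000000000000000000000000000000) (nat_lit 0x0) (nat_lit 0x40002000000000000000040000000000000000000000000000000000000000) := D_29 (nat_lit 229) (nat_lit 246) (nat_lit 162) (nat_lit 6) (nat_lit 8) (nat_lit 14) (nat_lit 5) (nat_lit 9) (nat_lit 9) (by decide +kernel)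
theorem L85796 : W_29 (nat_lit 2) (nat_lit 0x10000400030001c000a00000001000080000000000000000000000000000000) (nat_lit 0x0) (nat_lit 0x3000080000000000000000000000000000000000000000000000000000000000000) := D_29 (nat_lit 247) (nat_lit 264) (nat_lit 265) (nat_lit 4) (nat_lit 9) (nat_lit 15) (nat_lit 7) (nat_lit 9) (nat_lit 11) (by decide +kernel)
theorem L85804 : W_29 (nat_lit 2) (nat_lit 0x4000000011001f800a00000001800080000000000000000000000000000000) (nat_lit 0x0) (nat_lit 0xe0000000000000000000000000000000000000000000) := D_29 (nat_lit 174) (nat_lit 173) (nat_lit 175) (nat_lit 0) (nat_lit 7) (nat_lit 11) (nat_lit 0) (nat_lit 8) (nat_lit 11) (by decide +kernel)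
theorem L85805 : W_29 (nat_lit 3) (nat_lit 0x4000000011001f000a00000001800080000000000000000000000000000000) (nat_lit 0x0) (nat_lit 0x80008000e0000000000000000000000000000000000000000000) := T_29 (nat_lit 191) (nat_lit 207) (nat_lit 1) (nat_lit 7) (nat_lit 11) L85804 (by decide +kernel)
theorem L85806 : W_29 (nat_lit 4) (nat_lit 0x11001f000a00000001800080000000000000000000000000000000) (nat_lit 0x0) (nat_lit 0x400020000080008000e0000000000000000000000000000000000000000000) := T_29 (nat_lit 246) (nat_lit 229) (nat_lit 6) (nat_lit 8) (nat_lit 14) L85805 (by decide +kernel)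
theorem L85807 : W_29 (nat_lit 5) (nat_lit 0x10001f000a00000001800080000000000000000000000000000000) (nat_lit 0x0) (nat_lit 0x400020000380008000e0000000000000000000000000000000000000000000) := T_29 (nat_lit 208) (nat_lit 209) (nat_lit 1) (nat_lit 8) (nat_lit 11) L85806 (by decide +kernel)
theorem L85808 : W_29 (nat_lit 6) (nat_lit 0x10001f000a00000001000080000000000000000000000000000000) (nat_lit 0x0) (nat_lit 0x400020000380008000e0010000800000000000000000000000000000000000) := T_29 (nat_lit 143) (nat_lit 160) (nat_lit 7) (nat_lit 7) (nat_lit 8) L85807 (by decide +kernel)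
theorem L85809 : W_29 (nat_lit 2) (nat_lit 0xe000b0001c000a00010001000080000000000000000000000000000000) (nat_lit 0x0) (nat_lit 0x30001000000000000000000000000000000000000000000000000000000) := D_29 (nat_lit 232) (nat_lit 216) (nat_lit 233) (nat_lit 2) (nat_lit 8) (nat_lit 13) (nat_lit 0) (nat_lit 12) (nat_lit 13) (by decide +kernel)
theorem L85810 : W_29 (nat_lit 3) (nat_lit 0x6000b0001c000a00010001000080000000000000000000000000000000) (nat_lit 0x0) (nat_lit 0x100038001000000000000000000000000000000000000000000000000000000) := T_29 (nat_lit 231) (nat_lit 248) (nat_lit 7) (nat_lit 9) (nat_lit 10) L85809 (by decide +kernel)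
theorem L85811 : W_29 (nat_lit 2) (nat_lit 0x18001e000b0001c002200010001000080000000000000000000000000000000) (nat_lit 0x0) (nat_lit 0x600001000000000000000000000000000000000000000000000000000000000) := D_29 (nat_lit 249) (nat_lit 250) (nat_lit 228) (nat_lit 3) (nat_lit 8) (nat_lit 13) (nat_lit 3) (nat_lit 7) (nat_lit 13) (by decide +kernel)
theorem L85812 : W_29 (nat_lit 3) (nat_lit 0x18001c000b0001c002200010001000080000000000000000000000000000000) (nat_lit 0x0) (nat_lit 0x600003001000000000000000000000000000000000000000000000000000000) := T_29 (nat_lit 229) (nat_lit 216) (nat_lit 2) (nat_lit 8) (nat_lit 13) L85811 (by decide +kernel)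
theorem L85813 : W_29 (nat_lit 4) (nat_lit 0x18001c000b0001c000200010001000080000000000000000000000000000000) (nat_lit 0x0) (nat_lit 0x600003001000040002000000000000000000000000000000000000000000000) := T_29 (nat_lit 181) (nat_lit 198) (nat_lit 5) (nat_lit 11) (nat_lit 10) L85812 (by decide +kernel)
theorem L85814 : W_29 (nat_lit 5) (nat_lit 0x18000c000b0001c000200010001000080000000000000000000000000000000) (nat_lit 0x0) (nat_lit 0x600033001000040002000000000000000000000000000000000000000000000) := T_29 (nat_lit 232) (nat_lit 233) (nat_lit 0) (nat_lit 12) (nat_lit 13) L85813 (by decide +kernel)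
theorem L85815 : W_29 (nat_lit 6) (nat_lit 0x180004000b0001c000200010001000080000000000000000000000000000000) (nat_lit 0x0) (nat_lit 0x60003b001000040002800000000000000000000000000000000000000000000) := T_29 (nat_lit 231) (nat_lit 179) (nat_lit 7) (nat_lit 9) (nat_lit 10) L85814 (by decide +kernel)
theorem L85816 : W_29 (nat_lit 7) (nat_lit 0x80004000b0001c000200010001000080000000000000000000000000000000) (nat_lit 0x0) (nat_lit 0x200070003b001000040002800000000000000000000000000000000000000000000) := T_29 (nat_lit 248) (nat_lit 265) (nat_lit 7) (nat_lit 9) (nat_lit 11) L85815 (by decide +kernel)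
theorem L85817 : W_29 (nat_lit 8) (nat_lit 0x4000b0001c000200010001000080000000000000000000000000000000) (nat_lit 0x0) (nat_lit 0x300078003b001000040002800000000000000000000000000000000000000000000) := T_29 (nat_lit 247) (nat_lit 264) (nat_lit 4) (nat_lit 9) (nat_lit 15) L85816 (by decide +kernel)
theorem L85818 : W_29 (nat_lit 9) (nat_lit 0x400030001c000200010001000080000000000000000000000000000000) (nat_lit 0x0) (nat_lit 0x300078003b001c00040002800000000000000000000000000000000000000000000) := T_29 (nat_lit 215) (nat_lit 214) (nat_lit 0) (nat_lit 11) (nat_lit 12) L85817 (by decide +kernel)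
theorem L85819 : W_29 (nat_lit 2) (nat_lit 0x1c000c000b0001c000200010001000080000000000000000000000000000000) (nat_lit 0x0) (nat_lit 0x30010000000000000000000000000000000000000000000000000000000000) := D_29 (nat_lit 245) (nat_lit 232) (nat_lit 244) (nat_lit 2) (nat_lit 7) (nat_lit 14) (nat_lit 2) (nat_lit 6) (nat_lit 14) (by decide +kernel)
theorem L85820 : W_29 (nat_lit 3) (nat_lit 0x18000c000b0001c000200010001000080000000000000000000000000000000) (nat_lit 0x0) (nat_lit 0x800070010000000000000000000000000000000000000000000000000000000000) := T_29 (nat_lit 246) (nat_lit 263) (nat_lit 5) (nat_lit 9) (nat_lit 11) L85819 (by decide +kernel)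
theorem L85821 : W_29 (nat_lit 4) (nat_lit 0x180004000b0001c000200010001000080000000000000000000000000000000) (nat_lit 0x0) (nat_lit 0x800070018000000000000800000000000000000000000000000000000000000000) := T_29 (nat_lit 231) (nat_lit 179) (nat_lit 7) (nat_lit 9) (nat_lit 10) L85820 (by decide +kernel)
theorem L85822 : W_29 (nat_lit 5) (nat_lit 0x80004000b0001c000200010001000080000000000000000000000000000000) (nat_lit 0x0) (nat_lit 0x2800170018000000000000800000000000000000000000000000000000000000000) := T_29 (nat_lit 248) (nat_lit 265) (nat_lit 7) (nat_lit 9) (nat_lit 11) L85821 (by decide +kernel)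
theorem L85823 : W_29 (nat_lit 6) (nat_lit 0x8000400030001c000200010001000080000000000000000000000000000000) (nat_lit 0x0) (nat_lit 0x2800170018000c00000000800000000000000000000000000000000000000000000) := T_29 (nat_lit 215) (nat_lit 214) (nat_lit 0) (nat_lit 11) (nat_lit 12) L85822 (by decide +kernel)
theorem L85824 : W_29 (nat_lit 7) (nat_lit 0x400030001c000200010001000080000000000000000000000000000000) (nat_lit 0x0) (nat_lit 0x38001f0018000c00000000800000000000000000000000000000000000000000000) := T_29 (nat_lit 247) (nat_lit 264) (nat_lit 4) (nat_lit 9) (nat_lit 15) L85823 (by decide +kernel)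
theorem L85825 : W_29 (nat_lit 4) (nat_lit 0x6000b0001c000200010001000080000000000000000000000000000000) (nat_lit 0x0) (nat_lit 0x100038001000000000800040000000000000000000000000000000000000000) := T_29 (nat_lit 179) (nat_lit 162) (nat_lit 5) (nat_lit 9) (nat_lit 9) L85810 (by decide +kernel)
theorem L85826 : W_29 (nat_lit 5) (nat_lit 0x600030001c000200010001000080000000000000000000000000000000) (nat_lit 0x0) (nat_lit 0x100038001c00000000800040000000000000000000000000000000000000000) := T_29 (nat_lit 215) (nat_lit 214) (nat_lit 0) (nat_lit 11) (nat_lit 12) L85825 (by decide +kernel)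
theorem L85827 : W_29 (nat_lit 6) (nat_lit 0x400030001c000200010001000080000000000000000000000000000000) (nat_lit 0x0) (nat_lit 0x14003a001c00000000800040000000000000000000000000000000000000000) := T_29 (nat_lit 229) (nat_lit 246) (nat_lit 4) (nat_lit 8) (nat_lit 14) L85826 (by decide +kernel)
theorem L85828 : W_29 (nat_lit 10) (nat_lit 0x30001c000200010001000080000000000000000000000000000000) (nat_lit 0x0) (nat_lit 0x38007f003f001c00040002800040000000000000000000000000000000000000000) := Q_29 (nat_lit 230) (C_29 L85644 (C_29 L85818 (C_29 L85824 (C_29 L85827 N_29)))) (by decide +kernel)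
theorem L85829 : W_29 (nat_lit 4) (nat_lit 0x4000000010003c000200000001000080000000000000000000000000000000) (nat_lit 0x0) (nat_lit 0x1c00040007000000000000000000000000000000000000000000000) := T_29 (nat_lit 215) (nat_lit 214) (nat_lit 3) (nat_lit 7) (nat_lit 11) L85680 (by decide +kernel)
theorem L85832 : W_29 (nat_lit 2) (nat_lit 0x4000000090007c004200000001800080000000000000000000000000000000) (nat_lit 0x0) (nat_lit 0x200080008000000000000000000000000000000000000000000000) := D_29 (nat_lit 199) (nat_lit 213) (nat_lit 183) (nat_lit 1) (nat_lit 12) (nat_lit 11) (nat_lit 2) (nat_lit 9) (nat_lit 11) (by decide +kernel)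
theorem L85833 : W_29 (nat_lit 3) (nat_lit 0x4000000090007c000200000001800080000000000000000000000000000000) (nat_lit 0x0) (nat_lit 0x20008000e000000000000000000000000000000000000000000000) := T_29 (nat_lit 182) (nat_lit 181) (nat_lit 2) (nat_lit 8) (nat_lit 11) L85832 (by decide +kernel)
theorem L85834 : W_29 (nat_lit 4) (nat_lit 0x4000000090003c000200000001800080000000000000000000000000000000) (nat_lit 0x0) (nat_lit 0x12000c000e000000000000000000000000000000000000000000000) := T_29 (nat_lit 198) (nat_lit 216) (nat_lit 3) (nat_lit 8) (nat_lit 11) L85833 (by decide +kernel)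
theorem L85835 : W_29 (nat_lit 5) (nat_lit 0x4000000010003c000200000001800080000000000000000000000000000000) (nat_lit 0x0) (nat_lit 0x1e000c000e000000000000000000000000000000000000000000000) := T_29 (nat_lit 215) (nat_lit 214) (nat_lit 3) (nat_lit 7) (nat_lit 11) L85834 (by decide +kernel)
theorem L85836 : W_29 (nat_lit 2) (nat_lit 0x30000e000200010001000080000000000000000000000000000000) (nat_lit 0x0) (nat_lit 0xc00010000000000000000000000000000000000000000000000000) := D_29 (nat_lit 214) (nat_lit 215) (nat_lit 196) (nat_lit 0) (nat_lit 11) (nat_lit 12) (nat_lit 3) (nat_lit 6) (nat_lit 11) (by decide +kernel)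
theorem L85837 : W_29 (nat_lit 3) (nat_lit 0x10000e000200010001000080000000000000000000000000000000) (nat_lit 0x0) (nat_lit 0xe00011000000000000000000000000000000000000000000000000) := T_29 (nat_lit 213) (nat_lit 192) (nat_lit 3) (nat_lit 5) (nat_lit 11) L85836 (by decide +kernel)
theorem L85842 : W_29 (nat_lit 2) (nat_lit 0x90003c002200000001800080000000000000000000000000000000) (nat_lit 0x0) (nat_lit 0x1000040004000000000000000000000000000000000000000000000) := D_29 (nat_lit 198) (nat_lit 216) (nat_lit 182) (nat_lit 3) (nat_lit 8) (nat_lit 11) (nat_lit 2) (nat_lit 8) (nat_lit 11) (by decide +kernel)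
theorem L85843 : W_29 (nat_lit 3) (nat_lit 0x90003c000200000001800080000000000000000000000000000000) (nat_lit 0x0) (nat_lit 0x1000040007000000000000000000000000000000000000000000000) := T_29 (nat_lit 181) (nat_lit 180) (nat_lit 2) (nat_lit 7) (nat_lit 11) L85842 (by decide +kernel)
theorem L85844 : W_29 (nat_lit 6) (nat_lit 0x10003c000200000001800080000000000000000000000000000000) (nat_lit 0x0) (nat_lit 0x40002001e000c000e000000000000000000000000000000000000000000000) := T_29 (nat_lit 246) (nat_lit 229) (nat_lit 4) (nat_lit 8) (nat_lit 14) L85835 (by decide +kernel)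
theorem L85845 : W_29 (nat_lit 4) (nat_lit 0x10003c000200000001800080000000000000000000000000000000) (nat_lit 0x0) (nat_lit 0x1c00040007000000000000000000000000000000000000000000000) := T_29 (nat_lit 215) (nat_lit 214) (nat_lit 3) (nat_lit 7) (nat_lit 11) L85843 (by decide +kernel)
theorem L85846 : W_29 (nat_lit 5) (nat_lit 0x3c000200000001000080000000000000000000000000000000) (nat_lit 0x0) (nat_lit 0x1c00040007000010000800000000000000000000000000000000000) := T_29 (nat_lit 160) (nat_lit 143) (nat_lit 6) (nat_lit 7) (nat_lit 11) L10817 (by decide +kernel)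
theorem L85847 : W_29 (nat_lit 2) (nat_lit 0x42003f001240000001000080000000000000000000000000000000) (nat_lit 0x0) (nat_lit 0x800420000000000000000000000000000000000000000000) := D_29 (nat_lit 191) (nat_lit 178) (nat_lit 173) (nat_lit 2) (nat_lit 4) (nat_lit 11) (nat_lit 0) (nat_lit 7) (nat_lit 11) (by decide +kernel)
theorem L85848 : W_29 (nat_lit 3) (nat_lit 0x42003f001200000001000080000000000000000000000000000000) (nat_lit 0x0) (nat_lit 0x8004e0000000000000000000000000000000000000000000) := T_29 (nat_lit 174) (nat_lit 175) (nat_lit 0) (nat_lit 8) (nat_lit 11) L85847 (by decide +kernel)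
theorem L85849 : W_29 (nat_lit 4) (nat_lit 0x42003e001200000001000080000000000000000000000000000000) (nat_lit 0x0) (nat_lit 0x100018004e0000000000000000000000000000000000000000000) := T_29 (nat_lit 192) (nat_lit 208) (nat_lit 1) (nat_lit 8) (nat_lit 11) L85848 (by decide +kernel)
theorem L85850 : W_29 (nat_lit 5) (nat_lit 0x42003e000200000001000080000000000000000000000000000000) (nat_lit 0x0) (nat_lit 0x100018034e0000000000000000000000000000000000000000000) := T_29 (nat_lit 180) (nat_lit 181) (nat_lit 2) (nat_lit 7) (nat_lit 11) L85849 (by decide +kernel)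
theorem L85851 : W_29 (nat_lit 6) (nat_lit 0x40003e000200000001000080000000000000000000000000000000) (nat_lit 0x0) (nat_lit 0x700018034e0000000000000000000000000000000000000000000) := T_29 (nat_lit 209) (nat_lit 210) (nat_lit 1) (nat_lit 9) (nat_lit 11) L85850 (by decide +kernel)
theorem L85852 : W_29 (nat_lit 7) (nat_lit 0x40003c000200000001000080000000000000000000000000000000) (nat_lit 0x0) (nat_lit 0x2700038034e0000000000000000000000000000000000000000000) := T_29 (nat_lit 193) (nat_lit 213) (nat_lit 3) (nat_lit 6) (nat_lit 11) L85851 (by decide +kernel)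
theorem L85853 : W_29 (nat_lit 8) (nat_lit 0x3c000200000001000080000000000000000000000000000000) (nat_lit 0x0) (nat_lit 0xe700038034e0000000000000000000000000000000000000000000) := T_29 (nat_lit 214) (nat_lit 215) (nat_lit 3) (nat_lit 7) (nat_lit 11) L85852 (by decide +kernel)
theorem L85854 : W_29 (nat_lit 2) (nat_lit 0x200050003c000200000001000080000000000000000000000000000000) (nat_lit 0x0) (nat_lit 0x400010000800000000000000000000000000000000000) := D_29 (nat_lit 160) (nat_lit 143) (nat_lit 178) (nat_lit 7) (nat_lit 7) (nat_lit 8) (nat_lit 4) (nat_lit 8) (nat_lit 13) (by decide +kernel)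
theorem L85855 : W_29 (nat_lit 3) (nat_lit 0x200040003c000200000001000080000000000000000000000000000000) (nat_lit 0x0) (nat_lit 0x40000000100000000400010000800000000000000000000000000000000000) := T_29 (nat_lit 212) (nat_lit 246) (nat_lit 4) (nat_lit 8) (nat_lit 14) L85854 (by decide +kernel)
theorem L85856 : W_29 (nat_lit 4) (nat_lit 0x200000003c000200000001000080000000000000000000000000000000) (nat_lit 0x0) (nat_lit 0x40000000d00000000400010000800000000000000000000000000000000000) := T_29 (nat_lit 214) (nat_lit 215) (nat_lit 3) (nat_lit 7) (nat_lit 11) L85855 (by decide +kernel)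
theorem L85857 : W_29 (nat_lit 2) (nat_lit 0x4000200060003c000a00000001000080000000000000000000000000000000) (nat_lit 0x0) (nat_lit 0x100008000000000000000040000000000000000000000000000000000000000) := D_29 (nat_lit 231) (nat_lit 162) (nat_lit 248) (nat_lit 7) (nat_lit 9) (nat_lit 9) (nat_lit 4) (nat_lit 10) (nat_lit 14) (by decide +kernel)
theorem L85858 : W_29 (nat_lit 3) (nat_lit 0x4000200020003c000a00000001000080000000000000000000000000000000) (nat_lit 0x0) (nat_lit 0x100008000c00000000000040000000000000000000000000000000000000000) := T_29 (nat_lit 214) (nat_lit 215) (nat_lit 3) (nat_lit 7) (nat_lit 11) L85857 (by decide +kernel)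
theorem L85859 : W_29 (nat_lit 4) (nat_lit 0x4000200000003c000a00000001000080000000000000000000000000000000) (nat_lit 0x0) (nat_lit 0x10000c000e00000000000040000000000000000000000000000000000000000) := T_29 (nat_lit 213) (nat_lit 230) (nat_lit 5) (nat_lit 9) (nat_lit 10) L85858 (by decide +kernel)
theorem L85860 : W_29 (nat_lit 5) (nat_lit 0x200000003c000a00000001000080000000000000000000000000000000) (nat_lit 0x0) (nat_lit 0x14000c000f00000000000040000000000000000000000000000000000000000) := T_29 (nat_lit 246) (nat_lit 212) (nat_lit 6) (nat_lit 8) (nat_lit 14) L85859 (by decide +kernel)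
theorem L85861 : W_29 (nat_lit 2) (nat_lit 0xa00040003c000a00010001000080000000000000000000000000000000) (nat_lit 0x0) (nat_lit 0x3000040000000000000000000000000000000000000000) := D_29 (nat_lit 180) (nat_lit 181) (nat_lit 162) (nat_lit 2) (nat_lit 7) (nat_lit 11) (nat_lit 4) (nat_lit 10) (nat_lit 13) (by decide +kernel)
theorem L85862 : W_29 (nat_lit 3) (nat_lit 0x200040003c000a00010001000080000000000000000000000000000000) (nat_lit 0x0) (nat_lit 0x100008000000000003000040000000000000000000000000000000000000000) := T_29 (nat_lit 231) (nat_lit 248) (nat_lit 4) (nat_lit 10) (nat_lit 14) L85861 (by decide +kernel)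
theorem L85863 : W_29 (nat_lit 4) (nat_lit 0x200040003c000a00000001000080000000000000000000000000000000) (nat_lit 0x0) (nat_lit 0x100008000000000003000050000800000000000000000000000000000000000) := T_29 (nat_lit 160) (nat_lit 143) (nat_lit 6) (nat_lit 7) (nat_lit 11) L85862 (by decide +kernel)
theorem L85864 : W_29 (nat_lit 5) (nat_lit 0x200000003c000a00000001000080000000000000000000000000000000) (nat_lit 0x0) (nat_lit 0x100008000c00000003000050000800000000000000000000000000000000000) := T_29 (nat_lit 214) (nat_lit 215) (nat_lit 3) (nat_lit 7) (nat_lit 11) L85863 (by decide +kernel)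
theorem L85865 : W_29 (nat_lit 2) (nat_lit 0x200030003c001a00010001000080000000000000000000000000000000) (nat_lit 0x0) (nat_lit 0x4000000000000000080004000000000000000000000000000000000000) := D_29 (nat_lit 163) (nat_lit 146) (nat_lit 230) (nat_lit 5) (nat_lit 10) (nat_lit 8) (nat_lit 6) (nat_lit 9) (nat_lit 13) (by decide +kernel)
theorem L85866 : W_29 (nat_lit 3) (nat_lit 0x200010003c001a00010001000080000000000000000000000000000000) (nat_lit 0x0) (nat_lit 0x40002000000000000c0004000000000000000000000000000000000000) := T_29 (nat_lit 213) (nat_lit 162) (nat_lit 5) (nat_lit 9) (nat_lit 9) L85865 (by decide +kernel)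
theorem L85867 : W_29 (nat_lit 4) (nat_lit 0x200010003c001a00000001000080000000000000000000000000000000) (nat_lit 0x0) (nat_lit 0x40002000000000000d0004800000000000000000000000000000000000) := T_29 (nat_lit 160) (nat_lit 143) (nat_lit 7) (nat_lit 7) (nat_lit 8) L85866 (by decide +kernel)
theorem L85868 : W_29 (nat_lit 5) (nat_lit 0x200000003c001a00000001000080000000000000000000000000000000) (nat_lit 0x0) (nat_lit 0x400040003000000000000d0004800000000000000000000000000000000000) := T_29 (nat_lit 212) (nat_lit 246) (nat_lit 6) (nat_lit 8) (nat_lit 14) L85867 (by decide +kernel)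
theorem L85869 : W_29 (nat_lit 6) (nat_lit 0x200000003c000a00000001000080000000000000000000000000000000) (nat_lit 0x0) (nat_lit 0x400040003000000030000d0004800000000000000000000000000000000000) := T_29 (nat_lit 180) (nat_lit 181) (nat_lit 2) (nat_lit 7) (nat_lit 11) L85868 (by decide +kernel)
theorem L85870 : W_29 (nat_lit 2) (nat_lit 0x4000a00040003c001a00000001000080000000000000000000000000000000) (nat_lit 0x0) (nat_lit 0x80004000200000000000000000000000000000000000000000000000000000) := D_29 (nat_lit 230) (nat_lit 213) (nat_lit 247) (nat_lit 5) (nat_lit 9) (nat_lit 10) (nat_lit 5) (nat_lit 10) (nat_lit 10) (by decide +kernel)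
theorem L85871 : W_29 (nat_lit 3) (nat_lit 0x4000200040003c001a00000001000080000000000000000000000000000000) (nat_lit 0x0) (nat_lit 0x18000c000200000000000000000000000000000000000000000000000000000) := T_29 (nat_lit 231) (nat_lit 248) (nat_lit 4) (nat_lit 10) (nat_lit 14) L85870 (by decide +kernel)
theorem L85872 : W_29 (nat_lit 4) (nat_lit 0x4000200040003c000a00000001000080000000000000000000000000000000) (nat_lit 0x0) (nat_lit 0x18000c000200000003000000000000000000000000000000000000000000000) := T_29 (nat_lit 180) (nat_lit 181) (nat_lit 2) (nat_lit 7) (nat_lit 11) L85871 (by decide +kernel)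
theorem L85873 : W_29 (nat_lit 5) (nat_lit 0x4000200000003c000a00000001000080000000000000000000000000000000) (nat_lit 0x0) (nat_lit 0x18000c000e00000003000000000000000000000000000000000000000000000) := T_29 (nat_lit 214) (nat_lit 215) (nat_lit 3) (nat_lit 7) (nat_lit 11) L85872 (by decide +kernel)
theorem L85874 : W_29 (nat_lit 6) (nat_lit 0x200000003c000a00000001000080000000000000000000000000000000) (nat_lit 0x0) (nat_lit 0x1c000c000f00000003000000000000000000000000000000000000000000000) := T_29 (nat_lit 246) (nat_lit 212) (nat_lit 6) (nat_lit 8) (nat_lit 14) L85873 (by decide +kernel)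
theorem L85875 : W_29 (nat_lit 7) (nat_lit 0x200000003c000200000001000080000000000000000000000000000000) (nat_lit 0x0) (nat_lit 0x1c000c000f000000038000d0004800000000000000000000000000000000000) := Q_29 (nat_lit 179) (C_29 L85860 (C_29 L85864 (C_29 L85869 (C_29 L85874 N_29)))) (by decide +kernel)
theorem L85876 : W_29 (nat_lit 2) (nat_lit 0x600050003c001600080001000080000000000000000000000000000000) (nat_lit 0x0) (nat_lit 0x800100008000000000000000000000000000000000000) := D_29 (nat_lit 164) (nat_lit 147) (nat_lit 179) (nat_lit 6) (nat_lit 10) (nat_lit 12) (nat_lit 2) (nat_lit 7) (nat_lit 10) (by decide +kernel)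
theorem L85877 : W_29 (nat_lit 3) (nat_lit 0x600050003c001600000001000080000000000000000000000000000000) (nat_lit 0x0) (nat_lit 0x200000000800180008000000000000000000000000000000000000) := T_29 (nat_lit 163) (nat_lit 213) (nat_lit 5) (nat_lit 10) (nat_lit 9) L85876 (by decide +kernel)
theorem L85878 : W_29 (nat_lit 4) (nat_lit 0x200050003c001600000001000080000000000000000000000000000000) (nat_lit 0x0) (nat_lit 0x80004000200000000800180008000000000000000000000000000000000000) := T_29 (nat_lit 230) (nat_lit 247) (nat_lit 7) (nat_lit 8) (nat_lit 10) L85877 (by decide +kernel)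
theorem L85879 : W_29 (nat_lit 5) (nat_lit 0x200050003c000600000001000080000000000000000000000000000000) (nat_lit 0x0) (nat_lit 0x80004000200000003800180008000000000000000000000000000000000000) := T_29 (nat_lit 180) (nat_lit 181) (nat_lit 2) (nat_lit 7) (nat_lit 11) L85878 (by decide +kernel)
theorem L85880 : W_29 (nat_lit 6) (nat_lit 0x200050003c000200000001000080000000000000000000000000000000) (nat_lit 0x0) (nat_lit 0x80004000200000003c00190008000000000000000000000000000000000000) := T_29 (nat_lit 178) (nat_lit 160) (nat_lit 4) (nat_lit 8) (nat_lit 13) L85879 (by decide +kernel)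
theorem L85881 : W_29 (nat_lit 7) (nat_lit 0x200010003c000200000001000080000000000000000000000000000000) (nat_lit 0x0) (nat_lit 0x80004000e00000003c00190008000000000000000000000000000000000000) := T_29 (nat_lit 214) (nat_lit 215) (nat_lit 3) (nat_lit 7) (nat_lit 11) L85880 (by decide +kernel)
theorem L85882 : W_29 (nat_lit 8) (nat_lit 0x200000003c000200000001000080000000000000000000000000000000) (nat_lit 0x0) (nat_lit 0xc0004000f00000003c00190008000000000000000000000000000000000000) := T_29 (nat_lit 212) (nat_lit 246) (nat_lit 4) (nat_lit 8) (nat_lit 14) L85881 (by decide +kernel)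
theorem L85883 : W_29 (nat_lit 2) (nat_lit 0x4000200060003c001200000001000080000000000000000000000000000000) (nat_lit 0x0) (nat_lit 0x4000000000000000080004000000000000000000000000000000000000) := D_29 (nat_lit 163) (nat_lit 146) (nat_lit 230) (nat_lit 5) (nat_lit 10) (nat_lit 8) (nat_lit 5) (nat_lit 10) (nat_lit 9) (by decide +kernel)
theorem L85884 : W_29 (nat_lit 3) (nat_lit 0x4000200060003c000200000001000080000000000000000000000000000000) (nat_lit 0x0) (nat_lit 0x4000000000003000080004000000000000000000000000000000000000) := T_29 (nat_lit 180) (nat_lit 181) (nat_lit 2) (nat_lit 7) (nat_lit 11) L85883 (by decide +kernel)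
theorem L85885 : W_29 (nat_lit 4) (nat_lit 0x4000200020003c000200000001000080000000000000000000000000000000) (nat_lit 0x0) (nat_lit 0x4000c00000003000080004000000000000000000000000000000000000) := T_29 (nat_lit 214) (nat_lit 215) (nat_lit 3) (nat_lit 7) (nat_lit 11) L85884 (by decide +kernel)
theorem L85886 : W_29 (nat_lit 5) (nat_lit 0x200020003c000200000001000080000000000000000000000000000000) (nat_lit 0x0) (nat_lit 0x40004000d00000003000080004000000000000000000000000000000000000) := T_29 (nat_lit 246) (nat_lit 212) (nat_lit 4) (nat_lit 8) (nat_lit 14) L85885 (by decide +kernel)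
theorem L85887 : W_29 (nat_lit 2) (nat_lit 0x200060003c001200000001000080000000000000000000000000000000) (nat_lit 0x0) (nat_lit 0x4000000000000000080004000000000000000000000000000000000000) := D_29 (nat_lit 163) (nat_lit 230) (nat_lit 146) (nat_lit 5) (nat_lit 10) (nat_lit 9) (nat_lit 5) (nat_lit 10) (nat_lit 8) (by decide +kernel)
theorem L85888 : W_29 (nat_lit 3) (nat_lit 0x200020003c001200000001000080000000000000000000000000000000) (nat_lit 0x0) (nat_lit 0x4000c00000000000080004000000000000000000000000000000000000) := T_29 (nat_lit 214) (nat_lit 215) (nat_lit 3) (nat_lit 7) (nat_lit 11) L85887 (by decide +kernel)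
theorem L85889 : W_29 (nat_lit 4) (nat_lit 0x200020003c000200000001000080000000000000000000000000000000) (nat_lit 0x0) (nat_lit 0x4000c00000003000080004000000000000000000000000000000000000) := T_29 (nat_lit 180) (nat_lit 181) (nat_lit 2) (nat_lit 7) (nat_lit 11) L85888 (by decide +kernel)
theorem L85890 : W_29 (nat_lit 3) (nat_lit 0x4000200060003c000200000001000080000000000000000000000000000000) (nat_lit 0x0) (nat_lit 0x10000c000000000000800040000000000000000000000000000000000000000) := T_29 (nat_lit 179) (nat_lit 230) (nat_lit 5) (nat_lit 9) (nat_lit 10) L85857 (by decide +kernel)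
theorem L85891 : W_29 (nat_lit 4) (nat_lit 0x200060003c000200000001000080000000000000000000000000000000) (nat_lit 0x0) (nat_lit 0x14000c000100000000800040000000000000000000000000000000000000000) := T_29 (nat_lit 246) (nat_lit 212) (nat_lit 4) (nat_lit 8) (nat_lit 14) L85890 (by decide +kernel)
theorem L85892 : W_29 (nat_lit 5) (nat_lit 0x200020003c000200000001000080000000000000000000000000000000) (nat_lit 0x0) (nat_lit 0x14000c000d00000000800040000000000000000000000000000000000000000) := T_29 (nat_lit 214) (nat_lit 215) (nat_lit 3) (nat_lit 7) (nat_lit 11) L85891 (by decide +kernel)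
theorem L85893 : W_29 (nat_lit 2) (nat_lit 0x4000200020003c001200000001000080000000000000000000000000000000) (nat_lit 0x0) (nat_lit 0x80004000000000000800000000000000000000000000000000000000000000) := D_29 (nat_lit 230) (nat_lit 179) (nat_lit 247) (nat_lit 5) (nat_lit 9) (nat_lit 10) (nat_lit 6) (nat_lit 9) (nat_lit 14) (by decide +kernel)
theorem L85894 : W_29 (nat_lit 3) (nat_lit 0x4000200020003c000200000001000080000000000000000000000000000000) (nat_lit 0x0) (nat_lit 0x80004000000000003800000000000000000000000000000000000000000000) := T_29 (nat_lit 180) (nat_lit 181) (nat_lit 2) (nat_lit 7) (nat_lit 11) L85893 (by decide +kernel)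
theorem L85895 : W_29 (nat_lit 4) (nat_lit 0x200020003c000200000001000080000000000000000000000000000000) (nat_lit 0x0) (nat_lit 0xc0004000100000003800000000000000000000000000000000000000000000) := T_29 (nat_lit 246) (nat_lit 212) (nat_lit 4) (nat_lit 8) (nat_lit 14) L85894 (by decide +kernel)
theorem L85896 : W_29 (nat_lit 2) (nat_lit 0x4000200060003c001a00180001000080000000000000000000000000000000) (nat_lit 0x0) (nat_lit 0x100008000000000000000040000000000000000000000000000000000000000) := D_29 (nat_lit 231) (nat_lit 162) (nat_lit 248) (nat_lit 7) (nat_lit 9) (nat_lit 9) (nat_lit 4) (nat_lit 10) (nat_lit 14) (by decide +kernel)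
theorem L85897 : W_29 (nat_lit 3) (nat_lit 0x4000200060003c001200180001000080000000000000000000000000000000) (nat_lit 0x0) (nat_lit 0x100008000000000000c00040000000000000000000000000000000000000000) := T_29 (nat_lit 179) (nat_lit 178) (nat_lit 2) (nat_lit 7) (nat_lit 10) L85896 (by decide +kernel)
theorem L85898 : W_29 (nat_lit 4) (nat_lit 0x4000200060003c001200080001000080000000000000000000000000000000) (nat_lit 0x0) (nat_lit 0x100008000000000000c00140008000000000000000000000000000000000000) := T_29 (nat_lit 164) (nat_lit 147) (nat_lit 6) (nat_lit 10) (nat_lit 12) L85897 (by decide +kernel)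
theorem L85899 : W_29 (nat_lit 5) (nat_lit 0x4000200060003c001200000001000080000000000000000000000000000000) (nat_lit 0x0) (nat_lit 0x100008000000000000c001c000c000000000000000000000000000000000000) := T_29 (nat_lit 163) (nat_lit 146) (nat_lit 5) (nat_lit 10) (nat_lit 8) L85898 (by decide +kernel)
theorem L85900 : W_29 (nat_lit 6) (nat_lit 0x4000200060003c000200000001000080000000000000000000000000000000) (nat_lit 0x0) (nat_lit 0x100008000000000003c001c000c000000000000000000000000000000000000) := T_29 (nat_lit 180) (nat_lit 181) (nat_lit 2) (nat_lit 7) (nat_lit 11) L85899 (by decide +kernel)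
theorem L85901 : W_29 (nat_lit 7) (nat_lit 0x4000200020003c000200000001000080000000000000000000000000000000) (nat_lit 0x0) (nat_lit 0x100008000c00000003c001c000c000000000000000000000000000000000000) := T_29 (nat_lit 214) (nat_lit 215) (nat_lit 3) (nat_lit 7) (nat_lit 11) L85900 (by decide +kernel)
theorem L85902 : W_29 (nat_lit 8) (nat_lit 0x200020003c000200000001000080000000000000000000000000000000) (nat_lit 0x0) (nat_lit 0x140008000d00000003c001c000c000000000000000000000000000000000000) := T_29 (nat_lit 246) (nat_lit 212) (nat_lit 4) (nat_lit 8) (nat_lit 14) L85901 (by decide +kernel)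
theorem L85903 : W_29 (nat_lit 9) (nat_lit 0x200000003c000200000001000080000000000000000000000000000000) (nat_lit 0x0) (nat_lit 0x1c000c000f00000003c001c000c000000000000000000000000000000000000) := Q_29 (nat_lit 213) (C_29 L85886 (C_29 L85889 (C_29 L85892 (C_29 L85895 (C_29 L85902 N_29))))) (by decide +kernel)
theorem L85904 : W_29 (nat_lit 2) (nat_lit 0x200040003c001a00000001000080000000000000000000000000000000) (nat_lit 0x0) (nat_lit 0x100008000000000000000040000000000000000000000000000000000000000) := D_29 (nat_lit 231) (nat_lit 162) (nat_lit 248) (nat_lit 4) (nat_lit 10) (nat_lit 13) (nat_lit 4) (nat_lit 10) (nat_lit 14) (by decide +kernel)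
theorem L85905 : W_29 (nat_lit 3) (nat_lit 0x200040003c000a00000001000080000000000000000000000000000000) (nat_lit 0x0) (nat_lit 0x100008000000000003000040000000000000000000000000000000000000000) := T_29 (nat_lit 180) (nat_lit 181) (nat_lit 2) (nat_lit 7) (nat_lit 11) L85904 (by decide +kernel)
theorem L85906 : W_29 (nat_lit 4) (nat_lit 0x200000003c000a00000001000080000000000000000000000000000000) (nat_lit 0x0) (nat_lit 0x100008000c00000003000040000000000000000000000000000000000000000) := T_29 (nat_lit 214) (nat_lit 215) (nat_lit 3) (nat_lit 7) (nat_lit 11) L85905 (by decide +kernel)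
theorem L85907 : W_29 (nat_lit 2) (nat_lit 0xe00060003c000a00010001000080000000000000000000000000000000) (nat_lit 0x0) (nat_lit 0x1000080000000000000000400000000000000000000000000000000000000000000) := D_29 (nat_lit 247) (nat_lit 178) (nat_lit 264) (nat_lit 4) (nat_lit 9) (nat_lit 14) (nat_lit 6) (nat_lit 9) (nat_lit 15) (by decide +kernel)
theorem L85908 : W_29 (nat_lit 3) (nat_lit 0xa00060003c000a00010001000080000000000000000000000000000000) (nat_lit 0x0) (nat_lit 0x10000c0004000000000000400000000000000000000000000000000000000000000) := T_29 (nat_lit 230) (nat_lit 246) (nat_lit 5) (nat_lit 9) (nat_lit 10) L85907 (by decide +kernel)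
theorem L85909 : W_29 (nat_lit 4) (nat_lit 0xa00040003c000a00010001000080000000000000000000000000000000) (nat_lit 0x0) (nat_lit 0x10000c0004000200000000400040000000000000000000000000000000000000000) := T_29 (nat_lit 213) (nat_lit 162) (nat_lit 7) (nat_lit 9) (nat_lit 9) L85908 (by decide +kernel)
theorem L85910 : W_29 (nat_lit 5) (nat_lit 0x200040003c000a00010001000080000000000000000000000000000000) (nat_lit 0x0) (nat_lit 0x10001c000c000200000000400040000000000000000000000000000000000000000) := T_29 (nat_lit 231) (nat_lit 248) (nat_lit 4) (nat_lit 10) (nat_lit 14) L85909 (by decide +kernel)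
theorem L85911 : W_29 (nat_lit 6) (nat_lit 0x200000003c000a00010001000080000000000000000000000000000000) (nat_lit 0x0) (nat_lit 0x10001c000c000e00000000400040000000000000000000000000000000000000000) := T_29 (nat_lit 214) (nat_lit 215) (nat_lit 3) (nat_lit 7) (nat_lit 11) L85910 (by decide +kernel)
theorem L85912 : W_29 (nat_lit 7) (nat_lit 0x200000003c000a00000001000080000000000000000000000000000000) (nat_lit 0x0) (nat_lit 0x10001c000c000e00000000400050000800000000000000000000000000000000000) := T_29 (nat_lit 160) (nat_lit 143) (nat_lit 6) (nat_lit 7) (nat_lit 11) L85911 (by decide +kernel)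
theorem L85913 : W_29 (nat_lit 2) (nat_lit 0x200000003c001e00090001000080000000000000000000000000000000) (nat_lit 0x0) (nat_lit 0x200000000000000004000200000000000000000000000000000000) := D_29 (nat_lit 146) (nat_lit 129) (nat_lit 213) (nat_lit 5) (nat_lit 10) (nat_lit 7) (nat_lit 5) (nat_lit 10) (nat_lit 8) (by decide +kernel)
theorem L85914 : W_29 (nat_lit 3) (nat_lit 0x200000003c001e00010001000080000000000000000000000000000000) (nat_lit 0x0) (nat_lit 0x200000000000180004000200000000000000000000000000000000) := T_29 (nat_lit 163) (nat_lit 164) (nat_lit 2) (nat_lit 7) (nat_lit 10) L85913 (by decide +kernel)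
theorem L85915 : W_29 (nat_lit 4) (nat_lit 0x200000003c001a00010001000080000000000000000000000000000000) (nat_lit 0x0) (nat_lit 0x200000000400188004000200000000000000000000000000000000) := T_29 (nat_lit 178) (nat_lit 159) (nat_lit 0) (nat_lit 10) (nat_lit 10) L85914 (by decide +kernel)
theorem L85916 : W_29 (nat_lit 5) (nat_lit 0x200000003c001a00000001000080000000000000000000000000000000) (nat_lit 0x0) (nat_lit 0x200000000400198004800200000000000000000000000000000000) := T_29 (nat_lit 160) (nat_lit 143) (nat_lit 6) (nat_lit 7) (nat_lit 11) L85915 (by decide +kernel)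
theorem L85917 : W_29 (nat_lit 6) (nat_lit 0x200000003c000a00000001000080000000000000000000000000000000) (nat_lit 0x0) (nat_lit 0x200000003400198004800200000000000000000000000000000000) := T_29 (nat_lit 180) (nat_lit 181) (nat_lit 2) (nat_lit 7) (nat_lit 11) L85916 (by decide +kernel)
theorem L85918 : W_29 (nat_lit 8) (nat_lit 0x200000003c000200000001000080000000000000000000000000000000) (nat_lit 0x0) (nat_lit 0x10001c000c000e00000003c001d8004800200000000000000000000000000000000) := Q_29 (nat_lit 179) (C_29 L85864 (C_29 L85906 (C_29 L85912 (C_29 L85917 N_29)))) (by decide +kernel)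
theorem L85919 : W_29 (nat_lit 3) (nat_lit 0x200040003c001600010001000080000000000000000000000000000000) (nat_lit 0x0) (nat_lit 0x100008000000000000800048000000000000000000000000000000000000000) := T_29 (nat_lit 179) (nat_lit 159) (nat_lit 0) (nat_lit 10) (nat_lit 10) L11218 (by decide +kernel)
theorem L85920 : W_29 (nat_lit 4) (nat_lit 0x200040003c000600010001000080000000000000000000000000000000) (nat_lit 0x0) (nat_lit 0x100008000000000003800048000000000000000000000000000000000000000) := T_29 (nat_lit 180) (nat_lit 181) (nat_lit 2) (nat_lit 7) (nat_lit 11) L85919 (by decide +kernel)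
theorem L85921 : W_29 (nat_lit 5) (nat_lit 0x200000003c000600010001000080000000000000000000000000000000) (nat_lit 0x0) (nat_lit 0x100008000c00000003800048000000000000000000000000000000000000000) := T_29 (nat_lit 214) (nat_lit 215) (nat_lit 3) (nat_lit 7) (nat_lit 11) L85920 (by decide +kernel)
theorem L85922 : W_29 (nat_lit 6) (nat_lit 0x200000003c000200010001000080000000000000000000000000000000) (nat_lit 0x0) (nat_lit 0x100008000d00000003c00048000000000000000000000000000000000000000) := T_29 (nat_lit 178) (nat_lit 212) (nat_lit 4) (nat_lit 8) (nat_lit 13) L85921 (by decide +kernel)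
theorem L85923 : W_29 (nat_lit 7) (nat_lit 0x200000003c000200000001000080000000000000000000000000000000) (nat_lit 0x0) (nat_lit 0x100008000d00000003c00058000800000000000000000000000000000000000) := T_29 (nat_lit 160) (nat_lit 143) (nat_lit 6) (nat_lit 7) (nat_lit 11) L85922 (by decide +kernel)
theorem L85924 : W_29 (nat_lit 2) (nat_lit 0x200000003c001200010001000080000000000000000000000000000000) (nat_lit 0x0) (nat_lit 0x40000000100000000400000000000000000000000000000000000000000000) := D_29 (nat_lit 212) (nat_lit 178) (nat_lit 246) (nat_lit 4) (nat_lit 8) (nat_lit 13) (nat_lit 4) (nat_lit 8) (nat_lit 14) (by decide +kernel)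
theorem L85925 : W_29 (nat_lit 3) (nat_lit 0x200000003c001200000001000080000000000000000000000000000000) (nat_lit 0x0) (nat_lit 0x40000000100000000400010000800000000000000000000000000000000000) := T_29 (nat_lit 160) (nat_lit 143) (nat_lit 6) (nat_lit 7) (nat_lit 11) L85924 (by decide +kernel)
theorem L85926 : W_29 (nat_lit 4) (nat_lit 0x200000003c000200000001000080000000000000000000000000000000) (nat_lit 0x0) (nat_lit 0x40000000100000003400010000800000000000000000000000000000000000) := T_29 (nat_lit 180) (nat_lit 181) (nat_lit 2) (nat_lit 7) (nat_lit 11) L85925 (by decide +kernel)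
theorem L85927 : W_29 (nat_lit 10) (nat_lit 0x3c000200000001000080000000000000000000000000000000) (nat_lit 0x0) (nat_lit 0x10001c000e000f00000003c001d800c800200000000000000000000000000000000) := Q_29 (nat_lit 229) (C_29 L85856 (C_29 L85875 (C_29 L85882 (C_29 L85903 (C_29 L85918 (C_29 L85923 (C_29 L85926 N_29))))))) (by decide +kernel)
theorem L85928 : W_29 (nat_lit 11) (nat_lit 0x1c000200000001000080000000000000000000000000000000) (nat_lit 0x0) (nat_lit 0x10001c000e001f00060007c001d800c800200000000000000000000000000000000) := Q_29 (nat_lit 197) (C_29 L85846 (C_29 L7816 (C_29 L7819 (C_29 L85927 N_29)))) (by decide +kernel)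
theorem L85929 : W_29 (nat_lit 2) (nat_lit 0x20001f000200010001000080000000000000000000000000000000) (nat_lit 0x0) (nat_lit 0x800c00000000000000000000000000000000000000000000) := D_29 (nat_lit 178) (nat_lit 179) (nat_lit 191) (nat_lit 2) (nat_lit 5) (nat_lit 11) (nat_lit 2) (nat_lit 4) (nat_lit 11) (by decide +kernel)
theorem L85930 : W_29 (nat_lit 3) (nat_lit 0x20001e000200010001000080000000000000000000000000000000) (nat_lit 0x0) (nat_lit 0x100001800c00000000000000000000000000000000000000000000) := T_29 (nat_lit 192) (nat_lit 212) (nat_lit 3) (nat_lit 5) (nat_lit 11) L85929 (by decide +kernel)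
theorem L85931 : W_29 (nat_lit 4) (nat_lit 0x1e000200010001000080000000000000000000000000000000) (nat_lit 0x0) (nat_lit 0x700001800c00000000000000000000000000000000000000000000) := T_29 (nat_lit 213) (nat_lit 214) (nat_lit 3) (nat_lit 6) (nat_lit 11) L85930 (by decide +kernel)
theorem L85932 : W_29 (nat_lit 5) (nat_lit 0x1e000200000001000080000000000000000000000000000000) (nat_lit 0x0) (nat_lit 0x700001800c00010000800000000000000000000000000000000000) := T_29 (nat_lit 160) (nat_lit 143) (nat_lit 6) (nat_lit 7) (nat_lit 11) L85931 (by decide +kernel)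
theorem L85933 : W_29 (nat_lit 2) (nat_lit 0x22001f000200000001000080000000000000000000000000000000) (nat_lit 0x0) (nat_lit 0x800c00000000000000000000000000000000000000000000) := D_29 (nat_lit 178) (nat_lit 191) (nat_lit 179) (nat_lit 2) (nat_lit 4) (nat_lit 11) (nat_lit 2) (nat_lit 5) (nat_lit 11) (by decide +kernel)
theorem L85934 : W_29 (nat_lit 3) (nat_lit 0x22001e000200000001000080000000000000000000000000000000) (nat_lit 0x0) (nat_lit 0x10001800c00000000000000000000000000000000000000000000) := T_29 (nat_lit 192) (nat_lit 208) (nat_lit 1) (nat_lit 8) (nat_lit 11) L85933 (by decide +kernel)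
theorem L85935 : W_29 (nat_lit 4) (nat_lit 0x20001e000200000001000080000000000000000000000000000000) (nat_lit 0x0) (nat_lit 0x70001800c00000000000000000000000000000000000000000000) := T_29 (nat_lit 209) (nat_lit 210) (nat_lit 1) (nat_lit 9) (nat_lit 11) L85934 (by decide +kernel)
theorem L85936 : W_29 (nat_lit 5) (nat_lit 0x1e000200000001000080000000000000000000000000000000) (nat_lit 0x0) (nat_lit 0x670001800c00000000000000000000000000000000000000000000) := T_29 (nat_lit 213) (nat_lit 214) (nat_lit 3) (nat_lit 6) (nat_lit 11) L85935 (by decide +kernel)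
theorem L85937 : W_29 (nat_lit 2) (nat_lit 0x2001f000200010001000080000000000000000000000000000000) (nat_lit 0x0) (nat_lit 0x800c00000000000000000000000000000000000000000000) := D_29 (nat_lit 178) (nat_lit 191) (nat_lit 179) (nat_lit 2) (nat_lit 4) (nat_lit 11) (nat_lit 2) (nat_lit 5) (nat_lit 11) (by decide +kernel)
theorem L85938 : W_29 (nat_lit 3) (nat_lit 0x2001e000200010001000080000000000000000000000000000000) (nat_lit 0x0) (nat_lit 0x10001800c00000000000000000000000000000000000000000000) := T_29 (nat_lit 192) (nat_lit 208) (nat_lit 1) (nat_lit 8) (nat_lit 11) L85937 (by decide +kernel)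
theorem L85939 : W_29 (nat_lit 4) (nat_lit 0x1e000200010001000080000000000000000000000000000000) (nat_lit 0x0) (nat_lit 0x70001800c00000000000000000000000000000000000000000000) := T_29 (nat_lit 209) (nat_lit 210) (nat_lit 1) (nat_lit 9) (nat_lit 11) L85938 (by decide +kernel)
theorem L85940 : W_29 (nat_lit 5) (nat_lit 0x1e000200000001000080000000000000000000000000000000) (nat_lit 0x0) (nat_lit 0x70001800c00010000800000000000000000000000000000000000) := T_29 (nat_lit 160) (nat_lit 143) (nat_lit 6) (nat_lit 7) (nat_lit 11) L85939 (by decide +kernel)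
theorem L85941 : W_29 (nat_lit 9) (nat_lit 0x1c000200000001000080000000000000000000000000000000) (nat_lit 0x0) (nat_lit 0x3f700e380ec00010000800000000000000000000000000000000000) := Q_29 (nat_lit 193) (C_29 L85456 (C_29 L7805 (C_29 L85932 (C_29 L85936 (C_29 L85940 N_29))))) (by decide +kernel)
theorem L85942 : W_29 (nat_lit 7) (nat_lit 0x1f000a00000001000080000000000000000000000000000000) (nat_lit 0x0) (nat_lit 0x400020003380008000e0010000800000000000000000000000000000000000) := T_29 (nat_lit 212) (nat_lit 213) (nat_lit 3) (nat_lit 5) (nat_lit 11) L85808 (by decide +kernel)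
theorem L85943 : W_29 (nat_lit 8) (nat_lit 0x1e000a00000001000080000000000000000000000000000000) (nat_lit 0x0) (nat_lit 0x400020003380018004e0010000800000000000000000000000000000000000) := T_29 (nat_lit 192) (nat_lit 178) (nat_lit 2) (nat_lit 5) (nat_lit 11) L85942 (by decide +kernel)
theorem L85944 : W_29 (nat_lit 9) (nat_lit 0x1e000200000001000080000000000000000000000000000000) (nat_lit 0x0) (nat_lit 0x40002000338001801ce0010000800000000000000000000000000000000000) := T_29 (nat_lit 179) (nat_lit 180) (nat_lit 2) (nat_lit 6) (nat_lit 11) L85943 (by decide +kernel)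
theorem L85945 : W_29 (nat_lit 2) (nat_lit 0x100007c004200010001000080000000000000000000000000000000) (nat_lit 0x0) (nat_lit 0x2000080008000000000000000000000000000000000000000000000) := D_29 (nat_lit 199) (nat_lit 183) (nat_lit 217) (nat_lit 2) (nat_lit 9) (nat_lit 11) (nat_lit 3) (nat_lit 9) (nat_lit 11) (by decide +kernel)
theorem L85946 : W_29 (nat_lit 3) (nat_lit 0x7c004200010001000080000000000000000000000000000000) (nat_lit 0x0) (nat_lit 0x3800080008000000000000000000000000000000000000000000000) := T_29 (nat_lit 216) (nat_lit 215) (nat_lit 3) (nat_lit 8) (nat_lit 11) L85945 (by decide +kernel)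
theorem L85947 : W_29 (nat_lit 4) (nat_lit 0x7c000200010001000080000000000000000000000000000000) (nat_lit 0x0) (nat_lit 0x380008000e000000000000000000000000000000000000000000000) := T_29 (nat_lit 182) (nat_lit 181) (nat_lit 2) (nat_lit 8) (nat_lit 11) L85946 (by decide +kernel)
theorem L85948 : W_29 (nat_lit 2) (nat_lit 0x1001f800a00010001000080000000000000000000000000000000) (nat_lit 0x0) (nat_lit 0xe0000000000000000000000000000000000000000000) := D_29 (nat_lit 174) (nat_lit 173) (nat_lit 175) (nat_lit 0) (nat_lit 7) (nat_lit 11) (nat_lit 0) (nat_lit 8) (nat_lit 11) (by decide +kernel)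
theorem L85949 : W_29 (nat_lit 3) (nat_lit 0x1001f000a00010001000080000000000000000000000000000000) (nat_lit 0x0) (nat_lit 0x80008000e0000000000000000000000000000000000000000000) := T_29 (nat_lit 191) (nat_lit 207) (nat_lit 1) (nat_lit 7) (nat_lit 11) L85948 (by decide +kernel)
theorem L85952 : W_29 (nat_lit 6) (nat_lit 0x200010000c000200000001000080000000000000000000000000000000) (nat_lit 0x0) (nat_lit 0xa0005000000003001c00050000000000000000000000000000000000000000) := T_29 (nat_lit 178) (nat_lit 160) (nat_lit 4) (nat_lit 8) (nat_lit 13) L19058 (by decide +kernel)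
theorem L85978 : W_29 (nat_lit 2) (nat_lit 0x10003e001200010001000080000000000000000000000000000000) (nat_lit 0x0) (nat_lit 0xe00000000000000000000000000000000000000000000000000000) := D_29 (nat_lit 214) (nat_lit 213) (nat_lit 215) (nat_lit 3) (nat_lit 6) (nat_lit 11) (nat_lit 3) (nat_lit 7) (nat_lit 11) (by decide +kernel)
theorem L85979 : W_29 (nat_lit 3) (nat_lit 0x10001e001200010001000080000000000000000000000000000000) (nat_lit 0x0) (nat_lit 0xe00020002000000000000000000000000000000000000000000000) := T_29 (nat_lit 197) (nat_lit 181) (nat_lit 2) (nat_lit 7) (nat_lit 11) L85978 (by decide +kernel)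
theorem L85980 : W_29 (nat_lit 4) (nat_lit 0x10001e001200000001000080000000000000000000000000000000) (nat_lit 0x0) (nat_lit 0xe00020002000010000800000000000000000000000000000000000) := T_29 (nat_lit 160) (nat_lit 143) (nat_lit 7) (nat_lit 7) (nat_lit 8) L85979 (by decide +kernel)
theorem L85986 : W_29 (nat_lit 4) (nat_lit 0x1f000a00010001000080000000000000000000000000000000) (nat_lit 0x0) (nat_lit 0x380008000e0000000000000000000000000000000000000000000) := T_29 (nat_lit 208) (nat_lit 209) (nat_lit 1) (nat_lit 8) (nat_lit 11) L85949 (by decide +kernel)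
theorem L85987 : W_29 (nat_lit 2) (nat_lit 0x2000fc004200010001000080000000000000000000000000000000) (nat_lit 0x0) (nat_lit 0x400102000000000000000000000000000000000000000000000000) := D_29 (nat_lit 214) (nat_lit 200) (nat_lit 193) (nat_lit 1) (nat_lit 13) (nat_lit 11) (nat_lit 3) (nat_lit 6) (nat_lit 11) (by decide +kernel)
theorem L85988 : W_29 (nat_lit 3) (nat_lit 0xfc004200010001000080000000000000000000000000000000) (nat_lit 0x0) (nat_lit 0x700102000000000000000000000000000000000000000000000000) := T_29 (nat_lit 213) (nat_lit 212) (nat_lit 1) (nat_lit 12) (nat_lit 11) L85987 (by decide +kernel)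
theorem L85989 : W_29 (nat_lit 4) (nat_lit 0x7c004200010001000080000000000000000000000000000000) (nat_lit 0x0) (nat_lit 0x700182008000000000000000000000000000000000000000000000) := T_29 (nat_lit 199) (nat_lit 183) (nat_lit 2) (nat_lit 9) (nat_lit 11) L85988 (by decide +kernel)
theorem L85990 : W_29 (nat_lit 5) (nat_lit 0x7c000200010001000080000000000000000000000000000000) (nat_lit 0x0) (nat_lit 0x70018200e000000000000000000000000000000000000000000000) := T_29 (nat_lit 182) (nat_lit 181) (nat_lit 2) (nat_lit 8) (nat_lit 11) L85989 (by decide +kernel)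
theorem L85991 : W_29 (nat_lit 6) (nat_lit 0x3c000200010001000080000000000000000000000000000000) (nat_lit 0x0) (nat_lit 0x3f001c200e000000000000000000000000000000000000000000000) := Q_29 (nat_lit 198) (C_29 L85947 (C_29 L5465 (C_29 L85990 N_29))) (by decide +kernel)
theorem L85992 : W_29 (nat_lit 4) (nat_lit 0x40003c000200010001000080000000000000000000000000000000) (nat_lit 0x0) (nat_lit 0x4000200002003000080004000000000000000000000000000000000000) := T_29 (nat_lit 180) (nat_lit 181) (nat_lit 2) (nat_lit 7) (nat_lit 11) L17864 (by decide +kernel)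
theorem L85993 : W_29 (nat_lit 5) (nat_lit 0x3c000200010001000080000000000000000000000000000000) (nat_lit 0x0) (nat_lit 0x38000c000e400000000000000000000000000000000000000000000) := T_29 (nat_lit 198) (nat_lit 178) (nat_lit 0) (nat_lit 11) (nat_lit 11) L85947 (by decide +kernel)
theorem L85994 : W_29 (nat_lit 5) (nat_lit 0x3c000200010001000080000000000000000000000000000000) (nat_lit 0x0) (nat_lit 0x4000e00002003000080004000000000000000000000000000000000000) := T_29 (nat_lit 214) (nat_lit 215) (nat_lit 3) (nat_lit 7) (nat_lit 11) L85992 (by decide +kernel)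
theorem L85995 : W_29 (nat_lit 2) (nat_lit 0x3c002200010001000080000000000000000000000000000000) (nat_lit 0x0) (nat_lit 0x40004400000000000000000000000000000000000000000000) := D_29 (nat_lit 198) (nat_lit 178) (nat_lit 182) (nat_lit 0) (nat_lit 11) (nat_lit 11) (nat_lit 2) (nat_lit 8) (nat_lit 11) (by decide +kernel)
theorem L85996 : W_29 (nat_lit 3) (nat_lit 0x3c000200010001000080000000000000000000000000000000) (nat_lit 0x0) (nat_lit 0x40007400000000000000000000000000000000000000000000) := T_29 (nat_lit 181) (nat_lit 180) (nat_lit 2) (nat_lit 7) (nat_lit 11) L85995 (by decide +kernel)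
theorem L85997 : W_29 (nat_lit 7) (nat_lit 0x1c000200010001000080000000000000000000000000000000) (nat_lit 0x0) (nat_lit 0x4003f001e200f400080004000000000000000000000000000000000000) := Q_29 (nat_lit 197) (C_29 L85993 (C_29 L85991 (C_29 L5466 (C_29 L85994 (C_29 L85996 N_29))))) (by decide +kernel)
theorem L85998 : W_29 (nat_lit 5) (nat_lit 0x1e000a00010001000080000000000000000000000000000000) (nat_lit 0x0) (nat_lit 0x380018004e0000000000000000000000000000000000000000000) := T_29 (nat_lit 192) (nat_lit 178) (nat_lit 2) (nat_lit 5) (nat_lit 11) L85986 (by decide +kernel)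
theorem L85999 : W_29 (nat_lit 6) (nat_lit 0x1e000200010001000080000000000000000000000000000000) (nat_lit 0x0) (nat_lit 0x38001801ce0000000000000000000000000000000000000000000) := T_29 (nat_lit 179) (nat_lit 180) (nat_lit 2) (nat_lit 6) (nat_lit 11) L85998 (by decide +kernel)
theorem L86003 : W_29 (nat_lit 2) (nat_lit 0x10000f000200000001800080000000000000000000000000000000) (nat_lit 0x0) (nat_lit 0x800c00000000000000000000000000000000000000000000) := D_29 (nat_lit 178) (nat_lit 191) (nat_lit 179) (nat_lit 2) (nat_lit 4) (nat_lit 11) (nat_lit 2) (nat_lit 5) (nat_lit 11) (by decide +kernel)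
theorem L86006 : W_29 (nat_lit 2) (nat_lit 0xc00070000c0010000a0000000000000000000000000000000) (nat_lit 0x0) (nat_lit 0x13000000000000000000000000000000000000000) := D_29 (nat_lit 157) (nat_lit 156) (nat_lit 160) (nat_lit 3) (nat_lit 3) (nat_lit 9) (nat_lit 3) (nat_lit 4) (nat_lit 9) (by decide +kernel)
theorem L86007 : W_29 (nat_lit 2) (nat_lit 0x10000c000f00000001000080000000000000000000000000000000) (nat_lit 0x0) (nat_lit 0x2003000000000000000000000000000000000000000000000) := D_29 (nat_lit 180) (nat_lit 193) (nat_lit 181) (nat_lit 1) (nat_lit 10) (nat_lit 10) (nat_lit 1) (nat_lit 11) (nat_lit 10) (by decide +kernel)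
theorem L86008 : W_29 (nat_lit 2) (nat_lit 0xc000300002001f000a0000000000000000000000000000000) (nat_lit 0x0) (nat_lit 0x1c000000000000000000000000000000) := D_29 (nat_lit 123) (nat_lit 122) (nat_lit 124) (nat_lit 0) (nat_lit 7) (nat_lit 8) (nat_lit 0) (nat_lit 8) (nat_lit 8) (by decide +kernel)
theorem L86009 : W_29 (nat_lit 3) (nat_lit 0xc000300002001e000a0000000000000000000000000000000) (nat_lit 0x0) (nat_lit 0x100010001c000000000000000000000000000000) := T_29 (nat_lit 140) (nat_lit 156) (nat_lit 1) (nat_lit 7) (nat_lit 8) L86008 (by decide +kernel)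
theorem L86010 : W_29 (nat_lit 3) (nat_lit 0xc00030000c0010000a0000000000000000000000000000000) (nat_lit 0x0) (nat_lit 0xc00013000000000000000000000000000000000000000) := T_29 (nat_lit 178) (nat_lit 179) (nat_lit 0) (nat_lit 9) (nat_lit 10) L86006 (by decide +kernel)
theorem L86011 : W_29 (nat_lit 4) (nat_lit 0xc00030000c001000080000000000000000000000000000000) (nat_lit 0x0) (nat_lit 0xc00013000400020000000000000000000000000000000) := T_29 (nat_lit 125) (nat_lit 142) (nat_lit 7) (nat_lit 6) (nat_lit 7) L86010 (by decide +kernel)
theorem L86012 : W_29 (nat_lit 2) (nat_lit 0xc000380004001a00090000800000000000000000000000000) (nat_lit 0x0) (nat_lit 0x20001000080000000000000000000000) := D_29 (nat_lit 108) (nat_lit 91) (nat_lit 125) (nat_lit 6) (nat_lit 5) (nat_lit 9) (nat_lit 6) (nat_lit 5) (nat_lit 10) (by decide +kernel)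
theorem L86013 : W_29 (nat_lit 3) (nat_lit 0xc000380004001a00090000000000000000000000000000000) (nat_lit 0x0) (nat_lit 0x8000000020001800080000000000000000000000) := T_29 (nat_lit 107) (nat_lit 159) (nat_lit 7) (nat_lit 5) (nat_lit 6) L86012 (by decide +kernel)
theorem L86014 : W_29 (nat_lit 4) (nat_lit 0xc000380004001a00080000000000000000000000000000000) (nat_lit 0x0) (nat_lit 0x2000000008000000030001800080000000000000000000000) := T_29 (nat_lit 124) (nat_lit 193) (nat_lit 7) (nat_lit 5) (nat_lit 7) L86013 (by decide +kernel)
theorem L86015 : W_29 (nat_lit 2) (nat_lit 0x10000c000340002001f00084000000000000000000000000000000) (nat_lit 0x0) (nat_lit 0x800000000000080002000000000000000000000000000000) := D_29 (nat_lit 139) (nat_lit 121) (nat_lit 191) (nat_lit 0) (nat_lit 6) (nat_lit 8) (nat_lit 4) (nat_lit 4) (nat_lit 11) (by decide +kernel)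
theorem L86016 : W_29 (nat_lit 3) (nat_lit 0x10000c000340002001f00080000000000000000000000000000000) (nat_lit 0x0) (nat_lit 0x80000000000008000e000000000000000000000000000000) := T_29 (nat_lit 122) (nat_lit 123) (nat_lit 0) (nat_lit 7) (nat_lit 8) L86015 (by decide +kernel)
theorem L86017 : W_29 (nat_lit 4) (nat_lit 0x10000c000340002001e00080000000000000000000000000000000) (nat_lit 0x0) (nat_lit 0x80000000100018000e000000000000000000000000000000) := T_29 (nat_lit 140) (nat_lit 156) (nat_lit 1) (nat_lit 7) (nat_lit 8) L86016 (by decide +kernel)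
theorem L86018 : W_29 (nat_lit 2) (nat_lit 0xc000340002001f00084000000000000000000000000000000) (nat_lit 0x0) (nat_lit 0x800000000000080002000000000000000000000000000000) := D_29 (nat_lit 139) (nat_lit 121) (nat_lit 191) (nat_lit 0) (nat_lit 6) (nat_lit 8) (nat_lit 4) (nat_lit 4) (nat_lit 11) (by decide +kernel)
theorem L86019 : W_29 (nat_lit 3) (nat_lit 0xc000340002001f00080000000000000000000000000000000) (nat_lit 0x0) (nat_lit 0x80000000000008000e000000000000000000000000000000) := T_29 (nat_lit 122) (nat_lit 123) (nat_lit 0) (nat_lit 7) (nat_lit 8) L86018 (by decide +kernel)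
theorem L86020 : W_29 (nat_lit 4) (nat_lit 0xc000340002001e00080000000000000000000000000000000) (nat_lit 0x0) (nat_lit 0x80000000100018000e000000000000000000000000000000) := T_29 (nat_lit 140) (nat_lit 156) (nat_lit 1) (nat_lit 7) (nat_lit 8) L86019 (by decide +kernel)
theorem L86021 : W_29 (nat_lit 5) (nat_lit 0xc000300002001e00080000000000000000000000000000000) (nat_lit 0x0) (nat_lit 0x8000c000100018000e000000000000000000000000000000) := T_29 (nat_lit 174) (nat_lit 175) (nat_lit 3) (nat_lit 4) (nat_lit 10) L86020 (by decide +kernel)
theorem L86022 : W_29 (nat_lit 2) (nat_lit 0xe000300002001f00080000000000000000000000000000000) (nat_lit 0x0) (nat_lit 0x1c000000000000000000000000000000) := D_29 (nat_lit 123) (nat_lit 122) (nat_lit 124) (nat_lit 0) (nat_lit 7) (nat_lit 8) (nat_lit 0) (nat_lit 8) (nat_lit 8) (by decide +kernel)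
theorem L86023 : W_29 (nat_lit 3) (nat_lit 0xe000300002001e00080000000000000000000000000000000) (nat_lit 0x0) (nat_lit 0x100010001c000000000000000000000000000000) := T_29 (nat_lit 140) (nat_lit 156) (nat_lit 1) (nat_lit 7) (nat_lit 8) L86022 (by decide +kernel)
theorem L86024 : W_29 (nat_lit 5) (nat_lit 0x200000000c000780010001000080000000000000000000000000000000) (nat_lit 0x0) (nat_lit 0x38001ce000000000000000000000000000000000000000) := T_29 (nat_lit 158) (nat_lit 157) (nat_lit 0) (nat_lit 8) (nat_lit 10) L16134 (by decide +kernel)
theorem L86025 : W_29 (nat_lit 6) (nat_lit 0xc000780010001000080000000000000000000000000000000) (nat_lit 0x0) (nat_lit 0x20001000000038001ce000000000000000000000000000000000000000) := T_29 (nat_lit 229) (nat_lit 212) (nat_lit 4) (nat_lit 8) (nat_lit 13) L86024 (by decide +kernel)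
theorem L86026 : W_29 (nat_lit 2) (nat_lit 0xc000340000001e00090000000000000000000000000000000) (nat_lit 0x0) (nat_lit 0x2000000008000000020000000000000000000000000000000) := D_29 (nat_lit 159) (nat_lit 125) (nat_lit 193) (nat_lit 7) (nat_lit 6) (nat_lit 7) (nat_lit 4) (nat_lit 6) (nat_lit 11) (by decide +kernel)
theorem L86027 : W_29 (nat_lit 3) (nat_lit 0xc000340000001e00080000000000000000000000000000000) (nat_lit 0x0) (nat_lit 0x2000000008000000038000000000000000000000000000000) := T_29 (nat_lit 124) (nat_lit 123) (nat_lit 0) (nat_lit 8) (nat_lit 8) L86026 (by decide +kernel)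
theorem L86028 : W_29 (nat_lit 4) (nat_lit 0xc000300000001e00080000000000000000000000000000000) (nat_lit 0x0) (nat_lit 0x20000c0008000000038000000000000000000000000000000) := T_29 (nat_lit 174) (nat_lit 175) (nat_lit 3) (nat_lit 4) (nat_lit 10) L86027 (by decide +kernel)
theorem L86029 : W_29 (nat_lit 2) (nat_lit 0xc000380004001e000a0000000000000000000000000000000) (nat_lit 0x0) (nat_lit 0x2000000000000000010001000000000000000000000000000) := D_29 (nat_lit 124) (nat_lit 193) (nat_lit 108) (nat_lit 7) (nat_lit 5) (nat_lit 7) (nat_lit 6) (nat_lit 5) (nat_lit 10) (by decide +kernel)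
theorem L86030 : W_29 (nat_lit 3) (nat_lit 0xc000380000001e000a0000000000000000000000000000000) (nat_lit 0x0) (nat_lit 0x2000000006000000010001000000000000000000000000000) := T_29 (nat_lit 158) (nat_lit 157) (nat_lit 1) (nat_lit 8) (nat_lit 8) L86029 (by decide +kernel)
theorem L86031 : W_29 (nat_lit 4) (nat_lit 0xc000300000001e000a0000000000000000000000000000000) (nat_lit 0x0) (nat_lit 0x20000c0006000000010001000000000000000000000000000) := T_29 (nat_lit 175) (nat_lit 174) (nat_lit 3) (nat_lit 4) (nat_lit 10) L86030 (by decide +kernel)
theorem L86032 : W_29 (nat_lit 5) (nat_lit 0xc000300000001e00080000000000000000000000000000000) (nat_lit 0x0) (nat_lit 0x20000c000e000000030001000000000000000000000000000) := T_29 (nat_lit 125) (nat_lit 159) (nat_lit 7) (nat_lit 6) (nat_lit 7) L86031 (by decide +kernel)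
theorem L86033 : W_29 (nat_lit 6) (nat_lit 0xc000300000001e00080000000000000000000000000000000) (nat_lit 0x0) (nat_lit 0x8000c000700018000e000000000000000000000000000000) := T_29 (nat_lit 157) (nat_lit 158) (nat_lit 1) (nat_lit 8) (nat_lit 8) L86021 (by decide +kernel)
theorem L86034 : W_29 (nat_lit 7) (nat_lit 0xc000300000001a00080000000000000000000000000000000) (nat_lit 0x0) (nat_lit 0x28000c000f00058003e001000000000000000000000000000) := Q_29 (nat_lit 142) (C_29 L86033 (C_29 L86028 (C_29 L82556 (C_29 L86032 N_29)))) (by decide +kernel)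
theorem L86035 : W_29 (nat_lit 4) (nat_lit 0xc000340000001a00080000000000000000000000000000000) (nat_lit 0x0) (nat_lit 0x2000000008000400138000000000000000000000000000000) := T_29 (nat_lit 142) (nat_lit 128) (nat_lit 2) (nat_lit 5) (nat_lit 8) L86027 (by decide +kernel)
theorem L86036 : W_29 (nat_lit 5) (nat_lit 0xc000300000001a00080000000000000000000000000000000) (nat_lit 0x0) (nat_lit 0x20000c0008000400138000000000000000000000000000000) := T_29 (nat_lit 174) (nat_lit 175) (nat_lit 3) (nat_lit 4) (nat_lit 10) L86035 (by decide +kernel)
theorem L86037 : W_29 (nat_lit 2) (nat_lit 0xc000780004001a00090001400000000000000000000000000) (nat_lit 0x0) (nat_lit 0x8000a0000000000000000000000) := D_29 (nat_lit 107) (nat_lit 91) (nat_lit 89) (nat_lit 6) (nat_lit 5) (nat_lit 9) (nat_lit 4) (nat_lit 5) (nat_lit 9) (by decide +kernel)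
theorem L86038 : W_29 (nat_lit 3) (nat_lit 0xc000780004001a00090001000000000000000000000000000) (nat_lit 0x0) (nat_lit 0x8000c000a0000000000000000000000) := T_29 (nat_lit 106) (nat_lit 123) (nat_lit 4) (nat_lit 5) (nat_lit 10) L86037 (by decide +kernel)
theorem L86039 : W_29 (nat_lit 4) (nat_lit 0xc000780004001a00090000000000000000000000000000000) (nat_lit 0x0) (nat_lit 0x28001c000a0000000000000000000000) := T_29 (nat_lit 108) (nat_lit 125) (nat_lit 6) (nat_lit 5) (nat_lit 10) L86038 (by decide +kernel)
theorem L86040 : W_29 (nat_lit 5) (nat_lit 0xc000780004001a00080000000000000000000000000000000) (nat_lit 0x0) (nat_lit 0x2000000000000000038001c000a0000000000000000000000) := T_29 (nat_lit 124) (nat_lit 193) (nat_lit 7) (nat_lit 5) (nat_lit 7) L86039 (by decide +kernel)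
theorem L86041 : W_29 (nat_lit 6) (nat_lit 0xc000380004001a00080000000000000000000000000000000) (nat_lit 0x0) (nat_lit 0x2000400002000000038001c000a0000000000000000000000) := T_29 (nat_lit 178) (nat_lit 157) (nat_lit 0) (nat_lit 8) (nat_lit 10) L86040 (by decide +kernel)
theorem L86042 : W_29 (nat_lit 2) (nat_lit 0xc001f80004001a00080000000000000000000000000000000) (nat_lit 0x0) (nat_lit 0x1c0000000000000000000000000000000000000000) := D_29 (nat_lit 163) (nat_lit 162) (nat_lit 164) (nat_lit 2) (nat_lit 6) (nat_lit 10) (nat_lit 2) (nat_lit 7) (nat_lit 10) (by decide +kernel)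
theorem L86043 : W_29 (nat_lit 3) (nat_lit 0xc000f80004001a00080000000000000000000000000000000) (nat_lit 0x0) (nat_lit 0x30001c0000000000000000000000000000000000000000) := T_29 (nat_lit 180) (nat_lit 181) (nat_lit 1) (nat_lit 11) (nat_lit 10) L86042 (by decide +kernel)
theorem L86044 : W_29 (nat_lit 4) (nat_lit 0xc000780004001a00080000000000000000000000000000000) (nat_lit 0x0) (nat_lit 0x38001c8000000000000000000000000000000000000000) := T_29 (nat_lit 179) (nat_lit 159) (nat_lit 0) (nat_lit 9) (nat_lit 10) L86043 (by decide +kernel)
theorem L86045 : W_29 (nat_lit 5) (nat_lit 0xc000380004001a00080000000000000000000000000000000) (nat_lit 0x0) (nat_lit 0x3c001ca000000000000000000000000000000000000000) := T_29 (nat_lit 178) (nat_lit 157) (nat_lit 0) (nat_lit 8) (nat_lit 10) L86044 (by decide +kernel)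
theorem L86046 : W_29 (nat_lit 7) (nat_lit 0xc000380000001a00080000000000000000000000000000000) (nat_lit 0x0) (nat_lit 0x2003c001ce000000038001c000a0000000000000000000000) := Q_29 (nat_lit 158) (C_29 L86041 (C_29 L86045 (C_29 L86014 N_29))) (by decide +kernel)
theorem L86047 : W_29 (nat_lit 8) (nat_lit 0xc000300000001a00080000000000000000000000000000000) (nat_lit 0x0) (nat_lit 0x2003cc01ce000000038001c000a0000000000000000000000) := T_29 (nat_lit 175) (nat_lit 174) (nat_lit 3) (nat_lit 4) (nat_lit 10) L86046 (by decide +kernel)
theorem L86048 : W_29 (nat_lit 2) (nat_lit 0xc00034000c001e00080000000000000000000000000000000) (nat_lit 0x0) (nat_lit 0x2000000000000000010000800000000000000000000000000) := D_29 (nat_lit 124) (nat_lit 107) (nat_lit 193) (nat_lit 7) (nat_lit 5) (nat_lit 6) (nat_lit 4) (nat_lit 6) (nat_lit 11) (by decide +kernel)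
theorem L86049 : W_29 (nat_lit 3) (nat_lit 0xc000340004001e00080000000000000000000000000000000) (nat_lit 0x0) (nat_lit 0x2000000008000000030000800000000000000000000000000) := T_29 (nat_lit 159) (nat_lit 125) (nat_lit 7) (nat_lit 6) (nat_lit 7) L86048 (by decide +kernel)
theorem L86050 : W_29 (nat_lit 4) (nat_lit 0xc000340000001e00080000000000000000000000000000000) (nat_lit 0x0) (nat_lit 0x200000000e000000030000800000000000000000000000000) := T_29 (nat_lit 158) (nat_lit 157) (nat_lit 1) (nat_lit 8) (nat_lit 8) L86049 (by decide +kernel)
theorem L86051 : W_29 (nat_lit 5) (nat_lit 0xc000340000001a00080000000000000000000000000000000) (nat_lit 0x0) (nat_lit 0x200000000e000400130000800000000000000000000000000) := T_29 (nat_lit 142) (nat_lit 128) (nat_lit 2) (nat_lit 5) (nat_lit 8) L86050 (by decide +kernel)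
theorem L86052 : W_29 (nat_lit 6) (nat_lit 0xc000300000001a00080000000000000000000000000000000) (nat_lit 0x0) (nat_lit 0x20000c000e000400130000800000000000000000000000000) := T_29 (nat_lit 174) (nat_lit 175) (nat_lit 3) (nat_lit 4) (nat_lit 10) L86051 (by decide +kernel)
theorem L86053 : W_29 (nat_lit 7) (nat_lit 0xc000300000001a00080000000000000000000000000000000) (nat_lit 0x0) (nat_lit 0x8000c000700058010e000000000000000000000000000000) := T_29 (nat_lit 142) (nat_lit 128) (nat_lit 2) (nat_lit 5) (nat_lit 8) L86033 (by decide +kernel)
theorem L86054 : W_29 (nat_lit 9) (nat_lit 0xc000300000001800080000000000000000000000000000000) (nat_lit 0x0) (nat_lit 0x2803cc01cf00078013e001c000a0000000000000000000000) := Q_29 (nat_lit 141) (C_29 L85589 (C_29 L86034 (C_29 L86036 (C_29 L86047 (C_29 L86052 (C_29 L86053 N_29)))))) (by decide +kernel)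
theorem L86055 : W_29 (nat_lit 10) (nat_lit 0xc000300000001000080000000000000000000000000000000) (nat_lit 0x0) (nat_lit 0x2803cc01df000f8013e001c000a0000000000000000000000) := T_29 (nat_lit 143) (nat_lit 160) (nat_lit 6) (nat_lit 7) (nat_lit 11) L86054 (by decide +kernel)
theorem L86058 : W_29 (nat_lit 2) (nat_lit 0x10000c000700000001000080000000000000000000000000000000) (nat_lit 0x0) (nat_lit 0x2000000000000000010000800000000000000000000000000000000000) := D_29 (nat_lit 160) (nat_lit 229) (nat_lit 143) (nat_lit 4) (nat_lit 8) (nat_lit 13) (nat_lit 7) (nat_lit 7) (nat_lit 8) (by decide +kernel)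
theorem L86059 : W_29 (nat_lit 5) (nat_lit 0x10000c000700000001000080000000000000000000000000000000) (nat_lit 0x0) (nat_lit 0x20000000020038001cc000000000000000000000000000000000000000) := Q_29 (nat_lit 179) (C_29 L86007 (C_29 L85596 (C_29 L85593 N_29))) (by decide +kernel)
theorem L86060 : W_29 (nat_lit 2) (nat_lit 0x10002c000f00048001e00080000000000000000000000000000000) (nat_lit 0x0) (nat_lit 0x2000000000000000018000000000000000000000000000000) := D_29 (nat_lit 124) (nat_lit 123) (nat_lit 193) (nat_lit 0) (nat_lit 8) (nat_lit 8) (nat_lit 4) (nat_lit 6) (nat_lit 11) (by decide +kernel)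
theorem L86061 : W_29 (nat_lit 3) (nat_lit 0x10002c000f00048001c00080000000000000000000000000000000) (nat_lit 0x0) (nat_lit 0x2000000000000200118000000000000000000000000000000) := T_29 (nat_lit 141) (nat_lit 128) (nat_lit 2) (nat_lit 5) (nat_lit 8) L86060 (by decide +kernel)
theorem L86062 : W_29 (nat_lit 4) (nat_lit 0x10002c000f00048001800080000000000000000000000000000000) (nat_lit 0x0) (nat_lit 0x2000000000000600138000000000000000000000000000000) := T_29 (nat_lit 142) (nat_lit 125) (nat_lit 7) (nat_lit 6) (nat_lit 7) L86061 (by decide +kernel)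
theorem L86063 : W_29 (nat_lit 5) (nat_lit 0x10002c000f00048001000080000000000000000000000000000000) (nat_lit 0x0) (nat_lit 0x2000000010000e00138000000000000000000000000000000) := T_29 (nat_lit 143) (nat_lit 160) (nat_lit 7) (nat_lit 7) (nat_lit 8) L86062 (by decide +kernel)
theorem L86064 : W_29 (nat_lit 6) (nat_lit 0x10002c000f00040001000080000000000000000000000000000000) (nat_lit 0x0) (nat_lit 0x200000001c000e00138000000000000000000000000000000) := T_29 (nat_lit 159) (nat_lit 158) (nat_lit 0) (nat_lit 9) (nat_lit 10) L86063 (by decide +kernel)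
theorem L86065 : W_29 (nat_lit 7) (nat_lit 0x10000c000f00040001000080000000000000000000000000000000) (nat_lit 0x0) (nat_lit 0x3200000001c000e00138000000000000000000000000000000) := T_29 (nat_lit 197) (nat_lit 196) (nat_lit 3) (nat_lit 6) (nat_lit 10) L86064 (by decide +kernel)
theorem L86066 : W_29 (nat_lit 8) (nat_lit 0x10000c000f00000001000080000000000000000000000000000000) (nat_lit 0x0) (nat_lit 0x320000000dc000e00138000000000000000000000000000000) := T_29 (nat_lit 162) (nat_lit 163) (nat_lit 2) (nat_lit 6) (nat_lit 10) L86065 (by decide +kernel)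
theorem L86067 : W_29 (nat_lit 9) (nat_lit 0x10000c000700000001000080000000000000000000000000000000) (nat_lit 0x0) (nat_lit 0x320038001dc000e00138000000000000000000000000000000) := Q_29 (nat_lit 179) (C_29 L86007 (C_29 L85596 (C_29 L86066 N_29))) (by decide +kernel)
theorem L86068 : W_29 (nat_lit 10) (nat_lit 0x10000c000300000001000080000000000000000000000000000000) (nat_lit 0x0) (nat_lit 0x20003000000032003c001dc000e00138000000000000000000000000000000) := Q_29 (nat_lit 178) (C_29 L85595 (C_29 L86058 (C_29 L86059 (C_29 L86067 N_29)))) (by decide +kernel)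
theorem L86069 : W_29 (nat_lit 2) (nat_lit 0x10000e000300002001e00088000000000000000000000000000000) (nat_lit 0x0) (nat_lit 0x1000100004000000000000000000000000000000) := D_29 (nat_lit 140) (nat_lit 156) (nat_lit 122) (nat_lit 1) (nat_lit 7) (nat_lit 8) (nat_lit 0) (nat_lit 7) (nat_lit 8) (by decide +kernel)
theorem L86070 : W_29 (nat_lit 3) (nat_lit 0x10000e000300002001e00080000000000000000000000000000000) (nat_lit 0x0) (nat_lit 0x100010001c000000000000000000000000000000) := T_29 (nat_lit 123) (nat_lit 124) (nat_lit 0) (nat_lit 8) (nat_lit 8) L86069 (by decide +kernel)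
theorem L86071 : W_29 (nat_lit 4) (nat_lit 0x10000e000300000001e00080000000000000000000000000000000) (nat_lit 0x0) (nat_lit 0x700010001c000000000000000000000000000000) := T_29 (nat_lit 157) (nat_lit 158) (nat_lit 1) (nat_lit 8) (nat_lit 8) L86070 (by decide +kernel)
theorem L86072 : W_29 (nat_lit 5) (nat_lit 0x10000e000300000001c00080000000000000000000000000000000) (nat_lit 0x0) (nat_lit 0x700030011c000000000000000000000000000000) := T_29 (nat_lit 141) (nat_lit 128) (nat_lit 2) (nat_lit 5) (nat_lit 8) L86071 (by decide +kernel)
theorem L86073 : W_29 (nat_lit 3) (nat_lit 0x10000c000700008001000080000000000000000000000000000000) (nat_lit 0x0) (nat_lit 0x800017000000000000000000000000000000000000000) := T_29 (nat_lit 158) (nat_lit 179) (nat_lit 0) (nat_lit 9) (nat_lit 10) L85597 (by decide +kernel)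
theorem L86074 : W_29 (nat_lit 2) (nat_lit 0x10001c000300002001e000a8000000000000000000000000000000) (nat_lit 0x0) (nat_lit 0x1000100004000000000000000000000000000000) := D_29 (nat_lit 140) (nat_lit 156) (nat_lit 122) (nat_lit 1) (nat_lit 7) (nat_lit 8) (nat_lit 0) (nat_lit 7) (nat_lit 8) (by decide +kernel)
theorem L86075 : W_29 (nat_lit 3) (nat_lit 0x10001c000300002001e000a0000000000000000000000000000000) (nat_lit 0x0) (nat_lit 0x100010001c000000000000000000000000000000) := T_29 (nat_lit 123) (nat_lit 124) (nat_lit 0) (nat_lit 8) (nat_lit 8) L86074 (by decide +kernel)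
theorem L86076 : W_29 (nat_lit 4) (nat_lit 0x10001c000300000001e000a0000000000000000000000000000000) (nat_lit 0x0) (nat_lit 0x700010001c000000000000000000000000000000) := T_29 (nat_lit 157) (nat_lit 158) (nat_lit 1) (nat_lit 8) (nat_lit 8) L86075 (by decide +kernel)
theorem L86077 : W_29 (nat_lit 5) (nat_lit 0x10001c000300000001c000a0000000000000000000000000000000) (nat_lit 0x0) (nat_lit 0x700030011c000000000000000000000000000000) := T_29 (nat_lit 141) (nat_lit 128) (nat_lit 2) (nat_lit 5) (nat_lit 8) L86076 (by decide +kernel)
theorem L86078 : W_29 (nat_lit 6) (nat_lit 0x10001c000300000001c00080000000000000000000000000000000) (nat_lit 0x0) (nat_lit 0xf00030013c000000000000000000000000000000) := T_29 (nat_lit 125) (nat_lit 159) (nat_lit 7) (nat_lit 6) (nat_lit 7) L86077 (by decide +kernel)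
theorem L86079 : W_29 (nat_lit 2) (nat_lit 0x14001e000300008001400080000000000000000000000000000000) (nat_lit 0x0) (nat_lit 0x4000200010000000000000000000000000000000) := D_29 (nat_lit 141) (nat_lit 158) (nat_lit 124) (nat_lit 4) (nat_lit 6) (nat_lit 12) (nat_lit 4) (nat_lit 6) (nat_lit 11) (by decide +kernel)
theorem L86080 : W_29 (nat_lit 3) (nat_lit 0x14001e000300000001400080000000000000000000000000000000) (nat_lit 0x0) (nat_lit 0xc000200030000000000000000000000000000000) := T_29 (nat_lit 159) (nat_lit 125) (nat_lit 7) (nat_lit 6) (nat_lit 7) L86079 (by decide +kernel)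
theorem L86093 : W_29 (nat_lit 2) (nat_lit 0x6000f000380000001000080000000000000000000000000000000) (nat_lit 0x0) (nat_lit 0x8000400000000000000008000000000000000000000000000000000000000) := D_29 (nat_lit 226) (nat_lit 243) (nat_lit 159) (nat_lit 6) (nat_lit 5) (nat_lit 14) (nat_lit 6) (nat_lit 5) (nat_lit 13) (by decide +kernel)
theorem L86094 : W_29 (nat_lit 3) (nat_lit 0x4000f000380000001000080000000000000000000000000000000) (nat_lit 0x0) (nat_lit 0x8000400030000000000008000000000000000000000000000000000000000) := T_29 (nat_lit 209) (nat_lit 208) (nat_lit 1) (nat_lit 8) (nat_lit 11) L86093 (by decide +kernel)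
theorem L86220 : W_29 (nat_lit 2) (nat_lit 0x10000f000340000001000080000000000000000000000000000000) (nat_lit 0x0) (nat_lit 0xc00020000000000000000000000000000000000000000000) := D_29 (nat_lit 191) (nat_lit 190) (nat_lit 173) (nat_lit 2) (nat_lit 3) (nat_lit 11) (nat_lit 0) (nat_lit 7) (nat_lit 11) (by decide +kernel)
theorem L86221 : W_29 (nat_lit 3) (nat_lit 0x10000e000340000001000080000000000000000000000000000000) (nat_lit 0x0) (nat_lit 0x200001c00020000000000000000000000000000000000000000000) := T_29 (nat_lit 192) (nat_lit 213) (nat_lit 3) (nat_lit 5) (nat_lit 11) L86220 (by decide +kernel)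
theorem L86222 : W_29 (nat_lit 4) (nat_lit 0x10000e000300000001000080000000000000000000000000000000) (nat_lit 0x0) (nat_lit 0x200001c000e0000000000000000000000000000000000000000000) := T_29 (nat_lit 174) (nat_lit 175) (nat_lit 3) (nat_lit 4) (nat_lit 10) L86221 (by decide +kernel)
theorem L86223 : W_29 (nat_lit 2) (nat_lit 0x4000000010000f800300000001000080000000000000000000000000000000) (nat_lit 0x0) (nat_lit 0x38000000000000000000000000000000000000000000000000000) := D_29 (nat_lit 208) (nat_lit 209) (nat_lit 207) (nat_lit 1) (nat_lit 8) (nat_lit 11) (nat_lit 1) (nat_lit 7) (nat_lit 11) (by decide +kernel)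
theorem L86224 : W_29 (nat_lit 3) (nat_lit 0x4000000010000f000300000001000080000000000000000000000000000000) (nat_lit 0x0) (nat_lit 0x38000c00000000000000000000000000000000000000000000000) := T_29 (nat_lit 191) (nat_lit 190) (nat_lit 2) (nat_lit 3) (nat_lit 11) L86223 (by decide +kernel)
theorem L86225 : W_29 (nat_lit 4) (nat_lit 0x4000000010000e000300000001000080000000000000000000000000000000) (nat_lit 0x0) (nat_lit 0x238001c00000000000000000000000000000000000000000000000) := T_29 (nat_lit 192) (nat_lit 213) (nat_lit 3) (nat_lit 5) (nat_lit 11) L86224 (by decide +kernel)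
theorem L86226 : W_29 (nat_lit 5) (nat_lit 0x10000e000300000001000080000000000000000000000000000000) (nat_lit 0x0) (nat_lit 0x40002000238001c00000000000000000000000000000000000000000000000) := T_29 (nat_lit 246) (nat_lit 229) (nat_lit 4) (nat_lit 8) (nat_lit 14) L86225 (by decide +kernel)
theorem L86229 : W_29 (nat_lit 5) (nat_lit 0x10000c000340000001e00080000000000000000000000000000000) (nat_lit 0x0) (nat_lit 0x80000000700018000e000000000000000000000000000000) := T_29 (nat_lit 157) (nat_lit 158) (nat_lit 1) (nat_lit 8) (nat_lit 8) L86017 (by decide +kernel)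
theorem L86265 : W_29 (nat_lit 2) (nat_lit 0x2800c800340002001f000a0000000000000000000000000000000) (nat_lit 0x0) (nat_lit 0x500010000000000000000000000000000000000000000000000000000) := D_29 (nat_lit 208) (nat_lit 224) (nat_lit 226) (nat_lit 5) (nat_lit 4) (nat_lit 9) (nat_lit 7) (nat_lit 4) (nat_lit 9) (by decide +kernel)
theorem L86266 : W_29 (nat_lit 3) (nat_lit 0x800c800340002001f000a0000000000000000000000000000000) (nat_lit 0x0) (nat_lit 0x500030001000000000000000000000000000000000000000000000000) := T_29 (nat_lit 209) (nat_lit 192) (nat_lit 7) (nat_lit 4) (nat_lit 8) L86265 (by decide +kernel)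
theorem L86267 : W_29 (nat_lit 4) (nat_lit 0xc800340002001f000a0000000000000000000000000000000) (nat_lit 0x0) (nat_lit 0x500038001400000000000000000000000000000000000000000000000) := T_29 (nat_lit 207) (nat_lit 190) (nat_lit 5) (nat_lit 4) (nat_lit 8) L86266 (by decide +kernel)
theorem L86268 : W_29 (nat_lit 5) (nat_lit 0xc000340002001f000a0000000000000000000000000000000) (nat_lit 0x0) (nat_lit 0x500038001c00000000000000010000000000000000000000000000000) := T_29 (nat_lit 191) (nat_lit 124) (nat_lit 6) (nat_lit 4) (nat_lit 11) L86267 (by decide +kernel)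
theorem L86269 : W_29 (nat_lit 6) (nat_lit 0xc000300002001f000a0000000000000000000000000000000) (nat_lit 0x0) (nat_lit 0x500038001c000c0000000000010000000000000000000000000000000) := T_29 (nat_lit 174) (nat_lit 175) (nat_lit 3) (nat_lit 4) (nat_lit 10) L86268 (by decide +kernel)
theorem L86270 : W_29 (nat_lit 7) (nat_lit 0xc000300002001f00080000000000000000000000000000000) (nat_lit 0x0) (nat_lit 0x500038001c000c0008000000030000000000000000000000000000000) := T_29 (nat_lit 125) (nat_lit 159) (nat_lit 7) (nat_lit 6) (nat_lit 7) L86269 (by decide +kernel)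
theorem L86271 : W_29 (nat_lit 8) (nat_lit 0xc000300000001f00080000000000000000000000000000000) (nat_lit 0x0) (nat_lit 0x500038001c000c000b000000030000000000000000000000000000000) := T_29 (nat_lit 157) (nat_lit 156) (nat_lit 1) (nat_lit 7) (nat_lit 8) L86270 (by decide +kernel)
theorem L86272 : W_29 (nat_lit 3) (nat_lit 0xc000340000001f00084000000000000000000000000000000) (nat_lit 0x0) (nat_lit 0x800000003000080002000000000000000000000000000000) := T_29 (nat_lit 157) (nat_lit 156) (nat_lit 1) (nat_lit 7) (nat_lit 8) L86018 (by decide +kernel)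
theorem L86273 : W_29 (nat_lit 4) (nat_lit 0xc000340000001f00080000000000000000000000000000000) (nat_lit 0x0) (nat_lit 0x80000000300008000e000000000000000000000000000000) := T_29 (nat_lit 122) (nat_lit 123) (nat_lit 0) (nat_lit 7) (nat_lit 8) L86272 (by decide +kernel)
theorem L86274 : W_29 (nat_lit 5) (nat_lit 0xc000300000001f00080000000000000000000000000000000) (nat_lit 0x0) (nat_lit 0x8000c000300008000e000000000000000000000000000000) := T_29 (nat_lit 174) (nat_lit 175) (nat_lit 3) (nat_lit 4) (nat_lit 10) L86273 (by decide +kernel)
theorem L86275 : W_29 (nat_lit 9) (nat_lit 0xc000300000001e00080000000000000000000000000000000) (nat_lit 0x0) (nat_lit 0x500038001c000c000b00018003e000000000000000000000000000000) := Q_29 (nat_lit 140) (C_29 L82549 (C_29 L86271 (C_29 L86274 N_29))) (by decide +kernel)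
theorem L86303 : W_29 (nat_lit 2) (nat_lit 0x6000780000001000080000000000000000000000000000000) (nat_lit 0x0) (nat_lit 0x1001800000000000000000000000000000000000000000000) := D_29 (nat_lit 179) (nat_lit 180) (nat_lit 192) (nat_lit 1) (nat_lit 10) (nat_lit 10) (nat_lit 1) (nat_lit 9) (nat_lit 10) (by decide +kernel)
theorem L86324 : W_29 (nat_lit 2) (nat_lit 0xc00078000c001400080000000000000000000000000000000) (nat_lit 0x0) (nat_lit 0x20001800000000000000000000000000000000000000000000000) := D_29 (nat_lit 192) (nat_lit 191) (nat_lit 209) (nat_lit 1) (nat_lit 8) (nat_lit 10) (nat_lit 6) (nat_lit 5) (nat_lit 12) (by decide +kernel)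
theorem L86325 : W_29 (nat_lit 3) (nat_lit 0xc00078000c001000080000000000000000000000000000000) (nat_lit 0x0) (nat_lit 0x20001800000000000400020000000000000000000000000000000) := T_29 (nat_lit 142) (nat_lit 125) (nat_lit 7) (nat_lit 6) (nat_lit 7) L86324 (by decide +kernel)
theorem L86326 : W_29 (nat_lit 4) (nat_lit 0xc00038000c001000080000000000000000000000000000000) (nat_lit 0x0) (nat_lit 0x20001800c00000000400020000000000000000000000000000000) := T_29 (nat_lit 178) (nat_lit 179) (nat_lit 0) (nat_lit 9) (nat_lit 10) L86325 (by decide +kernel)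
theorem L86327 : W_29 (nat_lit 5) (nat_lit 0xc00030000c001000080000000000000000000000000000000) (nat_lit 0x0) (nat_lit 0x20001800cc0000000400020000000000000000000000000000000) := T_29 (nat_lit 175) (nat_lit 174) (nat_lit 3) (nat_lit 4) (nat_lit 10) L86326 (by decide +kernel)
theorem L86328 : W_29 (nat_lit 13) (nat_lit 0xc000300008001000080000000000000000000000000000000) (nat_lit 0x0) (nat_lit 0x600030001e00cf80178007c003c001e00030000000000000000000000) := Q_29 (nat_lit 158) (C_29 L86011 (C_29 L85587 (C_29 L83861 (C_29 L86327 N_29)))) (by decide +kernel)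
theorem L86394 : W_29 (nat_lit 4) (nat_lit 0xc000300000001e000a0000000000000000000000000000000) (nat_lit 0x0) (nat_lit 0x700010001c000000000000000000000000000000) := T_29 (nat_lit 157) (nat_lit 158) (nat_lit 1) (nat_lit 8) (nat_lit 8) L86009 (by decide +kernel)
theorem L86395 : W_29 (nat_lit 5) (nat_lit 0xc000300000001c000a0000000000000000000000000000000) (nat_lit 0x0) (nat_lit 0x700030011c000000000000000000000000000000) := T_29 (nat_lit 141) (nat_lit 128) (nat_lit 2) (nat_lit 5) (nat_lit 8) L86394 (by decide +kernel)
theorem L86396 : W_29 (nat_lit 6) (nat_lit 0xc0003000000014000a0000000000000000000000000000000) (nat_lit 0x0) (nat_lit 0x17000b0011c000000000000000000000000000000) := T_29 (nat_lit 143) (nat_lit 160) (nat_lit 6) (nat_lit 7) (nat_lit 11) L86395 (by decide +kernel)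
theorem L86397 : W_29 (nat_lit 7) (nat_lit 0xc000300000001400080000000000000000000000000000000) (nat_lit 0x0) (nat_lit 0x1f000b0013c000000000000000000000000000000) := T_29 (nat_lit 125) (nat_lit 159) (nat_lit 7) (nat_lit 6) (nat_lit 7) L86396 (by decide +kernel)
theorem L86398 : W_29 (nat_lit 10) (nat_lit 0xc000300000001600080000000000000000000000000000000) (nat_lit 0x0) (nat_lit 0x500038001c000c000b00098013e000000000000000000000000000000) := T_29 (nat_lit 143) (nat_lit 128) (nat_lit 2) (nat_lit 5) (nat_lit 8) L86275 (by decide +kernel)
theorem L86399 : W_29 (nat_lit 11) (nat_lit 0xc000300000001400080000000000000000000000000000000) (nat_lit 0x0) (nat_lit 0x500038001c000c000f000b8013e001800080000000000000000000000) := Q_29 (nat_lit 141) (C_29 L82553 (C_29 L82540 (C_29 L15771 (C_29 L86398 (C_29 L82533 N_29))))) (by decide +kernel)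
theorem L86408 : W_29 (nat_lit 2) (nat_lit 0xc000340008001e00090000000000000000000000000000000) (nat_lit 0x0) (nat_lit 0x4000000000000800040000000000000000000000) := D_29 (nat_lit 107) (nat_lit 90) (nat_lit 158) (nat_lit 7) (nat_lit 5) (nat_lit 5) (nat_lit 7) (nat_lit 5) (nat_lit 6) (by decide +kernel)
theorem L86409 : W_29 (nat_lit 3) (nat_lit 0xc000340008001e00080000000000000000000000000000000) (nat_lit 0x0) (nat_lit 0x4000000018000800040000000000000000000000) := T_29 (nat_lit 124) (nat_lit 123) (nat_lit 0) (nat_lit 8) (nat_lit 8) L86408 (by decide +kernel)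
theorem L86410 : W_29 (nat_lit 4) (nat_lit 0xc000340008001c00080000000000000000000000000000000) (nat_lit 0x0) (nat_lit 0x4000200118000800040000000000000000000000) := T_29 (nat_lit 141) (nat_lit 128) (nat_lit 2) (nat_lit 5) (nat_lit 8) L86409 (by decide +kernel)
theorem L86411 : W_29 (nat_lit 5) (nat_lit 0xc000340008001400080000000000000000000000000000000) (nat_lit 0x0) (nat_lit 0x14000a00118000800040000000000000000000000) := T_29 (nat_lit 143) (nat_lit 160) (nat_lit 6) (nat_lit 7) (nat_lit 11) L86410 (by decide +kernel)
theorem L86412 : W_29 (nat_lit 6) (nat_lit 0xc000340000001400080000000000000000000000000000000) (nat_lit 0x0) (nat_lit 0x1c000a00138000800040000000000000000000000) := T_29 (nat_lit 159) (nat_lit 125) (nat_lit 7) (nat_lit 6) (nat_lit 7) L86411 (by decide +kernel)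
theorem L86413 : W_29 (nat_lit 7) (nat_lit 0xc000300000001400080000000000000000000000000000000) (nat_lit 0x0) (nat_lit 0xc001c000a00138000800040000000000000000000000) := T_29 (nat_lit 174) (nat_lit 175) (nat_lit 3) (nat_lit 4) (nat_lit 10) L86412 (by decide +kernel)
theorem L86421 : W_29 (nat_lit 6) (nat_lit 0x10000e000300000001400080000000000000000000000000000000) (nat_lit 0x0) (nat_lit 0x17000b0011c000000000000000000000000000000) := T_29 (nat_lit 143) (nat_lit 160) (nat_lit 7) (nat_lit 7) (nat_lit 8) L86072 (by decide +kernel)
theorem L86423 : W_29 (nat_lit 4) (nat_lit 0xe000300000001e00080000000000000000000000000000000) (nat_lit 0x0) (nat_lit 0x700010001c000000000000000000000000000000) := T_29 (nat_lit 157) (nat_lit 158) (nat_lit 1) (nat_lit 8) (nat_lit 8) L86023 (by decide +kernel)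
theorem L86424 : W_29 (nat_lit 5) (nat_lit 0xe000300000001c00080000000000000000000000000000000) (nat_lit 0x0) (nat_lit 0x700030011c000000000000000000000000000000) := T_29 (nat_lit 141) (nat_lit 128) (nat_lit 2) (nat_lit 5) (nat_lit 8) L86423 (by decide +kernel)
theorem L86428 : W_29 (nat_lit 2) (nat_lit 0x10000f000300008001000080000000000000000000000000000000) (nat_lit 0x0) (nat_lit 0x20000000000000000400020000000000000000000000000000000) := D_29 (nat_lit 142) (nat_lit 125) (nat_lit 209) (nat_lit 7) (nat_lit 6) (nat_lit 7) (nat_lit 5) (nat_lit 6) (nat_lit 8) (by decide +kernel)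
theorem L86444 : W_29 (nat_lit 4) (nat_lit 0x6000300008001400080000000000000000000000000000000) (nat_lit 0x0) (nat_lit 0x10000800040000000000014000200010000000000000000000000000000000) := T_29 (nat_lit 141) (nat_lit 124) (nat_lit 4) (nat_lit 6) (nat_lit 11) L86443 (by decide +kernel)
theorem L86445 : W_29 (nat_lit 5) (nat_lit 0x6000300008001000080000000000000000000000000000000) (nat_lit 0x0) (nat_lit 0x10000800040000000000014000600030000000000000000000000000000000) := T_29 (nat_lit 142) (nat_lit 125) (nat_lit 7) (nat_lit 6) (nat_lit 7) L86444 (by decide +kernel)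
theorem L86473 : W_29 (nat_lit 2) (nat_lit 0x21001f801240010001000080000000000000000000000000000000) (nat_lit 0x0) (nat_lit 0x20002100000000000000000000000000000000000000000000) := D_29 (nat_lit 197) (nat_lit 176) (nat_lit 181) (nat_lit 0) (nat_lit 10) (nat_lit 11) (nat_lit 2) (nat_lit 7) (nat_lit 11) (by decide +kernel)
theorem L86474 : W_29 (nat_lit 3) (nat_lit 0x21001f800240010001000080000000000000000000000000000000) (nat_lit 0x0) (nat_lit 0x20003900000000000000000000000000000000000000000000) := T_29 (nat_lit 180) (nat_lit 179) (nat_lit 2) (nat_lit 6) (nat_lit 11) L86473 (by decide +kernel)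
theorem L86475 : W_29 (nat_lit 4) (nat_lit 0x21000f800240010001000080000000000000000000000000000000) (nat_lit 0x0) (nat_lit 0x400030003900000000000000000000000000000000000000000000) := T_29 (nat_lit 196) (nat_lit 214) (nat_lit 3) (nat_lit 6) (nat_lit 11) L86474 (by decide +kernel)
theorem L86476 : W_29 (nat_lit 5) (nat_lit 0x1000f800240010001000080000000000000000000000000000000) (nat_lit 0x0) (nat_lit 0x700030003900000000000000000000000000000000000000000000) := T_29 (nat_lit 213) (nat_lit 212) (nat_lit 3) (nat_lit 5) (nat_lit 11) L86475 (by decide +kernel)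
theorem L86482 : W_29 (nat_lit 6) (nat_lit 0x1000f800240000001000080000000000000000000000000000000) (nat_lit 0x0) (nat_lit 0x700030003900010000800000000000000000000000000000000000) := T_29 (nat_lit 160) (nat_lit 143) (nat_lit 6) (nat_lit 7) (nat_lit 11) L86476 (by decide +kernel)
theorem L86483 : W_29 (nat_lit 7) (nat_lit 0x10007800240000001000080000000000000000000000000000000) (nat_lit 0x0) (nat_lit 0x700038003980010000800000000000000000000000000000000000) := T_29 (nat_lit 195) (nat_lit 175) (nat_lit 0) (nat_lit 8) (nat_lit 11) L86482 (by decide +kernel)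
theorem L86484 : W_29 (nat_lit 8) (nat_lit 0x7800240000001000080000000000000000000000000000000) (nat_lit 0x0) (nat_lit 0x718038003980010000800000000000000000000000000000000000) := T_29 (nat_lit 208) (nat_lit 207) (nat_lit 1) (nat_lit 7) (nat_lit 11) L86483 (by decide +kernel)
theorem L86485 : W_29 (nat_lit 9) (nat_lit 0x7800200000001000080000000000000000000000000000000) (nat_lit 0x0) (nat_lit 0x7180380039e0010000800000000000000000000000000000000000) := T_29 (nat_lit 174) (nat_lit 173) (nat_lit 0) (nat_lit 7) (nat_lit 11) L86484 (by decide +kernel)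
theorem L86486 : W_29 (nat_lit 10) (nat_lit 0x7000200000001000080000000000000000000000000000000) (nat_lit 0x0) (nat_lit 0x71c038c039f0010000800000000000000000000000000000000000) := Q_29 (nat_lit 191) (C_29 L24839 (C_29 L10036 (C_29 L10040 (C_29 L86485 N_29)))) (by decide +kernel)
theorem L86499 : W_29 (nat_lit 2) (nat_lit 0x40001f001280010001000080000000000000000000000000000000) (nat_lit 0x0) (nat_lit 0x800020002000000000000000000000000000000000000000000000) := D_29 (nat_lit 197) (nat_lit 215) (nat_lit 181) (nat_lit 3) (nat_lit 7) (nat_lit 11) (nat_lit 2) (nat_lit 7) (nat_lit 11) (by decide +kernel)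
theorem L86500 : W_29 (nat_lit 3) (nat_lit 0x40001f000280010001000080000000000000000000000000000000) (nat_lit 0x0) (nat_lit 0x800020003800000000000000000000000000000000000000000000) := T_29 (nat_lit 180) (nat_lit 179) (nat_lit 2) (nat_lit 6) (nat_lit 11) L86499 (by decide +kernel)
theorem L86501 : W_29 (nat_lit 4) (nat_lit 0x1f000280010001000080000000000000000000000000000000) (nat_lit 0x0) (nat_lit 0xe00020003800000000000000000000000000000000000000000000) := T_29 (nat_lit 214) (nat_lit 213) (nat_lit 3) (nat_lit 6) (nat_lit 11) L86500 (by decide +kernel)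
theorem L86502 : W_29 (nat_lit 5) (nat_lit 0xf000280010001000080000000000000000000000000000000) (nat_lit 0x0) (nat_lit 0xe00030003900000000000000000000000000000000000000000000) := T_29 (nat_lit 196) (nat_lit 176) (nat_lit 0) (nat_lit 9) (nat_lit 11) L86501 (by decide +kernel)
theorem L86503 : W_29 (nat_lit 6) (nat_lit 0xf000280000001000080000000000000000000000000000000) (nat_lit 0x0) (nat_lit 0xe00030003900010000800000000000000000000000000000000000) := T_29 (nat_lit 160) (nat_lit 143) (nat_lit 6) (nat_lit 7) (nat_lit 11) L86502 (by decide +kernel)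
theorem L86504 : W_29 (nat_lit 7) (nat_lit 0xf000200000001000080000000000000000000000000000000) (nat_lit 0x0) (nat_lit 0xe000300039c0010000800000000000000000000000000000000000) := T_29 (nat_lit 175) (nat_lit 174) (nat_lit 0) (nat_lit 8) (nat_lit 11) L86503 (by decide +kernel)
theorem L86515 : W_29 (nat_lit 2) (nat_lit 0x7000680070002d0000001000080000000000000000000000000000000) (nat_lit 0x0) (nat_lit 0x10000800004000000000000000000000000000000000000000000000000000) := D_29 (nat_lit 227) (nat_lit 244) (nat_lit 206) (nat_lit 7) (nat_lit 5) (nat_lit 10) (nat_lit 0) (nat_lit 6) (nat_lit 13) (by decide +kernel)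
theorem L86516 : W_29 (nat_lit 3) (nat_lit 0x6000680070002d0000001000080000000000000000000000000000000) (nat_lit 0x0) (nat_lit 0x10000980004000000000000000000000000000000000000000000000000000) := T_29 (nat_lit 224) (nat_lit 223) (nat_lit 2) (nat_lit 2) (nat_lit 13) L86515 (by decide +kernel)
theorem L86517 : W_29 (nat_lit 4) (nat_lit 0x4000680070002d0000001000080000000000000000000000000000000) (nat_lit 0x0) (nat_lit 0x14000b80004000000000000000000000000000000000000000000000000000) := T_29 (nat_lit 225) (nat_lit 242) (nat_lit 5) (nat_lit 5) (nat_lit 10) L86516 (by decide +kernel)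
theorem L86518 : W_29 (nat_lit 5) (nat_lit 0x4000680070002c0000001000080000000000000000000000000000000) (nat_lit 0x0) (nat_lit 0x14000b80004000000030000000000000000000000000000000000000000000) := T_29 (nat_lit 172) (nat_lit 173) (nat_lit 3) (nat_lit 2) (nat_lit 10) L86517 (by decide +kernel)
theorem L86519 : W_29 (nat_lit 6) (nat_lit 0x400068007000280000001000080000000000000000000000000000000) (nat_lit 0x0) (nat_lit 0x14000b80004000000070002000000000000000000000000000000000000000) := T_29 (nat_lit 174) (nat_lit 157) (nat_lit 4) (nat_lit 5) (nat_lit 13) L86518 (by decide +kernel)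
theorem L86520 : W_29 (nat_lit 7) (nat_lit 0x400060007000280000001000080000000000000000000000000000000) (nat_lit 0x0) (nat_lit 0x14000b8001c000000070002000000000000000000000000000000000000000) := T_29 (nat_lit 207) (nat_lit 208) (nat_lit 2) (nat_lit 3) (nat_lit 12) L86519 (by decide +kernel)
theorem L86521 : W_29 (nat_lit 8) (nat_lit 0x60007000280000001000080000000000000000000000000000000) (nat_lit 0x0) (nat_lit 0x38001c000f8001c000000070002000000000000000000000000000000000000000) := Q_29 (nat_lit 226) (C_29 L79649 (C_29 L79654 (C_29 L86520 N_29))) (by decide +kernel)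
theorem L86522 : W_29 (nat_lit 2) (nat_lit 0x4000600060007000200000001000080000000000000000000000000000000) (nat_lit 0x0) (nat_lit 0x80000000000018000000000000000000000000000000000000000000000000000) := D_29 (nat_lit 208) (nat_lit 207) (nat_lit 259) (nat_lit 2) (nat_lit 3) (nat_lit 12) (nat_lit 6) (nat_lit 4) (nat_lit 15) (by decide +kernel)
theorem L86523 : W_29 (nat_lit 3) (nat_lit 0x600060007000200000001000080000000000000000000000000000000) (nat_lit 0x0) (nat_lit 0x80004000000018000000080000000000000000000000000000000000000000000) := T_29 (nat_lit 242) (nat_lit 175) (nat_lit 5) (nat_lit 5) (nat_lit 10) L86522 (by decide +kernel)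
theorem L86524 : W_29 (nat_lit 2) (nat_lit 0x14000680060007000200000001000080000000000000000000000000000000) (nat_lit 0x0) (nat_lit 0x1000080000000000010000000000000000000000000000000000000000000000000000) := D_29 (nat_lit 259) (nat_lit 208) (nat_lit 276) (nat_lit 6) (nat_lit 4) (nat_lit 15) (nat_lit 6) (nat_lit 4) (nat_lit 16) (by decide +kernel)
theorem L86525 : W_29 (nat_lit 3) (nat_lit 0x10000680060007000200000001000080000000000000000000000000000000) (nat_lit 0x0) (nat_lit 0x1000080004000000010000000080000000000000000000000000000000000000000000) := T_29 (nat_lit 242) (nat_lit 175) (nat_lit 5) (nat_lit 5) (nat_lit 10) L86524 (by decide +kernel)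
theorem L86526 : W_29 (nat_lit 4) (nat_lit 0x680060007000200000001000080000000000000000000000000000000) (nat_lit 0x0) (nat_lit 0x1000080014000800010000000080000000000000000000000000000000000000000000) := T_29 (nat_lit 244) (nat_lit 227) (nat_lit 6) (nat_lit 6) (nat_lit 14) L86525 (by decide +kernel)
theorem L86527 : W_29 (nat_lit 5) (nat_lit 0x600060007000200000001000080000000000000000000000000000000) (nat_lit 0x0) (nat_lit 0x1000080014000980010000000080000000000000000000000000000000000000000000) := T_29 (nat_lit 223) (nat_lit 224) (nat_lit 2) (nat_lit 2) (nat_lit 13) L86526 (by decide +kernel)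
theorem L86528 : W_29 (nat_lit 2) (nat_lit 0xe00068007000200010001000080000000000000000000000000000000) (nat_lit 0x0) (nat_lit 0x180004000000000000000000000000000000000000000000000000000) := D_29 (nat_lit 224) (nat_lit 206) (nat_lit 223) (nat_lit 0) (nat_lit 6) (nat_lit 13) (nat_lit 2) (nat_lit 2) (nat_lit 13) (by decide +kernel)
theorem L86529 : W_29 (nat_lit 3) (nat_lit 0xe00060007000200010001000080000000000000000000000000000000) (nat_lit 0x0) (nat_lit 0x18001c000000000000000000000000000000000000000000000000000) := T_29 (nat_lit 207) (nat_lit 208) (nat_lit 2) (nat_lit 3) (nat_lit 12) L86528 (by decide +kernel)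
theorem L86530 : W_29 (nat_lit 4) (nat_lit 0x600060007000200010001000080000000000000000000000000000000) (nat_lit 0x0) (nat_lit 0x1000098001c000000000000000000000000000000000000000000000000000) := T_29 (nat_lit 227) (nat_lit 244) (nat_lit 6) (nat_lit 6) (nat_lit 14) L86529 (by decide +kernel)
theorem L86531 : W_29 (nat_lit 5) (nat_lit 0x600060007000200000001000080000000000000000000000000000000) (nat_lit 0x0) (nat_lit 0x1000098001c000000000010000800000000000000000000000000000000000) := T_29 (nat_lit 160) (nat_lit 143) (nat_lit 6) (nat_lit 7) (nat_lit 11) L86530 (by decide +kernel)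
theorem L86532 : W_29 (nat_lit 10) (nat_lit 0x400060007000200000001000080000000000000000000000000000000) (nat_lit 0x0) (nat_lit 0x10000800f7007b8001c000000080010000800000000000000000000000000000000000) := Q_29 (nat_lit 225) (C_29 L86523 (C_29 L84614 (C_29 L86527 (C_29 L86531 N_29)))) (by decide +kernel)
theorem L86533 : W_29 (nat_lit 9) (nat_lit 0x60007000200000001000080000000000000000000000000000000) (nat_lit 0x0) (nat_lit 0x38001c000f8001c0000000f0006000200000000000000000000000000000000000) := Q_29 (nat_lit 175) (C_29 L79706 (C_29 L86521 (C_29 L84563 N_29))) (by decide +kernel)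
theorem L86534 : W_29 (nat_lit 2) (nat_lit 0xc000f00068007000200000001800080000000000000000000000000000000) (nat_lit 0x0) (nat_lit 0x3001000000000000000000000000000000000000000000000000000000000) := D_29 (nat_lit 241) (nat_lit 240) (nat_lit 228) (nat_lit 2) (nat_lit 2) (nat_lit 14) (nat_lit 1) (nat_lit 7) (nat_lit 13) (by decide +kernel)
theorem L86535 : W_29 (nat_lit 3) (nat_lit 0xc000700068007000200000001800080000000000000000000000000000000) (nat_lit 0x0) (nat_lit 0x3001800004000000000000000000000000000000000000000000000000000) := T_29 (nat_lit 227) (nat_lit 206) (nat_lit 0) (nat_lit 6) (nat_lit 13) L86534 (by decide +kernel)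
theorem L86536 : W_29 (nat_lit 4) (nat_lit 0xc000600068007000200000001800080000000000000000000000000000000) (nat_lit 0x0) (nat_lit 0x3001980004000000000000000000000000000000000000000000000000000) := T_29 (nat_lit 224) (nat_lit 223) (nat_lit 2) (nat_lit 2) (nat_lit 13) L86535 (by decide +kernel)
theorem L86537 : W_29 (nat_lit 5) (nat_lit 0xc000600060007000200000001800080000000000000000000000000000000) (nat_lit 0x0) (nat_lit 0x300198001c000000000000000000000000000000000000000000000000000) := T_29 (nat_lit 207) (nat_lit 208) (nat_lit 2) (nat_lit 3) (nat_lit 12) L86536 (by decide +kernel)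
theorem L86538 : W_29 (nat_lit 6) (nat_lit 0xc000400060007000200000001800080000000000000000000000000000000) (nat_lit 0x0) (nat_lit 0x3001b8001c000000080000000000000000000000000000000000000000000) := T_29 (nat_lit 225) (nat_lit 175) (nat_lit 5) (nat_lit 5) (nat_lit 10) L86537 (by decide +kernel)
theorem L86539 : W_29 (nat_lit 7) (nat_lit 0x8000400060007000200000001800080000000000000000000000000000000) (nat_lit 0x0) (nat_lit 0x80007001b8001c000000080000000000000000000000000000000000000000000) := T_29 (nat_lit 242) (nat_lit 259) (nat_lit 5) (nat_lit 5) (nat_lit 11) L86538 (by decide +kernel)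
theorem L86540 : W_29 (nat_lit 8) (nat_lit 0x8000400060007000200000001000080000000000000000000000000000000) (nat_lit 0x0) (nat_lit 0x80007001b8001c000000080010000800000000000000000000000000000000000) := T_29 (nat_lit 143) (nat_lit 160) (nat_lit 6) (nat_lit 7) (nat_lit 11) L86539 (by decide +kernel)
theorem L86541 : W_29 (nat_lit 9) (nat_lit 0x400060007000200000001000080000000000000000000000000000000) (nat_lit 0x0) (nat_lit 0x18000f001b8001c000000080010000800000000000000000000000000000000000) := T_29 (nat_lit 243) (nat_lit 260) (nat_lit 6) (nat_lit 5) (nat_lit 15) L86540 (by decide +kernel)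
theorem L86542 : W_29 (nat_lit 11) (nat_lit 0x60007000200000001000080000000000000000000000000000000) (nat_lit 0x0) (nat_lit 0x10003800ff007f8001c000000080010000800000000000000000000000000000000000) := Q_29 (nat_lit 226) (C_29 L79781 (C_29 L86532 (C_29 L84606 (C_29 L86541 N_29)))) (by decide +kernel)
theorem L86543 : W_29 (nat_lit 4) (nat_lit 0x68007000300018001000080000000000000000000000000000000) (nat_lit 0x0) (nat_lit 0x80007000380000000000000000000000000000000000) := T_29 (nat_lit 158) (nat_lit 141) (nat_lit 4) (nat_lit 6) (nat_lit 12) L85188 (by decide +kernel)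
theorem L86544 : W_29 (nat_lit 5) (nat_lit 0x60007000300018001000080000000000000000000000000000000) (nat_lit 0x0) (nat_lit 0x18000000080007000380000000000000000000000000000000000) := T_29 (nat_lit 207) (nat_lit 208) (nat_lit 2) (nat_lit 3) (nat_lit 12) L86543 (by decide +kernel)
theorem L86545 : W_29 (nat_lit 6) (nat_lit 0x40007000300018001000080000000000000000000000000000000) (nat_lit 0x0) (nat_lit 0x400038000000080007000380000000000000000000000000000000000) := T_29 (nat_lit 209) (nat_lit 226) (nat_lit 5) (nat_lit 6) (nat_lit 9) L86544 (by decide +kernel)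
theorem L86989 : W_29 (nat_lit 2) (nat_lit 0x7000600010001000080000000000000000000000000000000) (nat_lit 0x0) (nat_lit 0x1900000000000000000000000000000000000000000000) := D_29 (nat_lit 179) (nat_lit 180) (nat_lit 176) (nat_lit 1) (nat_lit 10) (nat_lit 10) (nat_lit 1) (nat_lit 9) (nat_lit 10) (by decide +kernel)
theorem L86990 : W_29 (nat_lit 3) (nat_lit 0x7000200010001000080000000000000000000000000000000) (nat_lit 0x0) (nat_lit 0x801d00000000000000000000000000000000000000000000) := T_29 (nat_lit 178) (nat_lit 191) (nat_lit 2) (nat_lit 4) (nat_lit 11) L86989 (by decide +kernel)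
theorem L86991 : W_29 (nat_lit 4) (nat_lit 0x7000200000001000080000000000000000000000000000000) (nat_lit 0x0) (nat_lit 0x801d00010000800000000000000000000000000000000000) := T_29 (nat_lit 160) (nat_lit 143) (nat_lit 6) (nat_lit 7) (nat_lit 11) L86990 (by decide +kernel)
theorem L86995 : W_29 (nat_lit 2) (nat_lit 0x10000c000200010001000080000000000000000000000000000000) (nat_lit 0x0) (nat_lit 0x40002000080000000000000000000000000000000000000000000000000000) := D_29 (nat_lit 229) (nat_lit 246) (nat_lit 211) (nat_lit 4) (nat_lit 8) (nat_lit 14) (nat_lit 7) (nat_lit 7) (nat_lit 9) (by decide +kernel)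
theorem L86996 : W_29 (nat_lit 3) (nat_lit 0x10000c000200000001000080000000000000000000000000000000) (nat_lit 0x0) (nat_lit 0x40002000080000000000010000800000000000000000000000000000000000) := T_29 (nat_lit 160) (nat_lit 143) (nat_lit 7) (nat_lit 7) (nat_lit 8) L86995 (by decide +kernel)
theorem L86997 : W_29 (nat_lit 7) (nat_lit 0x10000c000200000001000080000000000000000000000000000000) (nat_lit 0x0) (nat_lit 0xe0007000000003001c00050000000000000000000000000000000000000000) := T_29 (nat_lit 229) (nat_lit 246) (nat_lit 4) (nat_lit 8) (nat_lit 14) L85952 (by decide +kernel)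
theorem L86998 : W_29 (nat_lit 5) (nat_lit 0x4000000010001c000200000001000080000000000000000000000000000000) (nat_lit 0x0) (nat_lit 0x1c00060007100000000000000000000000000000000000000000000) := T_29 (nat_lit 197) (nat_lit 176) (nat_lit 0) (nat_lit 10) (nat_lit 11) L85829 (by decide +kernel)
theorem L86999 : W_29 (nat_lit 6) (nat_lit 0x10001c000200000001000080000000000000000000000000000000) (nat_lit 0x0) (nat_lit 0x40002001c00060007100000000000000000000000000000000000000000000) := T_29 (nat_lit 246) (nat_lit 229) (nat_lit 4) (nat_lit 8) (nat_lit 14) L86998 (by decide +kernel)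
theorem L87000 : W_29 (nat_lit 2) (nat_lit 0x10003c000200000001000080000000000000000000000000000000) (nat_lit 0x0) (nat_lit 0x80040000400000000000000000000000000000000000000000000) := D_29 (nat_lit 198) (nat_lit 178) (nat_lit 211) (nat_lit 0) (nat_lit 11) (nat_lit 11) (nat_lit 1) (nat_lit 11) (nat_lit 11) (by decide +kernel)
theorem L87001 : W_29 (nat_lit 3) (nat_lit 0x10001c000200000001000080000000000000000000000000000000) (nat_lit 0x0) (nat_lit 0x80060000500000000000000000000000000000000000000000000) := T_29 (nat_lit 197) (nat_lit 176) (nat_lit 0) (nat_lit 10) (nat_lit 11) L87000 (by decide +kernel)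
theorem L87008 : W_29 (nat_lit 2) (nat_lit 0x10000c000200010001000080000000000000000000000000000000) (nat_lit 0x0) (nat_lit 0x2000080000000400000000000000000000000000000000000000000000) := D_29 (nat_lit 229) (nat_lit 178) (nat_lit 211) (nat_lit 4) (nat_lit 8) (nat_lit 13) (nat_lit 7) (nat_lit 7) (nat_lit 9) (by decide +kernel)
theorem L87009 : W_29 (nat_lit 3) (nat_lit 0x10000c000200000001000080000000000000000000000000000000) (nat_lit 0x0) (nat_lit 0x2000080000000400010000800000000000000000000000000000000000) := T_29 (nat_lit 160) (nat_lit 143) (nat_lit 7) (nat_lit 7) (nat_lit 8) L87008 (by decide +kernel)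
theorem L87010 : W_29 (nat_lit 4) (nat_lit 0x10000e000200000001000080000000000000000000000000000000) (nat_lit 0x0) (nat_lit 0xe00011000000010000800000000000000000000000000000000000) := T_29 (nat_lit 160) (nat_lit 143) (nat_lit 7) (nat_lit 7) (nat_lit 8) L85837 (by decide +kernel)
theorem L87012 : W_29 (nat_lit 2) (nat_lit 0x10001e000200000001000080000000000000000000000000000000) (nat_lit 0x0) (nat_lit 0x20000180000000000000000000000000000000000000000000) := D_29 (nat_lit 176) (nat_lit 197) (nat_lit 175) (nat_lit 0) (nat_lit 10) (nat_lit 11) (nat_lit 0) (nat_lit 9) (nat_lit 11) (by decide +kernel)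
theorem L87013 : W_29 (nat_lit 2) (nat_lit 0x18001e000300000001800080000000000000000000000000000000) (nat_lit 0x0) (nat_lit 0x1000000000000000008000400000000000000000000000000000000000) := D_29 (nat_lit 159) (nat_lit 142) (nat_lit 228) (nat_lit 7) (nat_lit 6) (nat_lit 8) (nat_lit 4) (nat_lit 7) (nat_lit 13) (by decide +kernel)
theorem L87014 : W_29 (nat_lit 3) (nat_lit 0x18001e000200000001800080000000000000000000000000000000) (nat_lit 0x0) (nat_lit 0x1000000000000180008000400000000000000000000000000000000000) := T_29 (nat_lit 176) (nat_lit 175) (nat_lit 0) (nat_lit 9) (nat_lit 11) L87013 (by decide +kernel)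
theorem L87015 : W_29 (nat_lit 4) (nat_lit 0x18001e000200000001000080000000000000000000000000000000) (nat_lit 0x0) (nat_lit 0x1000000000000180018000c00000000000000000000000000000000000) := T_29 (nat_lit 143) (nat_lit 160) (nat_lit 7) (nat_lit 7) (nat_lit 8) L87014 (by decide +kernel)
theorem L87016 : W_29 (nat_lit 2) (nat_lit 0x18001e000b00000001000080000000000000000000000000000000) (nat_lit 0x0) (nat_lit 0x1000000000000000008000400000000000000000000000000000000000) := D_29 (nat_lit 159) (nat_lit 142) (nat_lit 228) (nat_lit 7) (nat_lit 6) (nat_lit 8) (nat_lit 4) (nat_lit 7) (nat_lit 13) (by decide +kernel)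
theorem L87017 : W_29 (nat_lit 3) (nat_lit 0x18001e000a00000001000080000000000000000000000000000000) (nat_lit 0x0) (nat_lit 0x1000000000000180008000400000000000000000000000000000000000) := T_29 (nat_lit 176) (nat_lit 175) (nat_lit 0) (nat_lit 9) (nat_lit 11) L87016 (by decide +kernel)
theorem L87018 : W_29 (nat_lit 4) (nat_lit 0x18001e000200000001000080000000000000000000000000000000) (nat_lit 0x0) (nat_lit 0x1000000000001980008000400000000000000000000000000000000000) := T_29 (nat_lit 179) (nat_lit 180) (nat_lit 2) (nat_lit 6) (nat_lit 11) L87017 (by decide +kernel)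
theorem L87019 : W_29 (nat_lit 2) (nat_lit 0x10000e000300000001400080000000000000000000000000000000) (nat_lit 0x0) (nat_lit 0x80000000000008000000020000000000000000000000000000000) := D_29 (nat_lit 159) (nat_lit 125) (nat_lit 211) (nat_lit 7) (nat_lit 6) (nat_lit 7) (nat_lit 7) (nat_lit 6) (nat_lit 8) (by decide +kernel)
theorem L87020 : W_29 (nat_lit 2) (nat_lit 0x50000e000200000001000080000000000000000000000000000000) (nat_lit 0x0) (nat_lit 0xa80000000000000000000000000000000000000000000000000000) := D_29 (nat_lit 213) (nat_lit 211) (nat_lit 215) (nat_lit 0) (nat_lit 10) (nat_lit 12) (nat_lit 0) (nat_lit 11) (nat_lit 12) (by decide +kernel)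
theorem L87021 : W_29 (nat_lit 2) (nat_lit 0x58000e000300000001000080000000000000000000000000000000) (nat_lit 0x0) (nat_lit 0x30000080000000000000000000000000000000000000000000) := D_29 (nat_lit 196) (nat_lit 175) (nat_lit 197) (nat_lit 0) (nat_lit 9) (nat_lit 11) (nat_lit 0) (nat_lit 10) (nat_lit 11) (by decide +kernel)
theorem L87022 : W_29 (nat_lit 2) (nat_lit 0x58000e000300000001000080000000000000000000000000000000) (nat_lit 0x0) (nat_lit 0x1000000000000000008000400000000000000000000000000000000000) := D_29 (nat_lit 159) (nat_lit 142) (nat_lit 228) (nat_lit 7) (nat_lit 6) (nat_lit 8) (nat_lit 4) (nat_lit 7) (nat_lit 13) (by decide +kernel)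
theorem L87023 : W_29 (nat_lit 3) (nat_lit 0x58000e000200000001000080000000000000000000000000000000) (nat_lit 0x0) (nat_lit 0x1000000030000180008000400000000000000000000000000000000000) := Q_29 (nat_lit 176) (C_29 L87021 (C_29 L87022 N_29)) (by decide +kernel)
theorem L87027 : W_29 (nat_lit 4) (nat_lit 0x18000e000200000001000080000000000000000000000000000000) (nat_lit 0x0) (nat_lit 0x1000600030000180008000400000000000000000000000000000000000) := T_29 (nat_lit 214) (nat_lit 213) (nat_lit 0) (nat_lit 10) (nat_lit 12) L87023 (by decide +kernel)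
theorem L87028 : W_29 (nat_lit 2) (nat_lit 0x18001e000200000001000080000000000000000000000000000000) (nat_lit 0x0) (nat_lit 0x20000180000000000000000000000000000000000000000000) := D_29 (nat_lit 176) (nat_lit 175) (nat_lit 197) (nat_lit 0) (nat_lit 9) (nat_lit 11) (nat_lit 0) (nat_lit 10) (nat_lit 11) (by decide +kernel)
theorem L87029 : W_29 (nat_lit 3) (nat_lit 0x18001e000200000001000080000000000000000000000000000000) (nat_lit 0x0) (nat_lit 0xe00060000000000000000000000000000000000000000000000000) := T_29 (nat_lit 214) (nat_lit 213) (nat_lit 3) (nat_lit 6) (nat_lit 11) L80610 (by decide +kernel)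
theorem L87030 : W_29 (nat_lit 2) (nat_lit 0x30003e001200000001000080000000000000000000000000000000) (nat_lit 0x0) (nat_lit 0xc0000400000000000000000000000000000000000000000000) := D_29 (nat_lit 198) (nat_lit 199) (nat_lit 178) (nat_lit 1) (nat_lit 12) (nat_lit 11) (nat_lit 0) (nat_lit 11) (nat_lit 11) (by decide +kernel)
theorem L87031 : W_29 (nat_lit 3) (nat_lit 0x30001e001200000001000080000000000000000000000000000000) (nat_lit 0x0) (nat_lit 0xe0002400000000000000000000000000000000000000000000) := T_29 (nat_lit 197) (nat_lit 181) (nat_lit 2) (nat_lit 7) (nat_lit 11) L87030 (by decide +kernel)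
theorem L87055 : W_29 (nat_lit 2) (nat_lit 0x10000c000300010001400080000000000000000000000000000000) (nat_lit 0x0) (nat_lit 0x80000000000008000000020000000000000000000000000000000) := D_29 (nat_lit 159) (nat_lit 211) (nat_lit 125) (nat_lit 4) (nat_lit 7) (nat_lit 12) (nat_lit 7) (nat_lit 6) (nat_lit 7) (by decide +kernel)
theorem L87056 : W_29 (nat_lit 3) (nat_lit 0x10000c000300000001400080000000000000000000000000000000) (nat_lit 0x0) (nat_lit 0x80000000000018000800020000000000000000000000000000000) := T_29 (nat_lit 160) (nat_lit 143) (nat_lit 7) (nat_lit 7) (nat_lit 8) L87055 (by decide +kernel)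
theorem L87057 : W_29 (nat_lit 2) (nat_lit 0x10002f000300000001000080000000000000000000000000000000) (nat_lit 0x0) (nat_lit 0x80000c00000000000000000000000000000000000000000000000) := D_29 (nat_lit 191) (nat_lit 211) (nat_lit 190) (nat_lit 3) (nat_lit 4) (nat_lit 11) (nat_lit 2) (nat_lit 3) (nat_lit 11) (by decide +kernel)
theorem L87058 : W_29 (nat_lit 3) (nat_lit 0x10002e000300000001000080000000000000000000000000000000) (nat_lit 0x0) (nat_lit 0x280001c00000000000000000000000000000000000000000000000) := T_29 (nat_lit 192) (nat_lit 213) (nat_lit 3) (nat_lit 5) (nat_lit 11) L87057 (by decide +kernel)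
theorem L87061 : W_29 (nat_lit 5) (nat_lit 0x10001c000200000001800080000000000000000000000000000000) (nat_lit 0x0) (nat_lit 0x1c00060007100000000000000000000000000000000000000000000) := T_29 (nat_lit 197) (nat_lit 176) (nat_lit 0) (nat_lit 10) (nat_lit 11) L85845 (by decide +kernel)
theorem L87062 : W_29 (nat_lit 6) (nat_lit 0x10001c000200000001000080000000000000000000000000000000) (nat_lit 0x0) (nat_lit 0x1c00060007100010000800000000000000000000000000000000000) := T_29 (nat_lit 143) (nat_lit 160) (nat_lit 7) (nat_lit 7) (nat_lit 8) L87061 (by decide +kernel)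
theorem L87064 : W_29 (nat_lit 2) (nat_lit 0x400030001c000200000001000080000000000000000000000000000000) (nat_lit 0x0) (nat_lit 0x1000080000000000000000400000000000000000000000000000000000000000000) := D_29 (nat_lit 247) (nat_lit 178) (nat_lit 264) (nat_lit 4) (nat_lit 9) (nat_lit 14) (nat_lit 4) (nat_lit 9) (nat_lit 15) (by decide +kernel)
theorem L87069 : W_29 (nat_lit 2) (nat_lit 0xc000b0001c001a00000001000080000000000000000000000000000000) (nat_lit 0x0) (nat_lit 0x6400000000000000000000000000000000000000000000) := D_29 (nat_lit 181) (nat_lit 182) (nat_lit 178) (nat_lit 1) (nat_lit 12) (nat_lit 10) (nat_lit 1) (nat_lit 11) (nat_lit 10) (by decide +kernel)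
theorem L87070 : W_29 (nat_lit 3) (nat_lit 0xc000b0001c000a00000001000080000000000000000000000000000000) (nat_lit 0x0) (nat_lit 0x7400080000000000000000000000000000000000000000) := T_29 (nat_lit 180) (nat_lit 163) (nat_lit 6) (nat_lit 9) (nat_lit 13) L87069 (by decide +kernel)
theorem L87071 : W_29 (nat_lit 4) (nat_lit 0xc000b0001c000200000001000080000000000000000000000000000000) (nat_lit 0x0) (nat_lit 0x100000000000000007c00080000000000000000000000000000000000000000) := T_29 (nat_lit 179) (nat_lit 248) (nat_lit 7) (nat_lit 9) (nat_lit 10) L87070 (by decide +kernel)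
theorem L87072 : W_29 (nat_lit 5) (nat_lit 0xc00030001c000200000001000080000000000000000000000000000000) (nat_lit 0x0) (nat_lit 0x100000000c00000007c00080000000000000000000000000000000000000000) := T_29 (nat_lit 215) (nat_lit 214) (nat_lit 0) (nat_lit 11) (nat_lit 12) L87071 (by decide +kernel)
theorem L87073 : W_29 (nat_lit 2) (nat_lit 0x1c00030001c000200000001000080000000000000000000000000000000) (nat_lit 0x0) (nat_lit 0xc80000000000000000000000000000000000000000000000000000) := D_29 (nat_lit 214) (nat_lit 215) (nat_lit 211) (nat_lit 0) (nat_lit 11) (nat_lit 12) (nat_lit 3) (nat_lit 7) (nat_lit 12) (by decide +kernel)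
theorem L87074 : W_29 (nat_lit 3) (nat_lit 0xc00030001c000200000001000080000000000000000000000000000000) (nat_lit 0x0) (nat_lit 0x30000c80000000000000000000000000000000000000000000000000000) := T_29 (nat_lit 232) (nat_lit 233) (nat_lit 0) (nat_lit 12) (nat_lit 13) L87073 (by decide +kernel)
theorem L87082 : W_29 (nat_lit 2) (nat_lit 0x400030001c000a00000001000080000000000000000000000000000000) (nat_lit 0x0) (nat_lit 0x1000080000000000000000400000000000000000000000000000000000000000000) := D_29 (nat_lit 247) (nat_lit 178) (nat_lit 264) (nat_lit 4) (nat_lit 9) (nat_lit 14) (nat_lit 4) (nat_lit 9) (nat_lit 15) (by decide +kernel)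
theorem L87105 : W_29 (nat_lit 2) (nat_lit 0x18000c000200000001000080000000000000000000000000000000) (nat_lit 0x0) (nat_lit 0x40002000000000000000010000000000000000000000000000000000000000) := D_29 (nat_lit 229) (nat_lit 246) (nat_lit 160) (nat_lit 4) (nat_lit 8) (nat_lit 14) (nat_lit 7) (nat_lit 7) (nat_lit 9) (by decide +kernel)
theorem L87120 : W_29 (nat_lit 4) (nat_lit 0x1a000f000280000001000080000000000000000000000000000000) (nat_lit 0x0) (nat_lit 0x70003900000000000000000000000000000000000000000000) := T_29 (nat_lit 196) (nat_lit 176) (nat_lit 0) (nat_lit 9) (nat_lit 11) L81433 (by decide +kernel)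
theorem L87121 : W_29 (nat_lit 5) (nat_lit 0x1a000f000200000001000080000000000000000000000000000000) (nat_lit 0x0) (nat_lit 0x700039c0000000000000000000000000000000000000000000) := T_29 (nat_lit 175) (nat_lit 174) (nat_lit 0) (nat_lit 8) (nat_lit 11) L87120 (by decide +kernel)
theorem L87122 : W_29 (nat_lit 6) (nat_lit 0x18000f000200000001000080000000000000000000000000000000) (nat_lit 0x0) (nat_lit 0x300700039c0000000000000000000000000000000000000000000) := T_29 (nat_lit 209) (nat_lit 208) (nat_lit 1) (nat_lit 8) (nat_lit 11) L87121 (by decide +kernel)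
theorem L87123 : W_29 (nat_lit 7) (nat_lit 0x18000e000200000001000080000000000000000000000000000000) (nat_lit 0x0) (nat_lit 0x300718039c0000000000000000000000000000000000000000000) := T_29 (nat_lit 192) (nat_lit 191) (nat_lit 3) (nat_lit 4) (nat_lit 11) L87122 (by decide +kernel)
theorem L87124 : W_29 (nat_lit 8) (nat_lit 0x18000c000200000001000080000000000000000000000000000000) (nat_lit 0x0) (nat_lit 0x10006300738039c0008000400000000000000000000000000000000000) := Q_29 (nat_lit 193) (C_29 L87027 (C_29 L20603 (C_29 L87123 N_29))) (by decide +kernel)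
theorem L87126 : W_29 (nat_lit 2) (nat_lit 0x4000000070000c000200000001000080000000000000000000000000000000) (nat_lit 0x0) (nat_lit 0x80012000000000000000000000000000000000000000000000000) := D_29 (nat_lit 193) (nat_lit 211) (nat_lit 196) (nat_lit 0) (nat_lit 10) (nat_lit 12) (nat_lit 3) (nat_lit 6) (nat_lit 11) (by decide +kernel)
theorem L87127 : W_29 (nat_lit 3) (nat_lit 0x4000000030000c000200000001000080000000000000000000000000000000) (nat_lit 0x0) (nat_lit 0xc80012000000000000000000000000000000000000000000000000) := T_29 (nat_lit 214) (nat_lit 215) (nat_lit 0) (nat_lit 11) (nat_lit 12) L87126 (by decide +kernel)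
theorem L87128 : W_29 (nat_lit 4) (nat_lit 0x30000c000200000001000080000000000000000000000000000000) (nat_lit 0x0) (nat_lit 0x40002000c80012000000000000000000000000000000000000000000000000) := T_29 (nat_lit 246) (nat_lit 229) (nat_lit 4) (nat_lit 8) (nat_lit 14) L87127 (by decide +kernel)
theorem L87132 : W_29 (nat_lit 3) (nat_lit 0x30001c000a00000001000080000000000000000000000000000000) (nat_lit 0x0) (nat_lit 0xa000c00000000000040000000000000000000000000000000000000000) := T_29 (nat_lit 162) (nat_lit 229) (nat_lit 5) (nat_lit 9) (nat_lit 9) L23007 (by decide +kernel)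
theorem L87133 : W_29 (nat_lit 2) (nat_lit 0x800070001c000a00000001000080000000000000000000000000000000) (nat_lit 0x0) (nat_lit 0x2000100004000000000000000000000000000000000000000000000000000000000) := D_29 (nat_lit 248) (nat_lit 265) (nat_lit 230) (nat_lit 4) (nat_lit 10) (nat_lit 15) (nat_lit 7) (nat_lit 9) (nat_lit 10) (by decide +kernel)
theorem L87134 : W_29 (nat_lit 3) (nat_lit 0x70001c000a00000001000080000000000000000000000000000000) (nat_lit 0x0) (nat_lit 0x200010000c000000000000000040000000000000000000000000000000000000000) := T_29 (nat_lit 231) (nat_lit 162) (nat_lit 7) (nat_lit 9) (nat_lit 9) L87133 (by decide +kernel)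
theorem L87135 : W_29 (nat_lit 4) (nat_lit 0x30001c000a00000001000080000000000000000000000000000000) (nat_lit 0x0) (nat_lit 0x200010000c000c00000000000040000000000000000000000000000000000000000) := T_29 (nat_lit 214) (nat_lit 215) (nat_lit 0) (nat_lit 11) (nat_lit 12) L87134 (by decide +kernel)
theorem L87151 : W_29 (nat_lit 4) (nat_lit 0x400030001c000a00000001000080000000000000000000000000000000) (nat_lit 0x0) (nat_lit 0x100038000c80000000000000000000000000000000000000000000000000000) := T_29 (nat_lit 231) (nat_lit 248) (nat_lit 7) (nat_lit 9) (nat_lit 10) L19080 (by decide +kernel)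
theorem L87157 : W_29 (nat_lit 2) (nat_lit 0x70000c000200000001000080000000000000000000000000000000) (nat_lit 0x0) (nat_lit 0x80003000000000000000000000000000000000000000000000000) := D_29 (nat_lit 193) (nat_lit 192) (nat_lit 211) (nat_lit 3) (nat_lit 5) (nat_lit 11) (nat_lit 0) (nat_lit 10) (nat_lit 12) (by decide +kernel)
theorem L87158 : W_29 (nat_lit 3) (nat_lit 0x30000c000200000001000080000000000000000000000000000000) (nat_lit 0x0) (nat_lit 0xc80003000000000000000000000000000000000000000000000000) := T_29 (nat_lit 214) (nat_lit 215) (nat_lit 0) (nat_lit 11) (nat_lit 12) L87157 (by decide +kernel)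
theorem L87164 : W_29 (nat_lit 7) (nat_lit 0x10001c000200000001800080000000000000000000000000000000) (nat_lit 0x0) (nat_lit 0x40002001e000e000e100000000000000000000000000000000000000000000) := T_29 (nat_lit 197) (nat_lit 176) (nat_lit 0) (nat_lit 10) (nat_lit 11) L85844 (by decide +kernel)
theorem L87165 : W_29 (nat_lit 8) (nat_lit 0x10001c000200000001000080000000000000000000000000000000) (nat_lit 0x0) (nat_lit 0x40002001e000e000e100010000800000000000000000000000000000000000) := T_29 (nat_lit 143) (nat_lit 160) (nat_lit 7) (nat_lit 7) (nat_lit 8) L87164 (by decide +kernel)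
theorem L87166 : W_29 (nat_lit 11) (nat_lit 0x30001c000200000001000080000000000000000000000000000000) (nat_lit 0x0) (nat_lit 0x38007f003f001c00040002800050000800000000000000000000000000000000000) := T_29 (nat_lit 160) (nat_lit 143) (nat_lit 7) (nat_lit 7) (nat_lit 8) L85828 (by decide +kernel)
theorem L87167 : W_29 (nat_lit 12) (nat_lit 0x10001c000200000001000080000000000000000000000000000000) (nat_lit 0x0) (nat_lit 0x38007f003f001e00043003800050000800000000000000000000000000000000000) := Q_29 (nat_lit 213) (C_29 L85630 (C_29 L85608 (C_29 L87166 N_29))) (by decide +kernel)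
theorem L87168 : W_29 (nat_lit 7) (nat_lit 0x10001c000200000001800080000000000000000000000000000000) (nat_lit 0x0) (nat_lit 0x40002003a000e0007100000000000000000000000000000000000000000000) := T_29 (nat_lit 197) (nat_lit 176) (nat_lit 0) (nat_lit 10) (nat_lit 11) L85655 (by decide +kernel)
theorem L87169 : W_29 (nat_lit 8) (nat_lit 0x10001c000200000001000080000000000000000000000000000000) (nat_lit 0x0) (nat_lit 0x40002003a000e0007100010000800000000000000000000000000000000000) := T_29 (nat_lit 143) (nat_lit 160) (nat_lit 7) (nat_lit 7) (nat_lit 8) L87168 (by decide +kernel)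
theorem L87170 : W_29 (nat_lit 2) (nat_lit 0x4000000010001c000300000001800080000000000000000000000000000000) (nat_lit 0x0) (nat_lit 0x20000c0000000000000000000000000000000000000000000) := D_29 (nat_lit 175) (nat_lit 193) (nat_lit 174) (nat_lit 0) (nat_lit 9) (nat_lit 11) (nat_lit 3) (nat_lit 4) (nat_lit 10) (by decide +kernel)
theorem L87171 : W_29 (nat_lit 3) (nat_lit 0x4000000010001c000200000001800080000000000000000000000000000000) (nat_lit 0x0) (nat_lit 0x220001c0000000000000000000000000000000000000000000) := T_29 (nat_lit 176) (nat_lit 197) (nat_lit 0) (nat_lit 10) (nat_lit 11) L87170 (by decide +kernel)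
theorem L87172 : W_29 (nat_lit 4) (nat_lit 0x4000000010001c000200000001000080000000000000000000000000000000) (nat_lit 0x0) (nat_lit 0x220001c0010000800000000000000000000000000000000000) := T_29 (nat_lit 143) (nat_lit 160) (nat_lit 7) (nat_lit 7) (nat_lit 8) L87171 (by decide +kernel)
theorem L87173 : W_29 (nat_lit 5) (nat_lit 0x10001c000200000001000080000000000000000000000000000000) (nat_lit 0x0) (nat_lit 0x400020000000220001c0010000800000000000000000000000000000000000) := T_29 (nat_lit 246) (nat_lit 229) (nat_lit 4) (nat_lit 8) (nat_lit 14) L87172 (by decide +kernel)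
theorem L87174 : W_29 (nat_lit 13) (nat_lit 0x10000c000200000001000080000000000000000000000000000000) (nat_lit 0x0) (nat_lit 0x38007f003f007e001f301f9c01d000c800600020000000000000000000000000000) := Q_29 (nat_lit 196) (C_29 L87062 (C_29 L86999 (C_29 L85794 (C_29 L87165 (C_29 L87167 (C_29 L87169 (C_29 L87173 N_29))))))) (by decide +kernel)
theorem L87286 : W_29 (nat_lit 14) (nat_lit 0xc000300000001000080000000000000000000000000000000) (nat_lit 0x0) (nat_lit 0x16000b0003e03cf81df8007c003c001e00030000000000000000000000) := Q_29 (nat_lit 159) (C_29 L83830 (C_29 L86328 (C_29 L83885 N_29))) (by decide +kernel)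
theorem L87288 : W_29 (nat_lit 2) (nat_lit 0x200010000c000200000001000080000000000000000000000000000000) (nat_lit 0x0) (nat_lit 0x80000000400010000000000000000000000000000000000000000) := D_29 (nat_lit 160) (nat_lit 178) (nat_lit 211) (nat_lit 4) (nat_lit 8) (nat_lit 13) (nat_lit 7) (nat_lit 7) (nat_lit 9) (by decide +kernel)
theorem L87289 : W_29 (nat_lit 3) (nat_lit 0x10000c000200000001000080000000000000000000000000000000) (nat_lit 0x0) (nat_lit 0x40002000080000000400010000000000000000000000000000000000000000) := T_29 (nat_lit 229) (nat_lit 246) (nat_lit 4) (nat_lit 8) (nat_lit 14) L87288 (by decide +kernel)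
theorem L87290 : W_29 (nat_lit 2) (nat_lit 0x30003c000200000001000080000000000000000000000000000000) (nat_lit 0x0) (nat_lit 0x80040000400000000000000000000000000000000000000000000) := D_29 (nat_lit 198) (nat_lit 178) (nat_lit 211) (nat_lit 0) (nat_lit 11) (nat_lit 11) (nat_lit 1) (nat_lit 11) (nat_lit 11) (by decide +kernel)
theorem L87291 : W_29 (nat_lit 6) (nat_lit 0x30001c000200000001000080000000000000000000000000000000) (nat_lit 0x0) (nat_lit 0x40006001c800e0003400080004000000000000000000000000000000000000) := Q_29 (nat_lit 197) (C_29 L85614 (C_29 L87290 (C_29 L85612 N_29))) (by decide +kernel)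
theorem L87356 : W_29 (nat_lit 7) (nat_lit 0x10000e000300000001000080000000000000000000000000000000) (nat_lit 0x0) (nat_lit 0x8000000000001f000f0013c000000000000000000000000000000) := Q_29 (nat_lit 142) (C_29 L86421 (C_29 L87019 N_29)) (by decide +kernel)
theorem L87358 : W_29 (nat_lit 2) (nat_lit 0x18000c000300010001000080000000000000000000000000000000) (nat_lit 0x0) (nat_lit 0x1000000000000000008000400000000000000000000000000000000000) := D_29 (nat_lit 159) (nat_lit 142) (nat_lit 228) (nat_lit 4) (nat_lit 7) (nat_lit 12) (nat_lit 4) (nat_lit 7) (nat_lit 13) (by decide +kernel)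
theorem L87359 : W_29 (nat_lit 3) (nat_lit 0x18000c000300000001000080000000000000000000000000000000) (nat_lit 0x0) (nat_lit 0x1000000000000000018000c00000000000000000000000000000000000) := T_29 (nat_lit 160) (nat_lit 143) (nat_lit 7) (nat_lit 7) (nat_lit 8) L87358 (by decide +kernel)
theorem L87370 : W_29 (nat_lit 2) (nat_lit 0x10001c000300000001000080000000000000000000000000000000) (nat_lit 0x0) (nat_lit 0x4c0000000000000000000000000000000000000000000) := D_29 (nat_lit 175) (nat_lit 174) (nat_lit 178) (nat_lit 3) (nat_lit 4) (nat_lit 10) (nat_lit 3) (nat_lit 5) (nat_lit 10) (by decide +kernel)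
theorem L87371 : W_29 (nat_lit 3) (nat_lit 0x10000c000300000001000080000000000000000000000000000000) (nat_lit 0x0) (nat_lit 0x300004c0000000000000000000000000000000000000000000) := T_29 (nat_lit 196) (nat_lit 197) (nat_lit 0) (nat_lit 10) (nat_lit 11) L87370 (by decide +kernel)
theorem L87401 : W_29 (nat_lit 2) (nat_lit 0x30001c001a00000001000080000000000000000000000000000000) (nat_lit 0x0) (nat_lit 0x6400000000000000000000000000000000000000000000) := D_29 (nat_lit 181) (nat_lit 178) (nat_lit 182) (nat_lit 1) (nat_lit 11) (nat_lit 10) (nat_lit 1) (nat_lit 12) (nat_lit 10) (by decide +kernel)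
theorem L87406 : W_29 (nat_lit 2) (nat_lit 0x10000d000380000001e00080000000000000000000000000000000) (nat_lit 0x0) (nat_lit 0x6000000020000000000000000000000000000000) := D_29 (nat_lit 158) (nat_lit 157) (nat_lit 125) (nat_lit 1) (nat_lit 8) (nat_lit 8) (nat_lit 6) (nat_lit 5) (nat_lit 11) (by decide +kernel)
theorem L87407 : W_29 (nat_lit 6) (nat_lit 0x10000c000340000001c00080000000000000000000000000000000) (nat_lit 0x0) (nat_lit 0x80000000700038010e000000000000000000000000000000) := T_29 (nat_lit 141) (nat_lit 128) (nat_lit 2) (nat_lit 5) (nat_lit 8) L86229 (by decide +kernel)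
theorem L87408 : W_29 (nat_lit 3) (nat_lit 0x10000d000200000001800080000000000000000000000000000000) (nat_lit 0x0) (nat_lit 0x200002800c00000000000000000000000000000000000000000000) := T_29 (nat_lit 193) (nat_lit 213) (nat_lit 3) (nat_lit 5) (nat_lit 11) L86003 (by decide +kernel)
theorem L87409 : W_29 (nat_lit 4) (nat_lit 0x10000d000200000001000080000000000000000000000000000000) (nat_lit 0x0) (nat_lit 0x200002800c00010000800000000000000000000000000000000000) := T_29 (nat_lit 143) (nat_lit 160) (nat_lit 7) (nat_lit 7) (nat_lit 8) L87408 (by decide +kernel)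
theorem L87410 : W_29 (nat_lit 3) (nat_lit 0x10000f000200000001000080000000000000000000000000000000) (nat_lit 0x0) (nat_lit 0xb8000800000000000000000000000000000000000000000000000) := T_29 (nat_lit 191) (nat_lit 211) (nat_lit 3) (nat_lit 4) (nat_lit 11) L17248 (by decide +kernel)
theorem L87411 : W_29 (nat_lit 4) (nat_lit 0x10000d000200000001000080000000000000000000000000000000) (nat_lit 0x0) (nat_lit 0x2b8002800000000000000000000000000000000000000000000000) := T_29 (nat_lit 193) (nat_lit 213) (nat_lit 3) (nat_lit 5) (nat_lit 11) L87410 (by decide +kernel)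
theorem L87412 : W_29 (nat_lit 2) (nat_lit 0x10000d800280014001200090000000000000000000000000000000) (nat_lit 0x0) (nat_lit 0x100008000400000000000000000000000000) := D_29 (nat_lit 123) (nat_lit 106) (nat_lit 140) (nat_lit 4) (nat_lit 5) (nat_lit 10) (nat_lit 4) (nat_lit 5) (nat_lit 11) (by decide +kernel)
theorem L87413 : W_29 (nat_lit 3) (nat_lit 0x10000d800280014001200080000000000000000000000000000000) (nat_lit 0x0) (nat_lit 0x40000000100018000400000000000000000000000000) := T_29 (nat_lit 124) (nat_lit 174) (nat_lit 5) (nat_lit 5) (nat_lit 7) L87412 (by decide +kernel)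
theorem L87414 : W_29 (nat_lit 2) (nat_lit 0x10000d800280004001200090000000000000000000000000000000) (nat_lit 0x0) (nat_lit 0x400020001000000000000000000000000000) := D_29 (nat_lit 125) (nat_lit 142) (nat_lit 108) (nat_lit 6) (nat_lit 5) (nat_lit 11) (nat_lit 6) (nat_lit 5) (nat_lit 10) (by decide +kernel)
theorem L87415 : W_29 (nat_lit 3) (nat_lit 0x10000d800280004001200080000000000000000000000000000000) (nat_lit 0x0) (nat_lit 0x40000000400030001000000000000000000000000000) := T_29 (nat_lit 124) (nat_lit 174) (nat_lit 5) (nat_lit 5) (nat_lit 7) L87414 (by decide +kernel)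
theorem L87416 : W_29 (nat_lit 2) (nat_lit 0x10000d8002800040012000a8000000000000000000000000000000) (nat_lit 0x0) (nat_lit 0x10001400000000000000000000000000) := D_29 (nat_lit 124) (nat_lit 106) (nat_lit 108) (nat_lit 4) (nat_lit 5) (nat_lit 10) (nat_lit 6) (nat_lit 5) (nat_lit 10) (by decide +kernel)
theorem L87417 : W_29 (nat_lit 3) (nat_lit 0x10000d800280004001200088000000000000000000000000000000) (nat_lit 0x0) (nat_lit 0x400030001400000000000000000000000000) := T_29 (nat_lit 125) (nat_lit 142) (nat_lit 6) (nat_lit 5) (nat_lit 11) L87416 (by decide +kernel)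
theorem L87418 : W_29 (nat_lit 4) (nat_lit 0x10000d800280004001200080000000000000000000000000000000) (nat_lit 0x0) (nat_lit 0x500038001400000000000000000000000000) := T_29 (nat_lit 123) (nat_lit 140) (nat_lit 4) (nat_lit 5) (nat_lit 11) L87417 (by decide +kernel)
theorem L87419 : W_29 (nat_lit 2) (nat_lit 0x11000d000280014001700080000000000000000000000000000000) (nat_lit 0x0) (nat_lit 0x200020000000000002000000000000000000000000000000000000000) := D_29 (nat_lit 209) (nat_lit 157) (nat_lit 225) (nat_lit 4) (nat_lit 5) (nat_lit 12) (nat_lit 5) (nat_lit 5) (nat_lit 9) (by decide +kernel)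
theorem L87420 : W_29 (nat_lit 3) (nat_lit 0x10000d000280014001700080000000000000000000000000000000) (nat_lit 0x0) (nat_lit 0x200030000800000002000000000000000000000000000000000000000) := T_29 (nat_lit 208) (nat_lit 191) (nat_lit 5) (nat_lit 5) (nat_lit 8) L87419 (by decide +kernel)
theorem L87421 : W_29 (nat_lit 4) (nat_lit 0x10000d000280014001600080000000000000000000000000000000) (nat_lit 0x0) (nat_lit 0x200030000800000002000100008000000000000000000000000000000) := T_29 (nat_lit 140) (nat_lit 123) (nat_lit 4) (nat_lit 5) (nat_lit 11) L87420 (by decide +kernel)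
theorem L87422 : W_29 (nat_lit 5) (nat_lit 0x10000d000280014001200080000000000000000000000000000000) (nat_lit 0x0) (nat_lit 0x200030000800000002000500028000000000000000000000000000000) := T_29 (nat_lit 142) (nat_lit 125) (nat_lit 6) (nat_lit 5) (nat_lit 11) L87421 (by decide +kernel)
theorem L87423 : W_29 (nat_lit 6) (nat_lit 0x10000d000280004001200080000000000000000000000000000000) (nat_lit 0x0) (nat_lit 0x200030000800000012000d00028000000000000000000000000000000) := T_29 (nat_lit 160) (nat_lit 143) (nat_lit 7) (nat_lit 7) (nat_lit 8) L87422 (by decide +kernel)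
theorem L87424 : W_29 (nat_lit 2) (nat_lit 0x12000d000280004001700080000000000000000000000000000000) (nat_lit 0x0) (nat_lit 0x200010000800000000000000000000000000000000000000000000000) := D_29 (nat_lit 208) (nat_lit 191) (nat_lit 225) (nat_lit 5) (nat_lit 5) (nat_lit 8) (nat_lit 5) (nat_lit 5) (nat_lit 9) (by decide +kernel)
theorem L87425 : W_29 (nat_lit 3) (nat_lit 0x10000d000280004001700080000000000000000000000000000000) (nat_lit 0x0) (nat_lit 0x200030000800000002000000000000000000000000000000000000000) := T_29 (nat_lit 209) (nat_lit 157) (nat_lit 4) (nat_lit 5) (nat_lit 12) L87424 (by decide +kernel)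
theorem L87426 : W_29 (nat_lit 4) (nat_lit 0x10000d000280004001300080000000000000000000000000000000) (nat_lit 0x0) (nat_lit 0x200030000800000002000400020000000000000000000000000000000) := T_29 (nat_lit 142) (nat_lit 125) (nat_lit 6) (nat_lit 5) (nat_lit 11) L87425 (by decide +kernel)
theorem L87427 : W_29 (nat_lit 5) (nat_lit 0x10000d000280004001200080000000000000000000000000000000) (nat_lit 0x0) (nat_lit 0x200030000800000002000500028000000000000000000000000000000) := T_29 (nat_lit 140) (nat_lit 123) (nat_lit 4) (nat_lit 5) (nat_lit 11) L87426 (by decide +kernel)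
theorem L87428 : W_29 (nat_lit 2) (nat_lit 0x13000d000280014001200080000000000000000000000000000000) (nat_lit 0x0) (nat_lit 0x2000100008000000000000000000000000000000) := D_29 (nat_lit 140) (nat_lit 157) (nat_lit 123) (nat_lit 4) (nat_lit 5) (nat_lit 12) (nat_lit 4) (nat_lit 5) (nat_lit 11) (by decide +kernel)
theorem L87429 : W_29 (nat_lit 3) (nat_lit 0x11000d000280014001200080000000000000000000000000000000) (nat_lit 0x0) (nat_lit 0x200020000000000002000100008000000000000000000000000000000) := T_29 (nat_lit 209) (nat_lit 225) (nat_lit 5) (nat_lit 5) (nat_lit 9) L87428 (by decide +kernel)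
theorem L87430 : W_29 (nat_lit 4) (nat_lit 0x11000d000280004001200080000000000000000000000000000000) (nat_lit 0x0) (nat_lit 0x200020000000000012000900008000000000000000000000000000000) := T_29 (nat_lit 160) (nat_lit 143) (nat_lit 7) (nat_lit 7) (nat_lit 8) L87429 (by decide +kernel)
theorem L87431 : W_29 (nat_lit 5) (nat_lit 0x10000d000280004001200080000000000000000000000000000000) (nat_lit 0x0) (nat_lit 0x200030000800000012000900008000000000000000000000000000000) := T_29 (nat_lit 208) (nat_lit 191) (nat_lit 5) (nat_lit 5) (nat_lit 8) L87430 (by decide +kernel)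
theorem L87432 : W_29 (nat_lit 2) (nat_lit 0x10000d000280004001700080000000000000000000000000000000) (nat_lit 0x0) (nat_lit 0x10000800100000000000000000000000000000000) := D_29 (nat_lit 143) (nat_lit 128) (nat_lit 160) (nat_lit 2) (nat_lit 5) (nat_lit 8) (nat_lit 7) (nat_lit 7) (nat_lit 8) (by decide +kernel)
theorem L87433 : W_29 (nat_lit 3) (nat_lit 0x10000d000280004001300080000000000000000000000000000000) (nat_lit 0x0) (nat_lit 0x10000c00120000000000000000000000000000000) := T_29 (nat_lit 142) (nat_lit 125) (nat_lit 6) (nat_lit 5) (nat_lit 11) L87432 (by decide +kernel)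
theorem L87434 : W_29 (nat_lit 4) (nat_lit 0x10000d000280004001200080000000000000000000000000000000) (nat_lit 0x0) (nat_lit 0x10000d00128000000000000000000000000000000) := T_29 (nat_lit 140) (nat_lit 123) (nat_lit 4) (nat_lit 5) (nat_lit 11) L87433 (by decide +kernel)
theorem L87435 : W_29 (nat_lit 2) (nat_lit 0x10000d000280004001a00080000000000000000000000000000000) (nat_lit 0x0) (nat_lit 0x2000400100000000000000000000000000000000) := D_29 (nat_lit 142) (nat_lit 157) (nat_lit 128) (nat_lit 1) (nat_lit 8) (nat_lit 8) (nat_lit 2) (nat_lit 5) (nat_lit 8) (by decide +kernel)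
theorem L87436 : W_29 (nat_lit 3) (nat_lit 0x10000d000280004001200080000000000000000000000000000000) (nat_lit 0x0) (nat_lit 0x12000c00100000000000000000000000000000000) := T_29 (nat_lit 143) (nat_lit 160) (nat_lit 7) (nat_lit 7) (nat_lit 8) L87435 (by decide +kernel)
theorem L87437 : W_29 (nat_lit 7) (nat_lit 0x10000d000280004001000080000000000000000000000000000000) (nat_lit 0x0) (nat_lit 0x200030000800000012000f00128000000000000000000000000000000) := Q_29 (nat_lit 141) (C_29 L87423 (C_29 L87427 (C_29 L87431 (C_29 L87434 (C_29 L87436 N_29))))) (by decide +kernel)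
theorem L87438 : W_29 (nat_lit 2) (nat_lit 0x10000d0002c0004001200080000000000000000000000000000000) (nat_lit 0x0) (nat_lit 0x10000800000000000000010000000000000000000000000000000) := D_29 (nat_lit 191) (nat_lit 208) (nat_lit 124) (nat_lit 5) (nat_lit 5) (nat_lit 8) (nat_lit 5) (nat_lit 5) (nat_lit 7) (by decide +kernel)
theorem L87439 : W_29 (nat_lit 3) (nat_lit 0x10000d000280004001200080000000000000000000000000000000) (nat_lit 0x0) (nat_lit 0x10000800140000000000010000000000000000000000000000000) := T_29 (nat_lit 174) (nat_lit 176) (nat_lit 3) (nat_lit 4) (nat_lit 10) L87438 (by decide +kernel)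
theorem L87440 : W_29 (nat_lit 2) (nat_lit 0x10000d000280004001a00080000000000000000000000000000000) (nat_lit 0x0) (nat_lit 0x2000400020000000000000000000000000000000) := D_29 (nat_lit 142) (nat_lit 157) (nat_lit 125) (nat_lit 1) (nat_lit 8) (nat_lit 8) (nat_lit 6) (nat_lit 5) (nat_lit 11) (by decide +kernel)
theorem L87441 : W_29 (nat_lit 3) (nat_lit 0x10000d000280004001200080000000000000000000000000000000) (nat_lit 0x0) (nat_lit 0x12000c00020000000000000000000000000000000) := T_29 (nat_lit 143) (nat_lit 160) (nat_lit 7) (nat_lit 7) (nat_lit 8) L87440 (by decide +kernel)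
theorem L87442 : W_29 (nat_lit 2) (nat_lit 0x10000d0002c00040012000b0000000000000000000000000000000) (nat_lit 0x0) (nat_lit 0x100008000400000000000000000000000000) := D_29 (nat_lit 123) (nat_lit 140) (nat_lit 106) (nat_lit 4) (nat_lit 5) (nat_lit 11) (nat_lit 4) (nat_lit 5) (nat_lit 10) (by decide +kernel)
theorem L87443 : W_29 (nat_lit 3) (nat_lit 0x10000d0002c00040012000a0000000000000000000000000000000) (nat_lit 0x0) (nat_lit 0x100018001400000000000000000000000000) := T_29 (nat_lit 124) (nat_lit 108) (nat_lit 6) (nat_lit 5) (nat_lit 10) L87442 (by decide +kernel)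
theorem L87444 : W_29 (nat_lit 4) (nat_lit 0x10000d0002800040012000a0000000000000000000000000000000) (nat_lit 0x0) (nat_lit 0x140000000100018001400000000000000000000000000) := T_29 (nat_lit 174) (nat_lit 176) (nat_lit 3) (nat_lit 4) (nat_lit 10) L87443 (by decide +kernel)
theorem L87445 : W_29 (nat_lit 5) (nat_lit 0x10000d000280004001200080000000000000000000000000000000) (nat_lit 0x0) (nat_lit 0x140000000500038001400000000000000000000000000) := T_29 (nat_lit 125) (nat_lit 142) (nat_lit 6) (nat_lit 5) (nat_lit 11) L87444 (by decide +kernel)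
theorem L87446 : W_29 (nat_lit 2) (nat_lit 0x10000d0002c0014001200098000800000000000000000000000000) (nat_lit 0x0) (nat_lit 0x20001000080000000000000000000000) := D_29 (nat_lit 108) (nat_lit 125) (nat_lit 91) (nat_lit 6) (nat_lit 5) (nat_lit 10) (nat_lit 6) (nat_lit 5) (nat_lit 9) (by decide +kernel)
theorem L87447 : W_29 (nat_lit 3) (nat_lit 0x10000d0002c0014001200098000000000000000000000000000000) (nat_lit 0x0) (nat_lit 0x2000000020001800080000000000000000000000) := T_29 (nat_lit 107) (nat_lit 157) (nat_lit 5) (nat_lit 5) (nat_lit 6) L87446 (by decide +kernel)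
theorem L87448 : W_29 (nat_lit 4) (nat_lit 0x10000d0002c0014001200088000000000000000000000000000000) (nat_lit 0x0) (nat_lit 0x2000000030001c00080000000000000000000000) := T_29 (nat_lit 124) (nat_lit 106) (nat_lit 4) (nat_lit 5) (nat_lit 10) L87447 (by decide +kernel)
theorem L87449 : W_29 (nat_lit 5) (nat_lit 0x10000d0002c0004001200088000000000000000000000000000000) (nat_lit 0x0) (nat_lit 0x12000800030001c00080000000000000000000000) := T_29 (nat_lit 160) (nat_lit 143) (nat_lit 7) (nat_lit 7) (nat_lit 8) L87448 (by decide +kernel)
theorem L87450 : W_29 (nat_lit 6) (nat_lit 0x10000d0002c0004001200080000000000000000000000000000000) (nat_lit 0x0) (nat_lit 0x12000900038001c00080000000000000000000000) := T_29 (nat_lit 123) (nat_lit 140) (nat_lit 4) (nat_lit 5) (nat_lit 11) L87449 (by decide +kernel)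
theorem L87451 : W_29 (nat_lit 7) (nat_lit 0x10000d000280004001200080000000000000000000000000000000) (nat_lit 0x0) (nat_lit 0x140012000900038001c00080000000000000000000000) := T_29 (nat_lit 174) (nat_lit 176) (nat_lit 3) (nat_lit 4) (nat_lit 10) L87450 (by decide +kernel)
theorem L87458 : W_29 (nat_lit 2) (nat_lit 0x10000d000280006001100080000000000000000000000000000000) (nat_lit 0x0) (nat_lit 0x200008000400000000000000000000000000) := D_29 (nat_lit 123) (nat_lit 141) (nat_lit 106) (nat_lit 4) (nat_lit 5) (nat_lit 11) (nat_lit 7) (nat_lit 4) (nat_lit 6) (by decide +kernel)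
theorem L87459 : W_29 (nat_lit 3) (nat_lit 0x10000d000280006001000080000000000000000000000000000000) (nat_lit 0x0) (nat_lit 0x20000000000000000300008000400000000000000000000000000) := T_29 (nat_lit 140) (nat_lit 209) (nat_lit 4) (nat_lit 5) (nat_lit 12) L87458 (by decide +kernel)
theorem L87460 : W_29 (nat_lit 2) (nat_lit 0x13000d000280004001200080000000000000000000000000000000) (nat_lit 0x0) (nat_lit 0x2000100008000000000000000000000000000000) := D_29 (nat_lit 140) (nat_lit 123) (nat_lit 157) (nat_lit 4) (nat_lit 5) (nat_lit 11) (nat_lit 4) (nat_lit 5) (nat_lit 12) (by decide +kernel)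
theorem L87461 : W_29 (nat_lit 3) (nat_lit 0x13000d000280004001000080000000000000000000000000000000) (nat_lit 0x0) (nat_lit 0x800000002000300008000000000000000000000000000000) := T_29 (nat_lit 141) (nat_lit 191) (nat_lit 5) (nat_lit 5) (nat_lit 8) L87460 (by decide +kernel)
theorem L87462 : W_29 (nat_lit 4) (nat_lit 0x12000d000280004001000080000000000000000000000000000000) (nat_lit 0x0) (nat_lit 0x200010000800000002000300008000000000000000000000000000000) := T_29 (nat_lit 208) (nat_lit 225) (nat_lit 5) (nat_lit 5) (nat_lit 9) L87461 (by decide +kernel)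
theorem L87467 : W_29 (nat_lit 2) (nat_lit 0x10000d000280000001e00080000000000000000000000000000000) (nat_lit 0x0) (nat_lit 0x6000000020000000000000000000000000000000) := D_29 (nat_lit 158) (nat_lit 157) (nat_lit 125) (nat_lit 1) (nat_lit 8) (nat_lit 8) (nat_lit 6) (nat_lit 5) (nat_lit 11) (by decide +kernel)
theorem L87468 : W_29 (nat_lit 3) (nat_lit 0x10000d000280000001a00080000000000000000000000000000000) (nat_lit 0x0) (nat_lit 0x6000400120000000000000000000000000000000) := T_29 (nat_lit 142) (nat_lit 128) (nat_lit 2) (nat_lit 5) (nat_lit 8) L87467 (by decide +kernel)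
theorem L87469 : W_29 (nat_lit 4) (nat_lit 0x10000d000280000001200080000000000000000000000000000000) (nat_lit 0x0) (nat_lit 0x16000c00120000000000000000000000000000000) := T_29 (nat_lit 143) (nat_lit 160) (nat_lit 7) (nat_lit 7) (nat_lit 8) L87468 (by decide +kernel)
theorem L87470 : W_29 (nat_lit 8) (nat_lit 0x10000d000280000001200080000000000000000000000000000000) (nat_lit 0x0) (nat_lit 0x10000800140016000d00038001c00080000000000000000000000) := Q_29 (nat_lit 158) (C_29 L87451 (C_29 L87441 (C_29 L87445 (C_29 L87439 N_29)))) (by decide +kernel)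
theorem L87471 : W_29 (nat_lit 6) (nat_lit 0x10000d000280000001200080000000000000000000000000000000) (nat_lit 0x0) (nat_lit 0x200030000800140006000500038001400000000000000000000000000) := Q_29 (nat_lit 158) (C_29 L87445 (C_29 L87427 (C_29 L87439 N_29))) (by decide +kernel)
theorem L87472 : W_29 (nat_lit 2) (nat_lit 0x10000d0002c0000001e00088000000000000000000000000000000) (nat_lit 0x0) (nat_lit 0x2000100004000000000000000000000000000000) := D_29 (nat_lit 140) (nat_lit 122) (nat_lit 157) (nat_lit 0) (nat_lit 7) (nat_lit 8) (nat_lit 7) (nat_lit 4) (nat_lit 7) (by decide +kernel)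
theorem L87473 : W_29 (nat_lit 3) (nat_lit 0x10000d0002c0000001e00080000000000000000000000000000000) (nat_lit 0x0) (nat_lit 0x200010001c000000000000000000000000000000) := T_29 (nat_lit 123) (nat_lit 124) (nat_lit 0) (nat_lit 8) (nat_lit 8) L87472 (by decide +kernel)
theorem L87474 : W_29 (nat_lit 4) (nat_lit 0x10000d0002c0000001a00080000000000000000000000000000000) (nat_lit 0x0) (nat_lit 0x200050011c000000000000000000000000000000) := T_29 (nat_lit 142) (nat_lit 128) (nat_lit 2) (nat_lit 5) (nat_lit 8) L87473 (by decide +kernel)
theorem L87475 : W_29 (nat_lit 5) (nat_lit 0x10000d0002c0000001200080000000000000000000000000000000) (nat_lit 0x0) (nat_lit 0x12000d0011c000000000000000000000000000000) := T_29 (nat_lit 143) (nat_lit 160) (nat_lit 7) (nat_lit 7) (nat_lit 8) L87474 (by decide +kernel)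
theorem L87476 : W_29 (nat_lit 6) (nat_lit 0x10000d000280000001200080000000000000000000000000000000) (nat_lit 0x0) (nat_lit 0x140012000d0011c000000000000000000000000000000) := T_29 (nat_lit 174) (nat_lit 176) (nat_lit 3) (nat_lit 4) (nat_lit 10) L87475 (by decide +kernel)
theorem L87477 : W_29 (nat_lit 8) (nat_lit 0x10000d000280000001200080000000000000000000000000000000) (nat_lit 0x0) (nat_lit 0x200030000800140016000900038001c00080000000000000000000000) := Q_29 (nat_lit 158) (C_29 L87451 (C_29 L87431 (C_29 L87439 N_29))) (by decide +kernel)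
theorem L87478 : W_29 (nat_lit 2) (nat_lit 0x10000d0002c0000001e00090000000000000000000000000000000) (nat_lit 0x0) (nat_lit 0x800000004000000020000000000000000000000000000000) := D_29 (nat_lit 158) (nat_lit 125) (nat_lit 191) (nat_lit 6) (nat_lit 5) (nat_lit 11) (nat_lit 5) (nat_lit 5) (nat_lit 7) (by decide +kernel)
theorem L87479 : W_29 (nat_lit 3) (nat_lit 0x10000d0002c0000001e00080000000000000000000000000000000) (nat_lit 0x0) (nat_lit 0x800000004000000038000000000000000000000000000000) := T_29 (nat_lit 124) (nat_lit 123) (nat_lit 0) (nat_lit 8) (nat_lit 8) L87478 (by decide +kernel)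
theorem L87480 : W_29 (nat_lit 4) (nat_lit 0x10000d0002c0000001a00080000000000000000000000000000000) (nat_lit 0x0) (nat_lit 0x800000004000400138000000000000000000000000000000) := T_29 (nat_lit 142) (nat_lit 128) (nat_lit 2) (nat_lit 5) (nat_lit 8) L87479 (by decide +kernel)
theorem L87481 : W_29 (nat_lit 5) (nat_lit 0x10000d0002c0000001200080000000000000000000000000000000) (nat_lit 0x0) (nat_lit 0x800000014000c00138000000000000000000000000000000) := T_29 (nat_lit 143) (nat_lit 160) (nat_lit 7) (nat_lit 7) (nat_lit 8) L87480 (by decide +kernel)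
theorem L87482 : W_29 (nat_lit 6) (nat_lit 0x10000d000280000001200080000000000000000000000000000000) (nat_lit 0x0) (nat_lit 0x800140014000c00138000000000000000000000000000000) := T_29 (nat_lit 174) (nat_lit 176) (nat_lit 3) (nat_lit 4) (nat_lit 10) L87481 (by decide +kernel)
theorem L87483 : W_29 (nat_lit 9) (nat_lit 0x10000d000280000001000080000000000000000000000000000000) (nat_lit 0x0) (nat_lit 0x200030000800140016000f0013c001c00080000000000000000000000) := Q_29 (nat_lit 141) (C_29 L87469 (C_29 L87470 (C_29 L87471 (C_29 L87476 (C_29 L87477 (C_29 L87482 N_29)))))) (by decide +kernel)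
theorem L87484 : W_29 (nat_lit 2) (nat_lit 0x12000d000280004001b00080000000000000000000000000000000) (nat_lit 0x0) (nat_lit 0x400120000000000000000000000000000000) := D_29 (nat_lit 142) (nat_lit 128) (nat_lit 125) (nat_lit 2) (nat_lit 5) (nat_lit 8) (nat_lit 6) (nat_lit 5) (nat_lit 11) (by decide +kernel)
theorem L87485 : W_29 (nat_lit 3) (nat_lit 0x12000d000280004001900080000000000000000000000000000000) (nat_lit 0x0) (nat_lit 0x600128000000000000000000000000000000) := T_29 (nat_lit 141) (nat_lit 123) (nat_lit 4) (nat_lit 5) (nat_lit 11) L87484 (by decide +kernel)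
theorem L87486 : W_29 (nat_lit 4) (nat_lit 0x12000d000280004001800080000000000000000000000000000000) (nat_lit 0x0) (nat_lit 0x2000700128000000000000000000000000000000) := T_29 (nat_lit 140) (nat_lit 157) (nat_lit 4) (nat_lit 5) (nat_lit 12) L87485 (by decide +kernel)
theorem L87487 : W_29 (nat_lit 5) (nat_lit 0x12000d000280004001000080000000000000000000000000000000) (nat_lit 0x0) (nat_lit 0x12000f00128000000000000000000000000000000) := T_29 (nat_lit 143) (nat_lit 160) (nat_lit 7) (nat_lit 7) (nat_lit 8) L87486 (by decide +kernel)
theorem L87488 : W_29 (nat_lit 2) (nat_lit 0x10000d000280004001e00080000000000000000000000000000000) (nat_lit 0x0) (nat_lit 0x100018000000000000000000000000000000) := D_29 (nat_lit 123) (nat_lit 124) (nat_lit 140) (nat_lit 0) (nat_lit 8) (nat_lit 8) (nat_lit 4) (nat_lit 5) (nat_lit 11) (by decide +kernel)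
theorem L87489 : W_29 (nat_lit 3) (nat_lit 0x10000d000280004001a00080000000000000000000000000000000) (nat_lit 0x0) (nat_lit 0x500038000000000000000000000000000000) := T_29 (nat_lit 142) (nat_lit 125) (nat_lit 6) (nat_lit 5) (nat_lit 11) L87488 (by decide +kernel)
theorem L87490 : W_29 (nat_lit 4) (nat_lit 0x10000d000280004001200080000000000000000000000000000000) (nat_lit 0x0) (nat_lit 0x10000d00038000000000000000000000000000000) := T_29 (nat_lit 143) (nat_lit 160) (nat_lit 7) (nat_lit 7) (nat_lit 8) L87489 (by decide +kernel)
theorem L87491 : W_29 (nat_lit 2) (nat_lit 0x10000d800280006001300090001000000000000000000000000000) (nat_lit 0x0) (nat_lit 0x8000c0000000000000000000000) := D_29 (nat_lit 107) (nat_lit 90) (nat_lit 91) (nat_lit 5) (nat_lit 5) (nat_lit 5) (nat_lit 6) (nat_lit 5) (nat_lit 9) (by decide +kernel)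
theorem L87492 : W_29 (nat_lit 3) (nat_lit 0x10000d800280006001300090000000000000000000000000000000) (nat_lit 0x0) (nat_lit 0x200018000c0000000000000000000000) := T_29 (nat_lit 108) (nat_lit 125) (nat_lit 6) (nat_lit 5) (nat_lit 10) L87491 (by decide +kernel)
theorem L87493 : W_29 (nat_lit 4) (nat_lit 0x10000d800280004001300090000000000000000000000000000000) (nat_lit 0x0) (nat_lit 0x200000000000020000000200018000c0000000000000000000000) := T_29 (nat_lit 157) (nat_lit 209) (nat_lit 4) (nat_lit 5) (nat_lit 12) L87492 (by decide +kernel)
theorem L87494 : W_29 (nat_lit 5) (nat_lit 0x10000d800280004001300080000000000000000000000000000000) (nat_lit 0x0) (nat_lit 0x200000000400020000000300018000c0000000000000000000000) := T_29 (nat_lit 124) (nat_lit 174) (nat_lit 5) (nat_lit 5) (nat_lit 7) L87493 (by decide +kernel)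
theorem L87495 : W_29 (nat_lit 6) (nat_lit 0x10000d000280004001300080000000000000000000000000000000) (nat_lit 0x0) (nat_lit 0x300008000400020000000300018000c0000000000000000000000) := T_29 (nat_lit 191) (nat_lit 208) (nat_lit 5) (nat_lit 5) (nat_lit 8) L87494 (by decide +kernel)
theorem L87496 : W_29 (nat_lit 7) (nat_lit 0x10000d000280004001200080000000000000000000000000000000) (nat_lit 0x0) (nat_lit 0x300008000400020001000380018000c0000000000000000000000) := T_29 (nat_lit 140) (nat_lit 123) (nat_lit 4) (nat_lit 5) (nat_lit 11) L87495 (by decide +kernel)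
theorem L87497 : W_29 (nat_lit 2) (nat_lit 0x10000d0002800060013000b0000000000000000000000000000000) (nat_lit 0x0) (nat_lit 0x40000000000000000800040000000000000000000000) := D_29 (nat_lit 107) (nat_lit 174) (nat_lit 90) (nat_lit 5) (nat_lit 5) (nat_lit 6) (nat_lit 5) (nat_lit 5) (nat_lit 5) (by decide +kernel)
theorem L87498 : W_29 (nat_lit 3) (nat_lit 0x10000d0002800060013000a0000000000000000000000000000000) (nat_lit 0x0) (nat_lit 0x40000000000010001800040000000000000000000000) := T_29 (nat_lit 124) (nat_lit 108) (nat_lit 6) (nat_lit 5) (nat_lit 10) L87497 (by decide +kernel)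
theorem L87499 : W_29 (nat_lit 4) (nat_lit 0x10000d0002800040013000a0000000000000000000000000000000) (nat_lit 0x0) (nat_lit 0x20000000040002000000010001800040000000000000000000000) := T_29 (nat_lit 157) (nat_lit 209) (nat_lit 4) (nat_lit 5) (nat_lit 12) L87498 (by decide +kernel)
theorem L87500 : W_29 (nat_lit 5) (nat_lit 0x10000d000280004001300080000000000000000000000000000000) (nat_lit 0x0) (nat_lit 0x20000000040002000400030001800040000000000000000000000) := T_29 (nat_lit 125) (nat_lit 142) (nat_lit 6) (nat_lit 5) (nat_lit 11) L87499 (by decide +kernel)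
theorem L87501 : W_29 (nat_lit 6) (nat_lit 0x10000d000280004001200080000000000000000000000000000000) (nat_lit 0x0) (nat_lit 0x20000000040002000500038001800040000000000000000000000) := T_29 (nat_lit 140) (nat_lit 123) (nat_lit 4) (nat_lit 5) (nat_lit 11) L87500 (by decide +kernel)
theorem L87502 : W_29 (nat_lit 4) (nat_lit 0x10000d000280004001200080000000000000000000000000000000) (nat_lit 0x0) (nat_lit 0x10000800040000000400030001000000000000000000000000000) := T_29 (nat_lit 191) (nat_lit 208) (nat_lit 5) (nat_lit 5) (nat_lit 8) L87415 (by decide +kernel)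
theorem L87503 : W_29 (nat_lit 2) (nat_lit 0x10000dc002c00068013c0082000000000000000000000000000000) (nat_lit 0x0) (nat_lit 0x20001000400000000000000000000000000000000000) := D_29 (nat_lit 156) (nat_lit 142) (nat_lit 173) (nat_lit 2) (nat_lit 2) (nat_lit 9) (nat_lit 4) (nat_lit 3) (nat_lit 11) (by decide +kernel)
theorem L87504 : W_29 (nat_lit 3) (nat_lit 0x10000dc002c00068013c0080000000000000000000000000000000) (nat_lit 0x0) (nat_lit 0x20001000400003000000000000000000000000000000) := T_29 (nat_lit 121) (nat_lit 120) (nat_lit 0) (nat_lit 5) (nat_lit 8) L87503 (by decide +kernel)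
theorem L87505 : W_29 (nat_lit 4) (nat_lit 0x10000dc002c00060013c0080000000000000000000000000000000) (nat_lit 0x0) (nat_lit 0x20001c00400003000000000000000000000000000000) := T_29 (nat_lit 155) (nat_lit 154) (nat_lit 1) (nat_lit 5) (nat_lit 8) L87504 (by decide +kernel)
theorem L87506 : W_29 (nat_lit 5) (nat_lit 0x10000d8002c00060013c0080000000000000000000000000000000) (nat_lit 0x0) (nat_lit 0x8000400020001c00400003000000000000000000000000000000) := T_29 (nat_lit 190) (nat_lit 207) (nat_lit 5) (nat_lit 4) (nat_lit 8) L87505 (by decide +kernel)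
theorem L87507 : W_29 (nat_lit 6) (nat_lit 0x10000d8002c0006001380080000000000000000000000000000000) (nat_lit 0x0) (nat_lit 0x8000400020001c00460003000000000000000000000000000000) := T_29 (nat_lit 138) (nat_lit 137) (nat_lit 3) (nat_lit 1) (nat_lit 8) L87506 (by decide +kernel)
theorem L87508 : W_29 (nat_lit 7) (nat_lit 0x10000d8002c0006001300080000000000000000000000000000000) (nat_lit 0x0) (nat_lit 0x8000400020001c004e0007000000000000000000000000000000) := T_29 (nat_lit 139) (nat_lit 122) (nat_lit 4) (nat_lit 4) (nat_lit 11) L87507 (by decide +kernel)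
theorem L87509 : W_29 (nat_lit 8) (nat_lit 0x10000d8002c0004001300080000000000000000000000000000000) (nat_lit 0x0) (nat_lit 0x28000400020003c004e0007000000000000000000000000000000) := T_29 (nat_lit 157) (nat_lit 209) (nat_lit 7) (nat_lit 4) (nat_lit 8) L87508 (by decide +kernel)
theorem L87510 : W_29 (nat_lit 9) (nat_lit 0x10000d800280004001300080000000000000000000000000000000) (nat_lit 0x0) (nat_lit 0x28000400060003c004e0017000000000000000000000000000000) := T_29 (nat_lit 174) (nat_lit 124) (nat_lit 5) (nat_lit 5) (nat_lit 7) L87509 (by decide +kernel)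
theorem L87511 : W_29 (nat_lit 10) (nat_lit 0x10000d000280004001300080000000000000000000000000000000) (nat_lit 0x0) (nat_lit 0x38000c00060003c004e0017000000000000000000000000000000) := T_29 (nat_lit 191) (nat_lit 208) (nat_lit 5) (nat_lit 5) (nat_lit 8) L87510 (by decide +kernel)
theorem L87512 : W_29 (nat_lit 11) (nat_lit 0x10000d000280004001200080000000000000000000000000000000) (nat_lit 0x0) (nat_lit 0x38000c00060003c005e001f000000000000000000000000000000) := T_29 (nat_lit 140) (nat_lit 123) (nat_lit 4) (nat_lit 5) (nat_lit 11) L87511 (by decide +kernel)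
theorem L87513 : W_29 (nat_lit 2) (nat_lit 0x10000d000280000001f00088000000000000000000000000000000) (nat_lit 0x0) (nat_lit 0x40003000000000000000000000000000000000000000) := D_29 (nat_lit 157) (nat_lit 156) (nat_lit 174) (nat_lit 1) (nat_lit 7) (nat_lit 8) (nat_lit 7) (nat_lit 4) (nat_lit 7) (by decide +kernel)
theorem L87514 : W_29 (nat_lit 3) (nat_lit 0x10000d000280000001e00088000000000000000000000000000000) (nat_lit 0x0) (nat_lit 0x40003000100004000000000000000000000000000000) := T_29 (nat_lit 140) (nat_lit 122) (nat_lit 0) (nat_lit 7) (nat_lit 8) L87513 (by decide +kernel)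
theorem L87515 : W_29 (nat_lit 4) (nat_lit 0x10000d000280000001e00080000000000000000000000000000000) (nat_lit 0x0) (nat_lit 0x4000300010001c000000000000000000000000000000) := T_29 (nat_lit 123) (nat_lit 124) (nat_lit 0) (nat_lit 8) (nat_lit 8) L87514 (by decide +kernel)
theorem L87516 : W_29 (nat_lit 4) (nat_lit 0x10000d000280014001200080000000000000000000000000000000) (nat_lit 0x0) (nat_lit 0x10000800040000000100018000400000000000000000000000000) := T_29 (nat_lit 191) (nat_lit 208) (nat_lit 5) (nat_lit 5) (nat_lit 8) L87413 (by decide +kernel)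
theorem L87517 : W_29 (nat_lit 5) (nat_lit 0x10000d000280004001200080000000000000000000000000000000) (nat_lit 0x0) (nat_lit 0x10000800040010000900018000400000000000000000000000000) := T_29 (nat_lit 160) (nat_lit 143) (nat_lit 7) (nat_lit 7) (nat_lit 8) L87516 (by decide +kernel)
theorem L87518 : W_29 (nat_lit 5) (nat_lit 0x10000d000280000001c00080000000000000000000000000000000) (nat_lit 0x0) (nat_lit 0x4000300030011c000000000000000000000000000000) := T_29 (nat_lit 141) (nat_lit 128) (nat_lit 2) (nat_lit 5) (nat_lit 8) L87515 (by decide +kernel)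
theorem L87523 : W_29 (nat_lit 2) (nat_lit 0x10000d000280000001000080000000000000000000000000000000) (nat_lit 0x0) (nat_lit 0x200002000040000000000000000000000000000000000000000000) := D_29 (nat_lit 193) (nat_lit 213) (nat_lit 174) (nat_lit 3) (nat_lit 5) (nat_lit 11) (nat_lit 0) (nat_lit 8) (nat_lit 11) (by decide +kernel)
theorem L87542 : W_29 (nat_lit 8) (nat_lit 0x1c000200000001000080000000000000000000000000000000) (nat_lit 0x0) (nat_lit 0x4003f001e200f400090004800000000000000000000000000000000000) := T_29 (nat_lit 160) (nat_lit 143) (nat_lit 6) (nat_lit 7) (nat_lit 11) L85997 (by decide +kernel)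
theorem L87543 : W_29 (nat_lit 7) (nat_lit 0x1e000200000001000080000000000000000000000000000000) (nat_lit 0x0) (nat_lit 0x38001801ce0010000800000000000000000000000000000000000) := T_29 (nat_lit 160) (nat_lit 143) (nat_lit 6) (nat_lit 7) (nat_lit 11) L85999 (by decide +kernel)
theorem L87544 : W_29 (nat_lit 2) (nat_lit 0x1f000a00000001000080000000000000000000000000000000) (nat_lit 0x0) (nat_lit 0x1c0000000000000000000000000000000000000000000) := D_29 (nat_lit 175) (nat_lit 176) (nat_lit 174) (nat_lit 0) (nat_lit 9) (nat_lit 11) (nat_lit 0) (nat_lit 8) (nat_lit 11) (by decide +kernel)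
theorem L87545 : W_29 (nat_lit 3) (nat_lit 0x1e000a00000001000080000000000000000000000000000000) (nat_lit 0x0) (nat_lit 0x10005c0000000000000000000000000000000000000000000) := T_29 (nat_lit 192) (nat_lit 178) (nat_lit 2) (nat_lit 5) (nat_lit 11) L87544 (by decide +kernel)
theorem L87546 : W_29 (nat_lit 4) (nat_lit 0x1e000200000001000080000000000000000000000000000000) (nat_lit 0x0) (nat_lit 0x1001dc0000000000000000000000000000000000000000000) := T_29 (nat_lit 179) (nat_lit 180) (nat_lit 2) (nat_lit 6) (nat_lit 11) L87545 (by decide +kernel)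
theorem L87547 : W_29 (nat_lit 10) (nat_lit 0x1c000200000001000080000000000000000000000000000000) (nat_lit 0x0) (nat_lit 0x20001c000e000738003801de0050000800000000000000000000000000000000000) := Q_29 (nat_lit 193) (C_29 L85944 (C_29 L87543 (C_29 L84902 (C_29 L87546 (C_29 L9287 (C_29 L85516 N_29)))))) (by decide +kernel)
theorem L87548 : W_29 (nat_lit 11) (nat_lit 0xc000200000001000080000000000000000000000000000000) (nat_lit 0x0) (nat_lit 0x20001c000e003f381f380fde00d0004800000000000000000000000000000000000) := Q_29 (nat_lit 196) (C_29 L85590 (C_29 L10819 (C_29 L87542 (C_29 L87547 N_29)))) (by decide +kernel)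
theorem L87549 : W_29 (nat_lit 2) (nat_lit 0x200010000c000300000001000080000000000000000000000000000000) (nat_lit 0x0) (nat_lit 0x80000000000010000800000000000000000000000000000000000) := D_29 (nat_lit 160) (nat_lit 143) (nat_lit 211) (nat_lit 7) (nat_lit 7) (nat_lit 8) (nat_lit 7) (nat_lit 7) (nat_lit 9) (by decide +kernel)
theorem L87550 : W_29 (nat_lit 3) (nat_lit 0x10000c000300000001000080000000000000000000000000000000) (nat_lit 0x0) (nat_lit 0x40002000080000000000010000800000000000000000000000000000000000) := T_29 (nat_lit 229) (nat_lit 246) (nat_lit 4) (nat_lit 8) (nat_lit 14) L87549 (by decide +kernel)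
theorem L87553 : W_29 (nat_lit 2) (nat_lit 0x2c000340008001400080000000000000000000000000000000) (nat_lit 0x0) (nat_lit 0x1000080000000000010000000000000000000000000000000000000000) := D_29 (nat_lit 211) (nat_lit 228) (nat_lit 160) (nat_lit 4) (nat_lit 7) (nat_lit 13) (nat_lit 4) (nat_lit 7) (nat_lit 12) (by decide +kernel)
theorem L87554 : W_29 (nat_lit 3) (nat_lit 0x2c000340000001400080000000000000000000000000000000) (nat_lit 0x0) (nat_lit 0x1000080000000000018000000020000000000000000000000000000000) := T_29 (nat_lit 159) (nat_lit 125) (nat_lit 7) (nat_lit 6) (nat_lit 7) L87553 (by decide +kernel)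
theorem L87555 : W_29 (nat_lit 4) (nat_lit 0xc000340000001400080000000000000000000000000000000) (nat_lit 0x0) (nat_lit 0x1000080030000000018000000020000000000000000000000000000000) := T_29 (nat_lit 197) (nat_lit 196) (nat_lit 0) (nat_lit 10) (nat_lit 11) L87554 (by decide +kernel)
theorem L87556 : W_29 (nat_lit 5) (nat_lit 0xc000300000001400080000000000000000000000000000000) (nat_lit 0x0) (nat_lit 0x10000800300000c0018000000020000000000000000000000000000000) := T_29 (nat_lit 174) (nat_lit 175) (nat_lit 3) (nat_lit 4) (nat_lit 10) L87555 (by decide +kernel)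
theorem L87557 : W_29 (nat_lit 15) (nat_lit 0xc000300000001000080000000000000000000000000000000) (nat_lit 0x0) (nat_lit 0x15000b8031c000e001fc00ff013f001e000f0000000000000000000000) := Q_29 (nat_lit 142) (C_29 L86413 (C_29 L86399 (C_29 L85546 (C_29 L87556 (C_29 L85524 (C_29 L86397 N_29)))))) (by decide +kernel)
theorem L87663 : W_29 (nat_lit 7) (nat_lit 0xc000380010001000080000000000000000000000000000000) (nat_lit 0x0) (nat_lit 0x2000100010003c001ce000000000000000000000000000000000000000) := T_29 (nat_lit 178) (nat_lit 196) (nat_lit 3) (nat_lit 5) (nat_lit 10) L86025 (by decide +kernel)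
theorem L87664 : W_29 (nat_lit 8) (nat_lit 0xc000300010001000080000000000000000000000000000000) (nat_lit 0x0) (nat_lit 0x2000100010003cc01ce000000000000000000000000000000000000000) := T_29 (nat_lit 175) (nat_lit 174) (nat_lit 3) (nat_lit 4) (nat_lit 10) L87663 (by decide +kernel)
theorem L87665 : W_29 (nat_lit 9) (nat_lit 0xc000300000001000080000000000000000000000000000000) (nat_lit 0x0) (nat_lit 0x2000100010003cc01de000800000000000000000000000000000000000) := T_29 (nat_lit 160) (nat_lit 143) (nat_lit 6) (nat_lit 7) (nat_lit 11) L87664 (by decide +kernel)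
theorem L87667 : W_29 (nat_lit 3) (nat_lit 0x10000f000200010001000080000000000000000000000000000000) (nat_lit 0x0) (nat_lit 0x800008000e0000000000000000000000000000000000000000000) := T_29 (nat_lit 191) (nat_lit 211) (nat_lit 3) (nat_lit 4) (nat_lit 11) L24857 (by decide +kernel)
theorem L87668 : W_29 (nat_lit 4) (nat_lit 0x10000e000200010001000080000000000000000000000000000000) (nat_lit 0x0) (nat_lit 0x2800018000e0000000000000000000000000000000000000000000) := T_29 (nat_lit 192) (nat_lit 213) (nat_lit 3) (nat_lit 5) (nat_lit 11) L87667 (by decide +kernel)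
theorem L87669 : W_29 (nat_lit 5) (nat_lit 0x10000e000200000001000080000000000000000000000000000000) (nat_lit 0x0) (nat_lit 0x2800018000e0010000800000000000000000000000000000000000) := T_29 (nat_lit 160) (nat_lit 143) (nat_lit 7) (nat_lit 7) (nat_lit 8) L87668 (by decide +kernel)
theorem L87670 : W_29 (nat_lit 2) (nat_lit 0x10000e000300008001000080000000000000000000000000000000) (nat_lit 0x0) (nat_lit 0x80000000000000000400020000000000000000000000000000000) := D_29 (nat_lit 142) (nat_lit 211) (nat_lit 125) (nat_lit 7) (nat_lit 6) (nat_lit 8) (nat_lit 7) (nat_lit 6) (nat_lit 7) (by decide +kernel)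
theorem L87671 : W_29 (nat_lit 3) (nat_lit 0x10000c000300008001000080000000000000000000000000000000) (nat_lit 0x0) (nat_lit 0x1000080000000000010000400020000000000000000000000000000000) := T_29 (nat_lit 142) (nat_lit 125) (nat_lit 7) (nat_lit 6) (nat_lit 7) L15985 (by decide +kernel)
theorem L87673 : W_29 (nat_lit 7) (nat_lit 0x10000c000340000001400080000000000000000000000000000000) (nat_lit 0x0) (nat_lit 0x800000017000b8010e000000000000000000000000000000) := T_29 (nat_lit 143) (nat_lit 160) (nat_lit 7) (nat_lit 7) (nat_lit 8) L87407 (by decide +kernel)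
theorem L87674 : W_29 (nat_lit 8) (nat_lit 0x10000c000300000001400080000000000000000000000000000000) (nat_lit 0x0) (nat_lit 0x8000c0017000b8010e000000000000000000000000000000) := T_29 (nat_lit 174) (nat_lit 175) (nat_lit 3) (nat_lit 4) (nat_lit 10) L87673 (by decide +kernel)
theorem L87675 : W_29 (nat_lit 2) (nat_lit 0x10000d000780004001600088000000000000000000000000000000) (nat_lit 0x0) (nat_lit 0x800110000000000000000000000000000000) := D_29 (nat_lit 143) (nat_lit 128) (nat_lit 124) (nat_lit 2) (nat_lit 5) (nat_lit 8) (nat_lit 0) (nat_lit 8) (nat_lit 8) (by decide +kernel)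
theorem L87676 : W_29 (nat_lit 3) (nat_lit 0x10000d000780004001600080000000000000000000000000000000) (nat_lit 0x0) (nat_lit 0x900118000000000000000000000000000000) := T_29 (nat_lit 123) (nat_lit 140) (nat_lit 4) (nat_lit 5) (nat_lit 11) L87675 (by decide +kernel)
theorem L87677 : W_29 (nat_lit 4) (nat_lit 0x10000d000780004001400080000000000000000000000000000000) (nat_lit 0x0) (nat_lit 0xb00138000000000000000000000000000000) := T_29 (nat_lit 141) (nat_lit 125) (nat_lit 6) (nat_lit 5) (nat_lit 11) L87676 (by decide +kernel)
theorem L87678 : W_29 (nat_lit 5) (nat_lit 0x10000c000780004001400080000000000000000000000000000000) (nat_lit 0x0) (nat_lit 0x1800000000000b00138000000000000000000000000000000) := T_29 (nat_lit 192) (nat_lit 191) (nat_lit 1) (nat_lit 8) (nat_lit 10) L87677 (by decide +kernel)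
theorem L87679 : W_29 (nat_lit 6) (nat_lit 0x10000c000380004001400080000000000000000000000000000000) (nat_lit 0x0) (nat_lit 0x1800400002000b00138000000000000000000000000000000) := T_29 (nat_lit 178) (nat_lit 157) (nat_lit 0) (nat_lit 8) (nat_lit 10) L87678 (by decide +kernel)
theorem L87680 : W_29 (nat_lit 2) (nat_lit 0x10000c000780004001400080000000000000000000000000000000) (nat_lit 0x0) (nat_lit 0x800008000000020000000000000000000000000000000) := D_29 (nat_lit 159) (nat_lit 125) (nat_lit 179) (nat_lit 7) (nat_lit 6) (nat_lit 7) (nat_lit 0) (nat_lit 9) (nat_lit 10) (by decide +kernel)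
theorem L87681 : W_29 (nat_lit 3) (nat_lit 0x10000c000380004001400080000000000000000000000000000000) (nat_lit 0x0) (nat_lit 0xc0000a000000020000000000000000000000000000000) := T_29 (nat_lit 178) (nat_lit 157) (nat_lit 0) (nat_lit 8) (nat_lit 10) L87680 (by decide +kernel)
theorem L87682 : W_29 (nat_lit 3) (nat_lit 0x10000c0003800040014000a0000000000000000000000000000000) (nat_lit 0x0) (nat_lit 0x1000000002000a00100000000000000000000000000000000) := T_29 (nat_lit 141) (nat_lit 192) (nat_lit 6) (nat_lit 5) (nat_lit 11) L82526 (by decide +kernel)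
theorem L87683 : W_29 (nat_lit 4) (nat_lit 0x10000c000380004001400080000000000000000000000000000000) (nat_lit 0x0) (nat_lit 0x100000000a000a00120000000000000000000000000000000) := T_29 (nat_lit 125) (nat_lit 159) (nat_lit 7) (nat_lit 6) (nat_lit 7) L87682 (by decide +kernel)
theorem L87684 : W_29 (nat_lit 2) (nat_lit 0x10000c0003800040016000a0000000000000000000000000000000) (nat_lit 0x0) (nat_lit 0x10001000080000000000000000000000) := D_29 (nat_lit 108) (nat_lit 124) (nat_lit 91) (nat_lit 6) (nat_lit 5) (nat_lit 10) (nat_lit 5) (nat_lit 6) (nat_lit 5) (by decide +kernel)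
theorem L87685 : W_29 (nat_lit 3) (nat_lit 0x10000c0003800040014000a0000000000000000000000000000000) (nat_lit 0x0) (nat_lit 0x1000000000000200010001000080000000000000000000000) := T_29 (nat_lit 141) (nat_lit 192) (nat_lit 6) (nat_lit 5) (nat_lit 11) L87684 (by decide +kernel)
theorem L87686 : W_29 (nat_lit 4) (nat_lit 0x10000c000380004001400080000000000000000000000000000000) (nat_lit 0x0) (nat_lit 0x1000000008000200030001000080000000000000000000000) := T_29 (nat_lit 125) (nat_lit 159) (nat_lit 7) (nat_lit 6) (nat_lit 7) L87685 (by decide +kernel)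
theorem L87687 : W_29 (nat_lit 2) (nat_lit 0x10000d000f80084001400080000000000000000000000000000000) (nat_lit 0x0) (nat_lit 0x3000100000000000000000000000000000000000000000) := D_29 (nat_lit 180) (nat_lit 181) (nat_lit 164) (nat_lit 1) (nat_lit 11) (nat_lit 10) (nat_lit 2) (nat_lit 7) (nat_lit 10) (by decide +kernel)
theorem L87688 : W_29 (nat_lit 3) (nat_lit 0x10000d000f80004001400080000000000000000000000000000000) (nat_lit 0x0) (nat_lit 0x30001c0000000000000000000000000000000000000000) := T_29 (nat_lit 163) (nat_lit 162) (nat_lit 2) (nat_lit 6) (nat_lit 10) L87687 (by decide +kernel)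
theorem L87689 : W_29 (nat_lit 4) (nat_lit 0x10000c000f80004001400080000000000000000000000000000000) (nat_lit 0x0) (nat_lit 0x18030001c0000000000000000000000000000000000000000) := T_29 (nat_lit 192) (nat_lit 191) (nat_lit 1) (nat_lit 8) (nat_lit 10) L87688 (by decide +kernel)
theorem L87690 : W_29 (nat_lit 5) (nat_lit 0x10000c000780004001400080000000000000000000000000000000) (nat_lit 0x0) (nat_lit 0x18038001c8000000000000000000000000000000000000000) := T_29 (nat_lit 179) (nat_lit 159) (nat_lit 0) (nat_lit 9) (nat_lit 10) L87689 (by decide +kernel)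
theorem L87691 : W_29 (nat_lit 6) (nat_lit 0x10000c000380004001400080000000000000000000000000000000) (nat_lit 0x0) (nat_lit 0x1803c001ca000000000000000000000000000000000000000) := T_29 (nat_lit 178) (nat_lit 157) (nat_lit 0) (nat_lit 8) (nat_lit 10) L87690 (by decide +kernel)
theorem L87692 : W_29 (nat_lit 7) (nat_lit 0x10000c000380000001400080000000000000000000000000000000) (nat_lit 0x0) (nat_lit 0x1803c001ce000b00138001000080000000000000000000000) := Q_29 (nat_lit 158) (C_29 L87679 (C_29 L87681 (C_29 L87683 (C_29 L87686 (C_29 L87691 N_29))))) (by decide +kernel)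
theorem L87693 : W_29 (nat_lit 8) (nat_lit 0x10000c000300000001400080000000000000000000000000000000) (nat_lit 0x0) (nat_lit 0x1803cc01ce000b00138001000080000000000000000000000) := T_29 (nat_lit 175) (nat_lit 174) (nat_lit 3) (nat_lit 4) (nat_lit 10) L87692 (by decide +kernel)
theorem L87694 : W_29 (nat_lit 9) (nat_lit 0x10000c000300000001000080000000000000000000000000000000) (nat_lit 0x0) (nat_lit 0x1000080001803cc01df000f8013e001000080000000000000000000000) := Q_29 (nat_lit 142) (C_29 L87674 (C_29 L87056 (C_29 L15986 (C_29 L87693 N_29)))) (by decide +kernel)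
theorem L87695 : W_29 (nat_lit 3) (nat_lit 0x10000d000300008001000080000000000000000000000000000000) (nat_lit 0x0) (nat_lit 0x220002000000000000400020000000000000000000000000000000) := T_29 (nat_lit 193) (nat_lit 213) (nat_lit 3) (nat_lit 5) (nat_lit 11) L86428 (by decide +kernel)
theorem L87696 : W_29 (nat_lit 2) (nat_lit 0x10000f000300008001000080000000000000000000000000000000) (nat_lit 0x0) (nat_lit 0x800c00000000000000000000000000000000000000000000) := D_29 (nat_lit 178) (nat_lit 179) (nat_lit 191) (nat_lit 2) (nat_lit 5) (nat_lit 11) (nat_lit 2) (nat_lit 4) (nat_lit 11) (by decide +kernel)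
theorem L87697 : W_29 (nat_lit 3) (nat_lit 0x10000d000300008001000080000000000000000000000000000000) (nat_lit 0x0) (nat_lit 0x200002800c00000000000000000000000000000000000000000000) := T_29 (nat_lit 193) (nat_lit 213) (nat_lit 3) (nat_lit 5) (nat_lit 11) L87696 (by decide +kernel)
theorem L87698 : W_29 (nat_lit 3) (nat_lit 0x10000c000340008001000080000000000000000000000000000000) (nat_lit 0x0) (nat_lit 0x1000080002000000000000400020000000000000000000000000000000) := T_29 (nat_lit 142) (nat_lit 125) (nat_lit 7) (nat_lit 6) (nat_lit 7) L15987 (by decide +kernel)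
theorem L87699 : W_29 (nat_lit 4) (nat_lit 0x10000c000300008001000080000000000000000000000000000000) (nat_lit 0x0) (nat_lit 0x10000800020000c0000000400020000000000000000000000000000000) := T_29 (nat_lit 174) (nat_lit 175) (nat_lit 3) (nat_lit 4) (nat_lit 10) L87698 (by decide +kernel)
theorem L87700 : W_29 (nat_lit 2) (nat_lit 0x10000c000340008001400080000000000000000000000000000000) (nat_lit 0x0) (nat_lit 0x80002000000010000000000000000000000000000000000000000) := D_29 (nat_lit 211) (nat_lit 160) (nat_lit 193) (nat_lit 4) (nat_lit 7) (nat_lit 12) (nat_lit 7) (nat_lit 6) (nat_lit 8) (by decide +kernel)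
theorem L87701 : W_29 (nat_lit 3) (nat_lit 0x10000c000340008001000080000000000000000000000000000000) (nat_lit 0x0) (nat_lit 0x80002000000010000400020000000000000000000000000000000) := T_29 (nat_lit 142) (nat_lit 125) (nat_lit 7) (nat_lit 6) (nat_lit 7) L87700 (by decide +kernel)
theorem L87702 : W_29 (nat_lit 4) (nat_lit 0x10000c000300008001000080000000000000000000000000000000) (nat_lit 0x0) (nat_lit 0x800020000c0010000400020000000000000000000000000000000) := T_29 (nat_lit 174) (nat_lit 175) (nat_lit 3) (nat_lit 4) (nat_lit 10) L87701 (by decide +kernel)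
theorem L87703 : W_29 (nat_lit 2) (nat_lit 0x10000d0007800080010000a0000000000000000000000000000000) (nat_lit 0x0) (nat_lit 0x800006000000000000000000000000000000000000000) := D_29 (nat_lit 158) (nat_lit 179) (nat_lit 157) (nat_lit 0) (nat_lit 9) (nat_lit 10) (nat_lit 0) (nat_lit 8) (nat_lit 10) (by decide +kernel)
theorem L87704 : W_29 (nat_lit 3) (nat_lit 0x10000d0003800080010000a0000000000000000000000000000000) (nat_lit 0x0) (nat_lit 0x800c00006000000000000000000000000000000000000000) := T_29 (nat_lit 178) (nat_lit 191) (nat_lit 1) (nat_lit 8) (nat_lit 10) L87703 (by decide +kernel)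
theorem L87705 : W_29 (nat_lit 4) (nat_lit 0x10000d0003000080010000a0000000000000000000000000000000) (nat_lit 0x0) (nat_lit 0x800cc0006000000000000000000000000000000000000000) := T_29 (nat_lit 175) (nat_lit 174) (nat_lit 3) (nat_lit 4) (nat_lit 10) L87704 (by decide +kernel)
theorem L87706 : W_29 (nat_lit 5) (nat_lit 0x10000d000300008001000080000000000000000000000000000000) (nat_lit 0x0) (nat_lit 0x800cc0006000400020000000000000000000000000000000) := T_29 (nat_lit 125) (nat_lit 142) (nat_lit 7) (nat_lit 6) (nat_lit 7) L87705 (by decide +kernel)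
theorem L87707 : W_29 (nat_lit 6) (nat_lit 0x10000c000300008001000080000000000000000000000000000000) (nat_lit 0x0) (nat_lit 0x220003800cc0006000400020000000000000000000000000000000) := Q_29 (nat_lit 192) (C_29 L87697 (C_29 L87695 (C_29 L87706 N_29))) (by decide +kernel)
theorem L87708 : W_29 (nat_lit 2) (nat_lit 0x100012000d00078000c001000080000000000000000000000000000000) (nat_lit 0x0) (nat_lit 0x210002000000000000000000000000000000000000000000000000) := D_29 (nat_lit 193) (nat_lit 213) (nat_lit 208) (nat_lit 3) (nat_lit 5) (nat_lit 11) (nat_lit 1) (nat_lit 8) (nat_lit 11) (by decide +kernel)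
theorem L87709 : W_29 (nat_lit 3) (nat_lit 0x100010000d00078000c001000080000000000000000000000000000000) (nat_lit 0x0) (nat_lit 0x400230002000000000000000000000000000000000000000000000000) := T_29 (nat_lit 209) (nat_lit 226) (nat_lit 6) (nat_lit 5) (nat_lit 13) L87708 (by decide +kernel)
theorem L87710 : W_29 (nat_lit 4) (nat_lit 0x100010000c00078000c001000080000000000000000000000000000000) (nat_lit 0x0) (nat_lit 0x400230003800000000000000000000000000000000000000000000000) := T_29 (nat_lit 192) (nat_lit 191) (nat_lit 1) (nat_lit 8) (nat_lit 10) L87709 (by decide +kernel)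
theorem L87711 : W_29 (nat_lit 5) (nat_lit 0x100010000c000780008001000080000000000000000000000000000000) (nat_lit 0x0) (nat_lit 0x400230003800000006000000000000000000000000000000000000000) := T_29 (nat_lit 158) (nat_lit 157) (nat_lit 0) (nat_lit 8) (nat_lit 10) L87710 (by decide +kernel)
theorem L87712 : W_29 (nat_lit 6) (nat_lit 0x10000c000780008001000080000000000000000000000000000000) (nat_lit 0x0) (nat_lit 0x14002b0003800000006000000000000000000000000000000000000000) := T_29 (nat_lit 228) (nat_lit 211) (nat_lit 4) (nat_lit 7) (nat_lit 13) L87711 (by decide +kernel)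
theorem L87713 : W_29 (nat_lit 7) (nat_lit 0x10000c000700008001000080000000000000000000000000000000) (nat_lit 0x0) (nat_lit 0x14002b00038000c0006000000000000000000000000000000000000000) := T_29 (nat_lit 175) (nat_lit 174) (nat_lit 3) (nat_lit 4) (nat_lit 10) L87712 (by decide +kernel)
theorem L87714 : W_29 (nat_lit 2) (nat_lit 0x100010000d000780008001000080000000000000000000000000000000) (nat_lit 0x0) (nat_lit 0x200002000800000000000000000000000000000000000000000000) := D_29 (nat_lit 193) (nat_lit 179) (nat_lit 213) (nat_lit 2) (nat_lit 5) (nat_lit 11) (nat_lit 3) (nat_lit 5) (nat_lit 11) (by decide +kernel)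
theorem L87715 : W_29 (nat_lit 3) (nat_lit 0x100010000c000780008001000080000000000000000000000000000000) (nat_lit 0x0) (nat_lit 0x200003800800000000000000000000000000000000000000000000) := T_29 (nat_lit 192) (nat_lit 191) (nat_lit 1) (nat_lit 8) (nat_lit 10) L87714 (by decide +kernel)
theorem L87716 : W_29 (nat_lit 4) (nat_lit 0x100010000c000700008001000080000000000000000000000000000000) (nat_lit 0x0) (nat_lit 0x2000038008c0000000000000000000000000000000000000000000) := T_29 (nat_lit 175) (nat_lit 174) (nat_lit 3) (nat_lit 4) (nat_lit 10) L87715 (by decide +kernel)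
theorem L87717 : W_29 (nat_lit 5) (nat_lit 0x10000c000700008001000080000000000000000000000000000000) (nat_lit 0x0) (nat_lit 0x10002800038008c0000000000000000000000000000000000000000000) := T_29 (nat_lit 228) (nat_lit 211) (nat_lit 4) (nat_lit 7) (nat_lit 13) L87716 (by decide +kernel)
theorem L87718 : W_29 (nat_lit 8) (nat_lit 0x10000c000300008001000080000000000000000000000000000000) (nat_lit 0x0) (nat_lit 0x14002b0003800cc0017000000000000000000000000000000000000000) := Q_29 (nat_lit 178) (C_29 L86073 (C_29 L87713 (C_29 L87717 N_29))) (by decide +kernel)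
theorem L87719 : W_29 (nat_lit 9) (nat_lit 0x10000c000300000001000080000000000000000000000000000000) (nat_lit 0x0) (nat_lit 0x14002b0003800cc001f000400020000000000000000000000000000000) := Q_29 (nat_lit 159) (C_29 L87671 (C_29 L87699 (C_29 L87702 (C_29 L87707 (C_29 L87718 N_29))))) (by decide +kernel)
theorem L87743 : W_29 (nat_lit 2) (nat_lit 0x10000d001f80004001000080000000000000000000000000000000) (nat_lit 0x0) (nat_lit 0x1c0000000000000000000000000000000000000000) := D_29 (nat_lit 163) (nat_lit 162) (nat_lit 164) (nat_lit 2) (nat_lit 6) (nat_lit 10) (nat_lit 2) (nat_lit 7) (nat_lit 10) (by decide +kernel)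
theorem L87744 : W_29 (nat_lit 3) (nat_lit 0x10000d000f80004001000080000000000000000000000000000000) (nat_lit 0x0) (nat_lit 0x30001c0000000000000000000000000000000000000000) := T_29 (nat_lit 180) (nat_lit 181) (nat_lit 1) (nat_lit 11) (nat_lit 10) L87743 (by decide +kernel)
theorem L87745 : W_29 (nat_lit 4) (nat_lit 0x10000d000780004001000080000000000000000000000000000000) (nat_lit 0x0) (nat_lit 0x38001c8000000000000000000000000000000000000000) := T_29 (nat_lit 179) (nat_lit 159) (nat_lit 0) (nat_lit 9) (nat_lit 10) L87744 (by decide +kernel)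
theorem L87746 : W_29 (nat_lit 5) (nat_lit 0x10000d000780000001000080000000000000000000000000000000) (nat_lit 0x0) (nat_lit 0x38001ce000000000000000000000000000000000000000) := T_29 (nat_lit 158) (nat_lit 157) (nat_lit 0) (nat_lit 8) (nat_lit 10) L87745 (by decide +kernel)
theorem L87747 : W_29 (nat_lit 6) (nat_lit 0x10000d000380000001000080000000000000000000000000000000) (nat_lit 0x0) (nat_lit 0x803c001ce000000000000000000000000000000000000000) := T_29 (nat_lit 178) (nat_lit 191) (nat_lit 1) (nat_lit 8) (nat_lit 10) L87746 (by decide +kernel)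
theorem L87748 : W_29 (nat_lit 7) (nat_lit 0x10000d000280000001000080000000000000000000000000000000) (nat_lit 0x0) (nat_lit 0x803d401ce000000000000000000000000000000000000000) := T_29 (nat_lit 176) (nat_lit 174) (nat_lit 3) (nat_lit 4) (nat_lit 10) L87747 (by decide +kernel)
theorem L87751 : W_29 (nat_lit 2) (nat_lit 0x10000d000280018001400080000000000000000000000000000000) (nat_lit 0x0) (nat_lit 0x100000000000020001000000000000000000000000000) := D_29 (nat_lit 125) (nat_lit 176) (nat_lit 108) (nat_lit 7) (nat_lit 6) (nat_lit 7) (nat_lit 7) (nat_lit 6) (nat_lit 6) (by decide +kernel)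
theorem L87752 : W_29 (nat_lit 3) (nat_lit 0x10000d000280010001400080000000000000000000000000000000) (nat_lit 0x0) (nat_lit 0x80000000100008000000020001000000000000000000000000000) := T_29 (nat_lit 159) (nat_lit 211) (nat_lit 4) (nat_lit 7) (nat_lit 12) L87751 (by decide +kernel)
theorem L87753 : W_29 (nat_lit 4) (nat_lit 0x10000d000280000001400080000000000000000000000000000000) (nat_lit 0x0) (nat_lit 0x80000000100018000800020001000000000000000000000000000) := T_29 (nat_lit 160) (nat_lit 143) (nat_lit 7) (nat_lit 7) (nat_lit 8) L87752 (by decide +kernel)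
theorem L87754 : W_29 (nat_lit 2) (nat_lit 0x10000d000780008001400080000000000000000000000000000000) (nat_lit 0x0) (nat_lit 0x1000080000000000010000000000000000000000000000000000000000) := D_29 (nat_lit 211) (nat_lit 228) (nat_lit 160) (nat_lit 4) (nat_lit 7) (nat_lit 13) (nat_lit 4) (nat_lit 7) (nat_lit 12) (by decide +kernel)
theorem L87755 : W_29 (nat_lit 3) (nat_lit 0x10000d000780000001400080000000000000000000000000000000) (nat_lit 0x0) (nat_lit 0x1000080000000000018000000020000000000000000000000000000000) := T_29 (nat_lit 159) (nat_lit 125) (nat_lit 7) (nat_lit 6) (nat_lit 7) L87754 (by decide +kernel)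
theorem L87756 : W_29 (nat_lit 4) (nat_lit 0x10000d000380000001400080000000000000000000000000000000) (nat_lit 0x0) (nat_lit 0x1000080000800400018000000020000000000000000000000000000000) := T_29 (nat_lit 178) (nat_lit 191) (nat_lit 1) (nat_lit 8) (nat_lit 10) L87755 (by decide +kernel)
theorem L87757 : W_29 (nat_lit 5) (nat_lit 0x10000d000280000001400080000000000000000000000000000000) (nat_lit 0x0) (nat_lit 0x1000080000800540018000000020000000000000000000000000000000) := T_29 (nat_lit 176) (nat_lit 174) (nat_lit 3) (nat_lit 4) (nat_lit 10) L87756 (by decide +kernel)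
theorem L87758 : W_29 (nat_lit 6) (nat_lit 0x10000d000280000001400080000000000000000000000000000000) (nat_lit 0x0) (nat_lit 0x40013000b0011c000000000000000000000000000000) := T_29 (nat_lit 143) (nat_lit 160) (nat_lit 7) (nat_lit 7) (nat_lit 8) L87518 (by decide +kernel)
theorem L87767 : W_29 (nat_lit 12) (nat_lit 0x10000d000280004001000080000000000000000000000000000000) (nat_lit 0x0) (nat_lit 0x200038000c00060003c007e003f0018000c0000000000000000000000) := Q_29 (nat_lit 141) (C_29 L87512 (C_29 L87496 (C_29 L87502 (C_29 L87427 (C_29 L87501 N_29))))) (by decide +kernel)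
theorem L87768 : W_29 (nat_lit 2) (nat_lit 0x10000d800280014001200090001400000000000000000000000000) (nat_lit 0x0) (nat_lit 0x8000a0000000000000000000000) := D_29 (nat_lit 107) (nat_lit 89) (nat_lit 91) (nat_lit 4) (nat_lit 5) (nat_lit 9) (nat_lit 6) (nat_lit 5) (nat_lit 9) (by decide +kernel)
theorem L87769 : W_29 (nat_lit 3) (nat_lit 0x10000d800280014001200090000400000000000000000000000000) (nat_lit 0x0) (nat_lit 0x200018000a0000000000000000000000) := T_29 (nat_lit 108) (nat_lit 125) (nat_lit 6) (nat_lit 5) (nat_lit 10) L87768 (by decide +kernel)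
theorem L87770 : W_29 (nat_lit 4) (nat_lit 0x10000d800280014001200090000000000000000000000000000000) (nat_lit 0x0) (nat_lit 0x28001c000a0000000000000000000000) := T_29 (nat_lit 106) (nat_lit 123) (nat_lit 4) (nat_lit 5) (nat_lit 10) L87769 (by decide +kernel)
theorem L87771 : W_29 (nat_lit 5) (nat_lit 0x10000d800280014001200080000000000000000000000000000000) (nat_lit 0x0) (nat_lit 0x40000000000038001c000a0000000000000000000000) := T_29 (nat_lit 124) (nat_lit 174) (nat_lit 5) (nat_lit 5) (nat_lit 7) L87770 (by decide +kernel)
theorem L87772 : W_29 (nat_lit 6) (nat_lit 0x10000d000280014001200080000000000000000000000000000000) (nat_lit 0x0) (nat_lit 0x10000800040000000000038001c000a0000000000000000000000) := T_29 (nat_lit 191) (nat_lit 208) (nat_lit 5) (nat_lit 5) (nat_lit 8) L87771 (by decide +kernel)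
theorem L87773 : W_29 (nat_lit 7) (nat_lit 0x10000d000280004001200080000000000000000000000000000000) (nat_lit 0x0) (nat_lit 0x10000800040010000800038001c000a0000000000000000000000) := T_29 (nat_lit 160) (nat_lit 143) (nat_lit 7) (nat_lit 7) (nat_lit 8) L87772 (by decide +kernel)
theorem L87774 : W_29 (nat_lit 2) (nat_lit 0x10000d000280016001300080000000000000000000000000000000) (nat_lit 0x0) (nat_lit 0x400008000080000000000000000000000000000000000) := D_29 (nat_lit 159) (nat_lit 178) (nat_lit 139) (nat_lit 3) (nat_lit 4) (nat_lit 9) (nat_lit 0) (nat_lit 7) (nat_lit 9) (by decide +kernel)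
theorem L87775 : W_29 (nat_lit 3) (nat_lit 0x10000d000280014001300080000000000000000000000000000000) (nat_lit 0x0) (nat_lit 0x2000000040000a000080000000000000000000000000000000000) := T_29 (nat_lit 157) (nat_lit 209) (nat_lit 4) (nat_lit 5) (nat_lit 12) L87774 (by decide +kernel)
theorem L87776 : W_29 (nat_lit 4) (nat_lit 0x10000d000280014001200080000000000000000000000000000000) (nat_lit 0x0) (nat_lit 0x2000000040000a000180008000000000000000000000000000000) := T_29 (nat_lit 140) (nat_lit 123) (nat_lit 4) (nat_lit 5) (nat_lit 11) L87775 (by decide +kernel)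
theorem L87777 : W_29 (nat_lit 5) (nat_lit 0x10000d000280004001200080000000000000000000000000000000) (nat_lit 0x0) (nat_lit 0x2000000040001a000980008000000000000000000000000000000) := T_29 (nat_lit 160) (nat_lit 143) (nat_lit 7) (nat_lit 7) (nat_lit 8) L87776 (by decide +kernel)
theorem L87778 : W_29 (nat_lit 2) (nat_lit 0x13000d00028001e001200080000000000000000000000000000000) (nat_lit 0x0) (nat_lit 0x400000000000060000000000000000000000000000000000000000000) := D_29 (nat_lit 174) (nat_lit 173) (nat_lit 226) (nat_lit 1) (nat_lit 7) (nat_lit 9) (nat_lit 4) (nat_lit 5) (nat_lit 13) (by decide +kernel)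
theorem L87779 : W_29 (nat_lit 3) (nat_lit 0x13000d000280016001200080000000000000000000000000000000) (nat_lit 0x0) (nat_lit 0x400000000000460008000000000000000000000000000000000000000) := T_29 (nat_lit 159) (nat_lit 178) (nat_lit 3) (nat_lit 4) (nat_lit 9) L87778 (by decide +kernel)
theorem L87780 : W_29 (nat_lit 4) (nat_lit 0x13000d000280014001200080000000000000000000000000000000) (nat_lit 0x0) (nat_lit 0x40000000000046000a000100000000000000000000000000000000000) := T_29 (nat_lit 157) (nat_lit 140) (nat_lit 4) (nat_lit 5) (nat_lit 12) L87779 (by decide +kernel)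
theorem L87781 : W_29 (nat_lit 5) (nat_lit 0x11000d000280014001200080000000000000000000000000000000) (nat_lit 0x0) (nat_lit 0x60002000000046000a000100000000000000000000000000000000000) := T_29 (nat_lit 209) (nat_lit 225) (nat_lit 5) (nat_lit 5) (nat_lit 9) L87780 (by decide +kernel)
theorem L87782 : W_29 (nat_lit 6) (nat_lit 0x11000d000280004001200080000000000000000000000000000000) (nat_lit 0x0) (nat_lit 0x60002000000046001a000900000000000000000000000000000000000) := T_29 (nat_lit 160) (nat_lit 143) (nat_lit 7) (nat_lit 7) (nat_lit 8) L87781 (by decide +kernel)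
theorem L87783 : W_29 (nat_lit 7) (nat_lit 0x10000d000280004001200080000000000000000000000000000000) (nat_lit 0x0) (nat_lit 0x60003000080046001a000900000000000000000000000000000000000) := T_29 (nat_lit 208) (nat_lit 191) (nat_lit 5) (nat_lit 5) (nat_lit 8) L87782 (by decide +kernel)
theorem L87784 : W_29 (nat_lit 8) (nat_lit 0x10000d000280004001000080000000000000000000000000000000) (nat_lit 0x0) (nat_lit 0x60003000080046001a000b80038001c000e0000000000000000000000) := Q_29 (nat_lit 141) (C_29 L87773 (C_29 L87496 (C_29 L87431 (C_29 L87777 (C_29 L87783 N_29))))) (by decide +kernel)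
theorem L87789 : W_29 (nat_lit 2) (nat_lit 0x10000d00028001e001000080000000000000000000000000000000) (nat_lit 0x0) (nat_lit 0xa0000000000000000400000000000000000000000000000000000) := D_29 (nat_lit 142) (nat_lit 211) (nat_lit 209) (nat_lit 4) (nat_lit 7) (nat_lit 12) (nat_lit 6) (nat_lit 5) (nat_lit 12) (by decide +kernel)
theorem L87790 : W_29 (nat_lit 3) (nat_lit 0x10000d000280016001000080000000000000000000000000000000) (nat_lit 0x0) (nat_lit 0xa0000000400008000400000000000000000000000000000000000) := T_29 (nat_lit 159) (nat_lit 178) (nat_lit 3) (nat_lit 4) (nat_lit 9) L87789 (by decide +kernel)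
theorem L87791 : W_29 (nat_lit 4) (nat_lit 0x10000d000280006001000080000000000000000000000000000000) (nat_lit 0x0) (nat_lit 0xa0000000400018000c00000000000000000000000000000000000) := T_29 (nat_lit 160) (nat_lit 143) (nat_lit 7) (nat_lit 7) (nat_lit 8) L87790 (by decide +kernel)
theorem L87794 : W_29 (nat_lit 2) (nat_lit 0x40012000d000280006001000080000000000000000000000000000000) (nat_lit 0x0) (nat_lit 0x4000200010000000000000000000000000000000000000000000000000000) := D_29 (nat_lit 225) (nat_lit 208) (nat_lit 242) (nat_lit 5) (nat_lit 5) (nat_lit 9) (nat_lit 5) (nat_lit 5) (nat_lit 10) (by decide +kernel)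
theorem L87795 : W_29 (nat_lit 3) (nat_lit 0x12000d000280006001000080000000000000000000000000000000) (nat_lit 0x0) (nat_lit 0x4000600010000000040000000000000000000000000000000000000000000) := T_29 (nat_lit 226) (nat_lit 174) (nat_lit 4) (nat_lit 5) (nat_lit 13) L87794 (by decide +kernel)
theorem L87796 : W_29 (nat_lit 4) (nat_lit 0x10000d000280006001000080000000000000000000000000000000) (nat_lit 0x0) (nat_lit 0x4000600030000000040000000100000000000000000000000000000000000) := T_29 (nat_lit 209) (nat_lit 140) (nat_lit 4) (nat_lit 5) (nat_lit 12) L87795 (by decide +kernel)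
theorem L87797 : W_29 (nat_lit 2) (nat_lit 0x10000d0002c001e001000080000000000000000000000000000000) (nat_lit 0x0) (nat_lit 0x180008000000000000000000000000000000) := D_29 (nat_lit 140) (nat_lit 139) (nat_lit 123) (nat_lit 0) (nat_lit 7) (nat_lit 9) (nat_lit 7) (nat_lit 4) (nat_lit 7) (by decide +kernel)
theorem L87798 : W_29 (nat_lit 3) (nat_lit 0x10000d00028001e001000080000000000000000000000000000000) (nat_lit 0x0) (nat_lit 0x60000000180008000000000000000000000000000000) := T_29 (nat_lit 174) (nat_lit 173) (nat_lit 1) (nat_lit 7) (nat_lit 9) L87797 (by decide +kernel)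
theorem L87799 : W_29 (nat_lit 4) (nat_lit 0x10000d000280016001000080000000000000000000000000000000) (nat_lit 0x0) (nat_lit 0x460008000180008000000000000000000000000000000) := T_29 (nat_lit 159) (nat_lit 178) (nat_lit 3) (nat_lit 4) (nat_lit 9) L87798 (by decide +kernel)
theorem L87800 : W_29 (nat_lit 5) (nat_lit 0x10000d000280006001000080000000000000000000000000000000) (nat_lit 0x0) (nat_lit 0x460018000980008000000000000000000000000000000) := T_29 (nat_lit 160) (nat_lit 143) (nat_lit 7) (nat_lit 7) (nat_lit 8) L87799 (by decide +kernel)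
theorem L87802 : W_29 (nat_lit 2) (nat_lit 0x13000d000280004001c00080000000000000000000000000000000) (nat_lit 0x0) (nat_lit 0x200120000000000000000000000000000000) := D_29 (nat_lit 141) (nat_lit 125) (nat_lit 128) (nat_lit 6) (nat_lit 5) (nat_lit 11) (nat_lit 2) (nat_lit 5) (nat_lit 8) (by decide +kernel)
theorem L87803 : W_29 (nat_lit 3) (nat_lit 0x13000d000280004001800080000000000000000000000000000000) (nat_lit 0x0) (nat_lit 0x8000600120000000000000000000000000000000) := T_29 (nat_lit 142) (nat_lit 159) (nat_lit 6) (nat_lit 5) (nat_lit 12) L87802 (by decide +kernel)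
theorem L87804 : W_29 (nat_lit 4) (nat_lit 0x12000d000280004001800080000000000000000000000000000000) (nat_lit 0x0) (nat_lit 0x200010000000000008000600120000000000000000000000000000000) := T_29 (nat_lit 208) (nat_lit 225) (nat_lit 5) (nat_lit 5) (nat_lit 9) L87803 (by decide +kernel)
theorem L87805 : W_29 (nat_lit 5) (nat_lit 0x12000d000280004001000080000000000000000000000000000000) (nat_lit 0x0) (nat_lit 0x200010000000000018000e00120000000000000000000000000000000) := T_29 (nat_lit 143) (nat_lit 160) (nat_lit 7) (nat_lit 7) (nat_lit 8) L87804 (by decide +kernel)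
theorem L87812 : W_29 (nat_lit 8) (nat_lit 0x10000d000280004001000080000000000000000000000000000000) (nat_lit 0x0) (nat_lit 0x10000800040010000f00138001c000a0000000000000000000000) := Q_29 (nat_lit 141) (C_29 L87773 (C_29 L87502 (C_29 L87490 (C_29 L87517 (C_29 L87434 N_29))))) (by decide +kernel)
theorem L87813 : W_29 (nat_lit 7) (nat_lit 0x10000d000280004001000080000000000000000000000000000000) (nat_lit 0x0) (nat_lit 0x2000000044001a000f80038001800040000000000000000000000) := Q_29 (nat_lit 141) (C_29 L87490 (C_29 L87441 (C_29 L87777 (C_29 L87501 N_29)))) (by decide +kernel)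
theorem L87815 : W_29 (nat_lit 8) (nat_lit 0x10000d000280004001000080000000000000000000000000000000) (nat_lit 0x0) (nat_lit 0x10000800040012000e00138001c000a0000000000000000000000) := Q_29 (nat_lit 141) (C_29 L87773 (C_29 L87502 (C_29 L87441 (C_29 L87436 N_29)))) (by decide +kernel)
theorem L87822 : W_29 (nat_lit 3) (nat_lit 0x10000d000380000001c00080000000000000000000000000000000) (nat_lit 0x0) (nat_lit 0x6000200120000000000000000000000000000000) := T_29 (nat_lit 141) (nat_lit 128) (nat_lit 2) (nat_lit 5) (nat_lit 8) L87406 (by decide +kernel)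
theorem L87823 : W_29 (nat_lit 4) (nat_lit 0x10000d000380000001400080000000000000000000000000000000) (nat_lit 0x0) (nat_lit 0x16000a00120000000000000000000000000000000) := T_29 (nat_lit 143) (nat_lit 160) (nat_lit 7) (nat_lit 7) (nat_lit 8) L87822 (by decide +kernel)
theorem L87824 : W_29 (nat_lit 2) (nat_lit 0x10000d000380010001400080000000000000000000000000000000) (nat_lit 0x0) (nat_lit 0x80000000000008000000020000000000000000000000000000000) := D_29 (nat_lit 159) (nat_lit 211) (nat_lit 125) (nat_lit 4) (nat_lit 7) (nat_lit 12) (nat_lit 7) (nat_lit 6) (nat_lit 7) (by decide +kernel)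
theorem L87825 : W_29 (nat_lit 3) (nat_lit 0x10000d000380000001400080000000000000000000000000000000) (nat_lit 0x0) (nat_lit 0x80000000000018000800020000000000000000000000000000000) := T_29 (nat_lit 160) (nat_lit 143) (nat_lit 7) (nat_lit 7) (nat_lit 8) L87824 (by decide +kernel)
theorem L87826 : W_29 (nat_lit 2) (nat_lit 0x10000d000380004001e00080000000000000000000000000000000) (nat_lit 0x0) (nat_lit 0x100018000000000000000000000000000000) := D_29 (nat_lit 123) (nat_lit 124) (nat_lit 140) (nat_lit 0) (nat_lit 8) (nat_lit 8) (nat_lit 4) (nat_lit 5) (nat_lit 11) (by decide +kernel)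
theorem L87827 : W_29 (nat_lit 3) (nat_lit 0x10000d000380000001e00080000000000000000000000000000000) (nat_lit 0x0) (nat_lit 0x6000100018000000000000000000000000000000) := T_29 (nat_lit 158) (nat_lit 157) (nat_lit 1) (nat_lit 8) (nat_lit 8) L87826 (by decide +kernel)
theorem L87828 : W_29 (nat_lit 4) (nat_lit 0x10000d000380000001c00080000000000000000000000000000000) (nat_lit 0x0) (nat_lit 0x6000300118000000000000000000000000000000) := T_29 (nat_lit 141) (nat_lit 128) (nat_lit 2) (nat_lit 5) (nat_lit 8) L87827 (by decide +kernel)
theorem L87829 : W_29 (nat_lit 5) (nat_lit 0x10000d000380000001400080000000000000000000000000000000) (nat_lit 0x0) (nat_lit 0x16000b00118000000000000000000000000000000) := T_29 (nat_lit 143) (nat_lit 160) (nat_lit 7) (nat_lit 7) (nat_lit 8) L87828 (by decide +kernel)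
theorem L87830 : W_29 (nat_lit 6) (nat_lit 0x10000d000380000001000080000000000000000000000000000000) (nat_lit 0x0) (nat_lit 0x4000a000000000001e000f00138000000000000000000000000000000) := Q_29 (nat_lit 142) (C_29 L85535 (C_29 L87823 (C_29 L87825 (C_29 L87829 N_29)))) (by decide +kernel)
theorem L87831 : W_29 (nat_lit 6) (nat_lit 0x10000d000280004001000080000000000000000000000000000000) (nat_lit 0x0) (nat_lit 0x20003000080040001a000f80038000000000000000000000000000000) := Q_29 (nat_lit 141) (C_29 L87777 (C_29 L87490 (C_29 L87427 (C_29 L87441 N_29)))) (by decide +kernel)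
theorem L87864 : W_29 (nat_lit 2) (nat_lit 0x12000d000280004001f00080000000000000000000000000000000) (nat_lit 0x0) (nat_lit 0x200010000800000000000000000000000000000000000000000000000) := D_29 (nat_lit 208) (nat_lit 225) (nat_lit 191) (nat_lit 5) (nat_lit 5) (nat_lit 9) (nat_lit 5) (nat_lit 5) (nat_lit 8) (by decide +kernel)
theorem L87865 : W_29 (nat_lit 3) (nat_lit 0x10000d000280004001f00080000000000000000000000000000000) (nat_lit 0x0) (nat_lit 0x200030000800000008000000000000000000000000000000000000000) := T_29 (nat_lit 209) (nat_lit 159) (nat_lit 6) (nat_lit 5) (nat_lit 12) L87864 (by decide +kernel)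
theorem L87869 : W_29 (nat_lit 5) (nat_lit 0x10000d000280004001200080000000000000000000000000000000) (nat_lit 0x0) (nat_lit 0x10000800000000000500038001400000000000000000000000000) := T_29 (nat_lit 191) (nat_lit 208) (nat_lit 5) (nat_lit 5) (nat_lit 8) L87418 (by decide +kernel)
theorem L87870 : W_29 (nat_lit 2) (nat_lit 0x10000d800680004001600080000000000000000000000000000000) (nat_lit 0x0) (nat_lit 0x2000800100000000000000000000000000000000) := D_29 (nat_lit 143) (nat_lit 128) (nat_lit 157) (nat_lit 2) (nat_lit 5) (nat_lit 8) (nat_lit 1) (nat_lit 8) (nat_lit 8) (by decide +kernel)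
theorem L87871 : W_29 (nat_lit 3) (nat_lit 0x10000d800680004001200080000000000000000000000000000000) (nat_lit 0x0) (nat_lit 0x2000c00120000000000000000000000000000000) := T_29 (nat_lit 142) (nat_lit 125) (nat_lit 6) (nat_lit 5) (nat_lit 11) L87870 (by decide +kernel)
theorem L87872 : W_29 (nat_lit 4) (nat_lit 0x10000d800280004001200080000000000000000000000000000000) (nat_lit 0x0) (nat_lit 0x500002000c00120000000000000000000000000000000) := T_29 (nat_lit 178) (nat_lit 176) (nat_lit 1) (nat_lit 8) (nat_lit 10) L87871 (by decide +kernel)
theorem L87873 : W_29 (nat_lit 5) (nat_lit 0x10000d000280004001200080000000000000000000000000000000) (nat_lit 0x0) (nat_lit 0x10000800500002000c00120000000000000000000000000000000) := T_29 (nat_lit 191) (nat_lit 208) (nat_lit 5) (nat_lit 5) (nat_lit 8) L87872 (by decide +kernel)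
theorem L87875 : W_29 (nat_lit 2) (nat_lit 0x10000d000280016001000080000000000000000000000000000000) (nat_lit 0x0) (nat_lit 0x500008000000000000000000000000000000000000000) := D_29 (nat_lit 178) (nat_lit 159) (nat_lit 176) (nat_lit 3) (nat_lit 4) (nat_lit 9) (nat_lit 0) (nat_lit 8) (nat_lit 10) (by decide +kernel)
theorem L87876 : W_29 (nat_lit 3) (nat_lit 0x10000d000280006001000080000000000000000000000000000000) (nat_lit 0x0) (nat_lit 0x500018000800000000000000000000000000000000000) := T_29 (nat_lit 160) (nat_lit 143) (nat_lit 7) (nat_lit 7) (nat_lit 8) L87875 (by decide +kernel)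
theorem L87877 : W_29 (nat_lit 4) (nat_lit 0x10000d000280004001000080000000000000000000000000000000) (nat_lit 0x0) (nat_lit 0x2000000050001a000b00008000400000000000000000000000000) := Q_29 (nat_lit 157) (C_29 L87459 (C_29 L87876 N_29)) (by decide +kernel)
theorem L87878 : W_29 (nat_lit 2) (nat_lit 0x10000da00380014001200098001000000000000000000000000000) (nat_lit 0x0) (nat_lit 0x8000000000000800080000000000000000000000) := D_29 (nat_lit 107) (nat_lit 159) (nat_lit 91) (nat_lit 7) (nat_lit 5) (nat_lit 6) (nat_lit 6) (nat_lit 5) (nat_lit 9) (by decide +kernel)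
theorem L87879 : W_29 (nat_lit 3) (nat_lit 0x10000da00380014001200098000000000000000000000000000000) (nat_lit 0x0) (nat_lit 0x8000000020001800080000000000000000000000) := T_29 (nat_lit 108) (nat_lit 125) (nat_lit 6) (nat_lit 5) (nat_lit 10) L87878 (by decide +kernel)
theorem L87880 : W_29 (nat_lit 4) (nat_lit 0x10000da00380014001200088000000000000000000000000000000) (nat_lit 0x0) (nat_lit 0x8000000030001c00080000000000000000000000) := T_29 (nat_lit 124) (nat_lit 106) (nat_lit 4) (nat_lit 5) (nat_lit 10) L87879 (by decide +kernel)
theorem L87881 : W_29 (nat_lit 5) (nat_lit 0x10000da00380014001200080000000000000000000000000000000) (nat_lit 0x0) (nat_lit 0x8000100038001c00080000000000000000000000) := T_29 (nat_lit 123) (nat_lit 140) (nat_lit 4) (nat_lit 5) (nat_lit 11) L87880 (by decide +kernel)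
theorem L87882 : W_29 (nat_lit 6) (nat_lit 0x10000d800380014001200080000000000000000000000000000000) (nat_lit 0x0) (nat_lit 0x600000008000100038001c00080000000000000000000000) := T_29 (nat_lit 189) (nat_lit 190) (nat_lit 2) (nat_lit 2) (nat_lit 11) L87881 (by decide +kernel)
theorem L87883 : W_29 (nat_lit 7) (nat_lit 0x10000d800280014001200080000000000000000000000000000000) (nat_lit 0x0) (nat_lit 0x600500008000100038001c00080000000000000000000000) := T_29 (nat_lit 176) (nat_lit 178) (nat_lit 1) (nat_lit 8) (nat_lit 10) L87882 (by decide +kernel)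
theorem L87884 : W_29 (nat_lit 8) (nat_lit 0x10000d000280014001200080000000000000000000000000000000) (nat_lit 0x0) (nat_lit 0x10000e00500008000100038001c00080000000000000000000000) := T_29 (nat_lit 191) (nat_lit 208) (nat_lit 5) (nat_lit 5) (nat_lit 8) L87883 (by decide +kernel)
theorem L87885 : W_29 (nat_lit 9) (nat_lit 0x10000d000280004001200080000000000000000000000000000000) (nat_lit 0x0) (nat_lit 0x10000e00500018000900038001c00080000000000000000000000) := T_29 (nat_lit 160) (nat_lit 143) (nat_lit 7) (nat_lit 7) (nat_lit 8) L87884 (by decide +kernel)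
theorem L87886 : W_29 (nat_lit 10) (nat_lit 0x10000d000280004001000080000000000000000000000000000000) (nat_lit 0x0) (nat_lit 0x10000e0050001a000f00138001c00080000000000000000000000) := Q_29 (nat_lit 141) (C_29 L87885 (C_29 L87869 (C_29 L87490 (C_29 L87873 (C_29 L87436 N_29))))) (by decide +kernel)
theorem L87887 : W_29 (nat_lit 2) (nat_lit 0x12000d000380006001800080000000000000000000000000000000) (nat_lit 0x0) (nat_lit 0x400000000000000009000000000000000000000000000000000000000) := D_29 (nat_lit 159) (nat_lit 226) (nat_lit 156) (nat_lit 6) (nat_lit 5) (nat_lit 13) (nat_lit 3) (nat_lit 3) (nat_lit 9) (by decide +kernel)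
theorem L87888 : W_29 (nat_lit 3) (nat_lit 0x12000d000280006001800080000000000000000000000000000000) (nat_lit 0x0) (nat_lit 0x400000000000500009000000000000000000000000000000000000000) := T_29 (nat_lit 176) (nat_lit 178) (nat_lit 0) (nat_lit 8) (nat_lit 10) L87887 (by decide +kernel)
theorem L87889 : W_29 (nat_lit 4) (nat_lit 0x12000d000280004001800080000000000000000000000000000000) (nat_lit 0x0) (nat_lit 0x40000000000050000b000100000000000000000000000000000000000) := T_29 (nat_lit 157) (nat_lit 140) (nat_lit 4) (nat_lit 5) (nat_lit 12) L87888 (by decide +kernel)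
theorem L87890 : W_29 (nat_lit 5) (nat_lit 0x12000d000280004001000080000000000000000000000000000000) (nat_lit 0x0) (nat_lit 0x40000000000050001b000900000000000000000000000000000000000) := T_29 (nat_lit 143) (nat_lit 160) (nat_lit 7) (nat_lit 7) (nat_lit 8) L87889 (by decide +kernel)
theorem L87899 : W_29 (nat_lit 2) (nat_lit 0x10000d00028001c001000080000000000000000000000000000000) (nat_lit 0x0) (nat_lit 0xa0000000000000000400000000000000000000000000000000000) := D_29 (nat_lit 142) (nat_lit 211) (nat_lit 209) (nat_lit 4) (nat_lit 7) (nat_lit 12) (nat_lit 6) (nat_lit 5) (nat_lit 12) (by decide +kernel)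
theorem L87900 : W_29 (nat_lit 3) (nat_lit 0x10000d00028000c001000080000000000000000000000000000000) (nat_lit 0x0) (nat_lit 0xa0000000000010000c00000000000000000000000000000000000) := T_29 (nat_lit 160) (nat_lit 143) (nat_lit 7) (nat_lit 7) (nat_lit 8) L87899 (by decide +kernel)
theorem L87910 : W_29 (nat_lit 2) (nat_lit 0x10000d00028001e001000080000000000000000000000000000000) (nat_lit 0x0) (nat_lit 0x20000000000000000180000000000000000000000000000000000) := D_29 (nat_lit 140) (nat_lit 139) (nat_lit 209) (nat_lit 0) (nat_lit 7) (nat_lit 9) (nat_lit 4) (nat_lit 5) (nat_lit 12) (by decide +kernel)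
theorem L87911 : W_29 (nat_lit 3) (nat_lit 0x10000d00028001c001000080000000000000000000000000000000) (nat_lit 0x0) (nat_lit 0x20000000400002000180000000000000000000000000000000000) := T_29 (nat_lit 157) (nat_lit 178) (nat_lit 3) (nat_lit 4) (nat_lit 9) L87910 (by decide +kernel)
theorem L87912 : W_29 (nat_lit 4) (nat_lit 0x10000d00028000c001000080000000000000000000000000000000) (nat_lit 0x0) (nat_lit 0x20000000400012000980000000000000000000000000000000000) := T_29 (nat_lit 160) (nat_lit 143) (nat_lit 7) (nat_lit 7) (nat_lit 8) L87911 (by decide +kernel)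
theorem L87913 : W_29 (nat_lit 2) (nat_lit 0x18000d00028001e001000080000000000000000000000000000000) (nat_lit 0x0) (nat_lit 0x1000000000000100001000000000000000000000000000000000000000) := D_29 (nat_lit 176) (nat_lit 156) (nat_lit 228) (nat_lit 3) (nat_lit 3) (nat_lit 9) (nat_lit 4) (nat_lit 7) (nat_lit 13) (by decide +kernel)
theorem L87914 : W_29 (nat_lit 3) (nat_lit 0x18000d00028001c001000080000000000000000000000000000000) (nat_lit 0x0) (nat_lit 0x1000000000000500003000000000000000000000000000000000000000) := T_29 (nat_lit 157) (nat_lit 178) (nat_lit 3) (nat_lit 4) (nat_lit 9) L87913 (by decide +kernel)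
theorem L87915 : W_29 (nat_lit 4) (nat_lit 0x10000d00028001c001000080000000000000000000000000000000) (nat_lit 0x0) (nat_lit 0x1000080000000500003000400000000000000000000000000000000000) := T_29 (nat_lit 211) (nat_lit 142) (nat_lit 4) (nat_lit 7) (nat_lit 12) L87914 (by decide +kernel)
theorem L87916 : W_29 (nat_lit 5) (nat_lit 0x10000d00028000c001000080000000000000000000000000000000) (nat_lit 0x0) (nat_lit 0x1000080000000500013000c00000000000000000000000000000000000) := T_29 (nat_lit 160) (nat_lit 143) (nat_lit 7) (nat_lit 7) (nat_lit 8) L87915 (by decide +kernel)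
theorem L87918 : W_29 (nat_lit 2) (nat_lit 0x10000d000280014001600080000000000000000000000000000000) (nat_lit 0x0) (nat_lit 0xa0000000000008000000000000000000000000000000000000000) := D_29 (nat_lit 159) (nat_lit 211) (nat_lit 209) (nat_lit 4) (nat_lit 7) (nat_lit 12) (nat_lit 6) (nat_lit 5) (nat_lit 12) (by decide +kernel)
theorem L87919 : W_29 (nat_lit 3) (nat_lit 0x10000d000280014001200080000000000000000000000000000000) (nat_lit 0x0) (nat_lit 0xa0000000000008000400020000000000000000000000000000000) := T_29 (nat_lit 142) (nat_lit 125) (nat_lit 6) (nat_lit 5) (nat_lit 11) L87918 (by decide +kernel)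
theorem L87920 : W_29 (nat_lit 4) (nat_lit 0x10000d000280004001200080000000000000000000000000000000) (nat_lit 0x0) (nat_lit 0xa0000000000018000c00020000000000000000000000000000000) := T_29 (nat_lit 160) (nat_lit 143) (nat_lit 7) (nat_lit 7) (nat_lit 8) L87919 (by decide +kernel)
theorem L87921 : W_29 (nat_lit 4) (nat_lit 0x10000d000280004001b00080000000000000000000000000000000) (nat_lit 0x0) (nat_lit 0x200030000800000008000400100000000000000000000000000000000) := T_29 (nat_lit 142) (nat_lit 128) (nat_lit 2) (nat_lit 5) (nat_lit 8) L87865 (by decide +kernel)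
theorem L87922 : W_29 (nat_lit 5) (nat_lit 0x10000d000280004001300080000000000000000000000000000000) (nat_lit 0x0) (nat_lit 0x200030000800000018000c00100000000000000000000000000000000) := T_29 (nat_lit 143) (nat_lit 160) (nat_lit 7) (nat_lit 7) (nat_lit 8) L87921 (by decide +kernel)
theorem L87923 : W_29 (nat_lit 6) (nat_lit 0x10000d000280004001200080000000000000000000000000000000) (nat_lit 0x0) (nat_lit 0x200030000800000018000d00108000000000000000000000000000000) := T_29 (nat_lit 140) (nat_lit 123) (nat_lit 4) (nat_lit 5) (nat_lit 11) L87922 (by decide +kernel)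
theorem L87924 : W_29 (nat_lit 10) (nat_lit 0x10000d000280004001000080000000000000000000000000000000) (nat_lit 0x0) (nat_lit 0x2000b0000e00500018000f00138001c00080000000000000000000000) := Q_29 (nat_lit 141) (C_29 L87869 (C_29 L87885 (C_29 L87490 (C_29 L87920 (C_29 L87923 N_29))))) (by decide +kernel)
theorem L87925 : W_29 (nat_lit 2) (nat_lit 0x10000d000280014001400080000000000000000000000000000000) (nat_lit 0x0) (nat_lit 0xa0000000000008000000000000000000000000000000000000000) := D_29 (nat_lit 159) (nat_lit 211) (nat_lit 209) (nat_lit 4) (nat_lit 7) (nat_lit 12) (nat_lit 6) (nat_lit 5) (nat_lit 12) (by decide +kernel)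
theorem L87926 : W_29 (nat_lit 3) (nat_lit 0x10000d000280004001400080000000000000000000000000000000) (nat_lit 0x0) (nat_lit 0xa0000000000018000800000000000000000000000000000000000) := T_29 (nat_lit 160) (nat_lit 143) (nat_lit 7) (nat_lit 7) (nat_lit 8) L87925 (by decide +kernel)
theorem L87927 : W_29 (nat_lit 2) (nat_lit 0x10000d000280004001600080000000000000000000000000000000) (nat_lit 0x0) (nat_lit 0x12000800000000000000000000000000000000000) := D_29 (nat_lit 143) (nat_lit 160) (nat_lit 157) (nat_lit 7) (nat_lit 7) (nat_lit 8) (nat_lit 1) (nat_lit 8) (nat_lit 8) (by decide +kernel)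
theorem L87928 : W_29 (nat_lit 3) (nat_lit 0x10000d000280004001400080000000000000000000000000000000) (nat_lit 0x0) (nat_lit 0x12000a00020000000000000000000000000000000) := T_29 (nat_lit 141) (nat_lit 125) (nat_lit 6) (nat_lit 5) (nat_lit 11) L87927 (by decide +kernel)
theorem L87929 : W_29 (nat_lit 2) (nat_lit 0x13000d000280004001400080000000000000000000000000000000) (nat_lit 0x0) (nat_lit 0x800000000000200020000000000000000000000000000000) := D_29 (nat_lit 141) (nat_lit 191) (nat_lit 125) (nat_lit 5) (nat_lit 5) (nat_lit 8) (nat_lit 6) (nat_lit 5) (nat_lit 11) (by decide +kernel)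
theorem L87930 : W_29 (nat_lit 3) (nat_lit 0x12000d000280004001400080000000000000000000000000000000) (nat_lit 0x0) (nat_lit 0x200010000800000000000200020000000000000000000000000000000) := T_29 (nat_lit 208) (nat_lit 225) (nat_lit 5) (nat_lit 5) (nat_lit 9) L87929 (by decide +kernel)
theorem L87931 : W_29 (nat_lit 4) (nat_lit 0x10000d000280004001400080000000000000000000000000000000) (nat_lit 0x0) (nat_lit 0x200030000800000008000200020000000000000000000000000000000) := T_29 (nat_lit 209) (nat_lit 159) (nat_lit 6) (nat_lit 5) (nat_lit 12) L87930 (by decide +kernel)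
theorem L87932 : W_29 (nat_lit 5) (nat_lit 0x10000d000280004001000080000000000000000000000000000000) (nat_lit 0x0) (nat_lit 0x2000b000080000001a000e00020000000000000000000000000000000) := Q_29 (nat_lit 142) (C_29 L87926 (C_29 L87928 (C_29 L87931 N_29))) (by decide +kernel)
theorem L87938 : W_29 (nat_lit 2) (nat_lit 0x12000d000280000001000080000000000000000000000000000000) (nat_lit 0x0) (nat_lit 0x210002000000000000000000000000000000000000000000000000) := D_29 (nat_lit 193) (nat_lit 213) (nat_lit 208) (nat_lit 3) (nat_lit 5) (nat_lit 11) (nat_lit 1) (nat_lit 8) (nat_lit 11) (by decide +kernel)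
theorem L87939 : W_29 (nat_lit 2) (nat_lit 0x12000d00028000e001000080000000000000000000000000000000) (nat_lit 0x0) (nat_lit 0x500010000000000000000000000000000000000000000) := D_29 (nat_lit 178) (nat_lit 160) (nat_lit 176) (nat_lit 3) (nat_lit 4) (nat_lit 9) (nat_lit 0) (nat_lit 8) (nat_lit 10) (by decide +kernel)
theorem L87940 : W_29 (nat_lit 3) (nat_lit 0x12000d00028000c001000080000000000000000000000000000000) (nat_lit 0x0) (nat_lit 0x500012000100000000000000000000000000000000000) := T_29 (nat_lit 157) (nat_lit 140) (nat_lit 4) (nat_lit 5) (nat_lit 12) L87939 (by decide +kernel)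
theorem L87941 : W_29 (nat_lit 4) (nat_lit 0x12000d000280004001000080000000000000000000000000000000) (nat_lit 0x0) (nat_lit 0x50001a000500000000000000000000000000000000000) := T_29 (nat_lit 159) (nat_lit 142) (nat_lit 6) (nat_lit 5) (nat_lit 12) L87940 (by decide +kernel)
theorem L87942 : W_29 (nat_lit 2) (nat_lit 0x12000d00028000e001000080000000000000000000000000000000) (nat_lit 0x0) (nat_lit 0x400000000000100001000000000000000000000000000000000000000) := D_29 (nat_lit 176) (nat_lit 156) (nat_lit 226) (nat_lit 3) (nat_lit 3) (nat_lit 9) (nat_lit 6) (nat_lit 5) (nat_lit 13) (by decide +kernel)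
theorem L87943 : W_29 (nat_lit 3) (nat_lit 0x12000d00028000c001000080000000000000000000000000000000) (nat_lit 0x0) (nat_lit 0x400000000000100003000100000000000000000000000000000000000) := T_29 (nat_lit 157) (nat_lit 140) (nat_lit 4) (nat_lit 5) (nat_lit 12) L87942 (by decide +kernel)
theorem L87944 : W_29 (nat_lit 4) (nat_lit 0x12000d000280004001000080000000000000000000000000000000) (nat_lit 0x0) (nat_lit 0x40000000000010000b000500000000000000000000000000000000000) := T_29 (nat_lit 159) (nat_lit 142) (nat_lit 6) (nat_lit 5) (nat_lit 12) L87943 (by decide +kernel)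
theorem L87945 : W_29 (nat_lit 6) (nat_lit 0x12000d000280000001000080000000000000000000000000000000) (nat_lit 0x0) (nat_lit 0x60001000000050001f000f00128000000000000000000000000000000) := Q_29 (nat_lit 158) (C_29 L87805 (C_29 L87487 (C_29 L87890 (C_29 L87941 (C_29 L87944 N_29))))) (by decide +kernel)
theorem L87979 : W_29 (nat_lit 2) (nat_lit 0x10000d00028001c001400080000000000000000000000000000000) (nat_lit 0x0) (nat_lit 0x200020001000000000000000000000000000) := D_29 (nat_lit 125) (nat_lit 108) (nat_lit 141) (nat_lit 7) (nat_lit 6) (nat_lit 6) (nat_lit 6) (nat_lit 5) (nat_lit 11) (by decide +kernel)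
theorem L87980 : W_29 (nat_lit 3) (nat_lit 0x10000d000280018001400080000000000000000000000000000000) (nat_lit 0x0) (nat_lit 0x20000000000004000200020001000000000000000000000000000) := T_29 (nat_lit 158) (nat_lit 209) (nat_lit 6) (nat_lit 5) (nat_lit 12) L87979 (by decide +kernel)
theorem L87981 : W_29 (nat_lit 4) (nat_lit 0x10000d000280010001400080000000000000000000000000000000) (nat_lit 0x0) (nat_lit 0xa000000000000c000200020001000000000000000000000000000) := T_29 (nat_lit 159) (nat_lit 211) (nat_lit 4) (nat_lit 7) (nat_lit 12) L87980 (by decide +kernel)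
theorem L87982 : W_29 (nat_lit 5) (nat_lit 0x10000d000280000001400080000000000000000000000000000000) (nat_lit 0x0) (nat_lit 0xa000000000001c000a00020001000000000000000000000000000) := T_29 (nat_lit 160) (nat_lit 143) (nat_lit 7) (nat_lit 7) (nat_lit 8) L87981 (by decide +kernel)
theorem L87983 : W_29 (nat_lit 4) (nat_lit 0x10000d0002c0000001c00080000000000000000000000000000000) (nat_lit 0x0) (nat_lit 0x800000004000200138000000000000000000000000000000) := T_29 (nat_lit 141) (nat_lit 128) (nat_lit 2) (nat_lit 5) (nat_lit 8) L87479 (by decide +kernel)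
theorem L87984 : W_29 (nat_lit 5) (nat_lit 0x10000d000280000001c00080000000000000000000000000000000) (nat_lit 0x0) (nat_lit 0x800140004000200138000000000000000000000000000000) := T_29 (nat_lit 174) (nat_lit 176) (nat_lit 3) (nat_lit 4) (nat_lit 10) L87983 (by decide +kernel)
theorem L87985 : W_29 (nat_lit 6) (nat_lit 0x10000d000280000001400080000000000000000000000000000000) (nat_lit 0x0) (nat_lit 0x800140014000a00138000000000000000000000000000000) := T_29 (nat_lit 143) (nat_lit 160) (nat_lit 7) (nat_lit 7) (nat_lit 8) L87984 (by decide +kernel)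
theorem L87986 : W_29 (nat_lit 4) (nat_lit 0x10000d000280000001400080000000000000000000000000000000) (nat_lit 0x0) (nat_lit 0x40002000000014000c000000020000000000000000000000000000000) := T_29 (nat_lit 176) (nat_lit 174) (nat_lit 3) (nat_lit 4) (nat_lit 10) L85535 (by decide +kernel)
theorem L87987 : W_29 (nat_lit 2) (nat_lit 0x10000d0002c0000001e00088000000000000000000000000000000) (nat_lit 0x0) (nat_lit 0x4000100004000000000000000000000000000000) := D_29 (nat_lit 140) (nat_lit 122) (nat_lit 158) (nat_lit 0) (nat_lit 7) (nat_lit 8) (nat_lit 4) (nat_lit 5) (nat_lit 11) (by decide +kernel)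
theorem L87988 : W_29 (nat_lit 3) (nat_lit 0x10000d0002c0000001e00080000000000000000000000000000000) (nat_lit 0x0) (nat_lit 0x400010001c000000000000000000000000000000) := T_29 (nat_lit 123) (nat_lit 124) (nat_lit 0) (nat_lit 8) (nat_lit 8) L87987 (by decide +kernel)
theorem L87989 : W_29 (nat_lit 4) (nat_lit 0x10000d0002c0000001c00080000000000000000000000000000000) (nat_lit 0x0) (nat_lit 0x400030011c000000000000000000000000000000) := T_29 (nat_lit 141) (nat_lit 128) (nat_lit 2) (nat_lit 5) (nat_lit 8) L87988 (by decide +kernel)
theorem L87990 : W_29 (nat_lit 5) (nat_lit 0x10000d0002c0000001400080000000000000000000000000000000) (nat_lit 0x0) (nat_lit 0x14000b0011c000000000000000000000000000000) := T_29 (nat_lit 143) (nat_lit 160) (nat_lit 7) (nat_lit 7) (nat_lit 8) L87989 (by decide +kernel)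
theorem L87991 : W_29 (nat_lit 6) (nat_lit 0x10000d000280000001400080000000000000000000000000000000) (nat_lit 0x0) (nat_lit 0x140014000b0011c000000000000000000000000000000) := T_29 (nat_lit 174) (nat_lit 176) (nat_lit 3) (nat_lit 4) (nat_lit 10) L87990 (by decide +kernel)
theorem L87992 : W_29 (nat_lit 7) (nat_lit 0x10000d000280000001000080000000000000000000000000000000) (nat_lit 0x0) (nat_lit 0x14000a000080054001c000f0013c001000000000000000000000000000) := Q_29 (nat_lit 142) (C_29 L87982 (C_29 L87985 (C_29 L87757 (C_29 L87986 (C_29 L87991 N_29))))) (by decide +kernel)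
theorem L88008 : W_29 (nat_lit 2) (nat_lit 0x10000f000200000001000080000000000000000000000000000000) (nat_lit 0x0) (nat_lit 0x800c00000000000000000000000000000000000000000000) := D_29 (nat_lit 178) (nat_lit 191) (nat_lit 179) (nat_lit 2) (nat_lit 4) (nat_lit 11) (nat_lit 2) (nat_lit 5) (nat_lit 11) (by decide +kernel)
theorem L88022 : W_29 (nat_lit 2) (nat_lit 0xc00030001c001a00000001000080000000000000000000000000000000) (nat_lit 0x0) (nat_lit 0x20002400000000000000000000000000000000000000000000) := D_29 (nat_lit 181) (nat_lit 197) (nat_lit 178) (nat_lit 2) (nat_lit 7) (nat_lit 11) (nat_lit 1) (nat_lit 11) (nat_lit 10) (by decide +kernel)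
theorem L88023 : W_29 (nat_lit 3) (nat_lit 0xc00030001c000a00000001000080000000000000000000000000000000) (nat_lit 0x0) (nat_lit 0x20003400080000000000000000000000000000000000000000) := T_29 (nat_lit 180) (nat_lit 163) (nat_lit 6) (nat_lit 9) (nat_lit 13) L88022 (by decide +kernel)
theorem L88024 : W_29 (nat_lit 4) (nat_lit 0xc00030001c000200000001000080000000000000000000000000000000) (nat_lit 0x0) (nat_lit 0x100000000000020003c00080000000000000000000000000000000000000000) := T_29 (nat_lit 179) (nat_lit 248) (nat_lit 7) (nat_lit 9) (nat_lit 10) L88023 (by decide +kernel)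
theorem L88025 : W_29 (nat_lit 6) (nat_lit 0x400030001c000200000001000080000000000000000000000000000000) (nat_lit 0x0) (nat_lit 0x100038000c80020007c00080000000000000000000000000000000000000000) := Q_29 (nat_lit 231) (C_29 L87074 (C_29 L87072 (C_29 L88024 N_29))) (by decide +kernel)
theorem L88027 : W_29 (nat_lit 2) (nat_lit 0x10003e001200010001000080000000000000000000000000000000) (nat_lit 0x0) (nat_lit 0x80040000400000000000000000000000000000000000000000000) := D_29 (nat_lit 198) (nat_lit 211) (nat_lit 178) (nat_lit 1) (nat_lit 11) (nat_lit 11) (nat_lit 0) (nat_lit 11) (nat_lit 11) (by decide +kernel)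
theorem L88028 : W_29 (nat_lit 3) (nat_lit 0x10001e001200010001000080000000000000000000000000000000) (nat_lit 0x0) (nat_lit 0x80060002400000000000000000000000000000000000000000000) := T_29 (nat_lit 197) (nat_lit 181) (nat_lit 2) (nat_lit 7) (nat_lit 11) L88027 (by decide +kernel)
theorem L88029 : W_29 (nat_lit 4) (nat_lit 0x10001e000200010001000080000000000000000000000000000000) (nat_lit 0x0) (nat_lit 0x80060003c00000000000000000000000000000000000000000000) := T_29 (nat_lit 180) (nat_lit 179) (nat_lit 2) (nat_lit 6) (nat_lit 11) L88028 (by decide +kernel)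
theorem L88030 : W_29 (nat_lit 5) (nat_lit 0x10001e000200000001000080000000000000000000000000000000) (nat_lit 0x0) (nat_lit 0x80060003c00010000800000000000000000000000000000000000) := T_29 (nat_lit 160) (nat_lit 143) (nat_lit 7) (nat_lit 7) (nat_lit 8) L88029 (by decide +kernel)
theorem L88031 : W_29 (nat_lit 5) (nat_lit 0x10001e000200000001000080000000000000000000000000000000) (nat_lit 0x0) (nat_lit 0xe00020003800010000800000000000000000000000000000000000) := T_29 (nat_lit 180) (nat_lit 179) (nat_lit 2) (nat_lit 6) (nat_lit 11) L85980 (by decide +kernel)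
theorem L88032 : W_29 (nat_lit 4) (nat_lit 0x30001e000200000001000080000000000000000000000000000000) (nat_lit 0x0) (nat_lit 0xe0003c00000000000000000000000000000000000000000000) := T_29 (nat_lit 180) (nat_lit 179) (nat_lit 2) (nat_lit 6) (nat_lit 11) L87031 (by decide +kernel)
theorem L88033 : W_29 (nat_lit 5) (nat_lit 0x10001e000200000001000080000000000000000000000000000000) (nat_lit 0x0) (nat_lit 0x6000e0003c00000000000000000000000000000000000000000000) := T_29 (nat_lit 213) (nat_lit 214) (nat_lit 3) (nat_lit 6) (nat_lit 11) L88032 (by decide +kernel)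
theorem L88034 : W_29 (nat_lit 2) (nat_lit 0x50003e000200000001800080000000000000000000000000000000) (nat_lit 0x0) (nat_lit 0x80040000400000000000000000000000000000000000000000000) := D_29 (nat_lit 198) (nat_lit 178) (nat_lit 211) (nat_lit 0) (nat_lit 11) (nat_lit 11) (nat_lit 1) (nat_lit 11) (nat_lit 11) (by decide +kernel)
theorem L88035 : W_29 (nat_lit 3) (nat_lit 0x50001e000200000001800080000000000000000000000000000000) (nat_lit 0x0) (nat_lit 0x880060000400000000000000000000000000000000000000000000) := T_29 (nat_lit 197) (nat_lit 215) (nat_lit 3) (nat_lit 7) (nat_lit 11) L88034 (by decide +kernel)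
theorem L88036 : W_29 (nat_lit 4) (nat_lit 0x10001e000200000001800080000000000000000000000000000000) (nat_lit 0x0) (nat_lit 0xe80060000400000000000000000000000000000000000000000000) := T_29 (nat_lit 214) (nat_lit 213) (nat_lit 3) (nat_lit 6) (nat_lit 11) L88035 (by decide +kernel)
theorem L88037 : W_29 (nat_lit 5) (nat_lit 0x10001e000200000001000080000000000000000000000000000000) (nat_lit 0x0) (nat_lit 0xe80060000400010000800000000000000000000000000000000000) := T_29 (nat_lit 143) (nat_lit 160) (nat_lit 7) (nat_lit 7) (nat_lit 8) L88036 (by decide +kernel)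
theorem L88038 : W_29 (nat_lit 6) (nat_lit 0x30001e000a00000001400080000000000000000000000000000000) (nat_lit 0x0) (nat_lit 0x17000b0011c000000000000000000000000000000) := T_29 (nat_lit 143) (nat_lit 160) (nat_lit 7) (nat_lit 7) (nat_lit 8) L85507 (by decide +kernel)
theorem L88039 : W_29 (nat_lit 7) (nat_lit 0x30001e000200000001400080000000000000000000000000000000) (nat_lit 0x0) (nat_lit 0x1800017000b0011c000000000000000000000000000000) := T_29 (nat_lit 179) (nat_lit 180) (nat_lit 2) (nat_lit 6) (nat_lit 11) L88038 (by decide +kernel)
theorem L88040 : W_29 (nat_lit 8) (nat_lit 0x10001e000200000001400080000000000000000000000000000000) (nat_lit 0x0) (nat_lit 0x600000001800017000b0011c000000000000000000000000000000) := T_29 (nat_lit 213) (nat_lit 214) (nat_lit 3) (nat_lit 6) (nat_lit 11) L88039 (by decide +kernel)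
theorem L88042 : W_29 (nat_lit 2) (nat_lit 0x50007c000200010001000080000000000000000000000000000000) (nat_lit 0x0) (nat_lit 0x7000000000000000000000000000000000000000000000) := D_29 (nat_lit 181) (nat_lit 180) (nat_lit 182) (nat_lit 2) (nat_lit 7) (nat_lit 11) (nat_lit 2) (nat_lit 8) (nat_lit 11) (by decide +kernel)
theorem L88043 : W_29 (nat_lit 3) (nat_lit 0x50003c000200010001000080000000000000000000000000000000) (nat_lit 0x0) (nat_lit 0x80040007000000000000000000000000000000000000000000000) := T_29 (nat_lit 198) (nat_lit 211) (nat_lit 1) (nat_lit 11) (nat_lit 11) L88042 (by decide +kernel)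
theorem L88044 : W_29 (nat_lit 4) (nat_lit 0x50003c000200000001000080000000000000000000000000000000) (nat_lit 0x0) (nat_lit 0x80040007000010000800000000000000000000000000000000000) := T_29 (nat_lit 160) (nat_lit 143) (nat_lit 7) (nat_lit 7) (nat_lit 8) L88043 (by decide +kernel)
theorem L88045 : W_29 (nat_lit 5) (nat_lit 0x10003c000200000001000080000000000000000000000000000000) (nat_lit 0x0) (nat_lit 0xc80040007000010000800000000000000000000000000000000000) := T_29 (nat_lit 214) (nat_lit 215) (nat_lit 3) (nat_lit 7) (nat_lit 11) L88044 (by decide +kernel)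
theorem L88079 : W_29 (nat_lit 8) (nat_lit 0x10001c000200000001000080000000000000000000000000000000) (nat_lit 0x0) (nat_lit 0x4007e801e201f400090004800000000000000000000000000000000000) := Q_29 (nat_lit 197) (C_29 L87000 (C_29 L88045 (C_29 L85678 (C_29 L85659 N_29)))) (by decide +kernel)
theorem L88082 : W_29 (nat_lit 2) (nat_lit 0x30003c000200000001000080000000000000000000000000000000) (nat_lit 0x0) (nat_lit 0xc0000400000000000000000000000000000000000000000000) := D_29 (nat_lit 198) (nat_lit 199) (nat_lit 178) (nat_lit 1) (nat_lit 12) (nat_lit 11) (nat_lit 0) (nat_lit 11) (nat_lit 11) (by decide +kernel)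
theorem L88091 : W_29 (nat_lit 2) (nat_lit 0x10007e001200010001000080000000000000000000000000000000) (nat_lit 0x0) (nat_lit 0x1c00000000000000000000000000000000000000000000000000000) := D_29 (nat_lit 215) (nat_lit 214) (nat_lit 216) (nat_lit 3) (nat_lit 7) (nat_lit 11) (nat_lit 3) (nat_lit 8) (nat_lit 11) (by decide +kernel)
theorem L88092 : W_29 (nat_lit 3) (nat_lit 0x10003e001200010001000080000000000000000000000000000000) (nat_lit 0x0) (nat_lit 0x1c80040000000000000000000000000000000000000000000000000) := T_29 (nat_lit 198) (nat_lit 211) (nat_lit 1) (nat_lit 11) (nat_lit 11) L88091 (by decide +kernel)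
theorem L88093 : W_29 (nat_lit 4) (nat_lit 0x10001e001200010001000080000000000000000000000000000000) (nat_lit 0x0) (nat_lit 0x1c80060002000000000000000000000000000000000000000000000) := T_29 (nat_lit 197) (nat_lit 181) (nat_lit 2) (nat_lit 7) (nat_lit 11) L88092 (by decide +kernel)
theorem L88094 : W_29 (nat_lit 5) (nat_lit 0x10001e000200010001000080000000000000000000000000000000) (nat_lit 0x0) (nat_lit 0x1c80060003800000000000000000000000000000000000000000000) := T_29 (nat_lit 180) (nat_lit 179) (nat_lit 2) (nat_lit 6) (nat_lit 11) L88093 (by decide +kernel)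
theorem L88801 : W_29 (nat_lit 3) (nat_lit 0x38000c000300000001000080000000000000000000000000000000) (nat_lit 0x0) (nat_lit 0xc00070000000000000000000000000000000000000000000000000) := T_29 (nat_lit 197) (nat_lit 196) (nat_lit 0) (nat_lit 10) (nat_lit 11) L82673 (by decide +kernel)
theorem L88802 : W_29 (nat_lit 2) (nat_lit 0xb8003c001200080001000080000000000000000000000000000000) (nat_lit 0x0) (nat_lit 0x80004000000000000800000000000000000000000000000000000000000000) := D_29 (nat_lit 230) (nat_lit 247) (nat_lit 179) (nat_lit 6) (nat_lit 9) (nat_lit 14) (nat_lit 6) (nat_lit 9) (nat_lit 13) (by decide +kernel)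
theorem L88803 : W_29 (nat_lit 3) (nat_lit 0xb8003c001200000001000080000000000000000000000000000000) (nat_lit 0x0) (nat_lit 0x80004000000000000800080004000000000000000000000000000000000000) := T_29 (nat_lit 163) (nat_lit 146) (nat_lit 5) (nat_lit 10) (nat_lit 8) L88802 (by decide +kernel)
theorem L88804 : W_29 (nat_lit 4) (nat_lit 0xb8003c000200000001000080000000000000000000000000000000) (nat_lit 0x0) (nat_lit 0x80004000000000003800080004000000000000000000000000000000000000) := T_29 (nat_lit 180) (nat_lit 181) (nat_lit 2) (nat_lit 7) (nat_lit 11) L88803 (by decide +kernel)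
theorem L88805 : W_29 (nat_lit 2) (nat_lit 0x20001f800200010001000080000000000000000000000000000000) (nat_lit 0x0) (nat_lit 0x38000000000000000000000000000000000000000000000000000) := D_29 (nat_lit 208) (nat_lit 209) (nat_lit 207) (nat_lit 1) (nat_lit 8) (nat_lit 11) (nat_lit 1) (nat_lit 7) (nat_lit 11) (by decide +kernel)
theorem L88806 : W_29 (nat_lit 3) (nat_lit 0x20001f000200010001000080000000000000000000000000000000) (nat_lit 0x0) (nat_lit 0x38000800400000000000000000000000000000000000000000000) := T_29 (nat_lit 191) (nat_lit 178) (nat_lit 2) (nat_lit 4) (nat_lit 11) L88805 (by decide +kernel)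
theorem L88807 : W_29 (nat_lit 4) (nat_lit 0x20001e000200010001000080000000000000000000000000000000) (nat_lit 0x0) (nat_lit 0x138001800400000000000000000000000000000000000000000000) := T_29 (nat_lit 192) (nat_lit 212) (nat_lit 3) (nat_lit 5) (nat_lit 11) L88806 (by decide +kernel)
theorem L88808 : W_29 (nat_lit 5) (nat_lit 0x1e000200010001000080000000000000000000000000000000) (nat_lit 0x0) (nat_lit 0x738001800400000000000000000000000000000000000000000000) := T_29 (nat_lit 213) (nat_lit 214) (nat_lit 3) (nat_lit 6) (nat_lit 11) L88807 (by decide +kernel)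
theorem L88809 : W_29 (nat_lit 6) (nat_lit 0x1e000200000001000080000000000000000000000000000000) (nat_lit 0x0) (nat_lit 0x738001800400010000800000000000000000000000000000000000) := T_29 (nat_lit 160) (nat_lit 143) (nat_lit 6) (nat_lit 7) (nat_lit 11) L88808 (by decide +kernel)
theorem L88810 : W_29 (nat_lit 2) (nat_lit 0x21001f800a20010001000080000000000000000000000000000000) (nat_lit 0x0) (nat_lit 0x400110000000000000000000000000000000000000000000) := D_29 (nat_lit 190) (nat_lit 176) (nat_lit 172) (nat_lit 2) (nat_lit 3) (nat_lit 11) (nat_lit 0) (nat_lit 6) (nat_lit 11) (by decide +kernel)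
theorem L88811 : W_29 (nat_lit 3) (nat_lit 0x21001f800a00010001000080000000000000000000000000000000) (nat_lit 0x0) (nat_lit 0x400170000000000000000000000000000000000000000000) := T_29 (nat_lit 173) (nat_lit 174) (nat_lit 0) (nat_lit 7) (nat_lit 11) L88810 (by decide +kernel)
theorem L88812 : W_29 (nat_lit 4) (nat_lit 0x21001f000a00010001000080000000000000000000000000000000) (nat_lit 0x0) (nat_lit 0x8000c00170000000000000000000000000000000000000000000) := T_29 (nat_lit 191) (nat_lit 207) (nat_lit 1) (nat_lit 7) (nat_lit 11) L88811 (by decide +kernel)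
theorem L88813 : W_29 (nat_lit 5) (nat_lit 0x21001f000a00000001000080000000000000000000000000000000) (nat_lit 0x0) (nat_lit 0x8000c00170010000800000000000000000000000000000000000) := T_29 (nat_lit 160) (nat_lit 143) (nat_lit 6) (nat_lit 7) (nat_lit 11) L88812 (by decide +kernel)
theorem L88814 : W_29 (nat_lit 6) (nat_lit 0x20001f000a00000001000080000000000000000000000000000000) (nat_lit 0x0) (nat_lit 0x38000c00170010000800000000000000000000000000000000000) := T_29 (nat_lit 208) (nat_lit 209) (nat_lit 1) (nat_lit 8) (nat_lit 11) L88813 (by decide +kernel)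
theorem L88815 : W_29 (nat_lit 7) (nat_lit 0x20001e000a00000001000080000000000000000000000000000000) (nat_lit 0x0) (nat_lit 0x38001c00570010000800000000000000000000000000000000000) := T_29 (nat_lit 192) (nat_lit 178) (nat_lit 2) (nat_lit 5) (nat_lit 11) L88814 (by decide +kernel)
theorem L88816 : W_29 (nat_lit 8) (nat_lit 0x20001e000200000001000080000000000000000000000000000000) (nat_lit 0x0) (nat_lit 0x38001c01d70010000800000000000000000000000000000000000) := T_29 (nat_lit 179) (nat_lit 180) (nat_lit 2) (nat_lit 6) (nat_lit 11) L88815 (by decide +kernel)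
theorem L88817 : W_29 (nat_lit 9) (nat_lit 0x1e000200000001000080000000000000000000000000000000) (nat_lit 0x0) (nat_lit 0x638001c01d70010000800000000000000000000000000000000000) := T_29 (nat_lit 213) (nat_lit 214) (nat_lit 3) (nat_lit 6) (nat_lit 11) L88816 (by decide +kernel)
theorem L88818 : W_29 (nat_lit 2) (nat_lit 0x9001f800b40010001000080000000000000000000000000000000) (nat_lit 0x0) (nat_lit 0x1000000000000000008000400000000000000000000000000000000000) := D_29 (nat_lit 159) (nat_lit 142) (nat_lit 228) (nat_lit 7) (nat_lit 6) (nat_lit 8) (nat_lit 4) (nat_lit 7) (nat_lit 13) (by decide +kernel)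
theorem L88819 : W_29 (nat_lit 3) (nat_lit 0x9001f800a40010001000080000000000000000000000000000000) (nat_lit 0x0) (nat_lit 0x1000000000400100008000400000000000000000000000000000000000) := T_29 (nat_lit 176) (nat_lit 190) (nat_lit 2) (nat_lit 3) (nat_lit 11) L88818 (by decide +kernel)
theorem L88820 : W_29 (nat_lit 4) (nat_lit 0x1001f800a40010001000080000000000000000000000000000000) (nat_lit 0x0) (nat_lit 0x1000180000400100008000400000000000000000000000000000000000) := T_29 (nat_lit 211) (nat_lit 212) (nat_lit 3) (nat_lit 4) (nat_lit 11) L88819 (by decide +kernel)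
theorem L88821 : W_29 (nat_lit 5) (nat_lit 0x1001f800a00010001000080000000000000000000000000000000) (nat_lit 0x0) (nat_lit 0x1000180000400160008000400000000000000000000000000000000000) := T_29 (nat_lit 174) (nat_lit 173) (nat_lit 0) (nat_lit 7) (nat_lit 11) L88820 (by decide +kernel)
theorem L88822 : W_29 (nat_lit 6) (nat_lit 0x1001f000a00010001000080000000000000000000000000000000) (nat_lit 0x0) (nat_lit 0x1000188000c00160008000400000000000000000000000000000000000) := T_29 (nat_lit 191) (nat_lit 207) (nat_lit 1) (nat_lit 7) (nat_lit 11) L88821 (by decide +kernel)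
theorem L88823 : W_29 (nat_lit 7) (nat_lit 0x1f000a00010001000080000000000000000000000000000000) (nat_lit 0x0) (nat_lit 0x10001b8000c00160008000400000000000000000000000000000000000) := T_29 (nat_lit 208) (nat_lit 209) (nat_lit 1) (nat_lit 8) (nat_lit 11) L88822 (by decide +kernel)
theorem L88824 : W_29 (nat_lit 8) (nat_lit 0x1e000a00010001000080000000000000000000000000000000) (nat_lit 0x0) (nat_lit 0x10001b8001c00560008000400000000000000000000000000000000000) := T_29 (nat_lit 192) (nat_lit 178) (nat_lit 2) (nat_lit 5) (nat_lit 11) L88823 (by decide +kernel)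
theorem L88825 : W_29 (nat_lit 9) (nat_lit 0x1e000200010001000080000000000000000000000000000000) (nat_lit 0x0) (nat_lit 0x10001b8001c01d60008000400000000000000000000000000000000000) := T_29 (nat_lit 179) (nat_lit 180) (nat_lit 2) (nat_lit 6) (nat_lit 11) L88824 (by decide +kernel)
theorem L88826 : W_29 (nat_lit 10) (nat_lit 0x1e000200000001000080000000000000000000000000000000) (nat_lit 0x0) (nat_lit 0x10001b8001c01d60018000c00000000000000000000000000000000000) := T_29 (nat_lit 160) (nat_lit 143) (nat_lit 6) (nat_lit 7) (nat_lit 11) L88825 (by decide +kernel)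
theorem L88827 : W_29 (nat_lit 11) (nat_lit 0x1c000200000001000080000000000000000000000000000000) (nat_lit 0x0) (nat_lit 0x20001c000f0007b8003c01d70058000c00000000000000000000000000000000000) := Q_29 (nat_lit 193) (C_29 L85932 (C_29 L84902 (C_29 L8050 (C_29 L88809 (C_29 L88817 (C_29 L85516 (C_29 L88826 N_29))))))) (by decide +kernel)
theorem L88828 : W_29 (nat_lit 12) (nat_lit 0xc000200000001000080000000000000000000000000000000) (nat_lit 0x0) (nat_lit 0x30001c000f003fb81f3c0fd701d800cc00200000000000000000000000000000000) := Q_29 (nat_lit 196) (C_29 L87542 (C_29 L5062 (C_29 L85928 (C_29 L7817 (C_29 L88827 (C_29 L7821 N_29)))))) (by decide +kernel)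
theorem L88829 : W_29 (nat_lit 6) (nat_lit 0xe000300000001400080000000000000000000000000000000) (nat_lit 0x0) (nat_lit 0x17000b0011c000000000000000000000000000000) := T_29 (nat_lit 143) (nat_lit 160) (nat_lit 6) (nat_lit 7) (nat_lit 11) L86424 (by decide +kernel)
theorem L88830 : W_29 (nat_lit 2) (nat_lit 0xe000300000001400080000000000000000000000000000000) (nat_lit 0x0) (nat_lit 0x80000000000008000000020000000000000000000000000000000) := D_29 (nat_lit 159) (nat_lit 125) (nat_lit 211) (nat_lit 7) (nat_lit 6) (nat_lit 7) (nat_lit 7) (nat_lit 6) (nat_lit 8) (by decide +kernel)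
theorem L88831 : W_29 (nat_lit 7) (nat_lit 0xe000300000001000080000000000000000000000000000000) (nat_lit 0x0) (nat_lit 0x8000000000001f000f0013c000000000000000000000000000000) := Q_29 (nat_lit 142) (C_29 L88829 (C_29 L88830 N_29)) (by decide +kernel)
theorem L88832 : W_29 (nat_lit 8) (nat_lit 0xc000300000001000080000000000000000000000000000000) (nat_lit 0x0) (nat_lit 0x10000b8033c01c0001f000f0013c000000000000000000000000000000) := Q_29 (nat_lit 193) (C_29 L15647 (C_29 L16356 (C_29 L88831 N_29))) (by decide +kernel)
theorem L88833 : W_29 (nat_lit 16) (nat_lit 0xc000200000001000080000000000000000000000000000000) (nat_lit 0x0) (nat_lit 0x17000b8033e03df81dfc00ff013f001e000f0000000000000000000000) := Q_29 (nat_lit 176) (C_29 L87557 (C_29 L84187 (C_29 L87286 (C_29 L88832 N_29)))) (by decide +kernel)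
theorem L88835 : W_29 (nat_lit 2) (nat_lit 0x4000000010000e00034000a001f00084000000000000000000000000000000) (nat_lit 0x0) (nat_lit 0x800000000000080002000000000000000000000000000000) := D_29 (nat_lit 139) (nat_lit 121) (nat_lit 191) (nat_lit 0) (nat_lit 6) (nat_lit 8) (nat_lit 4) (nat_lit 4) (nat_lit 11) (by decide +kernel)
theorem L88836 : W_29 (nat_lit 3) (nat_lit 0x4000000010000e00034000a001f00080000000000000000000000000000000) (nat_lit 0x0) (nat_lit 0x80000000000008000e000000000000000000000000000000) := T_29 (nat_lit 122) (nat_lit 123) (nat_lit 0) (nat_lit 7) (nat_lit 8) L88835 (by decide +kernel)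
theorem L88837 : W_29 (nat_lit 4) (nat_lit 0x4000000010000e00034000a001e00080000000000000000000000000000000) (nat_lit 0x0) (nat_lit 0x80000000100018000e000000000000000000000000000000) := T_29 (nat_lit 140) (nat_lit 156) (nat_lit 1) (nat_lit 7) (nat_lit 8) L88836 (by decide +kernel)
theorem L88838 : W_29 (nat_lit 5) (nat_lit 0x4000000010000e000340008001e00080000000000000000000000000000000) (nat_lit 0x0) (nat_lit 0x80000000700018000e000000000000000000000000000000) := T_29 (nat_lit 157) (nat_lit 158) (nat_lit 1) (nat_lit 8) (nat_lit 8) L88837 (by decide +kernel)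
theorem L88839 : W_29 (nat_lit 6) (nat_lit 0x4000000010000e000340008001600080000000000000000000000000000000) (nat_lit 0x0) (nat_lit 0x80000000700098010e000000000000000000000000000000) := T_29 (nat_lit 143) (nat_lit 128) (nat_lit 2) (nat_lit 5) (nat_lit 8) L88838 (by decide +kernel)
theorem L88840 : W_29 (nat_lit 7) (nat_lit 0x4000000010000e000340008001400080000000000000000000000000000000) (nat_lit 0x0) (nat_lit 0x800000007000b8011e000000000000000000000000000000) := T_29 (nat_lit 141) (nat_lit 124) (nat_lit 4) (nat_lit 6) (nat_lit 11) L88839 (by decide +kernel)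
theorem L88841 : W_29 (nat_lit 8) (nat_lit 0x4000000010000e000300008001400080000000000000000000000000000000) (nat_lit 0x0) (nat_lit 0x8000c0007000b8011e000000000000000000000000000000) := T_29 (nat_lit 174) (nat_lit 175) (nat_lit 3) (nat_lit 4) (nat_lit 10) L88840 (by decide +kernel)
theorem L88842 : W_29 (nat_lit 9) (nat_lit 0x4000000010000e000300008001000080000000000000000000000000000000) (nat_lit 0x0) (nat_lit 0x8000c0007000f8013e000000000000000000000000000000) := T_29 (nat_lit 142) (nat_lit 125) (nat_lit 7) (nat_lit 6) (nat_lit 7) L88841 (by decide +kernel)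
theorem L88843 : W_29 (nat_lit 10) (nat_lit 0x10000e000300008001000080000000000000000000000000000000) (nat_lit 0x0) (nat_lit 0x400020000000008000c0007000f8013e000000000000000000000000000000) := T_29 (nat_lit 246) (nat_lit 229) (nat_lit 4) (nat_lit 8) (nat_lit 14) L88842 (by decide +kernel)
theorem L88844 : W_29 (nat_lit 2) (nat_lit 0x300010000e000740008001000080000000000000000000000000000000) (nat_lit 0x0) (nat_lit 0x800044000000000000000000000000000000000000000) := D_29 (nat_lit 179) (nat_lit 158) (nat_lit 162) (nat_lit 0) (nat_lit 9) (nat_lit 10) (nat_lit 6) (nat_lit 8) (nat_lit 13) (by decide +kernel)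
theorem L88845 : W_29 (nat_lit 3) (nat_lit 0x300010000e000340008001000080000000000000000000000000000000) (nat_lit 0x0) (nat_lit 0x20000000000000000c00044000000000000000000000000000000000000000) := T_29 (nat_lit 178) (nat_lit 245) (nat_lit 5) (nat_lit 8) (nat_lit 10) L88844 (by decide +kernel)
theorem L88846 : W_29 (nat_lit 4) (nat_lit 0x200010000e000340008001000080000000000000000000000000000000) (nat_lit 0x0) (nat_lit 0x20001000080000000c00044000000000000000000000000000000000000000) := T_29 (nat_lit 228) (nat_lit 211) (nat_lit 4) (nat_lit 7) (nat_lit 13) L88845 (by decide +kernel)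
theorem L88847 : W_29 (nat_lit 5) (nat_lit 0x10000e000340008001000080000000000000000000000000000000) (nat_lit 0x0) (nat_lit 0x60003000080000000c00044000000000000000000000000000000000000000) := T_29 (nat_lit 229) (nat_lit 246) (nat_lit 4) (nat_lit 8) (nat_lit 14) L88846 (by decide +kernel)
theorem L88848 : W_29 (nat_lit 6) (nat_lit 0x10000e000300008001000080000000000000000000000000000000) (nat_lit 0x0) (nat_lit 0x60003000080000000cc0044000000000000000000000000000000000000000) := T_29 (nat_lit 174) (nat_lit 175) (nat_lit 3) (nat_lit 4) (nat_lit 10) L88847 (by decide +kernel)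
theorem L88849 : W_29 (nat_lit 11) (nat_lit 0x10000e000300000001000080000000000000000000000000000000) (nat_lit 0x0) (nat_lit 0x60003000080000800cc004f000f8013e000000000000000000000000000000) := Q_29 (nat_lit 159) (C_29 L87670 (C_29 L88843 (C_29 L88848 N_29))) (by decide +kernel)
theorem L88850 : W_29 (nat_lit 2) (nat_lit 0x800700012000f000740000001000080000000000000000000000000000000) (nat_lit 0x0) (nat_lit 0x80000000000008000400000000000000000000000000000000000) := D_29 (nat_lit 159) (nat_lit 211) (nat_lit 142) (nat_lit 4) (nat_lit 7) (nat_lit 13) (nat_lit 5) (nat_lit 6) (nat_lit 8) (by decide +kernel)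
theorem L88851 : W_29 (nat_lit 3) (nat_lit 0x800600012000f000740000001000080000000000000000000000000000000) (nat_lit 0x0) (nat_lit 0x20001000080000000000008000400000000000000000000000000000000000) := T_29 (nat_lit 228) (nat_lit 245) (nat_lit 5) (nat_lit 8) (nat_lit 10) L88850 (by decide +kernel)
theorem L88852 : W_29 (nat_lit 4) (nat_lit 0x800200012000f000740000001000080000000000000000000000000000000) (nat_lit 0x0) (nat_lit 0xa0005000080000000000008000400000000000000000000000000000000000) := T_29 (nat_lit 230) (nat_lit 247) (nat_lit 7) (nat_lit 8) (nat_lit 10) L88851 (by decide +kernel)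
theorem L88853 : W_29 (nat_lit 5) (nat_lit 0x200012000f000740000001000080000000000000000000000000000000) (nat_lit 0x0) (nat_lit 0xa8005400080000000000008000400000000000000000000000000000000000) := T_29 (nat_lit 243) (nat_lit 226) (nat_lit 6) (nat_lit 5) (nat_lit 14) L88852 (by decide +kernel)
theorem L88854 : W_29 (nat_lit 6) (nat_lit 0x12000f000740000001000080000000000000000000000000000000) (nat_lit 0x0) (nat_lit 0xe8007400080000000000008000400000000000000000000000000000000000) := T_29 (nat_lit 229) (nat_lit 246) (nat_lit 4) (nat_lit 8) (nat_lit 14) L88853 (by decide +kernel)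
theorem L88855 : W_29 (nat_lit 7) (nat_lit 0x10000f000740000001000080000000000000000000000000000000) (nat_lit 0x0) (nat_lit 0xe80074000b0000000000008000400000000000000000000000000000000000) := T_29 (nat_lit 209) (nat_lit 208) (nat_lit 1) (nat_lit 8) (nat_lit 11) L88854 (by decide +kernel)
theorem L88856 : W_29 (nat_lit 8) (nat_lit 0x10000f000340000001000080000000000000000000000000000000) (nat_lit 0x0) (nat_lit 0xe80074000b0000000c00008000400000000000000000000000000000000000) := T_29 (nat_lit 178) (nat_lit 179) (nat_lit 2) (nat_lit 5) (nat_lit 11) L88855 (by decide +kernel)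
theorem L88857 : W_29 (nat_lit 9) (nat_lit 0x10000e000340000001000080000000000000000000000000000000) (nat_lit 0x0) (nat_lit 0xe80074002b0001000c00008000400000000000000000000000000000000000) := T_29 (nat_lit 192) (nat_lit 213) (nat_lit 3) (nat_lit 5) (nat_lit 11) L88856 (by decide +kernel)
theorem L88858 : W_29 (nat_lit 10) (nat_lit 0x10000e000300000001000080000000000000000000000000000000) (nat_lit 0x0) (nat_lit 0xe80074002b0001000cc0008000400000000000000000000000000000000000) := T_29 (nat_lit 174) (nat_lit 175) (nat_lit 3) (nat_lit 4) (nat_lit 10) L88857 (by decide +kernel)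
theorem L88859 : W_29 (nat_lit 12) (nat_lit 0x10000c000300000001000080000000000000000000000000000000) (nat_lit 0x0) (nat_lit 0xe80074002b8003c00ce004f000f8013e000000000000000000000000000000) := Q_29 (nat_lit 193) (C_29 L86226 (C_29 L88849 (C_29 L88858 (C_29 L86222 N_29)))) (by decide +kernel)
theorem L88860 : W_29 (nat_lit 13) (nat_lit 0xc000300000001000080000000000000000000000000000000) (nat_lit 0x0) (nat_lit 0xe80074003b8003c00ce005f000f8013e000000000000000000000000000000) := Q_29 (nat_lit 212) (C_29 L87550 (C_29 L87719 (C_29 L88859 (C_29 L85600 N_29)))) (by decide +kernel)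
theorem L88861 : W_29 (nat_lit 2) (nat_lit 0x200010002c000300000001000080000000000000000000000000000000) (nat_lit 0x0) (nat_lit 0x80000000400010000000000000000000000000000000000000000) := D_29 (nat_lit 160) (nat_lit 178) (nat_lit 211) (nat_lit 4) (nat_lit 8) (nat_lit 13) (nat_lit 7) (nat_lit 7) (nat_lit 9) (by decide +kernel)
theorem L88862 : W_29 (nat_lit 3) (nat_lit 0x10002c000300000001000080000000000000000000000000000000) (nat_lit 0x0) (nat_lit 0x40002000080000000400010000000000000000000000000000000000000000) := T_29 (nat_lit 229) (nat_lit 246) (nat_lit 4) (nat_lit 8) (nat_lit 14) L88861 (by decide +kernel)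
theorem L88863 : W_29 (nat_lit 4) (nat_lit 0x10000c000300000001000080000000000000000000000000000000) (nat_lit 0x0) (nat_lit 0x40002000080030000400010000000000000000000000000000000000000000) := T_29 (nat_lit 197) (nat_lit 196) (nat_lit 0) (nat_lit 10) (nat_lit 11) L88862 (by decide +kernel)
theorem L88881 : W_29 (nat_lit 2) (nat_lit 0x10001e000300000001400080000000000000000000000000000000) (nat_lit 0x0) (nat_lit 0x80000000000008000000020000000000000000000000000000000) := D_29 (nat_lit 159) (nat_lit 211) (nat_lit 125) (nat_lit 7) (nat_lit 6) (nat_lit 8) (nat_lit 7) (nat_lit 6) (nat_lit 7) (by decide +kernel)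
theorem L88882 : W_29 (nat_lit 3) (nat_lit 0x10001e000200000001400080000000000000000000000000000000) (nat_lit 0x0) (nat_lit 0x80000000180008000000020000000000000000000000000000000) := T_29 (nat_lit 176) (nat_lit 175) (nat_lit 0) (nat_lit 9) (nat_lit 11) L88881 (by decide +kernel)
theorem L88901 : W_29 (nat_lit 6) (nat_lit 0x7000300000001000080000000000000000000000000000000) (nat_lit 0x0) (nat_lit 0x8000400030038001cc0008000000000000000000000000000000000000000) := Q_29 (nat_lit 195) (C_29 L15056 (C_29 L82194 (C_29 L83595 N_29))) (by decide +kernel)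
theorem L88902 : W_29 (nat_lit 7) (nat_lit 0x6000300000001000080000000000000000000000000000000) (nat_lit 0x0) (nat_lit 0x8000400038039c01cc0008000000000000000000000000000000000000000) := Q_29 (nat_lit 192) (C_29 L84196 (C_29 L12149 (C_29 L88901 N_29))) (by decide +kernel)
theorem L88917 : W_29 (nat_lit 2) (nat_lit 0x40007000380000001000080000000000000000000000000000000) (nat_lit 0x0) (nat_lit 0x8000060000000000000000000000000000000000000000000) := D_29 (nat_lit 174) (nat_lit 195) (nat_lit 173) (nat_lit 3) (nat_lit 4) (nat_lit 10) (nat_lit 3) (nat_lit 3) (nat_lit 10) (by decide +kernel)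
theorem L88933 : W_29 (nat_lit 2) (nat_lit 0x40007000300008001000080000000000000000000000000000000) (nat_lit 0x0) (nat_lit 0x80000000000000000400020000000000000000000000000000000) := D_29 (nat_lit 142) (nat_lit 211) (nat_lit 125) (nat_lit 7) (nat_lit 6) (nat_lit 8) (nat_lit 7) (nat_lit 6) (nat_lit 7) (by decide +kernel)
theorem L88934 : W_29 (nat_lit 2) (nat_lit 0x40007000300008001c00080000000000000000000000000000000) (nat_lit 0x0) (nat_lit 0x200110000000000000000000000000000000) := D_29 (nat_lit 141) (nat_lit 124) (nat_lit 128) (nat_lit 4) (nat_lit 6) (nat_lit 11) (nat_lit 2) (nat_lit 5) (nat_lit 8) (by decide +kernel)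
theorem L88935 : W_29 (nat_lit 3) (nat_lit 0x40007000300008001800080000000000000000000000000000000) (nat_lit 0x0) (nat_lit 0x600130000000000000000000000000000000) := T_29 (nat_lit 142) (nat_lit 125) (nat_lit 7) (nat_lit 6) (nat_lit 7) L88934 (by decide +kernel)
theorem L88936 : W_29 (nat_lit 4) (nat_lit 0x40007000300008001000080000000000000000000000000000000) (nat_lit 0x0) (nat_lit 0x10000e00130000000000000000000000000000000) := T_29 (nat_lit 143) (nat_lit 160) (nat_lit 6) (nat_lit 7) (nat_lit 11) L88935 (by decide +kernel)
theorem L89002 : W_29 (nat_lit 2) (nat_lit 0x400070007800300000001800080000000000000000000000000000000) (nat_lit 0x0) (nat_lit 0x60002000000000000000000000000000000000000000) := D_29 (nat_lit 174) (nat_lit 173) (nat_lit 157) (nat_lit 0) (nat_lit 7) (nat_lit 11) (nat_lit 7) (nat_lit 4) (nat_lit 9) (by decide +kernel)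
theorem L89003 : W_29 (nat_lit 3) (nat_lit 0x400060007800300000001800080000000000000000000000000000000) (nat_lit 0x0) (nat_lit 0x18000000060002000000000000000000000000000000000000000) := T_29 (nat_lit 208) (nat_lit 207) (nat_lit 2) (nat_lit 3) (nat_lit 12) L89002 (by decide +kernel)
theorem L89004 : W_29 (nat_lit 4) (nat_lit 0x400060007000300000001800080000000000000000000000000000000) (nat_lit 0x0) (nat_lit 0x18000c00060002000000000000000000000000000000000000000) := T_29 (nat_lit 191) (nat_lit 190) (nat_lit 2) (nat_lit 3) (nat_lit 11) L89003 (by decide +kernel)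
theorem L89005 : W_29 (nat_lit 5) (nat_lit 0x60007000300000001800080000000000000000000000000000000) (nat_lit 0x0) (nat_lit 0x8000400018000c00060002000000000000000000000000000000000000000) := T_29 (nat_lit 226) (nat_lit 243) (nat_lit 6) (nat_lit 5) (nat_lit 14) L89004 (by decide +kernel)
theorem L89006 : W_29 (nat_lit 6) (nat_lit 0x60007000300000001000080000000000000000000000000000000) (nat_lit 0x0) (nat_lit 0x8000400018000c00060012000800000000000000000000000000000000000) := T_29 (nat_lit 143) (nat_lit 160) (nat_lit 6) (nat_lit 7) (nat_lit 11) L89005 (by decide +kernel)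
theorem L89007 : W_29 (nat_lit 2) (nat_lit 0x8000000060007400380001001f00088000000000000000000000000000000) (nat_lit 0x0) (nat_lit 0x20000800080000000000000000000000000000000000) := D_29 (nat_lit 139) (nat_lit 155) (nat_lit 173) (nat_lit 1) (nat_lit 6) (nat_lit 8) (nat_lit 6) (nat_lit 3) (nat_lit 11) (by decide +kernel)
theorem L89008 : W_29 (nat_lit 3) (nat_lit 0x8000000060007400380000001f00088000000000000000000000000000000) (nat_lit 0x0) (nat_lit 0x20003800080000000000000000000000000000000000) := T_29 (nat_lit 156) (nat_lit 157) (nat_lit 1) (nat_lit 7) (nat_lit 8) L89007 (by decide +kernel)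
theorem L89009 : W_29 (nat_lit 4) (nat_lit 0x60007400380000001f00088000000000000000000000000000000) (nat_lit 0x0) (nat_lit 0x8000400000000000020003800080000000000000000000000000000000000) := T_29 (nat_lit 243) (nat_lit 226) (nat_lit 6) (nat_lit 5) (nat_lit 14) L89008 (by decide +kernel)
theorem L89010 : W_29 (nat_lit 5) (nat_lit 0x60007400380000001e00088000000000000000000000000000000) (nat_lit 0x0) (nat_lit 0x8000400000000000020003800180004000000000000000000000000000000) := T_29 (nat_lit 140) (nat_lit 122) (nat_lit 0) (nat_lit 7) (nat_lit 8) L89009 (by decide +kernel)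
theorem L89011 : W_29 (nat_lit 6) (nat_lit 0x60007000380000001e00088000000000000000000000000000000) (nat_lit 0x0) (nat_lit 0x8000400000000c00020003800180004000000000000000000000000000000) := T_29 (nat_lit 190) (nat_lit 191) (nat_lit 2) (nat_lit 3) (nat_lit 11) L89010 (by decide +kernel)
theorem L89012 : W_29 (nat_lit 7) (nat_lit 0x60007000380000001e00080000000000000000000000000000000) (nat_lit 0x0) (nat_lit 0x8000400000000c0002000380018001c000000000000000000000000000000) := T_29 (nat_lit 123) (nat_lit 124) (nat_lit 0) (nat_lit 8) (nat_lit 8) L89011 (by decide +kernel)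
theorem L89013 : W_29 (nat_lit 8) (nat_lit 0x60007000380000001a00080000000000000000000000000000000) (nat_lit 0x0) (nat_lit 0x8000400000000c0002000380058011c000000000000000000000000000000) := T_29 (nat_lit 142) (nat_lit 128) (nat_lit 2) (nat_lit 5) (nat_lit 8) L89012 (by decide +kernel)
theorem L89014 : W_29 (nat_lit 9) (nat_lit 0x60007000380000001200080000000000000000000000000000000) (nat_lit 0x0) (nat_lit 0x8000400000000c00020013800d8011c000000000000000000000000000000) := T_29 (nat_lit 143) (nat_lit 160) (nat_lit 6) (nat_lit 7) (nat_lit 11) L89013 (by decide +kernel)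
theorem L89015 : W_29 (nat_lit 10) (nat_lit 0x60007000380000001000080000000000000000000000000000000) (nat_lit 0x0) (nat_lit 0x8000400000000c00020017800f8011c000000000000000000000000000000) := T_29 (nat_lit 141) (nat_lit 158) (nat_lit 7) (nat_lit 5) (nat_lit 8) L89014 (by decide +kernel)
theorem L89016 : W_29 (nat_lit 2) (nat_lit 0x600070007400380000001800080000000000000000000000000000000) (nat_lit 0x0) (nat_lit 0x180080000000000000000000000000000000000000000000000000000) := D_29 (nat_lit 224) (nat_lit 223) (nat_lit 211) (nat_lit 2) (nat_lit 2) (nat_lit 13) (nat_lit 1) (nat_lit 7) (nat_lit 12) (by decide +kernel)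
theorem L89017 : W_29 (nat_lit 3) (nat_lit 0x400070007400380000001800080000000000000000000000000000000) (nat_lit 0x0) (nat_lit 0x4000380080000000000000000000000000000000000000000000000000000) := T_29 (nat_lit 225) (nat_lit 242) (nat_lit 5) (nat_lit 5) (nat_lit 10) L89016 (by decide +kernel)
theorem L89018 : W_29 (nat_lit 4) (nat_lit 0x70007400380000001800080000000000000000000000000000000) (nat_lit 0x0) (nat_lit 0xc000780080000000000000000000000000000000000000000000000000000) := T_29 (nat_lit 226) (nat_lit 243) (nat_lit 6) (nat_lit 5) (nat_lit 14) L89017 (by decide +kernel)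
theorem L89019 : W_29 (nat_lit 5) (nat_lit 0x70007400380000001000080000000000000000000000000000000) (nat_lit 0x0) (nat_lit 0xc000780080000000000010000800000000000000000000000000000000000) := T_29 (nat_lit 143) (nat_lit 160) (nat_lit 6) (nat_lit 7) (nat_lit 11) L89018 (by decide +kernel)
theorem L89020 : W_29 (nat_lit 6) (nat_lit 0x60007400380000001000080000000000000000000000000000000) (nat_lit 0x0) (nat_lit 0xc000780098000000000010000800000000000000000000000000000000000) := T_29 (nat_lit 208) (nat_lit 207) (nat_lit 2) (nat_lit 3) (nat_lit 12) L89019 (by decide +kernel)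
theorem L89021 : W_29 (nat_lit 7) (nat_lit 0x60007000380000001000080000000000000000000000000000000) (nat_lit 0x0) (nat_lit 0xc000780098000c00000010000800000000000000000000000000000000000) := T_29 (nat_lit 190) (nat_lit 191) (nat_lit 2) (nat_lit 3) (nat_lit 11) L89020 (by decide +kernel)
theorem L89022 : W_29 (nat_lit 11) (nat_lit 0x60007000300000001000080000000000000000000000000000000) (nat_lit 0x0) (nat_lit 0xc000780098000c000a0017800f8011c000000000000000000000000000000) := Q_29 (nat_lit 175) (C_29 L89015 (C_29 L82948 (C_29 L89021 N_29))) (by decide +kernel)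
theorem L89023 : W_29 (nat_lit 2) (nat_lit 0x68006c0074003a0000001800080000000000000000000000000000000) (nat_lit 0x0) (nat_lit 0x20001000000000000200000000000000000000000000000000000000000000000) := D_29 (nat_lit 240) (nat_lit 189) (nat_lit 257) (nat_lit 6) (nat_lit 2) (nat_lit 14) (nat_lit 6) (nat_lit 2) (nat_lit 15) (by decide +kernel)
theorem L89024 : W_29 (nat_lit 3) (nat_lit 0x6800680074003a0000001800080000000000000000000000000000000) (nat_lit 0x0) (nat_lit 0x20001000000004000200000001000000000000000000000000000000000000000) := T_29 (nat_lit 206) (nat_lit 156) (nat_lit 5) (nat_lit 3) (nat_lit 9) L89023 (by decide +kernel)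
theorem L89025 : W_29 (nat_lit 4) (nat_lit 0x6000680074003a0000001800080000000000000000000000000000000) (nat_lit 0x0) (nat_lit 0x20001000180004000200000001000000000000000000000000000000000000000) := T_29 (nat_lit 223) (nat_lit 224) (nat_lit 2) (nat_lit 2) (nat_lit 13) L89024 (by decide +kernel)
theorem L89026 : W_29 (nat_lit 5) (nat_lit 0x600068007400380000001800080000000000000000000000000000000) (nat_lit 0x0) (nat_lit 0x20001000180004000200060001000000000000000000000000000000000000000) := T_29 (nat_lit 173) (nat_lit 174) (nat_lit 3) (nat_lit 3) (nat_lit 10) L89025 (by decide +kernel)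
theorem L89027 : W_29 (nat_lit 6) (nat_lit 0x600068007400300000001800080000000000000000000000000000000) (nat_lit 0x0) (nat_lit 0x200050001800040002000e0001000000000000000000000000000000000000000) := T_29 (nat_lit 175) (nat_lit 242) (nat_lit 5) (nat_lit 5) (nat_lit 10) L89026 (by decide +kernel)
theorem L89028 : W_29 (nat_lit 7) (nat_lit 0x200068007400300000001800080000000000000000000000000000000) (nat_lit 0x0) (nat_lit 0x2000d0005800040002000e0001000000000000000000000000000000000000000) := T_29 (nat_lit 226) (nat_lit 243) (nat_lit 6) (nat_lit 5) (nat_lit 14) L89027 (by decide +kernel)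
theorem L89029 : W_29 (nat_lit 8) (nat_lit 0x200068007000300000001800080000000000000000000000000000000) (nat_lit 0x0) (nat_lit 0x2000d000580004000e000e0001000000000000000000000000000000000000000) := T_29 (nat_lit 190) (nat_lit 191) (nat_lit 2) (nat_lit 3) (nat_lit 11) L89028 (by decide +kernel)
theorem L89030 : W_29 (nat_lit 9) (nat_lit 0x200068007000300000001000080000000000000000000000000000000) (nat_lit 0x0) (nat_lit 0x2000d000580004000e000e0011000800000000000000000000000000000000000) := T_29 (nat_lit 143) (nat_lit 160) (nat_lit 6) (nat_lit 7) (nat_lit 11) L89029 (by decide +kernel)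
theorem L89031 : W_29 (nat_lit 10) (nat_lit 0x200060007000300000001000080000000000000000000000000000000) (nat_lit 0x0) (nat_lit 0x2000d00058001c000e000e0011000800000000000000000000000000000000000) := T_29 (nat_lit 207) (nat_lit 208) (nat_lit 2) (nat_lit 3) (nat_lit 12) L89030 (by decide +kernel)
theorem L89032 : W_29 (nat_lit 2) (nat_lit 0x80002000f0007400300000001000080000000000000000000000000000000) (nat_lit 0x0) (nat_lit 0x20003000000000000000000000000000000000000000000000000000000000) := D_29 (nat_lit 228) (nat_lit 229) (nat_lit 245) (nat_lit 3) (nat_lit 4) (nat_lit 12) (nat_lit 4) (nat_lit 7) (nat_lit 14) (by decide +kernel)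
theorem L89033 : W_29 (nat_lit 3) (nat_lit 0x8000200070007400300000001000080000000000000000000000000000000) (nat_lit 0x0) (nat_lit 0x20003100080000000000000000000000000000000000000000000000000000) := T_29 (nat_lit 211) (nat_lit 224) (nat_lit 1) (nat_lit 7) (nat_lit 12) L89032 (by decide +kernel)
theorem L89034 : W_29 (nat_lit 4) (nat_lit 0x8000200070007000300000001000080000000000000000000000000000000) (nat_lit 0x0) (nat_lit 0x20003100080000c00000000000000000000000000000000000000000000000) := T_29 (nat_lit 190) (nat_lit 191) (nat_lit 2) (nat_lit 3) (nat_lit 11) L89033 (by decide +kernel)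
theorem L89035 : W_29 (nat_lit 5) (nat_lit 0x8000200060007000300000001000080000000000000000000000000000000) (nat_lit 0x0) (nat_lit 0x20003100098000c00000000000000000000000000000000000000000000000) := T_29 (nat_lit 208) (nat_lit 207) (nat_lit 2) (nat_lit 3) (nat_lit 12) L89034 (by decide +kernel)
theorem L89036 : W_29 (nat_lit 6) (nat_lit 0x200060007000300000001000080000000000000000000000000000000) (nat_lit 0x0) (nat_lit 0x28003500098000c00000000000000000000000000000000000000000000000) := T_29 (nat_lit 243) (nat_lit 226) (nat_lit 6) (nat_lit 5) (nat_lit 14) L89035 (by decide +kernel)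
theorem L89037 : W_29 (nat_lit 2) (nat_lit 0x800080002000f0007000300014001000080000000000000000000000000000000) (nat_lit 0x0) (nat_lit 0x20003000000000000000000000000000000000000000000000000000000000) := D_29 (nat_lit 228) (nat_lit 229) (nat_lit 245) (nat_lit 3) (nat_lit 4) (nat_lit 12) (nat_lit 4) (nat_lit 7) (nat_lit 14) (by decide +kernel)
theorem L89038 : W_29 (nat_lit 3) (nat_lit 0x80008000200070007000300014001000080000000000000000000000000000000) (nat_lit 0x0) (nat_lit 0x20003100080000000000000000000000000000000000000000000000000000) := T_29 (nat_lit 211) (nat_lit 224) (nat_lit 1) (nat_lit 7) (nat_lit 12) L89037 (by decide +kernel)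
theorem L89039 : W_29 (nat_lit 4) (nat_lit 0x80008000200070007000300010001000080000000000000000000000000000000) (nat_lit 0x0) (nat_lit 0x20003100080000000080004000000000000000000000000000000000000000) := T_29 (nat_lit 158) (nat_lit 175) (nat_lit 5) (nat_lit 5) (nat_lit 9) L89038 (by decide +kernel)
theorem L89040 : W_29 (nat_lit 5) (nat_lit 0x8000200070007000300010001000080000000000000000000000000000000) (nat_lit 0x0) (nat_lit 0x80024003100080000000080004000000000000000000000000000000000000000) := T_29 (nat_lit 259) (nat_lit 242) (nat_lit 6) (nat_lit 4) (nat_lit 15) L89039 (by decide +kernel)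
theorem L89041 : W_29 (nat_lit 6) (nat_lit 0x8000200060007000300010001000080000000000000000000000000000000) (nat_lit 0x0) (nat_lit 0x80024003100098000000080004000000000000000000000000000000000000000) := T_29 (nat_lit 208) (nat_lit 207) (nat_lit 2) (nat_lit 3) (nat_lit 12) L89040 (by decide +kernel)
theorem L89042 : W_29 (nat_lit 7) (nat_lit 0x200060007000300010001000080000000000000000000000000000000) (nat_lit 0x0) (nat_lit 0x8002c003500098000000080004000000000000000000000000000000000000000) := T_29 (nat_lit 243) (nat_lit 226) (nat_lit 6) (nat_lit 5) (nat_lit 14) L89041 (by decide +kernel)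
theorem L89043 : W_29 (nat_lit 8) (nat_lit 0x200060007000300000001000080000000000000000000000000000000) (nat_lit 0x0) (nat_lit 0x8002c003500098000000080014000800000000000000000000000000000000000) := T_29 (nat_lit 160) (nat_lit 143) (nat_lit 6) (nat_lit 7) (nat_lit 11) L89042 (by decide +kernel)
theorem L89044 : W_29 (nat_lit 2) (nat_lit 0x80004000700060007400300010001000080000000000000000000000000000000) (nat_lit 0x0) (nat_lit 0x2000000008000000020000000000000000000000000000000000000000000) := D_29 (nat_lit 207) (nat_lit 173) (nat_lit 241) (nat_lit 7) (nat_lit 3) (nat_lit 10) (nat_lit 7) (nat_lit 3) (nat_lit 11) (by decide +kernel)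
theorem L89045 : W_29 (nat_lit 3) (nat_lit 0x4000700060007400300010001000080000000000000000000000000000000) (nat_lit 0x0) (nat_lit 0x1000080002000000008000000020000000000000000000000000000000000000000000) := T_29 (nat_lit 259) (nat_lit 276) (nat_lit 6) (nat_lit 4) (nat_lit 16) L89044 (by decide +kernel)
theorem L89046 : W_29 (nat_lit 4) (nat_lit 0x4000600060007400300010001000080000000000000000000000000000000) (nat_lit 0x0) (nat_lit 0x1000080002000180008000000020000000000000000000000000000000000000000000) := T_29 (nat_lit 224) (nat_lit 223) (nat_lit 2) (nat_lit 2) (nat_lit 13) L89045 (by decide +kernel)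
theorem L89047 : W_29 (nat_lit 5) (nat_lit 0x600060007400300010001000080000000000000000000000000000000) (nat_lit 0x0) (nat_lit 0x10000800060001800080000000a0000000000000000000000000000000000000000000) := T_29 (nat_lit 242) (nat_lit 175) (nat_lit 5) (nat_lit 5) (nat_lit 10) L89046 (by decide +kernel)
theorem L89048 : W_29 (nat_lit 6) (nat_lit 0x200060007400300010001000080000000000000000000000000000000) (nat_lit 0x0) (nat_lit 0x100008000e0005800080000000a0000000000000000000000000000000000000000000) := T_29 (nat_lit 226) (nat_lit 243) (nat_lit 6) (nat_lit 5) (nat_lit 14) L89047 (by decide +kernel)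
theorem L89049 : W_29 (nat_lit 7) (nat_lit 0x200060007400300000001000080000000000000000000000000000000) (nat_lit 0x0) (nat_lit 0x100008000e0005800080000000a0010000800000000000000000000000000000000000) := T_29 (nat_lit 160) (nat_lit 143) (nat_lit 6) (nat_lit 7) (nat_lit 11) L89048 (by decide +kernel)
theorem L89050 : W_29 (nat_lit 8) (nat_lit 0x200060007000300000001000080000000000000000000000000000000) (nat_lit 0x0) (nat_lit 0x100008000e000580008000c000a0010000800000000000000000000000000000000000) := T_29 (nat_lit 190) (nat_lit 191) (nat_lit 2) (nat_lit 3) (nat_lit 11) L89049 (by decide +kernel)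
theorem L89051 : W_29 (nat_lit 2) (nat_lit 0x2000f0007400300000001000080000000000000000000000000000000) (nat_lit 0x0) (nat_lit 0x20003000000000000000000000000000000000000000000000000000000000) := D_29 (nat_lit 228) (nat_lit 229) (nat_lit 245) (nat_lit 3) (nat_lit 4) (nat_lit 12) (nat_lit 4) (nat_lit 7) (nat_lit 14) (by decide +kernel)
theorem L89052 : W_29 (nat_lit 3) (nat_lit 0x200070007400300000001000080000000000000000000000000000000) (nat_lit 0x0) (nat_lit 0x20003100080000000000000000000000000000000000000000000000000000) := T_29 (nat_lit 211) (nat_lit 224) (nat_lit 1) (nat_lit 7) (nat_lit 12) L89051 (by decide +kernel)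
theorem L89053 : W_29 (nat_lit 4) (nat_lit 0x200070007000300000001000080000000000000000000000000000000) (nat_lit 0x0) (nat_lit 0x20003100080000c00000000000000000000000000000000000000000000000) := T_29 (nat_lit 190) (nat_lit 191) (nat_lit 2) (nat_lit 3) (nat_lit 11) L89052 (by decide +kernel)
theorem L89054 : W_29 (nat_lit 5) (nat_lit 0x200060007000300000001000080000000000000000000000000000000) (nat_lit 0x0) (nat_lit 0x20003100098000c00000000000000000000000000000000000000000000000) := T_29 (nat_lit 208) (nat_lit 207) (nat_lit 2) (nat_lit 3) (nat_lit 12) L89053 (by decide +kernel)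
theorem L89055 : W_29 (nat_lit 2) (nat_lit 0x680060007400380000001800080000000000000000000000000000000) (nat_lit 0x0) (nat_lit 0x10000000000004000200000000000000000000000000000000000) := D_29 (nat_lit 158) (nat_lit 208) (nat_lit 141) (nat_lit 5) (nat_lit 5) (nat_lit 9) (nat_lit 7) (nat_lit 5) (nat_lit 8) (by decide +kernel)
theorem L89056 : W_29 (nat_lit 3) (nat_lit 0x680060007400300000001800080000000000000000000000000000000) (nat_lit 0x0) (nat_lit 0x4000000010000000080004000200000000000000000000000000000000000) := T_29 (nat_lit 175) (nat_lit 242) (nat_lit 5) (nat_lit 5) (nat_lit 10) L89055 (by decide +kernel)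
theorem L89057 : W_29 (nat_lit 4) (nat_lit 0x600060007400300000001800080000000000000000000000000000000) (nat_lit 0x0) (nat_lit 0x4000180010000000080004000200000000000000000000000000000000000) := T_29 (nat_lit 223) (nat_lit 224) (nat_lit 2) (nat_lit 2) (nat_lit 13) L89056 (by decide +kernel)
theorem L89058 : W_29 (nat_lit 5) (nat_lit 0x600060007400300000001000080000000000000000000000000000000) (nat_lit 0x0) (nat_lit 0x4000180010000000080014000a00000000000000000000000000000000000) := T_29 (nat_lit 143) (nat_lit 160) (nat_lit 6) (nat_lit 7) (nat_lit 11) L89057 (by decide +kernel)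
theorem L89059 : W_29 (nat_lit 6) (nat_lit 0x200060007400300000001000080000000000000000000000000000000) (nat_lit 0x0) (nat_lit 0xc000580010000000080014000a00000000000000000000000000000000000) := T_29 (nat_lit 226) (nat_lit 243) (nat_lit 6) (nat_lit 5) (nat_lit 14) L89058 (by decide +kernel)
theorem L89060 : W_29 (nat_lit 7) (nat_lit 0x200060007000300000001000080000000000000000000000000000000) (nat_lit 0x0) (nat_lit 0xc000580010000c00080014000a00000000000000000000000000000000000) := T_29 (nat_lit 190) (nat_lit 191) (nat_lit 2) (nat_lit 3) (nat_lit 11) L89059 (by decide +kernel)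
theorem L89061 : W_29 (nat_lit 2) (nat_lit 0x600070007400300010001000080000000000000000000000000000000) (nat_lit 0x0) (nat_lit 0x80004000000000000000080000000000000000000000000000000000000000000) := D_29 (nat_lit 242) (nat_lit 259) (nat_lit 175) (nat_lit 6) (nat_lit 4) (nat_lit 15) (nat_lit 5) (nat_lit 5) (nat_lit 10) (by decide +kernel)
theorem L89062 : W_29 (nat_lit 3) (nat_lit 0x200070007400300010001000080000000000000000000000000000000) (nat_lit 0x0) (nat_lit 0x8000c000400000000000080000000000000000000000000000000000000000000) := T_29 (nat_lit 226) (nat_lit 243) (nat_lit 6) (nat_lit 5) (nat_lit 14) L89061 (by decide +kernel)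
theorem L89063 : W_29 (nat_lit 4) (nat_lit 0x200060007400300010001000080000000000000000000000000000000) (nat_lit 0x0) (nat_lit 0x8000c000400018000000080000000000000000000000000000000000000000000) := T_29 (nat_lit 208) (nat_lit 207) (nat_lit 2) (nat_lit 3) (nat_lit 12) L89062 (by decide +kernel)
theorem L89064 : W_29 (nat_lit 5) (nat_lit 0x200060007000300010001000080000000000000000000000000000000) (nat_lit 0x0) (nat_lit 0x8000c000400018000c00080000000000000000000000000000000000000000000) := T_29 (nat_lit 190) (nat_lit 191) (nat_lit 2) (nat_lit 3) (nat_lit 11) L89063 (by decide +kernel)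
theorem L89065 : W_29 (nat_lit 6) (nat_lit 0x200060007000300000001000080000000000000000000000000000000) (nat_lit 0x0) (nat_lit 0x8000c000400018000c00080010000800000000000000000000000000000000000) := T_29 (nat_lit 160) (nat_lit 143) (nat_lit 6) (nat_lit 7) (nat_lit 11) L89064 (by decide +kernel)
theorem L89066 : W_29 (nat_lit 11) (nat_lit 0x60007000300000001000080000000000000000000000000000000) (nat_lit 0x0) (nat_lit 0x10000a002f00378009c000e000e0015000a00000000000000000000000000000000000) := Q_29 (nat_lit 225) (C_29 L89031 (C_29 L89036 (C_29 L89043 (C_29 L89050 (C_29 L89054 (C_29 L89060 (C_29 L89065 N_29))))))) (by decide +kernel)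
theorem L89067 : W_29 (nat_lit 2) (nat_lit 0x400060007800340000001800080000000000000000000000000000000) (nat_lit 0x0) (nat_lit 0x80002000100000000000000000000000000000000000) := D_29 (nat_lit 157) (nat_lit 140) (nat_lit 175) (nat_lit 7) (nat_lit 4) (nat_lit 8) (nat_lit 4) (nat_lit 5) (nat_lit 13) (by decide +kernel)
theorem L89068 : W_29 (nat_lit 3) (nat_lit 0x400060007800300000001800080000000000000000000000000000000) (nat_lit 0x0) (nat_lit 0xe0002000100000000000000000000000000000000000) := T_29 (nat_lit 174) (nat_lit 173) (nat_lit 0) (nat_lit 7) (nat_lit 11) L89067 (by decide +kernel)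
theorem L89069 : W_29 (nat_lit 4) (nat_lit 0x400060007000300000001800080000000000000000000000000000000) (nat_lit 0x0) (nat_lit 0xc000e0002000100000000000000000000000000000000000) := T_29 (nat_lit 191) (nat_lit 190) (nat_lit 2) (nat_lit 3) (nat_lit 11) L89068 (by decide +kernel)
theorem L89070 : W_29 (nat_lit 5) (nat_lit 0x400060007000300000001000080000000000000000000000000000000) (nat_lit 0x0) (nat_lit 0xc000e0012000900000000000000000000000000000000000) := T_29 (nat_lit 143) (nat_lit 160) (nat_lit 6) (nat_lit 7) (nat_lit 11) L89069 (by decide +kernel)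
theorem L89071 : W_29 (nat_lit 6) (nat_lit 0x60007000300000001000080000000000000000000000000000000) (nat_lit 0x0) (nat_lit 0x8000400000000c000e0012000900000000000000000000000000000000000) := T_29 (nat_lit 226) (nat_lit 243) (nat_lit 6) (nat_lit 5) (nat_lit 14) L89070 (by decide +kernel)
theorem L89072 : W_29 (nat_lit 2) (nat_lit 0x8000000060007400380000001f00088000000000000000000000000000000) (nat_lit 0x0) (nat_lit 0x40003000000000000000000000000000000000000000) := D_29 (nat_lit 157) (nat_lit 156) (nat_lit 174) (nat_lit 1) (nat_lit 7) (nat_lit 8) (nat_lit 7) (nat_lit 4) (nat_lit 7) (by decide +kernel)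
theorem L89073 : W_29 (nat_lit 3) (nat_lit 0x8000000060007400380000001e00088000000000000000000000000000000) (nat_lit 0x0) (nat_lit 0x40003000100004000000000000000000000000000000) := T_29 (nat_lit 140) (nat_lit 122) (nat_lit 0) (nat_lit 7) (nat_lit 8) L89072 (by decide +kernel)
theorem L89074 : W_29 (nat_lit 4) (nat_lit 0x8000000060007400380000001e00080000000000000000000000000000000) (nat_lit 0x0) (nat_lit 0x4000300010001c000000000000000000000000000000) := T_29 (nat_lit 123) (nat_lit 124) (nat_lit 0) (nat_lit 8) (nat_lit 8) L89073 (by decide +kernel)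
theorem L89075 : W_29 (nat_lit 5) (nat_lit 0x8000000060007400380000001a00080000000000000000000000000000000) (nat_lit 0x0) (nat_lit 0x4000300050011c000000000000000000000000000000) := T_29 (nat_lit 142) (nat_lit 128) (nat_lit 2) (nat_lit 5) (nat_lit 8) L89074 (by decide +kernel)
theorem L89076 : W_29 (nat_lit 6) (nat_lit 0x8000000060007400380000001200080000000000000000000000000000000) (nat_lit 0x0) (nat_lit 0x40013000d0011c000000000000000000000000000000) := T_29 (nat_lit 143) (nat_lit 160) (nat_lit 6) (nat_lit 7) (nat_lit 11) L89075 (by decide +kernel)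
theorem L89077 : W_29 (nat_lit 7) (nat_lit 0x8000000060007400380000001000080000000000000000000000000000000) (nat_lit 0x0) (nat_lit 0x40017000f0011c000000000000000000000000000000) := T_29 (nat_lit 141) (nat_lit 158) (nat_lit 7) (nat_lit 5) (nat_lit 8) L89076 (by decide +kernel)
theorem L89078 : W_29 (nat_lit 8) (nat_lit 0x60007400380000001000080000000000000000000000000000000) (nat_lit 0x0) (nat_lit 0x8000400000000000040017000f0011c000000000000000000000000000000) := T_29 (nat_lit 243) (nat_lit 226) (nat_lit 6) (nat_lit 5) (nat_lit 14) L89077 (by decide +kernel)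
theorem L89079 : W_29 (nat_lit 9) (nat_lit 0x60007000380000001000080000000000000000000000000000000) (nat_lit 0x0) (nat_lit 0x8000400000000c00040017000f0011c000000000000000000000000000000) := T_29 (nat_lit 190) (nat_lit 191) (nat_lit 2) (nat_lit 3) (nat_lit 11) L89078 (by decide +kernel)
theorem L89080 : W_29 (nat_lit 10) (nat_lit 0x60007000300000001000080000000000000000000000000000000) (nat_lit 0x0) (nat_lit 0xc000780098000c000c0017000f0011c000000000000000000000000000000) := Q_29 (nat_lit 175) (C_29 L89021 (C_29 L82948 (C_29 L89079 N_29))) (by decide +kernel)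
theorem L89081 : W_29 (nat_lit 12) (nat_lit 0x60006000300000001000080000000000000000000000000000000) (nat_lit 0x0) (nat_lit 0x10000a002f00378009c001e000e0017800f8011c000000000000000000000000000000) := Q_29 (nat_lit 192) (C_29 L89006 (C_29 L82952 (C_29 L89022 (C_29 L89066 (C_29 L89071 (C_29 L85168 (C_29 L89080 N_29))))))) (by decide +kernel)
theorem L89082 : W_29 (nat_lit 14) (nat_lit 0x60006000200000001000080000000000000000000000000000000) (nat_lit 0x0) (nat_lit 0x10001a002f00378009c001e001e001f800f8013c000400020000000000000000000000) := Q_29 (nat_lit 176) (C_29 L85365 (C_29 L89081 (C_29 L85151 (C_29 L85117 N_29)))) (by decide +kernel)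
theorem L89083 : W_29 (nat_lit 5) (nat_lit 0x60006000300000001a00080000000000000000000000000000000) (nat_lit 0x0) (nat_lit 0x700050011c000000000000000000000000000000) := T_29 (nat_lit 142) (nat_lit 128) (nat_lit 2) (nat_lit 5) (nat_lit 8) L85489 (by decide +kernel)
theorem L89084 : W_29 (nat_lit 2) (nat_lit 0x6000e000380000001a00080000000000000000000000000000000) (nat_lit 0x0) (nat_lit 0x1000000004000000010000000000000000000000000000000) := D_29 (nat_lit 158) (nat_lit 124) (nat_lit 192) (nat_lit 7) (nat_lit 5) (nat_lit 7) (nat_lit 7) (nat_lit 5) (nat_lit 8) (by decide +kernel)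
theorem L89085 : W_29 (nat_lit 3) (nat_lit 0x6000e000300000001a00080000000000000000000000000000000) (nat_lit 0x0) (nat_lit 0x10000c0004000000010000000000000000000000000000000) := T_29 (nat_lit 175) (nat_lit 174) (nat_lit 3) (nat_lit 4) (nat_lit 10) L89084 (by decide +kernel)
theorem L89086 : W_29 (nat_lit 4) (nat_lit 0x60006000300000001a00080000000000000000000000000000000) (nat_lit 0x0) (nat_lit 0x190000c0004000000010000000000000000000000000000000) := T_29 (nat_lit 195) (nat_lit 196) (nat_lit 1) (nat_lit 9) (nat_lit 11) L89085 (by decide +kernel)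
theorem L89087 : W_29 (nat_lit 2) (nat_lit 0x6000e400340002001f00088000000000000000000000000000000) (nat_lit 0x0) (nat_lit 0x8001800000000000000000000000000000000000000000000000) := D_29 (nat_lit 191) (nat_lit 192) (nat_lit 207) (nat_lit 2) (nat_lit 3) (nat_lit 11) (nat_lit 5) (nat_lit 4) (nat_lit 8) (by decide +kernel)
theorem L89088 : W_29 (nat_lit 3) (nat_lit 0x6000e000340002001f00088000000000000000000000000000000) (nat_lit 0x0) (nat_lit 0x8001c00020000000000000000000000000000000000000000000) := T_29 (nat_lit 190) (nat_lit 173) (nat_lit 5) (nat_lit 4) (nat_lit 7) L89087 (by decide +kernel)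
theorem L89089 : W_29 (nat_lit 4) (nat_lit 0x6000e000340000001f00088000000000000000000000000000000) (nat_lit 0x0) (nat_lit 0x8001c00020003000000000000000000000000000000000000000) := T_29 (nat_lit 157) (nat_lit 156) (nat_lit 1) (nat_lit 7) (nat_lit 8) L89088 (by decide +kernel)
theorem L89090 : W_29 (nat_lit 5) (nat_lit 0x6000e000340000001e00088000000000000000000000000000000) (nat_lit 0x0) (nat_lit 0x8001c00020003000100004000000000000000000000000000000) := T_29 (nat_lit 140) (nat_lit 122) (nat_lit 0) (nat_lit 7) (nat_lit 8) L89089 (by decide +kernel)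
theorem L89091 : W_29 (nat_lit 6) (nat_lit 0x6000e000300000001e00088000000000000000000000000000000) (nat_lit 0x0) (nat_lit 0x8001c000e0003000100004000000000000000000000000000000) := T_29 (nat_lit 174) (nat_lit 175) (nat_lit 3) (nat_lit 4) (nat_lit 10) L89090 (by decide +kernel)
theorem L89092 : W_29 (nat_lit 7) (nat_lit 0x6000e000300000001e00080000000000000000000000000000000) (nat_lit 0x0) (nat_lit 0x8001c000e000300010001c000000000000000000000000000000) := T_29 (nat_lit 123) (nat_lit 124) (nat_lit 0) (nat_lit 8) (nat_lit 8) L89091 (by decide +kernel)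
theorem L89093 : W_29 (nat_lit 8) (nat_lit 0x6000e000300000001a00080000000000000000000000000000000) (nat_lit 0x0) (nat_lit 0x8001c000e000300050011c000000000000000000000000000000) := T_29 (nat_lit 142) (nat_lit 128) (nat_lit 2) (nat_lit 5) (nat_lit 8) L89092 (by decide +kernel)
theorem L89094 : W_29 (nat_lit 9) (nat_lit 0x60006000300000001a00080000000000000000000000000000000) (nat_lit 0x0) (nat_lit 0x8019c000e000300050011c000000000000000000000000000000) := T_29 (nat_lit 195) (nat_lit 196) (nat_lit 1) (nat_lit 9) (nat_lit 11) L89093 (by decide +kernel)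
theorem L89095 : W_29 (nat_lit 2) (nat_lit 0x6000e000300004001e00080000000000000000000000000000000) (nat_lit 0x0) (nat_lit 0x10000c0000000000000000000000000000000000000000000) := D_29 (nat_lit 175) (nat_lit 174) (nat_lit 192) (nat_lit 3) (nat_lit 4) (nat_lit 10) (nat_lit 7) (nat_lit 5) (nat_lit 8) (by decide +kernel)
theorem L89096 : W_29 (nat_lit 3) (nat_lit 0x6000e000300000001e00080000000000000000000000000000000) (nat_lit 0x0) (nat_lit 0x10000c0006000000000000000000000000000000000000000) := T_29 (nat_lit 158) (nat_lit 157) (nat_lit 1) (nat_lit 8) (nat_lit 8) L89095 (by decide +kernel)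
theorem L89097 : W_29 (nat_lit 4) (nat_lit 0x6000e000300000001a00080000000000000000000000000000000) (nat_lit 0x0) (nat_lit 0x10000c0006000400100000000000000000000000000000000) := T_29 (nat_lit 142) (nat_lit 128) (nat_lit 2) (nat_lit 5) (nat_lit 8) L89096 (by decide +kernel)
theorem L89098 : W_29 (nat_lit 5) (nat_lit 0x60006000300000001a00080000000000000000000000000000000) (nat_lit 0x0) (nat_lit 0x190000c0006000400100000000000000000000000000000000) := T_29 (nat_lit 195) (nat_lit 196) (nat_lit 1) (nat_lit 9) (nat_lit 11) L89097 (by decide +kernel)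
theorem L89099 : W_29 (nat_lit 10) (nat_lit 0x60006000300000001800080000000000000000000000000000000) (nat_lit 0x0) (nat_lit 0x8019c000e000700070011c000000000000000000000000000000) := Q_29 (nat_lit 141) (C_29 L89083 (C_29 L89086 (C_29 L89094 (C_29 L89098 N_29)))) (by decide +kernel)
theorem L89100 : W_29 (nat_lit 11) (nat_lit 0x60006000300000001000080000000000000000000000000000000) (nat_lit 0x0) (nat_lit 0x8019c000e0017000f0011c000000000000000000000000000000) := T_29 (nat_lit 143) (nat_lit 160) (nat_lit 6) (nat_lit 7) (nat_lit 11) L89099 (by decide +kernel)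
theorem L89101 : W_29 (nat_lit 12) (nat_lit 0x60006000200000001000080000000000000000000000000000000) (nat_lit 0x0) (nat_lit 0x100008000400008019c001e001f000f0013c000000000000000000000000000000) := Q_29 (nat_lit 176) (C_29 L85365 (C_29 L89100 (C_29 L85117 N_29))) (by decide +kernel)
theorem L89102 : W_29 (nat_lit 2) (nat_lit 0x6000e000200000001000080000000000000000000000000000000) (nat_lit 0x0) (nat_lit 0x90001000000000000000000000000000000000000000000000000) := D_29 (nat_lit 208) (nat_lit 192) (nat_lit 211) (nat_lit 1) (nat_lit 8) (nat_lit 11) (nat_lit 2) (nat_lit 4) (nat_lit 12) (by decide +kernel)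
theorem L89103 : W_29 (nat_lit 3) (nat_lit 0x60006000200000001000080000000000000000000000000000000) (nat_lit 0x0) (nat_lit 0x90019000000000000000000000000000000000000000000000000) := T_29 (nat_lit 195) (nat_lit 196) (nat_lit 1) (nat_lit 9) (nat_lit 11) L89102 (by decide +kernel)
theorem L89104 : W_29 (nat_lit 15) (nat_lit 0x40006000200000001000080000000000000000000000000000000) (nat_lit 0x0) (nat_lit 0x10001a002f0037800bc019e001e001f800f8013c000400020000000000000000000000) := Q_29 (nat_lit 209) (C_29 L85379 (C_29 L89082 (C_29 L80241 (C_29 L89101 (C_29 L89103 N_29))))) (by decide +kernel)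
theorem L89105 : W_29 (nat_lit 2) (nat_lit 0x800040006000380000001000080000000000000000000000000000000) (nat_lit 0x0) (nat_lit 0x8000060000000000000000000000000000000000000000000) := D_29 (nat_lit 174) (nat_lit 195) (nat_lit 173) (nat_lit 3) (nat_lit 4) (nat_lit 10) (nat_lit 3) (nat_lit 3) (nat_lit 10) (by decide +kernel)
theorem L89106 : W_29 (nat_lit 3) (nat_lit 0x800040006000300000001000080000000000000000000000000000000) (nat_lit 0x0) (nat_lit 0x80000e0004000000000000000000000000000000000000000) := T_29 (nat_lit 175) (nat_lit 158) (nat_lit 4) (nat_lit 6) (nat_lit 13) L89105 (by decide +kernel)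
theorem L89107 : W_29 (nat_lit 4) (nat_lit 0x40006000300000001000080000000000000000000000000000000) (nat_lit 0x0) (nat_lit 0x100008000000080000e0004000000000000000000000000000000000000000) := T_29 (nat_lit 227) (nat_lit 244) (nat_lit 6) (nat_lit 6) (nat_lit 14) L89106 (by decide +kernel)
theorem L89110 : W_29 (nat_lit 6) (nat_lit 0x6000300000001000080000000000000000000000000000000) (nat_lit 0x0) (nat_lit 0x38001c000f800800000001c000600030000000000000000000000000000000) := Q_29 (nat_lit 159) (C_29 L86445 (C_29 L83649 (C_29 L15180 N_29))) (by decide +kernel)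
theorem L89111 : W_29 (nat_lit 5) (nat_lit 0x6000380000001000080000000000000000000000000000000) (nat_lit 0x0) (nat_lit 0x40039801c00006000200010000000000000000000000000000000) := Q_29 (nat_lit 178) (C_29 L86303 (C_29 L82962 (C_29 L85483 N_29))) (by decide +kernel)
theorem L89112 : W_29 (nat_lit 7) (nat_lit 0x6000300000001000080000000000000000000000000000000) (nat_lit 0x0) (nat_lit 0x50039c01ce0007000200010000000000000000000000000000000) := Q_29 (nat_lit 175) (C_29 L85479 (C_29 L89111 (C_29 L85481 N_29))) (by decide +kernel)
theorem L89113 : W_29 (nat_lit 10) (nat_lit 0x6000200000001000080000000000000000000000000000000) (nat_lit 0x0) (nat_lit 0x3c003e000f8039c01de001f000700038000000000000000000000000000000) := Q_29 (nat_lit 176) (C_29 L88902 (C_29 L89110 (C_29 L85058 (C_29 L89112 (C_29 L83292 N_29))))) (by decide +kernel)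
theorem L89114 : W_29 (nat_lit 5) (nat_lit 0x40007000300000001000080000000000000000000000000000000) (nat_lit 0x0) (nat_lit 0x8000ce0007000200000000000000000000000000000000000) := Q_29 (nat_lit 175) (C_29 L88917 (C_29 L85189 (C_29 L79691 N_29))) (by decide +kernel)
theorem L89115 : W_29 (nat_lit 7) (nat_lit 0x40007000300008001000080000000000000000000000000000000) (nat_lit 0x0) (nat_lit 0x400038000000080017000b80000000000000000000000000000000000) := T_29 (nat_lit 160) (nat_lit 143) (nat_lit 6) (nat_lit 7) (nat_lit 11) L86545 (by decide +kernel)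
theorem L89116 : W_29 (nat_lit 8) (nat_lit 0x40007000300000001000080000000000000000000000000000000) (nat_lit 0x0) (nat_lit 0x4000b800000008001f000f80130000000000000000000000000000000) := Q_29 (nat_lit 159) (C_29 L88936 (C_29 L88933 (C_29 L89115 N_29))) (by decide +kernel)
theorem L89117 : W_29 (nat_lit 2) (nat_lit 0x60007000300018001000080000000000000000000000000000000) (nat_lit 0x0) (nat_lit 0x18008000000000000000000000000000000000000000000000000) := D_29 (nat_lit 208) (nat_lit 207) (nat_lit 195) (nat_lit 2) (nat_lit 3) (nat_lit 12) (nat_lit 1) (nat_lit 8) (nat_lit 11) (by decide +kernel)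
theorem L89118 : W_29 (nat_lit 3) (nat_lit 0x40007000300018001000080000000000000000000000000000000) (nat_lit 0x0) (nat_lit 0x400038008000000000000000000000000000000000000000000000000) := T_29 (nat_lit 209) (nat_lit 226) (nat_lit 5) (nat_lit 6) (nat_lit 9) L89117 (by decide +kernel)
theorem L89119 : W_29 (nat_lit 4) (nat_lit 0x40007000300008001000080000000000000000000000000000000) (nat_lit 0x0) (nat_lit 0x400038008000000010000800000000000000000000000000000000000) := T_29 (nat_lit 160) (nat_lit 143) (nat_lit 6) (nat_lit 7) (nat_lit 11) L89118 (by decide +kernel)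
theorem L89120 : W_29 (nat_lit 5) (nat_lit 0x40007000300000001000080000000000000000000000000000000) (nat_lit 0x0) (nat_lit 0x4000b8008000000018000e00130000000000000000000000000000000) := Q_29 (nat_lit 159) (C_29 L88936 (C_29 L88933 (C_29 L89119 N_29))) (by decide +kernel)
theorem L89121 : W_29 (nat_lit 5) (nat_lit 0x40007000300000001000080000000000000000000000000000000) (nat_lit 0x0) (nat_lit 0x4000b8008000000018000c00020000000000000000000000000000000) := Q_29 (nat_lit 159) (C_29 L89119 (C_29 L88933 N_29)) (by decide +kernel)
theorem L89122 : W_29 (nat_lit 9) (nat_lit 0x40007000200000001000080000000000000000000000000000000) (nat_lit 0x0) (nat_lit 0x4000b8008000de001f000f80130000000000000000000000000000000) := Q_29 (nat_lit 176) (C_29 L89114 (C_29 L89116 (C_29 L89120 (C_29 L89121 N_29)))) (by decide +kernel)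
theorem L89123 : W_29 (nat_lit 10) (nat_lit 0x40006000200000001000080000000000000000000000000000000) (nat_lit 0x0) (nat_lit 0x4000bc009f01dfc01f000f80130000000000000000000000000000000) := Q_29 (nat_lit 192) (C_29 L89122 (C_29 L84431 (C_29 L80211 (C_29 L80212 (C_29 L84933 N_29))))) (by decide +kernel)
theorem L89124 : W_29 (nat_lit 10) (nat_lit 0x40007000200000001000080000000000000000000000000000000) (nat_lit 0x0) (nat_lit 0x300018000e000380088000f000e000700000000000000000000000000000000000) := T_29 (nat_lit 244) (nat_lit 227) (nat_lit 6) (nat_lit 6) (nat_lit 14) L84730 (by decide +kernel)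
theorem L89125 : W_29 (nat_lit 11) (nat_lit 0x40006000200000001000080000000000000000000000000000000) (nat_lit 0x0) (nat_lit 0x300018000e000bc009c00df000f000700020000000000000000000000000000000) := Q_29 (nat_lit 192) (C_29 L84359 (C_29 L80212 (C_29 L84924 (C_29 L89124 N_29)))) (by decide +kernel)
theorem L89126 : W_29 (nat_lit 12) (nat_lit 0x6000200000001000080000000000000000000000000000000) (nat_lit 0x0) (nat_lit 0x300038003e000fc009f01dfc01f000f80130000000000000000000000000000000) := Q_29 (nat_lit 210) (C_29 L89123 (C_29 L85341 (C_29 L80043 (C_29 L10108 (C_29 L89125 N_29))))) (by decide +kernel)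
theorem L89127 : W_29 (nat_lit 3) (nat_lit 0x68007000200004001200080000000000000000000000000000000) (nat_lit 0x0) (nat_lit 0x12000c00100000000000000000000000000000000) := T_29 (nat_lit 143) (nat_lit 160) (nat_lit 6) (nat_lit 7) (nat_lit 11) L79808 (by decide +kernel)
theorem L89128 : W_29 (nat_lit 4) (nat_lit 0x68007000200004001000080000000000000000000000000000000) (nat_lit 0x0) (nat_lit 0x80012000e00100000000000000000000000000000000) := T_29 (nat_lit 141) (nat_lit 175) (nat_lit 7) (nat_lit 5) (nat_lit 8) L89127 (by decide +kernel)
theorem L89129 : W_29 (nat_lit 5) (nat_lit 0x60007000200004001000080000000000000000000000000000000) (nat_lit 0x0) (nat_lit 0x18000000080012000e00100000000000000000000000000000000) := T_29 (nat_lit 207) (nat_lit 208) (nat_lit 2) (nat_lit 3) (nat_lit 12) L89128 (by decide +kernel)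
theorem L89130 : W_29 (nat_lit 4) (nat_lit 0x60007000200004001000080000000000000000000000000000000) (nat_lit 0x0) (nat_lit 0x200018000000080010000a00000000000000000000000000000000000) := T_29 (nat_lit 143) (nat_lit 160) (nat_lit 6) (nat_lit 7) (nat_lit 11) L79810 (by decide +kernel)
theorem L89131 : W_29 (nat_lit 6) (nat_lit 0x68007000200004001000080000000000000000000000000000000) (nat_lit 0x0) (nat_lit 0x18000c0006000000000000c0002000300000000000000000000000000000000000) := T_29 (nat_lit 175) (nat_lit 141) (nat_lit 7) (nat_lit 5) (nat_lit 8) L79702 (by decide +kernel)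
theorem L89132 : W_29 (nat_lit 7) (nat_lit 0x60007000200004001000080000000000000000000000000000000) (nat_lit 0x0) (nat_lit 0x18000c0006000180000000c0002000300000000000000000000000000000000000) := T_29 (nat_lit 207) (nat_lit 208) (nat_lit 2) (nat_lit 3) (nat_lit 12) L89131 (by decide +kernel)
theorem L89133 : W_29 (nat_lit 2) (nat_lit 0x800700012000f0007000200004001000080000000000000000000000000000000) (nat_lit 0x0) (nat_lit 0x100008000400000000000000000000000000000000000000000000000000000000) := D_29 (nat_lit 243) (nat_lit 260) (nat_lit 226) (nat_lit 1) (nat_lit 8) (nat_lit 14) (nat_lit 0) (nat_lit 8) (nat_lit 14) (by decide +kernel)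
theorem L89134 : W_29 (nat_lit 3) (nat_lit 0x800600012000f0007000200004001000080000000000000000000000000000000) (nat_lit 0x0) (nat_lit 0x300018000400000000000000000000000000000000000000000000000000000000) := T_29 (nat_lit 244) (nat_lit 261) (nat_lit 5) (nat_lit 7) (nat_lit 11) L89133 (by decide +kernel)
theorem L89135 : W_29 (nat_lit 4) (nat_lit 0x800200012000f0007000200004001000080000000000000000000000000000000) (nat_lit 0x0) (nat_lit 0xb00058000400000000000000000000000000000000000000000000000000000000) := T_29 (nat_lit 246) (nat_lit 263) (nat_lit 7) (nat_lit 7) (nat_lit 11) L89134 (by decide +kernel)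
theorem L89136 : W_29 (nat_lit 5) (nat_lit 0x200012000f0007000200004001000080000000000000000000000000000000) (nat_lit 0x0) (nat_lit 0xb8005c000400000000000000000000000000000000000000000000000000000000) := T_29 (nat_lit 259) (nat_lit 242) (nat_lit 6) (nat_lit 4) (nat_lit 15) L89135 (by decide +kernel)
theorem L89137 : W_29 (nat_lit 6) (nat_lit 0x12000f0007000200004001000080000000000000000000000000000000) (nat_lit 0x0) (nat_lit 0xf8007c000400000000000000000000000000000000000000000000000000000000) := T_29 (nat_lit 245) (nat_lit 262) (nat_lit 4) (nat_lit 7) (nat_lit 15) L89136 (by decide +kernel)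
theorem L89138 : W_29 (nat_lit 7) (nat_lit 0x10000f0007000200004001000080000000000000000000000000000000) (nat_lit 0x0) (nat_lit 0xf8007c000700000000000000000000000000000000000000000000000000000000) := T_29 (nat_lit 225) (nat_lit 224) (nat_lit 1) (nat_lit 7) (nat_lit 12) L89137 (by decide +kernel)
theorem L89139 : W_29 (nat_lit 8) (nat_lit 0xf0007000200004001000080000000000000000000000000000000) (nat_lit 0x0) (nat_lit 0xf8007c003700000000000000000000000000000000000000000000000000000000) := T_29 (nat_lit 228) (nat_lit 229) (nat_lit 3) (nat_lit 4) (nat_lit 12) L89138 (by decide +kernel)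
theorem L89140 : W_29 (nat_lit 9) (nat_lit 0xe0007000200004001000080000000000000000000000000000000) (nat_lit 0x0) (nat_lit 0xf8007c003700018000000000000000000000000000000000000000000000000000) := T_29 (nat_lit 208) (nat_lit 207) (nat_lit 2) (nat_lit 3) (nat_lit 12) L89139 (by decide +kernel)
theorem L89141 : W_29 (nat_lit 2) (nat_lit 0xe800700022001e001100080000000000000000000000000000000) (nat_lit 0x0) (nat_lit 0x400010001000000000000000000000000000000000000000) := D_29 (nat_lit 156) (nat_lit 172) (nat_lit 190) (nat_lit 1) (nat_lit 6) (nat_lit 9) (nat_lit 6) (nat_lit 3) (nat_lit 12) (by decide +kernel)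
theorem L89142 : W_29 (nat_lit 3) (nat_lit 0xe800700022001e001000080000000000000000000000000000000) (nat_lit 0x0) (nat_lit 0x400010001000180000000000000000000000000000000000) := T_29 (nat_lit 140) (nat_lit 139) (nat_lit 0) (nat_lit 7) (nat_lit 9) L89141 (by decide +kernel)
theorem L89143 : W_29 (nat_lit 4) (nat_lit 0xe800700020001e001000080000000000000000000000000000000) (nat_lit 0x0) (nat_lit 0x400070001000180000000000000000000000000000000000) := T_29 (nat_lit 173) (nat_lit 174) (nat_lit 1) (nat_lit 7) (nat_lit 9) L89142 (by decide +kernel)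
theorem L89144 : W_29 (nat_lit 5) (nat_lit 0xe800700020001c001000080000000000000000000000000000000) (nat_lit 0x0) (nat_lit 0x400470003000180000000000000000000000000000000000) := T_29 (nat_lit 157) (nat_lit 178) (nat_lit 3) (nat_lit 4) (nat_lit 9) L89143 (by decide +kernel)
theorem L89145 : W_29 (nat_lit 6) (nat_lit 0xe8007000200014001000080000000000000000000000000000000) (nat_lit 0x0) (nat_lit 0x40047000b000580000000000000000000000000000000000) := T_29 (nat_lit 159) (nat_lit 142) (nat_lit 4) (nat_lit 7) (nat_lit 12) L89144 (by decide +kernel)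
theorem L89146 : W_29 (nat_lit 7) (nat_lit 0xe8007000200004001000080000000000000000000000000000000) (nat_lit 0x0) (nat_lit 0x40047001b000d80000000000000000000000000000000000) := T_29 (nat_lit 160) (nat_lit 143) (nat_lit 6) (nat_lit 7) (nat_lit 11) L89145 (by decide +kernel)
theorem L89147 : W_29 (nat_lit 8) (nat_lit 0xe0007000200004001000080000000000000000000000000000000) (nat_lit 0x0) (nat_lit 0x1800040047001b000d80000000000000000000000000000000000) := T_29 (nat_lit 207) (nat_lit 208) (nat_lit 2) (nat_lit 3) (nat_lit 12) L89146 (by decide +kernel)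
theorem L89148 : W_29 (nat_lit 2) (nat_lit 0xe000700022001e001080080000000000000000000000000000000) (nat_lit 0x0) (nat_lit 0x10001000040000000000000000000000000000000000) := D_29 (nat_lit 156) (nat_lit 172) (nat_lit 138) (nat_lit 1) (nat_lit 6) (nat_lit 9) (nat_lit 0) (nat_lit 6) (nat_lit 9) (by decide +kernel)
theorem L89149 : W_29 (nat_lit 3) (nat_lit 0xe000700022001e001000080000000000000000000000000000000) (nat_lit 0x0) (nat_lit 0x100010001c0000000000000000000000000000000000) := T_29 (nat_lit 139) (nat_lit 140) (nat_lit 0) (nat_lit 7) (nat_lit 9) L89148 (by decide +kernel)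
theorem L89150 : W_29 (nat_lit 4) (nat_lit 0xe000700020001e001000080000000000000000000000000000000) (nat_lit 0x0) (nat_lit 0x700010001c0000000000000000000000000000000000) := T_29 (nat_lit 173) (nat_lit 174) (nat_lit 1) (nat_lit 7) (nat_lit 9) L89149 (by decide +kernel)
theorem L89151 : W_29 (nat_lit 5) (nat_lit 0xe000700020001c001000080000000000000000000000000000000) (nat_lit 0x0) (nat_lit 0x4700030001c0000000000000000000000000000000000) := T_29 (nat_lit 157) (nat_lit 178) (nat_lit 3) (nat_lit 4) (nat_lit 9) L89150 (by decide +kernel)
theorem L89152 : W_29 (nat_lit 6) (nat_lit 0xe0007000200014001000080000000000000000000000000000000) (nat_lit 0x0) (nat_lit 0x47000b0005c0000000000000000000000000000000000) := T_29 (nat_lit 159) (nat_lit 142) (nat_lit 4) (nat_lit 7) (nat_lit 12) L89151 (by decide +kernel)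
theorem L89153 : W_29 (nat_lit 7) (nat_lit 0xe0007000200004001000080000000000000000000000000000000) (nat_lit 0x0) (nat_lit 0x47001b000dc0000000000000000000000000000000000) := T_29 (nat_lit 160) (nat_lit 143) (nat_lit 6) (nat_lit 7) (nat_lit 11) L89152 (by decide +kernel)
theorem L89154 : W_29 (nat_lit 10) (nat_lit 0x60007000200004001000080000000000000000000000000000000) (nat_lit 0x0) (nat_lit 0xf8007c00370009800040047001b000dc0000000000000000000000000000000000) := Q_29 (nat_lit 211) (C_29 L89140 (C_29 L89147 (C_29 L89153 N_29))) (by decide +kernel)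
theorem L89155 : W_29 (nat_lit 2) (nat_lit 0x60007000200004001a00080000000000000000000000000000000) (nat_lit 0x0) (nat_lit 0x2000400100000000000000000000000000000000) := D_29 (nat_lit 142) (nat_lit 128) (nat_lit 157) (nat_lit 2) (nat_lit 5) (nat_lit 8) (nat_lit 1) (nat_lit 8) (nat_lit 8) (by decide +kernel)
theorem L89156 : W_29 (nat_lit 3) (nat_lit 0x60007000200004001800080000000000000000000000000000000) (nat_lit 0x0) (nat_lit 0x80002000600100000000000000000000000000000000) := T_29 (nat_lit 141) (nat_lit 175) (nat_lit 7) (nat_lit 5) (nat_lit 8) L89155 (by decide +kernel)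
theorem L89157 : W_29 (nat_lit 4) (nat_lit 0x60007000200004001000080000000000000000000000000000000) (nat_lit 0x0) (nat_lit 0x80012000e00100000000000000000000000000000000) := T_29 (nat_lit 143) (nat_lit 160) (nat_lit 6) (nat_lit 7) (nat_lit 11) L89156 (by decide +kernel)
theorem L89158 : W_29 (nat_lit 11) (nat_lit 0x60007000200000001000080000000000000000000000000000000) (nat_lit 0x0) (nat_lit 0xf8007c0037000980004004f001f000fc0100000000000000000000000000000000) := Q_29 (nat_lit 158) (C_29 L89129 (C_29 L89130 (C_29 L89132 (C_29 L89154 (C_29 L89157 N_29))))) (by decide +kernel)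
theorem L89159 : W_29 (nat_lit 3) (nat_lit 0x68007000200000001000080000000000000000000000000000000) (nat_lit 0x0) (nat_lit 0x4000e00400000000000000000000000000000000000000000000) := T_29 (nat_lit 191) (nat_lit 178) (nat_lit 2) (nat_lit 4) (nat_lit 11) L24869 (by decide +kernel)
theorem L89160 : W_29 (nat_lit 4) (nat_lit 0x60007000200000001000080000000000000000000000000000000) (nat_lit 0x0) (nat_lit 0x1c000e00400000000000000000000000000000000000000000000) := T_29 (nat_lit 207) (nat_lit 208) (nat_lit 2) (nat_lit 3) (nat_lit 12) L89159 (by decide +kernel)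
theorem L89161 : W_29 (nat_lit 6) (nat_lit 0x60007000200000001000080000000000000000000000000000000) (nat_lit 0x0) (nat_lit 0x80004000180008004e0002000100000000000000000000000000000000000) := T_29 (nat_lit 191) (nat_lit 178) (nat_lit 2) (nat_lit 4) (nat_lit 11) L84973 (by decide +kernel)
theorem L89162 : W_29 (nat_lit 12) (nat_lit 0x60006000200000001000080000000000000000000000000000000) (nat_lit 0x0) (nat_lit 0xf8007c00370009c001e004f001f000fc0100000000000000000000000000000000) := Q_29 (nat_lit 192) (C_29 L89158 (C_29 L85389 (C_29 L84564 (C_29 L89160 (C_29 L89161 N_29))))) (by decide +kernel)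
theorem L89163 : W_29 (nat_lit 2) (nat_lit 0x6000f000680014001000080000000000000000000000000000000) (nat_lit 0x0) (nat_lit 0xa000400000000000000000000000000000000000) := D_29 (nat_lit 159) (nat_lit 142) (nat_lit 157) (nat_lit 6) (nat_lit 5) (nat_lit 12) (nat_lit 3) (nat_lit 4) (nat_lit 9) (by decide +kernel)
theorem L89164 : W_29 (nat_lit 3) (nat_lit 0x6000f000680010001000080000000000000000000000000000000) (nat_lit 0x0) (nat_lit 0xe000600000000000000000000000000000000000) := T_29 (nat_lit 158) (nat_lit 141) (nat_lit 7) (nat_lit 5) (nat_lit 8) L89163 (by decide +kernel)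
theorem L89165 : W_29 (nat_lit 4) (nat_lit 0x6000f000600010001000080000000000000000000000000000000) (nat_lit 0x0) (nat_lit 0xc000e000600000000000000000000000000000000000) := T_29 (nat_lit 175) (nat_lit 174) (nat_lit 0) (nat_lit 8) (nat_lit 11) L89164 (by decide +kernel)
theorem L89166 : W_29 (nat_lit 5) (nat_lit 0x6000f000200010001000080000000000000000000000000000000) (nat_lit 0x0) (nat_lit 0xcc000e000600000000000000000000000000000000000) := T_29 (nat_lit 178) (nat_lit 179) (nat_lit 2) (nat_lit 5) (nat_lit 11) L89165 (by decide +kernel)
theorem L89167 : W_29 (nat_lit 6) (nat_lit 0x6000f000200000001000080000000000000000000000000000000) (nat_lit 0x0) (nat_lit 0xcc001e000e00000000000000000000000000000000000) := T_29 (nat_lit 160) (nat_lit 143) (nat_lit 6) (nat_lit 7) (nat_lit 11) L89166 (by decide +kernel)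
theorem L89168 : W_29 (nat_lit 7) (nat_lit 0x60007000200000001000080000000000000000000000000000000) (nat_lit 0x0) (nat_lit 0x18000cc001e000e00000000000000000000000000000000000) := T_29 (nat_lit 195) (nat_lit 196) (nat_lit 1) (nat_lit 9) (nat_lit 11) L89167 (by decide +kernel)
theorem L89169 : W_29 (nat_lit 2) (nat_lit 0x60017800200000001000080000000000000000000000000000000) (nat_lit 0x0) (nat_lit 0x80000600000000000000000000000000000000000000000000000) := D_29 (nat_lit 190) (nat_lit 189) (nat_lit 211) (nat_lit 3) (nat_lit 2) (nat_lit 11) (nat_lit 3) (nat_lit 3) (nat_lit 11) (by decide +kernel)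
theorem L89170 : W_29 (nat_lit 3) (nat_lit 0x60017000200000001000080000000000000000000000000000000) (nat_lit 0x0) (nat_lit 0x80000e00400000000000000000000000000000000000000000000) := T_29 (nat_lit 191) (nat_lit 178) (nat_lit 2) (nat_lit 4) (nat_lit 11) L89169 (by decide +kernel)
theorem L89171 : W_29 (nat_lit 4) (nat_lit 0x60007000200000001000080000000000000000000000000000000) (nat_lit 0x0) (nat_lit 0x80018e00400000000000000000000000000000000000000000000) := T_29 (nat_lit 196) (nat_lit 195) (nat_lit 1) (nat_lit 9) (nat_lit 11) L89170 (by decide +kernel)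
theorem L89172 : W_29 (nat_lit 8) (nat_lit 0x60006000200000001000080000000000000000000000000000000) (nat_lit 0x0) (nat_lit 0x80019e00cf001e000e00000000000000000000000000000000000) := Q_29 (nat_lit 192) (C_29 L89168 (C_29 L85389 (C_29 L24881 (C_29 L89171 N_29)))) (by decide +kernel)
theorem L89173 : W_29 (nat_lit 13) (nat_lit 0x40006000200000001000080000000000000000000000000000000) (nat_lit 0x0) (nat_lit 0xf8007c0037000bc019e00cf001f000fc0100000000000000000000000000000000) := Q_29 (nat_lit 209) (C_29 L89103 (C_29 L89162 (C_29 L85379 (C_29 L80241 (C_29 L89172 N_29))))) (by decide +kernel)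
theorem L89174 : W_29 (nat_lit 2) (nat_lit 0x400000001a000f0007800200000001000080000000000000000000000000000000) (nat_lit 0x0) (nat_lit 0x4000000000000000080004000000000000000000000000000000000000000) := D_29 (nat_lit 175) (nat_lit 158) (nat_lit 242) (nat_lit 7) (nat_lit 5) (nat_lit 9) (nat_lit 6) (nat_lit 4) (nat_lit 14) (by decide +kernel)
theorem L89175 : W_29 (nat_lit 3) (nat_lit 0x400000001a000f0006800200000001000080000000000000000000000000000000) (nat_lit 0x0) (nat_lit 0x4000000000001000480004000000000000000000000000000000000000000) := T_29 (nat_lit 192) (nat_lit 178) (nat_lit 2) (nat_lit 4) (nat_lit 11) L89174 (by decide +kernel)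
theorem L89176 : W_29 (nat_lit 4) (nat_lit 0x400000001a000f0006000200000001000080000000000000000000000000000000) (nat_lit 0x0) (nat_lit 0x4000000000001c00480004000000000000000000000000000000000000000) := T_29 (nat_lit 191) (nat_lit 190) (nat_lit 0) (nat_lit 7) (nat_lit 12) L89175 (by decide +kernel)
theorem L89177 : W_29 (nat_lit 5) (nat_lit 0x4000000018000f0006000200000001000080000000000000000000000000000000) (nat_lit 0x0) (nat_lit 0x4000300000001c00480004000000000000000000000000000000000000000) := T_29 (nat_lit 225) (nat_lit 224) (nat_lit 1) (nat_lit 7) (nat_lit 12) L89176 (by decide +kernel)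
theorem L89178 : W_29 (nat_lit 6) (nat_lit 0x18000f0006000200000001000080000000000000000000000000000000) (nat_lit 0x0) (nat_lit 0x400024000300000001c00480004000000000000000000000000000000000000000) := T_29 (nat_lit 262) (nat_lit 245) (nat_lit 4) (nat_lit 7) (nat_lit 15) L89177 (by decide +kernel)
theorem L89179 : W_29 (nat_lit 7) (nat_lit 0x8000f0006000200000001000080000000000000000000000000000000) (nat_lit 0x0) (nat_lit 0x400024003300000001c00480004000000000000000000000000000000000000000) := T_29 (nat_lit 228) (nat_lit 229) (nat_lit 3) (nat_lit 4) (nat_lit 12) L89178 (by decide +kernel)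
theorem L89180 : W_29 (nat_lit 8) (nat_lit 0x800070006000200000001000080000000000000000000000000000000) (nat_lit 0x0) (nat_lit 0x400024003300080001c00480014000000000000000000000000000000000000000) := T_29 (nat_lit 211) (nat_lit 160) (nat_lit 5) (nat_lit 7) (nat_lit 9) L89179 (by decide +kernel)
theorem L89181 : W_29 (nat_lit 9) (nat_lit 0x800060006000200000001000080000000000000000000000000000000) (nat_lit 0x0) (nat_lit 0x400024003300098001c00480014000000000000000000000000000000000000000) := T_29 (nat_lit 208) (nat_lit 207) (nat_lit 2) (nat_lit 3) (nat_lit 12) L89180 (by decide +kernel)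
theorem L89182 : W_29 (nat_lit 10) (nat_lit 0x60006000200000001000080000000000000000000000000000000) (nat_lit 0x0) (nat_lit 0x400034003b00098001c00480014000000000000000000000000000000000000000) := T_29 (nat_lit 227) (nat_lit 244) (nat_lit 6) (nat_lit 6) (nat_lit 14) L89181 (by decide +kernel)
theorem L89183 : W_29 (nat_lit 5) (nat_lit 0x60006000200000001000080000000000000000000000000000000) (nat_lit 0x0) (nat_lit 0x10000800080019e004f0004000000000000000000000000000000000000000) := Q_29 (nat_lit 192) (C_29 L80102 (C_29 L89171 (C_29 L85389 N_29))) (by decide +kernel)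
theorem L89184 : W_29 (nat_lit 11) (nat_lit 0x40006000200000001000080000000000000000000000000000000) (nat_lit 0x0) (nat_lit 0x400034003b000b8019e004f0014000000000000000000000000000000000000000) := Q_29 (nat_lit 209) (C_29 L89103 (C_29 L89182 (C_29 L85379 (C_29 L80241 (C_29 L89183 N_29))))) (by decide +kernel)
theorem L89185 : W_29 (nat_lit 10) (nat_lit 0x60006000200000001000080000000000000000000000000000000) (nat_lit 0x0) (nat_lit 0x38001c000f8001c001e004f0006000300000000000000000000000000000000000) := Q_29 (nat_lit 192) (C_29 L86533 (C_29 L89161 (C_29 L89160 (C_29 L85389 N_29)))) (by decide +kernel)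
theorem L89186 : W_29 (nat_lit 11) (nat_lit 0x40006000200000001000080000000000000000000000000000000) (nat_lit 0x0) (nat_lit 0x38001c000f800bc019e004f0006000300000000000000000000000000000000000) := Q_29 (nat_lit 209) (C_29 L89103 (C_29 L89183 (C_29 L89185 (C_29 L80241 N_29)))) (by decide +kernel)
theorem L89187 : W_29 (nat_lit 12) (nat_lit 0x40007000200000001000080000000000000000000000000000000) (nat_lit 0x0) (nat_lit 0x10003800ff007f8003c018000cf001e000e00000000000000000000000000000000000) := Q_29 (nat_lit 209) (C_29 L86542 (C_29 L89168 (C_29 L86533 (C_29 L80071 N_29)))) (by decide +kernel)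
theorem L89188 : W_29 (nat_lit 8) (nat_lit 0x40007000200000001000080000000000000000000000000000000) (nat_lit 0x0) (nat_lit 0x1000080002e000e00470010000800000000000000000000000000000000000) := T_29 (nat_lit 191) (nat_lit 178) (nat_lit 2) (nat_lit 4) (nat_lit 11) L84629 (by decide +kernel)
theorem L89189 : W_29 (nat_lit 11) (nat_lit 0x40007000200000001000080000000000000000000000000000000) (nat_lit 0x0) (nat_lit 0x1000080003c000f004dc017000f0011c000000000000000000000000000000) := T_29 (nat_lit 244) (nat_lit 227) (nat_lit 6) (nat_lit 6) (nat_lit 14) L84934 (by decide +kernel)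
theorem L89190 : W_29 (nat_lit 8) (nat_lit 0x40007000200000001000080000000000000000000000000000000) (nat_lit 0x0) (nat_lit 0x10000800030018e00470010000800000000000000000000000000000000000) := T_29 (nat_lit 191) (nat_lit 178) (nat_lit 2) (nat_lit 4) (nat_lit 11) L84652 (by decide +kernel)
theorem L89191 : W_29 (nat_lit 13) (nat_lit 0x40006000200000001000080000000000000000000000000000000) (nat_lit 0x0) (nat_lit 0x10003800ff007f8003e019f00cfc01f000f0011c000000000000000000000000000000) := Q_29 (nat_lit 192) (C_29 L89187 (C_29 L84928 (C_29 L89124 (C_29 L84924 (C_29 L84933 (C_29 L89188 (C_29 L89189 (C_29 L89190 (C_29 L80117 N_29))))))))) (by decide +kernel)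
theorem L89347 : W_29 (nat_lit 10) (nat_lit 0x6000200000001000080000000000000000000000000000000) (nat_lit 0x0) (nat_lit 0x38001c000f8039c01de000f000e00130000000000000000000000000000000) := Q_29 (nat_lit 176) (C_29 L89112 (C_29 L83650 (C_29 L83332 (C_29 L88902 (C_29 L83292 N_29))))) (by decide +kernel)
theorem L89348 : W_29 (nat_lit 6) (nat_lit 0x7000200000001000080000000000000000000000000000000) (nat_lit 0x0) (nat_lit 0x3c008c001f0010000800000000000000000000000000000000000) := Q_29 (nat_lit 191) (C_29 L10040 (C_29 L24839 (C_29 L10036 (C_29 L23867 N_29)))) (by decide +kernel)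
theorem L89349 : W_29 (nat_lit 2) (nat_lit 0x2001f000a00010001000080000000000000000000000000000000) (nat_lit 0x0) (nat_lit 0x20000180000000000000000000000000000000000000000000) := D_29 (nat_lit 176) (nat_lit 197) (nat_lit 175) (nat_lit 0) (nat_lit 10) (nat_lit 11) (nat_lit 0) (nat_lit 9) (nat_lit 11) (by decide +kernel)
theorem L89350 : W_29 (nat_lit 3) (nat_lit 0x2000f000a00010001000080000000000000000000000000000000) (nat_lit 0x0) (nat_lit 0x30001180000000000000000000000000000000000000000000) := T_29 (nat_lit 196) (nat_lit 180) (nat_lit 2) (nat_lit 6) (nat_lit 11) L89349 (by decide +kernel)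
theorem L89351 : W_29 (nat_lit 4) (nat_lit 0x2000f000200010001000080000000000000000000000000000000) (nat_lit 0x0) (nat_lit 0x30001d80000000000000000000000000000000000000000000) := T_29 (nat_lit 179) (nat_lit 178) (nat_lit 2) (nat_lit 5) (nat_lit 11) L89350 (by decide +kernel)
theorem L89352 : W_29 (nat_lit 5) (nat_lit 0xf000200010001000080000000000000000000000000000000) (nat_lit 0x0) (nat_lit 0x30030001d80000000000000000000000000000000000000000000) := T_29 (nat_lit 209) (nat_lit 208) (nat_lit 1) (nat_lit 8) (nat_lit 11) L89351 (by decide +kernel)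
theorem L89353 : W_29 (nat_lit 6) (nat_lit 0xf000200000001000080000000000000000000000000000000) (nat_lit 0x0) (nat_lit 0x30030001d80010000800000000000000000000000000000000000) := T_29 (nat_lit 160) (nat_lit 143) (nat_lit 6) (nat_lit 7) (nat_lit 11) L89352 (by decide +kernel)
theorem L89354 : W_29 (nat_lit 4) (nat_lit 0xf000680000001000080000000000000000000000000000000) (nat_lit 0x0) (nat_lit 0x400030010000100008000400000000000000000000000000000000000) := T_29 (nat_lit 176) (nat_lit 196) (nat_lit 3) (nat_lit 5) (nat_lit 10) L14779 (by decide +kernel)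
theorem L89355 : W_29 (nat_lit 5) (nat_lit 0xf000280000001000080000000000000000000000000000000) (nat_lit 0x0) (nat_lit 0x400030010000d00008000400000000000000000000000000000000000) := T_29 (nat_lit 178) (nat_lit 179) (nat_lit 2) (nat_lit 5) (nat_lit 11) L89354 (by decide +kernel)
theorem L89356 : W_29 (nat_lit 6) (nat_lit 0xf000200000001000080000000000000000000000000000000) (nat_lit 0x0) (nat_lit 0x400030010000dc0008000400000000000000000000000000000000000) := T_29 (nat_lit 175) (nat_lit 174) (nat_lit 0) (nat_lit 8) (nat_lit 11) L89355 (by decide +kernel)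
theorem L89357 : W_29 (nat_lit 2) (nat_lit 0x42003f002280010001000080000000000000000000000000000000) (nat_lit 0x0) (nat_lit 0x40004400000000000000000000000000000000000000000000) := D_29 (nat_lit 198) (nat_lit 178) (nat_lit 182) (nat_lit 0) (nat_lit 11) (nat_lit 11) (nat_lit 2) (nat_lit 8) (nat_lit 11) (by decide +kernel)
theorem L89358 : W_29 (nat_lit 3) (nat_lit 0x42003f000280010001000080000000000000000000000000000000) (nat_lit 0x0) (nat_lit 0x40007400000000000000000000000000000000000000000000) := T_29 (nat_lit 181) (nat_lit 180) (nat_lit 2) (nat_lit 7) (nat_lit 11) L89357 (by decide +kernel)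
theorem L89359 : W_29 (nat_lit 4) (nat_lit 0x42001f000280010001000080000000000000000000000000000000) (nat_lit 0x0) (nat_lit 0x800060007400000000000000000000000000000000000000000000) := T_29 (nat_lit 197) (nat_lit 215) (nat_lit 3) (nat_lit 7) (nat_lit 11) L89358 (by decide +kernel)
theorem L89360 : W_29 (nat_lit 5) (nat_lit 0x2001f000280010001000080000000000000000000000000000000) (nat_lit 0x0) (nat_lit 0xe00060007400000000000000000000000000000000000000000000) := T_29 (nat_lit 214) (nat_lit 213) (nat_lit 3) (nat_lit 6) (nat_lit 11) L89359 (by decide +kernel)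
theorem L89361 : W_29 (nat_lit 6) (nat_lit 0x1f000280010001000080000000000000000000000000000000) (nat_lit 0x0) (nat_lit 0xe30060007400000000000000000000000000000000000000000000) := T_29 (nat_lit 209) (nat_lit 208) (nat_lit 1) (nat_lit 8) (nat_lit 11) L89360 (by decide +kernel)
theorem L89362 : W_29 (nat_lit 7) (nat_lit 0xf000280010001000080000000000000000000000000000000) (nat_lit 0x0) (nat_lit 0xe30070007500000000000000000000000000000000000000000000) := T_29 (nat_lit 196) (nat_lit 176) (nat_lit 0) (nat_lit 9) (nat_lit 11) L89361 (by decide +kernel)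
theorem L89363 : W_29 (nat_lit 8) (nat_lit 0xf000280000001000080000000000000000000000000000000) (nat_lit 0x0) (nat_lit 0xe30070007500010000800000000000000000000000000000000000) := T_29 (nat_lit 160) (nat_lit 143) (nat_lit 6) (nat_lit 7) (nat_lit 11) L89362 (by decide +kernel)
theorem L89364 : W_29 (nat_lit 9) (nat_lit 0xf000200000001000080000000000000000000000000000000) (nat_lit 0x0) (nat_lit 0xe300700075c0010000800000000000000000000000000000000000) := T_29 (nat_lit 175) (nat_lit 174) (nat_lit 0) (nat_lit 8) (nat_lit 11) L89363 (by decide +kernel)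
theorem L89365 : W_29 (nat_lit 6) (nat_lit 0xf000780000001000080000000000000000000000000000000) (nat_lit 0x0) (nat_lit 0x30000000000016000e00130000000000000000000000000000000) := T_29 (nat_lit 143) (nat_lit 160) (nat_lit 6) (nat_lit 7) (nat_lit 11) L15729 (by decide +kernel)
theorem L89366 : W_29 (nat_lit 7) (nat_lit 0xf000380000001000080000000000000000000000000000000) (nat_lit 0x0) (nat_lit 0x30000000c00016000e00130000000000000000000000000000000) := T_29 (nat_lit 178) (nat_lit 179) (nat_lit 2) (nat_lit 5) (nat_lit 11) L89365 (by decide +kernel)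
theorem L89367 : W_29 (nat_lit 8) (nat_lit 0xf000300000001000080000000000000000000000000000000) (nat_lit 0x0) (nat_lit 0x30000000cc0016000e00130000000000000000000000000000000) := T_29 (nat_lit 175) (nat_lit 174) (nat_lit 3) (nat_lit 4) (nat_lit 10) L89366 (by decide +kernel)
theorem L89368 : W_29 (nat_lit 2) (nat_lit 0x800000002000f000700002001e00088000000000000000000000000000000) (nat_lit 0x0) (nat_lit 0x1000100004000000000000000000000000000000) := D_29 (nat_lit 140) (nat_lit 156) (nat_lit 122) (nat_lit 1) (nat_lit 7) (nat_lit 8) (nat_lit 0) (nat_lit 7) (nat_lit 8) (by decide +kernel)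
theorem L89369 : W_29 (nat_lit 3) (nat_lit 0x800000002000f000700002001e00080000000000000000000000000000000) (nat_lit 0x0) (nat_lit 0x100010001c000000000000000000000000000000) := T_29 (nat_lit 123) (nat_lit 124) (nat_lit 0) (nat_lit 8) (nat_lit 8) L89368 (by decide +kernel)
theorem L89370 : W_29 (nat_lit 4) (nat_lit 0x800000002000f000700000001e00080000000000000000000000000000000) (nat_lit 0x0) (nat_lit 0x700010001c000000000000000000000000000000) := T_29 (nat_lit 157) (nat_lit 158) (nat_lit 1) (nat_lit 8) (nat_lit 8) L89369 (by decide +kernel)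
theorem L89371 : W_29 (nat_lit 5) (nat_lit 0x800000002000f000700000001c00080000000000000000000000000000000) (nat_lit 0x0) (nat_lit 0x700030011c000000000000000000000000000000) := T_29 (nat_lit 141) (nat_lit 128) (nat_lit 2) (nat_lit 5) (nat_lit 8) L89370 (by decide +kernel)
theorem L89372 : W_29 (nat_lit 6) (nat_lit 0x2000f000700000001c00080000000000000000000000000000000) (nat_lit 0x0) (nat_lit 0x800040000000000000000700030011c000000000000000000000000000000) := T_29 (nat_lit 243) (nat_lit 226) (nat_lit 6) (nat_lit 5) (nat_lit 14) L89371 (by decide +kernel)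
theorem L89373 : W_29 (nat_lit 7) (nat_lit 0x2000f000700000001400080000000000000000000000000000000) (nat_lit 0x0) (nat_lit 0x8000400000000000000017000b0011c000000000000000000000000000000) := T_29 (nat_lit 143) (nat_lit 160) (nat_lit 6) (nat_lit 7) (nat_lit 11) L89372 (by decide +kernel)
theorem L89374 : W_29 (nat_lit 8) (nat_lit 0x2000f000700000001000080000000000000000000000000000000) (nat_lit 0x0) (nat_lit 0x800040000000000000001f000f0011c000000000000000000000000000000) := T_29 (nat_lit 142) (nat_lit 159) (nat_lit 5) (nat_lit 6) (nat_lit 8) L89373 (by decide +kernel)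
theorem L89375 : W_29 (nat_lit 9) (nat_lit 0x2000f000300000001000080000000000000000000000000000000) (nat_lit 0x0) (nat_lit 0x8000400000000000c0001f000f0011c000000000000000000000000000000) := T_29 (nat_lit 178) (nat_lit 179) (nat_lit 2) (nat_lit 5) (nat_lit 11) L89374 (by decide +kernel)
theorem L89376 : W_29 (nat_lit 10) (nat_lit 0xf000300000001000080000000000000000000000000000000) (nat_lit 0x0) (nat_lit 0x8000400030000000c0001f000f0011c000000000000000000000000000000) := T_29 (nat_lit 209) (nat_lit 208) (nat_lit 1) (nat_lit 8) (nat_lit 11) L89375 (by decide +kernel)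
theorem L89377 : W_29 (nat_lit 2) (nat_lit 0xf00078001c001600080000000000000000000000000000000) (nat_lit 0x0) (nat_lit 0x180008000000000000000000000000000000) := D_29 (nat_lit 140) (nat_lit 139) (nat_lit 123) (nat_lit 3) (nat_lit 3) (nat_lit 8) (nat_lit 4) (nat_lit 5) (nat_lit 11) (by decide +kernel)
theorem L89378 : W_29 (nat_lit 3) (nat_lit 0xf000780014001600080000000000000000000000000000000) (nat_lit 0x0) (nat_lit 0x80000000000008000180008000000000000000000000000000000) := T_29 (nat_lit 159) (nat_lit 211) (nat_lit 7) (nat_lit 6) (nat_lit 8) L89377 (by decide +kernel)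
theorem L89379 : W_29 (nat_lit 4) (nat_lit 0xf000780014001200080000000000000000000000000000000) (nat_lit 0x0) (nat_lit 0x80000000000008000580028000000000000000000000000000000) := T_29 (nat_lit 142) (nat_lit 125) (nat_lit 6) (nat_lit 5) (nat_lit 11) L89378 (by decide +kernel)
theorem L89380 : W_29 (nat_lit 5) (nat_lit 0xf000780014001000080000000000000000000000000000000) (nat_lit 0x0) (nat_lit 0x80000000000008000780038000000000000000000000000000000) := T_29 (nat_lit 141) (nat_lit 124) (nat_lit 7) (nat_lit 5) (nat_lit 7) L89379 (by decide +kernel)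
theorem L89381 : W_29 (nat_lit 6) (nat_lit 0xf000780004001000080000000000000000000000000000000) (nat_lit 0x0) (nat_lit 0x80000000000018000f80038000000000000000000000000000000) := T_29 (nat_lit 160) (nat_lit 143) (nat_lit 6) (nat_lit 7) (nat_lit 11) L89380 (by decide +kernel)
theorem L89382 : W_29 (nat_lit 7) (nat_lit 0xf000780000001000080000000000000000000000000000000) (nat_lit 0x0) (nat_lit 0x8000000000001e000f80038000000000000000000000000000000) := T_29 (nat_lit 158) (nat_lit 157) (nat_lit 0) (nat_lit 8) (nat_lit 10) L89381 (by decide +kernel)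
theorem L89383 : W_29 (nat_lit 8) (nat_lit 0xf000700000001000080000000000000000000000000000000) (nat_lit 0x0) (nat_lit 0x800000000c001e000f80038000000000000000000000000000000) := T_29 (nat_lit 175) (nat_lit 174) (nat_lit 3) (nat_lit 4) (nat_lit 10) L89382 (by decide +kernel)
theorem L89384 : W_29 (nat_lit 9) (nat_lit 0xf000300000001000080000000000000000000000000000000) (nat_lit 0x0) (nat_lit 0x80000000cc001e000f80038000000000000000000000000000000) := T_29 (nat_lit 178) (nat_lit 179) (nat_lit 2) (nat_lit 5) (nat_lit 11) L89383 (by decide +kernel)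
theorem L89385 : W_29 (nat_lit 11) (nat_lit 0xf000200000001000080000000000000000000000000000000) (nat_lit 0x0) (nat_lit 0x80004000b0000000dc001f000f8013c000000000000000000000000000000) := Q_29 (nat_lit 176) (C_29 L89367 (C_29 L82194 (C_29 L85427 (C_29 L89376 (C_29 L89384 N_29))))) (by decide +kernel)
theorem L89386 : W_29 (nat_lit 2) (nat_lit 0x42003f002200000001000080000000000000000000000000000000) (nat_lit 0x0) (nat_lit 0x40004400000000000000000000000000000000000000000000) := D_29 (nat_lit 198) (nat_lit 178) (nat_lit 182) (nat_lit 0) (nat_lit 11) (nat_lit 11) (nat_lit 2) (nat_lit 8) (nat_lit 11) (by decide +kernel)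
theorem L89387 : W_29 (nat_lit 3) (nat_lit 0x42003f000200000001000080000000000000000000000000000000) (nat_lit 0x0) (nat_lit 0x40007400000000000000000000000000000000000000000000) := T_29 (nat_lit 181) (nat_lit 180) (nat_lit 2) (nat_lit 7) (nat_lit 11) L89386 (by decide +kernel)
theorem L89388 : W_29 (nat_lit 4) (nat_lit 0x42001f000200000001000080000000000000000000000000000000) (nat_lit 0x0) (nat_lit 0x800060007400000000000000000000000000000000000000000000) := T_29 (nat_lit 197) (nat_lit 215) (nat_lit 3) (nat_lit 7) (nat_lit 11) L89387 (by decide +kernel)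
theorem L89389 : W_29 (nat_lit 5) (nat_lit 0x40001f000200000001000080000000000000000000000000000000) (nat_lit 0x0) (nat_lit 0x830060007400000000000000000000000000000000000000000000) := T_29 (nat_lit 209) (nat_lit 208) (nat_lit 1) (nat_lit 8) (nat_lit 11) L89388 (by decide +kernel)
theorem L89390 : W_29 (nat_lit 6) (nat_lit 0x1f000200000001000080000000000000000000000000000000) (nat_lit 0x0) (nat_lit 0xe30060007400000000000000000000000000000000000000000000) := T_29 (nat_lit 214) (nat_lit 213) (nat_lit 3) (nat_lit 6) (nat_lit 11) L89389 (by decide +kernel)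
theorem L89391 : W_29 (nat_lit 2) (nat_lit 0x3f000680000001000080000000000000000000000000000000) (nat_lit 0x0) (nat_lit 0xe00000000000000000000000000000000000000000000000000000) := D_29 (nat_lit 214) (nat_lit 213) (nat_lit 215) (nat_lit 3) (nat_lit 6) (nat_lit 11) (nat_lit 3) (nat_lit 7) (nat_lit 11) (by decide +kernel)
theorem L89392 : W_29 (nat_lit 3) (nat_lit 0x1f000680000001000080000000000000000000000000000000) (nat_lit 0x0) (nat_lit 0xe00060000000000000000000000000000000000000000000000000) := T_29 (nat_lit 197) (nat_lit 198) (nat_lit 0) (nat_lit 11) (nat_lit 11) L89391 (by decide +kernel)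
theorem L89393 : W_29 (nat_lit 4) (nat_lit 0x1f000280000001000080000000000000000000000000000000) (nat_lit 0x0) (nat_lit 0xe00060000c00000000000000000000000000000000000000000000) := T_29 (nat_lit 178) (nat_lit 179) (nat_lit 2) (nat_lit 5) (nat_lit 11) L89392 (by decide +kernel)
theorem L89394 : W_29 (nat_lit 5) (nat_lit 0x1f000200000001000080000000000000000000000000000000) (nat_lit 0x0) (nat_lit 0xe00060000cc0000000000000000000000000000000000000000000) := T_29 (nat_lit 175) (nat_lit 174) (nat_lit 0) (nat_lit 8) (nat_lit 11) L89393 (by decide +kernel)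
theorem L89395 : W_29 (nat_lit 7) (nat_lit 0xf000200000001000080000000000000000000000000000000) (nat_lit 0x0) (nat_lit 0xe30070007cc0010000800000000000000000000000000000000000) := Q_29 (nat_lit 196) (C_29 L84748 (C_29 L25276 (C_29 L89390 (C_29 L89394 N_29)))) (by decide +kernel)
theorem L89396 : W_29 (nat_lit 2) (nat_lit 0x2003f000a00010001000080000000000000000000000000000000) (nat_lit 0x0) (nat_lit 0xe00000000000000000000000000000000000000000000000000000) := D_29 (nat_lit 214) (nat_lit 213) (nat_lit 215) (nat_lit 3) (nat_lit 6) (nat_lit 11) (nat_lit 3) (nat_lit 7) (nat_lit 11) (by decide +kernel)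
theorem L89397 : W_29 (nat_lit 3) (nat_lit 0x2001f000a00010001000080000000000000000000000000000000) (nat_lit 0x0) (nat_lit 0xe00020000100000000000000000000000000000000000000000000) := T_29 (nat_lit 197) (nat_lit 176) (nat_lit 0) (nat_lit 10) (nat_lit 11) L89396 (by decide +kernel)
theorem L89398 : W_29 (nat_lit 4) (nat_lit 0x2000f000a00010001000080000000000000000000000000000000) (nat_lit 0x0) (nat_lit 0xe00030001100000000000000000000000000000000000000000000) := T_29 (nat_lit 196) (nat_lit 180) (nat_lit 2) (nat_lit 6) (nat_lit 11) L89397 (by decide +kernel)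
theorem L89399 : W_29 (nat_lit 5) (nat_lit 0x2000f000a00000001000080000000000000000000000000000000) (nat_lit 0x0) (nat_lit 0xe00030001100010000800000000000000000000000000000000000) := T_29 (nat_lit 160) (nat_lit 143) (nat_lit 6) (nat_lit 7) (nat_lit 11) L89398 (by decide +kernel)
theorem L89400 : W_29 (nat_lit 6) (nat_lit 0x2000f000200000001000080000000000000000000000000000000) (nat_lit 0x0) (nat_lit 0xe00030001d00010000800000000000000000000000000000000000) := T_29 (nat_lit 179) (nat_lit 178) (nat_lit 2) (nat_lit 5) (nat_lit 11) L89399 (by decide +kernel)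
theorem L89401 : W_29 (nat_lit 7) (nat_lit 0xf000200000001000080000000000000000000000000000000) (nat_lit 0x0) (nat_lit 0xe30030001d00010000800000000000000000000000000000000000) := T_29 (nat_lit 209) (nat_lit 208) (nat_lit 1) (nat_lit 8) (nat_lit 11) L89400 (by decide +kernel)
theorem L89402 : W_29 (nat_lit 12) (nat_lit 0x7000200000001000080000000000000000000000000000000) (nat_lit 0x0) (nat_lit 0x8000400eb0078007dc001f000f8013c000000000000000000000000000000) := Q_29 (nat_lit 195) (C_29 L89353 (C_29 L86504 (C_29 L89356 (C_29 L89364 (C_29 L89385 (C_29 L89395 (C_29 L89401 N_29))))))) (by decide +kernel)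
theorem L89403 : W_29 (nat_lit 13) (nat_lit 0x6000200000001000080000000000000000000000000000000) (nat_lit 0x0) (nat_lit 0x8000400ebc079c07df001f000f8013c000000000000000000000000000000) := Q_29 (nat_lit 192) (C_29 L86991 (C_29 L89348 (C_29 L85298 (C_29 L89402 N_29)))) (by decide +kernel)
theorem L89429 : W_29 (nat_lit 2) (nat_lit 0x200010000c0006000200018001000080000000000000000000000000000000) (nat_lit 0x0) (nat_lit 0x800040002000000000000000000000000000000000000000000000000000000000) := D_29 (nat_lit 246) (nat_lit 229) (nat_lit 263) (nat_lit 7) (nat_lit 7) (nat_lit 10) (nat_lit 7) (nat_lit 7) (nat_lit 11) (by decide +kernel)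
theorem L89430 : W_29 (nat_lit 3) (nat_lit 0x10000c0006000200018001000080000000000000000000000000000000) (nat_lit 0x0) (nat_lit 0xc00060002000000000000000000000000000000000000000000000000000000000) := T_29 (nat_lit 245) (nat_lit 262) (nat_lit 4) (nat_lit 7) (nat_lit 15) L89429 (by decide +kernel)
theorem L89431 : W_29 (nat_lit 4) (nat_lit 0xc0006000200018001000080000000000000000000000000000000) (nat_lit 0x0) (nat_lit 0xc00060003000000000000100000000000000000000000000000000000000000000) := T_29 (nat_lit 228) (nat_lit 176) (nat_lit 7) (nat_lit 6) (nat_lit 9) L89430 (by decide +kernel)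
theorem L89432 : W_29 (nat_lit 5) (nat_lit 0xc0006000200010001000080000000000000000000000000000000) (nat_lit 0x0) (nat_lit 0xc00060003000000000000100008000400000000000000000000000000000000000) := T_29 (nat_lit 159) (nat_lit 142) (nat_lit 4) (nat_lit 7) (nat_lit 12) L89431 (by decide +kernel)
theorem L89433 : W_29 (nat_lit 6) (nat_lit 0xc0006000200000001000080000000000000000000000000000000) (nat_lit 0x0) (nat_lit 0xc00060003000000000000100018000c00000000000000000000000000000000000) := T_29 (nat_lit 160) (nat_lit 143) (nat_lit 6) (nat_lit 7) (nat_lit 11) L89432 (by decide +kernel)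
theorem L89434 : W_29 (nat_lit 2) (nat_lit 0x300010000c000e000200018001000080000000000000000000000000000000) (nat_lit 0x0) (nat_lit 0x30010000000000000000000000000000000000000000000000000) := D_29 (nat_lit 209) (nat_lit 208) (nat_lit 196) (nat_lit 2) (nat_lit 4) (nat_lit 12) (nat_lit 1) (nat_lit 9) (nat_lit 11) (by decide +kernel)
theorem L89435 : W_29 (nat_lit 3) (nat_lit 0x300010000c0006000200018001000080000000000000000000000000000000) (nat_lit 0x0) (nat_lit 0x30018000400000000000000000000000000000000000000000000) := T_29 (nat_lit 195) (nat_lit 178) (nat_lit 6) (nat_lit 7) (nat_lit 14) L89434 (by decide +kernel)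
theorem L89436 : W_29 (nat_lit 4) (nat_lit 0x200010000c0006000200018001000080000000000000000000000000000000) (nat_lit 0x0) (nat_lit 0x200010000000030018000400000000000000000000000000000000000000000000) := T_29 (nat_lit 244) (nat_lit 261) (nat_lit 5) (nat_lit 7) (nat_lit 11) L89435 (by decide +kernel)
theorem L89437 : W_29 (nat_lit 5) (nat_lit 0x10000c0006000200018001000080000000000000000000000000000000) (nat_lit 0x0) (nat_lit 0x600030000000030018000400000000000000000000000000000000000000000000) := T_29 (nat_lit 245) (nat_lit 262) (nat_lit 4) (nat_lit 7) (nat_lit 15) L89436 (by decide +kernel)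
theorem L89438 : W_29 (nat_lit 5) (nat_lit 0x800040006000200000001000080000000000000000000000000000000) (nat_lit 0x0) (nat_lit 0x280014000a00080001e000c000000000000000000000000000000000000000) := Q_29 (nat_lit 176) (C_29 L12037 (C_29 L89106 N_29)) (by decide +kernel)
theorem L89439 : W_29 (nat_lit 2) (nat_lit 0x50001000080006000200018001000080000000000000000000000000000000) (nat_lit 0x0) (nat_lit 0xa00020000000000000000000000000000000000000000000000000000000000000) := D_29 (nat_lit 245) (nat_lit 263) (nat_lit 261) (nat_lit 7) (nat_lit 7) (nat_lit 11) (nat_lit 5) (nat_lit 7) (nat_lit 11) (by decide +kernel)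
theorem L89440 : W_29 (nat_lit 3) (nat_lit 0x40001000080006000200018001000080000000000000000000000000000000) (nat_lit 0x0) (nat_lit 0xa00030000800000000000000000000000000000000000000000000000000000000) := T_29 (nat_lit 244) (nat_lit 227) (nat_lit 5) (nat_lit 7) (nat_lit 10) L89439 (by decide +kernel)
theorem L89441 : W_29 (nat_lit 4) (nat_lit 0x1000080006000200018001000080000000000000000000000000000000) (nat_lit 0x0) (nat_lit 0xa00070002800000000000000000000000000000000000000000000000000000000) := T_29 (nat_lit 246) (nat_lit 229) (nat_lit 7) (nat_lit 7) (nat_lit 10) L89440 (by decide +kernel)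
theorem L89442 : W_29 (nat_lit 5) (nat_lit 0x80006000200018001000080000000000000000000000000000000) (nat_lit 0x0) (nat_lit 0xa00070003800000000000100000000000000000000000000000000000000000000) := T_29 (nat_lit 228) (nat_lit 176) (nat_lit 4) (nat_lit 7) (nat_lit 13) L89441 (by decide +kernel)
theorem L89443 : W_29 (nat_lit 6) (nat_lit 0x80006000200010001000080000000000000000000000000000000) (nat_lit 0x0) (nat_lit 0xa00070003800000000000100008000400000000000000000000000000000000000) := T_29 (nat_lit 159) (nat_lit 142) (nat_lit 4) (nat_lit 7) (nat_lit 12) L89442 (by decide +kernel)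
theorem L89444 : W_29 (nat_lit 7) (nat_lit 0x80006000200000001000080000000000000000000000000000000) (nat_lit 0x0) (nat_lit 0xa00070003800000000000100018000c00000000000000000000000000000000000) := T_29 (nat_lit 160) (nat_lit 143) (nat_lit 6) (nat_lit 7) (nat_lit 11) L89443 (by decide +kernel)
theorem L89445 : W_29 (nat_lit 2) (nat_lit 0x20001800080006000200010001000080000000000000000000000000000000) (nat_lit 0x0) (nat_lit 0x800040002000000000000000000000000000000000000000000000000000000000) := D_29 (nat_lit 246) (nat_lit 229) (nat_lit 263) (nat_lit 7) (nat_lit 7) (nat_lit 10) (nat_lit 7) (nat_lit 7) (nat_lit 11) (by decide +kernel)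
theorem L89446 : W_29 (nat_lit 3) (nat_lit 0x1800080006000200010001000080000000000000000000000000000000) (nat_lit 0x0) (nat_lit 0x800060002000000000000100000000000000000000000000000000000000000000) := T_29 (nat_lit 245) (nat_lit 176) (nat_lit 4) (nat_lit 7) (nat_lit 14) L89445 (by decide +kernel)
theorem L89447 : W_29 (nat_lit 4) (nat_lit 0x800080006000200010001000080000000000000000000000000000000) (nat_lit 0x0) (nat_lit 0x800070003000000000000100000000000000000000000000000000000000000000) := T_29 (nat_lit 228) (nat_lit 244) (nat_lit 5) (nat_lit 7) (nat_lit 10) L89446 (by decide +kernel)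
theorem L89448 : W_29 (nat_lit 5) (nat_lit 0x80006000200010001000080000000000000000000000000000000) (nat_lit 0x0) (nat_lit 0x800070003800040000000100000000000000000000000000000000000000000000) := T_29 (nat_lit 227) (nat_lit 210) (nat_lit 5) (nat_lit 7) (nat_lit 9) L89447 (by decide +kernel)
theorem L89449 : W_29 (nat_lit 6) (nat_lit 0x80006000200000001000080000000000000000000000000000000) (nat_lit 0x0) (nat_lit 0x800070003800040000000100010000800000000000000000000000000000000000) := T_29 (nat_lit 160) (nat_lit 143) (nat_lit 6) (nat_lit 7) (nat_lit 11) L89448 (by decide +kernel)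
theorem L89450 : W_29 (nat_lit 2) (nat_lit 0x38000c0006000300000001000080000000000000000000000000000000) (nat_lit 0x0) (nat_lit 0xc000020000000000000000000000000000000000000000000000000000) := D_29 (nat_lit 230) (nat_lit 209) (nat_lit 231) (nat_lit 0) (nat_lit 9) (nat_lit 13) (nat_lit 0) (nat_lit 10) (nat_lit 13) (by decide +kernel)
theorem L89451 : W_29 (nat_lit 3) (nat_lit 0x3800080006000300000001000080000000000000000000000000000000) (nat_lit 0x0) (nat_lit 0xc000060000000000010000000000000000000000000000000000000000) := T_29 (nat_lit 210) (nat_lit 160) (nat_lit 6) (nat_lit 6) (nat_lit 13) L89450 (by decide +kernel)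
theorem L89452 : W_29 (nat_lit 4) (nat_lit 0x3000080006000300000001000080000000000000000000000000000000) (nat_lit 0x0) (nat_lit 0x1000c800060000000000010000000000000000000000000000000000000000) := T_29 (nat_lit 227) (nat_lit 244) (nat_lit 5) (nat_lit 7) (nat_lit 10) L89451 (by decide +kernel)
theorem L89453 : W_29 (nat_lit 5) (nat_lit 0x3000080006000200000001000080000000000000000000000000000000) (nat_lit 0x0) (nat_lit 0x1000c800060000000100018000000000000000000000000000000000000000) := T_29 (nat_lit 176) (nat_lit 159) (nat_lit 4) (nat_lit 7) (nat_lit 13) L89452 (by decide +kernel)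
theorem L89454 : W_29 (nat_lit 6) (nat_lit 0x1000080006000200000001000080000000000000000000000000000000) (nat_lit 0x0) (nat_lit 0x5000e800060000000100018000000000000000000000000000000000000000) := T_29 (nat_lit 229) (nat_lit 246) (nat_lit 7) (nat_lit 7) (nat_lit 10) L89453 (by decide +kernel)
theorem L89455 : W_29 (nat_lit 7) (nat_lit 0x80006000200000001000080000000000000000000000000000000) (nat_lit 0x0) (nat_lit 0xe0007000f800070038000500018000000000000000000000000000000000000000) := Q_29 (nat_lit 228) (C_29 L80834 (C_29 L80713 (C_29 L80723 (C_29 L89454 N_29)))) (by decide +kernel)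
theorem L89456 : W_29 (nat_lit 5) (nat_lit 0xc000e000200000001000080000000000000000000000000000000) (nat_lit 0x0) (nat_lit 0x18000c000300000001c000c000400000000000000000000000000000000000) := Q_29 (nat_lit 176) (C_29 L83668 (C_29 L80393 (C_29 L82229 N_29))) (by decide +kernel)
theorem L89457 : W_29 (nat_lit 2) (nat_lit 0x100000002c001e000b00008001000080000000000000000000000000000000) (nat_lit 0x0) (nat_lit 0x400004000200000000000000000000000000000000000) := D_29 (nat_lit 158) (nat_lit 141) (nat_lit 178) (nat_lit 4) (nat_lit 6) (nat_lit 12) (nat_lit 0) (nat_lit 9) (nat_lit 10) (by decide +kernel)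
theorem L89458 : W_29 (nat_lit 3) (nat_lit 0x100000002c001e000b00000001000080000000000000000000000000000000) (nat_lit 0x0) (nat_lit 0x40000c000600000000000000000000000000000000000) := T_29 (nat_lit 159) (nat_lit 142) (nat_lit 7) (nat_lit 6) (nat_lit 8) L89457 (by decide +kernel)
theorem L89459 : W_29 (nat_lit 4) (nat_lit 0x100000002c001e000a00000001000080000000000000000000000000000000) (nat_lit 0x0) (nat_lit 0x58000c000600000000000000000000000000000000000) := T_29 (nat_lit 176) (nat_lit 175) (nat_lit 0) (nat_lit 9) (nat_lit 11) L89458 (by decide +kernel)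
theorem L89460 : W_29 (nat_lit 5) (nat_lit 0x100000002c001e000200000001000080000000000000000000000000000000) (nat_lit 0x0) (nat_lit 0x1d8000c000600000000000000000000000000000000000) := T_29 (nat_lit 179) (nat_lit 180) (nat_lit 2) (nat_lit 6) (nat_lit 11) L89459 (by decide +kernel)
theorem L89461 : W_29 (nat_lit 6) (nat_lit 0x100000000c001e000200000001000080000000000000000000000000000000) (nat_lit 0x0) (nat_lit 0x600000001d8000c000600000000000000000000000000000000000) := T_29 (nat_lit 213) (nat_lit 214) (nat_lit 3) (nat_lit 6) (nat_lit 11) L89460 (by decide +kernel)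
theorem L89462 : W_29 (nat_lit 7) (nat_lit 0x100000000c000e000200000001000080000000000000000000000000000000) (nat_lit 0x0) (nat_lit 0x600030001d8000c000600000000000000000000000000000000000) := T_29 (nat_lit 196) (nat_lit 197) (nat_lit 1) (nat_lit 10) (nat_lit 11) L89461 (by decide +kernel)
theorem L89463 : W_29 (nat_lit 8) (nat_lit 0xc000e000200000001000080000000000000000000000000000000) (nat_lit 0x0) (nat_lit 0x10000800600030001d8000c000600000000000000000000000000000000000) := T_29 (nat_lit 244) (nat_lit 227) (nat_lit 6) (nat_lit 6) (nat_lit 14) L89462 (by decide +kernel)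
theorem L89464 : W_29 (nat_lit 9) (nat_lit 0xc0006000200000001000080000000000000000000000000000000) (nat_lit 0x0) (nat_lit 0x18000c00630038001dc000c000600000000000000000000000000000000000) := Q_29 (nat_lit 195) (C_29 L79375 (C_29 L89456 (C_29 L89463 N_29))) (by decide +kernel)
theorem L89465 : W_29 (nat_lit 2) (nat_lit 0xe000e00030001c001000080000000000000000000000000000000) (nat_lit 0x0) (nat_lit 0x400003000000000000000000000000000000000000000) := D_29 (nat_lit 157) (nat_lit 178) (nat_lit 156) (nat_lit 3) (nat_lit 4) (nat_lit 9) (nat_lit 3) (nat_lit 3) (nat_lit 9) (by decide +kernel)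
theorem L89466 : W_29 (nat_lit 3) (nat_lit 0xe000e000300018001000080000000000000000000000000000000) (nat_lit 0x0) (nat_lit 0x400007000200000000000000000000000000000000000) := T_29 (nat_lit 158) (nat_lit 141) (nat_lit 4) (nat_lit 6) (nat_lit 12) L89465 (by decide +kernel)
theorem L89467 : W_29 (nat_lit 4) (nat_lit 0xe000e000200018001000080000000000000000000000000000000) (nat_lit 0x0) (nat_lit 0x400000000000500007000200000000000000000000000000000000000) := T_29 (nat_lit 176) (nat_lit 226) (nat_lit 5) (nat_lit 6) (nat_lit 9) L89466 (by decide +kernel)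
theorem L89468 : W_29 (nat_lit 5) (nat_lit 0xe000e000200010001000080000000000000000000000000000000) (nat_lit 0x0) (nat_lit 0x40000000000050000f000600000000000000000000000000000000000) := T_29 (nat_lit 159) (nat_lit 142) (nat_lit 4) (nat_lit 7) (nat_lit 12) L89467 (by decide +kernel)
theorem L89469 : W_29 (nat_lit 6) (nat_lit 0xc000e000200010001000080000000000000000000000000000000) (nat_lit 0x0) (nat_lit 0x40003000000050000f000600000000000000000000000000000000000) := T_29 (nat_lit 209) (nat_lit 208) (nat_lit 2) (nat_lit 4) (nat_lit 12) L89468 (by decide +kernel)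
theorem L89470 : W_29 (nat_lit 7) (nat_lit 0xc000e000200000001000080000000000000000000000000000000) (nat_lit 0x0) (nat_lit 0x40003000000050001f000e00000000000000000000000000000000000) := T_29 (nat_lit 160) (nat_lit 143) (nat_lit 6) (nat_lit 7) (nat_lit 11) L89469 (by decide +kernel)
theorem L89471 : W_29 (nat_lit 2) (nat_lit 0x2c001e000b00002001e00088000000000000000000000000000000) (nat_lit 0x0) (nat_lit 0x1000100004000000000000000000000000000000) := D_29 (nat_lit 140) (nat_lit 156) (nat_lit 122) (nat_lit 1) (nat_lit 7) (nat_lit 8) (nat_lit 0) (nat_lit 7) (nat_lit 8) (by decide +kernel)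
theorem L89472 : W_29 (nat_lit 3) (nat_lit 0x2c001e000b00002001e00080000000000000000000000000000000) (nat_lit 0x0) (nat_lit 0x100010001c000000000000000000000000000000) := T_29 (nat_lit 123) (nat_lit 124) (nat_lit 0) (nat_lit 8) (nat_lit 8) L89471 (by decide +kernel)
theorem L89473 : W_29 (nat_lit 4) (nat_lit 0x2c001e000b00000001e00080000000000000000000000000000000) (nat_lit 0x0) (nat_lit 0x700010001c000000000000000000000000000000) := T_29 (nat_lit 157) (nat_lit 158) (nat_lit 1) (nat_lit 8) (nat_lit 8) L89472 (by decide +kernel)
theorem L89474 : W_29 (nat_lit 5) (nat_lit 0x2c001e000b00000001c00080000000000000000000000000000000) (nat_lit 0x0) (nat_lit 0x700030011c000000000000000000000000000000) := T_29 (nat_lit 141) (nat_lit 128) (nat_lit 2) (nat_lit 5) (nat_lit 8) L89473 (by decide +kernel)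
theorem L89475 : W_29 (nat_lit 6) (nat_lit 0x2c001e000b00000001800080000000000000000000000000000000) (nat_lit 0x0) (nat_lit 0xf00070011c000000000000000000000000000000) := T_29 (nat_lit 142) (nat_lit 159) (nat_lit 7) (nat_lit 6) (nat_lit 8) L89474 (by decide +kernel)
theorem L89476 : W_29 (nat_lit 7) (nat_lit 0x2c001e000a00000001800080000000000000000000000000000000) (nat_lit 0x0) (nat_lit 0x18000f00070011c000000000000000000000000000000) := T_29 (nat_lit 176) (nat_lit 175) (nat_lit 0) (nat_lit 9) (nat_lit 11) L89475 (by decide +kernel)
theorem L89477 : W_29 (nat_lit 8) (nat_lit 0xc001e000a00000001800080000000000000000000000000000000) (nat_lit 0x0) (nat_lit 0x60000000018000f00070011c000000000000000000000000000000) := T_29 (nat_lit 213) (nat_lit 214) (nat_lit 3) (nat_lit 6) (nat_lit 11) L89476 (by decide +kernel)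
theorem L89478 : W_29 (nat_lit 9) (nat_lit 0xc001e000200000001800080000000000000000000000000000000) (nat_lit 0x0) (nat_lit 0x60000000198000f00070011c000000000000000000000000000000) := T_29 (nat_lit 179) (nat_lit 180) (nat_lit 2) (nat_lit 6) (nat_lit 11) L89477 (by decide +kernel)
theorem L89479 : W_29 (nat_lit 10) (nat_lit 0xc001e000200000001000080000000000000000000000000000000) (nat_lit 0x0) (nat_lit 0x60000000198001f000f0011c000000000000000000000000000000) := T_29 (nat_lit 143) (nat_lit 160) (nat_lit 6) (nat_lit 7) (nat_lit 11) L89478 (by decide +kernel)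
theorem L89480 : W_29 (nat_lit 11) (nat_lit 0xc000e000200000001000080000000000000000000000000000000) (nat_lit 0x0) (nat_lit 0x60003000198001f000f0011c000000000000000000000000000000) := T_29 (nat_lit 196) (nat_lit 197) (nat_lit 1) (nat_lit 10) (nat_lit 11) L89479 (by decide +kernel)
theorem L89481 : W_29 (nat_lit 12) (nat_lit 0xc0006000200000001000080000000000000000000000000000000) (nat_lit 0x0) (nat_lit 0x400630038001d8001f000f0011c000000000000000000000000000000) := Q_29 (nat_lit 195) (C_29 L79375 (C_29 L89470 (C_29 L89480 N_29))) (by decide +kernel)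
theorem L89482 : W_29 (nat_lit 13) (nat_lit 0x80006000200000001000080000000000000000000000000000000) (nat_lit 0x0) (nat_lit 0x18000c00670038001dc001f000f0011c000000000000000000000000000000) := Q_29 (nat_lit 210) (C_29 L80057 (C_29 L81028 (C_29 L89464 (C_29 L89481 N_29)))) (by decide +kernel)
theorem L89483 : W_29 (nat_lit 2) (nat_lit 0x100008000e000300000001000080000000000000000000000000000000) (nat_lit 0x0) (nat_lit 0x100000c0000000000000000000000000000000000000000000) := D_29 (nat_lit 175) (nat_lit 174) (nat_lit 196) (nat_lit 3) (nat_lit 4) (nat_lit 10) (nat_lit 0) (nat_lit 9) (nat_lit 11) (by decide +kernel)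
theorem L89484 : W_29 (nat_lit 3) (nat_lit 0x100008000e000200000001000080000000000000000000000000000000) (nat_lit 0x0) (nat_lit 0x100001c0008000000000000000000000000000000000000000) := T_29 (nat_lit 176) (nat_lit 159) (nat_lit 4) (nat_lit 7) (nat_lit 13) L89483 (by decide +kernel)
theorem L89485 : W_29 (nat_lit 2) (nat_lit 0x78002c001e000200000001000080000000000000000000000000000000) (nat_lit 0x0) (nat_lit 0x180000000000000000400000000000000000000000000000000000000000000) := D_29 (nat_lit 247) (nat_lit 248) (nat_lit 178) (nat_lit 3) (nat_lit 6) (nat_lit 13) (nat_lit 4) (nat_lit 9) (nat_lit 14) (by decide +kernel)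
theorem L89486 : W_29 (nat_lit 3) (nat_lit 0x78000c001e000200000001000080000000000000000000000000000000) (nat_lit 0x0) (nat_lit 0x180000000600000000400000000000000000000000000000000000000000000) := T_29 (nat_lit 213) (nat_lit 214) (nat_lit 3) (nat_lit 6) (nat_lit 11) L89485 (by decide +kernel)
theorem L89487 : W_29 (nat_lit 4) (nat_lit 0x38000c001e000200000001000080000000000000000000000000000000) (nat_lit 0x0) (nat_lit 0x18000c000600000000400000000000000000000000000000000000000000000) := T_29 (nat_lit 230) (nat_lit 231) (nat_lit 0) (nat_lit 10) (nat_lit 13) L89486 (by decide +kernel)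
theorem L89488 : W_29 (nat_lit 5) (nat_lit 0x18000c001e000200000001000080000000000000000000000000000000) (nat_lit 0x0) (nat_lit 0x1c000e000600000000400000000000000000000000000000000000000000000) := T_29 (nat_lit 229) (nat_lit 246) (nat_lit 7) (nat_lit 7) (nat_lit 10) L89487 (by decide +kernel)
theorem L89489 : W_29 (nat_lit 6) (nat_lit 0x18000c000e000200000001000080000000000000000000000000000000) (nat_lit 0x0) (nat_lit 0x1c000e000600030000400000000000000000000000000000000000000000000) := T_29 (nat_lit 196) (nat_lit 197) (nat_lit 1) (nat_lit 10) (nat_lit 11) L89488 (by decide +kernel)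
theorem L89490 : W_29 (nat_lit 7) (nat_lit 0x10000c000e000200000001000080000000000000000000000000000000) (nat_lit 0x0) (nat_lit 0x1d000e800600030000400000000000000000000000000000000000000000000) := T_29 (nat_lit 227) (nat_lit 244) (nat_lit 6) (nat_lit 6) (nat_lit 14) L89489 (by decide +kernel)
theorem L89491 : W_29 (nat_lit 8) (nat_lit 0x100008000e000200000001000080000000000000000000000000000000) (nat_lit 0x0) (nat_lit 0x1d000e800670030000400000000000000000000000000000000000000000000) := Q_29 (nat_lit 210) (C_29 L89490 (C_29 L80257 (C_29 L80219 N_29))) (by decide +kernel)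
theorem L89492 : W_29 (nat_lit 2) (nat_lit 0x38000c000e000380000001000080000000000000000000000000000000) (nat_lit 0x0) (nat_lit 0x4000030000000000000000000000000000000000000000000000000000) := D_29 (nat_lit 209) (nat_lit 208) (nat_lit 230) (nat_lit 3) (nat_lit 4) (nat_lit 12) (nat_lit 0) (nat_lit 9) (nat_lit 13) (by decide +kernel)
theorem L89493 : W_29 (nat_lit 3) (nat_lit 0x380008000e000380000001000080000000000000000000000000000000) (nat_lit 0x0) (nat_lit 0x4000070000000000004000000000000000000000000000000000000000) := T_29 (nat_lit 210) (nat_lit 158) (nat_lit 4) (nat_lit 6) (nat_lit 13) L89492 (by decide +kernel)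
theorem L89494 : W_29 (nat_lit 4) (nat_lit 0x300008000e000380000001000080000000000000000000000000000000) (nat_lit 0x0) (nat_lit 0x10004800070000000000004000000000000000000000000000000000000000) := T_29 (nat_lit 227) (nat_lit 244) (nat_lit 5) (nat_lit 7) (nat_lit 10) L89493 (by decide +kernel)
theorem L89495 : W_29 (nat_lit 5) (nat_lit 0x300008000e000300000001000080000000000000000000000000000000) (nat_lit 0x0) (nat_lit 0x100048000700000000c0004000000000000000000000000000000000000000) := T_29 (nat_lit 175) (nat_lit 174) (nat_lit 3) (nat_lit 4) (nat_lit 10) L89494 (by decide +kernel)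
theorem L89496 : W_29 (nat_lit 6) (nat_lit 0x300008000e000200000001000080000000000000000000000000000000) (nat_lit 0x0) (nat_lit 0x100048000700000001c000c000000000000000000000000000000000000000) := T_29 (nat_lit 176) (nat_lit 159) (nat_lit 4) (nat_lit 7) (nat_lit 13) L89495 (by decide +kernel)
theorem L89497 : W_29 (nat_lit 7) (nat_lit 0x100008000e000200000001000080000000000000000000000000000000) (nat_lit 0x0) (nat_lit 0x500068000700000001c000c000000000000000000000000000000000000000) := T_29 (nat_lit 229) (nat_lit 246) (nat_lit 7) (nat_lit 7) (nat_lit 10) L89496 (by decide +kernel)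
theorem L89498 : W_29 (nat_lit 9) (nat_lit 0x1000080006000200000001000080000000000000000000000000000000) (nat_lit 0x0) (nat_lit 0x1d000e8006700380005c000c000000000000000000000000000000000000000) := Q_29 (nat_lit 195) (C_29 L89484 (C_29 L89491 (C_29 L89497 N_29))) (by decide +kernel)
theorem L89499 : W_29 (nat_lit 10) (nat_lit 0x80006000200000001000080000000000000000000000000000000) (nat_lit 0x0) (nat_lit 0xe001f000f8006700380005c000c000000000000000000000000000000000000000) := Q_29 (nat_lit 228) (C_29 L80834 (C_29 L80713 (C_29 L80723 (C_29 L89498 N_29)))) (by decide +kernel)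
theorem L89500 : W_29 (nat_lit 6) (nat_lit 0x80006000200018001000080000000000000000000000000000000) (nat_lit 0x0) (nat_lit 0x4000e00070003000040000000100000000000000000000000000000000000000000000) := T_29 (nat_lit 228) (nat_lit 176) (nat_lit 4) (nat_lit 7) (nat_lit 13) L81033 (by decide +kernel)
theorem L89501 : W_29 (nat_lit 7) (nat_lit 0x80006000200010001000080000000000000000000000000000000) (nat_lit 0x0) (nat_lit 0x4000e00070003000040000000100008000400000000000000000000000000000000000) := T_29 (nat_lit 159) (nat_lit 142) (nat_lit 4) (nat_lit 7) (nat_lit 12) L89500 (by decide +kernel)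
theorem L89502 : W_29 (nat_lit 8) (nat_lit 0x80006000200000001000080000000000000000000000000000000) (nat_lit 0x0) (nat_lit 0x4000e00070003000040000000100018000c00000000000000000000000000000000000) := T_29 (nat_lit 160) (nat_lit 143) (nat_lit 6) (nat_lit 7) (nat_lit 11) L89501 (by decide +kernel)
theorem L89503 : W_29 (nat_lit 6) (nat_lit 0x80006000200010001000080000000000000000000000000000000) (nat_lit 0x0) (nat_lit 0xc00060003800040000000100008000400000000000000000000000000000000000) := T_29 (nat_lit 210) (nat_lit 227) (nat_lit 5) (nat_lit 7) (nat_lit 9) L89432 (by decide +kernel)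
theorem L89504 : W_29 (nat_lit 7) (nat_lit 0x80006000200000001000080000000000000000000000000000000) (nat_lit 0x0) (nat_lit 0xc00060003800040000000100018000c00000000000000000000000000000000000) := T_29 (nat_lit 160) (nat_lit 143) (nat_lit 6) (nat_lit 7) (nat_lit 11) L89503 (by decide +kernel)
theorem L89505 : W_29 (nat_lit 14) (nat_lit 0x6000200000001000080000000000000000000000000000000) (nat_lit 0x0) (nat_lit 0x4000e001f800fc006f0038001dc001f000f0011c000000000000000000000000000000) := Q_29 (nat_lit 211) (C_29 L89444 (C_29 L89449 (C_29 L89455 (C_29 L81042 (C_29 L89482 (C_29 L89499 (C_29 L89502 (C_29 L89504 N_29)))))))) (by decide +kernel)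
theorem L89519 : W_29 (nat_lit 2) (nat_lit 0x40007000300000001000080000000000000000000000000000000) (nat_lit 0x0) (nat_lit 0xc00400000000000000000000000000000000000000000000) := D_29 (nat_lit 191) (nat_lit 178) (nat_lit 190) (nat_lit 2) (nat_lit 4) (nat_lit 11) (nat_lit 2) (nat_lit 3) (nat_lit 11) (by decide +kernel)
theorem L89526 : W_29 (nat_lit 5) (nat_lit 0x40006000300000001000080000000000000000000000000000000) (nat_lit 0x0) (nat_lit 0x80000000c8000f000600020000000000000000000000000000000) := Q_29 (nat_lit 159) (C_29 L84512 (C_29 L84495 N_29)) (by decide +kernel)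
theorem L89528 : W_29 (nat_lit 3) (nat_lit 0x40007800200000001000080000000000000000000000000000000) (nat_lit 0x0) (nat_lit 0x9c000400000000000000000000000000000000000000000000000) := T_29 (nat_lit 190) (nat_lit 211) (nat_lit 3) (nat_lit 3) (nat_lit 11) L84634 (by decide +kernel)
theorem L89529 : W_29 (nat_lit 2) (nat_lit 0x500078002c0000001800080000000000000000000000000000000) (nat_lit 0x0) (nat_lit 0x200000000000000004000200000000000000000000000000000000000) := D_29 (nat_lit 158) (nat_lit 141) (nat_lit 225) (nat_lit 7) (nat_lit 5) (nat_lit 8) (nat_lit 6) (nat_lit 4) (nat_lit 13) (by decide +kernel)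
theorem L89530 : W_29 (nat_lit 3) (nat_lit 0x50007800240000001800080000000000000000000000000000000) (nat_lit 0x0) (nat_lit 0x200000008000080004000200000000000000000000000000000000000) := T_29 (nat_lit 175) (nat_lit 195) (nat_lit 0) (nat_lit 8) (nat_lit 11) L89529 (by decide +kernel)
theorem L89531 : W_29 (nat_lit 4) (nat_lit 0x50007800200000001800080000000000000000000000000000000) (nat_lit 0x0) (nat_lit 0x2000000080000e0004000200000000000000000000000000000000000) := T_29 (nat_lit 174) (nat_lit 173) (nat_lit 0) (nat_lit 7) (nat_lit 11) L89530 (by decide +kernel)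
theorem L89532 : W_29 (nat_lit 5) (nat_lit 0x40007800200000001800080000000000000000000000000000000) (nat_lit 0x0) (nat_lit 0x2000180080000e0004000200000000000000000000000000000000000) := T_29 (nat_lit 208) (nat_lit 207) (nat_lit 1) (nat_lit 7) (nat_lit 11) L89531 (by decide +kernel)
theorem L89533 : W_29 (nat_lit 6) (nat_lit 0x40007800200000001000080000000000000000000000000000000) (nat_lit 0x0) (nat_lit 0x2000180080000e0014000a00000000000000000000000000000000000) := T_29 (nat_lit 143) (nat_lit 160) (nat_lit 6) (nat_lit 7) (nat_lit 11) L89532 (by decide +kernel)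
theorem L89535 : W_29 (nat_lit 7) (nat_lit 0x40007000200000001000080000000000000000000000000000000) (nat_lit 0x0) (nat_lit 0x2000180088004e0014000a00000000000000000000000000000000000) := T_29 (nat_lit 191) (nat_lit 178) (nat_lit 2) (nat_lit 4) (nat_lit 11) L89533 (by decide +kernel)
theorem L89536 : W_29 (nat_lit 2) (nat_lit 0x10000400070003c001e001000080000000000000000000000000000000) (nat_lit 0x0) (nat_lit 0x180008000000000000000000000000000000) := D_29 (nat_lit 140) (nat_lit 123) (nat_lit 139) (nat_lit 7) (nat_lit 4) (nat_lit 7) (nat_lit 0) (nat_lit 7) (nat_lit 9) (by decide +kernel)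
theorem L89537 : W_29 (nat_lit 3) (nat_lit 0x100004000700034001e001000080000000000000000000000000000000) (nat_lit 0x0) (nat_lit 0x8000080000000180008000000000000000000000000000000) := T_29 (nat_lit 175) (nat_lit 195) (nat_lit 3) (nat_lit 4) (nat_lit 10) L89536 (by decide +kernel)
theorem L89538 : W_29 (nat_lit 4) (nat_lit 0x100004000700030001e001000080000000000000000000000000000000) (nat_lit 0x0) (nat_lit 0x80000e0000000180008000000000000000000000000000000) := T_29 (nat_lit 174) (nat_lit 173) (nat_lit 1) (nat_lit 7) (nat_lit 9) L89537 (by decide +kernel)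
theorem L89539 : W_29 (nat_lit 5) (nat_lit 0x100004000700030001c001000080000000000000000000000000000000) (nat_lit 0x0) (nat_lit 0x80000e0003000180008000000000000000000000000000000) := T_29 (nat_lit 157) (nat_lit 156) (nat_lit 3) (nat_lit 3) (nat_lit 9) L89538 (by decide +kernel)
theorem L89540 : W_29 (nat_lit 6) (nat_lit 0x1000040007000300018001000080000000000000000000000000000000) (nat_lit 0x0) (nat_lit 0x80000e0007000380008000000000000000000000000000000) := T_29 (nat_lit 158) (nat_lit 141) (nat_lit 4) (nat_lit 6) (nat_lit 12) L89539 (by decide +kernel)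
theorem L89541 : W_29 (nat_lit 7) (nat_lit 0x40007000300018001000080000000000000000000000000000000) (nat_lit 0x0) (nat_lit 0x10000800080000e0007000380008000000000000000000000000000000) := T_29 (nat_lit 228) (nat_lit 211) (nat_lit 7) (nat_lit 6) (nat_lit 9) L89540 (by decide +kernel)
theorem L89542 : W_29 (nat_lit 8) (nat_lit 0x40007000300008001000080000000000000000000000000000000) (nat_lit 0x0) (nat_lit 0x10000800080000e0017000b80008000000000000000000000000000000) := T_29 (nat_lit 160) (nat_lit 143) (nat_lit 6) (nat_lit 7) (nat_lit 11) L89541 (by decide +kernel)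
theorem L89543 : W_29 (nat_lit 9) (nat_lit 0x40007000300000001000080000000000000000000000000000000) (nat_lit 0x0) (nat_lit 0x10000800080000e001f000f80138000000000000000000000000000000) := Q_29 (nat_lit 159) (C_29 L88936 (C_29 L88933 (C_29 L89542 N_29))) (by decide +kernel)
theorem L89544 : W_29 (nat_lit 2) (nat_lit 0x4003f000a80000001e00090000000000000000000000000000000) (nat_lit 0x0) (nat_lit 0xe00000000000000000000000000000000000000000000000000000) := D_29 (nat_lit 214) (nat_lit 213) (nat_lit 215) (nat_lit 3) (nat_lit 6) (nat_lit 11) (nat_lit 3) (nat_lit 7) (nat_lit 11) (by decide +kernel)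
theorem L89545 : W_29 (nat_lit 3) (nat_lit 0x4001f000a80000001e00090000000000000000000000000000000) (nat_lit 0x0) (nat_lit 0xe80020000000000000000000000000000000000000000000000000) := T_29 (nat_lit 197) (nat_lit 211) (nat_lit 1) (nat_lit 10) (nat_lit 11) L89544 (by decide +kernel)
theorem L89546 : W_29 (nat_lit 4) (nat_lit 0x4001f000280000001e00090000000000000000000000000000000) (nat_lit 0x0) (nat_lit 0xe80020001800000000000000000000000000000000000000000000) := T_29 (nat_lit 179) (nat_lit 180) (nat_lit 2) (nat_lit 6) (nat_lit 11) L89545 (by decide +kernel)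
theorem L89547 : W_29 (nat_lit 5) (nat_lit 0x4001f000280000001e00080000000000000000000000000000000) (nat_lit 0x0) (nat_lit 0xe80020001800000000000018000000000000000000000000000000) := T_29 (nat_lit 124) (nat_lit 123) (nat_lit 0) (nat_lit 8) (nat_lit 8) L89546 (by decide +kernel)
theorem L89548 : W_29 (nat_lit 6) (nat_lit 0x4001f000280000001a00080000000000000000000000000000000) (nat_lit 0x0) (nat_lit 0xe80020001800000000400118000000000000000000000000000000) := T_29 (nat_lit 142) (nat_lit 128) (nat_lit 2) (nat_lit 5) (nat_lit 8) L89547 (by decide +kernel)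
theorem L89549 : W_29 (nat_lit 7) (nat_lit 0x4001f000280000001800080000000000000000000000000000000) (nat_lit 0x0) (nat_lit 0xe80020001800004000600118000000000000000000000000000000) := T_29 (nat_lit 141) (nat_lit 158) (nat_lit 7) (nat_lit 5) (nat_lit 8) L89548 (by decide +kernel)
theorem L89550 : W_29 (nat_lit 8) (nat_lit 0x4000f000280000001800080000000000000000000000000000000) (nat_lit 0x0) (nat_lit 0xe80030001900004000600118000000000000000000000000000000) := T_29 (nat_lit 196) (nat_lit 176) (nat_lit 0) (nat_lit 9) (nat_lit 11) L89549 (by decide +kernel)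
theorem L89551 : W_29 (nat_lit 9) (nat_lit 0x4000f000200000001800080000000000000000000000000000000) (nat_lit 0x0) (nat_lit 0xe800300019c0004000600118000000000000000000000000000000) := T_29 (nat_lit 175) (nat_lit 174) (nat_lit 0) (nat_lit 8) (nat_lit 11) L89550 (by decide +kernel)
theorem L89552 : W_29 (nat_lit 10) (nat_lit 0x4000f000200000001000080000000000000000000000000000000) (nat_lit 0x0) (nat_lit 0xe800300019c0014000e00118000000000000000000000000000000) := T_29 (nat_lit 143) (nat_lit 160) (nat_lit 6) (nat_lit 7) (nat_lit 11) L89551 (by decide +kernel)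
theorem L89553 : W_29 (nat_lit 2) (nat_lit 0x4000f000780000001000080000000000000000000000000000000) (nat_lit 0x0) (nat_lit 0x6000200000000000000000000000000000000000) := D_29 (nat_lit 158) (nat_lit 141) (nat_lit 157) (nat_lit 7) (nat_lit 5) (nat_lit 8) (nat_lit 0) (nat_lit 8) (nat_lit 10) (by decide +kernel)
theorem L89554 : W_29 (nat_lit 3) (nat_lit 0x4000f000680000001000080000000000000000000000000000000) (nat_lit 0x0) (nat_lit 0x10000100006000200000000000000000000000000000000000) := T_29 (nat_lit 176) (nat_lit 196) (nat_lit 3) (nat_lit 5) (nat_lit 10) L89553 (by decide +kernel)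
theorem L89555 : W_29 (nat_lit 4) (nat_lit 0x4000f000280000001000080000000000000000000000000000000) (nat_lit 0x0) (nat_lit 0x10000d00006000200000000000000000000000000000000000) := T_29 (nat_lit 178) (nat_lit 179) (nat_lit 2) (nat_lit 5) (nat_lit 11) L89554 (by decide +kernel)
theorem L89556 : W_29 (nat_lit 5) (nat_lit 0x4000f000200000001000080000000000000000000000000000000) (nat_lit 0x0) (nat_lit 0x10000dc0006000200000000000000000000000000000000000) := T_29 (nat_lit 175) (nat_lit 174) (nat_lit 0) (nat_lit 8) (nat_lit 11) L89555 (by decide +kernel)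
theorem L89557 : W_29 (nat_lit 2) (nat_lit 0x4003f000280010001200080000000000000000000000000000000) (nat_lit 0x0) (nat_lit 0xe00000000000000000000000000000000000000000000000000000) := D_29 (nat_lit 214) (nat_lit 213) (nat_lit 215) (nat_lit 3) (nat_lit 6) (nat_lit 11) (nat_lit 3) (nat_lit 7) (nat_lit 11) (by decide +kernel)
theorem L89558 : W_29 (nat_lit 3) (nat_lit 0x4001f000280010001200080000000000000000000000000000000) (nat_lit 0x0) (nat_lit 0xe80020000000000000000000000000000000000000000000000000) := T_29 (nat_lit 197) (nat_lit 211) (nat_lit 1) (nat_lit 10) (nat_lit 11) L89557 (by decide +kernel)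
theorem L89559 : W_29 (nat_lit 4) (nat_lit 0x4001f000280010001000080000000000000000000000000000000) (nat_lit 0x0) (nat_lit 0xe80020000000004000200000000000000000000000000000000000) := T_29 (nat_lit 141) (nat_lit 158) (nat_lit 7) (nat_lit 5) (nat_lit 8) L89558 (by decide +kernel)
theorem L89560 : W_29 (nat_lit 5) (nat_lit 0x4000f000280010001000080000000000000000000000000000000) (nat_lit 0x0) (nat_lit 0xe80030000100004000200000000000000000000000000000000000) := T_29 (nat_lit 196) (nat_lit 176) (nat_lit 0) (nat_lit 9) (nat_lit 11) L89559 (by decide +kernel)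
theorem L89561 : W_29 (nat_lit 6) (nat_lit 0x4000f000200010001000080000000000000000000000000000000) (nat_lit 0x0) (nat_lit 0xe800300001c0004000200000000000000000000000000000000000) := T_29 (nat_lit 175) (nat_lit 174) (nat_lit 0) (nat_lit 8) (nat_lit 11) L89560 (by decide +kernel)
theorem L89562 : W_29 (nat_lit 7) (nat_lit 0x4000f000200000001000080000000000000000000000000000000) (nat_lit 0x0) (nat_lit 0xe800300001c0014000a00000000000000000000000000000000000) := T_29 (nat_lit 160) (nat_lit 143) (nat_lit 6) (nat_lit 7) (nat_lit 11) L89561 (by decide +kernel)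
theorem L89563 : W_29 (nat_lit 2) (nat_lit 0x4000f000680014001000080000000000000000000000000000000) (nat_lit 0x0) (nat_lit 0x10000a000000000000000000000000000000000000000) := D_29 (nat_lit 157) (nat_lit 176) (nat_lit 159) (nat_lit 0) (nat_lit 8) (nat_lit 10) (nat_lit 3) (nat_lit 4) (nat_lit 9) (by decide +kernel)
theorem L89564 : W_29 (nat_lit 3) (nat_lit 0x4000f000680004001000080000000000000000000000000000000) (nat_lit 0x0) (nat_lit 0x10001a000800000000000000000000000000000000000) := T_29 (nat_lit 160) (nat_lit 143) (nat_lit 6) (nat_lit 7) (nat_lit 11) L89563 (by decide +kernel)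
theorem L89565 : W_29 (nat_lit 4) (nat_lit 0x4000f000680000001000080000000000000000000000000000000) (nat_lit 0x0) (nat_lit 0x10001e000a00000000000000000000000000000000000) := T_29 (nat_lit 158) (nat_lit 141) (nat_lit 7) (nat_lit 5) (nat_lit 8) L89564 (by decide +kernel)
theorem L89566 : W_29 (nat_lit 5) (nat_lit 0x4000f000280000001000080000000000000000000000000000000) (nat_lit 0x0) (nat_lit 0xd0001e000a00000000000000000000000000000000000) := T_29 (nat_lit 178) (nat_lit 179) (nat_lit 2) (nat_lit 5) (nat_lit 11) L89565 (by decide +kernel)
theorem L89567 : W_29 (nat_lit 6) (nat_lit 0x4000f000200000001000080000000000000000000000000000000) (nat_lit 0x0) (nat_lit 0xdc001e000a00000000000000000000000000000000000) := T_29 (nat_lit 175) (nat_lit 174) (nat_lit 0) (nat_lit 8) (nat_lit 11) L89566 (by decide +kernel)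
theorem L89568 : W_29 (nat_lit 2) (nat_lit 0x30002c001f00068001c001000080000000000000000000000000000000) (nat_lit 0x0) (nat_lit 0x8000c000000000000000000000000000000000000000000000000000000000) := D_29 (nat_lit 230) (nat_lit 231) (nat_lit 247) (nat_lit 0) (nat_lit 10) (nat_lit 13) (nat_lit 4) (nat_lit 9) (nat_lit 14) (by decide +kernel)
theorem L89569 : W_29 (nat_lit 3) (nat_lit 0x10002c001f00068001c001000080000000000000000000000000000000) (nat_lit 0x0) (nat_lit 0xc000e000000000000000000000000000000000000000000000000000000000) := T_29 (nat_lit 229) (nat_lit 246) (nat_lit 7) (nat_lit 7) (nat_lit 10) L89568 (by decide +kernel)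
theorem L89570 : W_29 (nat_lit 4) (nat_lit 0x10000c001f00068001c001000080000000000000000000000000000000) (nat_lit 0x0) (nat_lit 0xc000e000600000000000000000000000000000000000000000000000000000) := T_29 (nat_lit 213) (nat_lit 214) (nat_lit 3) (nat_lit 6) (nat_lit 11) L89569 (by decide +kernel)
theorem L89571 : W_29 (nat_lit 5) (nat_lit 0xc001f00068001c001000080000000000000000000000000000000) (nat_lit 0x0) (nat_lit 0xe000f000600000000000000000000000000000000000000000000000000000) := T_29 (nat_lit 228) (nat_lit 245) (nat_lit 6) (nat_lit 7) (nat_lit 14) L89570 (by decide +kernel)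
theorem L89572 : W_29 (nat_lit 6) (nat_lit 0xc000f00068001c001000080000000000000000000000000000000) (nat_lit 0x0) (nat_lit 0xe000f000600030000000000000000000000000000000000000000000000000) := T_29 (nat_lit 196) (nat_lit 197) (nat_lit 1) (nat_lit 10) (nat_lit 11) L89571 (by decide +kernel)
theorem L89573 : W_29 (nat_lit 7) (nat_lit 0x4000f00068001c001000080000000000000000000000000000000) (nat_lit 0x0) (nat_lit 0xe000f000680030000000000000400000000000000000000000000000000000) := T_29 (nat_lit 211) (nat_lit 142) (nat_lit 4) (nat_lit 7) (nat_lit 12) L89572 (by decide +kernel)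
theorem L89574 : W_29 (nat_lit 8) (nat_lit 0x4000f000680014001000080000000000000000000000000000000) (nat_lit 0x0) (nat_lit 0xe000f00068003000000000a000400000000000000000000000000000000000) := T_29 (nat_lit 159) (nat_lit 157) (nat_lit 3) (nat_lit 4) (nat_lit 9) L89573 (by decide +kernel)
theorem L89575 : W_29 (nat_lit 9) (nat_lit 0x4000f000680010001000080000000000000000000000000000000) (nat_lit 0x0) (nat_lit 0xe000f00068003000000000e000600000000000000000000000000000000000) := T_29 (nat_lit 158) (nat_lit 141) (nat_lit 7) (nat_lit 5) (nat_lit 8) L89574 (by decide +kernel)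
theorem L89576 : W_29 (nat_lit 10) (nat_lit 0x4000f000280010001000080000000000000000000000000000000) (nat_lit 0x0) (nat_lit 0xe000f000680030000c0000e000600000000000000000000000000000000000) := T_29 (nat_lit 178) (nat_lit 179) (nat_lit 2) (nat_lit 5) (nat_lit 11) L89575 (by decide +kernel)
theorem L89577 : W_29 (nat_lit 11) (nat_lit 0x4000f000200010001000080000000000000000000000000000000) (nat_lit 0x0) (nat_lit 0xe000f000680030000cc000e000600000000000000000000000000000000000) := T_29 (nat_lit 175) (nat_lit 174) (nat_lit 0) (nat_lit 8) (nat_lit 11) L89576 (by decide +kernel)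
theorem L89578 : W_29 (nat_lit 12) (nat_lit 0x4000f000200000001000080000000000000000000000000000000) (nat_lit 0x0) (nat_lit 0xe000f000680030000cc001e000e00000000000000000000000000000000000) := T_29 (nat_lit 160) (nat_lit 143) (nat_lit 6) (nat_lit 7) (nat_lit 11) L89577 (by decide +kernel)
theorem L89579 : W_29 (nat_lit 2) (nat_lit 0x4001f000a00010001000080000000000000000000000000000000) (nat_lit 0x0) (nat_lit 0x80020000100000000000000000000000000000000000000000000) := D_29 (nat_lit 197) (nat_lit 211) (nat_lit 176) (nat_lit 1) (nat_lit 10) (nat_lit 11) (nat_lit 0) (nat_lit 10) (nat_lit 11) (by decide +kernel)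
theorem L89580 : W_29 (nat_lit 3) (nat_lit 0x4000f000a00010001000080000000000000000000000000000000) (nat_lit 0x0) (nat_lit 0x80030001100000000000000000000000000000000000000000000) := T_29 (nat_lit 196) (nat_lit 180) (nat_lit 2) (nat_lit 6) (nat_lit 11) L89579 (by decide +kernel)
theorem L89581 : W_29 (nat_lit 4) (nat_lit 0x4000f000200010001000080000000000000000000000000000000) (nat_lit 0x0) (nat_lit 0x80030001d00000000000000000000000000000000000000000000) := T_29 (nat_lit 179) (nat_lit 178) (nat_lit 2) (nat_lit 5) (nat_lit 11) L89580 (by decide +kernel)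
theorem L89582 : W_29 (nat_lit 5) (nat_lit 0x4000f000200000001000080000000000000000000000000000000) (nat_lit 0x0) (nat_lit 0x80030001d00010000800000000000000000000000000000000000) := T_29 (nat_lit 160) (nat_lit 143) (nat_lit 6) (nat_lit 7) (nat_lit 11) L89581 (by decide +kernel)
theorem L89583 : W_29 (nat_lit 13) (nat_lit 0x40007000200000001000080000000000000000000000000000000) (nat_lit 0x0) (nat_lit 0xe000f000e80078001dc001e000e00118000000000000000000000000000000) := Q_29 (nat_lit 195) (C_29 L89552 (C_29 L80203 (C_29 L89556 (C_29 L89562 (C_29 L89567 (C_29 L89578 (C_29 L89582 N_29))))))) (by decide +kernel)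
theorem L89586 : W_29 (nat_lit 2) (nat_lit 0x1000000005000f800300000001000080000000000000000000000000000000) (nat_lit 0x0) (nat_lit 0x30000080000000000000000000000000000000000000000000) := D_29 (nat_lit 196) (nat_lit 197) (nat_lit 175) (nat_lit 0) (nat_lit 10) (nat_lit 11) (nat_lit 0) (nat_lit 9) (nat_lit 11) (by decide +kernel)
theorem L89587 : W_29 (nat_lit 3) (nat_lit 0x10000000050007800300000001000080000000000000000000000000000000) (nat_lit 0x0) (nat_lit 0x20038000080000000000000000000000000000000000000000000) := T_29 (nat_lit 195) (nat_lit 209) (nat_lit 1) (nat_lit 8) (nat_lit 11) L89586 (by decide +kernel)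
theorem L89588 : W_29 (nat_lit 4) (nat_lit 0x10000000040007800300000001000080000000000000000000000000000000) (nat_lit 0x0) (nat_lit 0x38038000080000000000000000000000000000000000000000000) := T_29 (nat_lit 208) (nat_lit 207) (nat_lit 1) (nat_lit 7) (nat_lit 11) L89587 (by decide +kernel)
theorem L89589 : W_29 (nat_lit 5) (nat_lit 0x10000000040007000300000001000080000000000000000000000000000000) (nat_lit 0x0) (nat_lit 0x38038c00080000000000000000000000000000000000000000000) := T_29 (nat_lit 191) (nat_lit 190) (nat_lit 2) (nat_lit 3) (nat_lit 11) L89588 (by decide +kernel)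
theorem L89590 : W_29 (nat_lit 6) (nat_lit 0x40007000300000001000080000000000000000000000000000000) (nat_lit 0x0) (nat_lit 0x10000800038038c00080000000000000000000000000000000000000000000) := T_29 (nat_lit 244) (nat_lit 227) (nat_lit 6) (nat_lit 6) (nat_lit 14) L89589 (by decide +kernel)
theorem L89591 : W_29 (nat_lit 2) (nat_lit 0x5e0006000f000b80000001000080000000000000000000000000000000) (nat_lit 0x0) (nat_lit 0x180080000000000000000000000000000000000000000000000000000) := D_29 (nat_lit 224) (nat_lit 211) (nat_lit 223) (nat_lit 2) (nat_lit 3) (nat_lit 13) (nat_lit 2) (nat_lit 2) (nat_lit 13) (by decide +kernel)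
theorem L89592 : W_29 (nat_lit 3) (nat_lit 0x5c0006000f000b80000001000080000000000000000000000000000000) (nat_lit 0x0) (nat_lit 0x4000380080000000000000000000000000000000000000000000000000000) := T_29 (nat_lit 225) (nat_lit 242) (nat_lit 5) (nat_lit 5) (nat_lit 10) L89591 (by decide +kernel)
theorem L89593 : W_29 (nat_lit 4) (nat_lit 0x1c0006000f000b80000001000080000000000000000000000000000000) (nat_lit 0x0) (nat_lit 0x4006380080000000000000000000000000000000000000000000000000000) := T_29 (nat_lit 230) (nat_lit 229) (nat_lit 0) (nat_lit 9) (nat_lit 13) L89592 (by decide +kernel)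
theorem L89594 : W_29 (nat_lit 5) (nat_lit 0x1c0004000f000b80000001000080000000000000000000000000000000) (nat_lit 0x0) (nat_lit 0x40063800b0000000000000000000000000000000000000000000000000000) := T_29 (nat_lit 209) (nat_lit 208) (nat_lit 1) (nat_lit 8) (nat_lit 11) L89593 (by decide +kernel)
theorem L89595 : W_29 (nat_lit 6) (nat_lit 0x1c00040007000b80000001000080000000000000000000000000000000) (nat_lit 0x0) (nat_lit 0x40063800b0018000000000000000000000000000000000000000000000000) := T_29 (nat_lit 195) (nat_lit 196) (nat_lit 0) (nat_lit 9) (nat_lit 11) L89594 (by decide +kernel)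
theorem L89596 : W_29 (nat_lit 7) (nat_lit 0x1c00040007000b00000001000080000000000000000000000000000000) (nat_lit 0x0) (nat_lit 0x40063800b0018000080004000000000000000000000000000000000000000) := T_29 (nat_lit 175) (nat_lit 158) (nat_lit 4) (nat_lit 6) (nat_lit 13) L89595 (by decide +kernel)
theorem L89597 : W_29 (nat_lit 8) (nat_lit 0xc00040007000b00000001000080000000000000000000000000000000) (nat_lit 0x0) (nat_lit 0x240073800b0018000080004000000000000000000000000000000000000000) := T_29 (nat_lit 228) (nat_lit 245) (nat_lit 7) (nat_lit 6) (nat_lit 10) L89596 (by decide +kernel)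
theorem L89598 : W_29 (nat_lit 9) (nat_lit 0x800040007000b00000001000080000000000000000000000000000000) (nat_lit 0x0) (nat_lit 0x2c0077800b0018000080004000000000000000000000000000000000000000) := T_29 (nat_lit 226) (nat_lit 243) (nat_lit 5) (nat_lit 6) (nat_lit 10) L89597 (by decide +kernel)
theorem L89599 : W_29 (nat_lit 10) (nat_lit 0x40007000b00000001000080000000000000000000000000000000) (nat_lit 0x0) (nat_lit 0x3c007f800b0018000080004000000000000000000000000000000000000000) := T_29 (nat_lit 227) (nat_lit 244) (nat_lit 6) (nat_lit 6) (nat_lit 14) L89598 (by decide +kernel)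
theorem L89600 : W_29 (nat_lit 11) (nat_lit 0x40007000300000001000080000000000000000000000000000000) (nat_lit 0x0) (nat_lit 0x3c007f800b0018000c80004000000000000000000000000000000000000000) := T_29 (nat_lit 179) (nat_lit 178) (nat_lit 1) (nat_lit 9) (nat_lit 10) L89599 (by decide +kernel)
theorem L89601 : W_29 (nat_lit 12) (nat_lit 0x40006000300000001000080000000000000000000000000000000) (nat_lit 0x0) (nat_lit 0x3c007f800b8039c00c80004000000000000000000000000000000000000000) := Q_29 (nat_lit 192) (C_29 L89590 (C_29 L89519 (C_29 L89600 N_29))) (by decide +kernel)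
theorem L89602 : W_29 (nat_lit 13) (nat_lit 0x40006000200000001000080000000000000000000000000000000) (nat_lit 0x0) (nat_lit 0x3c007f800b8039c00d8000f000600020000000000000000000000000000000) := Q_29 (nat_lit 176) (C_29 L12038 (C_29 L89526 (C_29 L89601 (C_29 L12079 N_29)))) (by decide +kernel)
theorem L89604 : W_29 (nat_lit 2) (nat_lit 0x6000f000300000001000080000000000000000000000000000000) (nat_lit 0x0) (nat_lit 0x400000000000000008000400000000000000000000000000000000000) := D_29 (nat_lit 159) (nat_lit 142) (nat_lit 226) (nat_lit 5) (nat_lit 6) (nat_lit 8) (nat_lit 5) (nat_lit 6) (nat_lit 9) (by decide +kernel)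
theorem L89606 : W_29 (nat_lit 2) (nat_lit 0x1c00060006000f000200000001800080000000000000000000000000000000) (nat_lit 0x0) (nat_lit 0x20000180000000000000000000000000000000000000000000000000000000) := D_29 (nat_lit 224) (nat_lit 223) (nat_lit 245) (nat_lit 3) (nat_lit 2) (nat_lit 13) (nat_lit 0) (nat_lit 7) (nat_lit 14) (by decide +kernel)
theorem L89607 : W_29 (nat_lit 3) (nat_lit 0xc00060006000f000200000001800080000000000000000000000000000000) (nat_lit 0x0) (nat_lit 0x200030000180000000000000000000000000000000000000000000000000000000) := T_29 (nat_lit 244) (nat_lit 261) (nat_lit 7) (nat_lit 5) (nat_lit 11) L89606 (by decide +kernel)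
theorem L89608 : W_29 (nat_lit 4) (nat_lit 0xc00040006000f000200000001800080000000000000000000000000000000) (nat_lit 0x0) (nat_lit 0x200030000380000000000080000000000000000000000000000000000000000000) := T_29 (nat_lit 225) (nat_lit 175) (nat_lit 5) (nat_lit 5) (nat_lit 10) L89607 (by decide +kernel)
theorem L89609 : W_29 (nat_lit 5) (nat_lit 0x800040006000f000200000001800080000000000000000000000000000000) (nat_lit 0x0) (nat_lit 0x280034000380000000000080000000000000000000000000000000000000000000) := T_29 (nat_lit 242) (nat_lit 259) (nat_lit 5) (nat_lit 5) (nat_lit 11) L89608 (by decide +kernel)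
theorem L89610 : W_29 (nat_lit 6) (nat_lit 0x40006000f000200000001800080000000000000000000000000000000) (nat_lit 0x0) (nat_lit 0x38003c000380000000000080000000000000000000000000000000000000000000) := T_29 (nat_lit 243) (nat_lit 260) (nat_lit 6) (nat_lit 5) (nat_lit 15) L89609 (by decide +kernel)
theorem L89611 : W_29 (nat_lit 7) (nat_lit 0x40006000f000200000001000080000000000000000000000000000000) (nat_lit 0x0) (nat_lit 0x38003c000380000000000080010000800000000000000000000000000000000000) := T_29 (nat_lit 143) (nat_lit 160) (nat_lit 6) (nat_lit 7) (nat_lit 11) L89610 (by decide +kernel)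
theorem L89612 : W_29 (nat_lit 2) (nat_lit 0x40006000f000200000001000080000000000000000000000000000000) (nat_lit 0x0) (nat_lit 0x100008000000000000000100000000000000000000000000000000000000000000) := D_29 (nat_lit 243) (nat_lit 260) (nat_lit 176) (nat_lit 6) (nat_lit 5) (nat_lit 15) (nat_lit 6) (nat_lit 5) (nat_lit 14) (by decide +kernel)
theorem L89640 : W_29 (nat_lit 6) (nat_lit 0x40006000200000001000080000000000000000000000000000000) (nat_lit 0x0) (nat_lit 0x38001c000a00080001e000c000000000000000000000000000000000000000) := T_29 (nat_lit 227) (nat_lit 244) (nat_lit 6) (nat_lit 6) (nat_lit 14) L89438 (by decide +kernel)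
theorem L89641 : W_29 (nat_lit 2) (nat_lit 0x6000f800240000001800080000000000000000000000000000000) (nat_lit 0x0) (nat_lit 0x600100000000000000000000000000000000000000000000) := D_29 (nat_lit 190) (nat_lit 176) (nat_lit 189) (nat_lit 2) (nat_lit 3) (nat_lit 11) (nat_lit 3) (nat_lit 2) (nat_lit 11) (by decide +kernel)
theorem L89642 : W_29 (nat_lit 3) (nat_lit 0x6000f000240000001800080000000000000000000000000000000) (nat_lit 0x0) (nat_lit 0xe00120000000000000000000000000000000000000000000) := T_29 (nat_lit 191) (nat_lit 173) (nat_lit 0) (nat_lit 7) (nat_lit 11) L89641 (by decide +kernel)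
theorem L89643 : W_29 (nat_lit 4) (nat_lit 0x6000f000200000001800080000000000000000000000000000000) (nat_lit 0x0) (nat_lit 0xe001e0000000000000000000000000000000000000000000) := T_29 (nat_lit 174) (nat_lit 175) (nat_lit 0) (nat_lit 8) (nat_lit 11) L89642 (by decide +kernel)
theorem L89644 : W_29 (nat_lit 5) (nat_lit 0x4000f000200000001800080000000000000000000000000000000) (nat_lit 0x0) (nat_lit 0x30000e001e0000000000000000000000000000000000000000000) := T_29 (nat_lit 209) (nat_lit 208) (nat_lit 1) (nat_lit 8) (nat_lit 11) L89643 (by decide +kernel)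
theorem L89645 : W_29 (nat_lit 6) (nat_lit 0x4000f000200000001000080000000000000000000000000000000) (nat_lit 0x0) (nat_lit 0x30000e001e0010000800000000000000000000000000000000000) := T_29 (nat_lit 143) (nat_lit 160) (nat_lit 6) (nat_lit 7) (nat_lit 11) L89644 (by decide +kernel)
theorem L89646 : W_29 (nat_lit 4) (nat_lit 0x4000f000300000001000080000000000000000000000000000000) (nat_lit 0x0) (nat_lit 0x80004000300000000c0008000000000000000000000000000000000000000) := T_29 (nat_lit 175) (nat_lit 174) (nat_lit 3) (nat_lit 4) (nat_lit 10) L86094 (by decide +kernel)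
theorem L89694 : W_29 (nat_lit 2) (nat_lit 0xc000780034000e001800080000000000000000000000000000000) (nat_lit 0x0) (nat_lit 0x400020000000000000000100000000000000000000000000000000000) := D_29 (nat_lit 209) (nat_lit 226) (nat_lit 140) (nat_lit 5) (nat_lit 6) (nat_lit 9) (nat_lit 7) (nat_lit 4) (nat_lit 8) (by decide +kernel)
theorem L89695 : W_29 (nat_lit 3) (nat_lit 0xc000780030000e001800080000000000000000000000000000000) (nat_lit 0x0) (nat_lit 0x400020000000060000000100000000000000000000000000000000000) := T_29 (nat_lit 174) (nat_lit 173) (nat_lit 0) (nat_lit 7) (nat_lit 11) L89694 (by decide +kernel)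
theorem L89696 : W_29 (nat_lit 4) (nat_lit 0xc000780030000c001800080000000000000000000000000000000) (nat_lit 0x0) (nat_lit 0x400020000000060003000100000000000000000000000000000000000) := T_29 (nat_lit 157) (nat_lit 156) (nat_lit 3) (nat_lit 3) (nat_lit 9) L89695 (by decide +kernel)
theorem L89697 : W_29 (nat_lit 5) (nat_lit 0xc0007800300008001800080000000000000000000000000000000) (nat_lit 0x0) (nat_lit 0x400020000000060007000300000000000000000000000000000000000) := T_29 (nat_lit 158) (nat_lit 141) (nat_lit 4) (nat_lit 6) (nat_lit 12) L89696 (by decide +kernel)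
theorem L89698 : W_29 (nat_lit 6) (nat_lit 0xc0007000300008001800080000000000000000000000000000000) (nat_lit 0x0) (nat_lit 0x400020000c00060007000300000000000000000000000000000000000) := T_29 (nat_lit 191) (nat_lit 190) (nat_lit 3) (nat_lit 3) (nat_lit 11) L89697 (by decide +kernel)
theorem L89699 : W_29 (nat_lit 7) (nat_lit 0x40007000300008001800080000000000000000000000000000000) (nat_lit 0x0) (nat_lit 0x14000a0000c00060007000300000000000000000000000000000000000) := T_29 (nat_lit 211) (nat_lit 228) (nat_lit 7) (nat_lit 6) (nat_lit 9) L89698 (by decide +kernel)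
theorem L89700 : W_29 (nat_lit 8) (nat_lit 0x40007000300008001000080000000000000000000000000000000) (nat_lit 0x0) (nat_lit 0x14000a0000c00060017000b00000000000000000000000000000000000) := T_29 (nat_lit 143) (nat_lit 160) (nat_lit 6) (nat_lit 7) (nat_lit 11) L89699 (by decide +kernel)
theorem L89701 : W_29 (nat_lit 9) (nat_lit 0x40007000300000001000080000000000000000000000000000000) (nat_lit 0x0) (nat_lit 0x14000a0000c0006001f000f00130000000000000000000000000000000) := Q_29 (nat_lit 159) (C_29 L88936 (C_29 L88933 (C_29 L89700 N_29))) (by decide +kernel)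
theorem L89702 : W_29 (nat_lit 2) (nat_lit 0x4000f800340010001000080000000000000000000000000000000) (nat_lit 0x0) (nat_lit 0x20030000000000000000000000000000000000000000000000000) := D_29 (nat_lit 196) (nat_lit 209) (nat_lit 197) (nat_lit 1) (nat_lit 9) (nat_lit 11) (nat_lit 0) (nat_lit 10) (nat_lit 11) (by decide +kernel)
theorem L89703 : W_29 (nat_lit 3) (nat_lit 0x40007800340010001000080000000000000000000000000000000) (nat_lit 0x0) (nat_lit 0x20038000080000000000000000000000000000000000000000000) := T_29 (nat_lit 195) (nat_lit 175) (nat_lit 3) (nat_lit 4) (nat_lit 10) L89702 (by decide +kernel)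
theorem L89704 : W_29 (nat_lit 4) (nat_lit 0x40007800300010001000080000000000000000000000000000000) (nat_lit 0x0) (nat_lit 0x200380000e0000000000000000000000000000000000000000000) := T_29 (nat_lit 174) (nat_lit 173) (nat_lit 0) (nat_lit 7) (nat_lit 11) L89703 (by decide +kernel)
theorem L89705 : W_29 (nat_lit 5) (nat_lit 0x40007000300010001000080000000000000000000000000000000) (nat_lit 0x0) (nat_lit 0x20038c000e0000000000000000000000000000000000000000000) := T_29 (nat_lit 191) (nat_lit 190) (nat_lit 2) (nat_lit 3) (nat_lit 11) L89704 (by decide +kernel)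
theorem L89706 : W_29 (nat_lit 6) (nat_lit 0x40007000300000001000080000000000000000000000000000000) (nat_lit 0x0) (nat_lit 0x20038c000e0010000800000000000000000000000000000000000) := T_29 (nat_lit 160) (nat_lit 143) (nat_lit 6) (nat_lit 7) (nat_lit 11) L89705 (by decide +kernel)
theorem L89707 : W_29 (nat_lit 2) (nat_lit 0x4000f800340000001000080000000000000000000000000000000) (nat_lit 0x0) (nat_lit 0x20030000000000000000000000000000000000000000000000000) := D_29 (nat_lit 196) (nat_lit 209) (nat_lit 197) (nat_lit 1) (nat_lit 9) (nat_lit 11) (nat_lit 0) (nat_lit 10) (nat_lit 11) (by decide +kernel)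
theorem L89708 : W_29 (nat_lit 3) (nat_lit 0x40007800340000001000080000000000000000000000000000000) (nat_lit 0x0) (nat_lit 0x20038000080000000000000000000000000000000000000000000) := T_29 (nat_lit 195) (nat_lit 175) (nat_lit 3) (nat_lit 4) (nat_lit 10) L89707 (by decide +kernel)
theorem L89709 : W_29 (nat_lit 4) (nat_lit 0x40007800300000001000080000000000000000000000000000000) (nat_lit 0x0) (nat_lit 0x200380000e0000000000000000000000000000000000000000000) := T_29 (nat_lit 174) (nat_lit 173) (nat_lit 0) (nat_lit 7) (nat_lit 11) L89708 (by decide +kernel)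
theorem L89710 : W_29 (nat_lit 5) (nat_lit 0x40007000300000001000080000000000000000000000000000000) (nat_lit 0x0) (nat_lit 0x20038c000e0000000000000000000000000000000000000000000) := T_29 (nat_lit 191) (nat_lit 190) (nat_lit 2) (nat_lit 3) (nat_lit 11) L89709 (by decide +kernel)
theorem L89711 : W_29 (nat_lit 2) (nat_lit 0x100006000740030001e001000080000000000000000000000000000000) (nat_lit 0x0) (nat_lit 0x80000000180000000000000000000000000000000000) := D_29 (nat_lit 140) (nat_lit 175) (nat_lit 139) (nat_lit 4) (nat_lit 5) (nat_lit 12) (nat_lit 0) (nat_lit 7) (nat_lit 9) (by decide +kernel)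
theorem L89712 : W_29 (nat_lit 3) (nat_lit 0x100004000740030001e001000080000000000000000000000000000000) (nat_lit 0x0) (nat_lit 0x400020000000080000000180000000000000000000000000000000000) := T_29 (nat_lit 209) (nat_lit 226) (nat_lit 5) (nat_lit 6) (nat_lit 9) L89711 (by decide +kernel)
theorem L89713 : W_29 (nat_lit 4) (nat_lit 0x100004000740030001c001000080000000000000000000000000000000) (nat_lit 0x0) (nat_lit 0x400020000000080003000180000000000000000000000000000000000) := T_29 (nat_lit 157) (nat_lit 156) (nat_lit 3) (nat_lit 3) (nat_lit 9) L89712 (by decide +kernel)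
theorem L89714 : W_29 (nat_lit 5) (nat_lit 0x1000040007400300018001000080000000000000000000000000000000) (nat_lit 0x0) (nat_lit 0x400020000000080007000380000000000000000000000000000000000) := T_29 (nat_lit 158) (nat_lit 141) (nat_lit 4) (nat_lit 6) (nat_lit 12) L89713 (by decide +kernel)
theorem L89715 : W_29 (nat_lit 6) (nat_lit 0x40007400300018001000080000000000000000000000000000000) (nat_lit 0x0) (nat_lit 0x14000a0000000080007000380000000000000000000000000000000000) := T_29 (nat_lit 228) (nat_lit 211) (nat_lit 7) (nat_lit 6) (nat_lit 9) L89714 (by decide +kernel)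
theorem L89716 : W_29 (nat_lit 7) (nat_lit 0x40007400300008001000080000000000000000000000000000000) (nat_lit 0x0) (nat_lit 0x14000a0000000080017000b80000000000000000000000000000000000) := T_29 (nat_lit 160) (nat_lit 143) (nat_lit 6) (nat_lit 7) (nat_lit 11) L89715 (by decide +kernel)
theorem L89717 : W_29 (nat_lit 8) (nat_lit 0x40007000300008001000080000000000000000000000000000000) (nat_lit 0x0) (nat_lit 0x14000a0000c00080017000b80000000000000000000000000000000000) := T_29 (nat_lit 190) (nat_lit 191) (nat_lit 2) (nat_lit 3) (nat_lit 11) L89716 (by decide +kernel)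
theorem L89718 : W_29 (nat_lit 9) (nat_lit 0x40007000300000001000080000000000000000000000000000000) (nat_lit 0x0) (nat_lit 0x14000a0000c0008001f000f80130000000000000000000000000000000) := Q_29 (nat_lit 159) (C_29 L88936 (C_29 L88933 (C_29 L89717 N_29))) (by decide +kernel)
theorem L89719 : W_29 (nat_lit 10) (nat_lit 0x40007000200000001000080000000000000000000000000000000) (nat_lit 0x0) (nat_lit 0x14000a0038c001e001f000f80138000000000000000000000000000000) := Q_29 (nat_lit 176) (C_29 L89701 (C_29 L89706 (C_29 L89710 (C_29 L89543 (C_29 L89718 N_29))))) (by decide +kernel)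
theorem L89720 : W_29 (nat_lit 2) (nat_lit 0x40007e00240000001000080000000000000000000000000000000) (nat_lit 0x0) (nat_lit 0x8100080000000000000000000000000000000000000000000) := D_29 (nat_lit 175) (nat_lit 188) (nat_lit 195) (nat_lit 2) (nat_lit 1) (nat_lit 11) (nat_lit 0) (nat_lit 8) (nat_lit 11) (by decide +kernel)
theorem L89721 : W_29 (nat_lit 3) (nat_lit 0x40007c00240000001000080000000000000000000000000000000) (nat_lit 0x0) (nat_lit 0x20008300080000000000000000000000000000000000000000000) := T_29 (nat_lit 189) (nat_lit 209) (nat_lit 3) (nat_lit 2) (nat_lit 11) L89720 (by decide +kernel)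
theorem L89722 : W_29 (nat_lit 4) (nat_lit 0x40007800240000001000080000000000000000000000000000000) (nat_lit 0x0) (nat_lit 0xa0008700080000000000000000000000000000000000000000000) := T_29 (nat_lit 190) (nat_lit 211) (nat_lit 3) (nat_lit 3) (nat_lit 11) L89721 (by decide +kernel)
theorem L89723 : W_29 (nat_lit 5) (nat_lit 0x40007800200000001000080000000000000000000000000000000) (nat_lit 0x0) (nat_lit 0xa00087000e0000000000000000000000000000000000000000000) := T_29 (nat_lit 174) (nat_lit 173) (nat_lit 0) (nat_lit 7) (nat_lit 11) L89722 (by decide +kernel)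
theorem L89724 : W_29 (nat_lit 6) (nat_lit 0x40007000200000001000080000000000000000000000000000000) (nat_lit 0x0) (nat_lit 0xa0008f004e0000000000000000000000000000000000000000000) := T_29 (nat_lit 191) (nat_lit 178) (nat_lit 2) (nat_lit 4) (nat_lit 11) L89723 (by decide +kernel)
theorem L89725 : W_29 (nat_lit 14) (nat_lit 0x40006000200000001000080000000000000000000000000000000) (nat_lit 0x0) (nat_lit 0xe000f400ea0079f01de001f000f80138000000000000000000000000000000) := Q_29 (nat_lit 192) (C_29 L84431 (C_29 L89583 (C_29 L89719 (C_29 L80212 (C_29 L89724 N_29))))) (by decide +kernel)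
theorem L89726 : W_29 (nat_lit 15) (nat_lit 0x6000200000001000080000000000000000000000000000000) (nat_lit 0x0) (nat_lit 0xf800fc00ee0079f01de001f000f80138000000000000000000000000000000) := Q_29 (nat_lit 210) (C_29 L89640 (C_29 L84557 (C_29 L80043 (C_29 L10108 (C_29 L89725 N_29))))) (by decide +kernel)
theorem L89727 : W_29 (nat_lit 2) (nat_lit 0x1800040007000300008001400080000000000000000000000000000000) (nat_lit 0x0) (nat_lit 0xc00400000000000000000000000000000000000000000000) := D_29 (nat_lit 191) (nat_lit 178) (nat_lit 190) (nat_lit 2) (nat_lit 4) (nat_lit 11) (nat_lit 2) (nat_lit 3) (nat_lit 11) (by decide +kernel)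
theorem L89728 : W_29 (nat_lit 3) (nat_lit 0x1800040006000300008001400080000000000000000000000000000000) (nat_lit 0x0) (nat_lit 0x20001c00400000000000000000000000000000000000000000000) := T_29 (nat_lit 192) (nat_lit 209) (nat_lit 5) (nat_lit 6) (nat_lit 8) L89727 (by decide +kernel)
theorem L89729 : W_29 (nat_lit 4) (nat_lit 0x1800040006000300008001000080000000000000000000000000000000) (nat_lit 0x0) (nat_lit 0x20001c00400000000400020000000000000000000000000000000) := T_29 (nat_lit 142) (nat_lit 125) (nat_lit 7) (nat_lit 6) (nat_lit 7) L89728 (by decide +kernel)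
theorem L89730 : W_29 (nat_lit 5) (nat_lit 0x1800040006000300000001000080000000000000000000000000000000) (nat_lit 0x0) (nat_lit 0xa0001c00400008000400020000000000000000000000000000000) := T_29 (nat_lit 159) (nat_lit 211) (nat_lit 7) (nat_lit 6) (nat_lit 9) L89729 (by decide +kernel)
theorem L89731 : W_29 (nat_lit 6) (nat_lit 0x800040006000300000001000080000000000000000000000000000000) (nat_lit 0x0) (nat_lit 0x200010000a0001c00400008000400020000000000000000000000000000000) := T_29 (nat_lit 228) (nat_lit 245) (nat_lit 7) (nat_lit 6) (nat_lit 10) L89730 (by decide +kernel)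
theorem L89732 : W_29 (nat_lit 7) (nat_lit 0x40006000300000001000080000000000000000000000000000000) (nat_lit 0x0) (nat_lit 0x300018000a0001c00400008000400020000000000000000000000000000000) := T_29 (nat_lit 227) (nat_lit 244) (nat_lit 6) (nat_lit 6) (nat_lit 14) L89731 (by decide +kernel)
theorem L89733 : W_29 (nat_lit 8) (nat_lit 0x40006000200000001000080000000000000000000000000000000) (nat_lit 0x0) (nat_lit 0x300018000a0009c00de000f000600020000000000000000000000000000000) := Q_29 (nat_lit 176) (C_29 L89107 (C_29 L89526 (C_29 L89732 N_29))) (by decide +kernel)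
theorem L89736 : W_29 (nat_lit 7) (nat_lit 0x1c000c000200000001000080000000000000000000000000000000) (nat_lit 0x0) (nat_lit 0x12000d001ec00e00002000400000000000000000000000000000000000000000000) := Q_29 (nat_lit 213) (C_29 L18703 (C_29 L81943 (C_29 L81783 N_29))) (by decide +kernel)
theorem L89737 : W_29 (nat_lit 2) (nat_lit 0x24003e000c000200000001000080000000000000000000000000000000) (nat_lit 0x0) (nat_lit 0xc00002000000000000000000000000000000000000000000000000) := D_29 (nat_lit 214) (nat_lit 215) (nat_lit 193) (nat_lit 0) (nat_lit 11) (nat_lit 12) (nat_lit 0) (nat_lit 10) (nat_lit 12) (by decide +kernel)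
theorem L89738 : W_29 (nat_lit 3) (nat_lit 0x24001e000c000200000001000080000000000000000000000000000000) (nat_lit 0x0) (nat_lit 0x800e00002000000000000000000000000000000000000000000000000) := T_29 (nat_lit 213) (nat_lit 227) (nat_lit 1) (nat_lit 9) (nat_lit 12) L89737 (by decide +kernel)
theorem L89739 : W_29 (nat_lit 4) (nat_lit 0x4001e000c000200000001000080000000000000000000000000000000) (nat_lit 0x0) (nat_lit 0x6800e00002000000000000000000000000000000000000000000000000) := T_29 (nat_lit 229) (nat_lit 230) (nat_lit 3) (nat_lit 5) (nat_lit 12) L89738 (by decide +kernel)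
theorem L89740 : W_29 (nat_lit 5) (nat_lit 0x1e000c000200000001000080000000000000000000000000000000) (nat_lit 0x0) (nat_lit 0x6e00e00002000000000000000000000000000000000000000000000000) := T_29 (nat_lit 226) (nat_lit 225) (nat_lit 1) (nat_lit 8) (nat_lit 12) L89739 (by decide +kernel)
theorem L89741 : W_29 (nat_lit 6) (nat_lit 0x1c000c000200000001000080000000000000000000000000000000) (nat_lit 0x0) (nat_lit 0x6e00e30002000000000000000000000000000000000000000000000000) := T_29 (nat_lit 209) (nat_lit 208) (nat_lit 2) (nat_lit 4) (nat_lit 12) L89740 (by decide +kernel)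
theorem L89742 : W_29 (nat_lit 2) (nat_lit 0x4003e000c000200000001000080000000000000000000000000000000) (nat_lit 0x0) (nat_lit 0xc00002000000000000000000000000000000000000000000000000) := D_29 (nat_lit 214) (nat_lit 215) (nat_lit 193) (nat_lit 0) (nat_lit 11) (nat_lit 12) (nat_lit 0) (nat_lit 10) (nat_lit 12) (by decide +kernel)
theorem L89743 : W_29 (nat_lit 3) (nat_lit 0x4001e000c000200000001000080000000000000000000000000000000) (nat_lit 0x0) (nat_lit 0x800e00002000000000000000000000000000000000000000000000000) := T_29 (nat_lit 213) (nat_lit 227) (nat_lit 1) (nat_lit 9) (nat_lit 12) L89742 (by decide +kernel)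
theorem L89744 : W_29 (nat_lit 4) (nat_lit 0x1e000c000200000001000080000000000000000000000000000000) (nat_lit 0x0) (nat_lit 0xe00e00002000000000000000000000000000000000000000000000000) := T_29 (nat_lit 226) (nat_lit 225) (nat_lit 1) (nat_lit 8) (nat_lit 12) L89743 (by decide +kernel)
theorem L89745 : W_29 (nat_lit 5) (nat_lit 0x1c000c000200000001000080000000000000000000000000000000) (nat_lit 0x0) (nat_lit 0xe00e30002000000000000000000000000000000000000000000000000) := T_29 (nat_lit 209) (nat_lit 208) (nat_lit 2) (nat_lit 4) (nat_lit 12) L89744 (by decide +kernel)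
theorem L89746 : W_29 (nat_lit 8) (nat_lit 0xc000c000200000001000080000000000000000000000000000000) (nat_lit 0x0) (nat_lit 0x12000d001ee00f30002000400000000000000000000000000000000000000000000) := Q_29 (nat_lit 212) (C_29 L18712 (C_29 L89736 (C_29 L89741 (C_29 L89745 N_29)))) (by decide +kernel)
theorem L89747 : W_29 (nat_lit 2) (nat_lit 0xc001c000300000001000080000000000000000000000000000000) (nat_lit 0x0) (nat_lit 0x4c0000000000000000000000000000000000000000000) := D_29 (nat_lit 175) (nat_lit 174) (nat_lit 178) (nat_lit 3) (nat_lit 4) (nat_lit 10) (nat_lit 3) (nat_lit 5) (nat_lit 10) (by decide +kernel)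
theorem L89748 : W_29 (nat_lit 3) (nat_lit 0xc000c000300000001000080000000000000000000000000000000) (nat_lit 0x0) (nat_lit 0x300004c0000000000000000000000000000000000000000000) := T_29 (nat_lit 196) (nat_lit 197) (nat_lit 1) (nat_lit 10) (nat_lit 11) L89747 (by decide +kernel)
theorem L89749 : W_29 (nat_lit 3) (nat_lit 0x1c000e000300000001000080000000000000000000000000000000) (nat_lit 0x0) (nat_lit 0x100008000000000000c0004000000000000000000000000000000000000000) := T_29 (nat_lit 175) (nat_lit 174) (nat_lit 3) (nat_lit 4) (nat_lit 10) L82170 (by decide +kernel)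
theorem L89750 : W_29 (nat_lit 2) (nat_lit 0x160001c000c000f40000001000080000000000000000000000000000000) (nat_lit 0x0) (nat_lit 0x2003000000000000000000000000000000000000000000000) := D_29 (nat_lit 180) (nat_lit 181) (nat_lit 193) (nat_lit 1) (nat_lit 11) (nat_lit 10) (nat_lit 1) (nat_lit 10) (nat_lit 10) (by decide +kernel)
theorem L89751 : W_29 (nat_lit 3) (nat_lit 0x160001c000c000740000001000080000000000000000000000000000000) (nat_lit 0x0) (nat_lit 0x2003800040000000000000000000000000000000000000000) := T_29 (nat_lit 179) (nat_lit 162) (nat_lit 6) (nat_lit 8) (nat_lit 13) L89750 (by decide +kernel)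
theorem L89752 : W_29 (nat_lit 4) (nat_lit 0x60001c000c000740000001000080000000000000000000000000000000) (nat_lit 0x0) (nat_lit 0x18000000002003800040000000000000000000000000000000000000000) := T_29 (nat_lit 232) (nat_lit 231) (nat_lit 0) (nat_lit 11) (nat_lit 13) L89751 (by decide +kernel)
theorem L89753 : W_29 (nat_lit 5) (nat_lit 0x20001c000c000740000001000080000000000000000000000000000000) (nat_lit 0x0) (nat_lit 0x8001c000000002003800040000000000000000000000000000000000000000) := T_29 (nat_lit 230) (nat_lit 247) (nat_lit 7) (nat_lit 8) (nat_lit 10) L89752 (by decide +kernel)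
theorem L89754 : W_29 (nat_lit 6) (nat_lit 0x1c000c000740000001000080000000000000000000000000000000) (nat_lit 0x0) (nat_lit 0xc001e000000002003800040000000000000000000000000000000000000000) := T_29 (nat_lit 229) (nat_lit 246) (nat_lit 4) (nat_lit 8) (nat_lit 14) L89753 (by decide +kernel)
theorem L89755 : W_29 (nat_lit 7) (nat_lit 0x1c000c000700000001000080000000000000000000000000000000) (nat_lit 0x0) (nat_lit 0xc001e0000000020038c0040000000000000000000000000000000000000000) := T_29 (nat_lit 174) (nat_lit 175) (nat_lit 3) (nat_lit 4) (nat_lit 10) L89754 (by decide +kernel)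
theorem L89756 : W_29 (nat_lit 2) (nat_lit 0x400000001c000e000780004001000080000000000000000000000000000000) (nat_lit 0x0) (nat_lit 0x8000600000000000000000000000000000000000) := D_29 (nat_lit 159) (nat_lit 141) (nat_lit 142) (nat_lit 4) (nat_lit 6) (nat_lit 12) (nat_lit 7) (nat_lit 6) (nat_lit 8) (by decide +kernel)
theorem L89757 : W_29 (nat_lit 3) (nat_lit 0x400000001c000c000780004001000080000000000000000000000000000000) (nat_lit 0x0) (nat_lit 0x800000002000000008000600000000000000000000000000000000000) := T_29 (nat_lit 193) (nat_lit 227) (nat_lit 4) (nat_lit 6) (nat_lit 13) L89756 (by decide +kernel)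
theorem L89758 : W_29 (nat_lit 4) (nat_lit 0x400000001c000c000780000001000080000000000000000000000000000000) (nat_lit 0x0) (nat_lit 0x80000000200000000e000600000000000000000000000000000000000) := T_29 (nat_lit 158) (nat_lit 157) (nat_lit 0) (nat_lit 8) (nat_lit 10) L89757 (by decide +kernel)
theorem L89759 : W_29 (nat_lit 5) (nat_lit 0x400000001c000c000700000001000080000000000000000000000000000000) (nat_lit 0x0) (nat_lit 0x8000000020000c000e000600000000000000000000000000000000000) := T_29 (nat_lit 175) (nat_lit 174) (nat_lit 3) (nat_lit 4) (nat_lit 10) L89758 (by decide +kernel)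
theorem L89760 : W_29 (nat_lit 6) (nat_lit 0x1c000c000700000001000080000000000000000000000000000000) (nat_lit 0x0) (nat_lit 0x400028000000020000c000e000600000000000000000000000000000000000) := T_29 (nat_lit 246) (nat_lit 229) (nat_lit 4) (nat_lit 8) (nat_lit 14) L89759 (by decide +kernel)
theorem L89761 : W_29 (nat_lit 2) (nat_lit 0x160001c000c000f00000001000080000000000000000000000000000000) (nat_lit 0x0) (nat_lit 0x2003000000000000000000000000000000000000000000000) := D_29 (nat_lit 180) (nat_lit 181) (nat_lit 193) (nat_lit 1) (nat_lit 11) (nat_lit 10) (nat_lit 1) (nat_lit 10) (nat_lit 10) (by decide +kernel)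
theorem L89762 : W_29 (nat_lit 3) (nat_lit 0x160001c000c000700000001000080000000000000000000000000000000) (nat_lit 0x0) (nat_lit 0x2003800040000000000000000000000000000000000000000) := T_29 (nat_lit 179) (nat_lit 162) (nat_lit 6) (nat_lit 8) (nat_lit 13) L89761 (by decide +kernel)
theorem L89763 : W_29 (nat_lit 4) (nat_lit 0x60001c000c000700000001000080000000000000000000000000000000) (nat_lit 0x0) (nat_lit 0x18000000002003800040000000000000000000000000000000000000000) := T_29 (nat_lit 232) (nat_lit 231) (nat_lit 0) (nat_lit 11) (nat_lit 13) L89762 (by decide +kernel)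
theorem L89764 : W_29 (nat_lit 5) (nat_lit 0x20001c000c000700000001000080000000000000000000000000000000) (nat_lit 0x0) (nat_lit 0x8001c000000002003800040000000000000000000000000000000000000000) := T_29 (nat_lit 230) (nat_lit 247) (nat_lit 7) (nat_lit 8) (nat_lit 10) L89763 (by decide +kernel)
theorem L89765 : W_29 (nat_lit 6) (nat_lit 0x1c000c000700000001000080000000000000000000000000000000) (nat_lit 0x0) (nat_lit 0xc001e000000002003800040000000000000000000000000000000000000000) := T_29 (nat_lit 229) (nat_lit 246) (nat_lit 4) (nat_lit 8) (nat_lit 14) L89764 (by decide +kernel)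
theorem L89766 : W_29 (nat_lit 8) (nat_lit 0x1c000c000300000001000080000000000000000000000000000000) (nat_lit 0x0) (nat_lit 0xc001e800000002003cc01ce000600000000000000000000000000000000000) := Q_29 (nat_lit 178) (C_29 L83940 (C_29 L89755 (C_29 L89760 (C_29 L89765 N_29)))) (by decide +kernel)
theorem L89767 : W_29 (nat_lit 2) (nat_lit 0x400000005c000e00030000e001000080000000000000000000000000000000) (nat_lit 0x0) (nat_lit 0xc80000000000000000000000000000000000000000000) := D_29 (nat_lit 178) (nat_lit 179) (nat_lit 175) (nat_lit 0) (nat_lit 9) (nat_lit 10) (nat_lit 0) (nat_lit 8) (nat_lit 10) (by decide +kernel)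
theorem L89768 : W_29 (nat_lit 3) (nat_lit 0x400000005c000e00030000c001000080000000000000000000000000000000) (nat_lit 0x0) (nat_lit 0xc80003000000000000000000000000000000000000000) := T_29 (nat_lit 157) (nat_lit 156) (nat_lit 3) (nat_lit 3) (nat_lit 9) L89767 (by decide +kernel)
theorem L89769 : W_29 (nat_lit 4) (nat_lit 0x400000005c000e000300008001000080000000000000000000000000000000) (nat_lit 0x0) (nat_lit 0xc80007000200000000000000000000000000000000000) := T_29 (nat_lit 158) (nat_lit 141) (nat_lit 4) (nat_lit 6) (nat_lit 12) L89768 (by decide +kernel)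
theorem L89770 : W_29 (nat_lit 5) (nat_lit 0x400000001c000e000300008001000080000000000000000000000000000000) (nat_lit 0x0) (nat_lit 0x600000000c80007000200000000000000000000000000000000000) := T_29 (nat_lit 214) (nat_lit 213) (nat_lit 0) (nat_lit 10) (nat_lit 12) L89769 (by decide +kernel)
theorem L89771 : W_29 (nat_lit 6) (nat_lit 0x400000001c000e000300000001000080000000000000000000000000000000) (nat_lit 0x0) (nat_lit 0x600000000c8000f000600000000000000000000000000000000000) := T_29 (nat_lit 159) (nat_lit 142) (nat_lit 7) (nat_lit 6) (nat_lit 8) L89770 (by decide +kernel)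
theorem L89772 : W_29 (nat_lit 7) (nat_lit 0x1c000e000300000001000080000000000000000000000000000000) (nat_lit 0x0) (nat_lit 0x40002000600000000c8000f000600000000000000000000000000000000000) := T_29 (nat_lit 246) (nat_lit 229) (nat_lit 4) (nat_lit 8) (nat_lit 14) L89771 (by decide +kernel)
theorem L89773 : W_29 (nat_lit 8) (nat_lit 0x1c000c000300000001000080000000000000000000000000000000) (nat_lit 0x0) (nat_lit 0x50002c00600002000cc000f000600000000000000000000000000000000000) := Q_29 (nat_lit 193) (C_29 L82300 (C_29 L89749 (C_29 L89772 N_29))) (by decide +kernel)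
theorem L89774 : W_29 (nat_lit 9) (nat_lit 0xc000c000300000001000080000000000000000000000000000000) (nat_lit 0x0) (nat_lit 0x2000d001ec00f00002003cc01cf000600000000000000000000000000000000000) := Q_29 (nat_lit 212) (C_29 L83941 (C_29 L84151 (C_29 L89766 (C_29 L89773 N_29)))) (by decide +kernel)
theorem L89775 : W_29 (nat_lit 10) (nat_lit 0xc000c000200000001000080000000000000000000000000000000) (nat_lit 0x0) (nat_lit 0x1a000d001ec00f00072003dc01cf000600000000000000000000000000000000000) := Q_29 (nat_lit 176) (C_29 L81811 (C_29 L84174 (C_29 L89748 (C_29 L89774 N_29)))) (by decide +kernel)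
theorem L89776 : W_29 (nat_lit 11) (nat_lit 0xc0004000200000001000080000000000000000000000000000000) (nat_lit 0x0) (nat_lit 0x1a000d001ee00f3007a003dc01cf000600000000000000000000000000000000000) := Q_29 (nat_lit 195) (C_29 L19598 (C_29 L89746 (C_29 L9036 (C_29 L89775 N_29)))) (by decide +kernel)
theorem L89778 : W_29 (nat_lit 2) (nat_lit 0x60003c000e000200000001000080000000000000000000000000000000) (nat_lit 0x0) (nat_lit 0x1000080000000000000000400000000000000000000000000000000000000000000) := D_29 (nat_lit 247) (nat_lit 178) (nat_lit 264) (nat_lit 7) (nat_lit 8) (nat_lit 10) (nat_lit 4) (nat_lit 9) (nat_lit 15) (by decide +kernel)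
theorem L89779 : W_29 (nat_lit 3) (nat_lit 0x20003c000e000200000001000080000000000000000000000000000000) (nat_lit 0x0) (nat_lit 0x100008000c000000000000400000000000000000000000000000000000000000000) := T_29 (nat_lit 230) (nat_lit 231) (nat_lit 3) (nat_lit 6) (nat_lit 12) L89778 (by decide +kernel)
theorem L89796 : W_29 (nat_lit 2) (nat_lit 0x8001c001e000c000340000001000080000000000000000000000000000000) (nat_lit 0x0) (nat_lit 0x4006000000000000000000000000000000000000000000000000000000000) := D_29 (nat_lit 229) (nat_lit 230) (nat_lit 242) (nat_lit 3) (nat_lit 5) (nat_lit 12) (nat_lit 1) (nat_lit 8) (nat_lit 13) (by decide +kernel)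
theorem L89797 : W_29 (nat_lit 3) (nat_lit 0x1c001e000c000340000001000080000000000000000000000000000000) (nat_lit 0x0) (nat_lit 0xc006000000002000000000000000000000000000000000000000000000000) := T_29 (nat_lit 243) (nat_lit 193) (nat_lit 5) (nat_lit 6) (nat_lit 10) L89796 (by decide +kernel)
theorem L89798 : W_29 (nat_lit 4) (nat_lit 0x1c001e000c000300000001000080000000000000000000000000000000) (nat_lit 0x0) (nat_lit 0xc0060000000020000c0000000000000000000000000000000000000000000) := T_29 (nat_lit 174) (nat_lit 175) (nat_lit 3) (nat_lit 4) (nat_lit 10) L89797 (by decide +kernel)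
theorem L89799 : W_29 (nat_lit 5) (nat_lit 0x1c001e0004000300000001000080000000000000000000000000000000) (nat_lit 0x0) (nat_lit 0xc00600000001a0000c0000000000000000000000000000000000000000000) := T_29 (nat_lit 195) (nat_lit 196) (nat_lit 2) (nat_lit 5) (nat_lit 12) L89798 (by decide +kernel)
theorem L89800 : W_29 (nat_lit 6) (nat_lit 0x1c001e0004000200000001000080000000000000000000000000000000) (nat_lit 0x0) (nat_lit 0xc00600000001a0001c0008000000000000000000000000000000000000000) := T_29 (nat_lit 176) (nat_lit 159) (nat_lit 4) (nat_lit 7) (nat_lit 13) L89799 (by decide +kernel)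
theorem L89801 : W_29 (nat_lit 7) (nat_lit 0x18001e0004000200000001000080000000000000000000000000000000) (nat_lit 0x0) (nat_lit 0xc00660000001a0001c0008000000000000000000000000000000000000000) := T_29 (nat_lit 226) (nat_lit 225) (nat_lit 2) (nat_lit 4) (nat_lit 13) L89800 (by decide +kernel)
theorem L89802 : W_29 (nat_lit 8) (nat_lit 0x10001e0004000200000001000080000000000000000000000000000000) (nat_lit 0x0) (nat_lit 0x1c006e0000001a0001c0008000000000000000000000000000000000000000) := T_29 (nat_lit 227) (nat_lit 244) (nat_lit 5) (nat_lit 7) (nat_lit 10) L89801 (by decide +kernel)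
theorem L89803 : W_29 (nat_lit 2) (nat_lit 0x54003e000c000340000001000080000000000000000000000000000000) (nat_lit 0x0) (nat_lit 0xc00002000000000000000000000000000000000000000000000000) := D_29 (nat_lit 214) (nat_lit 215) (nat_lit 193) (nat_lit 0) (nat_lit 11) (nat_lit 12) (nat_lit 0) (nat_lit 10) (nat_lit 12) (by decide +kernel)
theorem L89804 : W_29 (nat_lit 3) (nat_lit 0x54001e000c000340000001000080000000000000000000000000000000) (nat_lit 0x0) (nat_lit 0x8000e00002000000000000000000000000000000000000000000000000) := T_29 (nat_lit 213) (nat_lit 231) (nat_lit 3) (nat_lit 6) (nat_lit 12) L89803 (by decide +kernel)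
theorem L89805 : W_29 (nat_lit 4) (nat_lit 0x14001e000c000340000001000080000000000000000000000000000000) (nat_lit 0x0) (nat_lit 0xe000e00002000000000000000000000000000000000000000000000000) := T_29 (nat_lit 230) (nat_lit 229) (nat_lit 3) (nat_lit 5) (nat_lit 12) L89804 (by decide +kernel)
theorem L89806 : W_29 (nat_lit 5) (nat_lit 0x14001e000c000300000001000080000000000000000000000000000000) (nat_lit 0x0) (nat_lit 0xe000e000020000c0000000000000000000000000000000000000000000) := T_29 (nat_lit 174) (nat_lit 175) (nat_lit 3) (nat_lit 4) (nat_lit 10) L89805 (by decide +kernel)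
theorem L89807 : W_29 (nat_lit 6) (nat_lit 0x14001e000c000200000001000080000000000000000000000000000000) (nat_lit 0x0) (nat_lit 0xe000e000020001c0008000000000000000000000000000000000000000) := T_29 (nat_lit 176) (nat_lit 159) (nat_lit 4) (nat_lit 7) (nat_lit 13) L89806 (by decide +kernel)
theorem L89808 : W_29 (nat_lit 7) (nat_lit 0x14001e0004000200000001000080000000000000000000000000000000) (nat_lit 0x0) (nat_lit 0xe000e0001a0001c0008000000000000000000000000000000000000000) := T_29 (nat_lit 195) (nat_lit 196) (nat_lit 2) (nat_lit 5) (nat_lit 12) L89807 (by decide +kernel)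
theorem L89809 : W_29 (nat_lit 8) (nat_lit 0x10001e0004000200000001000080000000000000000000000000000000) (nat_lit 0x0) (nat_lit 0xe600e0001a0001c0008000000000000000000000000000000000000000) := T_29 (nat_lit 226) (nat_lit 225) (nat_lit 1) (nat_lit 8) (nat_lit 12) L89808 (by decide +kernel)
theorem L89810 : W_29 (nat_lit 2) (nat_lit 0x38003e0004000200000001000080000000000000000000000000000000) (nat_lit 0x0) (nat_lit 0x38000000000000000000000000000000000000000000000000) := D_29 (nat_lit 196) (nat_lit 195) (nat_lit 197) (nat_lit 2) (nat_lit 5) (nat_lit 12) (nat_lit 2) (nat_lit 6) (nat_lit 12) (by decide +kernel)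
theorem L89811 : W_29 (nat_lit 3) (nat_lit 0x38001e0004000200000001000080000000000000000000000000000000) (nat_lit 0x0) (nat_lit 0x600038000000000000000000000000000000000000000000000000) := T_29 (nat_lit 213) (nat_lit 214) (nat_lit 1) (nat_lit 10) (nat_lit 12) L89810 (by decide +kernel)
theorem L89812 : W_29 (nat_lit 4) (nat_lit 0x30001e0004000200000001000080000000000000000000000000000000) (nat_lit 0x0) (nat_lit 0x10000800600038000000000000000000000000000000000000000000000000) := T_29 (nat_lit 227) (nat_lit 244) (nat_lit 5) (nat_lit 7) (nat_lit 10) L89811 (by decide +kernel)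
theorem L89813 : W_29 (nat_lit 5) (nat_lit 0x10001e0004000200000001000080000000000000000000000000000000) (nat_lit 0x0) (nat_lit 0x10006800600038000000000000000000000000000000000000000000000000) := T_29 (nat_lit 229) (nat_lit 230) (nat_lit 3) (nat_lit 5) (nat_lit 12) L89812 (by decide +kernel)
theorem L89814 : W_29 (nat_lit 9) (nat_lit 0x10000e0004000200000001000080000000000000000000000000000000) (nat_lit 0x0) (nat_lit 0x1c00ee00f0003a0001c0008000000000000000000000000000000000000000) := Q_29 (nat_lit 212) (C_29 L79316 (C_29 L89802 (C_29 L89809 (C_29 L89813 N_29)))) (by decide +kernel)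
theorem L89815 : W_29 (nat_lit 10) (nat_lit 0x10000c0004000200000001000080000000000000000000000000000000) (nat_lit 0x0) (nat_lit 0x1c00ee00f3803a0001c0008000000000000000000000000000000000000000) := Q_29 (nat_lit 209) (C_29 L81863 (C_29 L79314 (C_29 L6704 (C_29 L89814 N_29)))) (by decide +kernel)
theorem L89816 : W_29 (nat_lit 5) (nat_lit 0x10000d000c000380000001000080000000000000000000000000000000) (nat_lit 0x0) (nat_lit 0x18000e00108002000000004000000000000000000000000000000000000000) := T_29 (nat_lit 227) (nat_lit 244) (nat_lit 5) (nat_lit 7) (nat_lit 10) L83921 (by decide +kernel)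
theorem L89817 : W_29 (nat_lit 6) (nat_lit 0x10000d000c000300000001000080000000000000000000000000000000) (nat_lit 0x0) (nat_lit 0x18000e001080020000c0004000000000000000000000000000000000000000) := T_29 (nat_lit 175) (nat_lit 174) (nat_lit 3) (nat_lit 4) (nat_lit 10) L89816 (by decide +kernel)
theorem L89818 : W_29 (nat_lit 7) (nat_lit 0x10000d000c000200000001000080000000000000000000000000000000) (nat_lit 0x0) (nat_lit 0x18000e001080020001c000c000000000000000000000000000000000000000) := T_29 (nat_lit 176) (nat_lit 159) (nat_lit 4) (nat_lit 7) (nat_lit 13) L89817 (by decide +kernel)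
theorem L89819 : W_29 (nat_lit 8) (nat_lit 0x10000c000c000200000001000080000000000000000000000000000000) (nat_lit 0x0) (nat_lit 0x18000e001380020001c000c000000000000000000000000000000000000000) := T_29 (nat_lit 208) (nat_lit 209) (nat_lit 2) (nat_lit 4) (nat_lit 12) L89818 (by decide +kernel)
theorem L89820 : W_29 (nat_lit 9) (nat_lit 0x10000c0004000200000001000080000000000000000000000000000000) (nat_lit 0x0) (nat_lit 0x18000e0013803a0005c000c000000000000000000000000000000000000000) := Q_29 (nat_lit 195) (C_29 L81882 (C_29 L89819 (C_29 L81890 (C_29 L81886 N_29)))) (by decide +kernel)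
theorem L89821 : W_29 (nat_lit 11) (nat_lit 0x1000080004000200000001000080000000000000000000000000000000) (nat_lit 0x0) (nat_lit 0x1de00ef00f7803a0005c000c000000000000000000000000000000000000000) := Q_29 (nat_lit 210) (C_29 L81860 (C_29 L6022 (C_29 L79309 (C_29 L6039 (C_29 L89815 (C_29 L89820 N_29)))))) (by decide +kernel)
theorem L89822 : W_29 (nat_lit 14) (nat_lit 0x80004000200000001000080000000000000000000000000000000) (nat_lit 0x0) (nat_lit 0x18003e001fe00ff00f7807a0005c000c000000000000000000000000000000000000000) := Q_29 (nat_lit 228) (C_29 L81929 (C_29 L6805 (C_29 L6067 (C_29 L80582 (C_29 L89821 N_29))))) (by decide +kernel)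
theorem L89843 : W_29 (nat_lit 2) (nat_lit 0x1c0006000200010001000080000000000000000000000000000000) (nat_lit 0x0) (nat_lit 0x200001800000000000000000000000000000000000000000000000) := D_29 (nat_lit 192) (nat_lit 191) (nat_lit 213) (nat_lit 3) (nat_lit 4) (nat_lit 11) (nat_lit 0) (nat_lit 9) (nat_lit 12) (by decide +kernel)
theorem L89844 : W_29 (nat_lit 3) (nat_lit 0xc0006000200010001000080000000000000000000000000000000) (nat_lit 0x0) (nat_lit 0x2000300001800000000000000000000000000000000000000000000000) := T_29 (nat_lit 212) (nat_lit 229) (nat_lit 7) (nat_lit 7) (nat_lit 9) L89843 (by decide +kernel)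
theorem L89845 : W_29 (nat_lit 4) (nat_lit 0xc0006000200000001000080000000000000000000000000000000) (nat_lit 0x0) (nat_lit 0x2000300001800000010000800000000000000000000000000000000000) := T_29 (nat_lit 160) (nat_lit 143) (nat_lit 6) (nat_lit 7) (nat_lit 11) L89844 (by decide +kernel)
theorem L89877 : W_29 (nat_lit 2) (nat_lit 0x2f000700030001d001000080000000000000000000000000000000) (nat_lit 0x0) (nat_lit 0x300000000000080000000000000000000000000000000000000000000) := D_29 (nat_lit 225) (nat_lit 175) (nat_lit 224) (nat_lit 5) (nat_lit 5) (nat_lit 9) (nat_lit 1) (nat_lit 7) (nat_lit 12) (by decide +kernel)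
theorem L89878 : W_29 (nat_lit 3) (nat_lit 0x2e000700030001d001000080000000000000000000000000000000) (nat_lit 0x0) (nat_lit 0x300018000000080000000000000000000000000000000000000000000) := T_29 (nat_lit 208) (nat_lit 207) (nat_lit 2) (nat_lit 3) (nat_lit 12) L89877 (by decide +kernel)
theorem L89917 : W_29 (nat_lit 2) (nat_lit 0x6000f000600010001000080000000000000000000000000000000) (nat_lit 0x0) (nat_lit 0x10000800080000000000000000000000000000000000000000000000000000) := D_29 (nat_lit 227) (nat_lit 244) (nat_lit 211) (nat_lit 6) (nat_lit 6) (nat_lit 14) (nat_lit 5) (nat_lit 7) (nat_lit 9) (by decide +kernel)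
theorem L89918 : W_29 (nat_lit 3) (nat_lit 0x6000f000600000001000080000000000000000000000000000000) (nat_lit 0x0) (nat_lit 0x10000800080000000000010000800000000000000000000000000000000000) := T_29 (nat_lit 160) (nat_lit 143) (nat_lit 6) (nat_lit 7) (nat_lit 11) L89917 (by decide +kernel)
theorem L89919 : W_29 (nat_lit 4) (nat_lit 0x6000f000200000001000080000000000000000000000000000000) (nat_lit 0x0) (nat_lit 0x10000800080000000c00010000800000000000000000000000000000000000) := T_29 (nat_lit 178) (nat_lit 179) (nat_lit 2) (nat_lit 5) (nat_lit 11) L89918 (by decide +kernel)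
theorem L89920 : W_29 (nat_lit 5) (nat_lit 0x4000f000200000001000080000000000000000000000000000000) (nat_lit 0x0) (nat_lit 0x100008000b0000000c00010000800000000000000000000000000000000000) := T_29 (nat_lit 209) (nat_lit 208) (nat_lit 1) (nat_lit 8) (nat_lit 11) L89919 (by decide +kernel)
theorem L89921 : W_29 (nat_lit 7) (nat_lit 0xf000200000001000080000000000000000000000000000000) (nat_lit 0x0) (nat_lit 0x100008000f0000000dc001e000a00000000000000000000000000000000000) := Q_29 (nat_lit 210) (C_29 L89567 (C_29 L80195 (C_29 L89920 N_29))) (by decide +kernel)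
theorem L89922 : W_29 (nat_lit 11) (nat_lit 0x7000200000001000080000000000000000000000000000000) (nat_lit 0x0) (nat_lit 0xf8007c003f0008000dc001e000a00000000000000000000000000000000000) := Q_29 (nat_lit 195) (C_29 L85419 (C_29 L24837 (C_29 L89921 N_29))) (by decide +kernel)
theorem L89923 : W_29 (nat_lit 12) (nat_lit 0x6000200000001000080000000000000000000000000000000) (nat_lit 0x0) (nat_lit 0xf8007c003fc009c01df001e000a00000000000000000000000000000000000) := Q_29 (nat_lit 192) (C_29 L89348 (C_29 L85298 (C_29 L86991 (C_29 L89922 N_29)))) (by decide +kernel)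
theorem L89926 : W_29 (nat_lit 3) (nat_lit 0x18000c0004000200000001000080000000000000000000000000000000) (nat_lit 0x0) (nat_lit 0x40006000030000000000000000000000000000000000000000000000000000) := T_29 (nat_lit 229) (nat_lit 246) (nat_lit 7) (nat_lit 7) (nat_lit 10) L10570 (by decide +kernel)
theorem L89927 : W_29 (nat_lit 4) (nat_lit 0x10000c0004000200000001000080000000000000000000000000000000) (nat_lit 0x0) (nat_lit 0x50006800030000000000000000000000000000000000000000000000000000) := T_29 (nat_lit 227) (nat_lit 244) (nat_lit 5) (nat_lit 7) (nat_lit 10) L89926 (by decide +kernel)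
theorem L89928 : W_29 (nat_lit 2) (nat_lit 0x90000c0004000200000001000080000000000000000000000000000000) (nat_lit 0x0) (nat_lit 0x40006000000000000000000000000000000000000000000000000000000000) := D_29 (nat_lit 229) (nat_lit 230) (nat_lit 246) (nat_lit 0) (nat_lit 10) (nat_lit 13) (nat_lit 7) (nat_lit 7) (nat_lit 10) (by decide +kernel)
theorem L89929 : W_29 (nat_lit 2) (nat_lit 0x9c000c0004000200000001000080000000000000000000000000000000) (nat_lit 0x0) (nat_lit 0x300100000000000000000000000000000000000000000000000000000) := D_29 (nat_lit 225) (nat_lit 224) (nat_lit 212) (nat_lit 2) (nat_lit 3) (nat_lit 13) (nat_lit 2) (nat_lit 4) (nat_lit 13) (by decide +kernel)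
theorem L89930 : W_29 (nat_lit 2) (nat_lit 0xdd000c0006000380000001000080000000000000000000000000000000) (nat_lit 0x0) (nat_lit 0x8000060000000000000000000000000000000000000000000) := D_29 (nat_lit 174) (nat_lit 195) (nat_lit 173) (nat_lit 3) (nat_lit 4) (nat_lit 10) (nat_lit 3) (nat_lit 3) (nat_lit 10) (by decide +kernel)
theorem L89931 : W_29 (nat_lit 3) (nat_lit 0xdd000c0006000300000001000080000000000000000000000000000000) (nat_lit 0x0) (nat_lit 0x80000e0004000000000000000000000000000000000000000) := T_29 (nat_lit 175) (nat_lit 158) (nat_lit 4) (nat_lit 6) (nat_lit 13) L89930 (by decide +kernel)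
theorem L89932 : W_29 (nat_lit 4) (nat_lit 0xdd000c0004000300000001000080000000000000000000000000000000) (nat_lit 0x0) (nat_lit 0x800000000000a0000e0004000000000000000000000000000000000000000) := T_29 (nat_lit 193) (nat_lit 243) (nat_lit 5) (nat_lit 6) (nat_lit 10) L89931 (by decide +kernel)
theorem L89933 : W_29 (nat_lit 5) (nat_lit 0xdd000c0004000200000001000080000000000000000000000000000000) (nat_lit 0x0) (nat_lit 0x800000000000a0001e000c000000000000000000000000000000000000000) := T_29 (nat_lit 176) (nat_lit 159) (nat_lit 4) (nat_lit 7) (nat_lit 13) L89932 (by decide +kernel)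
theorem L89934 : W_29 (nat_lit 6) (nat_lit 0xdc000c0004000200000001000080000000000000000000000000000000) (nat_lit 0x0) (nat_lit 0x800030000000a0001e000c000000000000000000000000000000000000000) := T_29 (nat_lit 224) (nat_lit 225) (nat_lit 2) (nat_lit 3) (nat_lit 13) L89933 (by decide +kernel)
theorem L89935 : W_29 (nat_lit 7) (nat_lit 0x9c000c0004000200000001000080000000000000000000000000000000) (nat_lit 0x0) (nat_lit 0x800630000000a0001e000c000000000000000000000000000000000000000) := T_29 (nat_lit 230) (nat_lit 229) (nat_lit 0) (nat_lit 10) (nat_lit 13) L89934 (by decide +kernel)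
theorem L89936 : W_29 (nat_lit 2) (nat_lit 0xdc000c0006000380000001000080000000000000000000000000000000) (nat_lit 0x0) (nat_lit 0x8000060000000000000000000000000000000000000000000) := D_29 (nat_lit 174) (nat_lit 195) (nat_lit 173) (nat_lit 3) (nat_lit 4) (nat_lit 10) (nat_lit 3) (nat_lit 3) (nat_lit 10) (by decide +kernel)
theorem L89937 : W_29 (nat_lit 3) (nat_lit 0xdc000c0006000300000001000080000000000000000000000000000000) (nat_lit 0x0) (nat_lit 0x80000e0004000000000000000000000000000000000000000) := T_29 (nat_lit 175) (nat_lit 158) (nat_lit 4) (nat_lit 6) (nat_lit 13) L89936 (by decide +kernel)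
theorem L89938 : W_29 (nat_lit 4) (nat_lit 0xdc000c0004000300000001000080000000000000000000000000000000) (nat_lit 0x0) (nat_lit 0x800000000000a0000e0004000000000000000000000000000000000000000) := T_29 (nat_lit 193) (nat_lit 243) (nat_lit 5) (nat_lit 6) (nat_lit 10) L89937 (by decide +kernel)
theorem L89939 : W_29 (nat_lit 5) (nat_lit 0x9c000c0004000300000001000080000000000000000000000000000000) (nat_lit 0x0) (nat_lit 0x800600000000a0000e0004000000000000000000000000000000000000000) := T_29 (nat_lit 230) (nat_lit 229) (nat_lit 0) (nat_lit 10) (nat_lit 13) L89938 (by decide +kernel)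
theorem L89940 : W_29 (nat_lit 6) (nat_lit 0x9c000c0004000200000001000080000000000000000000000000000000) (nat_lit 0x0) (nat_lit 0x800600000000a0001e000c000000000000000000000000000000000000000) := T_29 (nat_lit 176) (nat_lit 159) (nat_lit 4) (nat_lit 7) (nat_lit 13) L89939 (by decide +kernel)
theorem L89941 : W_29 (nat_lit 8) (nat_lit 0x98000c0004000200000001000080000000000000000000000000000000) (nat_lit 0x0) (nat_lit 0x800670010000a0001e000c000000000000000000000000000000000000000) := Q_29 (nat_lit 226) (C_29 L89929 (C_29 L89935 (C_29 L89940 N_29))) (by decide +kernel)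
theorem L89942 : W_29 (nat_lit 9) (nat_lit 0x90000c0004000200000001000080000000000000000000000000000000) (nat_lit 0x0) (nat_lit 0x18006f0010000a0001e000c000000000000000000000000000000000000000) := T_29 (nat_lit 227) (nat_lit 244) (nat_lit 5) (nat_lit 7) (nat_lit 10) L89941 (by decide +kernel)
theorem L89943 : W_29 (nat_lit 2) (nat_lit 0x9c000c00060003a0000001000080000000000000000000000000000000) (nat_lit 0x0) (nat_lit 0x300100000000000000000000000000000000000000000000000000000) := D_29 (nat_lit 225) (nat_lit 212) (nat_lit 224) (nat_lit 2) (nat_lit 4) (nat_lit 13) (nat_lit 2) (nat_lit 3) (nat_lit 13) (by decide +kernel)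
theorem L89944 : W_29 (nat_lit 3) (nat_lit 0x98000c00060003a0000001000080000000000000000000000000000000) (nat_lit 0x0) (nat_lit 0x8000700100000000000000000000000000000000000000000000000000000) := T_29 (nat_lit 226) (nat_lit 243) (nat_lit 5) (nat_lit 6) (nat_lit 10) L89943 (by decide +kernel)
theorem L89945 : W_29 (nat_lit 4) (nat_lit 0x98000c0006000380000001000080000000000000000000000000000000) (nat_lit 0x0) (nat_lit 0x8000700100000000060000000000000000000000000000000000000000000) := T_29 (nat_lit 173) (nat_lit 174) (nat_lit 3) (nat_lit 3) (nat_lit 10) L89944 (by decide +kernel)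
theorem L89946 : W_29 (nat_lit 2) (nat_lit 0x90000c00040003e0000001000080000000000000000000000000000000) (nat_lit 0x0) (nat_lit 0xe00000000000000000000000000000000000000000000000) := D_29 (nat_lit 190) (nat_lit 189) (nat_lit 191) (nat_lit 1) (nat_lit 6) (nat_lit 10) (nat_lit 1) (nat_lit 7) (nat_lit 10) (by decide +kernel)
theorem L89947 : W_29 (nat_lit 3) (nat_lit 0x90000c00040003c0000001000080000000000000000000000000000000) (nat_lit 0x0) (nat_lit 0x2e00020000000000000000000000000000000000000000000) := T_29 (nat_lit 173) (nat_lit 193) (nat_lit 3) (nat_lit 3) (nat_lit 10) L89946 (by decide +kernel)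
theorem L89948 : W_29 (nat_lit 4) (nat_lit 0x90000c0004000380000001000080000000000000000000000000000000) (nat_lit 0x0) (nat_lit 0xae00060000000000000000000000000000000000000000000) := T_29 (nat_lit 174) (nat_lit 195) (nat_lit 3) (nat_lit 4) (nat_lit 10) L89947 (by decide +kernel)
theorem L89949 : W_29 (nat_lit 2) (nat_lit 0x90000c00048003c0002001000080000000000000000000000000000000) (nat_lit 0x0) (nat_lit 0x1000400004000000000000000000000000000000000000000) := D_29 (nat_lit 178) (nat_lit 192) (nat_lit 158) (nat_lit 1) (nat_lit 8) (nat_lit 10) (nat_lit 0) (nat_lit 8) (nat_lit 10) (by decide +kernel)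
theorem L89950 : W_29 (nat_lit 3) (nat_lit 0x90000c00048003c0000001000080000000000000000000000000000000) (nat_lit 0x0) (nat_lit 0x1000400007000000000000000000000000000000000000000) := T_29 (nat_lit 157) (nat_lit 156) (nat_lit 0) (nat_lit 7) (nat_lit 10) L89949 (by decide +kernel)
theorem L89951 : W_29 (nat_lit 4) (nat_lit 0x90000c00040003c0000001000080000000000000000000000000000000) (nat_lit 0x0) (nat_lit 0x1c00400007000000000000000000000000000000000000000) := T_29 (nat_lit 191) (nat_lit 190) (nat_lit 1) (nat_lit 7) (nat_lit 10) L89950 (by decide +kernel)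
end Crest.Agent.Helper32.Snaky.R1_0
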