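import Crest.Agent.Helper32.Snaky.Gen.R1_0_p2
set_option autoImplicit false
set_option maxRecDepth 100000
set_option linter.all false
set_option Elab.async false
namespace Crest.Agent.Helper32.Snaky.R1_0
@[reducible] def W_3 (d M Bz Z : Nat) : Prop := Crest.Agent.Helper32.Snaky.Wins (nat_lit 17) d M Bz Z
theorem D_3 {d M Bz Z : Nat} (m t1 t2 o1 x1 y1 o2 x2 y2 : Nat) (h : Crest.Agent.Helper32.Snaky.chkDoubleC (nat_lit 17) d M Bz Z m t1 t2 o1 x1 y1 o2 x2 y2 = true) : W_3 d M Bz Z := Crest.Agent.Helper32.Snaky.doubleC m t1 t2 o1 x1 y1 o2 x2 y2 h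
theorem T_3 {d M Bz Z cd cM cBz cZ : Nat} (m t o x y : Nat) (child : W_3 cd cM cBz cZ) (h : Crest.Agent.Helper32.Snaky.chkThreatC (nat_lit 17) d M Bz Z cd cM cBz cZ m t o x y = true) : W_3 d M Bz Z := Crest.Agent.Helper32.Snaky.threatC m t o x y child h
theorem Q_3 {d M Bz Z : Nat} (m : Nat) {l : List Crest.Agent.Helper32.Snaky.Spec} (kids : Crest.Agent.Helper32.Snaky.AllWins (nat_lit 17) l) (h : Crest.Agent.Helper32.Snaky.chkQuiet d M Bz Z m l = true) : W_3 d M Bz Z := Crest.Agent.Helper32.Snaky.quiet m kids h
theorem C_3 {cd cM cBz cZ : Nat} {l : List Crest.Agent.Helper32.Snaky.Spec} (h : W_3 cd cM cBz cZ) (hl : Crest.Agent.Helper32.Snaky.AllWins (nat_lit 17) l) : Crest.Agent.Helper32.Snaky.AllWins (nat_lit 17) ((cd, cM, cBz, cZ) :: l) := Crest.Agent.Helper32.Snaky.AllWins.cons h hl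
theorem N_3 : Crest.Agent.Helper32.Snaky.AllWins (nat_lit 17) [] := Crest.Agent.Helper32.Snaky.AllWins.nil
theorem L31821 : W_3 (nat_lit 4) (nat_lit 0x4000200000001a00080000000000000000000000000000000) (nat_lit 0x0) (nat_lit 0x7000500140000000000000000000000000000000) := T_3 (nat_lit 142) (nat_lit 128) (nat_lit 2) (nat_lit 5) (nat_lit 8) L31820 (by decide +kernel)
theorem L31822 : W_3 (nat_lit 5) (nat_lit 0x200000001a00080000000000000000000000000000000) (nat_lit 0x0) (nat_lit 0x4000000017000500140000000000000000000000000000000) := T_3 (nat_lit 194) (nat_lit 160) (nat_lit 6) (nat_lit 7) (nat_lit 11) L31821 (by decide +kernel)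
theorem L31826 : W_3 (nat_lit 2) (nat_lit 0x200024001e00080000000000000000000000000000000) (nat_lit 0x0) (nat_lit 0x4000000010000100000000000000000000000000000000000) := D_3 (nat_lit 160) (nat_lit 140) (nat_lit 194) (nat_lit 3) (nat_lit 4) (nat_lit 8) (nat_lit 6) (nat_lit 7) (nat_lit 11) (by decide +kernel)
theorem L31827 : W_3 (nat_lit 3) (nat_lit 0x200004001e00080000000000000000000000000000000) (nat_lit 0x0) (nat_lit 0x4000000070000100000000000000000000000000000000000) := T_3 (nat_lit 161) (nat_lit 162) (nat_lit 3) (nat_lit 5) (nat_lit 8) L31826 (by decide +kernel)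
theorem L31828 : W_3 (nat_lit 4) (nat_lit 0x200000001e00080000000000000000000000000000000) (nat_lit 0x0) (nat_lit 0x4000000076000100000000000000000000000000000000000) := T_3 (nat_lit 158) (nat_lit 157) (nat_lit 1) (nat_lit 8) (nat_lit 8) L31827 (by decide +kernel)
theorem L31829 : W_3 (nat_lit 5) (nat_lit 0x200000001a00080000000000000000000000000000000) (nat_lit 0x0) (nat_lit 0x4000000076000500100000000000000000000000000000000) := T_3 (nat_lit 142) (nat_lit 128) (nat_lit 2) (nat_lit 5) (nat_lit 8) L31828 (by decide +kernel)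
theorem L31830 : W_3 (nat_lit 2) (nat_lit 0x200000001f00080000000000000000000000000000000) (nat_lit 0x0) (nat_lit 0x1c000000000000000000000000000000) := D_3 (nat_lit 123) (nat_lit 122) (nat_lit 124) (nat_lit 0) (nat_lit 7) (nat_lit 8) (nat_lit 0) (nat_lit 8) (nat_lit 8) (by decide +kernel)
theorem L31831 : W_3 (nat_lit 3) (nat_lit 0x200000001e00080000000000000000000000000000000) (nat_lit 0x0) (nat_lit 0x10005c000000000000000000000000000000) := T_3 (nat_lit 140) (nat_lit 126) (nat_lit 2) (nat_lit 4) (nat_lit 8) L31830 (by decide +kernel)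
theorem L31832 : W_3 (nat_lit 4) (nat_lit 0x200000001a00080000000000000000000000000000000) (nat_lit 0x0) (nat_lit 0x50015c000000000000000000000000000000) := T_3 (nat_lit 142) (nat_lit 128) (nat_lit 2) (nat_lit 5) (nat_lit 8) L31831 (by decide +kernel)
theorem L31833 : W_3 (nat_lit 2) (nat_lit 0x200000001a00090000000000000000000000000000000) (nat_lit 0x0) (nat_lit 0x400108000000000000000000000000000000) := D_3 (nat_lit 142) (nat_lit 128) (nat_lit 123) (nat_lit 2) (nat_lit 5) (nat_lit 8) (nat_lit 0) (nat_lit 8) (nat_lit 8) (by decide +kernel)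
theorem L31834 : W_3 (nat_lit 2) (nat_lit 0x4000200000001a003f0000800000000000000000000000000) (nat_lit 0x0) (nat_lit 0x38000000000000000000000000000) := D_3 (nat_lit 112) (nat_lit 111) (nat_lit 113) (nat_lit 2) (nat_lit 6) (nat_lit 7) (nat_lit 2) (nat_lit 7) (nat_lit 7) (by decide +kernel)
theorem L31835 : W_3 (nat_lit 3) (nat_lit 0x4000200000001a001f0000800000000000000000000000000) (nat_lit 0x0) (nat_lit 0x600038000000000000000000000000000) := T_3 (nat_lit 129) (nat_lit 130) (nat_lit 1) (nat_lit 11) (nat_lit 7) L31834 (by decide +kernel)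
theorem L31836 : W_3 (nat_lit 4) (nat_lit 0x4000200000001a000f0000800000000000000000000000000) (nat_lit 0x0) (nat_lit 0x700039000000000000000000000000000) := T_3 (nat_lit 128) (nat_lit 108) (nat_lit 0) (nat_lit 9) (nat_lit 7) L31835 (by decide +kernel)
theorem L31837 : W_3 (nat_lit 5) (nat_lit 0x4000200000001a000f0000000000000000000000000000000) (nat_lit 0x0) (nat_lit 0x700039c00000000000000000000000000) := T_3 (nat_lit 107) (nat_lit 106) (nat_lit 0) (nat_lit 8) (nat_lit 7) L31836 (by decide +kernel)
theorem L31838 : W_3 (nat_lit 6) (nat_lit 0x4000200000001a000d0000000000000000000000000000000) (nat_lit 0x0) (nat_lit 0x728039c00000000000000000000000000) := T_3 (nat_lit 125) (nat_lit 123) (nat_lit 3) (nat_lit 4) (nat_lit 7) L31837 (by decide +kernel)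
theorem L31839 : W_3 (nat_lit 7) (nat_lit 0x200000001a000d0000000000000000000000000000000) (nat_lit 0x0) (nat_lit 0x4000000010000000728039c00000000000000000000000000) := T_3 (nat_lit 194) (nat_lit 160) (nat_lit 6) (nat_lit 7) (nat_lit 11) L31838 (by decide +kernel)
theorem L31844 : W_3 (nat_lit 2) (nat_lit 0x200000001a003f0000800000000000000000000000000) (nat_lit 0x0) (nat_lit 0x38000000000000000000000000000) := D_3 (nat_lit 112) (nat_lit 111) (nat_lit 113) (nat_lit 2) (nat_lit 6) (nat_lit 7) (nat_lit 2) (nat_lit 7) (nat_lit 7) (by decide +kernel)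
theorem L31845 : W_3 (nat_lit 3) (nat_lit 0x200000001a001f0000800000000000000000000000000) (nat_lit 0x0) (nat_lit 0x600038000000000000000000000000000) := T_3 (nat_lit 129) (nat_lit 130) (nat_lit 1) (nat_lit 11) (nat_lit 7) L31844 (by decide +kernel)
theorem L31846 : W_3 (nat_lit 4) (nat_lit 0x200000001a000f0000800000000000000000000000000) (nat_lit 0x0) (nat_lit 0x700039000000000000000000000000000) := T_3 (nat_lit 128) (nat_lit 108) (nat_lit 0) (nat_lit 9) (nat_lit 7) L31845 (by decide +kernel)
theorem L31847 : W_3 (nat_lit 5) (nat_lit 0x200000001a000f0000000000000000000000000000000) (nat_lit 0x0) (nat_lit 0x700039c00000000000000000000000000) := T_3 (nat_lit 107) (nat_lit 106) (nat_lit 0) (nat_lit 8) (nat_lit 7) L31846 (by decide +kernel)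
theorem L31848 : W_3 (nat_lit 6) (nat_lit 0x200000001a000d0000000000000000000000000000000) (nat_lit 0x0) (nat_lit 0x728039c00000000000000000000000000) := T_3 (nat_lit 125) (nat_lit 123) (nat_lit 3) (nat_lit 4) (nat_lit 7) L31847 (by decide +kernel)
theorem L31860 : W_3 (nat_lit 2) (nat_lit 0x300010001a000f0000800000000000000000000000000) (nat_lit 0x0) (nat_lit 0xc000000000002000000000000000000000000000) := D_3 (nat_lit 159) (nat_lit 109) (nat_lit 158) (nat_lit 5) (nat_lit 7) (nat_lit 6) (nat_lit 7) (nat_lit 5) (nat_lit 6) (by decide +kernel)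
theorem L31861 : W_3 (nat_lit 3) (nat_lit 0x200010001a000f0000800000000000000000000000000) (nat_lit 0x0) (nat_lit 0x200010000c000000000002000000000000000000000000000) := T_3 (nat_lit 176) (nat_lit 193) (nat_lit 5) (nat_lit 7) (nat_lit 7) L31860 (by decide +kernel)
theorem L31862 : W_3 (nat_lit 4) (nat_lit 0x200010001a000f0000000000000000000000000000000) (nat_lit 0x0) (nat_lit 0x200010000c000000000002c00000000000000000000000000) := T_3 (nat_lit 107) (nat_lit 106) (nat_lit 0) (nat_lit 8) (nat_lit 7) L31861 (by decide +kernel)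
theorem L31865 : W_3 (nat_lit 2) (nat_lit 0x200004001e000b0000000000000000000000000000000) (nat_lit 0x0) (nat_lit 0x80000000000000001000080000000000000000000000) := D_3 (nat_lit 108) (nat_lit 91) (nat_lit 175) (nat_lit 5) (nat_lit 6) (nat_lit 5) (nat_lit 6) (nat_lit 5) (nat_lit 10) (by decide +kernel)
theorem L31866 : W_3 (nat_lit 3) (nat_lit 0x200000001e000b0000000000000000000000000000000) (nat_lit 0x0) (nat_lit 0x80006000000000001000080000000000000000000000) := T_3 (nat_lit 158) (nat_lit 157) (nat_lit 1) (nat_lit 8) (nat_lit 8) L31865 (by decide +kernel)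
theorem L31876 : W_3 (nat_lit 2) (nat_lit 0x200010001e000b0000000000000000000000000000000) (nat_lit 0x0) (nat_lit 0x40001000080000000000000000000000) := D_3 (nat_lit 108) (nat_lit 126) (nat_lit 91) (nat_lit 4) (nat_lit 7) (nat_lit 10) (nat_lit 7) (nat_lit 6) (nat_lit 5) (by decide +kernel)
theorem L31877 : W_3 (nat_lit 3) (nat_lit 0x200000001e000b0000000000000000000000000000000) (nat_lit 0x0) (nat_lit 0x4000000010000000040001000080000000000000000000000) := T_3 (nat_lit 160) (nat_lit 194) (nat_lit 6) (nat_lit 7) (nat_lit 11) L31876 (by decide +kernel)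
theorem L31878 : W_3 (nat_lit 4) (nat_lit 0x200000001a000b0000000000000000000000000000000) (nat_lit 0x0) (nat_lit 0x4000000010000400140001000080000000000000000000000) := T_3 (nat_lit 142) (nat_lit 128) (nat_lit 2) (nat_lit 5) (nat_lit 8) L31877 (by decide +kernel)
theorem L31882 : W_3 (nat_lit 2) (nat_lit 0x300010001a000c0002000000000000000000000000000) (nat_lit 0x0) (nat_lit 0x20000000000000000100008000000000000000000) := D_3 (nat_lit 92) (nat_lit 75) (nat_lit 161) (nat_lit 7) (nat_lit 7) (nat_lit 4) (nat_lit 7) (nat_lit 7) (nat_lit 5) (by decide +kernel)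
theorem L31883 : W_3 (nat_lit 3) (nat_lit 0x300010001a000c0000000000000000000000000000000) (nat_lit 0x0) (nat_lit 0x28000000000002000100008000000000000000000) := T_3 (nat_lit 109) (nat_lit 159) (nat_lit 5) (nat_lit 7) (nat_lit 6) L31882 (by decide +kernel)
theorem L31884 : W_3 (nat_lit 4) (nat_lit 0x200010001a000c0000000000000000000000000000000) (nat_lit 0x0) (nat_lit 0x2000100028000000000002000100008000000000000000000) := T_3 (nat_lit 176) (nat_lit 193) (nat_lit 5) (nat_lit 7) (nat_lit 7) L31883 (by decide +kernel)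
theorem L31885 : W_3 (nat_lit 5) (nat_lit 0x200010001a00080000000000000000000000000000000) (nat_lit 0x0) (nat_lit 0x2000100028000100078003000100008000000000000000000) := Q_3 (nat_lit 126) (C_3 L31808 (C_3 L31884 N_3)) (by decide +kernel)
theorem L31886 : W_3 (nat_lit 6) (nat_lit 0x200000001a00080000000000000000000000000000000) (nat_lit 0x0) (nat_lit 0x6000100038000100078003000100008000000000000000000) := T_3 (nat_lit 160) (nat_lit 194) (nat_lit 6) (nat_lit 7) (nat_lit 11) L31885 (by decide +kernel)
theorem L31887 : W_3 (nat_lit 2) (nat_lit 0x200000001a003c0002000000000000000000000000000) (nat_lit 0x0) (nat_lit 0x20000000000000000100008000000000000000000) := D_3 (nat_lit 92) (nat_lit 75) (nat_lit 161) (nat_lit 7) (nat_lit 7) (nat_lit 4) (nat_lit 7) (nat_lit 7) (nat_lit 5) (by decide +kernel)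
theorem L31888 : W_3 (nat_lit 3) (nat_lit 0x200000001a003c0000000000000000000000000000000) (nat_lit 0x0) (nat_lit 0x20000000000003000100008000000000000000000) := T_3 (nat_lit 109) (nat_lit 108) (nat_lit 0) (nat_lit 10) (nat_lit 7) L31887 (by decide +kernel)
theorem L31889 : W_3 (nat_lit 4) (nat_lit 0x200000001a001c0000000000000000000000000000000) (nat_lit 0x0) (nat_lit 0x20000000600003000100008000000000000000000) := T_3 (nat_lit 129) (nat_lit 130) (nat_lit 1) (nat_lit 11) (nat_lit 7) L31888 (by decide +kernel)
theorem L31890 : W_3 (nat_lit 5) (nat_lit 0x200000001a000c0000000000000000000000000000000) (nat_lit 0x0) (nat_lit 0x20000400700003000100008000000000000000000) := T_3 (nat_lit 128) (nat_lit 142) (nat_lit 2) (nat_lit 5) (nat_lit 8) L31889 (by decide +kernel)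
theorem L31891 : W_3 (nat_lit 5) (nat_lit 0x200000001a000c0000000000000000000000000000000) (nat_lit 0x0) (nat_lit 0x6000100038000000000002000100008000000000000000000) := T_3 (nat_lit 160) (nat_lit 194) (nat_lit 6) (nat_lit 7) (nat_lit 11) L31884 (by decide +kernel)
theorem L31892 : W_3 (nat_lit 2) (nat_lit 0x4000200000005a003c0018000000000000000000000000000) (nat_lit 0x0) (nat_lit 0x80000000000000000400020000000000000000000) := D_3 (nat_lit 94) (nat_lit 77) (nat_lit 163) (nat_lit 7) (nat_lit 9) (nat_lit 4) (nat_lit 4) (nat_lit 10) (nat_lit 9) (by decide +kernel)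
theorem L31893 : W_3 (nat_lit 3) (nat_lit 0x4000200000001a003c0018000000000000000000000000000) (nat_lit 0x0) (nat_lit 0x8000c000000000000400020000000000000000000) := T_3 (nat_lit 146) (nat_lit 147) (nat_lit 3) (nat_lit 7) (nat_lit 7) L31892 (by decide +kernel)
theorem L31894 : W_3 (nat_lit 4) (nat_lit 0x4000200000001a003c0010000000000000000000000000000) (nat_lit 0x0) (nat_lit 0x8000c000020008000400020000000000000000000) := T_3 (nat_lit 111) (nat_lit 125) (nat_lit 2) (nat_lit 6) (nat_lit 7) L31893 (by decide +kernel)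
theorem L31895 : W_3 (nat_lit 5) (nat_lit 0x4000200000001a003c0000000000000000000000000000000) (nat_lit 0x0) (nat_lit 0x8000c000020038000400020000000000000000000) := T_3 (nat_lit 112) (nat_lit 113) (nat_lit 2) (nat_lit 7) (nat_lit 7) L31894 (by decide +kernel)
theorem L31896 : W_3 (nat_lit 6) (nat_lit 0x4000200000001a001c0000000000000000000000000000000) (nat_lit 0x0) (nat_lit 0x8000c000620038000400020000000000000000000) := T_3 (nat_lit 129) (nat_lit 130) (nat_lit 1) (nat_lit 11) (nat_lit 7) L31895 (by decide +kernel)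
theorem L31897 : W_3 (nat_lit 7) (nat_lit 0x4000200000001a000c0000000000000000000000000000000) (nat_lit 0x0) (nat_lit 0x8000c400720038000400020000000000000000000) := T_3 (nat_lit 128) (nat_lit 142) (nat_lit 2) (nat_lit 5) (nat_lit 8) L31896 (by decide +kernel)
theorem L31898 : W_3 (nat_lit 8) (nat_lit 0x200000001a000c0000000000000000000000000000000) (nat_lit 0x0) (nat_lit 0x400000009000c400720038000400020000000000000000000) := T_3 (nat_lit 194) (nat_lit 160) (nat_lit 6) (nat_lit 7) (nat_lit 11) L31897 (by decide +kernel)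
theorem L31901 : W_3 (nat_lit 2) (nat_lit 0x2000070013400b8000e00000000000000000000000000) (nat_lit 0x0) (nat_lit 0x800420000000000000000000000000000000000) := D_3 (nat_lit 155) (nat_lit 142) (nat_lit 137) (nat_lit 2) (nat_lit 2) (nat_lit 9) (nat_lit 0) (nat_lit 5) (nat_lit 9) (by decide +kernel)
theorem L31902 : W_3 (nat_lit 3) (nat_lit 0x2000060013400b8000e00000000000000000000000000) (nat_lit 0x0) (nat_lit 0x20001800420000000000000000000000000000000000) := T_3 (nat_lit 156) (nat_lit 173) (nat_lit 5) (nat_lit 4) (nat_lit 6) L31901 (by decide +kernel)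
theorem L31903 : W_3 (nat_lit 4) (nat_lit 0x2000060013400b0000e00000000000000000000000000) (nat_lit 0x0) (nat_lit 0x20001800420008000000010000000000000000000000) := T_3 (nat_lit 123) (nat_lit 88) (nat_lit 4) (nat_lit 4) (nat_lit 9) L31902 (by decide +kernel)
theorem L31909 : W_3 (nat_lit 2) (nat_lit 0x20000e001300090000c00000000000000000000000000) (nat_lit 0x0) (nat_lit 0x100000c0000000000000000000000000000000000) := D_3 (nat_lit 139) (nat_lit 138) (nat_lit 160) (nat_lit 3) (nat_lit 2) (nat_lit 8) (nat_lit 0) (nat_lit 7) (nat_lit 9) (by decide +kernel)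
theorem L31910 : W_3 (nat_lit 3) (nat_lit 0x200006001300090000c00000000000000000000000000) (nat_lit 0x0) (nat_lit 0x1000180000c0000000000000000000000000000000000) := T_3 (nat_lit 159) (nat_lit 176) (nat_lit 7) (nat_lit 5) (nat_lit 6) L31909 (by decide +kernel)
theorem L31913 : W_3 (nat_lit 2) (nat_lit 0x20000c001380090000800000000000000000000000000) (nat_lit 0x0) (nat_lit 0x30000400000000000000000000000000000000000) := D_3 (nat_lit 160) (nat_lit 161) (nat_lit 142) (nat_lit 0) (nat_lit 8) (nat_lit 9) (nat_lit 3) (nat_lit 3) (nat_lit 8) (by decide +kernel)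
theorem L31914 : W_3 (nat_lit 3) (nat_lit 0x20000c001300090000800000000000000000000000000) (nat_lit 0x0) (nat_lit 0x300004c0000000000000000000000000000000000) := T_3 (nat_lit 139) (nat_lit 138) (nat_lit 3) (nat_lit 2) (nat_lit 8) L31913 (by decide +kernel)
theorem L31915 : W_3 (nat_lit 4) (nat_lit 0x200004001300090000800000000000000000000000000) (nat_lit 0x0) (nat_lit 0x1000380004c0000000000000000000000000000000000) := T_3 (nat_lit 159) (nat_lit 176) (nat_lit 7) (nat_lit 5) (nat_lit 6) L31914 (by decide +kernel)
theorem L31916 : W_3 (nat_lit 2) (nat_lit 0x20002f0013000b8000e00000000000000000000000000) (nat_lit 0x0) (nat_lit 0xc00400000000000000000000000000000000000) := D_3 (nat_lit 155) (nat_lit 142) (nat_lit 154) (nat_lit 2) (nat_lit 2) (nat_lit 9) (nat_lit 2) (nat_lit 1) (nat_lit 9) (by decide +kernel)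
theorem L31917 : W_3 (nat_lit 3) (nat_lit 0x20002e0013000b8000e00000000000000000000000000) (nat_lit 0x0) (nat_lit 0x20001c00400000000000000000000000000000000000) := T_3 (nat_lit 156) (nat_lit 173) (nat_lit 5) (nat_lit 4) (nat_lit 6) L31916 (by decide +kernel)
theorem L31918 : W_3 (nat_lit 4) (nat_lit 0x20002e0013000b0000e00000000000000000000000000) (nat_lit 0x0) (nat_lit 0x20001c00400008000000010000000000000000000000) := T_3 (nat_lit 123) (nat_lit 88) (nat_lit 4) (nat_lit 4) (nat_lit 9) L31917 (by decide +kernel)
theorem L31919 : W_3 (nat_lit 5) (nat_lit 0x20000e0013000b0000e00000000000000000000000000) (nat_lit 0x0) (nat_lit 0x20031c00400008000000010000000000000000000000) := T_3 (nat_lit 161) (nat_lit 160) (nat_lit 0) (nat_lit 8) (nat_lit 9) L31918 (by decide +kernel)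
theorem L31920 : W_3 (nat_lit 6) (nat_lit 0x2000060013000b0000e00000000000000000000000000) (nat_lit 0x0) (nat_lit 0x120039c00400008000000010000000000000000000000) := T_3 (nat_lit 159) (nat_lit 176) (nat_lit 7) (nat_lit 5) (nat_lit 6) L31919 (by decide +kernel)
theorem L31921 : W_3 (nat_lit 7) (nat_lit 0x2000060013000b0000c00000000000000000000000000) (nat_lit 0x0) (nat_lit 0x120039c00400008000300010000000000000000000000) := T_3 (nat_lit 105) (nat_lit 104) (nat_lit 3) (nat_lit 2) (nat_lit 6) L31920 (by decide +kernel)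
theorem L31939 : W_3 (nat_lit 2) (nat_lit 0x2800040012000d0000c00000000000000000000000000) (nat_lit 0x0) (nat_lit 0x2000100008000000000000000000000000000000000000000) := D_3 (nat_lit 176) (nat_lit 159) (nat_lit 193) (nat_lit 7) (nat_lit 5) (nat_lit 6) (nat_lit 7) (nat_lit 5) (nat_lit 7) (by decide +kernel)
theorem L31940 : W_3 (nat_lit 3) (nat_lit 0x2000040012000d0000c00000000000000000000000000) (nat_lit 0x0) (nat_lit 0x2000180008000000008000000000000000000000000000000) := T_3 (nat_lit 175) (nat_lit 123) (nat_lit 4) (nat_lit 5) (nat_lit 10) L31939 (by decide +kernel)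
theorem L31941 : W_3 (nat_lit 4) (nat_lit 0x200004001200090000c00000000000000000000000000) (nat_lit 0x0) (nat_lit 0x2000180008000000068000000000000000000000000000000) := T_3 (nat_lit 126) (nat_lit 125) (nat_lit 0) (nat_lit 8) (nat_lit 7) L31940 (by decide +kernel)
theorem L31942 : W_3 (nat_lit 5) (nat_lit 0x200004001200090000800000000000000000000000000) (nat_lit 0x0) (nat_lit 0x2000180008000000068000400020000000000000000000000) := T_3 (nat_lit 106) (nat_lit 89) (nat_lit 4) (nat_lit 5) (nat_lit 9) L31941 (by decide +kernel)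
theorem L31956 : W_3 (nat_lit 2) (nat_lit 0x200000001600090000800060002000000000000000000) (nat_lit 0x0) (nat_lit 0x80004000200000000000000) := D_3 (nat_lit 74) (nat_lit 57) (nat_lit 91) (nat_lit 6) (nat_lit 5) (nat_lit 7) (nat_lit 6) (nat_lit 5) (nat_lit 8) (by decide +kernel)
theorem L31957 : W_3 (nat_lit 3) (nat_lit 0x200000001600090000800060000000000000000000000) (nat_lit 0x0) (nat_lit 0x20000000080006000200000000000000) := T_3 (nat_lit 73) (nat_lit 125) (nat_lit 7) (nat_lit 5) (nat_lit 4) L31956 (by decide +kernel)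
theorem L31958 : W_3 (nat_lit 4) (nat_lit 0x200000001200090000800060000000000000000000000) (nat_lit 0x0) (nat_lit 0x8000400020000000080006000200000000000000) := T_3 (nat_lit 142) (nat_lit 159) (nat_lit 7) (nat_lit 5) (nat_lit 5) L31957 (by decide +kernel)
theorem L31959 : W_3 (nat_lit 5) (nat_lit 0x200000001200090000800040000000000000000000000) (nat_lit 0x0) (nat_lit 0x80004000200000000a0007000200000000000000) := T_3 (nat_lit 89) (nat_lit 72) (nat_lit 4) (nat_lit 5) (nat_lit 8) L31958 (by decide +kernel)
theorem L31960 : W_3 (nat_lit 2) (nat_lit 0x200000001200090000c000e0000000000000000000000) (nat_lit 0x0) (nat_lit 0x300100000000000000000000000) := D_3 (nat_lit 105) (nat_lit 104) (nat_lit 92) (nat_lit 2) (nat_lit 2) (nat_lit 6) (nat_lit 1) (nat_lit 7) (nat_lit 5) (by decide +kernel)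
theorem L31961 : W_3 (nat_lit 3) (nat_lit 0x2000000012000900008000e0000000000000000000000) (nat_lit 0x0) (nat_lit 0x4000000000000700100000000000000000000000) := T_3 (nat_lit 106) (nat_lit 158) (nat_lit 4) (nat_lit 5) (nat_lit 9) L31960 (by decide +kernel)
theorem L31962 : W_3 (nat_lit 4) (nat_lit 0x200000001200090000800060000000000000000000000) (nat_lit 0x0) (nat_lit 0x4000000000000700180004000000000000000000) := T_3 (nat_lit 91) (nat_lit 74) (nat_lit 6) (nat_lit 5) (nat_lit 8) L31961 (by decide +kernel)
theorem L31963 : W_3 (nat_lit 5) (nat_lit 0x200000001200090000800040000000000000000000000) (nat_lit 0x0) (nat_lit 0x40000000000007001a0005000000000000000000) := T_3 (nat_lit 89) (nat_lit 72) (nat_lit 4) (nat_lit 5) (nat_lit 8) L31962 (by decide +kernel)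
theorem L31964 : W_3 (nat_lit 2) (nat_lit 0x200000001600090000800040002000000000000000000) (nat_lit 0x0) (nat_lit 0x80004000200000000000000) := D_3 (nat_lit 74) (nat_lit 57) (nat_lit 91) (nat_lit 6) (nat_lit 5) (nat_lit 7) (nat_lit 6) (nat_lit 5) (nat_lit 8) (by decide +kernel)
theorem L31965 : W_3 (nat_lit 3) (nat_lit 0x200000001600090000800040000000000000000000000) (nat_lit 0x0) (nat_lit 0x20000000080006000200000000000000) := T_3 (nat_lit 73) (nat_lit 125) (nat_lit 7) (nat_lit 5) (nat_lit 4) L31964 (by decide +kernel)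
theorem L31966 : W_3 (nat_lit 4) (nat_lit 0x200000001200090000800040000000000000000000000) (nat_lit 0x0) (nat_lit 0x8000400020000000080006000200000000000000) := T_3 (nat_lit 142) (nat_lit 159) (nat_lit 7) (nat_lit 5) (nat_lit 5) L31965 (by decide +kernel)
theorem L31967 : W_3 (nat_lit 2) (nat_lit 0x200000001600098000800060002000000000000000000) (nat_lit 0x0) (nat_lit 0x4000000000000400000000000100000000000000) := D_3 (nat_lit 106) (nat_lit 56) (nat_lit 158) (nat_lit 5) (nat_lit 5) (nat_lit 3) (nat_lit 4) (nat_lit 5) (nat_lit 9) (by decide +kernel)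
theorem L31968 : W_3 (nat_lit 3) (nat_lit 0x200000001600090000800060002000000000000000000) (nat_lit 0x0) (nat_lit 0x4000100008000400000000000100000000000000) := T_3 (nat_lit 123) (nat_lit 140) (nat_lit 5) (nat_lit 5) (nat_lit 4) L31967 (by decide +kernel)
theorem L31969 : W_3 (nat_lit 4) (nat_lit 0x200000001600090000800060000000000000000000000) (nat_lit 0x0) (nat_lit 0x4000100028000400000002000100000000000000) := T_3 (nat_lit 73) (nat_lit 125) (nat_lit 7) (nat_lit 5) (nat_lit 4) L31968 (by decide +kernel)
theorem L31970 : W_3 (nat_lit 5) (nat_lit 0x200000001200090000800060000000000000000000000) (nat_lit 0x0) (nat_lit 0xc000500028000400000002000100000000000000) := T_3 (nat_lit 142) (nat_lit 159) (nat_lit 7) (nat_lit 5) (nat_lit 5) L31969 (by decide +kernel)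
theorem L31971 : W_3 (nat_lit 6) (nat_lit 0x200000001200090000800040000000000000000000000) (nat_lit 0x0) (nat_lit 0xc000500028000400020003000100000000000000) := T_3 (nat_lit 89) (nat_lit 72) (nat_lit 4) (nat_lit 5) (nat_lit 8) L31970 (by decide +kernel)
theorem L31973 : W_3 (nat_lit 2) (nat_lit 0x2000000013800b8000c000e0000000000000000000000) (nat_lit 0x0) (nat_lit 0x200300000000000000000000000) := D_3 (nat_lit 92) (nat_lit 105) (nat_lit 93) (nat_lit 1) (nat_lit 7) (nat_lit 5) (nat_lit 1) (nat_lit 8) (nat_lit 5) (by decide +kernel)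
theorem L31974 : W_3 (nat_lit 3) (nat_lit 0x2000000013800b80008000e0000000000000000000000) (nat_lit 0x0) (nat_lit 0x1000000000000600300000000000000000000000) := T_3 (nat_lit 106) (nat_lit 156) (nat_lit 5) (nat_lit 4) (nat_lit 5) L31973 (by decide +kernel)
theorem L31981 : W_3 (nat_lit 2) (nat_lit 0x200000001300090000800040002000000000000000000) (nat_lit 0x0) (nat_lit 0x20001000080000000000000) := D_3 (nat_lit 72) (nat_lit 55) (nat_lit 89) (nat_lit 4) (nat_lit 5) (nat_lit 7) (nat_lit 4) (nat_lit 5) (nat_lit 8) (by decide +kernel)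
theorem L31982 : W_3 (nat_lit 3) (nat_lit 0x200000001300090000800040000000000000000000000) (nat_lit 0x0) (nat_lit 0x8000000020003000080000000000000) := T_3 (nat_lit 73) (nat_lit 123) (nat_lit 5) (nat_lit 5) (nat_lit 4) L31981 (by decide +kernel)
theorem L31983 : W_3 (nat_lit 4) (nat_lit 0x200000001200090000800040000000000000000000000) (nat_lit 0x0) (nat_lit 0x2000100008000000020003000080000000000000) := T_3 (nat_lit 140) (nat_lit 157) (nat_lit 5) (nat_lit 5) (nat_lit 5) L31982 (by decide +kernel)
theorem L31984 : W_3 (nat_lit 2) (nat_lit 0x200000001300090000800040002000000000000000000) (nat_lit 0x0) (nat_lit 0x80004000200000000000000) := D_3 (nat_lit 74) (nat_lit 91) (nat_lit 57) (nat_lit 6) (nat_lit 5) (nat_lit 8) (nat_lit 6) (nat_lit 5) (nat_lit 7) (by decide +kernel)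
theorem L31985 : W_3 (nat_lit 3) (nat_lit 0x200000001300090000800040000000000000000000000) (nat_lit 0x0) (nat_lit 0x8000000080006000200000000000000) := T_3 (nat_lit 73) (nat_lit 123) (nat_lit 5) (nat_lit 5) (nat_lit 4) L31984 (by decide +kernel)
theorem L31986 : W_3 (nat_lit 4) (nat_lit 0x200000001200090000800040000000000000000000000) (nat_lit 0x0) (nat_lit 0x2000100008000000080006000200000000000000) := T_3 (nat_lit 140) (nat_lit 157) (nat_lit 5) (nat_lit 5) (nat_lit 5) L31985 (by decide +kernel)
theorem L31992 : W_3 (nat_lit 6) (nat_lit 0x2000000013000b00008000e0000000000000000000000) (nat_lit 0x0) (nat_lit 0x98004c000e000600000000000000000000000000) := T_3 (nat_lit 139) (nat_lit 138) (nat_lit 2) (nat_lit 2) (nat_lit 8) L31991 (by decide +kernel)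
theorem L31993 : W_3 (nat_lit 7) (nat_lit 0x2000000013000b0000800060000000000000000000000) (nat_lit 0x0) (nat_lit 0x98004c000e000600080004000000000000000000) := T_3 (nat_lit 91) (nat_lit 74) (nat_lit 6) (nat_lit 5) (nat_lit 8) L31992 (by decide +kernel)
theorem L31994 : W_3 (nat_lit 8) (nat_lit 0x200000001300090000800060000000000000000000000) (nat_lit 0x0) (nat_lit 0x98004c006e000600080004000000000000000000) := T_3 (nat_lit 125) (nat_lit 126) (nat_lit 1) (nat_lit 8) (nat_lit 7) L31993 (by decide +kernel)
theorem L31995 : W_3 (nat_lit 9) (nat_lit 0x200000001200090000800060000000000000000000000) (nat_lit 0x0) (nat_lit 0xb8005c006e000600080004000000000000000000) := T_3 (nat_lit 140) (nat_lit 157) (nat_lit 5) (nat_lit 5) (nat_lit 5) L31994 (by decide +kernel)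
theorem L31996 : W_3 (nat_lit 10) (nat_lit 0x200000001200090000800040000000000000000000000) (nat_lit 0x0) (nat_lit 0xb8005c006e0006000a0005000000000000000000) := T_3 (nat_lit 89) (nat_lit 72) (nat_lit 4) (nat_lit 5) (nat_lit 8) L31995 (by decide +kernel)
theorem L31999 : W_3 (nat_lit 2) (nat_lit 0x200000001600090000c00060002000000000000000000) (nat_lit 0x0) (nat_lit 0x8000000000000000100008000000000) := D_3 (nat_lit 56) (nat_lit 39) (nat_lit 123) (nat_lit 5) (nat_lit 5) (nat_lit 2) (nat_lit 5) (nat_lit 5) (nat_lit 3) (by decide +kernel)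
theorem L32000 : W_3 (nat_lit 3) (nat_lit 0x200000001600090000800060002000000000000000000) (nat_lit 0x0) (nat_lit 0x4000000008000400000000000100008000000000) := T_3 (nat_lit 106) (nat_lit 158) (nat_lit 4) (nat_lit 5) (nat_lit 9) L31999 (by decide +kernel)
theorem L32001 : W_3 (nat_lit 4) (nat_lit 0x200000001600090000800060000000000000000000000) (nat_lit 0x0) (nat_lit 0x4000000028000400000002000100008000000000) := T_3 (nat_lit 73) (nat_lit 125) (nat_lit 7) (nat_lit 5) (nat_lit 4) L32000 (by decide +kernel)
theorem L32002 : W_3 (nat_lit 5) (nat_lit 0x200000001200090000800060000000000000000000000) (nat_lit 0x0) (nat_lit 0xc000400028000400000002000100008000000000) := T_3 (nat_lit 142) (nat_lit 159) (nat_lit 7) (nat_lit 5) (nat_lit 5) L32001 (by decide +kernel)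
theorem L32003 : W_3 (nat_lit 6) (nat_lit 0x200000001200090000800040000000000000000000000) (nat_lit 0x0) (nat_lit 0xc000400028000400020003000100008000000000) := T_3 (nat_lit 89) (nat_lit 72) (nat_lit 4) (nat_lit 5) (nat_lit 8) L32002 (by decide +kernel)
theorem L32035 : W_3 (nat_lit 2) (nat_lit 0x1000380004001200098000000000000000000000000000000) (nat_lit 0x0) (nat_lit 0x10000800040000000000000000000000000000000000000000000) := D_3 (nat_lit 191) (nat_lit 174) (nat_lit 208) (nat_lit 5) (nat_lit 5) (nat_lit 7) (nat_lit 5) (nat_lit 5) (nat_lit 8) (by decide +kernel)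
theorem L32036 : W_3 (nat_lit 3) (nat_lit 0x380004001200098000000000000000000000000000000) (nat_lit 0x0) (nat_lit 0x10001800040000000100000000000000000000000000000000000) := T_3 (nat_lit 192) (nat_lit 140) (nat_lit 4) (nat_lit 5) (nat_lit 11) L32035 (by decide +kernel)
theorem L32037 : W_3 (nat_lit 4) (nat_lit 0x280004001200098000000000000000000000000000000) (nat_lit 0x0) (nat_lit 0x10003800140000000100000000000000000000000000000000000) := T_3 (nat_lit 176) (nat_lit 193) (nat_lit 7) (nat_lit 5) (nat_lit 7) L32036 (by decide +kernel)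
theorem L32038 : W_3 (nat_lit 5) (nat_lit 0x280004001200090000000000000000000000000000000) (nat_lit 0x0) (nat_lit 0x10003800140000000100008000400000000000000000000000000) := T_3 (nat_lit 123) (nat_lit 106) (nat_lit 4) (nat_lit 5) (nat_lit 10) L32037 (by decide +kernel)
theorem L32039 : W_3 (nat_lit 2) (nat_lit 0x3c0004001200090000800000000000000000000000000) (nat_lit 0x0) (nat_lit 0x8000400020000000000000000000000) := D_3 (nat_lit 106) (nat_lit 89) (nat_lit 123) (nat_lit 4) (nat_lit 5) (nat_lit 9) (nat_lit 4) (nat_lit 5) (nat_lit 10) (by decide +kernel)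
theorem L32040 : W_3 (nat_lit 3) (nat_lit 0x3c0004001200090000000000000000000000000000000) (nat_lit 0x0) (nat_lit 0x8000000008000c00020000000000000000000000) := T_3 (nat_lit 107) (nat_lit 159) (nat_lit 7) (nat_lit 5) (nat_lit 6) L32039 (by decide +kernel)
theorem L32041 : W_3 (nat_lit 4) (nat_lit 0x2c0004001200090000000000000000000000000000000) (nat_lit 0x0) (nat_lit 0x2000100008000000008000c00020000000000000000000000) := T_3 (nat_lit 176) (nat_lit 193) (nat_lit 7) (nat_lit 5) (nat_lit 7) L32040 (by decide +kernel)
theorem L32042 : W_3 (nat_lit 5) (nat_lit 0x280004001200090000000000000000000000000000000) (nat_lit 0x0) (nat_lit 0x2800140008000000008000c00020000000000000000000000) := T_3 (nat_lit 174) (nat_lit 191) (nat_lit 5) (nat_lit 5) (nat_lit 7) L32041 (by decide +kernel)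
theorem L32069 : W_3 (nat_lit 4) (nat_lit 0x280004001200090000000000000000000000000000000) (nat_lit 0x0) (nat_lit 0x2000100008000000008000c00020000000000000000000000) := T_3 (nat_lit 176) (nat_lit 193) (nat_lit 7) (nat_lit 5) (nat_lit 7) L13777 (by decide +kernel)
theorem L32071 : W_3 (nat_lit 2) (nat_lit 0x3c0004001200098000000000000000000000000000000) (nat_lit 0x0) (nat_lit 0x3000000000000800000000000000000000000000) := D_3 (nat_lit 157) (nat_lit 107) (nat_lit 156) (nat_lit 5) (nat_lit 5) (nat_lit 6) (nat_lit 0) (nat_lit 7) (nat_lit 10) (by decide +kernel)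
theorem L32072 : W_3 (nat_lit 3) (nat_lit 0x380004001200098000000000000000000000000000000) (nat_lit 0x0) (nat_lit 0x800040003000000000000800000000000000000000000000) := T_3 (nat_lit 174) (nat_lit 191) (nat_lit 5) (nat_lit 5) (nat_lit 7) L32071 (by decide +kernel)
theorem L32073 : W_3 (nat_lit 4) (nat_lit 0x280004001200098000000000000000000000000000000) (nat_lit 0x0) (nat_lit 0x2800140003000000000000800000000000000000000000000) := T_3 (nat_lit 176) (nat_lit 193) (nat_lit 7) (nat_lit 5) (nat_lit 7) L32072 (by decide +kernel)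
theorem L32074 : W_3 (nat_lit 5) (nat_lit 0x280004001200090000000000000000000000000000000) (nat_lit 0x0) (nat_lit 0x2800140003000000008000c00000000000000000000000000) := T_3 (nat_lit 123) (nat_lit 106) (nat_lit 4) (nat_lit 5) (nat_lit 10) L32073 (by decide +kernel)
theorem L32075 : W_3 (nat_lit 2) (nat_lit 0x2000280004001200098000000000000000000000000000000) (nat_lit 0x0) (nat_lit 0x40001000000000000100000000000000000000000000000000000) := D_3 (nat_lit 192) (nat_lit 140) (nat_lit 210) (nat_lit 4) (nat_lit 5) (nat_lit 11) (nat_lit 7) (nat_lit 5) (nat_lit 8) (by decide +kernel)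
theorem L32076 : W_3 (nat_lit 3) (nat_lit 0x280004001200098000000000000000000000000000000) (nat_lit 0x0) (nat_lit 0x40003000100000000100000000000000000000000000000000000) := T_3 (nat_lit 193) (nat_lit 176) (nat_lit 7) (nat_lit 5) (nat_lit 7) L32075 (by decide +kernel)
theorem L32077 : W_3 (nat_lit 4) (nat_lit 0x280004001200090000000000000000000000000000000) (nat_lit 0x0) (nat_lit 0x40003000100000000100008000400000000000000000000000000) := T_3 (nat_lit 123) (nat_lit 106) (nat_lit 4) (nat_lit 5) (nat_lit 10) L32076 (by decide +kernel)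
theorem L32078 : W_3 (nat_lit 4) (nat_lit 0x2c00040012000d0000c00000000000000000000000000) (nat_lit 0x0) (nat_lit 0xe000100030000800000000000000000000000000000000000) := T_3 (nat_lit 176) (nat_lit 193) (nat_lit 7) (nat_lit 5) (nat_lit 7) L32058 (by decide +kernel)
theorem L32115 : W_3 (nat_lit 2) (nat_lit 0x28000800040002000160013800b0000800000000000000000000000000) (nat_lit 0x0) (nat_lit 0x50001000000000000000000000000000000000000000000000000000000000) := D_3 (nat_lit 228) (nat_lit 244) (nat_lit 246) (nat_lit 5) (nat_lit 7) (nat_lit 10) (nat_lit 7) (nat_lit 7) (nat_lit 10) (by decide +kernel)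
theorem L32116 : W_3 (nat_lit 3) (nat_lit 0x8000800040002000160013800b0000800000000000000000000000000) (nat_lit 0x0) (nat_lit 0x50003000100000000000000000000000000000000000000000000000000000) := T_3 (nat_lit 229) (nat_lit 212) (nat_lit 7) (nat_lit 7) (nat_lit 9) L32115 (by decide +kernel)
theorem L32117 : W_3 (nat_lit 4) (nat_lit 0x800040002000160013800b0000800000000000000000000000000) (nat_lit 0x0) (nat_lit 0x50003800140000000000000000000000000000000000000000000000000000) := T_3 (nat_lit 227) (nat_lit 210) (nat_lit 5) (nat_lit 7) (nat_lit 9) L32116 (by decide +kernel)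
theorem L32118 : W_3 (nat_lit 5) (nat_lit 0x40002000160013800b0000800000000000000000000000000) (nat_lit 0x0) (nat_lit 0x500038001c0000000000020000000000000000000000000000000000000000) := T_3 (nat_lit 211) (nat_lit 161) (nat_lit 6) (nat_lit 7) (nat_lit 12) L32117 (by decide +kernel)
theorem L32119 : W_3 (nat_lit 6) (nat_lit 0x2000160013800b0000800000000000000000000000000) (nat_lit 0x0) (nat_lit 0x500038001c0004000000020000800000000000000000000000000000000000) := T_3 (nat_lit 194) (nat_lit 143) (nat_lit 6) (nat_lit 7) (nat_lit 11) L32118 (by decide +kernel)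
theorem L32120 : W_3 (nat_lit 7) (nat_lit 0x2000060013800b0000800000000000000000000000000) (nat_lit 0x0) (nat_lit 0x500038001c0004000000038000800000000000000000000000000000000000) := T_3 (nat_lit 160) (nat_lit 159) (nat_lit 0) (nat_lit 7) (nat_lit 9) L32119 (by decide +kernel)
theorem L32121 : W_3 (nat_lit 8) (nat_lit 0x2000060013000b0000800000000000000000000000000) (nat_lit 0x0) (nat_lit 0x500038001c00040000000380008c0000000000000000000000000000000000) := T_3 (nat_lit 139) (nat_lit 138) (nat_lit 2) (nat_lit 2) (nat_lit 8) L32120 (by decide +kernel)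
theorem L32146 : W_3 (nat_lit 2) (nat_lit 0x20001c0013400d0000800060002000000000000000000) (nat_lit 0x0) (nat_lit 0x80004000200000000000000) := D_3 (nat_lit 74) (nat_lit 91) (nat_lit 57) (nat_lit 6) (nat_lit 5) (nat_lit 8) (nat_lit 6) (nat_lit 5) (nat_lit 7) (by decide +kernel)
theorem L32147 : W_3 (nat_lit 3) (nat_lit 0x20001c0013400d0000800060000000000000000000000) (nat_lit 0x0) (nat_lit 0x8000000080006000200000000000000) := T_3 (nat_lit 73) (nat_lit 123) (nat_lit 5) (nat_lit 5) (nat_lit 4) L32146 (by decide +kernel)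
theorem L32148 : W_3 (nat_lit 4) (nat_lit 0x20001c0013400d0000800020000000000000000000000) (nat_lit 0x0) (nat_lit 0x80000000c0007000200000000000000) := T_3 (nat_lit 90) (nat_lit 72) (nat_lit 4) (nat_lit 5) (nat_lit 8) L32147 (by decide +kernel)
theorem L32149 : W_3 (nat_lit 5) (nat_lit 0x20001c0013000d0000800020000000000000000000000) (nat_lit 0x0) (nat_lit 0xc00080000000c0007000200000000000000) := T_3 (nat_lit 138) (nat_lit 139) (nat_lit 3) (nat_lit 2) (nat_lit 8) L32148 (by decide +kernel)
theorem L32150 : W_3 (nat_lit 6) (nat_lit 0x20001c0013000d0000800000000000000000000000000) (nat_lit 0x0) (nat_lit 0xc00080004000e0007000200000000000000) := T_3 (nat_lit 89) (nat_lit 106) (nat_lit 4) (nat_lit 5) (nat_lit 9) L32149 (by decide +kernel)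
theorem L32151 : W_3 (nat_lit 7) (nat_lit 0x20001c0013000d0000000000000000000000000000000) (nat_lit 0x0) (nat_lit 0x1000000000c0008000c000e0007000200000000000000) := T_3 (nat_lit 107) (nat_lit 176) (nat_lit 7) (nat_lit 5) (nat_lit 6) L32150 (by decide +kernel)
theorem L32152 : W_3 (nat_lit 8) (nat_lit 0x20001c001300090000000000000000000000000000000) (nat_lit 0x0) (nat_lit 0x1000000000c0068000c000e0007000200000000000000) := T_3 (nat_lit 126) (nat_lit 125) (nat_lit 1) (nat_lit 8) (nat_lit 7) L32151 (by decide +kernel)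
theorem L32153 : W_3 (nat_lit 9) (nat_lit 0x200014001300090000000000000000000000000000000) (nat_lit 0x0) (nat_lit 0x1000280000c0068000c000e0007000200000000000000) := T_3 (nat_lit 159) (nat_lit 161) (nat_lit 0) (nat_lit 8) (nat_lit 9) L32152 (by decide +kernel)
theorem L32168 : W_3 (nat_lit 2) (nat_lit 0x2000070013400b8000e00000000000000000000000000) (nat_lit 0x0) (nat_lit 0xc00020000000000000000000000000000000000) := D_3 (nat_lit 155) (nat_lit 154) (nat_lit 137) (nat_lit 2) (nat_lit 1) (nat_lit 9) (nat_lit 0) (nat_lit 5) (nat_lit 9) (by decide +kernel)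
theorem L32169 : W_3 (nat_lit 3) (nat_lit 0x2000060013400b8000e00000000000000000000000000) (nat_lit 0x0) (nat_lit 0x20001c00020000000000000000000000000000000000) := T_3 (nat_lit 156) (nat_lit 173) (nat_lit 5) (nat_lit 4) (nat_lit 6) L32168 (by decide +kernel)
theorem L32170 : W_3 (nat_lit 4) (nat_lit 0x2000060013400b0000e00000000000000000000000000) (nat_lit 0x0) (nat_lit 0x20001c00020008000000010000000000000000000000) := T_3 (nat_lit 123) (nat_lit 88) (nat_lit 4) (nat_lit 4) (nat_lit 9) L32169 (by decide +kernel)
theorem L32213 : W_3 (nat_lit 2) (nat_lit 0x40003c0004001200090000000000000000000000000000000) (nat_lit 0x0) (nat_lit 0x30000800000000000000000000000000000000000) := D_3 (nat_lit 160) (nat_lit 161) (nat_lit 143) (nat_lit 2) (nat_lit 4) (nat_lit 10) (nat_lit 6) (nat_lit 7) (nat_lit 11) (by decide +kernel)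
theorem L32214 : W_3 (nat_lit 3) (nat_lit 0x3c0004001200090000000000000000000000000000000) (nat_lit 0x0) (nat_lit 0xc000000030000800000000000000000000000000000000000) := T_3 (nat_lit 194) (nat_lit 195) (nat_lit 3) (nat_lit 4) (nat_lit 10) L32213 (by decide +kernel)
theorem L32215 : W_3 (nat_lit 4) (nat_lit 0x2c0004001200090000000000000000000000000000000) (nat_lit 0x0) (nat_lit 0xe000100030000800000000000000000000000000000000000) := T_3 (nat_lit 176) (nat_lit 193) (nat_lit 7) (nat_lit 5) (nat_lit 7) L32214 (by decide +kernel)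
theorem L32216 : W_3 (nat_lit 5) (nat_lit 0x280004001200090000000000000000000000000000000) (nat_lit 0x0) (nat_lit 0xe800140030000800000000000000000000000000000000000) := T_3 (nat_lit 174) (nat_lit 191) (nat_lit 5) (nat_lit 5) (nat_lit 7) L32215 (by decide +kernel)
theorem L32323 : W_3 (nat_lit 2) (nat_lit 0x200000001a00090000000000000000000000000000000) (nat_lit 0x0) (nat_lit 0x400108000000000000000000000000000000) := D_3 (nat_lit 142) (nat_lit 123) (nat_lit 128) (nat_lit 0) (nat_lit 8) (nat_lit 8) (nat_lit 2) (nat_lit 5) (nat_lit 8) (by decide +kernel)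
theorem L32324 : W_3 (nat_lit 2) (nat_lit 0x300010001a000d8002000000000000000000000000000) (nat_lit 0x0) (nat_lit 0x20000000000000000100008000000000000000000) := D_3 (nat_lit 92) (nat_lit 75) (nat_lit 161) (nat_lit 7) (nat_lit 7) (nat_lit 4) (nat_lit 7) (nat_lit 7) (nat_lit 5) (by decide +kernel)
theorem L32325 : W_3 (nat_lit 3) (nat_lit 0x300010001a000d8000000000000000000000000000000) (nat_lit 0x0) (nat_lit 0x28000000000002000100008000000000000000000) := T_3 (nat_lit 109) (nat_lit 159) (nat_lit 5) (nat_lit 7) (nat_lit 6) L32324 (by decide +kernel)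
theorem L32326 : W_3 (nat_lit 4) (nat_lit 0x200010001a000d8000000000000000000000000000000) (nat_lit 0x0) (nat_lit 0x2000100028000000000002000100008000000000000000000) := T_3 (nat_lit 176) (nat_lit 193) (nat_lit 5) (nat_lit 7) (nat_lit 7) L32325 (by decide +kernel)
theorem L32329 : W_3 (nat_lit 2) (nat_lit 0x200000001a000d0000000000000000000000000000000) (nat_lit 0x0) (nat_lit 0x100028000000000000000000000000000000) := D_3 (nat_lit 125) (nat_lit 123) (nat_lit 140) (nat_lit 3) (nat_lit 4) (nat_lit 7) (nat_lit 1) (nat_lit 8) (nat_lit 7) (by decide +kernel)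
theorem L32330 : W_3 (nat_lit 2) (nat_lit 0x300010001a000d0002000000000000000000000000000) (nat_lit 0x0) (nat_lit 0x20000000000000000100008000000000000000000) := D_3 (nat_lit 92) (nat_lit 75) (nat_lit 161) (nat_lit 7) (nat_lit 7) (nat_lit 4) (nat_lit 7) (nat_lit 7) (nat_lit 5) (by decide +kernel)
theorem L32331 : W_3 (nat_lit 3) (nat_lit 0x300010001a000d0000000000000000000000000000000) (nat_lit 0x0) (nat_lit 0x28000000000002000100008000000000000000000) := T_3 (nat_lit 109) (nat_lit 159) (nat_lit 5) (nat_lit 7) (nat_lit 6) L32330 (by decide +kernel)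
theorem L32332 : W_3 (nat_lit 4) (nat_lit 0x200010001a000d0000000000000000000000000000000) (nat_lit 0x0) (nat_lit 0x2000100028000000000002000100008000000000000000000) := T_3 (nat_lit 176) (nat_lit 193) (nat_lit 5) (nat_lit 7) (nat_lit 7) L32331 (by decide +kernel)
theorem L32333 : W_3 (nat_lit 5) (nat_lit 0x200000001a000d0000000000000000000000000000000) (nat_lit 0x0) (nat_lit 0x6000100038000000000002000100008000000000000000000) := T_3 (nat_lit 160) (nat_lit 194) (nat_lit 6) (nat_lit 7) (nat_lit 11) L32332 (by decide +kernel)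
theorem L32344 : W_3 (nat_lit 2) (nat_lit 0x2000000013000d0000800040002000000000000000000) (nat_lit 0x0) (nat_lit 0x20001000080000000000000) := D_3 (nat_lit 72) (nat_lit 55) (nat_lit 89) (nat_lit 4) (nat_lit 5) (nat_lit 7) (nat_lit 4) (nat_lit 5) (nat_lit 8) (by decide +kernel)
theorem L32345 : W_3 (nat_lit 3) (nat_lit 0x2000000013000d0000800040000000000000000000000) (nat_lit 0x0) (nat_lit 0x8000000020003000080000000000000) := T_3 (nat_lit 73) (nat_lit 123) (nat_lit 5) (nat_lit 5) (nat_lit 4) L32344 (by decide +kernel)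
theorem L32346 : W_3 (nat_lit 4) (nat_lit 0x2000000013000d0000800000000000000000000000000) (nat_lit 0x0) (nat_lit 0x2000000008000000060003000080000000000000) := T_3 (nat_lit 90) (nat_lit 157) (nat_lit 5) (nat_lit 5) (nat_lit 5) L32345 (by decide +kernel)
theorem L32347 : W_3 (nat_lit 5) (nat_lit 0x200000001300090000800000000000000000000000000) (nat_lit 0x0) (nat_lit 0x2000000068000000060003000080000000000000) := T_3 (nat_lit 126) (nat_lit 125) (nat_lit 1) (nat_lit 8) (nat_lit 7) L32346 (by decide +kernel)
theorem L32348 : W_3 (nat_lit 4) (nat_lit 0x200000001300090000800000000000000000000000000) (nat_lit 0x0) (nat_lit 0x20000000080000000c0006000200000000000000) := T_3 (nat_lit 90) (nat_lit 157) (nat_lit 5) (nat_lit 5) (nat_lit 5) L31985 (by decide +kernel)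
theorem L32349 : W_3 (nat_lit 2) (nat_lit 0x2000000013000d0000c000e0000000000000000000000) (nat_lit 0x0) (nat_lit 0x300100000000000000000000000) := D_3 (nat_lit 105) (nat_lit 104) (nat_lit 92) (nat_lit 2) (nat_lit 2) (nat_lit 6) (nat_lit 1) (nat_lit 7) (nat_lit 5) (by decide +kernel)
theorem L32350 : W_3 (nat_lit 3) (nat_lit 0x2000000013000d00008000e0000000000000000000000) (nat_lit 0x0) (nat_lit 0x4000000000000700100000000000000000000000) := T_3 (nat_lit 106) (nat_lit 158) (nat_lit 4) (nat_lit 5) (nat_lit 9) L32349 (by decide +kernel)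
theorem L32351 : W_3 (nat_lit 4) (nat_lit 0x2000000013000d00008000c0000000000000000000000) (nat_lit 0x0) (nat_lit 0x4000000000000700120001000000000000000000) := T_3 (nat_lit 89) (nat_lit 72) (nat_lit 4) (nat_lit 5) (nat_lit 8) L32350 (by decide +kernel)
theorem L32357 : W_3 (nat_lit 2) (nat_lit 0x28002800040013000d0000c00000000000000000000000000) (nat_lit 0x0) (nat_lit 0x50001000000000000000000000000000000000000000000000000) := D_3 (nat_lit 192) (nat_lit 210) (nat_lit 208) (nat_lit 7) (nat_lit 5) (nat_lit 8) (nat_lit 5) (nat_lit 5) (nat_lit 8) (by decide +kernel)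
theorem L32358 : W_3 (nat_lit 3) (nat_lit 0x20002800040013000d0000c00000000000000000000000000) (nat_lit 0x0) (nat_lit 0x50001800040000000000000000000000000000000000000000000) := T_3 (nat_lit 191) (nat_lit 174) (nat_lit 5) (nat_lit 5) (nat_lit 7) L32357 (by decide +kernel)
theorem L32359 : W_3 (nat_lit 4) (nat_lit 0x2800040013000d0000c00000000000000000000000000) (nat_lit 0x0) (nat_lit 0x50003800140000000000000000000000000000000000000000000) := T_3 (nat_lit 193) (nat_lit 176) (nat_lit 7) (nat_lit 5) (nat_lit 7) L32358 (by decide +kernel)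
theorem L32360 : W_3 (nat_lit 5) (nat_lit 0x2000040013000d0000c00000000000000000000000000) (nat_lit 0x0) (nat_lit 0x500038001c0000000000008000000000000000000000000000000) := T_3 (nat_lit 175) (nat_lit 123) (nat_lit 4) (nat_lit 5) (nat_lit 10) L32359 (by decide +kernel)
theorem L32361 : W_3 (nat_lit 6) (nat_lit 0x2000040013000d0000800000000000000000000000000) (nat_lit 0x0) (nat_lit 0x500038001c0000000000008000400020000000000000000000000) := T_3 (nat_lit 106) (nat_lit 89) (nat_lit 4) (nat_lit 5) (nat_lit 9) L32360 (by decide +kernel)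
theorem L32362 : W_3 (nat_lit 7) (nat_lit 0x200004001300090000800000000000000000000000000) (nat_lit 0x0) (nat_lit 0x500038001c0000000000068000400020000000000000000000000) := T_3 (nat_lit 126) (nat_lit 125) (nat_lit 1) (nat_lit 8) (nat_lit 7) L32361 (by decide +kernel)
theorem L32363 : W_3 (nat_lit 2) (nat_lit 0x1000280006001300090000c00000000000000000000000000) (nat_lit 0x0) (nat_lit 0x40002000100000000000000000000000000000000000000000000) := D_3 (nat_lit 193) (nat_lit 176) (nat_lit 210) (nat_lit 7) (nat_lit 5) (nat_lit 7) (nat_lit 7) (nat_lit 5) (nat_lit 8) (by decide +kernel)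
theorem L32364 : W_3 (nat_lit 3) (nat_lit 0x280006001300090000c00000000000000000000000000) (nat_lit 0x0) (nat_lit 0x60003000100000000000000000000000000000000000000000000) := T_3 (nat_lit 192) (nat_lit 209) (nat_lit 4) (nat_lit 5) (nat_lit 12) L32363 (by decide +kernel)
theorem L32365 : W_3 (nat_lit 4) (nat_lit 0x200006001300090000c00000000000000000000000000) (nat_lit 0x0) (nat_lit 0x60003000180000000000008000000000000000000000000000000) := T_3 (nat_lit 175) (nat_lit 123) (nat_lit 7) (nat_lit 4) (nat_lit 6) L32364 (by decide +kernel)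
theorem L32366 : W_3 (nat_lit 5) (nat_lit 0x200004001300090000c00000000000000000000000000) (nat_lit 0x0) (nat_lit 0x600030001c0002000000008000000000000000000000000000000) := T_3 (nat_lit 157) (nat_lit 174) (nat_lit 5) (nat_lit 5) (nat_lit 6) L32365 (by decide +kernel)
theorem L32367 : W_3 (nat_lit 6) (nat_lit 0x200004001300090000800000000000000000000000000) (nat_lit 0x0) (nat_lit 0x600030001c0002000000008000400020000000000000000000000) := T_3 (nat_lit 106) (nat_lit 89) (nat_lit 4) (nat_lit 5) (nat_lit 9) L32366 (by decide +kernel)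
theorem L32368 : W_3 (nat_lit 2) (nat_lit 0x100030002800040013000d0000c00000000000000000000000000) (nat_lit 0x0) (nat_lit 0x200020000000000002000000000000000000000000000000000000000) := D_3 (nat_lit 209) (nat_lit 157) (nat_lit 225) (nat_lit 4) (nat_lit 5) (nat_lit 12) (nat_lit 5) (nat_lit 5) (nat_lit 9) (by decide +kernel)
theorem L32369 : W_3 (nat_lit 3) (nat_lit 0x30002800040013000d0000c00000000000000000000000000) (nat_lit 0x0) (nat_lit 0x200030000800000002000000000000000000000000000000000000000) := T_3 (nat_lit 208) (nat_lit 191) (nat_lit 5) (nat_lit 5) (nat_lit 8) L32368 (by decide +kernel)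
theorem L32370 : W_3 (nat_lit 4) (nat_lit 0x20002800040013000d0000c00000000000000000000000000) (nat_lit 0x0) (nat_lit 0x200070001800000002000000000000000000000000000000000000000) := T_3 (nat_lit 192) (nat_lit 210) (nat_lit 7) (nat_lit 5) (nat_lit 8) L32369 (by decide +kernel)
theorem L32371 : W_3 (nat_lit 5) (nat_lit 0x2800040013000d0000c00000000000000000000000000) (nat_lit 0x0) (nat_lit 0x200070003800100002000000000000000000000000000000000000000) := T_3 (nat_lit 193) (nat_lit 176) (nat_lit 7) (nat_lit 5) (nat_lit 7) L32370 (by decide +kernel)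
theorem L32372 : W_3 (nat_lit 6) (nat_lit 0x2000040013000d0000c00000000000000000000000000) (nat_lit 0x0) (nat_lit 0x200070003800180002000000008000000000000000000000000000000) := T_3 (nat_lit 175) (nat_lit 123) (nat_lit 4) (nat_lit 5) (nat_lit 10) L32371 (by decide +kernel)
theorem L32375 : W_3 (nat_lit 2) (nat_lit 0x20002c00040013400b0000d00000000000000000000000000) (nat_lit 0x0) (nat_lit 0x40001000000000000400000000000000000000000000000000000) := D_3 (nat_lit 192) (nat_lit 142) (nat_lit 210) (nat_lit 6) (nat_lit 5) (nat_lit 11) (nat_lit 7) (nat_lit 5) (nat_lit 8) (by decide +kernel)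
theorem L32376 : W_3 (nat_lit 3) (nat_lit 0x2c00040013400b0000d00000000000000000000000000) (nat_lit 0x0) (nat_lit 0x40003000100000000400000000000000000000000000000000000) := T_3 (nat_lit 193) (nat_lit 176) (nat_lit 7) (nat_lit 5) (nat_lit 7) L32375 (by decide +kernel)
theorem L32383 : W_3 (nat_lit 2) (nat_lit 0x10002c00040013000d0000800000000000000000000000000) (nat_lit 0x0) (nat_lit 0x40002000100000000000000000000000000000000000000000000) := D_3 (nat_lit 193) (nat_lit 176) (nat_lit 210) (nat_lit 7) (nat_lit 5) (nat_lit 7) (nat_lit 7) (nat_lit 5) (nat_lit 8) (by decide +kernel)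
theorem L32384 : W_3 (nat_lit 3) (nat_lit 0x2c00040013000d0000800000000000000000000000000) (nat_lit 0x0) (nat_lit 0x40003000100000000000008000000000000000000000000000000) := T_3 (nat_lit 192) (nat_lit 123) (nat_lit 4) (nat_lit 5) (nat_lit 11) L32383 (by decide +kernel)
theorem L32385 : W_3 (nat_lit 4) (nat_lit 0x2400040013000d0000800000000000000000000000000) (nat_lit 0x0) (nat_lit 0x40003800180000000000008000000000000000000000000000000) := T_3 (nat_lit 175) (nat_lit 191) (nat_lit 5) (nat_lit 5) (nat_lit 7) L32384 (by decide +kernel)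
theorem L32386 : W_3 (nat_lit 5) (nat_lit 0x240004001300090000800000000000000000000000000) (nat_lit 0x0) (nat_lit 0x40003800180000000000068000000000000000000000000000000) := T_3 (nat_lit 126) (nat_lit 125) (nat_lit 1) (nat_lit 8) (nat_lit 7) L32385 (by decide +kernel)
theorem L32387 : W_3 (nat_lit 6) (nat_lit 0x200004001300090000800000000000000000000000000) (nat_lit 0x0) (nat_lit 0x400038001c0002000000068000000000000000000000000000000) := T_3 (nat_lit 174) (nat_lit 157) (nat_lit 5) (nat_lit 5) (nat_lit 6) L32386 (by decide +kernel)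
theorem L32399 : W_3 (nat_lit 2) (nat_lit 0x200000001700090000000000000000000000000000000) (nat_lit 0x0) (nat_lit 0x800060000000000000000000000000000000) := D_3 (nat_lit 126) (nat_lit 125) (nat_lit 143) (nat_lit 1) (nat_lit 8) (nat_lit 7) (nat_lit 2) (nat_lit 4) (nat_lit 8) (by decide +kernel)
theorem L32428 : W_3 (nat_lit 2) (nat_lit 0x200000001300090000c000e0000000000000000000000) (nat_lit 0x0) (nat_lit 0x300100000000000000000000000) := D_3 (nat_lit 105) (nat_lit 104) (nat_lit 92) (nat_lit 2) (nat_lit 2) (nat_lit 6) (nat_lit 1) (nat_lit 7) (nat_lit 5) (by decide +kernel)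
theorem L32429 : W_3 (nat_lit 3) (nat_lit 0x2000000013000900008000e0000000000000000000000) (nat_lit 0x0) (nat_lit 0x4000000000000700100000000000000000000000) := T_3 (nat_lit 106) (nat_lit 158) (nat_lit 4) (nat_lit 5) (nat_lit 9) L32428 (by decide +kernel)
theorem L32430 : W_3 (nat_lit 4) (nat_lit 0x200000001300090000800060000000000000000000000) (nat_lit 0x0) (nat_lit 0x4000000000000700180004000000000000000000) := T_3 (nat_lit 91) (nat_lit 74) (nat_lit 6) (nat_lit 5) (nat_lit 8) L32429 (by decide +kernel)
theorem L32431 : W_3 (nat_lit 5) (nat_lit 0x200000001300090000800040000000000000000000000) (nat_lit 0x0) (nat_lit 0x40000000000007001a0005000000000000000000) := T_3 (nat_lit 89) (nat_lit 72) (nat_lit 4) (nat_lit 5) (nat_lit 8) L32430 (by decide +kernel)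
theorem L32433 : W_3 (nat_lit 6) (nat_lit 0x200000001300090000800000000000000000000000000) (nat_lit 0x0) (nat_lit 0x60000000000007001e0005000000000000000000) := T_3 (nat_lit 90) (nat_lit 157) (nat_lit 5) (nat_lit 5) (nat_lit 5) L32431 (by decide +kernel)
theorem L32434 : W_3 (nat_lit 2) (nat_lit 0x40003c0004001300090000c00000000000000000000000000) (nat_lit 0x0) (nat_lit 0x30000800000000000000000000000000000000000) := D_3 (nat_lit 160) (nat_lit 161) (nat_lit 143) (nat_lit 2) (nat_lit 4) (nat_lit 10) (nat_lit 6) (nat_lit 7) (nat_lit 11) (by decide +kernel)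
theorem L32435 : W_3 (nat_lit 3) (nat_lit 0x3c0004001300090000c00000000000000000000000000) (nat_lit 0x0) (nat_lit 0xc000000030000800000000000000000000000000000000000) := T_3 (nat_lit 194) (nat_lit 195) (nat_lit 3) (nat_lit 4) (nat_lit 10) L32434 (by decide +kernel)
theorem L32436 : W_3 (nat_lit 4) (nat_lit 0x380004001300090000c00000000000000000000000000) (nat_lit 0x0) (nat_lit 0xc800040030000800000000000000000000000000000000000) := T_3 (nat_lit 174) (nat_lit 191) (nat_lit 5) (nat_lit 5) (nat_lit 7) L32435 (by decide +kernel)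
theorem L32437 : W_3 (nat_lit 5) (nat_lit 0x280004001300090000c00000000000000000000000000) (nat_lit 0x0) (nat_lit 0xe800140030000800000000000000000000000000000000000) := T_3 (nat_lit 176) (nat_lit 193) (nat_lit 7) (nat_lit 5) (nat_lit 7) L32436 (by decide +kernel)
theorem L32438 : W_3 (nat_lit 6) (nat_lit 0x200004001300090000c00000000000000000000000000) (nat_lit 0x0) (nat_lit 0xe8001c0030000800008000000000000000000000000000000) := T_3 (nat_lit 175) (nat_lit 123) (nat_lit 4) (nat_lit 5) (nat_lit 10) L32437 (by decide +kernel)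
theorem L32439 : W_3 (nat_lit 7) (nat_lit 0x200004001300090000800000000000000000000000000) (nat_lit 0x0) (nat_lit 0xe8001c0030000800008000400020000000000000000000000) := T_3 (nat_lit 106) (nat_lit 89) (nat_lit 4) (nat_lit 5) (nat_lit 9) L32438 (by decide +kernel)
theorem L32452 : W_3 (nat_lit 2) (nat_lit 0x200007001700098000f00000000000000000000000000) (nat_lit 0x0) (nat_lit 0x7000000000000000000000000000000) := D_3 (nat_lit 121) (nat_lit 122) (nat_lit 120) (nat_lit 3) (nat_lit 2) (nat_lit 7) (nat_lit 1) (nat_lit 5) (nat_lit 6) (by decide +kernel)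
theorem L32453 : W_3 (nat_lit 3) (nat_lit 0x200007001700098000e00000000000000000000000000) (nat_lit 0x0) (nat_lit 0x7000180000000000000000000000000) := T_3 (nat_lit 104) (nat_lit 103) (nat_lit 3) (nat_lit 1) (nat_lit 6) L32452 (by decide +kernel)
theorem L32454 : W_3 (nat_lit 4) (nat_lit 0x200007001700098000c00000000000000000000000000) (nat_lit 0x0) (nat_lit 0x7000380010000000000000000000000) := T_3 (nat_lit 105) (nat_lit 88) (nat_lit 4) (nat_lit 4) (nat_lit 9) L32453 (by decide +kernel)
theorem L32455 : W_3 (nat_lit 5) (nat_lit 0x200007001700090000c00000000000000000000000000) (nat_lit 0x0) (nat_lit 0x2000000000000f000380010000000000000000000000) := T_3 (nat_lit 123) (nat_lit 173) (nat_lit 5) (nat_lit 4) (nat_lit 6) L32454 (by decide +kernel)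
theorem L32456 : W_3 (nat_lit 6) (nat_lit 0x200006001700090000c00000000000000000000000000) (nat_lit 0x0) (nat_lit 0x2000180000000f000380010000000000000000000000) := T_3 (nat_lit 156) (nat_lit 155) (nat_lit 2) (nat_lit 2) (nat_lit 9) L32455 (by decide +kernel)
theorem L32457 : W_3 (nat_lit 7) (nat_lit 0x200006001300090000c00000000000000000000000000) (nat_lit 0x0) (nat_lit 0x20001800c0000f000380010000000000000000000000) := T_3 (nat_lit 142) (nat_lit 143) (nat_lit 1) (nat_lit 8) (nat_lit 8) L32456 (by decide +kernel)
theorem L32458 : W_3 (nat_lit 8) (nat_lit 0x200004001300090000c00000000000000000000000000) (nat_lit 0x0) (nat_lit 0x60003800c0000f000380010000000000000000000000) := T_3 (nat_lit 157) (nat_lit 174) (nat_lit 5) (nat_lit 5) (nat_lit 6) L32457 (by decide +kernel)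
theorem L32459 : W_3 (nat_lit 9) (nat_lit 0x200004001300090000800000000000000000000000000) (nat_lit 0x0) (nat_lit 0x60003800c0000f000780030000000000000000000000) := T_3 (nat_lit 106) (nat_lit 89) (nat_lit 4) (nat_lit 5) (nat_lit 9) L32458 (by decide +kernel)
theorem L32460 : W_3 (nat_lit 2) (nat_lit 0x10003000280004001300090000c00000000000000000000000000) (nat_lit 0x0) (nat_lit 0x200020000000000002000000000000000000000000000000000000000) := D_3 (nat_lit 209) (nat_lit 157) (nat_lit 225) (nat_lit 4) (nat_lit 5) (nat_lit 12) (nat_lit 5) (nat_lit 5) (nat_lit 9) (by decide +kernel)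
theorem L32461 : W_3 (nat_lit 3) (nat_lit 0x3000280004001300090000c00000000000000000000000000) (nat_lit 0x0) (nat_lit 0x200030000800000002000000000000000000000000000000000000000) := T_3 (nat_lit 208) (nat_lit 191) (nat_lit 5) (nat_lit 5) (nat_lit 8) L32460 (by decide +kernel)
theorem L32462 : W_3 (nat_lit 4) (nat_lit 0x2000280004001300090000c00000000000000000000000000) (nat_lit 0x0) (nat_lit 0x200070001800000002000000000000000000000000000000000000000) := T_3 (nat_lit 192) (nat_lit 210) (nat_lit 7) (nat_lit 5) (nat_lit 8) L32461 (by decide +kernel)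
theorem L32463 : W_3 (nat_lit 5) (nat_lit 0x280004001300090000c00000000000000000000000000) (nat_lit 0x0) (nat_lit 0x200070003800100002000000000000000000000000000000000000000) := T_3 (nat_lit 193) (nat_lit 176) (nat_lit 7) (nat_lit 5) (nat_lit 7) L32462 (by decide +kernel)
theorem L32464 : W_3 (nat_lit 6) (nat_lit 0x200004001300090000c00000000000000000000000000) (nat_lit 0x0) (nat_lit 0x200070003800180002000000008000000000000000000000000000000) := T_3 (nat_lit 175) (nat_lit 123) (nat_lit 4) (nat_lit 5) (nat_lit 10) L32463 (by decide +kernel)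
theorem L32465 : W_3 (nat_lit 7) (nat_lit 0x200004001300090000800000000000000000000000000) (nat_lit 0x0) (nat_lit 0x200070003800180002000000008000400020000000000000000000000) := T_3 (nat_lit 106) (nat_lit 89) (nat_lit 4) (nat_lit 5) (nat_lit 9) L32464 (by decide +kernel)
theorem L32466 : W_3 (nat_lit 4) (nat_lit 0x2c0004001300090000c00000000000000000000000000) (nat_lit 0x0) (nat_lit 0xe000100030000800000000000000000000000000000000000) := T_3 (nat_lit 176) (nat_lit 193) (nat_lit 7) (nat_lit 5) (nat_lit 7) L32435 (by decide +kernel)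
theorem L32467 : W_3 (nat_lit 5) (nat_lit 0x240004001300090000c00000000000000000000000000) (nat_lit 0x0) (nat_lit 0xe800180030000800000000000000000000000000000000000) := T_3 (nat_lit 175) (nat_lit 191) (nat_lit 5) (nat_lit 5) (nat_lit 7) L32466 (by decide +kernel)
theorem L32470 : W_3 (nat_lit 2) (nat_lit 0x10002c0004001300090000800000000000000000000000000) (nat_lit 0x0) (nat_lit 0x40002000100000000000000000000000000000000000000000000) := D_3 (nat_lit 193) (nat_lit 176) (nat_lit 210) (nat_lit 7) (nat_lit 5) (nat_lit 7) (nat_lit 7) (nat_lit 5) (nat_lit 8) (by decide +kernel)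
theorem L32471 : W_3 (nat_lit 3) (nat_lit 0x2c0004001300090000800000000000000000000000000) (nat_lit 0x0) (nat_lit 0x40003000100000000000008000000000000000000000000000000) := T_3 (nat_lit 192) (nat_lit 123) (nat_lit 4) (nat_lit 5) (nat_lit 11) L32470 (by decide +kernel)
theorem L32472 : W_3 (nat_lit 4) (nat_lit 0x240004001300090000800000000000000000000000000) (nat_lit 0x0) (nat_lit 0x40003800180000000000008000000000000000000000000000000) := T_3 (nat_lit 175) (nat_lit 191) (nat_lit 5) (nat_lit 5) (nat_lit 7) L32471 (by decide +kernel)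
theorem L32473 : W_3 (nat_lit 5) (nat_lit 0x200004001300090000800000000000000000000000000) (nat_lit 0x0) (nat_lit 0x400038001c0002000000008000000000000000000000000000000) := T_3 (nat_lit 174) (nat_lit 157) (nat_lit 5) (nat_lit 5) (nat_lit 6) L32472 (by decide +kernel)
theorem L32480 : W_3 (nat_lit 2) (nat_lit 0x200000001300090000400020000000000000000000000) (nat_lit 0x0) (nat_lit 0x4000000008000000000001000000000000000000) := D_3 (nat_lit 123) (nat_lit 72) (nat_lit 158) (nat_lit 7) (nat_lit 4) (nat_lit 4) (nat_lit 7) (nat_lit 4) (nat_lit 5) (by decide +kernel)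
theorem L32485 : W_3 (nat_lit 2) (nat_lit 0x200000001300090000400020000000000000000000000) (nat_lit 0x0) (nat_lit 0x4000000008000800000000000000000000000000) := D_3 (nat_lit 158) (nat_lit 107) (nat_lit 123) (nat_lit 4) (nat_lit 5) (nat_lit 9) (nat_lit 7) (nat_lit 4) (nat_lit 5) (by decide +kernel)
theorem L32493 : W_3 (nat_lit 2) (nat_lit 0x200000001300098000400000000000000000000000000) (nat_lit 0x0) (nat_lit 0x4000000000000000020001000000000000000000) := D_3 (nat_lit 89) (nat_lit 72) (nat_lit 158) (nat_lit 7) (nat_lit 4) (nat_lit 4) (nat_lit 7) (nat_lit 4) (nat_lit 5) (by decide +kernel)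
theorem L32535 : W_3 (nat_lit 2) (nat_lit 0x200000001300090000400020001000000000000000000) (nat_lit 0x0) (nat_lit 0x800040000000080000000000000) := D_3 (nat_lit 107) (nat_lit 55) (nat_lit 90) (nat_lit 7) (nat_lit 4) (nat_lit 3) (nat_lit 4) (nat_lit 5) (nat_lit 8) (by decide +kernel)
theorem L32536 : W_3 (nat_lit 3) (nat_lit 0x200000001300090000400020000000000000000000000) (nat_lit 0x0) (nat_lit 0x8000800040001000080000000000000) := T_3 (nat_lit 72) (nat_lit 123) (nat_lit 7) (nat_lit 4) (nat_lit 4) L32535 (by decide +kernel)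
theorem L32547 : W_3 (nat_lit 2) (nat_lit 0x200000001700090000400000000000000000000000000) (nat_lit 0x0) (nat_lit 0x800060000000000000000000000000000000) := D_3 (nat_lit 126) (nat_lit 125) (nat_lit 143) (nat_lit 1) (nat_lit 8) (nat_lit 7) (nat_lit 2) (nat_lit 4) (nat_lit 8) (by decide +kernel)
theorem L32551 : W_3 (nat_lit 2) (nat_lit 0x2000010017800b4000600000000000000000000000000) (nat_lit 0x0) (nat_lit 0x900008000000000000000000000) := D_3 (nat_lit 104) (nat_lit 87) (nat_lit 107) (nat_lit 4) (nat_lit 3) (nat_lit 9) (nat_lit 3) (nat_lit 2) (nat_lit 6) (by decide +kernel)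
theorem L32552 : W_3 (nat_lit 3) (nat_lit 0x2000010017800b4000400000000000000000000000000) (nat_lit 0x0) (nat_lit 0xb00028000000000000000000000) := T_3 (nat_lit 105) (nat_lit 89) (nat_lit 6) (nat_lit 3) (nat_lit 9) L32551 (by decide +kernel)
theorem L32553 : W_3 (nat_lit 4) (nat_lit 0x2000010017800b0000400000000000000000000000000) (nat_lit 0x0) (nat_lit 0x6000b00028000000000000000000000) := T_3 (nat_lit 122) (nat_lit 121) (nat_lit 0) (nat_lit 6) (nat_lit 8) L32552 (by decide +kernel)
theorem L32554 : W_3 (nat_lit 5) (nat_lit 0x2000000017800b0000400000000000000000000000000) (nat_lit 0x0) (nat_lit 0x1800000006000b00028000000000000000000000) := T_3 (nat_lit 156) (nat_lit 155) (nat_lit 1) (nat_lit 6) (nat_lit 8) L32553 (by decide +kernel)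
theorem L32555 : W_3 (nat_lit 6) (nat_lit 0x2000000017000b0000400000000000000000000000000) (nat_lit 0x0) (nat_lit 0x18000c0006000b00028000000000000000000000) := T_3 (nat_lit 139) (nat_lit 138) (nat_lit 2) (nat_lit 2) (nat_lit 8) L32554 (by decide +kernel)
theorem L32556 : W_3 (nat_lit 7) (nat_lit 0x200000001700090000400000000000000000000000000) (nat_lit 0x0) (nat_lit 0x18000c0066000b00028000000000000000000000) := T_3 (nat_lit 125) (nat_lit 126) (nat_lit 1) (nat_lit 8) (nat_lit 7) L32555 (by decide +kernel)
theorem L32558 : W_3 (nat_lit 2) (nat_lit 0x80006002200010017800b4000400000000000000000000000000) (nat_lit 0x0) (nat_lit 0x200010000800000000000000000000000000000000000000000000000) := D_3 (nat_lit 208) (nat_lit 191) (nat_lit 225) (nat_lit 7) (nat_lit 3) (nat_lit 8) (nat_lit 7) (nat_lit 3) (nat_lit 9) (by decide +kernel)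
theorem L32559 : W_3 (nat_lit 3) (nat_lit 0x6002200010017800b4000400000000000000000000000000) (nat_lit 0x0) (nat_lit 0x200018000800000002000000000000000000000000000000000000000) := T_3 (nat_lit 207) (nat_lit 157) (nat_lit 6) (nat_lit 3) (nat_lit 12) L32558 (by decide +kernel)
theorem L32560 : W_3 (nat_lit 4) (nat_lit 0x2002200010017800b4000400000000000000000000000000) (nat_lit 0x0) (nat_lit 0x20001c000c00000002000000000000000000000000000000000000000) := T_3 (nat_lit 190) (nat_lit 206) (nat_lit 5) (nat_lit 3) (nat_lit 8) L32559 (by decide +kernel)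
theorem L32561 : W_3 (nat_lit 5) (nat_lit 0x2200010017800b4000400000000000000000000000000) (nat_lit 0x0) (nat_lit 0x20001c000e00010002000000000000000000000000000000000000000) := T_3 (nat_lit 189) (nat_lit 172) (nat_lit 5) (nat_lit 3) (nat_lit 7) L32560 (by decide +kernel)
theorem L32562 : W_3 (nat_lit 6) (nat_lit 0x2000010017800b4000400000000000000000000000000) (nat_lit 0x0) (nat_lit 0x20001c000e00030002000000008000000000000000000000000000000) := T_3 (nat_lit 173) (nat_lit 123) (nat_lit 6) (nat_lit 3) (nat_lit 10) L32561 (by decide +kernel)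
theorem L32563 : W_3 (nat_lit 7) (nat_lit 0x2000010017800b0000400000000000000000000000000) (nat_lit 0x0) (nat_lit 0x20001c000e0003000200000000e000000000000000000000000000000) := T_3 (nat_lit 122) (nat_lit 121) (nat_lit 0) (nat_lit 6) (nat_lit 8) L32562 (by decide +kernel)
theorem L32564 : W_3 (nat_lit 8) (nat_lit 0x2000000017800b0000400000000000000000000000000) (nat_lit 0x0) (nat_lit 0x20001c000e0003000380000000e000000000000000000000000000000) := T_3 (nat_lit 156) (nat_lit 155) (nat_lit 1) (nat_lit 6) (nat_lit 8) L32563 (by decide +kernel)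
theorem L32565 : W_3 (nat_lit 9) (nat_lit 0x2000000017000b0000400000000000000000000000000) (nat_lit 0x0) (nat_lit 0x20001c000e000300038000c000e000000000000000000000000000000) := T_3 (nat_lit 139) (nat_lit 138) (nat_lit 2) (nat_lit 2) (nat_lit 8) L32564 (by decide +kernel)
theorem L32566 : W_3 (nat_lit 10) (nat_lit 0x200000001700090000400000000000000000000000000) (nat_lit 0x0) (nat_lit 0x20001c000e000300038000c006e000000000000000000000000000000) := T_3 (nat_lit 125) (nat_lit 126) (nat_lit 1) (nat_lit 8) (nat_lit 7) L32565 (by decide +kernel)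
theorem L32616 : W_3 (nat_lit 2) (nat_lit 0x200000001300090000c00020000000000000000000000) (nat_lit 0x0) (nat_lit 0x40001000080000000000000) := D_3 (nat_lit 72) (nat_lit 90) (nat_lit 55) (nat_lit 4) (nat_lit 5) (nat_lit 8) (nat_lit 7) (nat_lit 4) (nat_lit 3) (by decide +kernel)
theorem L32617 : W_3 (nat_lit 3) (nat_lit 0x200000001300090000400020000000000000000000000) (nat_lit 0x0) (nat_lit 0x4000000000000800040001000080000000000000) := T_3 (nat_lit 107) (nat_lit 158) (nat_lit 4) (nat_lit 5) (nat_lit 9) L32616 (by decide +kernel)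
theorem L32619 : W_3 (nat_lit 2) (nat_lit 0x200000001f00090000400000000000000000000000000) (nat_lit 0x0) (nat_lit 0x4000000030000000000000000000000000000000000000000) := D_3 (nat_lit 160) (nat_lit 161) (nat_lit 194) (nat_lit 3) (nat_lit 4) (nat_lit 8) (nat_lit 6) (nat_lit 7) (nat_lit 11) (by decide +kernel)
theorem L32620 : W_3 (nat_lit 3) (nat_lit 0x200000001700090000400000000000000000000000000) (nat_lit 0x0) (nat_lit 0x4000000030000800100000000000000000000000000000000) := T_3 (nat_lit 143) (nat_lit 128) (nat_lit 2) (nat_lit 5) (nat_lit 8) L32619 (by decide +kernel)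
theorem L32622 : W_3 (nat_lit 2) (nat_lit 0xa002200010017800b4000400000000000000000000000000) (nat_lit 0x0) (nat_lit 0x14000400000000000000000000000000000000000000000000000) := D_3 (nat_lit 190) (nat_lit 206) (nat_lit 208) (nat_lit 5) (nat_lit 3) (nat_lit 8) (nat_lit 7) (nat_lit 3) (nat_lit 8) (by decide +kernel)
theorem L32623 : W_3 (nat_lit 3) (nat_lit 0x2002200010017800b4000400000000000000000000000000) (nat_lit 0x0) (nat_lit 0x14000c00040000000000000000000000000000000000000000000) := T_3 (nat_lit 191) (nat_lit 174) (nat_lit 7) (nat_lit 3) (nat_lit 7) L32622 (by decide +kernel)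
theorem L32624 : W_3 (nat_lit 4) (nat_lit 0x2200010017800b4000400000000000000000000000000) (nat_lit 0x0) (nat_lit 0x14000e00050000000000000000000000000000000000000000000) := T_3 (nat_lit 189) (nat_lit 172) (nat_lit 5) (nat_lit 3) (nat_lit 7) L32623 (by decide +kernel)
theorem L32625 : W_3 (nat_lit 5) (nat_lit 0x2000010017800b4000400000000000000000000000000) (nat_lit 0x0) (nat_lit 0x14000e00070000000000008000000000000000000000000000000) := T_3 (nat_lit 173) (nat_lit 123) (nat_lit 6) (nat_lit 3) (nat_lit 10) L32624 (by decide +kernel)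
theorem L32626 : W_3 (nat_lit 6) (nat_lit 0x2000010017800b0000400000000000000000000000000) (nat_lit 0x0) (nat_lit 0x14000e0007000000000000e000000000000000000000000000000) := T_3 (nat_lit 122) (nat_lit 121) (nat_lit 0) (nat_lit 6) (nat_lit 8) L32625 (by decide +kernel)
theorem L32627 : W_3 (nat_lit 7) (nat_lit 0x2000000017800b0000400000000000000000000000000) (nat_lit 0x0) (nat_lit 0x14000e0007000180000000e000000000000000000000000000000) := T_3 (nat_lit 156) (nat_lit 155) (nat_lit 1) (nat_lit 6) (nat_lit 8) L32626 (by decide +kernel)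
theorem L32628 : W_3 (nat_lit 8) (nat_lit 0x2000000017000b0000400000000000000000000000000) (nat_lit 0x0) (nat_lit 0x14000e000700018000c000e000000000000000000000000000000) := T_3 (nat_lit 139) (nat_lit 138) (nat_lit 2) (nat_lit 2) (nat_lit 8) L32627 (by decide +kernel)
theorem L32629 : W_3 (nat_lit 9) (nat_lit 0x200000001700090000400000000000000000000000000) (nat_lit 0x0) (nat_lit 0x14000e000700018000c006e000000000000000000000000000000) := T_3 (nat_lit 125) (nat_lit 126) (nat_lit 1) (nat_lit 8) (nat_lit 7) L32628 (by decide +kernel)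
theorem L32638 : W_3 (nat_lit 2) (nat_lit 0x8003c0000001b000d0000000000000000000000000000000) (nat_lit 0x0) (nat_lit 0x2000000030000000000000000000000000000000000000000) := D_3 (nat_lit 160) (nat_lit 161) (nat_lit 193) (nat_lit 2) (nat_lit 4) (nat_lit 10) (nat_lit 5) (nat_lit 7) (nat_lit 7) (by decide +kernel)
theorem L32639 : W_3 (nat_lit 3) (nat_lit 0x8002c0000001b000d0000000000000000000000000000000) (nat_lit 0x0) (nat_lit 0x2400100030000000000000000000000000000000000000000) := T_3 (nat_lit 176) (nat_lit 190) (nat_lit 1) (nat_lit 7) (nat_lit 10) L32638 (by decide +kernel)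
theorem L32653 : W_3 (nat_lit 2) (nat_lit 0x3c0010001b000d0000000000000000000000000000000) (nat_lit 0x0) (nat_lit 0xc00000004000000000000000000000000000000000000000) := D_3 (nat_lit 191) (nat_lit 190) (nat_lit 158) (nat_lit 1) (nat_lit 7) (nat_lit 10) (nat_lit 5) (nat_lit 5) (nat_lit 7) (by decide +kernel)
theorem L32654 : W_3 (nat_lit 3) (nat_lit 0x340010001b000d0000000000000000000000000000000) (nat_lit 0x0) (nat_lit 0xc00080024000000000000000000000000000000000000000) := T_3 (nat_lit 175) (nat_lit 161) (nat_lit 2) (nat_lit 4) (nat_lit 10) L32653 (by decide +kernel)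
theorem L32655 : W_3 (nat_lit 4) (nat_lit 0x240010001b000d0000000000000000000000000000000) (nat_lit 0x0) (nat_lit 0x2c00180024000000000000000000000000000000000000000) := T_3 (nat_lit 176) (nat_lit 193) (nat_lit 5) (nat_lit 7) (nat_lit 7) L32654 (by decide +kernel)
theorem L32656 : W_3 (nat_lit 5) (nat_lit 0x240000001b000d0000000000000000000000000000000) (nat_lit 0x0) (nat_lit 0x6c00180034000000000000000000000000000000000000000) := T_3 (nat_lit 160) (nat_lit 194) (nat_lit 6) (nat_lit 7) (nat_lit 11) L32655 (by decide +kernel)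
theorem L32658 : W_3 (nat_lit 2) (nat_lit 0x3c0012001b000d0000000000000000000000000000000) (nat_lit 0x0) (nat_lit 0x4000000000000800040000000000000000000000) := D_3 (nat_lit 107) (nat_lit 90) (nat_lit 158) (nat_lit 5) (nat_lit 5) (nat_lit 5) (nat_lit 5) (nat_lit 5) (nat_lit 6) (by decide +kernel)
theorem L32659 : W_3 (nat_lit 3) (nat_lit 0x3c0010001b000d0000000000000000000000000000000) (nat_lit 0x0) (nat_lit 0x7000000000000800040000000000000000000000) := T_3 (nat_lit 157) (nat_lit 156) (nat_lit 0) (nat_lit 7) (nat_lit 10) L32658 (by decide +kernel)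
theorem L32660 : W_3 (nat_lit 4) (nat_lit 0x340010001b000d0000000000000000000000000000000) (nat_lit 0x0) (nat_lit 0x80027000000000000800040000000000000000000000) := T_3 (nat_lit 175) (nat_lit 161) (nat_lit 2) (nat_lit 4) (nat_lit 10) L32659 (by decide +kernel)
theorem L32661 : W_3 (nat_lit 5) (nat_lit 0x240010001b000d0000000000000000000000000000000) (nat_lit 0x0) (nat_lit 0x2000180027000000000000800040000000000000000000000) := T_3 (nat_lit 176) (nat_lit 193) (nat_lit 5) (nat_lit 7) (nat_lit 7) L32660 (by decide +kernel)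
theorem L32666 : W_3 (nat_lit 2) (nat_lit 0x8002400010017800b0000000000000000000000000000000) (nat_lit 0x0) (nat_lit 0x20000000000006000000000000000000000000000000) := D_3 (nat_lit 122) (nat_lit 121) (nat_lit 173) (nat_lit 0) (nat_lit 6) (nat_lit 8) (nat_lit 7) (nat_lit 3) (nat_lit 7) (by decide +kernel)
theorem L32667 : W_3 (nat_lit 3) (nat_lit 0x8002400000017800b0000000000000000000000000000000) (nat_lit 0x0) (nat_lit 0x20001800000006000000000000000000000000000000) := T_3 (nat_lit 156) (nat_lit 155) (nat_lit 1) (nat_lit 6) (nat_lit 8) L32666 (by decide +kernel)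
theorem L32668 : W_3 (nat_lit 4) (nat_lit 0x8002400000017000b0000000000000000000000000000000) (nat_lit 0x0) (nat_lit 0x200018000c0006000000000000000000000000000000) := T_3 (nat_lit 139) (nat_lit 138) (nat_lit 2) (nat_lit 2) (nat_lit 8) L32667 (by decide +kernel)
theorem L32671 : W_3 (nat_lit 2) (nat_lit 0x49003f0010801700090000000000000000000000000000000) (nat_lit 0x0) (nat_lit 0x1080008000000000000000000000000000000000000000000) := D_3 (nat_lit 171) (nat_lit 192) (nat_lit 187) (nat_lit 3) (nat_lit 1) (nat_lit 10) (nat_lit 1) (nat_lit 4) (nat_lit 10) (by decide +kernel)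
theorem L32672 : W_3 (nat_lit 3) (nat_lit 0x48003f0010801700090000000000000000000000000000000) (nat_lit 0x0) (nat_lit 0x1380008000000000000000000000000000000000000000000) := T_3 (nat_lit 188) (nat_lit 189) (nat_lit 1) (nat_lit 5) (nat_lit 10) L32671 (by decide +kernel)
theorem L32673 : W_3 (nat_lit 4) (nat_lit 0x48003e0010801700090000000000000000000000000000000) (nat_lit 0x0) (nat_lit 0x1380018000400000000000000000000000000000000000000) := T_3 (nat_lit 172) (nat_lit 154) (nat_lit 0) (nat_lit 5) (nat_lit 10) L32672 (by decide +kernel)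
theorem L32674 : W_3 (nat_lit 5) (nat_lit 0x48003e0010001700090000000000000000000000000000000) (nat_lit 0x0) (nat_lit 0x1380018001c00000000000000000000000000000000000000) := T_3 (nat_lit 155) (nat_lit 156) (nat_lit 0) (nat_lit 6) (nat_lit 10) L32673 (by decide +kernel)
theorem L32675 : W_3 (nat_lit 6) (nat_lit 0x48003c0010001700090000000000000000000000000000000) (nat_lit 0x0) (nat_lit 0x3380038001c00000000000000000000000000000000000000) := T_3 (nat_lit 173) (nat_lit 193) (nat_lit 3) (nat_lit 3) (nat_lit 10) L32674 (by decide +kernel)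
theorem L32676 : W_3 (nat_lit 7) (nat_lit 0x8003c0010001700090000000000000000000000000000000) (nat_lit 0x0) (nat_lit 0xf380038001c00000000000000000000000000000000000000) := T_3 (nat_lit 194) (nat_lit 195) (nat_lit 3) (nat_lit 4) (nat_lit 10) L32675 (by decide +kernel)
theorem L32677 : W_3 (nat_lit 8) (nat_lit 0x8003c0000001700090000000000000000000000000000000) (nat_lit 0x0) (nat_lit 0xf380038031c00000000000000000000000000000000000000) := T_3 (nat_lit 160) (nat_lit 161) (nat_lit 2) (nat_lit 4) (nat_lit 10) L32676 (by decide +kernel)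
theorem L32678 : W_3 (nat_lit 9) (nat_lit 0x8002c0000001700090000000000000000000000000000000) (nat_lit 0x0) (nat_lit 0xf780138031c00000000000000000000000000000000000000) := T_3 (nat_lit 176) (nat_lit 190) (nat_lit 1) (nat_lit 7) (nat_lit 10) L32677 (by decide +kernel)
theorem L32679 : W_3 (nat_lit 10) (nat_lit 0x800240000001700090000000000000000000000000000000) (nat_lit 0x0) (nat_lit 0xf7801b8035c00000000000000000000000000000000000000) := T_3 (nat_lit 175) (nat_lit 158) (nat_lit 5) (nat_lit 5) (nat_lit 7) L32678 (by decide +kernel)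
theorem L32680 : W_3 (nat_lit 11) (nat_lit 0x240000001700090000000000000000000000000000000) (nat_lit 0x0) (nat_lit 0xff801b8037c00000000000000000000000000000000000000) := T_3 (nat_lit 191) (nat_lit 157) (nat_lit 6) (nat_lit 4) (nat_lit 11) L32679 (by decide +kernel)
theorem L32681 : W_3 (nat_lit 2) (nat_lit 0x2600010017800b4000000000000000000000000000000) (nat_lit 0x0) (nat_lit 0x400000000000000008000400000000000000000000000000) := D_3 (nat_lit 123) (nat_lit 190) (nat_lit 106) (nat_lit 6) (nat_lit 3) (nat_lit 11) (nat_lit 6) (nat_lit 3) (nat_lit 10) (by decide +kernel)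
theorem L32682 : W_3 (nat_lit 3) (nat_lit 0x2400010017800b4000000000000000000000000000000) (nat_lit 0x0) (nat_lit 0xc00020000000000008000400000000000000000000000000) := T_3 (nat_lit 173) (nat_lit 191) (nat_lit 7) (nat_lit 3) (nat_lit 7) L32681 (by decide +kernel)
theorem L32683 : W_3 (nat_lit 4) (nat_lit 0x2400010017800b0000000000000000000000000000000) (nat_lit 0x0) (nat_lit 0xc0002000000000000e000400000000000000000000000000) := T_3 (nat_lit 122) (nat_lit 121) (nat_lit 0) (nat_lit 6) (nat_lit 8) L32682 (by decide +kernel)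
theorem L32684 : W_3 (nat_lit 5) (nat_lit 0x2400000017800b0000000000000000000000000000000) (nat_lit 0x0) (nat_lit 0xc0002000180000000e000400000000000000000000000000) := T_3 (nat_lit 156) (nat_lit 155) (nat_lit 1) (nat_lit 6) (nat_lit 8) L32683 (by decide +kernel)
theorem L32685 : W_3 (nat_lit 6) (nat_lit 0x2400000017000b0000000000000000000000000000000) (nat_lit 0x0) (nat_lit 0xc000200018000c000e000400000000000000000000000000) := T_3 (nat_lit 139) (nat_lit 138) (nat_lit 2) (nat_lit 2) (nat_lit 8) L32684 (by decide +kernel)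
theorem L32686 : W_3 (nat_lit 7) (nat_lit 0x240000001700090000000000000000000000000000000) (nat_lit 0x0) (nat_lit 0xc000200018000c006e000400000000000000000000000000) := T_3 (nat_lit 125) (nat_lit 126) (nat_lit 1) (nat_lit 8) (nat_lit 7) L32685 (by decide +kernel)
theorem L32687 : W_3 (nat_lit 2) (nat_lit 0x2400020017800b4000000000000000000000000000000) (nat_lit 0x0) (nat_lit 0x8000200010000000000000000000000) := D_3 (nat_lit 105) (nat_lit 88) (nat_lit 123) (nat_lit 7) (nat_lit 3) (nat_lit 5) (nat_lit 4) (nat_lit 4) (nat_lit 10) (by decide +kernel)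
theorem L32688 : W_3 (nat_lit 3) (nat_lit 0x2400020017800b0000000000000000000000000000000) (nat_lit 0x0) (nat_lit 0xe000200010000000000000000000000) := T_3 (nat_lit 122) (nat_lit 121) (nat_lit 0) (nat_lit 6) (nat_lit 8) L32687 (by decide +kernel)
theorem L32689 : W_3 (nat_lit 4) (nat_lit 0x2400020017000b0000000000000000000000000000000) (nat_lit 0x0) (nat_lit 0xc000e000200010000000000000000000000) := T_3 (nat_lit 139) (nat_lit 138) (nat_lit 2) (nat_lit 2) (nat_lit 8) L32688 (by decide +kernel)
theorem L32690 : W_3 (nat_lit 5) (nat_lit 0x2400000017000b0000000000000000000000000000000) (nat_lit 0x0) (nat_lit 0x8000000020000c000e000200010000000000000000000000) := T_3 (nat_lit 157) (nat_lit 191) (nat_lit 6) (nat_lit 4) (nat_lit 11) L32689 (by decide +kernel)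
theorem L32691 : W_3 (nat_lit 6) (nat_lit 0x240000001700090000000000000000000000000000000) (nat_lit 0x0) (nat_lit 0x8000000020000c006e000200010000000000000000000000) := T_3 (nat_lit 125) (nat_lit 126) (nat_lit 1) (nat_lit 8) (nat_lit 7) L32690 (by decide +kernel)
theorem L32692 : W_3 (nat_lit 2) (nat_lit 0x2400010017800b4000200000000000000000000000000) (nat_lit 0x0) (nat_lit 0x8000100008000000000000000000000) := D_3 (nat_lit 104) (nat_lit 123) (nat_lit 87) (nat_lit 0) (nat_lit 6) (nat_lit 7) (nat_lit 4) (nat_lit 3) (nat_lit 9) (by decide +kernel)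
theorem L32693 : W_3 (nat_lit 3) (nat_lit 0x2400010017800b4000000000000000000000000000000) (nat_lit 0x0) (nat_lit 0x2000000008000300008000000000000000000000) := T_3 (nat_lit 105) (nat_lit 157) (nat_lit 7) (nat_lit 3) (nat_lit 6) L32692 (by decide +kernel)
theorem L32694 : W_3 (nat_lit 4) (nat_lit 0x2400010017800b0000000000000000000000000000000) (nat_lit 0x0) (nat_lit 0x200000000e000300008000000000000000000000) := T_3 (nat_lit 122) (nat_lit 121) (nat_lit 0) (nat_lit 6) (nat_lit 8) L32693 (by decide +kernel)
theorem L32695 : W_3 (nat_lit 5) (nat_lit 0x2400000017800b0000000000000000000000000000000) (nat_lit 0x0) (nat_lit 0x380000000e000300008000000000000000000000) := T_3 (nat_lit 156) (nat_lit 155) (nat_lit 1) (nat_lit 6) (nat_lit 8) L32694 (by decide +kernel)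
theorem L32696 : W_3 (nat_lit 6) (nat_lit 0x2400000017000b0000000000000000000000000000000) (nat_lit 0x0) (nat_lit 0x38000c000e000300008000000000000000000000) := T_3 (nat_lit 139) (nat_lit 138) (nat_lit 2) (nat_lit 2) (nat_lit 8) L32695 (by decide +kernel)
theorem L32697 : W_3 (nat_lit 7) (nat_lit 0x240000001700090000000000000000000000000000000) (nat_lit 0x0) (nat_lit 0x38000c006e000300008000000000000000000000) := T_3 (nat_lit 125) (nat_lit 126) (nat_lit 1) (nat_lit 8) (nat_lit 7) L32696 (by decide +kernel)
theorem L32700 : W_3 (nat_lit 2) (nat_lit 0x800340010001b000d0000000000000000000000000000000) (nat_lit 0x0) (nat_lit 0x400080020000000000000000000000000000000000000000) := D_3 (nat_lit 175) (nat_lit 161) (nat_lit 190) (nat_lit 2) (nat_lit 4) (nat_lit 10) (nat_lit 1) (nat_lit 7) (nat_lit 10) (by decide +kernel)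
theorem L32701 : W_3 (nat_lit 3) (nat_lit 0x800240010001b000d0000000000000000000000000000000) (nat_lit 0x0) (nat_lit 0x2400180020000000000000000000000000000000000000000) := T_3 (nat_lit 176) (nat_lit 193) (nat_lit 5) (nat_lit 7) (nat_lit 7) L32700 (by decide +kernel)
theorem L32702 : W_3 (nat_lit 4) (nat_lit 0x800240000001b000d0000000000000000000000000000000) (nat_lit 0x0) (nat_lit 0x6400180030000000000000000000000000000000000000000) := T_3 (nat_lit 160) (nat_lit 194) (nat_lit 6) (nat_lit 7) (nat_lit 11) L32701 (by decide +kernel)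
theorem L32716 : W_3 (nat_lit 2) (nat_lit 0x2000020017800b4000a00000000000000000000000000) (nat_lit 0x0) (nat_lit 0x8000500000000000000000000000000) := D_3 (nat_lit 104) (nat_lit 106) (nat_lit 123) (nat_lit 3) (nat_lit 2) (nat_lit 6) (nat_lit 0) (nat_lit 6) (nat_lit 7) (by decide +kernel)
theorem L32717 : W_3 (nat_lit 3) (nat_lit 0x2000020017800b4000800000000000000000000000000) (nat_lit 0x0) (nat_lit 0x8000700010000000000000000000000) := T_3 (nat_lit 105) (nat_lit 88) (nat_lit 7) (nat_lit 3) (nat_lit 5) L32716 (by decide +kernel)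
theorem L32718 : W_3 (nat_lit 4) (nat_lit 0x2000020017800b0000800000000000000000000000000) (nat_lit 0x0) (nat_lit 0xe000700010000000000000000000000) := T_3 (nat_lit 122) (nat_lit 121) (nat_lit 0) (nat_lit 6) (nat_lit 8) L32717 (by decide +kernel)
theorem L32719 : W_3 (nat_lit 5) (nat_lit 0x2000020017000b0000800000000000000000000000000) (nat_lit 0x0) (nat_lit 0xc000e000700010000000000000000000000) := T_3 (nat_lit 139) (nat_lit 138) (nat_lit 2) (nat_lit 2) (nat_lit 8) L32718 (by decide +kernel)
theorem L32720 : W_3 (nat_lit 6) (nat_lit 0x2000020017000b0000000000000000000000000000000) (nat_lit 0x0) (nat_lit 0xc000e000f00050000000000000000000000) := T_3 (nat_lit 107) (nat_lit 90) (nat_lit 5) (nat_lit 5) (nat_lit 5) L32719 (by decide +kernel)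
theorem L32721 : W_3 (nat_lit 7) (nat_lit 0x200002001700090000000000000000000000000000000) (nat_lit 0x0) (nat_lit 0xc006e000f00050000000000000000000000) := T_3 (nat_lit 125) (nat_lit 126) (nat_lit 1) (nat_lit 8) (nat_lit 7) L32720 (by decide +kernel)
theorem L32722 : W_3 (nat_lit 5) (nat_lit 0x2000020017000b0000000000000000000000000000000) (nat_lit 0x0) (nat_lit 0x8000400000000c000e000200010000000000000000000000) := T_3 (nat_lit 174) (nat_lit 191) (nat_lit 6) (nat_lit 4) (nat_lit 11) L32689 (by decide +kernel)
theorem L32723 : W_3 (nat_lit 6) (nat_lit 0x200002001700090000000000000000000000000000000) (nat_lit 0x0) (nat_lit 0x8000400000000c006e000200010000000000000000000000) := T_3 (nat_lit 125) (nat_lit 126) (nat_lit 1) (nat_lit 8) (nat_lit 7) L32722 (by decide +kernel)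
theorem L32750 : W_3 (nat_lit 2) (nat_lit 0x380004001b00098000800000000000000000000000000) (nat_lit 0x0) (nat_lit 0x2000000000000000040002000000000000000000) := D_3 (nat_lit 90) (nat_lit 73) (nat_lit 157) (nat_lit 5) (nat_lit 5) (nat_lit 4) (nat_lit 5) (nat_lit 5) (nat_lit 5) (by decide +kernel)
theorem L32763 : W_3 (nat_lit 2) (nat_lit 0x4000380004001a00090000000000000000000000000000000) (nat_lit 0x0) (nat_lit 0x8800040000000000000000000000000000000000000000000) := D_3 (nat_lit 174) (nat_lit 195) (nat_lit 191) (nat_lit 3) (nat_lit 4) (nat_lit 10) (nat_lit 5) (nat_lit 5) (nat_lit 7) (by decide +kernel)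
theorem L32795 : W_3 (nat_lit 4) (nat_lit 0x4000200000001a00090000000000000000000000000000000) (nat_lit 0x0) (nat_lit 0x7000500140000000000000000000000000000000) := T_3 (nat_lit 142) (nat_lit 128) (nat_lit 2) (nat_lit 5) (nat_lit 8) L32794 (by decide +kernel)
theorem L32796 : W_3 (nat_lit 5) (nat_lit 0x200000001a00090000000000000000000000000000000) (nat_lit 0x0) (nat_lit 0x4000000017000500140000000000000000000000000000000) := T_3 (nat_lit 194) (nat_lit 160) (nat_lit 6) (nat_lit 7) (nat_lit 11) L32795 (by decide +kernel)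
theorem L32834 : W_3 (nat_lit 2) (nat_lit 0x340070002800140013000b0000d00000000000000000000000000) (nat_lit 0x0) (nat_lit 0x80000000000028000000000000000000000000000000000000000) := D_3 (nat_lit 161) (nat_lit 159) (nat_lit 211) (nat_lit 0) (nat_lit 8) (nat_lit 9) (nat_lit 6) (nat_lit 7) (nat_lit 12) (by decide +kernel)
theorem L32835 : W_3 (nat_lit 3) (nat_lit 0x340070002800040013000b0000d00000000000000000000000000) (nat_lit 0x0) (nat_lit 0x80000000000038000800000000000000000000000000000000000) := T_3 (nat_lit 160) (nat_lit 143) (nat_lit 6) (nat_lit 7) (nat_lit 11) L32834 (by decide +kernel)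
theorem L32836 : W_3 (nat_lit 4) (nat_lit 0x340030002800040013000b0000d00000000000000000000000000) (nat_lit 0x0) (nat_lit 0x8000c000000038000800000000000000000000000000000000000) := T_3 (nat_lit 194) (nat_lit 195) (nat_lit 1) (nat_lit 8) (nat_lit 11) L32835 (by decide +kernel)
theorem L32837 : W_3 (nat_lit 5) (nat_lit 0x300030002800040013000b0000d00000000000000000000000000) (nat_lit 0x0) (nat_lit 0x8c00c000000038000800000000000000000000000000000000000) := T_3 (nat_lit 206) (nat_lit 207) (nat_lit 2) (nat_lit 2) (nat_lit 12) L32836 (by decide +kernel)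
theorem L32838 : W_3 (nat_lit 6) (nat_lit 0x300030002800040012000b0000d00000000000000000000000000) (nat_lit 0x0) (nat_lit 0x8c00c00000003a000900000000000000000000000000000000000) := T_3 (nat_lit 140) (nat_lit 157) (nat_lit 4) (nat_lit 5) (nat_lit 12) L32837 (by decide +kernel)
theorem L32839 : W_3 (nat_lit 7) (nat_lit 0x100030002800040012000b0000d00000000000000000000000000) (nat_lit 0x0) (nat_lit 0x2000ac00c00000003a000900000000000000000000000000000000000) := T_3 (nat_lit 209) (nat_lit 225) (nat_lit 5) (nat_lit 5) (nat_lit 9) L32838 (by decide +kernel)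
theorem L32840 : W_3 (nat_lit 8) (nat_lit 0x100010002800040012000b0000d00000000000000000000000000) (nat_lit 0x0) (nat_lit 0x2000ec00e00000003a000900000000000000000000000000000000000) := T_3 (nat_lit 193) (nat_lit 210) (nat_lit 7) (nat_lit 5) (nat_lit 8) L32839 (by decide +kernel)
theorem L32841 : W_3 (nat_lit 9) (nat_lit 0x10002800040012000b0000d00000000000000000000000000) (nat_lit 0x0) (nat_lit 0x2000fc00e80000003a000900000000000000000000000000000000000) := T_3 (nat_lit 208) (nat_lit 191) (nat_lit 5) (nat_lit 5) (nat_lit 8) L32840 (by decide +kernel)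
theorem L32842 : W_3 (nat_lit 10) (nat_lit 0x2800040012000b0000d00000000000000000000000000) (nat_lit 0x0) (nat_lit 0x2000fc00f80000003a000d00000000000000000000000000000000000) := T_3 (nat_lit 192) (nat_lit 142) (nat_lit 6) (nat_lit 5) (nat_lit 11) L32841 (by decide +kernel)
theorem L32879 : W_3 (nat_lit 2) (nat_lit 0x200000001a000b0000000000000000000000000000000) (nat_lit 0x0) (nat_lit 0x400048000000000000000000000000000000) := D_3 (nat_lit 123) (nat_lit 126) (nat_lit 142) (nat_lit 3) (nat_lit 4) (nat_lit 7) (nat_lit 0) (nat_lit 8) (nat_lit 8) (by decide +kernel)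
theorem L32880 : W_3 (nat_lit 2) (nat_lit 0x200000001a000b0000000000000000000000000000000) (nat_lit 0x0) (nat_lit 0x400108000000000000000000000000000000) := D_3 (nat_lit 142) (nat_lit 128) (nat_lit 123) (nat_lit 2) (nat_lit 5) (nat_lit 8) (nat_lit 0) (nat_lit 8) (nat_lit 8) (by decide +kernel)
theorem L32909 : W_3 (nat_lit 4) (nat_lit 0x200000001600090000800000000000000000000000000) (nat_lit 0x0) (nat_lit 0x80000000200000000c0006000200000000000000) := T_3 (nat_lit 90) (nat_lit 159) (nat_lit 7) (nat_lit 5) (nat_lit 5) L31965 (by decide +kernel)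
theorem L32918 : W_3 (nat_lit 2) (nat_lit 0x2800040016000d0000c00000000000000000000000000) (nat_lit 0x0) (nat_lit 0x2000100008000000000000000000000000000000000000000) := D_3 (nat_lit 176) (nat_lit 159) (nat_lit 193) (nat_lit 7) (nat_lit 5) (nat_lit 6) (nat_lit 7) (nat_lit 5) (nat_lit 7) (by decide +kernel)
theorem L32919 : W_3 (nat_lit 3) (nat_lit 0x2000040016000d0000c00000000000000000000000000) (nat_lit 0x0) (nat_lit 0x2000180008000000008000000000000000000000000000000) := T_3 (nat_lit 175) (nat_lit 123) (nat_lit 4) (nat_lit 5) (nat_lit 10) L32918 (by decide +kernel)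
theorem L32920 : W_3 (nat_lit 4) (nat_lit 0x200004001600090000c00000000000000000000000000) (nat_lit 0x0) (nat_lit 0x2000180008000000068000000000000000000000000000000) := T_3 (nat_lit 126) (nat_lit 125) (nat_lit 0) (nat_lit 8) (nat_lit 7) L32919 (by decide +kernel)
theorem L32921 : W_3 (nat_lit 5) (nat_lit 0x200004001600090000800000000000000000000000000) (nat_lit 0x0) (nat_lit 0x2000180008000000068000400020000000000000000000000) := T_3 (nat_lit 106) (nat_lit 89) (nat_lit 4) (nat_lit 5) (nat_lit 9) L32920 (by decide +kernel)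
theorem L32922 : W_3 (nat_lit 2) (nat_lit 0x2800040016000d0000c00000000000000000000000000) (nat_lit 0x0) (nat_lit 0x800040002000000000000000000000000000000000000000) := D_3 (nat_lit 174) (nat_lit 157) (nat_lit 191) (nat_lit 5) (nat_lit 5) (nat_lit 6) (nat_lit 5) (nat_lit 5) (nat_lit 7) (by decide +kernel)
theorem L32923 : W_3 (nat_lit 3) (nat_lit 0x2000040016000d0000c00000000000000000000000000) (nat_lit 0x0) (nat_lit 0x8000c0002000000008000000000000000000000000000000) := T_3 (nat_lit 175) (nat_lit 123) (nat_lit 4) (nat_lit 5) (nat_lit 10) L32922 (by decide +kernel)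
theorem L32924 : W_3 (nat_lit 4) (nat_lit 0x200004001600090000c00000000000000000000000000) (nat_lit 0x0) (nat_lit 0x8000c0002000000068000000000000000000000000000000) := T_3 (nat_lit 126) (nat_lit 125) (nat_lit 0) (nat_lit 8) (nat_lit 7) L32923 (by decide +kernel)
theorem L32925 : W_3 (nat_lit 5) (nat_lit 0x200004001600090000800000000000000000000000000) (nat_lit 0x0) (nat_lit 0x8000c0002000000068000400020000000000000000000000) := T_3 (nat_lit 106) (nat_lit 89) (nat_lit 4) (nat_lit 5) (nat_lit 9) L32924 (by decide +kernel)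
theorem L32967 : W_3 (nat_lit 2) (nat_lit 0x10007000280004001a000b8000000000000000000000000000000) (nat_lit 0x0) (nat_lit 0x200020008000000000000000000000000000000000000000000000000) := D_3 (nat_lit 209) (nat_lit 195) (nat_lit 225) (nat_lit 1) (nat_lit 8) (nat_lit 11) (nat_lit 5) (nat_lit 5) (nat_lit 9) (by decide +kernel)
theorem L32968 : W_3 (nat_lit 3) (nat_lit 0x7000280004001a000b8000000000000000000000000000000) (nat_lit 0x0) (nat_lit 0x200030008800000000000000000000000000000000000000000000000) := T_3 (nat_lit 208) (nat_lit 191) (nat_lit 5) (nat_lit 5) (nat_lit 8) L32967 (by decide +kernel)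
theorem L32969 : W_3 (nat_lit 4) (nat_lit 0x6000280004001a000b8000000000000000000000000000000) (nat_lit 0x0) (nat_lit 0x200070009800000000000000000000000000000000000000000000000) := T_3 (nat_lit 192) (nat_lit 210) (nat_lit 7) (nat_lit 5) (nat_lit 8) L32968 (by decide +kernel)
theorem L32974 : W_3 (nat_lit 2) (nat_lit 0x40003c0004001a00090000000000000000000000000000000) (nat_lit 0x0) (nat_lit 0x3000000000000800000000000000000000000000) := D_3 (nat_lit 157) (nat_lit 156) (nat_lit 107) (nat_lit 0) (nat_lit 7) (nat_lit 10) (nat_lit 5) (nat_lit 5) (nat_lit 6) (by decide +kernel)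
theorem L32975 : W_3 (nat_lit 3) (nat_lit 0x4000380004001a00090000000000000000000000000000000) (nat_lit 0x0) (nat_lit 0x8000040003000000000000800000000000000000000000000) := T_3 (nat_lit 174) (nat_lit 195) (nat_lit 3) (nat_lit 4) (nat_lit 10) L32974 (by decide +kernel)
theorem L33002 : W_3 (nat_lit 2) (nat_lit 0x4000380004001a000d0000c00000000000000000000000000) (nat_lit 0x0) (nat_lit 0x8800040000000000000000000000000000000000000000000) := D_3 (nat_lit 174) (nat_lit 195) (nat_lit 191) (nat_lit 3) (nat_lit 4) (nat_lit 10) (nat_lit 5) (nat_lit 5) (nat_lit 7) (by decide +kernel)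
theorem L33003 : W_3 (nat_lit 3) (nat_lit 0x380004001a000d0000c00000000000000000000000000) (nat_lit 0x0) (nat_lit 0xc800040010000000000000000000000000000000000000000) := T_3 (nat_lit 194) (nat_lit 160) (nat_lit 6) (nat_lit 7) (nat_lit 11) L33002 (by decide +kernel)
theorem L33004 : W_3 (nat_lit 4) (nat_lit 0x300004001a000d0000c00000000000000000000000000) (nat_lit 0x0) (nat_lit 0xc8000c0010000000008000000000000000000000000000000) := T_3 (nat_lit 175) (nat_lit 123) (nat_lit 4) (nat_lit 5) (nat_lit 10) L33003 (by decide +kernel)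
theorem L33005 : W_3 (nat_lit 5) (nat_lit 0x300004001a00090000c00000000000000000000000000) (nat_lit 0x0) (nat_lit 0xc8000c0010000000068000000000000000000000000000000) := T_3 (nat_lit 126) (nat_lit 125) (nat_lit 0) (nat_lit 8) (nat_lit 7) L33004 (by decide +kernel)
theorem L33006 : W_3 (nat_lit 6) (nat_lit 0x300004001a00090000800000000000000000000000000) (nat_lit 0x0) (nat_lit 0xc8000c0010000000068000400020000000000000000000000) := T_3 (nat_lit 106) (nat_lit 89) (nat_lit 4) (nat_lit 5) (nat_lit 9) L33005 (by decide +kernel)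
theorem L33007 : W_3 (nat_lit 7) (nat_lit 0x300004001a00090000000000000000000000000000000) (nat_lit 0x0) (nat_lit 0xc8000c0018000000068000c00020000000000000000000000) := T_3 (nat_lit 107) (nat_lit 159) (nat_lit 7) (nat_lit 5) (nat_lit 6) L33006 (by decide +kernel)
theorem L33020 : W_3 (nat_lit 2) (nat_lit 0x200004001a00090000000000000000000000000000000) (nat_lit 0x0) (nat_lit 0x2000400100000000000000000000000000000000) := D_3 (nat_lit 142) (nat_lit 128) (nat_lit 157) (nat_lit 2) (nat_lit 5) (nat_lit 8) (nat_lit 1) (nat_lit 8) (nat_lit 8) (by decide +kernel)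
theorem L33021 : W_3 (nat_lit 2) (nat_lit 0x3c0014001a00090000000000000000000000000000000) (nat_lit 0x0) (nat_lit 0x20008000000000000800000000000000000000000000) := D_3 (nat_lit 159) (nat_lit 173) (nat_lit 107) (nat_lit 2) (nat_lit 3) (nat_lit 10) (nat_lit 7) (nat_lit 5) (nat_lit 6) (by decide +kernel)
theorem L33022 : W_3 (nat_lit 3) (nat_lit 0x3c0004001a00090000000000000000000000000000000) (nat_lit 0x0) (nat_lit 0x20038000000000000800000000000000000000000000) := T_3 (nat_lit 160) (nat_lit 161) (nat_lit 2) (nat_lit 4) (nat_lit 10) L33021 (by decide +kernel)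
theorem L33023 : W_3 (nat_lit 4) (nat_lit 0x380004001a00090000000000000000000000000000000) (nat_lit 0x0) (nat_lit 0x800060038000000000000800000000000000000000000000) := T_3 (nat_lit 174) (nat_lit 191) (nat_lit 5) (nat_lit 5) (nat_lit 7) L33022 (by decide +kernel)
theorem L33024 : W_3 (nat_lit 5) (nat_lit 0x300004001a00090000000000000000000000000000000) (nat_lit 0x0) (nat_lit 0x28000e0038000000000000800000000000000000000000000) := T_3 (nat_lit 175) (nat_lit 193) (nat_lit 7) (nat_lit 5) (nat_lit 7) L33023 (by decide +kernel)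
theorem L33119 : W_3 (nat_lit 2) (nat_lit 0x40003c0004001a00090000400000000000000000000000000) (nat_lit 0x0) (nat_lit 0x8000000000000800020000000000000000000000) := D_3 (nat_lit 107) (nat_lit 159) (nat_lit 89) (nat_lit 7) (nat_lit 5) (nat_lit 6) (nat_lit 4) (nat_lit 5) (nat_lit 9) (by decide +kernel)
theorem L33120 : W_3 (nat_lit 3) (nat_lit 0x40003c0004001a00090000000000000000000000000000000) (nat_lit 0x0) (nat_lit 0x8000000008000c00020000000000000000000000) := T_3 (nat_lit 106) (nat_lit 123) (nat_lit 4) (nat_lit 5) (nat_lit 10) L33119 (by decide +kernel)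
theorem L33150 : W_3 (nat_lit 2) (nat_lit 0x20000c001e00090000000000000000000000000000000) (nat_lit 0x0) (nat_lit 0x2000100000000000000000800000000000000000000000000) := D_3 (nat_lit 176) (nat_lit 193) (nat_lit 107) (nat_lit 4) (nat_lit 6) (nat_lit 11) (nat_lit 7) (nat_lit 5) (nat_lit 6) (by decide +kernel)
theorem L33203 : W_3 (nat_lit 2) (nat_lit 0x380004001200098000800000000000000000000000000) (nat_lit 0x0) (nat_lit 0x20001000080000000000000000000000) := D_3 (nat_lit 108) (nat_lit 91) (nat_lit 125) (nat_lit 6) (nat_lit 5) (nat_lit 9) (nat_lit 6) (nat_lit 5) (nat_lit 10) (by decide +kernel)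
theorem L33204 : W_3 (nat_lit 3) (nat_lit 0x380004001200098000000000000000000000000000000) (nat_lit 0x0) (nat_lit 0x8000000020001800080000000000000000000000) := T_3 (nat_lit 107) (nat_lit 159) (nat_lit 7) (nat_lit 5) (nat_lit 6) L33203 (by decide +kernel)
theorem L33205 : W_3 (nat_lit 4) (nat_lit 0x280004001200098000000000000000000000000000000) (nat_lit 0x0) (nat_lit 0x2000100008000000020001800080000000000000000000000) := T_3 (nat_lit 176) (nat_lit 193) (nat_lit 7) (nat_lit 5) (nat_lit 7) L33204 (by decide +kernel)
theorem L33206 : W_3 (nat_lit 5) (nat_lit 0x280004001200090000000000000000000000000000000) (nat_lit 0x0) (nat_lit 0x2000100008000000028001c00080000000000000000000000) := T_3 (nat_lit 123) (nat_lit 106) (nat_lit 4) (nat_lit 5) (nat_lit 10) L33205 (by decide +kernel)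
theorem L33207 : W_3 (nat_lit 2) (nat_lit 0x380004001200098000800000000000000000000000000) (nat_lit 0x0) (nat_lit 0x800040002000000000000000000000000000000000000000) := D_3 (nat_lit 174) (nat_lit 191) (nat_lit 157) (nat_lit 5) (nat_lit 5) (nat_lit 7) (nat_lit 5) (nat_lit 5) (nat_lit 6) (by decide +kernel)
theorem L33208 : W_3 (nat_lit 3) (nat_lit 0x380004001200098000000000000000000000000000000) (nat_lit 0x0) (nat_lit 0x80004000a000000000000800000000000000000000000000) := T_3 (nat_lit 107) (nat_lit 159) (nat_lit 7) (nat_lit 5) (nat_lit 6) L33207 (by decide +kernel)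
theorem L33209 : W_3 (nat_lit 4) (nat_lit 0x280004001200098000000000000000000000000000000) (nat_lit 0x0) (nat_lit 0x280014000a000000000000800000000000000000000000000) := T_3 (nat_lit 176) (nat_lit 193) (nat_lit 7) (nat_lit 5) (nat_lit 7) L33208 (by decide +kernel)
theorem L33210 : W_3 (nat_lit 5) (nat_lit 0x280004001200090000000000000000000000000000000) (nat_lit 0x0) (nat_lit 0x280014000a000000008000c00000000000000000000000000) := T_3 (nat_lit 123) (nat_lit 106) (nat_lit 4) (nat_lit 5) (nat_lit 10) L33209 (by decide +kernel)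
theorem L33211 : W_3 (nat_lit 2) (nat_lit 0x2800040012000b8000000000000000000000000000000) (nat_lit 0x0) (nat_lit 0x1000000000000100040000000000000000000000000000000) := D_3 (nat_lit 140) (nat_lit 126) (nat_lit 192) (nat_lit 1) (nat_lit 8) (nat_lit 7) (nat_lit 4) (nat_lit 5) (nat_lit 11) (by decide +kernel)
theorem L33212 : W_3 (nat_lit 3) (nat_lit 0x280004001200098000000000000000000000000000000) (nat_lit 0x0) (nat_lit 0x1000000000000100060001000000000000000000000000000) := T_3 (nat_lit 125) (nat_lit 108) (nat_lit 6) (nat_lit 5) (nat_lit 10) L33211 (by decide +kernel)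
theorem L33213 : W_3 (nat_lit 4) (nat_lit 0x280004001200090000000000000000000000000000000) (nat_lit 0x0) (nat_lit 0x1000000000000100068001400000000000000000000000000) := T_3 (nat_lit 123) (nat_lit 106) (nat_lit 4) (nat_lit 5) (nat_lit 10) L33212 (by decide +kernel)
theorem L33218 : W_3 (nat_lit 4) (nat_lit 0x280004001200090000000000000000000000000000000) (nat_lit 0x0) (nat_lit 0x2000100008000000020001800080000000000000000000000) := T_3 (nat_lit 176) (nat_lit 193) (nat_lit 7) (nat_lit 5) (nat_lit 7) L13761 (by decide +kernel)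
theorem L33370 : W_3 (nat_lit 2) (nat_lit 0x2c0006001a00098000000000000000000000000000000) (nat_lit 0x0) (nat_lit 0x4000000018000000000000000000000000000000000000000) := D_3 (nat_lit 160) (nat_lit 194) (nat_lit 159) (nat_lit 6) (nat_lit 7) (nat_lit 11) (nat_lit 2) (nat_lit 4) (nat_lit 9) (by decide +kernel)
theorem L33371 : W_3 (nat_lit 3) (nat_lit 0x2c0004001a00098000000000000000000000000000000) (nat_lit 0x0) (nat_lit 0x400000001a000000000000800000000000000000000000000) := T_3 (nat_lit 157) (nat_lit 107) (nat_lit 5) (nat_lit 5) (nat_lit 6) L33370 (by decide +kernel)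
theorem L33372 : W_3 (nat_lit 4) (nat_lit 0x280004001a00098000000000000000000000000000000) (nat_lit 0x0) (nat_lit 0x480004001a000000000000800000000000000000000000000) := T_3 (nat_lit 174) (nat_lit 191) (nat_lit 5) (nat_lit 5) (nat_lit 7) L33371 (by decide +kernel)
theorem L33373 : W_3 (nat_lit 5) (nat_lit 0x280004001200098000000000000000000000000000000) (nat_lit 0x0) (nat_lit 0x480004001a000c00000000800000000000000000000000000) := T_3 (nat_lit 143) (nat_lit 142) (nat_lit 0) (nat_lit 8) (nat_lit 8) L33372 (by decide +kernel)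
theorem L33374 : W_3 (nat_lit 6) (nat_lit 0x280004001200090000000000000000000000000000000) (nat_lit 0x0) (nat_lit 0x480004001a000c00008000c00000000000000000000000000) := T_3 (nat_lit 123) (nat_lit 106) (nat_lit 4) (nat_lit 5) (nat_lit 10) L33373 (by decide +kernel)
theorem L33379 : W_3 (nat_lit 2) (nat_lit 0x8007c002a0014001300080000000000000000000000000000000) (nat_lit 0x0) (nat_lit 0x80000000000028000000000000000000000000000000000000000) := D_3 (nat_lit 161) (nat_lit 159) (nat_lit 211) (nat_lit 0) (nat_lit 8) (nat_lit 9) (nat_lit 6) (nat_lit 7) (nat_lit 12) (by decide +kernel)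
theorem L33380 : W_3 (nat_lit 3) (nat_lit 0x8007c002a0004001300080000000000000000000000000000000) (nat_lit 0x0) (nat_lit 0x80000000000038000800000000000000000000000000000000000) := T_3 (nat_lit 160) (nat_lit 143) (nat_lit 6) (nat_lit 7) (nat_lit 11) L33379 (by decide +kernel)
theorem L33381 : W_3 (nat_lit 4) (nat_lit 0x8003c002a0004001300080000000000000000000000000000000) (nat_lit 0x0) (nat_lit 0x80004000040038000800000000000000000000000000000000000) := T_3 (nat_lit 194) (nat_lit 174) (nat_lit 0) (nat_lit 7) (nat_lit 11) L33380 (by decide +kernel)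
theorem L33382 : W_3 (nat_lit 5) (nat_lit 0x8003c00280004001300080000000000000000000000000000000) (nat_lit 0x0) (nat_lit 0x80004000070038000800000000000000000000000000000000000) := T_3 (nat_lit 173) (nat_lit 172) (nat_lit 0) (nat_lit 6) (nat_lit 11) L33381 (by decide +kernel)
theorem L33383 : W_3 (nat_lit 6) (nat_lit 0x3c00280004001300080000000000000000000000000000000) (nat_lit 0x0) (nat_lit 0x8c004000070038000800000000000000000000000000000000000) := T_3 (nat_lit 207) (nat_lit 206) (nat_lit 1) (nat_lit 6) (nat_lit 11) L33382 (by decide +kernel)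
theorem L33384 : W_3 (nat_lit 7) (nat_lit 0x3800280004001300080000000000000000000000000000000) (nat_lit 0x0) (nat_lit 0x8c004400170038000800000000000000000000000000000000000) := T_3 (nat_lit 190) (nat_lit 176) (nat_lit 2) (nat_lit 3) (nat_lit 11) L33383 (by decide +kernel)
theorem L33389 : W_3 (nat_lit 2) (nat_lit 0x2800fc001a00080000000000000000000000000000000) (nat_lit 0x0) (nat_lit 0x3800000000000000000000000000000000000000000000) := D_3 (nat_lit 180) (nat_lit 179) (nat_lit 181) (nat_lit 3) (nat_lit 6) (nat_lit 9) (nat_lit 3) (nat_lit 7) (nat_lit 9) (by decide +kernel)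
theorem L33390 : W_3 (nat_lit 3) (nat_lit 0x28007c001a00080000000000000000000000000000000) (nat_lit 0x0) (nat_lit 0x3800180000000000000000000000000000000000000000) := T_3 (nat_lit 163) (nat_lit 164) (nat_lit 0) (nat_lit 11) (nat_lit 9) L33389 (by decide +kernel)
theorem L33391 : W_3 (nat_lit 4) (nat_lit 0x28003c001a00080000000000000000000000000000000) (nat_lit 0x0) (nat_lit 0x39001c0000000000000000000000000000000000000000) := T_3 (nat_lit 162) (nat_lit 176) (nat_lit 1) (nat_lit 9) (nat_lit 9) L33390 (by decide +kernel)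
theorem L33401 : W_3 (nat_lit 2) (nat_lit 0x280004001a00098000000000000000000000000000000) (nat_lit 0x0) (nat_lit 0x60001000000000000000000000000000) := D_3 (nat_lit 125) (nat_lit 108) (nat_lit 126) (nat_lit 6) (nat_lit 5) (nat_lit 10) (nat_lit 3) (nat_lit 4) (nat_lit 7) (by decide +kernel)
theorem L33402 : W_3 (nat_lit 3) (nat_lit 0x280004001200098000000000000000000000000000000) (nat_lit 0x0) (nat_lit 0xc00060001000000000000000000000000000) := T_3 (nat_lit 143) (nat_lit 142) (nat_lit 0) (nat_lit 8) (nat_lit 8) L33401 (by decide +kernel)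
theorem L33403 : W_3 (nat_lit 4) (nat_lit 0x280004001200090000000000000000000000000000000) (nat_lit 0x0) (nat_lit 0xc00068001400000000000000000000000000) := T_3 (nat_lit 123) (nat_lit 106) (nat_lit 4) (nat_lit 5) (nat_lit 10) L33402 (by decide +kernel)
theorem L33437 : W_3 (nat_lit 2) (nat_lit 0x1000280004001a00098000000000000000000000000000000) (nat_lit 0x0) (nat_lit 0x10000800040000000000000000000000000000000000000000000) := D_3 (nat_lit 191) (nat_lit 174) (nat_lit 208) (nat_lit 5) (nat_lit 5) (nat_lit 7) (nat_lit 5) (nat_lit 5) (nat_lit 8) (by decide +kernel)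
theorem L33438 : W_3 (nat_lit 3) (nat_lit 0x280004001a00098000000000000000000000000000000) (nat_lit 0x0) (nat_lit 0x10001800040000000100000000000000000000000000000000000) := T_3 (nat_lit 192) (nat_lit 140) (nat_lit 4) (nat_lit 5) (nat_lit 11) L33437 (by decide +kernel)
theorem L33439 : W_3 (nat_lit 4) (nat_lit 0x280004001200098000000000000000000000000000000) (nat_lit 0x0) (nat_lit 0x10001800040000000d00000000000000000000000000000000000) := T_3 (nat_lit 143) (nat_lit 142) (nat_lit 0) (nat_lit 8) (nat_lit 8) L33438 (by decide +kernel)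
theorem L33440 : W_3 (nat_lit 5) (nat_lit 0x280004001200090000000000000000000000000000000) (nat_lit 0x0) (nat_lit 0x10001800040000000d00008000400000000000000000000000000) := T_3 (nat_lit 123) (nat_lit 106) (nat_lit 4) (nat_lit 5) (nat_lit 10) L33439 (by decide +kernel)
theorem L33449 : W_3 (nat_lit 2) (nat_lit 0x2c0004001200090000800000000000000000000000000) (nat_lit 0x0) (nat_lit 0x20001000080000000000000000000000) := D_3 (nat_lit 108) (nat_lit 125) (nat_lit 91) (nat_lit 6) (nat_lit 5) (nat_lit 10) (nat_lit 6) (nat_lit 5) (nat_lit 9) (by decide +kernel)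
theorem L33450 : W_3 (nat_lit 3) (nat_lit 0x2c0004001200090000000000000000000000000000000) (nat_lit 0x0) (nat_lit 0x2000000020001800080000000000000000000000) := T_3 (nat_lit 107) (nat_lit 157) (nat_lit 5) (nat_lit 5) (nat_lit 6) L33449 (by decide +kernel)
theorem L33451 : W_3 (nat_lit 4) (nat_lit 0x280004001200090000000000000000000000000000000) (nat_lit 0x0) (nat_lit 0x800040002000000020001800080000000000000000000000) := T_3 (nat_lit 174) (nat_lit 191) (nat_lit 5) (nat_lit 5) (nat_lit 7) L33450 (by decide +kernel)
theorem L33469 : W_3 (nat_lit 2) (nat_lit 0x40003e0000001200080000000000000000000000000000000) (nat_lit 0x0) (nat_lit 0x38000000000000000000000000000000000000000) := D_3 (nat_lit 160) (nat_lit 159) (nat_lit 161) (nat_lit 2) (nat_lit 3) (nat_lit 10) (nat_lit 2) (nat_lit 4) (nat_lit 10) (by decide +kernel)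
theorem L33470 : W_3 (nat_lit 3) (nat_lit 0x40003c0000001200080000000000000000000000000000000) (nat_lit 0x0) (nat_lit 0x2000020038000000000000000000000000000000000000000) := T_3 (nat_lit 173) (nat_lit 193) (nat_lit 3) (nat_lit 3) (nat_lit 10) L33469 (by decide +kernel)
theorem L33471 : W_3 (nat_lit 4) (nat_lit 0x3c0000001200080000000000000000000000000000000) (nat_lit 0x0) (nat_lit 0xe000020038000000000000000000000000000000000000000) := T_3 (nat_lit 194) (nat_lit 195) (nat_lit 3) (nat_lit 4) (nat_lit 10) L33470 (by decide +kernel)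
theorem L33472 : W_3 (nat_lit 2) (nat_lit 0x48003c0002001300080000000000000000000000000000000) (nat_lit 0x0) (nat_lit 0x20001000000000000000008000000000000000000000000000000) := D_3 (nat_lit 192) (nat_lit 123) (nat_lit 209) (nat_lit 7) (nat_lit 4) (nat_lit 7) (nat_lit 7) (nat_lit 4) (nat_lit 8) (by decide +kernel)
theorem L33473 : W_3 (nat_lit 3) (nat_lit 0x48003c0002001200080000000000000000000000000000000) (nat_lit 0x0) (nat_lit 0x20001000000000000100018000000000000000000000000000000) := T_3 (nat_lit 140) (nat_lit 124) (nat_lit 6) (nat_lit 4) (nat_lit 11) L33472 (by decide +kernel)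
theorem L33474 : W_3 (nat_lit 4) (nat_lit 0x8003c0002001200080000000000000000000000000000000) (nat_lit 0x0) (nat_lit 0x2000d000000000000100018000000000000000000000000000000) := T_3 (nat_lit 194) (nat_lit 195) (nat_lit 3) (nat_lit 4) (nat_lit 10) L33473 (by decide +kernel)
theorem L33475 : W_3 (nat_lit 5) (nat_lit 0x8003c0000001200080000000000000000000000000000000) (nat_lit 0x0) (nat_lit 0x2000d000000003000100018000000000000000000000000000000) := T_3 (nat_lit 157) (nat_lit 156) (nat_lit 0) (nat_lit 7) (nat_lit 10) L33474 (by decide +kernel)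
theorem L33476 : W_3 (nat_lit 6) (nat_lit 0x3c0000001200080000000000000000000000000000000) (nat_lit 0x0) (nat_lit 0x2000dc00000003000100018000000000000000000000000000000) := T_3 (nat_lit 191) (nat_lit 190) (nat_lit 1) (nat_lit 7) (nat_lit 10) L33475 (by decide +kernel)
theorem L33489 : W_3 (nat_lit 2) (nat_lit 0x40003e0000001200080000000000000000000000000000000) (nat_lit 0x0) (nat_lit 0x3800000000000000000000000000000000000000) := D_3 (nat_lit 156) (nat_lit 155) (nat_lit 157) (nat_lit 0) (nat_lit 6) (nat_lit 10) (nat_lit 0) (nat_lit 7) (nat_lit 10) (by decide +kernel)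
theorem L33490 : W_3 (nat_lit 3) (nat_lit 0x40003c0000001200080000000000000000000000000000000) (nat_lit 0x0) (nat_lit 0x2000020003800000000000000000000000000000000000000) := T_3 (nat_lit 173) (nat_lit 193) (nat_lit 3) (nat_lit 3) (nat_lit 10) L33489 (by decide +kernel)
theorem L33491 : W_3 (nat_lit 4) (nat_lit 0x3c0000001200080000000000000000000000000000000) (nat_lit 0x0) (nat_lit 0xe000020003800000000000000000000000000000000000000) := T_3 (nat_lit 194) (nat_lit 195) (nat_lit 3) (nat_lit 4) (nat_lit 10) L33490 (by decide +kernel)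
theorem L33502 : W_3 (nat_lit 2) (nat_lit 0x3e0012001200080000000000000000000000000000000) (nat_lit 0x0) (nat_lit 0xe00000000000000000000000000000000000000000000000) := D_3 (nat_lit 190) (nat_lit 189) (nat_lit 191) (nat_lit 1) (nat_lit 6) (nat_lit 10) (nat_lit 1) (nat_lit 7) (nat_lit 10) (by decide +kernel)
theorem L33503 : W_3 (nat_lit 3) (nat_lit 0x3c0012001200080000000000000000000000000000000) (nat_lit 0x0) (nat_lit 0xe00020008000000000000000000000000000000000000000) := T_3 (nat_lit 173) (nat_lit 159) (nat_lit 2) (nat_lit 3) (nat_lit 10) L33502 (by decide +kernel)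
theorem L33504 : W_3 (nat_lit 4) (nat_lit 0x3c0002001200080000000000000000000000000000000) (nat_lit 0x0) (nat_lit 0xe00020038000000000000000000000000000000000000000) := T_3 (nat_lit 160) (nat_lit 161) (nat_lit 2) (nat_lit 4) (nat_lit 10) L33503 (by decide +kernel)
theorem L33505 : W_3 (nat_lit 5) (nat_lit 0x3c0000001200080000000000000000000000000000000) (nat_lit 0x0) (nat_lit 0xe0002003b000000000000000000000000000000000000000) := T_3 (nat_lit 157) (nat_lit 156) (nat_lit 0) (nat_lit 7) (nat_lit 10) L33504 (by decide +kernel)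
theorem L33512 : W_3 (nat_lit 2) (nat_lit 0x3e0010001200080000000000000000000000000000000) (nat_lit 0x0) (nat_lit 0x3800000000000000000000000000000000000000) := D_3 (nat_lit 156) (nat_lit 155) (nat_lit 157) (nat_lit 0) (nat_lit 6) (nat_lit 10) (nat_lit 0) (nat_lit 7) (nat_lit 10) (by decide +kernel)
theorem L33513 : W_3 (nat_lit 3) (nat_lit 0x3c0010001200080000000000000000000000000000000) (nat_lit 0x0) (nat_lit 0x2000b800000000000000000000000000000000000000) := T_3 (nat_lit 173) (nat_lit 159) (nat_lit 2) (nat_lit 3) (nat_lit 10) L33512 (by decide +kernel)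
theorem L33514 : W_3 (nat_lit 4) (nat_lit 0x3c0000001200080000000000000000000000000000000) (nat_lit 0x0) (nat_lit 0x2003b800000000000000000000000000000000000000) := T_3 (nat_lit 160) (nat_lit 161) (nat_lit 2) (nat_lit 4) (nat_lit 10) L33513 (by decide +kernel)
theorem L33519 : W_3 (nat_lit 2) (nat_lit 0x40003e0000001200080000000000000000000000000000000) (nat_lit 0x0) (nat_lit 0xe00000000000000000000000000000000000000000000000) := D_3 (nat_lit 190) (nat_lit 189) (nat_lit 191) (nat_lit 1) (nat_lit 6) (nat_lit 10) (nat_lit 1) (nat_lit 7) (nat_lit 10) (by decide +kernel)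
theorem L33520 : W_3 (nat_lit 3) (nat_lit 0x40003c0000001200080000000000000000000000000000000) (nat_lit 0x0) (nat_lit 0x2e00020000000000000000000000000000000000000000000) := T_3 (nat_lit 173) (nat_lit 193) (nat_lit 3) (nat_lit 3) (nat_lit 10) L33519 (by decide +kernel)
theorem L33553 : W_3 (nat_lit 2) (nat_lit 0x34007000280014001300080000000000000000000000000000000) (nat_lit 0x0) (nat_lit 0x80000000000028000000000000000000000000000000000000000) := D_3 (nat_lit 161) (nat_lit 159) (nat_lit 211) (nat_lit 0) (nat_lit 8) (nat_lit 9) (nat_lit 6) (nat_lit 7) (nat_lit 12) (by decide +kernel)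
theorem L33554 : W_3 (nat_lit 3) (nat_lit 0x34007000280004001300080000000000000000000000000000000) (nat_lit 0x0) (nat_lit 0x80000000000038000800000000000000000000000000000000000) := T_3 (nat_lit 160) (nat_lit 143) (nat_lit 6) (nat_lit 7) (nat_lit 11) L33553 (by decide +kernel)
theorem L33555 : W_3 (nat_lit 4) (nat_lit 0x34003000280004001300080000000000000000000000000000000) (nat_lit 0x0) (nat_lit 0x8000c000000038000800000000000000000000000000000000000) := T_3 (nat_lit 194) (nat_lit 195) (nat_lit 1) (nat_lit 8) (nat_lit 11) L33554 (by decide +kernel)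
theorem L33556 : W_3 (nat_lit 5) (nat_lit 0x30003000280004001300080000000000000000000000000000000) (nat_lit 0x0) (nat_lit 0x8c00c000000038000800000000000000000000000000000000000) := T_3 (nat_lit 206) (nat_lit 207) (nat_lit 2) (nat_lit 2) (nat_lit 12) L33555 (by decide +kernel)
theorem L33573 : W_3 (nat_lit 2) (nat_lit 0x70002d001400120009a001800000000000000000000000000) (nat_lit 0x0) (nat_lit 0x80000000000028000000000000000000000000000000000000000) := D_3 (nat_lit 161) (nat_lit 159) (nat_lit 211) (nat_lit 1) (nat_lit 8) (nat_lit 9) (nat_lit 6) (nat_lit 7) (nat_lit 12) (by decide +kernel)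
theorem L33574 : W_3 (nat_lit 3) (nat_lit 0x70002d000400120009a001800000000000000000000000000) (nat_lit 0x0) (nat_lit 0x80000000000038000800000000000000000000000000000000000) := T_3 (nat_lit 160) (nat_lit 143) (nat_lit 6) (nat_lit 7) (nat_lit 11) L33573 (by decide +kernel)
theorem L33575 : W_3 (nat_lit 4) (nat_lit 0x30002d000400120009a001800000000000000000000000000) (nat_lit 0x0) (nat_lit 0x8000c000000038000800000000000000000000000000000000000) := T_3 (nat_lit 194) (nat_lit 195) (nat_lit 0) (nat_lit 8) (nat_lit 11) L33574 (by decide +kernel)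
theorem L33576 : W_3 (nat_lit 5) (nat_lit 0x30002c000400120009a001800000000000000000000000000) (nat_lit 0x0) (nat_lit 0x8000c000030038000800000000000000000000000000000000000) := T_3 (nat_lit 172) (nat_lit 173) (nat_lit 3) (nat_lit 2) (nat_lit 10) L33575 (by decide +kernel)
theorem L33577 : W_3 (nat_lit 6) (nat_lit 0x10002c000400120009a001800000000000000000000000000) (nat_lit 0x0) (nat_lit 0xc000e000030038000800000000000000000000000000000000000) := T_3 (nat_lit 193) (nat_lit 210) (nat_lit 7) (nat_lit 5) (nat_lit 8) L33576 (by decide +kernel)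
theorem L33578 : W_3 (nat_lit 7) (nat_lit 0x10002c0004001200098001800000000000000000000000000) (nat_lit 0x0) (nat_lit 0xc000e000030038000800006000000000000000000000000000000) := T_3 (nat_lit 121) (nat_lit 122) (nat_lit 2) (nat_lit 2) (nat_lit 7) L33577 (by decide +kernel)
theorem L33579 : W_3 (nat_lit 8) (nat_lit 0x10002c0004001200098000800000000000000000000000000) (nat_lit 0x0) (nat_lit 0xc000e000030038000800006001000080000000000000000000000) := T_3 (nat_lit 108) (nat_lit 91) (nat_lit 6) (nat_lit 5) (nat_lit 9) L33578 (by decide +kernel)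
theorem L33580 : W_3 (nat_lit 9) (nat_lit 0x2c0004001200098000800000000000000000000000000) (nat_lit 0x0) (nat_lit 0xc000f000030038000900006001000080000000000000000000000) := T_3 (nat_lit 192) (nat_lit 140) (nat_lit 4) (nat_lit 5) (nat_lit 11) L33579 (by decide +kernel)
theorem L33581 : W_3 (nat_lit 10) (nat_lit 0x2c0004001200098000000000000000000000000000000) (nat_lit 0x0) (nat_lit 0xc000f00003003a000900006001800080000000000000000000000) := T_3 (nat_lit 107) (nat_lit 157) (nat_lit 5) (nat_lit 5) (nat_lit 6) L33580 (by decide +kernel)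
theorem L33582 : W_3 (nat_lit 11) (nat_lit 0x280004001200098000000000000000000000000000000) (nat_lit 0x0) (nat_lit 0xc000f80007003a000900006001800080000000000000000000000) := T_3 (nat_lit 174) (nat_lit 191) (nat_lit 5) (nat_lit 5) (nat_lit 7) L33581 (by decide +kernel)
theorem L33583 : W_3 (nat_lit 12) (nat_lit 0x280004001200090000000000000000000000000000000) (nat_lit 0x0) (nat_lit 0xc000f80007003a00090000e001c00080000000000000000000000) := T_3 (nat_lit 123) (nat_lit 106) (nat_lit 4) (nat_lit 5) (nat_lit 10) L33582 (by decide +kernel)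
theorem L33584 : W_3 (nat_lit 2) (nat_lit 0x70002d0014001200098000800000000000000000000000000) (nat_lit 0x0) (nat_lit 0x80000000000028000000000000000000000000000000000000000) := D_3 (nat_lit 161) (nat_lit 159) (nat_lit 211) (nat_lit 1) (nat_lit 8) (nat_lit 9) (nat_lit 6) (nat_lit 7) (nat_lit 12) (by decide +kernel)
theorem L33585 : W_3 (nat_lit 3) (nat_lit 0x70002d0004001200098000800000000000000000000000000) (nat_lit 0x0) (nat_lit 0x80000000000038000800000000000000000000000000000000000) := T_3 (nat_lit 160) (nat_lit 143) (nat_lit 6) (nat_lit 7) (nat_lit 11) L33584 (by decide +kernel)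
theorem L33586 : W_3 (nat_lit 4) (nat_lit 0x30002d0004001200098000800000000000000000000000000) (nat_lit 0x0) (nat_lit 0x8000c000000038000800000000000000000000000000000000000) := T_3 (nat_lit 194) (nat_lit 195) (nat_lit 0) (nat_lit 8) (nat_lit 11) L33585 (by decide +kernel)
theorem L33587 : W_3 (nat_lit 5) (nat_lit 0x30002c0004001200098000800000000000000000000000000) (nat_lit 0x0) (nat_lit 0x8000c000030038000800000000000000000000000000000000000) := T_3 (nat_lit 172) (nat_lit 173) (nat_lit 3) (nat_lit 2) (nat_lit 10) L33586 (by decide +kernel)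
theorem L33588 : W_3 (nat_lit 6) (nat_lit 0x10002c0004001200098000800000000000000000000000000) (nat_lit 0x0) (nat_lit 0xc000e000030038000800000000000000000000000000000000000) := T_3 (nat_lit 193) (nat_lit 210) (nat_lit 7) (nat_lit 5) (nat_lit 8) L33587 (by decide +kernel)
theorem L33589 : W_3 (nat_lit 7) (nat_lit 0x2c0004001200098000800000000000000000000000000) (nat_lit 0x0) (nat_lit 0xc000f000030038000900000000000000000000000000000000000) := T_3 (nat_lit 192) (nat_lit 140) (nat_lit 4) (nat_lit 5) (nat_lit 11) L33588 (by decide +kernel)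
theorem L33590 : W_3 (nat_lit 8) (nat_lit 0x2c0004001200098000000000000000000000000000000) (nat_lit 0x0) (nat_lit 0xc000f00003003a000900000000800000000000000000000000000) := T_3 (nat_lit 107) (nat_lit 157) (nat_lit 5) (nat_lit 5) (nat_lit 6) L33589 (by decide +kernel)
theorem L33591 : W_3 (nat_lit 9) (nat_lit 0x280004001200098000000000000000000000000000000) (nat_lit 0x0) (nat_lit 0xc000f80007003a000900000000800000000000000000000000000) := T_3 (nat_lit 174) (nat_lit 191) (nat_lit 5) (nat_lit 5) (nat_lit 7) L33590 (by decide +kernel)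
theorem L33592 : W_3 (nat_lit 10) (nat_lit 0x280004001200090000000000000000000000000000000) (nat_lit 0x0) (nat_lit 0xc000f80007003a000900008000c00000000000000000000000000) := T_3 (nat_lit 123) (nat_lit 106) (nat_lit 4) (nat_lit 5) (nat_lit 10) L33591 (by decide +kernel)
theorem L33595 : W_3 (nat_lit 2) (nat_lit 0x10003c001400120009a001800000000000000000000000000) (nat_lit 0x0) (nat_lit 0xc000000000000800000000000000000000000000000000000) := D_3 (nat_lit 194) (nat_lit 195) (nat_lit 143) (nat_lit 3) (nat_lit 4) (nat_lit 10) (nat_lit 6) (nat_lit 7) (nat_lit 11) (by decide +kernel)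
theorem L33596 : W_3 (nat_lit 3) (nat_lit 0x10003c000400120009a001800000000000000000000000000) (nat_lit 0x0) (nat_lit 0xc000000030000800000000000000000000000000000000000) := T_3 (nat_lit 160) (nat_lit 161) (nat_lit 2) (nat_lit 4) (nat_lit 10) L33595 (by decide +kernel)
theorem L33597 : W_3 (nat_lit 4) (nat_lit 0x10003c0004001200098001800000000000000000000000000) (nat_lit 0x0) (nat_lit 0xc000000030000800006000000000000000000000000000000) := T_3 (nat_lit 121) (nat_lit 122) (nat_lit 2) (nat_lit 2) (nat_lit 7) L33596 (by decide +kernel)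
theorem L33598 : W_3 (nat_lit 5) (nat_lit 0x10003c0004001200098000800000000000000000000000000) (nat_lit 0x0) (nat_lit 0xc000000030000800006001000080000000000000000000000) := T_3 (nat_lit 108) (nat_lit 91) (nat_lit 6) (nat_lit 5) (nat_lit 9) L33597 (by decide +kernel)
theorem L33599 : W_3 (nat_lit 6) (nat_lit 0x10002c0004001200098000800000000000000000000000000) (nat_lit 0x0) (nat_lit 0xc000100038000800006001000080000000000000000000000) := T_3 (nat_lit 176) (nat_lit 159) (nat_lit 7) (nat_lit 5) (nat_lit 6) L33598 (by decide +kernel)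
theorem L33600 : W_3 (nat_lit 7) (nat_lit 0x2c0004001200098000800000000000000000000000000) (nat_lit 0x0) (nat_lit 0xd000100038000900006001000080000000000000000000000) := T_3 (nat_lit 192) (nat_lit 140) (nat_lit 4) (nat_lit 5) (nat_lit 11) L33599 (by decide +kernel)
theorem L33601 : W_3 (nat_lit 8) (nat_lit 0x2c0004001200098000000000000000000000000000000) (nat_lit 0x0) (nat_lit 0xd00010003a000900006001800080000000000000000000000) := T_3 (nat_lit 107) (nat_lit 157) (nat_lit 5) (nat_lit 5) (nat_lit 6) L33600 (by decide +kernel)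
theorem L33602 : W_3 (nat_lit 9) (nat_lit 0x280004001200098000000000000000000000000000000) (nat_lit 0x0) (nat_lit 0xd80014003a000900006001800080000000000000000000000) := T_3 (nat_lit 174) (nat_lit 191) (nat_lit 5) (nat_lit 5) (nat_lit 7) L33601 (by decide +kernel)
theorem L33603 : W_3 (nat_lit 10) (nat_lit 0x280004001200090000000000000000000000000000000) (nat_lit 0x0) (nat_lit 0xd80014003a00090000e001c00080000000000000000000000) := T_3 (nat_lit 123) (nat_lit 106) (nat_lit 4) (nat_lit 5) (nat_lit 10) L33602 (by decide +kernel)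
theorem L33604 : W_3 (nat_lit 2) (nat_lit 0x50003c0004001200098000800000000000000000000000000) (nat_lit 0x0) (nat_lit 0x30000800000000000000000000000000000000000) := D_3 (nat_lit 160) (nat_lit 161) (nat_lit 143) (nat_lit 2) (nat_lit 4) (nat_lit 10) (nat_lit 6) (nat_lit 7) (nat_lit 11) (by decide +kernel)
theorem L33605 : W_3 (nat_lit 3) (nat_lit 0x10003c0004001200098000800000000000000000000000000) (nat_lit 0x0) (nat_lit 0xc000000030000800000000000000000000000000000000000) := T_3 (nat_lit 194) (nat_lit 195) (nat_lit 3) (nat_lit 4) (nat_lit 10) L33604 (by decide +kernel)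
theorem L33606 : W_3 (nat_lit 4) (nat_lit 0x10002c0004001200098000800000000000000000000000000) (nat_lit 0x0) (nat_lit 0xc000100038000800000000000000000000000000000000000) := T_3 (nat_lit 176) (nat_lit 159) (nat_lit 7) (nat_lit 5) (nat_lit 6) L33605 (by decide +kernel)
theorem L33607 : W_3 (nat_lit 5) (nat_lit 0x2c0004001200098000800000000000000000000000000) (nat_lit 0x0) (nat_lit 0xd000100038000900000000000000000000000000000000000) := T_3 (nat_lit 192) (nat_lit 140) (nat_lit 4) (nat_lit 5) (nat_lit 11) L33606 (by decide +kernel)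
theorem L33608 : W_3 (nat_lit 6) (nat_lit 0x2c0004001200098000000000000000000000000000000) (nat_lit 0x0) (nat_lit 0xd00010003a000900000000800000000000000000000000000) := T_3 (nat_lit 107) (nat_lit 157) (nat_lit 5) (nat_lit 5) (nat_lit 6) L33607 (by decide +kernel)
theorem L33609 : W_3 (nat_lit 7) (nat_lit 0x280004001200098000000000000000000000000000000) (nat_lit 0x0) (nat_lit 0xd80014003a000900000000800000000000000000000000000) := T_3 (nat_lit 174) (nat_lit 191) (nat_lit 5) (nat_lit 5) (nat_lit 7) L33608 (by decide +kernel)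
theorem L33610 : W_3 (nat_lit 8) (nat_lit 0x280004001200090000000000000000000000000000000) (nat_lit 0x0) (nat_lit 0xd80014003a000900008000c00000000000000000000000000) := T_3 (nat_lit 123) (nat_lit 106) (nat_lit 4) (nat_lit 5) (nat_lit 10) L33609 (by decide +kernel)
theorem L33654 : W_3 (nat_lit 2) (nat_lit 0x2800040016000a0000000000000000000000000000000) (nat_lit 0x0) (nat_lit 0x10001000080000000000000000000000) := D_3 (nat_lit 108) (nat_lit 124) (nat_lit 91) (nat_lit 6) (nat_lit 5) (nat_lit 10) (nat_lit 5) (nat_lit 6) (nat_lit 5) (by decide +kernel)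
theorem L33655 : W_3 (nat_lit 3) (nat_lit 0x2800000016000a0000000000000000000000000000000) (nat_lit 0x0) (nat_lit 0x1000000004000000010001000080000000000000000000000) := T_3 (nat_lit 158) (nat_lit 192) (nat_lit 6) (nat_lit 5) (nat_lit 11) L33654 (by decide +kernel)
theorem L33700 : W_3 (nat_lit 2) (nat_lit 0x340014001a000f0000800000000000000000000000000) (nat_lit 0x0) (nat_lit 0x800080020000000000000000000000000000000000000000) := D_3 (nat_lit 175) (nat_lit 161) (nat_lit 191) (nat_lit 2) (nat_lit 4) (nat_lit 10) (nat_lit 5) (nat_lit 5) (nat_lit 7) (by decide +kernel)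
theorem L33701 : W_3 (nat_lit 3) (nat_lit 0x300014001a000f0000800000000000000000000000000) (nat_lit 0x0) (nat_lit 0x8000c0022000000000000000000000000000000000000000) := T_3 (nat_lit 174) (nat_lit 157) (nat_lit 5) (nat_lit 5) (nat_lit 6) L33700 (by decide +kernel)
theorem L33702 : W_3 (nat_lit 4) (nat_lit 0x300010001a000f0000800000000000000000000000000) (nat_lit 0x0) (nat_lit 0x8000c002e000000000000000000000000000000000000000) := T_3 (nat_lit 158) (nat_lit 159) (nat_lit 7) (nat_lit 5) (nat_lit 6) L33701 (by decide +kernel)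
theorem L33703 : W_3 (nat_lit 5) (nat_lit 0x300010001a000f0000000000000000000000000000000) (nat_lit 0x0) (nat_lit 0x8000c002e000000000000c00000000000000000000000000) := T_3 (nat_lit 107) (nat_lit 106) (nat_lit 0) (nat_lit 8) (nat_lit 7) L33702 (by decide +kernel)
theorem L33707 : W_3 (nat_lit 2) (nat_lit 0x200010001a000c0003000000000000000000000000000) (nat_lit 0x0) (nat_lit 0x20000000000000000100008000000000000000000) := D_3 (nat_lit 92) (nat_lit 75) (nat_lit 161) (nat_lit 7) (nat_lit 7) (nat_lit 4) (nat_lit 7) (nat_lit 7) (nat_lit 5) (by decide +kernel)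
theorem L33708 : W_3 (nat_lit 3) (nat_lit 0x200010001a000c0001000000000000000000000000000) (nat_lit 0x0) (nat_lit 0x20000000000002000180008000000000000000000) := T_3 (nat_lit 109) (nat_lit 91) (nat_lit 4) (nat_lit 7) (nat_lit 9) L33707 (by decide +kernel)
theorem L33709 : W_3 (nat_lit 4) (nat_lit 0x200010001a000c0000000000000000000000000000000) (nat_lit 0x0) (nat_lit 0x20000000020003000180008000000000000000000) := T_3 (nat_lit 108) (nat_lit 125) (nat_lit 4) (nat_lit 7) (nat_lit 10) L33708 (by decide +kernel)
theorem L33712 : W_3 (nat_lit 5) (nat_lit 0x200000001a000c0000000000000000000000000000000) (nat_lit 0x0) (nat_lit 0x4000000030000000020003000180008000000000000000000) := T_3 (nat_lit 160) (nat_lit 194) (nat_lit 6) (nat_lit 7) (nat_lit 11) L33709 (by decide +kernel)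
theorem L33721 : W_3 (nat_lit 2) (nat_lit 0x200000001f00080000000000000000000000000000000) (nat_lit 0x0) (nat_lit 0x4000000030000000000000000000000000000000000000000) := D_3 (nat_lit 160) (nat_lit 194) (nat_lit 161) (nat_lit 6) (nat_lit 7) (nat_lit 11) (nat_lit 3) (nat_lit 4) (nat_lit 8) (by decide +kernel)
theorem L33722 : W_3 (nat_lit 3) (nat_lit 0x200000001e00080000000000000000000000000000000) (nat_lit 0x0) (nat_lit 0x4000000030000100040000000000000000000000000000000) := T_3 (nat_lit 140) (nat_lit 126) (nat_lit 2) (nat_lit 4) (nat_lit 8) L33721 (by decide +kernel)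
theorem L33723 : W_3 (nat_lit 4) (nat_lit 0x200000001a00080000000000000000000000000000000) (nat_lit 0x0) (nat_lit 0x4000000030000500140000000000000000000000000000000) := T_3 (nat_lit 142) (nat_lit 128) (nat_lit 2) (nat_lit 5) (nat_lit 8) L33722 (by decide +kernel)
theorem L33740 : W_3 (nat_lit 2) (nat_lit 0x2000040013c0081000000000000000000000000000000) (nat_lit 0x0) (nat_lit 0x2000020000800000000000000000000000000000) := D_3 (nat_lit 137) (nat_lit 157) (nat_lit 119) (nat_lit 3) (nat_lit 1) (nat_lit 8) (nat_lit 0) (nat_lit 4) (nat_lit 8) (by decide +kernel)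
theorem L33741 : W_3 (nat_lit 3) (nat_lit 0x2000000013c0081000000000000000000000000000000) (nat_lit 0x0) (nat_lit 0xe000020000800000000000000000000000000000) := T_3 (nat_lit 158) (nat_lit 159) (nat_lit 3) (nat_lit 2) (nat_lit 8) L33740 (by decide +kernel)
theorem L33742 : W_3 (nat_lit 4) (nat_lit 0x2000000013c0080000000000000000000000000000000) (nat_lit 0x0) (nat_lit 0xe000020003800000000000000000000000000000) := T_3 (nat_lit 120) (nat_lit 121) (nat_lit 0) (nat_lit 5) (nat_lit 8) L33741 (by decide +kernel)
theorem L33746 : W_3 (nat_lit 2) (nat_lit 0x2200010013c0088000000000000000000000000000000) (nat_lit 0x0) (nat_lit 0x4000400020000000000000000000000) := D_3 (nat_lit 106) (nat_lit 89) (nat_lit 122) (nat_lit 5) (nat_lit 4) (nat_lit 5) (nat_lit 6) (nat_lit 3) (nat_lit 10) (by decide +kernel)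
theorem L33747 : W_3 (nat_lit 3) (nat_lit 0x2000010013c0088000000000000000000000000000000) (nat_lit 0x0) (nat_lit 0x400020000000000004000400020000000000000000000000) := T_3 (nat_lit 173) (nat_lit 190) (nat_lit 6) (nat_lit 3) (nat_lit 11) L33746 (by decide +kernel)
theorem L33748 : W_3 (nat_lit 2) (nat_lit 0x2900078013c0088000000020000000000000000000000) (nat_lit 0x0) (nat_lit 0x200000000000000004000200000000000000000000000000) := D_3 (nat_lit 122) (nat_lit 105) (nat_lit 189) (nat_lit 5) (nat_lit 3) (nat_lit 6) (nat_lit 6) (nat_lit 2) (nat_lit 11) (by decide +kernel)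
theorem L33749 : W_3 (nat_lit 3) (nat_lit 0x2800078013c0088000000020000000000000000000000) (nat_lit 0x0) (nat_lit 0x200018000000000004000200000000000000000000000000) := T_3 (nat_lit 172) (nat_lit 171) (nat_lit 1) (nat_lit 5) (nat_lit 9) L33748 (by decide +kernel)
theorem L33750 : W_3 (nat_lit 4) (nat_lit 0x2800058013c0088000000020000000000000000000000) (nat_lit 0x0) (nat_lit 0x200118002000000004000200000000000000000000000000) := T_3 (nat_lit 157) (nat_lit 176) (nat_lit 3) (nat_lit 2) (nat_lit 9) L33749 (by decide +kernel)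
theorem L33755 : W_3 (nat_lit 2) (nat_lit 0x4002900078013c0088000000000000000000000000000000) (nat_lit 0x0) (nat_lit 0x200000000000000004000200000000000000000000000000) := D_3 (nat_lit 122) (nat_lit 105) (nat_lit 189) (nat_lit 5) (nat_lit 3) (nat_lit 6) (nat_lit 6) (nat_lit 2) (nat_lit 11) (by decide +kernel)
theorem L33756 : W_3 (nat_lit 3) (nat_lit 0x4002800078013c0088000000000000000000000000000000) (nat_lit 0x0) (nat_lit 0x200018000000000004000200000000000000000000000000) := T_3 (nat_lit 172) (nat_lit 171) (nat_lit 1) (nat_lit 5) (nat_lit 9) L33755 (by decide +kernel)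
theorem L33757 : W_3 (nat_lit 4) (nat_lit 0x4002800058013c0088000000000000000000000000000000) (nat_lit 0x0) (nat_lit 0x200118002000000004000200000000000000000000000000) := T_3 (nat_lit 157) (nat_lit 176) (nat_lit 3) (nat_lit 2) (nat_lit 9) L33756 (by decide +kernel)
theorem L33758 : W_3 (nat_lit 5) (nat_lit 0x4002000058013c0088000000000000000000000000000000) (nat_lit 0x0) (nat_lit 0x1200198002000000004000200000000000000000000000000) := T_3 (nat_lit 175) (nat_lit 192) (nat_lit 4) (nat_lit 5) (nat_lit 11) L33757 (by decide +kernel)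
theorem L33759 : W_3 (nat_lit 6) (nat_lit 0x4002000018013c0088000000000000000000000000000000) (nat_lit 0x0) (nat_lit 0x120019800e000000004000200000000000000000000000000) := T_3 (nat_lit 158) (nat_lit 159) (nat_lit 3) (nat_lit 2) (nat_lit 8) L33758 (by decide +kernel)
theorem L33760 : W_3 (nat_lit 7) (nat_lit 0x2000018013c0088000000000000000000000000000000) (nat_lit 0x0) (nat_lit 0x16001b800e000000004000200000000000000000000000000) := T_3 (nat_lit 190) (nat_lit 173) (nat_lit 6) (nat_lit 3) (nat_lit 11) L33759 (by decide +kernel)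
theorem L33761 : W_3 (nat_lit 8) (nat_lit 0x2000010013c0088000000000000000000000000000000) (nat_lit 0x0) (nat_lit 0x16001b800ec00000004000200000000000000000000000000) := T_3 (nat_lit 155) (nat_lit 154) (nat_lit 1) (nat_lit 5) (nat_lit 8) L33760 (by decide +kernel)
theorem L33771 : W_3 (nat_lit 2) (nat_lit 0x2000018013c0082000000000000000000000000000000) (nat_lit 0x0) (nat_lit 0x400020000000000000000100000000000000000000000000) := D_3 (nat_lit 173) (nat_lit 190) (nat_lit 104) (nat_lit 4) (nat_lit 3) (nat_lit 11) (nat_lit 7) (nat_lit 2) (nat_lit 6) (by decide +kernel)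
theorem L33772 : W_3 (nat_lit 3) (nat_lit 0x2000018013c0080000000000000000000000000000000) (nat_lit 0x0) (nat_lit 0x400020000000000003000100000000000000000000000000) := T_3 (nat_lit 121) (nat_lit 120) (nat_lit 0) (nat_lit 5) (nat_lit 8) L33771 (by decide +kernel)
theorem L33773 : W_3 (nat_lit 4) (nat_lit 0x2000010013c0080000000000000000000000000000000) (nat_lit 0x0) (nat_lit 0x400020000c00000003000100000000000000000000000000) := T_3 (nat_lit 155) (nat_lit 154) (nat_lit 1) (nat_lit 5) (nat_lit 8) L33772 (by decide +kernel)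
theorem L33774 : W_3 (nat_lit 2) (nat_lit 0x2000050013c0082000100000000000000000000000000) (nat_lit 0x0) (nat_lit 0x400020000000000004000000000000000000000000000000) := D_3 (nat_lit 173) (nat_lit 190) (nat_lit 122) (nat_lit 4) (nat_lit 3) (nat_lit 11) (nat_lit 4) (nat_lit 3) (nat_lit 10) (by decide +kernel)
theorem L33775 : W_3 (nat_lit 3) (nat_lit 0x2000050013c0082000000000000000000000000000000) (nat_lit 0x0) (nat_lit 0x400020000000000004000100008000000000000000000000) := T_3 (nat_lit 104) (nat_lit 87) (nat_lit 7) (nat_lit 2) (nat_lit 5) L33774 (by decide +kernel)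
theorem L33776 : W_3 (nat_lit 4) (nat_lit 0x2000010013c0082000000000000000000000000000000) (nat_lit 0x0) (nat_lit 0x40002000c000000004000100008000000000000000000000) := T_3 (nat_lit 158) (nat_lit 159) (nat_lit 3) (nat_lit 2) (nat_lit 8) L33775 (by decide +kernel)
theorem L33777 : W_3 (nat_lit 5) (nat_lit 0x2000010013c0080000000000000000000000000000000) (nat_lit 0x0) (nat_lit 0x40002000c000000007000100008000000000000000000000) := T_3 (nat_lit 121) (nat_lit 120) (nat_lit 0) (nat_lit 5) (nat_lit 8) L33776 (by decide +kernel)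
theorem L33790 : W_3 (nat_lit 2) (nat_lit 0x2000000017c00a2000000000000000000000000000000) (nat_lit 0x0) (nat_lit 0x1c00000000000000000000000000000000000000) := D_3 (nat_lit 155) (nat_lit 156) (nat_lit 154) (nat_lit 1) (nat_lit 6) (nat_lit 8) (nat_lit 1) (nat_lit 5) (nat_lit 8) (by decide +kernel)
theorem L33791 : W_3 (nat_lit 3) (nat_lit 0x2000000017800a2000000000000000000000000000000) (nat_lit 0x0) (nat_lit 0x1c00040001000000000000000000000000000000) := T_3 (nat_lit 138) (nat_lit 120) (nat_lit 0) (nat_lit 5) (nat_lit 8) L33790 (by decide +kernel)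
theorem L33792 : W_3 (nat_lit 4) (nat_lit 0x200000001780082000000000000000000000000000000) (nat_lit 0x0) (nat_lit 0x1c00040061000000000000000000000000000000) := T_3 (nat_lit 125) (nat_lit 126) (nat_lit 2) (nat_lit 3) (nat_lit 8) L33791 (by decide +kernel)
theorem L33793 : W_3 (nat_lit 5) (nat_lit 0x200000001780080000000000000000000000000000000) (nat_lit 0x0) (nat_lit 0x1c00040067000000000000000000000000000000) := T_3 (nat_lit 121) (nat_lit 122) (nat_lit 0) (nat_lit 6) (nat_lit 8) L33792 (by decide +kernel)
theorem L33798 : W_3 (nat_lit 2) (nat_lit 0x2000080017c0080000000000000000000000000000000) (nat_lit 0x0) (nat_lit 0x7000000000000000000000000000000) := D_3 (nat_lit 121) (nat_lit 120) (nat_lit 122) (nat_lit 0) (nat_lit 5) (nat_lit 8) (nat_lit 0) (nat_lit 6) (nat_lit 8) (by decide +kernel)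
theorem L33799 : W_3 (nat_lit 3) (nat_lit 0x200008001780080000000000000000000000000000000) (nat_lit 0x0) (nat_lit 0x4000040007000000000000000000000000000000) := T_3 (nat_lit 138) (nat_lit 158) (nat_lit 3) (nat_lit 2) (nat_lit 8) L33798 (by decide +kernel)
theorem L33817 : W_3 (nat_lit 2) (nat_lit 0x2000080017c0082000000000000000000000000000000) (nat_lit 0x0) (nat_lit 0x1c00000000000000000000000000000000000000) := D_3 (nat_lit 155) (nat_lit 156) (nat_lit 154) (nat_lit 1) (nat_lit 6) (nat_lit 8) (nat_lit 1) (nat_lit 5) (nat_lit 8) (by decide +kernel)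
theorem L33818 : W_3 (nat_lit 3) (nat_lit 0x200008001780082000000000000000000000000000000) (nat_lit 0x0) (nat_lit 0x1c00040001000000000000000000000000000000) := T_3 (nat_lit 138) (nat_lit 120) (nat_lit 0) (nat_lit 5) (nat_lit 8) L33817 (by decide +kernel)
theorem L33819 : W_3 (nat_lit 4) (nat_lit 0x200000001780082000000000000000000000000000000) (nat_lit 0x0) (nat_lit 0x19c00040001000000000000000000000000000000) := T_3 (nat_lit 159) (nat_lit 160) (nat_lit 3) (nat_lit 3) (nat_lit 8) L33818 (by decide +kernel)
theorem L33820 : W_3 (nat_lit 5) (nat_lit 0x200000001780080000000000000000000000000000000) (nat_lit 0x0) (nat_lit 0x19c00040007000000000000000000000000000000) := T_3 (nat_lit 121) (nat_lit 122) (nat_lit 0) (nat_lit 6) (nat_lit 8) L33819 (by decide +kernel)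
theorem L33853 : W_3 (nat_lit 2) (nat_lit 0x4003c00090017800a0000000000000000000000000000000) (nat_lit 0x0) (nat_lit 0x200020000000000008000000000000000000000000000000) := D_3 (nat_lit 173) (nat_lit 189) (nat_lit 123) (nat_lit 1) (nat_lit 6) (nat_lit 10) (nat_lit 6) (nat_lit 3) (nat_lit 11) (by decide +kernel)
theorem L33854 : W_3 (nat_lit 3) (nat_lit 0x3c00090017800a0000000000000000000000000000000) (nat_lit 0x0) (nat_lit 0xe00020000000000008000000000000000000000000000000) := T_3 (nat_lit 190) (nat_lit 191) (nat_lit 1) (nat_lit 7) (nat_lit 10) L33853 (by decide +kernel)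
theorem L33855 : W_3 (nat_lit 4) (nat_lit 0x3800090017800a0000000000000000000000000000000) (nat_lit 0x0) (nat_lit 0xe00060002000000008000000000000000000000000000000) := T_3 (nat_lit 174) (nat_lit 157) (nat_lit 0) (nat_lit 7) (nat_lit 10) L33854 (by decide +kernel)
theorem L33856 : W_3 (nat_lit 5) (nat_lit 0x3000090017800a0000000000000000000000000000000) (nat_lit 0x0) (nat_lit 0x1e000e0002000000008000000000000000000000000000000) := T_3 (nat_lit 175) (nat_lit 192) (nat_lit 5) (nat_lit 6) (nat_lit 7) L33855 (by decide +kernel)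
theorem L33857 : W_3 (nat_lit 6) (nat_lit 0x2000090017800a0000000000000000000000000000000) (nat_lit 0x0) (nat_lit 0x5e001e0002000000008000000000000000000000000000000) := T_3 (nat_lit 176) (nat_lit 194) (nat_lit 7) (nat_lit 6) (nat_lit 7) L33856 (by decide +kernel)
theorem L33858 : W_3 (nat_lit 7) (nat_lit 0x2000010017800a0000000000000000000000000000000) (nat_lit 0x0) (nat_lit 0x5e001e001a000000008000000000000000000000000000000) := T_3 (nat_lit 159) (nat_lit 160) (nat_lit 3) (nat_lit 3) (nat_lit 8) L33857 (by decide +kernel)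
theorem L33860 : W_3 (nat_lit 2) (nat_lit 0x3c00090017800a4000000000000000000000000000000) (nat_lit 0x0) (nat_lit 0xc00020000000000000000000000000000000000000000000) := D_3 (nat_lit 191) (nat_lit 190) (nat_lit 173) (nat_lit 1) (nat_lit 7) (nat_lit 10) (nat_lit 7) (nat_lit 3) (nat_lit 7) (by decide +kernel)
theorem L33861 : W_3 (nat_lit 3) (nat_lit 0x3800090017800a4000000000000000000000000000000) (nat_lit 0x0) (nat_lit 0xc00060002000000000000000000000000000000000000000) := T_3 (nat_lit 174) (nat_lit 157) (nat_lit 0) (nat_lit 7) (nat_lit 10) L33860 (by decide +kernel)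
theorem L33862 : W_3 (nat_lit 4) (nat_lit 0x3000090017800a4000000000000000000000000000000) (nat_lit 0x0) (nat_lit 0x1c000e0002000000000000000000000000000000000000000) := T_3 (nat_lit 175) (nat_lit 192) (nat_lit 5) (nat_lit 6) (nat_lit 7) L33861 (by decide +kernel)
theorem L33863 : W_3 (nat_lit 5) (nat_lit 0x2000090017800a4000000000000000000000000000000) (nat_lit 0x0) (nat_lit 0x5c001e0002000000000000000000000000000000000000000) := T_3 (nat_lit 176) (nat_lit 194) (nat_lit 7) (nat_lit 6) (nat_lit 7) L33862 (by decide +kernel)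
theorem L33906 : W_3 (nat_lit 2) (nat_lit 0x2400020017800a4000000000000000000000000000000) (nat_lit 0x0) (nat_lit 0x8000200010000000000000000000000) := D_3 (nat_lit 105) (nat_lit 123) (nat_lit 88) (nat_lit 4) (nat_lit 4) (nat_lit 10) (nat_lit 7) (nat_lit 3) (nat_lit 5) (by decide +kernel)
theorem L33907 : W_3 (nat_lit 3) (nat_lit 0x2400000017800a4000000000000000000000000000000) (nat_lit 0x0) (nat_lit 0x800000002000000008000200010000000000000000000000) := T_3 (nat_lit 157) (nat_lit 191) (nat_lit 4) (nat_lit 4) (nat_lit 11) L33906 (by decide +kernel)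
theorem L33908 : W_3 (nat_lit 4) (nat_lit 0x240000001780084000000000000000000000000000000) (nat_lit 0x0) (nat_lit 0x800000002000000068000200010000000000000000000000) := T_3 (nat_lit 125) (nat_lit 126) (nat_lit 2) (nat_lit 3) (nat_lit 8) L33907 (by decide +kernel)
theorem L33909 : W_3 (nat_lit 5) (nat_lit 0x240000001780080000000000000000000000000000000) (nat_lit 0x0) (nat_lit 0x80000000200000006e000200010000000000000000000000) := T_3 (nat_lit 122) (nat_lit 121) (nat_lit 0) (nat_lit 6) (nat_lit 8) L33908 (by decide +kernel)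
theorem L33924 : W_3 (nat_lit 2) (nat_lit 0x4003c000a0017800a0000000000000000000000000000000) (nat_lit 0x0) (nat_lit 0x200020000000000008000000000000000000000000000000) := D_3 (nat_lit 173) (nat_lit 189) (nat_lit 123) (nat_lit 1) (nat_lit 6) (nat_lit 10) (nat_lit 5) (nat_lit 4) (nat_lit 7) (by decide +kernel)
theorem L33925 : W_3 (nat_lit 3) (nat_lit 0x4003c00080017800a0000000000000000000000000000000) (nat_lit 0x0) (nat_lit 0x200020003000000008000000000000000000000000000000) := T_3 (nat_lit 157) (nat_lit 156) (nat_lit 0) (nat_lit 7) (nat_lit 10) L33924 (by decide +kernel)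
theorem L33926 : W_3 (nat_lit 4) (nat_lit 0x3c00080017800a0000000000000000000000000000000) (nat_lit 0x0) (nat_lit 0xe00020003000000008000000000000000000000000000000) := T_3 (nat_lit 190) (nat_lit 191) (nat_lit 1) (nat_lit 7) (nat_lit 10) L33925 (by decide +kernel)
theorem L33927 : W_3 (nat_lit 5) (nat_lit 0x3400080017800a0000000000000000000000000000000) (nat_lit 0x0) (nat_lit 0x1e000a0003000000008000000000000000000000000000000) := T_3 (nat_lit 175) (nat_lit 192) (nat_lit 5) (nat_lit 6) (nat_lit 7) L33926 (by decide +kernel)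
theorem L33928 : W_3 (nat_lit 6) (nat_lit 0x2400080017800a0000000000000000000000000000000) (nat_lit 0x0) (nat_lit 0x5e001a0003000000008000000000000000000000000000000) := T_3 (nat_lit 176) (nat_lit 194) (nat_lit 7) (nat_lit 6) (nat_lit 7) L33927 (by decide +kernel)
theorem L33929 : W_3 (nat_lit 7) (nat_lit 0x240008001780080000000000000000000000000000000) (nat_lit 0x0) (nat_lit 0x5e001a0003000000068000000000000000000000000000000) := T_3 (nat_lit 125) (nat_lit 126) (nat_lit 2) (nat_lit 3) (nat_lit 8) L33928 (by decide +kernel)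
theorem L33930 : W_3 (nat_lit 8) (nat_lit 0x240000001780080000000000000000000000000000000) (nat_lit 0x0) (nat_lit 0x5e001a001b000000068000000000000000000000000000000) := T_3 (nat_lit 159) (nat_lit 160) (nat_lit 3) (nat_lit 3) (nat_lit 8) L33929 (by decide +kernel)
theorem L33931 : W_3 (nat_lit 2) (nat_lit 0x3c000a0017800a4000000000000000000000000000000) (nat_lit 0x0) (nat_lit 0x8000200010000000000000000000000) := D_3 (nat_lit 105) (nat_lit 123) (nat_lit 88) (nat_lit 4) (nat_lit 4) (nat_lit 10) (nat_lit 7) (nat_lit 3) (nat_lit 5) (by decide +kernel)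
theorem L33932 : W_3 (nat_lit 3) (nat_lit 0x3c00080017800a4000000000000000000000000000000) (nat_lit 0x0) (nat_lit 0x3000000008000200010000000000000000000000) := T_3 (nat_lit 157) (nat_lit 156) (nat_lit 0) (nat_lit 7) (nat_lit 10) L33931 (by decide +kernel)
theorem L33933 : W_3 (nat_lit 4) (nat_lit 0x3400080017800a4000000000000000000000000000000) (nat_lit 0x0) (nat_lit 0x1000080003000000008000200010000000000000000000000) := T_3 (nat_lit 175) (nat_lit 192) (nat_lit 5) (nat_lit 6) (nat_lit 7) L33932 (by decide +kernel)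
theorem L33934 : W_3 (nat_lit 5) (nat_lit 0x2400080017800a4000000000000000000000000000000) (nat_lit 0x0) (nat_lit 0x5000180003000000008000200010000000000000000000000) := T_3 (nat_lit 176) (nat_lit 194) (nat_lit 7) (nat_lit 6) (nat_lit 7) L33933 (by decide +kernel)
theorem L33935 : W_3 (nat_lit 6) (nat_lit 0x2400000017800a4000000000000000000000000000000) (nat_lit 0x0) (nat_lit 0x500018001b000000008000200010000000000000000000000) := T_3 (nat_lit 159) (nat_lit 160) (nat_lit 3) (nat_lit 3) (nat_lit 8) L33934 (by decide +kernel)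
theorem L33936 : W_3 (nat_lit 7) (nat_lit 0x2400000017800a0000000000000000000000000000000) (nat_lit 0x0) (nat_lit 0x500018001b00000000e000200010000000000000000000000) := T_3 (nat_lit 122) (nat_lit 121) (nat_lit 0) (nat_lit 6) (nat_lit 8) L33935 (by decide +kernel)
theorem L33937 : W_3 (nat_lit 8) (nat_lit 0x240000001780080000000000000000000000000000000) (nat_lit 0x0) (nat_lit 0x500018001b00000006e000200010000000000000000000000) := T_3 (nat_lit 125) (nat_lit 126) (nat_lit 2) (nat_lit 3) (nat_lit 8) L33936 (by decide +kernel)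
theorem L33944 : W_3 (nat_lit 2) (nat_lit 0x35003100088017c00a2000000000000000000000000000000) (nat_lit 0x0) (nat_lit 0xa000200000000000000000000000000000000000000000000000) := D_3 (nat_lit 189) (nat_lit 207) (nat_lit 205) (nat_lit 7) (nat_lit 2) (nat_lit 8) (nat_lit 5) (nat_lit 2) (nat_lit 8) (by decide +kernel)
theorem L33945 : W_3 (nat_lit 3) (nat_lit 0x34003100088017c00a2000000000000000000000000000000) (nat_lit 0x0) (nat_lit 0xa000300008000000000000000000000000000000000000000000) := T_3 (nat_lit 188) (nat_lit 171) (nat_lit 5) (nat_lit 2) (nat_lit 7) L33944 (by decide +kernel)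
theorem L33946 : W_3 (nat_lit 4) (nat_lit 0x34003000088017c00a2000000000000000000000000000000) (nat_lit 0x0) (nat_lit 0xa000300038000000000000000000000000000000000000000000) := T_3 (nat_lit 172) (nat_lit 173) (nat_lit 7) (nat_lit 2) (nat_lit 7) L33945 (by decide +kernel)
theorem L33947 : W_3 (nat_lit 5) (nat_lit 0x30003000088017c00a2000000000000000000000000000000) (nat_lit 0x0) (nat_lit 0xa000f00038000000000000000000000000000000000000000000) := T_3 (nat_lit 190) (nat_lit 191) (nat_lit 2) (nat_lit 3) (nat_lit 11) L33946 (by decide +kernel)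
theorem L33948 : W_3 (nat_lit 6) (nat_lit 0x10003000088017c00a2000000000000000000000000000000) (nat_lit 0x0) (nat_lit 0x2a002f00038000000000000000000000000000000000000000000) := T_3 (nat_lit 193) (nat_lit 209) (nat_lit 5) (nat_lit 6) (nat_lit 8) L33947 (by decide +kernel)
theorem L33949 : W_3 (nat_lit 7) (nat_lit 0x10003000080017c00a2000000000000000000000000000000) (nat_lit 0x0) (nat_lit 0x2a002f00038000c00000000000000000000000000000000000000) := T_3 (nat_lit 155) (nat_lit 154) (nat_lit 1) (nat_lit 5) (nat_lit 8) L33948 (by decide +kernel)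
theorem L33950 : W_3 (nat_lit 8) (nat_lit 0x3000080017c00a2000000000000000000000000000000) (nat_lit 0x0) (nat_lit 0x2a003f000b8000c00000000000000000000000000000000000000) := T_3 (nat_lit 192) (nat_lit 175) (nat_lit 5) (nat_lit 6) (nat_lit 7) L33949 (by decide +kernel)
theorem L33951 : W_3 (nat_lit 9) (nat_lit 0x2000080017c00a2000000000000000000000000000000) (nat_lit 0x0) (nat_lit 0x2a007f001b8000c00000000000000000000000000000000000000) := T_3 (nat_lit 176) (nat_lit 194) (nat_lit 7) (nat_lit 6) (nat_lit 7) L33950 (by decide +kernel)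
theorem L33978 : W_3 (nat_lit 2) (nat_lit 0x22000f001780080000000000000000000000000000000) (nat_lit 0x0) (nat_lit 0x400000000000000008000400000000000000000000000000) := D_3 (nat_lit 123) (nat_lit 106) (nat_lit 190) (nat_lit 5) (nat_lit 4) (nat_lit 6) (nat_lit 6) (nat_lit 3) (nat_lit 11) (by decide +kernel)
theorem L33979 : W_3 (nat_lit 3) (nat_lit 0x20000f001780080000000000000000000000000000000) (nat_lit 0x0) (nat_lit 0x400030000000000008000400000000000000000000000000) := T_3 (nat_lit 173) (nat_lit 172) (nat_lit 1) (nat_lit 6) (nat_lit 9) L33978 (by decide +kernel)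
theorem L34030 : W_3 (nat_lit 2) (nat_lit 0x200004001780088000400000000000000000000000000) (nat_lit 0x0) (nat_lit 0x1000080002000000000000000000000000000000000000000) := D_3 (nat_lit 175) (nat_lit 192) (nat_lit 157) (nat_lit 4) (nat_lit 5) (nat_lit 11) (nat_lit 7) (nat_lit 4) (nat_lit 6) (by decide +kernel)
theorem L34042 : W_3 (nat_lit 2) (nat_lit 0x2000020013e0084000000000000000000000000000000) (nat_lit 0x0) (nat_lit 0x1000010008000000000000000000000000000000) := D_3 (nat_lit 136) (nat_lit 156) (nat_lit 123) (nat_lit 3) (nat_lit 0) (nat_lit 8) (nat_lit 2) (nat_lit 0) (nat_lit 8) (by decide +kernel)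
theorem L34073 : W_3 (nat_lit 2) (nat_lit 0x2d00038013e008d000000004000000000000000000000) (nat_lit 0x0) (nat_lit 0x400020000000000000000400000000000000000000000000) := D_3 (nat_lit 173) (nat_lit 190) (nat_lit 106) (nat_lit 6) (nat_lit 3) (nat_lit 11) (nat_lit 6) (nat_lit 3) (nat_lit 10) (by decide +kernel)
theorem L34074 : W_3 (nat_lit 3) (nat_lit 0x2d00038013e0085000000004000000000000000000000) (nat_lit 0x0) (nat_lit 0x1400020000000000008000400000000000000000000000000) := T_3 (nat_lit 123) (nat_lit 192) (nat_lit 7) (nat_lit 4) (nat_lit 7) L34073 (by decide +kernel)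
theorem L34075 : W_3 (nat_lit 4) (nat_lit 0x2500038013e0085000000004000000000000000000000) (nat_lit 0x0) (nat_lit 0x14001a0000000000008000400000000000000000000000000) := T_3 (nat_lit 175) (nat_lit 176) (nat_lit 0) (nat_lit 7) (nat_lit 10) L34074 (by decide +kernel)
theorem L34076 : W_3 (nat_lit 5) (nat_lit 0x2100038013e0085000000004000000000000000000000) (nat_lit 0x0) (nat_lit 0x1c001e0000000000008000400000000000000000000000000) := T_3 (nat_lit 174) (nat_lit 191) (nat_lit 4) (nat_lit 4) (nat_lit 11) L34075 (by decide +kernel)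
theorem L34077 : W_3 (nat_lit 6) (nat_lit 0x2100038013e0081000000004000000000000000000000) (nat_lit 0x0) (nat_lit 0x1c001e000000000000c000600000000000000000000000000) := T_3 (nat_lit 122) (nat_lit 105) (nat_lit 5) (nat_lit 3) (nat_lit 6) L34076 (by decide +kernel)
theorem L34078 : W_3 (nat_lit 7) (nat_lit 0x2100038013e0081000000000000000000000000000000) (nat_lit 0x0) (nat_lit 0x1c001e000000000000c000680004000000000000000000000) := T_3 (nat_lit 86) (nat_lit 103) (nat_lit 7) (nat_lit 1) (nat_lit 5) L34077 (by decide +kernel)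
theorem L34079 : W_3 (nat_lit 8) (nat_lit 0x2000038013e0081000000000000000000000000000000) (nat_lit 0x0) (nat_lit 0x1e001f000000000000c000680004000000000000000000000) := T_3 (nat_lit 172) (nat_lit 189) (nat_lit 4) (nat_lit 2) (nat_lit 11) L34078 (by decide +kernel)
theorem L34080 : W_3 (nat_lit 9) (nat_lit 0x2000030013e0081000000000000000000000000000000) (nat_lit 0x0) (nat_lit 0x1e001f000080040000c000680004000000000000000000000) := T_3 (nat_lit 155) (nat_lit 142) (nat_lit 1) (nat_lit 6) (nat_lit 8) L34079 (by decide +kernel)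
theorem L34104 : W_3 (nat_lit 2) (nat_lit 0x2000080013c0082000000000000000000000000000000) (nat_lit 0x0) (nat_lit 0x10000400004000000000000000000000000000000) := D_3 (nat_lit 142) (nat_lit 160) (nat_lit 122) (nat_lit 3) (nat_lit 3) (nat_lit 8) (nat_lit 0) (nat_lit 6) (nat_lit 8) (by decide +kernel)
theorem L34105 : W_3 (nat_lit 3) (nat_lit 0x2000080013c0080000000000000000000000000000000) (nat_lit 0x0) (nat_lit 0x10000400007000000000000000000000000000000) := T_3 (nat_lit 121) (nat_lit 120) (nat_lit 0) (nat_lit 5) (nat_lit 8) L34104 (by decide +kernel)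
theorem L34139 : W_3 (nat_lit 2) (nat_lit 0x20000c001380080000000000000000000000000000000) (nat_lit 0x0) (nat_lit 0x30000400000000000000000000000000000000000) := D_3 (nat_lit 160) (nat_lit 142) (nat_lit 161) (nat_lit 3) (nat_lit 3) (nat_lit 8) (nat_lit 0) (nat_lit 8) (nat_lit 9) (by decide +kernel)
theorem L34140 : W_3 (nat_lit 3) (nat_lit 0x200008001380080000000000000000000000000000000) (nat_lit 0x0) (nat_lit 0x34000440000000000000000000000000000000000) := T_3 (nat_lit 158) (nat_lit 138) (nat_lit 3) (nat_lit 2) (nat_lit 8) L34139 (by decide +kernel)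
theorem L34141 : W_3 (nat_lit 2) (nat_lit 0x20000c001380080000000000000000000000000000000) (nat_lit 0x0) (nat_lit 0x32000000000000000000000000000000000000000) := D_3 (nat_lit 160) (nat_lit 161) (nat_lit 157) (nat_lit 0) (nat_lit 8) (nat_lit 9) (nat_lit 0) (nat_lit 7) (nat_lit 9) (by decide +kernel)
theorem L34142 : W_3 (nat_lit 3) (nat_lit 0x200008001380080000000000000000000000000000000) (nat_lit 0x0) (nat_lit 0x36000040000000000000000000000000000000000) := T_3 (nat_lit 158) (nat_lit 138) (nat_lit 3) (nat_lit 2) (nat_lit 8) L34141 (by decide +kernel)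
theorem L34149 : W_3 (nat_lit 2) (nat_lit 0x200001801380080000000000000000000000000000000) (nat_lit 0x0) (nat_lit 0x600040000000000000000000000000000000000) := D_3 (nat_lit 154) (nat_lit 138) (nat_lit 153) (nat_lit 1) (nat_lit 5) (nat_lit 8) (nat_lit 2) (nat_lit 0) (nat_lit 9) (by decide +kernel)
theorem L34150 : W_3 (nat_lit 3) (nat_lit 0x200001001380080000000000000000000000000000000) (nat_lit 0x0) (nat_lit 0xe00440000000000000000000000000000000000) := T_3 (nat_lit 155) (nat_lit 142) (nat_lit 1) (nat_lit 6) (nat_lit 8) L34149 (by decide +kernel)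
theorem L34151 : W_3 (nat_lit 2) (nat_lit 0x240003001380080000000000000000000000000000000) (nat_lit 0x0) (nat_lit 0x10000800000000000000004000000000000000000000000000000) := D_3 (nat_lit 191) (nat_lit 122) (nat_lit 208) (nat_lit 4) (nat_lit 4) (nat_lit 11) (nat_lit 4) (nat_lit 4) (nat_lit 12) (by decide +kernel)
theorem L34152 : W_3 (nat_lit 2) (nat_lit 0x18003400070013a0080000000000000000000000000000000) (nat_lit 0x0) (nat_lit 0x8002400000000000000000000000000000000000000000000000) := D_3 (nat_lit 190) (nat_lit 193) (nat_lit 207) (nat_lit 2) (nat_lit 3) (nat_lit 11) (nat_lit 5) (nat_lit 4) (nat_lit 8) (by decide +kernel)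
theorem L34153 : W_3 (nat_lit 3) (nat_lit 0x8003400070013a0080000000000000000000000000000000) (nat_lit 0x0) (nat_lit 0x28003400000000000000000000000000000000000000000000000) := T_3 (nat_lit 192) (nat_lit 209) (nat_lit 7) (nat_lit 4) (nat_lit 8) L34152 (by decide +kernel)
theorem L34154 : W_3 (nat_lit 4) (nat_lit 0x800340007001380080000000000000000000000000000000) (nat_lit 0x0) (nat_lit 0x28003400000000000060000000000000000000000000000000000) := T_3 (nat_lit 137) (nat_lit 138) (nat_lit 3) (nat_lit 1) (nat_lit 8) L34153 (by decide +kernel)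
theorem L34155 : W_3 (nat_lit 5) (nat_lit 0x800340003001380080000000000000000000000000000000) (nat_lit 0x0) (nat_lit 0x2800340000000c000060000000000000000000000000000000000) := T_3 (nat_lit 158) (nat_lit 159) (nat_lit 3) (nat_lit 3) (nat_lit 9) L34154 (by decide +kernel)
theorem L34156 : W_3 (nat_lit 6) (nat_lit 0x340003001380080000000000000000000000000000000) (nat_lit 0x0) (nat_lit 0x38003c0000000c000060000000000000000000000000000000000) := T_3 (nat_lit 191) (nat_lit 208) (nat_lit 4) (nat_lit 4) (nat_lit 12) L34155 (by decide +kernel)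
theorem L34157 : W_3 (nat_lit 7) (nat_lit 0x240003001380080000000000000000000000000000000) (nat_lit 0x0) (nat_lit 0x38003c0018000c000060000000000000000000000000000000000) := T_3 (nat_lit 176) (nat_lit 175) (nat_lit 0) (nat_lit 7) (nat_lit 10) L34156 (by decide +kernel)
theorem L34158 : W_3 (nat_lit 2) (nat_lit 0x2c0003001380088000200000000000000000000000000) (nat_lit 0x0) (nat_lit 0x4000000000000400010000000000000000000000) := D_3 (nat_lit 106) (nat_lit 158) (nat_lit 88) (nat_lit 7) (nat_lit 4) (nat_lit 6) (nat_lit 4) (nat_lit 4) (nat_lit 9) (by decide +kernel)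
theorem L34159 : W_3 (nat_lit 3) (nat_lit 0x2c0003001380080000200000000000000000000000000) (nat_lit 0x0) (nat_lit 0x1000000004000000008000400010000000000000000000000) := T_3 (nat_lit 123) (nat_lit 192) (nat_lit 7) (nat_lit 4) (nat_lit 7) L34158 (by decide +kernel)
theorem L34160 : W_3 (nat_lit 4) (nat_lit 0x240003001380080000200000000000000000000000000) (nat_lit 0x0) (nat_lit 0x1000180004000000008000400010000000000000000000000) := T_3 (nat_lit 175) (nat_lit 176) (nat_lit 0) (nat_lit 7) (nat_lit 10) L34159 (by decide +kernel)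
theorem L34161 : W_3 (nat_lit 5) (nat_lit 0x240003001380080000000000000000000000000000000) (nat_lit 0x0) (nat_lit 0x100018000400000000c000600010000000000000000000000) := T_3 (nat_lit 105) (nat_lit 122) (nat_lit 7) (nat_lit 3) (nat_lit 6) L34160 (by decide +kernel)
theorem L34172 : W_3 (nat_lit 2) (nat_lit 0x200007001380080000000000000000000000000000000) (nat_lit 0x0) (nat_lit 0x18000040000000000000000000000000000000000) := D_3 (nat_lit 159) (nat_lit 138) (nat_lit 160) (nat_lit 3) (nat_lit 2) (nat_lit 8) (nat_lit 0) (nat_lit 7) (nat_lit 9) (by decide +kernel)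
theorem L34189 : W_3 (nat_lit 2) (nat_lit 0x20000b001380080000000000000000000000000000000) (nat_lit 0x0) (nat_lit 0x100004000040000000000000000000000000000000000) := D_3 (nat_lit 158) (nat_lit 138) (nat_lit 176) (nat_lit 3) (nat_lit 2) (nat_lit 8) (nat_lit 3) (nat_lit 3) (nat_lit 9) (by decide +kernel)
theorem L34198 : W_3 (nat_lit 2) (nat_lit 0x200007001380080000000000000000000000000000000) (nat_lit 0x0) (nat_lit 0x100018000000000000000000000000000000000000000) := D_3 (nat_lit 159) (nat_lit 160) (nat_lit 176) (nat_lit 0) (nat_lit 7) (nat_lit 9) (nat_lit 3) (nat_lit 3) (nat_lit 9) (by decide +kernel)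
theorem L34200 : W_3 (nat_lit 2) (nat_lit 0x200000002900078013a0084000000000000000000000000000000) (nat_lit 0x0) (nat_lit 0x4000200020000000000000000000000000000000000000000000) := D_3 (nat_lit 189) (nat_lit 206) (nat_lit 173) (nat_lit 6) (nat_lit 2) (nat_lit 12) (nat_lit 5) (nat_lit 3) (nat_lit 7) (by decide +kernel)
theorem L34201 : W_3 (nat_lit 3) (nat_lit 0x200000002900078013a0080000000000000000000000000000000) (nat_lit 0x0) (nat_lit 0x4000200020000000000004000200000000000000000000000000) := T_3 (nat_lit 122) (nat_lit 105) (nat_lit 5) (nat_lit 3) (nat_lit 6) L34200 (by decide +kernel)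
theorem L34202 : W_3 (nat_lit 4) (nat_lit 0x200000002800078013a0080000000000000000000000000000000) (nat_lit 0x0) (nat_lit 0x4000200038000000000004000200000000000000000000000000) := T_3 (nat_lit 172) (nat_lit 171) (nat_lit 1) (nat_lit 5) (nat_lit 9) L34201 (by decide +kernel)
theorem L34203 : W_3 (nat_lit 5) (nat_lit 0x2800078013a0080000000000000000000000000000000) (nat_lit 0x0) (nat_lit 0x24001200038000000000004000200000000000000000000000000) := T_3 (nat_lit 209) (nat_lit 192) (nat_lit 4) (nat_lit 5) (nat_lit 12) L34202 (by decide +kernel)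
theorem L34204 : W_3 (nat_lit 6) (nat_lit 0x2000078013a0080000000000000000000000000000000) (nat_lit 0x0) (nat_lit 0x240012001b8000000000004000200000000000000000000000000) := T_3 (nat_lit 175) (nat_lit 176) (nat_lit 3) (nat_lit 2) (nat_lit 9) L34203 (by decide +kernel)
theorem L34205 : W_3 (nat_lit 7) (nat_lit 0x200007801380080000000000000000000000000000000) (nat_lit 0x0) (nat_lit 0x240012001b8000000060004000200000000000000000000000000) := T_3 (nat_lit 137) (nat_lit 138) (nat_lit 3) (nat_lit 1) (nat_lit 8) L34204 (by decide +kernel)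
theorem L34206 : W_3 (nat_lit 8) (nat_lit 0x200007001380080000000000000000000000000000000) (nat_lit 0x0) (nat_lit 0x240012001b8000c00060004000200000000000000000000000000) := T_3 (nat_lit 155) (nat_lit 154) (nat_lit 2) (nat_lit 1) (nat_lit 9) L34205 (by decide +kernel)
theorem L34276 : W_3 (nat_lit 2) (nat_lit 0x22000f001780084000000010000000000000000000000) (nat_lit 0x0) (nat_lit 0x400000000000000008000400000000000000000000000000) := D_3 (nat_lit 123) (nat_lit 106) (nat_lit 190) (nat_lit 6) (nat_lit 3) (nat_lit 10) (nat_lit 6) (nat_lit 3) (nat_lit 11) (by decide +kernel)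
theorem L34277 : W_3 (nat_lit 3) (nat_lit 0x20000f001780084000000010000000000000000000000) (nat_lit 0x0) (nat_lit 0x400030000000000008000400000000000000000000000000) := T_3 (nat_lit 173) (nat_lit 172) (nat_lit 1) (nat_lit 6) (nat_lit 9) L34276 (by decide +kernel)
theorem L34278 : W_3 (nat_lit 4) (nat_lit 0x20000b001780084000000010000000000000000000000) (nat_lit 0x0) (nat_lit 0x400130004000000008000400000000000000000000000000) := T_3 (nat_lit 158) (nat_lit 176) (nat_lit 3) (nat_lit 3) (nat_lit 9) L34277 (by decide +kernel)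
theorem L34283 : W_3 (nat_lit 4) (nat_lit 0x20000b001780080000000000000000000000000000000) (nat_lit 0x0) (nat_lit 0x400130004000000008000400000000000000000000000000) := T_3 (nat_lit 158) (nat_lit 176) (nat_lit 3) (nat_lit 3) (nat_lit 9) L33979 (by decide +kernel)
theorem L34287 : W_3 (nat_lit 2) (nat_lit 0x3800080017800a4003c00010000000000000000000000) (nat_lit 0x0) (nat_lit 0x2000000000000200008000000000000000000000) := D_3 (nat_lit 105) (nat_lit 87) (nat_lit 157) (nat_lit 0) (nat_lit 6) (nat_lit 6) (nat_lit 7) (nat_lit 3) (nat_lit 5) (by decide +kernel)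
theorem L34288 : W_3 (nat_lit 3) (nat_lit 0x3800080017800a4003c00000000000000000000000000) (nat_lit 0x0) (nat_lit 0x2000000000000200038000000000000000000000) := T_3 (nat_lit 88) (nat_lit 89) (nat_lit 0) (nat_lit 7) (nat_lit 6) L34287 (by decide +kernel)
theorem L34289 : W_3 (nat_lit 4) (nat_lit 0x3800080017800a4003800000000000000000000000000) (nat_lit 0x0) (nat_lit 0x2000000008000600038000000000000000000000) := T_3 (nat_lit 106) (nat_lit 123) (nat_lit 1) (nat_lit 7) (nat_lit 6) L34288 (by decide +kernel)
theorem L34290 : W_3 (nat_lit 5) (nat_lit 0x3800080017800a4003000000000000000000000000000) (nat_lit 0x0) (nat_lit 0x2000000008000e00078000000000000000000000) := T_3 (nat_lit 107) (nat_lit 90) (nat_lit 4) (nat_lit 6) (nat_lit 9) L34289 (by decide +kernel)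
theorem L34291 : W_3 (nat_lit 6) (nat_lit 0x3800080017800a4001000000000000000000000000000) (nat_lit 0x0) (nat_lit 0x2000000008002e00178000000000000000000000) := T_3 (nat_lit 109) (nat_lit 92) (nat_lit 6) (nat_lit 6) (nat_lit 9) L34290 (by decide +kernel)
theorem L34292 : W_3 (nat_lit 7) (nat_lit 0x3800080017800a4000000000000000000000000000000) (nat_lit 0x0) (nat_lit 0x6000000008003e00178000000000000000000000) := T_3 (nat_lit 108) (nat_lit 158) (nat_lit 5) (nat_lit 6) (nat_lit 6) L34291 (by decide +kernel)
theorem L34293 : W_3 (nat_lit 8) (nat_lit 0x3000080017800a4000000000000000000000000000000) (nat_lit 0x0) (nat_lit 0x1000080006000000008003e00178000000000000000000000) := T_3 (nat_lit 175) (nat_lit 192) (nat_lit 5) (nat_lit 6) (nat_lit 7) L34292 (by decide +kernel)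
theorem L34294 : W_3 (nat_lit 9) (nat_lit 0x2000080017800a4000000000000000000000000000000) (nat_lit 0x0) (nat_lit 0x5000180006000000008003e00178000000000000000000000) := T_3 (nat_lit 176) (nat_lit 194) (nat_lit 7) (nat_lit 6) (nat_lit 7) L34293 (by decide +kernel)
theorem L34295 : W_3 (nat_lit 10) (nat_lit 0x2000000017800a4000000000000000000000000000000) (nat_lit 0x0) (nat_lit 0x500018001e000000008003e00178000000000000000000000) := T_3 (nat_lit 159) (nat_lit 160) (nat_lit 3) (nat_lit 3) (nat_lit 8) L34294 (by decide +kernel)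
theorem L34311 : W_3 (nat_lit 2) (nat_lit 0x200000001700080000000000000000000000000000000) (nat_lit 0x0) (nat_lit 0x800140000000000000000000000000000000) := D_3 (nat_lit 143) (nat_lit 126) (nat_lit 128) (nat_lit 2) (nat_lit 4) (nat_lit 8) (nat_lit 2) (nat_lit 5) (nat_lit 8) (by decide +kernel)
theorem L34312 : W_3 (nat_lit 2) (nat_lit 0x200000001f00080000000000000000000000000000000) (nat_lit 0x0) (nat_lit 0x7000000000000000000000000000000000000000) := D_3 (nat_lit 157) (nat_lit 158) (nat_lit 156) (nat_lit 1) (nat_lit 8) (nat_lit 8) (nat_lit 1) (nat_lit 7) (nat_lit 8) (by decide +kernel)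
theorem L34313 : W_3 (nat_lit 3) (nat_lit 0x200000001700080000000000000000000000000000000) (nat_lit 0x0) (nat_lit 0x7000800040000000000000000000000000000000) := T_3 (nat_lit 143) (nat_lit 126) (nat_lit 2) (nat_lit 4) (nat_lit 8) L34312 (by decide +kernel)
theorem L34314 : W_3 (nat_lit 3) (nat_lit 0x200000001700080000000000000000000000000000000) (nat_lit 0x0) (nat_lit 0x7000800100000000000000000000000000000000) := T_3 (nat_lit 143) (nat_lit 128) (nat_lit 2) (nat_lit 5) (nat_lit 8) L34312 (by decide +kernel)
theorem L34327 : W_3 (nat_lit 2) (nat_lit 0x2000080017c0080000000000000000000000000000000) (nat_lit 0x0) (nat_lit 0x1c00000000000000000000000000000000000000) := D_3 (nat_lit 155) (nat_lit 154) (nat_lit 156) (nat_lit 1) (nat_lit 5) (nat_lit 8) (nat_lit 1) (nat_lit 6) (nat_lit 8) (by decide +kernel)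
theorem L34328 : W_3 (nat_lit 3) (nat_lit 0x200008001780080000000000000000000000000000000) (nat_lit 0x0) (nat_lit 0x5c00040000000000000000000000000000000000) := T_3 (nat_lit 138) (nat_lit 158) (nat_lit 3) (nat_lit 2) (nat_lit 8) L34327 (by decide +kernel)
theorem L34360 : W_3 (nat_lit 2) (nat_lit 0xc00240002001b00088000000000000000000000000000000) (nat_lit 0x0) (nat_lit 0x80004000200000000000000000000000000) := D_3 (nat_lit 122) (nat_lit 105) (nat_lit 139) (nat_lit 4) (nat_lit 4) (nat_lit 10) (nat_lit 4) (nat_lit 4) (nat_lit 11) (by decide +kernel)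
theorem L34361 : W_3 (nat_lit 3) (nat_lit 0xc00240002001b00080000000000000000000000000000000) (nat_lit 0x0) (nat_lit 0x2000000008000c000200000000000000000000000000) := T_3 (nat_lit 123) (nat_lit 173) (nat_lit 5) (nat_lit 4) (nat_lit 7) L34360 (by decide +kernel)
theorem L34362 : W_3 (nat_lit 4) (nat_lit 0x800240002001b00080000000000000000000000000000000) (nat_lit 0x0) (nat_lit 0x800040002000000008000c000200000000000000000000000000) := T_3 (nat_lit 190) (nat_lit 207) (nat_lit 5) (nat_lit 4) (nat_lit 8) L34361 (by decide +kernel)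
theorem L34395 : W_3 (nat_lit 2) (nat_lit 0x10004800240002001b80080000000000000000000000000000000) (nat_lit 0x0) (nat_lit 0x400020001000000000000000000000000000000000000000000000000) := D_3 (nat_lit 209) (nat_lit 192) (nat_lit 226) (nat_lit 7) (nat_lit 4) (nat_lit 8) (nat_lit 7) (nat_lit 4) (nat_lit 9) (by decide +kernel)
theorem L34396 : W_3 (nat_lit 3) (nat_lit 0x4800240002001b80080000000000000000000000000000000) (nat_lit 0x0) (nat_lit 0x400030001000000001000000000000000000000000000000000000000) := T_3 (nat_lit 208) (nat_lit 156) (nat_lit 4) (nat_lit 4) (nat_lit 12) L34395 (by decide +kernel)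
theorem L34397 : W_3 (nat_lit 4) (nat_lit 0x800240002001b80080000000000000000000000000000000) (nat_lit 0x0) (nat_lit 0x400030005000000011000000000000000000000000000000000000000) := T_3 (nat_lit 194) (nat_lit 160) (nat_lit 6) (nat_lit 7) (nat_lit 11) L34396 (by decide +kernel)
theorem L34398 : W_3 (nat_lit 5) (nat_lit 0x800240002001b00080000000000000000000000000000000) (nat_lit 0x0) (nat_lit 0x400030005000000011000080004000000000000000000000000000000) := T_3 (nat_lit 139) (nat_lit 122) (nat_lit 4) (nat_lit 4) (nat_lit 11) L34397 (by decide +kernel)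
theorem L34741 : W_3 (nat_lit 2) (nat_lit 0x800240002001b0008d000000000000000000000000000000) (nat_lit 0x0) (nat_lit 0x20001000080000000000000000000000000000000000000000000) := D_3 (nat_lit 192) (nat_lit 175) (nat_lit 209) (nat_lit 7) (nat_lit 4) (nat_lit 7) (nat_lit 7) (nat_lit 4) (nat_lit 8) (by decide +kernel)
theorem L34742 : W_3 (nat_lit 3) (nat_lit 0x240002001b0008d000000000000000000000000000000) (nat_lit 0x0) (nat_lit 0x20001800080000000080000000000000000000000000000000000) := T_3 (nat_lit 191) (nat_lit 139) (nat_lit 4) (nat_lit 4) (nat_lit 11) L34741 (by decide +kernel)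
theorem L34743 : W_3 (nat_lit 4) (nat_lit 0x240002001b0008c000000000000000000000000000000) (nat_lit 0x0) (nat_lit 0x20001800080000000080003000000000000000000000000000000) := T_3 (nat_lit 120) (nat_lit 121) (nat_lit 3) (nat_lit 1) (nat_lit 7) L34742 (by decide +kernel)
theorem L34744 : W_3 (nat_lit 5) (nat_lit 0x240002001b00088000000000000000000000000000000) (nat_lit 0x0) (nat_lit 0x20001800080000000080007000200000000000000000000000000) := T_3 (nat_lit 122) (nat_lit 105) (nat_lit 4) (nat_lit 4) (nat_lit 10) L34743 (by decide +kernel)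
theorem L34793 : W_3 (nat_lit 4) (nat_lit 0x200000001780080000000000000000000000000000000) (nat_lit 0x0) (nat_lit 0x1dc00040000000000000000000000000000000000) := T_3 (nat_lit 159) (nat_lit 160) (nat_lit 3) (nat_lit 3) (nat_lit 8) L34328 (by decide +kernel)
theorem L34798 : W_3 (nat_lit 2) (nat_lit 0x40003e0000001300080000000000000000000000000000000) (nat_lit 0x0) (nat_lit 0xe00000000000000000000000000000000000000000000000) := D_3 (nat_lit 190) (nat_lit 189) (nat_lit 191) (nat_lit 1) (nat_lit 6) (nat_lit 10) (nat_lit 1) (nat_lit 7) (nat_lit 10) (by decide +kernel)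
theorem L34799 : W_3 (nat_lit 3) (nat_lit 0x40003c0000001300080000000000000000000000000000000) (nat_lit 0x0) (nat_lit 0x2e00020000000000000000000000000000000000000000000) := T_3 (nat_lit 173) (nat_lit 193) (nat_lit 3) (nat_lit 3) (nat_lit 10) L34798 (by decide +kernel)
theorem L34800 : W_3 (nat_lit 2) (nat_lit 0x70002c0000001300080000000000000000000000000000000) (nat_lit 0x0) (nat_lit 0x800030000000000000000000000000000000000000000000) := D_3 (nat_lit 173) (nat_lit 191) (nat_lit 172) (nat_lit 0) (nat_lit 7) (nat_lit 11) (nat_lit 3) (nat_lit 2) (nat_lit 10) (by decide +kernel)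
theorem L34801 : W_3 (nat_lit 3) (nat_lit 0x50002c0000001300080000000000000000000000000000000) (nat_lit 0x0) (nat_lit 0xa800030000000000000000000000000000000000000000000) := T_3 (nat_lit 193) (nat_lit 195) (nat_lit 0) (nat_lit 8) (nat_lit 11) L34800 (by decide +kernel)
theorem L34802 : W_3 (nat_lit 2) (nat_lit 0x40003e0000001300080000000000000000000000000000000) (nat_lit 0x0) (nat_lit 0x3800000000000000000000000000000000000000) := D_3 (nat_lit 156) (nat_lit 157) (nat_lit 155) (nat_lit 0) (nat_lit 7) (nat_lit 10) (nat_lit 0) (nat_lit 6) (nat_lit 10) (by decide +kernel)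
theorem L34803 : W_3 (nat_lit 3) (nat_lit 0x40003c0000001300080000000000000000000000000000000) (nat_lit 0x0) (nat_lit 0x2000020003800000000000000000000000000000000000000) := T_3 (nat_lit 173) (nat_lit 193) (nat_lit 3) (nat_lit 3) (nat_lit 10) L34802 (by decide +kernel)
theorem L35015 : W_3 (nat_lit 2) (nat_lit 0xf8004800240002001b80080000000000000000000000000000000) (nat_lit 0x0) (nat_lit 0x3800000000000000000000000000000000000000000000000000000000) := D_3 (nat_lit 228) (nat_lit 227) (nat_lit 229) (nat_lit 3) (nat_lit 3) (nat_lit 12) (nat_lit 3) (nat_lit 4) (nat_lit 12) (by decide +kernel)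
theorem L35016 : W_3 (nat_lit 3) (nat_lit 0x78004800240002001b80080000000000000000000000000000000) (nat_lit 0x0) (nat_lit 0x3800080008000000000000000000000000000000000000000000000000) := T_3 (nat_lit 211) (nat_lit 195) (nat_lit 2) (nat_lit 4) (nat_lit 12) L35015 (by decide +kernel)
theorem L35017 : W_3 (nat_lit 4) (nat_lit 0x38004800240002001b80080000000000000000000000000000000) (nat_lit 0x0) (nat_lit 0x38000c000a000000000000000000000000000000000000000000000000) := T_3 (nat_lit 210) (nat_lit 193) (nat_lit 2) (nat_lit 3) (nat_lit 12) L35016 (by decide +kernel)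
theorem L35018 : W_3 (nat_lit 5) (nat_lit 0x18004800240002001b80080000000000000000000000000000000) (nat_lit 0x0) (nat_lit 0x3c000e000a000000000000000000000000000000000000000000000000) := T_3 (nat_lit 209) (nat_lit 226) (nat_lit 7) (nat_lit 4) (nat_lit 9) L35017 (by decide +kernel)
theorem L35019 : W_3 (nat_lit 6) (nat_lit 0x10004800240002001b80080000000000000000000000000000000) (nat_lit 0x0) (nat_lit 0x3d000e800a000000000000000000000000000000000000000000000000) := T_3 (nat_lit 207) (nat_lit 224) (nat_lit 5) (nat_lit 4) (nat_lit 9) L35018 (by decide +kernel)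
theorem L35066 : W_3 (nat_lit 2) (nat_lit 0x290007801300080000000000000000000000000000000) (nat_lit 0x0) (nat_lit 0x1000000000000000008000400000000000000000000000000) := D_3 (nat_lit 123) (nat_lit 106) (nat_lit 192) (nat_lit 7) (nat_lit 4) (nat_lit 6) (nat_lit 4) (nat_lit 5) (nat_lit 11) (by decide +kernel)
theorem L35067 : W_3 (nat_lit 3) (nat_lit 0x210007801300080000000000000000000000000000000) (nat_lit 0x0) (nat_lit 0x1000180000000000008000400000000000000000000000000) := T_3 (nat_lit 175) (nat_lit 176) (nat_lit 3) (nat_lit 2) (nat_lit 9) L35066 (by decide +kernel)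
theorem L35068 : W_3 (nat_lit 4) (nat_lit 0x200007801300080000000000000000000000000000000) (nat_lit 0x0) (nat_lit 0x1000198000000000008000400000000000000000000000000) := T_3 (nat_lit 172) (nat_lit 171) (nat_lit 1) (nat_lit 5) (nat_lit 9) L35067 (by decide +kernel)
theorem L35185 : W_3 (nat_lit 2) (nat_lit 0x240003001780080000000000000000000000000000000) (nat_lit 0x0) (nat_lit 0x10000800000000000000004000000000000000000000000000000) := D_3 (nat_lit 191) (nat_lit 122) (nat_lit 208) (nat_lit 4) (nat_lit 4) (nat_lit 11) (nat_lit 4) (nat_lit 4) (nat_lit 12) (by decide +kernel)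
theorem L35186 : W_3 (nat_lit 3) (nat_lit 0x240002001780080000000000000000000000000000000) (nat_lit 0x0) (nat_lit 0x10000800000001800000004000000000000000000000000000000) := T_3 (nat_lit 156) (nat_lit 155) (nat_lit 1) (nat_lit 6) (nat_lit 8) L35185 (by decide +kernel)
theorem L35187 : W_3 (nat_lit 2) (nat_lit 0x800240002001780080000000000000000000000000000000) (nat_lit 0x0) (nat_lit 0x10000000000005000000000000000000000000000000000000000) := D_3 (nat_lit 208) (nat_lit 156) (nat_lit 158) (nat_lit 4) (nat_lit 4) (nat_lit 12) (nat_lit 6) (nat_lit 4) (nat_lit 12) (by decide +kernel)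
theorem L35235 : W_3 (nat_lit 2) (nat_lit 0x260002001300088000400000000000000000000000000) (nat_lit 0x0) (nat_lit 0x4000200010000000000000000000000) := D_3 (nat_lit 105) (nat_lit 88) (nat_lit 122) (nat_lit 4) (nat_lit 4) (nat_lit 9) (nat_lit 4) (nat_lit 4) (nat_lit 10) (by decide +kernel)
theorem L35236 : W_3 (nat_lit 3) (nat_lit 0x260002001300088000000000000000000000000000000) (nat_lit 0x0) (nat_lit 0x1000000004000600010000000000000000000000) := T_3 (nat_lit 106) (nat_lit 156) (nat_lit 5) (nat_lit 4) (nat_lit 6) L35235 (by decide +kernel)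
theorem L35237 : W_3 (nat_lit 4) (nat_lit 0x240002001300088000000000000000000000000000000) (nat_lit 0x0) (nat_lit 0x400020001000000004000600010000000000000000000000) := T_3 (nat_lit 173) (nat_lit 190) (nat_lit 5) (nat_lit 4) (nat_lit 7) L35236 (by decide +kernel)
theorem L35246 : W_3 (nat_lit 2) (nat_lit 0xc00240002001300088000000000000000000000000000000) (nat_lit 0x0) (nat_lit 0x80004000200000000000000000000000000) := D_3 (nat_lit 122) (nat_lit 105) (nat_lit 139) (nat_lit 4) (nat_lit 4) (nat_lit 10) (nat_lit 4) (nat_lit 4) (nat_lit 11) (by decide +kernel)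
theorem L35247 : W_3 (nat_lit 3) (nat_lit 0xc00240002001300080000000000000000000000000000000) (nat_lit 0x0) (nat_lit 0x2000000008000c000200000000000000000000000000) := T_3 (nat_lit 123) (nat_lit 173) (nat_lit 5) (nat_lit 4) (nat_lit 7) L35246 (by decide +kernel)
theorem L35248 : W_3 (nat_lit 4) (nat_lit 0x800240002001300080000000000000000000000000000000) (nat_lit 0x0) (nat_lit 0x800040002000000008000c000200000000000000000000000000) := T_3 (nat_lit 190) (nat_lit 207) (nat_lit 5) (nat_lit 4) (nat_lit 8) L35247 (by decide +kernel)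
theorem L35276 : W_3 (nat_lit 2) (nat_lit 0x3e000200130008d000000000000000000000000000000) (nat_lit 0x0) (nat_lit 0xe000000000000000000000000000000000000000000000000) := D_3 (nat_lit 194) (nat_lit 193) (nat_lit 195) (nat_lit 3) (nat_lit 3) (nat_lit 10) (nat_lit 3) (nat_lit 4) (nat_lit 10) (by decide +kernel)
theorem L35277 : W_3 (nat_lit 3) (nat_lit 0x3c000200130008d000000000000000000000000000000) (nat_lit 0x0) (nat_lit 0xe400020000000000000000000000000000000000000000000) := T_3 (nat_lit 173) (nat_lit 190) (nat_lit 5) (nat_lit 4) (nat_lit 7) L35276 (by decide +kernel)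
theorem L35278 : W_3 (nat_lit 4) (nat_lit 0x2c000200130008d000000000000000000000000000000) (nat_lit 0x0) (nat_lit 0xe400120001000000000000000000000000000000000000000) := T_3 (nat_lit 176) (nat_lit 156) (nat_lit 0) (nat_lit 7) (nat_lit 10) L35277 (by decide +kernel)
theorem L35279 : W_3 (nat_lit 5) (nat_lit 0x24000200130008d000000000000000000000000000000) (nat_lit 0x0) (nat_lit 0xf4001a0001000000000000000000000000000000000000000) := T_3 (nat_lit 175) (nat_lit 192) (nat_lit 7) (nat_lit 4) (nat_lit 7) L35278 (by decide +kernel)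
theorem L35280 : W_3 (nat_lit 6) (nat_lit 0x24000200130008c000000000000000000000000000000) (nat_lit 0x0) (nat_lit 0xf4001a0001000000003000000000000000000000000000000) := T_3 (nat_lit 120) (nat_lit 121) (nat_lit 3) (nat_lit 1) (nat_lit 7) L35279 (by decide +kernel)
theorem L35281 : W_3 (nat_lit 7) (nat_lit 0x240002001300088000000000000000000000000000000) (nat_lit 0x0) (nat_lit 0xf4001a0001000000007000200000000000000000000000000) := T_3 (nat_lit 122) (nat_lit 105) (nat_lit 4) (nat_lit 4) (nat_lit 10) L35280 (by decide +kernel)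
theorem L35643 : W_3 (nat_lit 2) (nat_lit 0x200000001b00080000000000000000000000000000000) (nat_lit 0x0) (nat_lit 0x400140000000000000000000000000000000) := D_3 (nat_lit 142) (nat_lit 126) (nat_lit 128) (nat_lit 2) (nat_lit 4) (nat_lit 8) (nat_lit 2) (nat_lit 5) (nat_lit 8) (by decide +kernel)
theorem L35719 : W_3 (nat_lit 2) (nat_lit 0x2000000017000a0000000000000000000000000000000) (nat_lit 0x0) (nat_lit 0x80140000000000000000000000000000000) := D_3 (nat_lit 126) (nat_lit 128) (nat_lit 139) (nat_lit 1) (nat_lit 9) (nat_lit 7) (nat_lit 2) (nat_lit 3) (nat_lit 8) (by decide +kernel)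
theorem L35720 : W_3 (nat_lit 11) (nat_lit 0x2000000017800a0000000000000000000000000000000) (nat_lit 0x0) (nat_lit 0x500018001e00000000e003e00178000000000000000000000) := T_3 (nat_lit 122) (nat_lit 121) (nat_lit 0) (nat_lit 6) (nat_lit 8) L34295 (by decide +kernel)
theorem L35722 : W_3 (nat_lit 2) (nat_lit 0x3800080017001a0000000000000000000000000000000) (nat_lit 0x0) (nat_lit 0x14000000000001000000000000000000000000000) := D_3 (nat_lit 108) (nat_lit 158) (nat_lit 160) (nat_lit 5) (nat_lit 6) (nat_lit 6) (nat_lit 7) (nat_lit 6) (nat_lit 6) (by decide +kernel)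
theorem L35723 : W_3 (nat_lit 3) (nat_lit 0x3000080017001a0000000000000000000000000000000) (nat_lit 0x0) (nat_lit 0x1000080014000000000001000000000000000000000000000) := T_3 (nat_lit 175) (nat_lit 192) (nat_lit 5) (nat_lit 6) (nat_lit 7) L35722 (by decide +kernel)
theorem L35724 : W_3 (nat_lit 4) (nat_lit 0x2000080017001a0000000000000000000000000000000) (nat_lit 0x0) (nat_lit 0x5000180014000000000001000000000000000000000000000) := T_3 (nat_lit 176) (nat_lit 194) (nat_lit 7) (nat_lit 6) (nat_lit 7) L35723 (by decide +kernel)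
theorem L35725 : W_3 (nat_lit 5) (nat_lit 0x2000080017000a0000000000000000000000000000000) (nat_lit 0x0) (nat_lit 0x5000180014000000140001000000000000000000000000000) := T_3 (nat_lit 128) (nat_lit 126) (nat_lit 1) (nat_lit 9) (nat_lit 7) L35724 (by decide +kernel)
theorem L35732 : W_3 (nat_lit 2) (nat_lit 0x2000080017000a0001000000000000000000000000000) (nat_lit 0x0) (nat_lit 0x80004000000000000000080000000000000000000000) := D_3 (nat_lit 158) (nat_lit 91) (nat_lit 175) (nat_lit 5) (nat_lit 6) (nat_lit 5) (nat_lit 5) (nat_lit 6) (nat_lit 6) (by decide +kernel)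
theorem L35733 : W_3 (nat_lit 3) (nat_lit 0x2000080017000a0000000000000000000000000000000) (nat_lit 0x0) (nat_lit 0x80014000000000001000080000000000000000000000) := T_3 (nat_lit 108) (nat_lit 160) (nat_lit 7) (nat_lit 6) (nat_lit 6) L35732 (by decide +kernel)
theorem L35734 : W_3 (nat_lit 2) (nat_lit 0x3000080017000a0000000000000000000000000000000) (nat_lit 0x0) (nat_lit 0x140002000000000000000000000000000) := D_3 (nat_lit 126) (nat_lit 109) (nat_lit 128) (nat_lit 6) (nat_lit 6) (nat_lit 10) (nat_lit 1) (nat_lit 9) (nat_lit 7) (by decide +kernel)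
theorem L35735 : W_3 (nat_lit 3) (nat_lit 0x2000080017000a0000000000000000000000000000000) (nat_lit 0x0) (nat_lit 0x4000100000000000140002000000000000000000000000000) := T_3 (nat_lit 176) (nat_lit 194) (nat_lit 7) (nat_lit 6) (nat_lit 7) L35734 (by decide +kernel)
theorem L35737 : W_3 (nat_lit 2) (nat_lit 0x2000080017000a0000000000000000000000000000000) (nat_lit 0x0) (nat_lit 0x10000080000001000000000000000000000000000) := D_3 (nat_lit 160) (nat_lit 139) (nat_lit 108) (nat_lit 3) (nat_lit 3) (nat_lit 8) (nat_lit 7) (nat_lit 6) (nat_lit 6) (by decide +kernel)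
theorem L35738 : W_3 (nat_lit 2) (nat_lit 0x3800080017000a0001000140000000000000000000000) (nat_lit 0x0) (nat_lit 0x8000a000000000000000000) := D_3 (nat_lit 91) (nat_lit 75) (nat_lit 73) (nat_lit 6) (nat_lit 6) (nat_lit 8) (nat_lit 4) (nat_lit 6) (nat_lit 8) (by decide +kernel)
theorem L35739 : W_3 (nat_lit 3) (nat_lit 0x3800080017000a0001000100000000000000000000000) (nat_lit 0x0) (nat_lit 0x8000c000a000000000000000000) := T_3 (nat_lit 90) (nat_lit 107) (nat_lit 4) (nat_lit 6) (nat_lit 9) L35738 (by decide +kernel)
theorem L35740 : W_3 (nat_lit 4) (nat_lit 0x3800080017000a0001000000000000000000000000000) (nat_lit 0x0) (nat_lit 0x28001c000a000000000000000000) := T_3 (nat_lit 92) (nat_lit 109) (nat_lit 6) (nat_lit 6) (nat_lit 9) L35739 (by decide +kernel)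
theorem L35741 : W_3 (nat_lit 5) (nat_lit 0x3800080017000a0000000000000000000000000000000) (nat_lit 0x0) (nat_lit 0x40000000000038001c000a000000000000000000) := T_3 (nat_lit 108) (nat_lit 158) (nat_lit 5) (nat_lit 6) (nat_lit 6) L35740 (by decide +kernel)
theorem L35742 : W_3 (nat_lit 6) (nat_lit 0x3000080017000a0000000000000000000000000000000) (nat_lit 0x0) (nat_lit 0x10000800040000000000038001c000a000000000000000000) := T_3 (nat_lit 175) (nat_lit 192) (nat_lit 5) (nat_lit 6) (nat_lit 7) L35741 (by decide +kernel)
theorem L35743 : W_3 (nat_lit 7) (nat_lit 0x2000080017000a0000000000000000000000000000000) (nat_lit 0x0) (nat_lit 0x50001800040000000000038001c000a000000000000000000) := T_3 (nat_lit 176) (nat_lit 194) (nat_lit 7) (nat_lit 6) (nat_lit 7) L35742 (by decide +kernel)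
theorem L35819 : W_3 (nat_lit 2) (nat_lit 0x28001c001300080000000000000000000000000000000) (nat_lit 0x0) (nat_lit 0x20000c0000000000000000000000000000000000) := D_3 (nat_lit 139) (nat_lit 157) (nat_lit 138) (nat_lit 0) (nat_lit 7) (nat_lit 9) (nat_lit 3) (nat_lit 2) (nat_lit 8) (by decide +kernel)
theorem L35820 : W_3 (nat_lit 3) (nat_lit 0x280014001300080000000000000000000000000000000) (nat_lit 0x0) (nat_lit 0x2a0000c0000000000000000000000000000000000) := T_3 (nat_lit 159) (nat_lit 161) (nat_lit 0) (nat_lit 8) (nat_lit 9) L35819 (by decide +kernel)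
theorem L35825 : W_3 (nat_lit 2) (nat_lit 0x3e0012001300080000000000000000000000000000000) (nat_lit 0x0) (nat_lit 0xe00000000000000000000000000000000000000000000000) := D_3 (nat_lit 190) (nat_lit 189) (nat_lit 191) (nat_lit 1) (nat_lit 6) (nat_lit 10) (nat_lit 1) (nat_lit 7) (nat_lit 10) (by decide +kernel)
theorem L35826 : W_3 (nat_lit 3) (nat_lit 0x3c0012001300080000000000000000000000000000000) (nat_lit 0x0) (nat_lit 0xe00020008000000000000000000000000000000000000000) := T_3 (nat_lit 173) (nat_lit 159) (nat_lit 2) (nat_lit 3) (nat_lit 10) L35825 (by decide +kernel)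
theorem L35952 : W_3 (nat_lit 3) (nat_lit 0x48003c0000001300080000000000000000000000000000000) (nat_lit 0x0) (nat_lit 0x20001000000003000000008000000000000000000000000000000) := T_3 (nat_lit 157) (nat_lit 156) (nat_lit 0) (nat_lit 7) (nat_lit 10) L33472 (by decide +kernel)
theorem L36333 : W_3 (nat_lit 2) (nat_lit 0x20005000280014001300080000000000000000000000000000000) (nat_lit 0x0) (nat_lit 0x800040002000000000000000000000000000000000000000000000000) := D_3 (nat_lit 210) (nat_lit 193) (nat_lit 227) (nat_lit 7) (nat_lit 5) (nat_lit 8) (nat_lit 7) (nat_lit 5) (nat_lit 9) (by decide +kernel)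
theorem L36334 : W_3 (nat_lit 3) (nat_lit 0x5000280014001300080000000000000000000000000000000) (nat_lit 0x0) (nat_lit 0x800060002000000002000000000000000000000000000000000000000) := T_3 (nat_lit 209) (nat_lit 157) (nat_lit 4) (nat_lit 5) (nat_lit 12) L36333 (by decide +kernel)
theorem L36335 : W_3 (nat_lit 4) (nat_lit 0x4000280014001300080000000000000000000000000000000) (nat_lit 0x0) (nat_lit 0x800060003000000002000000008000000000000000000000000000000) := T_3 (nat_lit 192) (nat_lit 123) (nat_lit 4) (nat_lit 5) (nat_lit 11) L36334 (by decide +kernel)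
theorem L36338 : W_3 (nat_lit 2) (nat_lit 0x20001000280014001300080000000000000000000000000000000) (nat_lit 0x0) (nat_lit 0x800040002000000000000000000000000000000000000000000000000) := D_3 (nat_lit 210) (nat_lit 193) (nat_lit 227) (nat_lit 7) (nat_lit 5) (nat_lit 8) (nat_lit 7) (nat_lit 5) (nat_lit 9) (by decide +kernel)
theorem L36339 : W_3 (nat_lit 3) (nat_lit 0x1000280014001300080000000000000000000000000000000) (nat_lit 0x0) (nat_lit 0x800060002000000002000000000000000000000000000000000000000) := T_3 (nat_lit 209) (nat_lit 157) (nat_lit 4) (nat_lit 5) (nat_lit 12) L36338 (by decide +kernel)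
theorem L36340 : W_3 (nat_lit 4) (nat_lit 0x280014001300080000000000000000000000000000000) (nat_lit 0x0) (nat_lit 0x800060003000000002000000008000000000000000000000000000000) := T_3 (nat_lit 192) (nat_lit 123) (nat_lit 4) (nat_lit 5) (nat_lit 11) L36339 (by decide +kernel)
theorem L36514 : W_3 (nat_lit 2) (nat_lit 0x20005000280004001300080000000000000000000000000000000) (nat_lit 0x0) (nat_lit 0x200010000800000000000000000000000000000000000000000000000) := D_3 (nat_lit 208) (nat_lit 191) (nat_lit 225) (nat_lit 5) (nat_lit 5) (nat_lit 8) (nat_lit 5) (nat_lit 5) (nat_lit 9) (by decide +kernel)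
theorem L36831 : W_3 (nat_lit 2) (nat_lit 0x2002f001680130008d000000000000000000000000000000) (nat_lit 0x0) (nat_lit 0x10000c0000000000000000000000000000000000) := D_3 (nat_lit 139) (nat_lit 156) (nat_lit 138) (nat_lit 5) (nat_lit 3) (nat_lit 7) (nat_lit 6) (nat_lit 2) (nat_lit 11) (by decide +kernel)
theorem L36832 : W_3 (nat_lit 3) (nat_lit 0x2002f001600130008d000000000000000000000000000000) (nat_lit 0x0) (nat_lit 0x1c000c0000000000000000000000000000000000) := T_3 (nat_lit 155) (nat_lit 154) (nat_lit 0) (nat_lit 5) (nat_lit 10) L36831 (by decide +kernel)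
theorem L36833 : W_3 (nat_lit 4) (nat_lit 0x2f001600130008d000000000000000000000000000000) (nat_lit 0x0) (nat_lit 0x300000001c000c0000000000000000000000000000000000) := T_3 (nat_lit 189) (nat_lit 188) (nat_lit 1) (nat_lit 5) (nat_lit 10) L36832 (by decide +kernel)
theorem L36885 : W_3 (nat_lit 2) (nat_lit 0x20001000280014001300080000000000000000000000000000000) (nat_lit 0x0) (nat_lit 0x200010000800000000000000000000000000000000000000000000000) := D_3 (nat_lit 208) (nat_lit 191) (nat_lit 225) (nat_lit 5) (nat_lit 5) (nat_lit 8) (nat_lit 5) (nat_lit 5) (nat_lit 9) (by decide +kernel)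
theorem L36886 : W_3 (nat_lit 3) (nat_lit 0x1000280014001300080000000000000000000000000000000) (nat_lit 0x0) (nat_lit 0x200030000800000002000000000000000000000000000000000000000) := T_3 (nat_lit 209) (nat_lit 157) (nat_lit 4) (nat_lit 5) (nat_lit 12) L36885 (by decide +kernel)
theorem L36903 : W_3 (nat_lit 2) (nat_lit 0x3000380034001300080000000000000000000000000000000) (nat_lit 0x0) (nat_lit 0x10000c00000000000000000000000000000000000000000000000) := D_3 (nat_lit 191) (nat_lit 208) (nat_lit 190) (nat_lit 5) (nat_lit 5) (nat_lit 8) (nat_lit 2) (nat_lit 3) (nat_lit 11) (by decide +kernel)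
theorem L36915 : W_3 (nat_lit 2) (nat_lit 0x380014001300080000000000000000000000000000000) (nat_lit 0x0) (nat_lit 0x40028000000000000000000000000000000000000000) := D_3 (nat_lit 161) (nat_lit 159) (nat_lit 174) (nat_lit 0) (nat_lit 8) (nat_lit 9) (nat_lit 2) (nat_lit 4) (nat_lit 10) (by decide +kernel)
theorem L37097 : W_3 (nat_lit 2) (nat_lit 0x2100008013e008d000000004000000000000000000000) (nat_lit 0x0) (nat_lit 0x1000000000000200010000000000000000000000) := D_3 (nat_lit 105) (nat_lit 88) (nat_lit 156) (nat_lit 5) (nat_lit 3) (nat_lit 5) (nat_lit 5) (nat_lit 3) (nat_lit 6) (by decide +kernel)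
theorem L37098 : W_3 (nat_lit 3) (nat_lit 0x2000008013e008d000000004000000000000000000000) (nat_lit 0x0) (nat_lit 0x200010001000000000000200010000000000000000000000) := T_3 (nat_lit 172) (nat_lit 189) (nat_lit 6) (nat_lit 2) (nat_lit 11) L37097 (by decide +kernel)
theorem L37099 : W_3 (nat_lit 4) (nat_lit 0x2000008013e008d000000000000000000000000000000) (nat_lit 0x0) (nat_lit 0x200010001000000000000280014000000000000000000000) := T_3 (nat_lit 86) (nat_lit 103) (nat_lit 7) (nat_lit 1) (nat_lit 5) L37098 (by decide +kernel)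
theorem L37100 : W_3 (nat_lit 5) (nat_lit 0x2000008013e0089000000000000000000000000000000) (nat_lit 0x0) (nat_lit 0x200010001000010004000280014000000000000000000000) := T_3 (nat_lit 122) (nat_lit 136) (nat_lit 2) (nat_lit 0) (nat_lit 8) L37099 (by decide +kernel)
theorem L37101 : W_3 (nat_lit 6) (nat_lit 0x2000008013e0081000000000000000000000000000000) (nat_lit 0x0) (nat_lit 0x20001000100001001c000280014000000000000000000000) := T_3 (nat_lit 123) (nat_lit 124) (nat_lit 2) (nat_lit 1) (nat_lit 8) L37100 (by decide +kernel)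
theorem L37102 : W_3 (nat_lit 7) (nat_lit 0x2000008013c0081000000000000000000000000000000) (nat_lit 0x0) (nat_lit 0x20001000100003001c800280014000000000000000000000) := T_3 (nat_lit 137) (nat_lit 119) (nat_lit 0) (nat_lit 4) (nat_lit 8) L37101 (by decide +kernel)
theorem L37103 : W_3 (nat_lit 8) (nat_lit 0x2000000013c0081000000000000000000000000000000) (nat_lit 0x0) (nat_lit 0x200010001c0003001c800280014000000000000000000000) := T_3 (nat_lit 155) (nat_lit 154) (nat_lit 1) (nat_lit 5) (nat_lit 8) L37102 (by decide +kernel)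
theorem L37104 : W_3 (nat_lit 9) (nat_lit 0x2000000013c0080000000000000000000000000000000) (nat_lit 0x0) (nat_lit 0x200010001c0003001f800280014000000000000000000000) := T_3 (nat_lit 120) (nat_lit 121) (nat_lit 0) (nat_lit 5) (nat_lit 8) L37103 (by decide +kernel)
theorem L37109 : W_3 (nat_lit 2) (nat_lit 0x2000040013e0080000000000000000000000000000000) (nat_lit 0x0) (nat_lit 0xe00000000000000000000000000000000000000) := D_3 (nat_lit 154) (nat_lit 155) (nat_lit 153) (nat_lit 1) (nat_lit 5) (nat_lit 8) (nat_lit 1) (nat_lit 4) (nat_lit 8) (by decide +kernel)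
theorem L37110 : W_3 (nat_lit 3) (nat_lit 0x2000040013c0080000000000000000000000000000000) (nat_lit 0x0) (nat_lit 0x2e00020000000000000000000000000000000000) := T_3 (nat_lit 137) (nat_lit 157) (nat_lit 3) (nat_lit 1) (nat_lit 8) L37109 (by decide +kernel)
theorem L37111 : W_3 (nat_lit 4) (nat_lit 0x2000000013c0080000000000000000000000000000000) (nat_lit 0x0) (nat_lit 0xee00020000000000000000000000000000000000) := T_3 (nat_lit 158) (nat_lit 159) (nat_lit 3) (nat_lit 2) (nat_lit 8) L37110 (by decide +kernel)
theorem L37123 : W_3 (nat_lit 2) (nat_lit 0x2000078013c0086001700000000000000000000000000) (nat_lit 0x0) (nat_lit 0x180000000000008000000000000000000000000000000) := D_3 (nat_lit 175) (nat_lit 123) (nat_lit 176) (nat_lit 7) (nat_lit 4) (nat_lit 6) (nat_lit 3) (nat_lit 2) (nat_lit 9) (by decide +kernel)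
theorem L37124 : W_3 (nat_lit 3) (nat_lit 0x2000058013c0086001700000000000000000000000000) (nat_lit 0x0) (nat_lit 0x1c0002000000008000000000000000000000000000000) := T_3 (nat_lit 157) (nat_lit 174) (nat_lit 7) (nat_lit 3) (nat_lit 6) L37123 (by decide +kernel)
theorem L37125 : W_3 (nat_lit 4) (nat_lit 0x2000058013c0086000700000000000000000000000000) (nat_lit 0x0) (nat_lit 0x1c0002000000008001800000000000000000000000000) := T_3 (nat_lit 108) (nat_lit 107) (nat_lit 1) (nat_lit 6) (nat_lit 6) L37124 (by decide +kernel)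
theorem L37126 : W_3 (nat_lit 5) (nat_lit 0x2000058013c0086000300000000000000000000000000) (nat_lit 0x0) (nat_lit 0x1c0002000000008001c00020000000000000000000000) := T_3 (nat_lit 106) (nat_lit 89) (nat_lit 6) (nat_lit 3) (nat_lit 9) L37125 (by decide +kernel)
theorem L37127 : W_3 (nat_lit 6) (nat_lit 0x2000058013c0082000300000000000000000000000000) (nat_lit 0x0) (nat_lit 0x1d000200000000c001c00020000000000000000000000) := T_3 (nat_lit 122) (nat_lit 172) (nat_lit 6) (nat_lit 2) (nat_lit 10) L37126 (by decide +kernel)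
theorem L37128 : W_3 (nat_lit 7) (nat_lit 0x2000058013c0082000100000000000000000000000000) (nat_lit 0x0) (nat_lit 0x1d000200000000c001e00030000000000000000000000) := T_3 (nat_lit 105) (nat_lit 88) (nat_lit 6) (nat_lit 2) (nat_lit 9) L37127 (by decide +kernel)
theorem L37129 : W_3 (nat_lit 8) (nat_lit 0x2000058013c0082000000000000000000000000000000) (nat_lit 0x0) (nat_lit 0x1d000200000000c001f00038000000000000000000000) := T_3 (nat_lit 104) (nat_lit 87) (nat_lit 7) (nat_lit 2) (nat_lit 5) L37128 (by decide +kernel)
theorem L37130 : W_3 (nat_lit 9) (nat_lit 0x2000050013c0082000000000000000000000000000000) (nat_lit 0x0) (nat_lit 0x1d0002c0000000c001f00038000000000000000000000) := T_3 (nat_lit 155) (nat_lit 154) (nat_lit 1) (nat_lit 5) (nat_lit 8) L37129 (by decide +kernel)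
theorem L37131 : W_3 (nat_lit 10) (nat_lit 0x2000050013c0080000000000000000000000000000000) (nat_lit 0x0) (nat_lit 0x1d0002c0000000f001f00038000000000000000000000) := T_3 (nat_lit 121) (nat_lit 120) (nat_lit 0) (nat_lit 5) (nat_lit 8) L37130 (by decide +kernel)
theorem L37132 : W_3 (nat_lit 11) (nat_lit 0x2000010013c0080000000000000000000000000000000) (nat_lit 0x0) (nat_lit 0x1d000ec0000000f001f00038000000000000000000000) := T_3 (nat_lit 158) (nat_lit 159) (nat_lit 3) (nat_lit 2) (nat_lit 8) L37131 (by decide +kernel)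
theorem L37135 : W_3 (nat_lit 2) (nat_lit 0x2000008013c0082000000000000000000000000000000) (nat_lit 0x0) (nat_lit 0x1000400004000000000000000000000000000000) := D_3 (nat_lit 142) (nat_lit 122) (nat_lit 156) (nat_lit 0) (nat_lit 6) (nat_lit 8) (nat_lit 1) (nat_lit 6) (nat_lit 8) (by decide +kernel)
theorem L37136 : W_3 (nat_lit 3) (nat_lit 0x2000000013c0082000000000000000000000000000000) (nat_lit 0x0) (nat_lit 0x1c00400004000000000000000000000000000000) := T_3 (nat_lit 155) (nat_lit 154) (nat_lit 1) (nat_lit 5) (nat_lit 8) L37135 (by decide +kernel)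
theorem L37137 : W_3 (nat_lit 4) (nat_lit 0x2000000013c0080000000000000000000000000000000) (nat_lit 0x0) (nat_lit 0x1c00400007000000000000000000000000000000) := T_3 (nat_lit 121) (nat_lit 120) (nat_lit 0) (nat_lit 5) (nat_lit 8) L37136 (by decide +kernel)
theorem L37165 : W_3 (nat_lit 2) (nat_lit 0x2000010013e0088000000000000000000000000000000) (nat_lit 0x0) (nat_lit 0x2000010004000000000000000000000000000000) := D_3 (nat_lit 136) (nat_lit 122) (nat_lit 157) (nat_lit 2) (nat_lit 0) (nat_lit 8) (nat_lit 3) (nat_lit 0) (nat_lit 8) (by decide +kernel)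
theorem L37166 : W_3 (nat_lit 3) (nat_lit 0x2000010013c0088000000000000000000000000000000) (nat_lit 0x0) (nat_lit 0x2000030014000000000000000000000000000000) := T_3 (nat_lit 137) (nat_lit 124) (nat_lit 2) (nat_lit 1) (nat_lit 8) L37165 (by decide +kernel)
theorem L37167 : W_3 (nat_lit 2) (nat_lit 0x2000010013c0088000400000000000000000000000000) (nat_lit 0x0) (nat_lit 0x400020002000000000000000000000000000000000000000) := D_3 (nat_lit 173) (nat_lit 190) (nat_lit 157) (nat_lit 6) (nat_lit 3) (nat_lit 11) (nat_lit 5) (nat_lit 4) (nat_lit 6) (by decide +kernel)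
theorem L37168 : W_3 (nat_lit 3) (nat_lit 0x2000010013c0088000000000000000000000000000000) (nat_lit 0x0) (nat_lit 0x400020002000000000000400020000000000000000000000) := T_3 (nat_lit 106) (nat_lit 89) (nat_lit 5) (nat_lit 4) (nat_lit 5) L37167 (by decide +kernel)
theorem L37170 : W_3 (nat_lit 2) (nat_lit 0x2000010013c0080000000000000000000000000000000) (nat_lit 0x0) (nat_lit 0xc00400000000000000000000000000000000000) := D_3 (nat_lit 155) (nat_lit 154) (nat_lit 142) (nat_lit 1) (nat_lit 5) (nat_lit 8) (nat_lit 1) (nat_lit 6) (nat_lit 8) (by decide +kernel)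
theorem L37175 : W_3 (nat_lit 2) (nat_lit 0x2200010013c008a000000000000000000000000000000) (nat_lit 0x0) (nat_lit 0x4000100008000000000000000000000) := D_3 (nat_lit 104) (nat_lit 87) (nat_lit 122) (nat_lit 7) (nat_lit 2) (nat_lit 5) (nat_lit 4) (nat_lit 3) (nat_lit 10) (by decide +kernel)
theorem L37176 : W_3 (nat_lit 3) (nat_lit 0x2000010013c008a000000000000000000000000000000) (nat_lit 0x0) (nat_lit 0x400020000000000004000100008000000000000000000000) := T_3 (nat_lit 173) (nat_lit 190) (nat_lit 6) (nat_lit 3) (nat_lit 11) L37175 (by decide +kernel)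
theorem L37177 : W_3 (nat_lit 4) (nat_lit 0x2000010013c0088000000000000000000000000000000) (nat_lit 0x0) (nat_lit 0x400020000000000007000100008000000000000000000000) := T_3 (nat_lit 121) (nat_lit 120) (nat_lit 0) (nat_lit 5) (nat_lit 8) L37176 (by decide +kernel)
theorem L37178 : W_3 (nat_lit 2) (nat_lit 0x2000010013e0089000000020000000000000000000000) (nat_lit 0x0) (nat_lit 0x2000010004000000000000000000000000000000) := D_3 (nat_lit 136) (nat_lit 122) (nat_lit 157) (nat_lit 2) (nat_lit 0) (nat_lit 8) (nat_lit 3) (nat_lit 0) (nat_lit 8) (by decide +kernel)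
theorem L37179 : W_3 (nat_lit 3) (nat_lit 0x2000010013c0089000000020000000000000000000000) (nat_lit 0x0) (nat_lit 0x2000030004800000000000000000000000000000) := T_3 (nat_lit 137) (nat_lit 119) (nat_lit 0) (nat_lit 4) (nat_lit 8) L37178 (by decide +kernel)
theorem L37180 : W_3 (nat_lit 4) (nat_lit 0x2000010013c0088000000020000000000000000000000) (nat_lit 0x0) (nat_lit 0x2000030007800000000000000000000000000000) := T_3 (nat_lit 120) (nat_lit 121) (nat_lit 0) (nat_lit 5) (nat_lit 8) L37179 (by decide +kernel)
theorem L37181 : W_3 (nat_lit 5) (nat_lit 0x2000010013c0088000000000000000000000000000000) (nat_lit 0x0) (nat_lit 0x2000030007800400020000000000000000000000) := T_3 (nat_lit 89) (nat_lit 106) (nat_lit 5) (nat_lit 4) (nat_lit 5) L37180 (by decide +kernel)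
theorem L37184 : W_3 (nat_lit 2) (nat_lit 0x2000000013c008a000400020000000000000000000000) (nat_lit 0x0) (nat_lit 0x14000000000001000000000000000000) := D_3 (nat_lit 72) (nat_lit 122) (nat_lit 124) (nat_lit 5) (nat_lit 4) (nat_lit 4) (nat_lit 7) (nat_lit 4) (nat_lit 4) (by decide +kernel)
theorem L37185 : W_3 (nat_lit 3) (nat_lit 0x2000000013c008a000400000000000000000000000000) (nat_lit 0x0) (nat_lit 0x1000000014000000020001000000000000000000) := T_3 (nat_lit 89) (nat_lit 156) (nat_lit 5) (nat_lit 4) (nat_lit 5) L37184 (by decide +kernel)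
theorem L37186 : W_3 (nat_lit 4) (nat_lit 0x2000000013c0088000400000000000000000000000000) (nat_lit 0x0) (nat_lit 0x1000000017000000020001000000000000000000) := T_3 (nat_lit 121) (nat_lit 120) (nat_lit 0) (nat_lit 5) (nat_lit 8) L37185 (by decide +kernel)
theorem L37187 : W_3 (nat_lit 2) (nat_lit 0x2000000013c0088000400020001000000000000000000) (nat_lit 0x0) (nat_lit 0x10000800040000000000000) := D_3 (nat_lit 71) (nat_lit 54) (nat_lit 88) (nat_lit 4) (nat_lit 4) (nat_lit 7) (nat_lit 4) (nat_lit 4) (nat_lit 8) (by decide +kernel)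
theorem L37188 : W_3 (nat_lit 3) (nat_lit 0x2000000013c0088000400020000000000000000000000) (nat_lit 0x0) (nat_lit 0x4000000010001800040000000000000) := T_3 (nat_lit 72) (nat_lit 122) (nat_lit 5) (nat_lit 4) (nat_lit 4) L37187 (by decide +kernel)
theorem L37189 : W_3 (nat_lit 4) (nat_lit 0x2000000013c0088000400000000000000000000000000) (nat_lit 0x0) (nat_lit 0x1000000004000000030001800040000000000000) := T_3 (nat_lit 89) (nat_lit 156) (nat_lit 5) (nat_lit 4) (nat_lit 5) L37188 (by decide +kernel)
theorem L37190 : W_3 (nat_lit 2) (nat_lit 0x2000010013c009e000d00000000000000000000000000) (nat_lit 0x0) (nat_lit 0x40002000000000000000040000000000000000000000) := D_3 (nat_lit 157) (nat_lit 90) (nat_lit 174) (nat_lit 6) (nat_lit 4) (nat_lit 9) (nat_lit 6) (nat_lit 4) (nat_lit 10) (by decide +kernel)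
theorem L37191 : W_3 (nat_lit 3) (nat_lit 0x2000010013c009e000500000000000000000000000000) (nat_lit 0x0) (nat_lit 0x40002000000000001800040000000000000000000000) := T_3 (nat_lit 107) (nat_lit 108) (nat_lit 2) (nat_lit 2) (nat_lit 7) L37190 (by decide +kernel)
theorem L37192 : W_3 (nat_lit 4) (nat_lit 0x2000010013c008e000500000000000000000000000000) (nat_lit 0x0) (nat_lit 0x40002000000010001880040000000000000000000000) := T_3 (nat_lit 124) (nat_lit 103) (nat_lit 0) (nat_lit 5) (nat_lit 7) L37191 (by decide +kernel)
theorem L37193 : W_3 (nat_lit 5) (nat_lit 0x2000010013c008e000400000000000000000000000000) (nat_lit 0x0) (nat_lit 0x40002000000010001980048000000000000000000000) := T_3 (nat_lit 104) (nat_lit 87) (nat_lit 7) (nat_lit 2) (nat_lit 5) L37192 (by decide +kernel)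
theorem L37194 : W_3 (nat_lit 6) (nat_lit 0x2000000013c008e000400000000000000000000000000) (nat_lit 0x0) (nat_lit 0x60003000000010001980048000000000000000000000) := T_3 (nat_lit 156) (nat_lit 173) (nat_lit 6) (nat_lit 3) (nat_lit 10) L37193 (by decide +kernel)
theorem L37195 : W_3 (nat_lit 7) (nat_lit 0x2000000013c008a000400000000000000000000000000) (nat_lit 0x0) (nat_lit 0x60003000400014001980048000000000000000000000) := T_3 (nat_lit 122) (nat_lit 142) (nat_lit 0) (nat_lit 6) (nat_lit 8) L37194 (by decide +kernel)
theorem L37196 : W_3 (nat_lit 8) (nat_lit 0x2000000013c0088000400000000000000000000000000) (nat_lit 0x0) (nat_lit 0x60003000400017001980048000000000000000000000) := T_3 (nat_lit 121) (nat_lit 120) (nat_lit 0) (nat_lit 5) (nat_lit 8) L37195 (by decide +kernel)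
theorem L37197 : W_3 (nat_lit 2) (nat_lit 0x2000000013c008e000400070000000000000000000000) (nat_lit 0x0) (nat_lit 0x2000000000000a00000000000000000000000000) := D_3 (nat_lit 157) (nat_lit 105) (nat_lit 107) (nat_lit 7) (nat_lit 3) (nat_lit 5) (nat_lit 6) (nat_lit 4) (nat_lit 9) (by decide +kernel)
theorem L37198 : W_3 (nat_lit 3) (nat_lit 0x2000000013c008e000400030000000000000000000000) (nat_lit 0x0) (nat_lit 0x2000000000000a00040002000000000000000000) := T_3 (nat_lit 90) (nat_lit 73) (nat_lit 6) (nat_lit 4) (nat_lit 8) L37197 (by decide +kernel)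
theorem L37199 : W_3 (nat_lit 4) (nat_lit 0x2000000013c008e000400020000000000000000000000) (nat_lit 0x0) (nat_lit 0x2000000000000a00050002800000000000000000) := T_3 (nat_lit 88) (nat_lit 71) (nat_lit 4) (nat_lit 4) (nat_lit 8) L37198 (by decide +kernel)
theorem L37200 : W_3 (nat_lit 5) (nat_lit 0x2000000013c008e000400000000000000000000000000) (nat_lit 0x0) (nat_lit 0x2000000000000a00070003800000000000000000) := T_3 (nat_lit 89) (nat_lit 72) (nat_lit 5) (nat_lit 4) (nat_lit 4) L37199 (by decide +kernel)
theorem L37201 : W_3 (nat_lit 6) (nat_lit 0x2000000013c008a000400000000000000000000000000) (nat_lit 0x0) (nat_lit 0x2000400004000a00070003800000000000000000) := T_3 (nat_lit 122) (nat_lit 142) (nat_lit 0) (nat_lit 6) (nat_lit 8) L37200 (by decide +kernel)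
theorem L37202 : W_3 (nat_lit 7) (nat_lit 0x2000000013c0088000400000000000000000000000000) (nat_lit 0x0) (nat_lit 0x2000400007000a00070003800000000000000000) := T_3 (nat_lit 121) (nat_lit 120) (nat_lit 0) (nat_lit 5) (nat_lit 8) L37201 (by decide +kernel)
theorem L37223 : W_3 (nat_lit 2) (nat_lit 0x2000060013c0088000000000000000000000000000000) (nat_lit 0x0) (nat_lit 0x80000000000000000400020000000000000000000000) := D_3 (nat_lit 106) (nat_lit 89) (nat_lit 175) (nat_lit 7) (nat_lit 4) (nat_lit 5) (nat_lit 7) (nat_lit 4) (nat_lit 6) (by decide +kernel)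
theorem L37224 : W_3 (nat_lit 3) (nat_lit 0x2000040013c0088000000000000000000000000000000) (nat_lit 0x0) (nat_lit 0x80002000020000000400020000000000000000000000) := T_3 (nat_lit 157) (nat_lit 137) (nat_lit 3) (nat_lit 1) (nat_lit 8) L37223 (by decide +kernel)
theorem L37225 : W_3 (nat_lit 4) (nat_lit 0x2000000013c0088000000000000000000000000000000) (nat_lit 0x0) (nat_lit 0x8000e000020000000400020000000000000000000000) := T_3 (nat_lit 158) (nat_lit 159) (nat_lit 3) (nat_lit 2) (nat_lit 8) L37224 (by decide +kernel)
theorem L37226 : W_3 (nat_lit 2) (nat_lit 0x2000040013c0098000000000000000000000000000000) (nat_lit 0x0) (nat_lit 0x80000000000000000400020000000000000000000000) := D_3 (nat_lit 106) (nat_lit 89) (nat_lit 175) (nat_lit 7) (nat_lit 4) (nat_lit 5) (nat_lit 4) (nat_lit 5) (nat_lit 10) (by decide +kernel)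
theorem L37227 : W_3 (nat_lit 3) (nat_lit 0x2000040013c0088000000000000000000000000000000) (nat_lit 0x0) (nat_lit 0x80000000020010000400020000000000000000000000) := T_3 (nat_lit 124) (nat_lit 137) (nat_lit 2) (nat_lit 1) (nat_lit 8) L37226 (by decide +kernel)
theorem L37228 : W_3 (nat_lit 4) (nat_lit 0x2000000013c0088000000000000000000000000000000) (nat_lit 0x0) (nat_lit 0x8000c000020010000400020000000000000000000000) := T_3 (nat_lit 158) (nat_lit 159) (nat_lit 3) (nat_lit 2) (nat_lit 8) L37227 (by decide +kernel)
theorem L37229 : W_3 (nat_lit 2) (nat_lit 0x2800040013c0088000000000000000000000000000000) (nat_lit 0x0) (nat_lit 0x10000400020000000000000000000000) := D_3 (nat_lit 106) (nat_lit 89) (nat_lit 124) (nat_lit 7) (nat_lit 4) (nat_lit 5) (nat_lit 4) (nat_lit 5) (nat_lit 10) (by decide +kernel)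
theorem L37230 : W_3 (nat_lit 3) (nat_lit 0x2000040013c0088000000000000000000000000000000) (nat_lit 0x0) (nat_lit 0x1000080000000000010000400020000000000000000000000) := T_3 (nat_lit 175) (nat_lit 192) (nat_lit 4) (nat_lit 5) (nat_lit 11) L37229 (by decide +kernel)
theorem L37231 : W_3 (nat_lit 4) (nat_lit 0x2000000013c0088000000000000000000000000000000) (nat_lit 0x0) (nat_lit 0x100008000c000000010000400020000000000000000000000) := T_3 (nat_lit 158) (nat_lit 159) (nat_lit 3) (nat_lit 2) (nat_lit 8) L37230 (by decide +kernel)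
theorem L37234 : W_3 (nat_lit 2) (nat_lit 0x200001801380080000000000000000000000000000000) (nat_lit 0x0) (nat_lit 0x2600000000000000000000000000000000000000) := D_3 (nat_lit 154) (nat_lit 153) (nat_lit 157) (nat_lit 2) (nat_lit 0) (nat_lit 9) (nat_lit 2) (nat_lit 1) (nat_lit 9) (by decide +kernel)
theorem L37235 : W_3 (nat_lit 3) (nat_lit 0x200001001380080000000000000000000000000000000) (nat_lit 0x0) (nat_lit 0x2e00400000000000000000000000000000000000) := T_3 (nat_lit 155) (nat_lit 142) (nat_lit 1) (nat_lit 6) (nat_lit 8) L37234 (by decide +kernel)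
theorem L37236 : W_3 (nat_lit 2) (nat_lit 0x200001001380086000000000000000000000000000000) (nat_lit 0x0) (nat_lit 0x9800000000000000000000000000000) := D_3 (nat_lit 120) (nat_lit 119) (nat_lit 123) (nat_lit 3) (nat_lit 0) (nat_lit 7) (nat_lit 3) (nat_lit 1) (nat_lit 7) (by decide +kernel)
theorem L37237 : W_3 (nat_lit 3) (nat_lit 0x200001001380084000000000000000000000000000000) (nat_lit 0x0) (nat_lit 0x40000b800000000000000000000000000000) := T_3 (nat_lit 121) (nat_lit 142) (nat_lit 0) (nat_lit 6) (nat_lit 8) L37236 (by decide +kernel)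
theorem L37247 : W_3 (nat_lit 2) (nat_lit 0x200001a0138008c000700000000000000000000000000) (nat_lit 0x0) (nat_lit 0x100000c0000000000000000000000000) := D_3 (nat_lit 103) (nat_lit 124) (nat_lit 102) (nat_lit 3) (nat_lit 1) (nat_lit 6) (nat_lit 3) (nat_lit 0) (nat_lit 6) (by decide +kernel)
theorem L37248 : W_3 (nat_lit 3) (nat_lit 0x200001a01380084000700000000000000000000000000) (nat_lit 0x0) (nat_lit 0x200000000000180000c0000000000000000000000000) := T_3 (nat_lit 123) (nat_lit 173) (nat_lit 6) (nat_lit 3) (nat_lit 10) L37247 (by decide +kernel)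
theorem L37249 : W_3 (nat_lit 4) (nat_lit 0x200001a01380084000300000000000000000000000000) (nat_lit 0x0) (nat_lit 0x200000000000180004c0020000000000000000000000) := T_3 (nat_lit 106) (nat_lit 89) (nat_lit 6) (nat_lit 3) (nat_lit 9) L37248 (by decide +kernel)
theorem L37250 : W_3 (nat_lit 5) (nat_lit 0x200001a01380084000200000000000000000000000000) (nat_lit 0x0) (nat_lit 0x200000000000180005c0028000000000000000000000) := T_3 (nat_lit 104) (nat_lit 87) (nat_lit 4) (nat_lit 3) (nat_lit 9) L37249 (by decide +kernel)
theorem L37251 : W_3 (nat_lit 6) (nat_lit 0x200001a01380084000000000000000000000000000000) (nat_lit 0x0) (nat_lit 0x300000000000180007c0028000000000000000000000) := T_3 (nat_lit 105) (nat_lit 172) (nat_lit 5) (nat_lit 3) (nat_lit 6) L37250 (by decide +kernel)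
theorem L37252 : W_3 (nat_lit 7) (nat_lit 0x200001801380084000000000000000000000000000000) (nat_lit 0x0) (nat_lit 0x300006000000180007c0028000000000000000000000) := T_3 (nat_lit 153) (nat_lit 154) (nat_lit 2) (nat_lit 0) (nat_lit 9) L37251 (by decide +kernel)
theorem L37253 : W_3 (nat_lit 8) (nat_lit 0x200001001380084000000000000000000000000000000) (nat_lit 0x0) (nat_lit 0x30000e004000180007c0028000000000000000000000) := T_3 (nat_lit 155) (nat_lit 142) (nat_lit 1) (nat_lit 6) (nat_lit 8) L37252 (by decide +kernel)
theorem L37255 : W_3 (nat_lit 2) (nat_lit 0x600220001001380084000000000000000000000000000000) (nat_lit 0x0) (nat_lit 0x10000800040000000000000000000000000000000000000000000) := D_3 (nat_lit 191) (nat_lit 208) (nat_lit 174) (nat_lit 7) (nat_lit 3) (nat_lit 8) (nat_lit 7) (nat_lit 3) (nat_lit 7) (by decide +kernel)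
theorem L37256 : W_3 (nat_lit 3) (nat_lit 0x600220001001380080000000000000000000000000000000) (nat_lit 0x0) (nat_lit 0x10000800050000000000004000000000000000000000000000000) := T_3 (nat_lit 122) (nat_lit 172) (nat_lit 5) (nat_lit 3) (nat_lit 7) L37255 (by decide +kernel)
theorem L37257 : W_3 (nat_lit 4) (nat_lit 0x400220001001380080000000000000000000000000000000) (nat_lit 0x0) (nat_lit 0x14000a00050000000000004000000000000000000000000000000) := T_3 (nat_lit 189) (nat_lit 206) (nat_lit 5) (nat_lit 3) (nat_lit 8) L37256 (by decide +kernel)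
theorem L37258 : W_3 (nat_lit 5) (nat_lit 0x220001001380080000000000000000000000000000000) (nat_lit 0x0) (nat_lit 0x14000e0005000000000000c000000000000000000000000000000) := T_3 (nat_lit 190) (nat_lit 123) (nat_lit 6) (nat_lit 3) (nat_lit 11) L37257 (by decide +kernel)
theorem L37259 : W_3 (nat_lit 2) (nat_lit 0x10000600220001001380086800000000000000000000000000000) (nat_lit 0x0) (nat_lit 0x200008000000000002000000000000000000000000000000000000000) := D_3 (nat_lit 207) (nat_lit 157) (nat_lit 225) (nat_lit 6) (nat_lit 3) (nat_lit 12) (nat_lit 7) (nat_lit 3) (nat_lit 9) (by decide +kernel)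
theorem L37260 : W_3 (nat_lit 3) (nat_lit 0x600220001001380086800000000000000000000000000000) (nat_lit 0x0) (nat_lit 0x200018000800000002000000000000000000000000000000000000000) := T_3 (nat_lit 208) (nat_lit 191) (nat_lit 7) (nat_lit 3) (nat_lit 8) L37259 (by decide +kernel)
theorem L37261 : W_3 (nat_lit 4) (nat_lit 0x600220001001380086000000000000000000000000000000) (nat_lit 0x0) (nat_lit 0x200018000800000002000000001800000000000000000000000000000) := T_3 (nat_lit 119) (nat_lit 120) (nat_lit 3) (nat_lit 0) (nat_lit 7) L37260 (by decide +kernel)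
theorem L37262 : W_3 (nat_lit 5) (nat_lit 0x600220001001380084000000000000000000000000000000) (nat_lit 0x0) (nat_lit 0x200018000800000002000000003800100000000000000000000000000) := T_3 (nat_lit 121) (nat_lit 104) (nat_lit 4) (nat_lit 3) (nat_lit 10) L37261 (by decide +kernel)
theorem L37263 : W_3 (nat_lit 6) (nat_lit 0x600220001001380080000000000000000000000000000000) (nat_lit 0x0) (nat_lit 0x200018000800010002000000007800100000000000000000000000000) := T_3 (nat_lit 122) (nat_lit 172) (nat_lit 5) (nat_lit 3) (nat_lit 7) L37262 (by decide +kernel)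
theorem L37264 : W_3 (nat_lit 7) (nat_lit 0x400220001001380080000000000000000000000000000000) (nat_lit 0x0) (nat_lit 0x20001c000a00010002000000007800100000000000000000000000000) := T_3 (nat_lit 189) (nat_lit 206) (nat_lit 5) (nat_lit 3) (nat_lit 8) L37263 (by decide +kernel)
theorem L37265 : W_3 (nat_lit 8) (nat_lit 0x220001001380080000000000000000000000000000000) (nat_lit 0x0) (nat_lit 0x20001c000e0001000200000000f800100000000000000000000000000) := T_3 (nat_lit 190) (nat_lit 123) (nat_lit 6) (nat_lit 3) (nat_lit 11) L37264 (by decide +kernel)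
theorem L37266 : W_3 (nat_lit 2) (nat_lit 0x260001001380086800200000000000000000000000000) (nat_lit 0x0) (nat_lit 0x200010000800000000000000000000000000000000000000) := D_3 (nat_lit 172) (nat_lit 189) (nat_lit 155) (nat_lit 5) (nat_lit 3) (nat_lit 7) (nat_lit 5) (nat_lit 3) (nat_lit 6) (by decide +kernel)
theorem L37267 : W_3 (nat_lit 3) (nat_lit 0x260001001380086800000000000000000000000000000) (nat_lit 0x0) (nat_lit 0x200010002800000000000200000000000000000000000000) := T_3 (nat_lit 105) (nat_lit 157) (nat_lit 7) (nat_lit 3) (nat_lit 6) L37266 (by decide +kernel)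
theorem L37268 : W_3 (nat_lit 4) (nat_lit 0x220001001380086800000000000000000000000000000) (nat_lit 0x0) (nat_lit 0xa00050002800000000000200000000000000000000000000) := T_3 (nat_lit 174) (nat_lit 191) (nat_lit 7) (nat_lit 3) (nat_lit 7) L37267 (by decide +kernel)
theorem L37269 : W_3 (nat_lit 5) (nat_lit 0x220001001380086000000000000000000000000000000) (nat_lit 0x0) (nat_lit 0xa00050002800000001800200000000000000000000000000) := T_3 (nat_lit 119) (nat_lit 120) (nat_lit 3) (nat_lit 0) (nat_lit 7) L37268 (by decide +kernel)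
theorem L37270 : W_3 (nat_lit 6) (nat_lit 0x220001001380084000000000000000000000000000000) (nat_lit 0x0) (nat_lit 0xa00050002800000003800300000000000000000000000000) := T_3 (nat_lit 121) (nat_lit 104) (nat_lit 4) (nat_lit 3) (nat_lit 10) L37269 (by decide +kernel)
theorem L37271 : W_3 (nat_lit 2) (nat_lit 0x230001001380084000200000000000000000000000000) (nat_lit 0x0) (nat_lit 0x2000100008000000000000000000000) := D_3 (nat_lit 104) (nat_lit 87) (nat_lit 121) (nat_lit 4) (nat_lit 3) (nat_lit 9) (nat_lit 4) (nat_lit 3) (nat_lit 10) (by decide +kernel)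
theorem L37272 : W_3 (nat_lit 3) (nat_lit 0x230001001380084000000000000000000000000000000) (nat_lit 0x0) (nat_lit 0x800000002000300008000000000000000000000) := T_3 (nat_lit 105) (nat_lit 155) (nat_lit 5) (nat_lit 3) (nat_lit 6) L37271 (by decide +kernel)
theorem L37273 : W_3 (nat_lit 4) (nat_lit 0x220001001380084000000000000000000000000000000) (nat_lit 0x0) (nat_lit 0x200010000800000002000300008000000000000000000000) := T_3 (nat_lit 172) (nat_lit 189) (nat_lit 5) (nat_lit 3) (nat_lit 7) L37272 (by decide +kernel)
theorem L37280 : W_3 (nat_lit 2) (nat_lit 0x230001001380084000200000000000000000000000000) (nat_lit 0x0) (nat_lit 0x800040002000000000000000000000000000000000000000) := D_3 (nat_lit 174) (nat_lit 191) (nat_lit 157) (nat_lit 7) (nat_lit 3) (nat_lit 7) (nat_lit 7) (nat_lit 3) (nat_lit 6) (by decide +kernel)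
theorem L37281 : W_3 (nat_lit 3) (nat_lit 0x230001001380084000000000000000000000000000000) (nat_lit 0x0) (nat_lit 0x800040002800000000000200000000000000000000000000) := T_3 (nat_lit 105) (nat_lit 155) (nat_lit 5) (nat_lit 3) (nat_lit 6) L37280 (by decide +kernel)
theorem L37282 : W_3 (nat_lit 4) (nat_lit 0x220001001380084000000000000000000000000000000) (nat_lit 0x0) (nat_lit 0xa00050002800000000000200000000000000000000000000) := T_3 (nat_lit 172) (nat_lit 189) (nat_lit 5) (nat_lit 3) (nat_lit 7) L37281 (by decide +kernel)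
theorem L37283 : W_3 (nat_lit 2) (nat_lit 0x260001001380084000200000000000000000000000000) (nat_lit 0x0) (nat_lit 0x2000100008000000000000000000000) := D_3 (nat_lit 104) (nat_lit 121) (nat_lit 87) (nat_lit 4) (nat_lit 3) (nat_lit 10) (nat_lit 4) (nat_lit 3) (nat_lit 9) (by decide +kernel)
theorem L37284 : W_3 (nat_lit 3) (nat_lit 0x260001001380084000000000000000000000000000000) (nat_lit 0x0) (nat_lit 0x2000000002000300008000000000000000000000) := T_3 (nat_lit 105) (nat_lit 157) (nat_lit 7) (nat_lit 3) (nat_lit 6) L37283 (by decide +kernel)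
theorem L37285 : W_3 (nat_lit 4) (nat_lit 0x220001001380084000000000000000000000000000000) (nat_lit 0x0) (nat_lit 0x800040002000000002000300008000000000000000000000) := T_3 (nat_lit 174) (nat_lit 191) (nat_lit 7) (nat_lit 3) (nat_lit 7) L37284 (by decide +kernel)
theorem L37295 : W_3 (nat_lit 2) (nat_lit 0x600220003001380086800000000000000000000000000000) (nat_lit 0x0) (nat_lit 0x40000000000000000200010000000000000000000000) := D_3 (nat_lit 105) (nat_lit 88) (nat_lit 174) (nat_lit 7) (nat_lit 3) (nat_lit 5) (nat_lit 7) (nat_lit 3) (nat_lit 6) (by decide +kernel)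
theorem L37296 : W_3 (nat_lit 3) (nat_lit 0x600220001001380086800000000000000000000000000000) (nat_lit 0x0) (nat_lit 0x8000000040002000000000000200010000000000000000000000) := T_3 (nat_lit 157) (nat_lit 207) (nat_lit 6) (nat_lit 3) (nat_lit 12) L37295 (by decide +kernel)
theorem L37297 : W_3 (nat_lit 4) (nat_lit 0x600220001001380086000000000000000000000000000000) (nat_lit 0x0) (nat_lit 0x8000000040002000000001800200010000000000000000000000) := T_3 (nat_lit 119) (nat_lit 120) (nat_lit 3) (nat_lit 0) (nat_lit 7) L37296 (by decide +kernel)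
theorem L37298 : W_3 (nat_lit 5) (nat_lit 0x600220001001380084000000000000000000000000000000) (nat_lit 0x0) (nat_lit 0x8000000040002000000003800300010000000000000000000000) := T_3 (nat_lit 121) (nat_lit 104) (nat_lit 4) (nat_lit 3) (nat_lit 10) L37297 (by decide +kernel)
theorem L37299 : W_3 (nat_lit 6) (nat_lit 0x600220001001380080000000000000000000000000000000) (nat_lit 0x0) (nat_lit 0x8000000050002000000007800300010000000000000000000000) := T_3 (nat_lit 122) (nat_lit 172) (nat_lit 5) (nat_lit 3) (nat_lit 7) L37298 (by decide +kernel)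
theorem L37300 : W_3 (nat_lit 7) (nat_lit 0x400220001001380080000000000000000000000000000000) (nat_lit 0x0) (nat_lit 0xc000200050002000000007800300010000000000000000000000) := T_3 (nat_lit 189) (nat_lit 206) (nat_lit 5) (nat_lit 3) (nat_lit 8) L37299 (by decide +kernel)
theorem L37301 : W_3 (nat_lit 8) (nat_lit 0x220001001380080000000000000000000000000000000) (nat_lit 0x0) (nat_lit 0xc00060005000200000000f800300010000000000000000000000) := T_3 (nat_lit 190) (nat_lit 123) (nat_lit 6) (nat_lit 3) (nat_lit 11) L37300 (by decide +kernel)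
theorem L37302 : W_3 (nat_lit 2) (nat_lit 0xe00260003001380080000000000000000000000000000000) (nat_lit 0x0) (nat_lit 0x180080000000000000000000000000000000000000000000) := D_3 (nat_lit 188) (nat_lit 175) (nat_lit 187) (nat_lit 2) (nat_lit 1) (nat_lit 11) (nat_lit 2) (nat_lit 0) (nat_lit 11) (by decide +kernel)
theorem L37303 : W_3 (nat_lit 3) (nat_lit 0xe00220003001380080000000000000000000000000000000) (nat_lit 0x0) (nat_lit 0x1800c0000000000010000000000000000000000000000000) := T_3 (nat_lit 174) (nat_lit 124) (nat_lit 6) (nat_lit 4) (nat_lit 11) L37302 (by decide +kernel)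
theorem L37304 : W_3 (nat_lit 4) (nat_lit 0xe00220001001380080000000000000000000000000000000) (nat_lit 0x0) (nat_lit 0x80001800c0002000000010000000000000000000000000000000) := T_3 (nat_lit 157) (nat_lit 207) (nat_lit 6) (nat_lit 3) (nat_lit 12) L37303 (by decide +kernel)
theorem L37305 : W_3 (nat_lit 5) (nat_lit 0x600220001001380080000000000000000000000000000000) (nat_lit 0x0) (nat_lit 0x180009800c0002000000010000000000000000000000000000000) := T_3 (nat_lit 191) (nat_lit 208) (nat_lit 7) (nat_lit 3) (nat_lit 8) L37304 (by decide +kernel)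
theorem L37306 : W_3 (nat_lit 6) (nat_lit 0x400220001001380080000000000000000000000000000000) (nat_lit 0x0) (nat_lit 0x1c000b800c0002000000010000000000000000000000000000000) := T_3 (nat_lit 189) (nat_lit 206) (nat_lit 5) (nat_lit 3) (nat_lit 8) L37305 (by decide +kernel)
theorem L37307 : W_3 (nat_lit 7) (nat_lit 0x220001001380080000000000000000000000000000000) (nat_lit 0x0) (nat_lit 0x1c000f800c0002000000018000000000000000000000000000000) := T_3 (nat_lit 190) (nat_lit 123) (nat_lit 6) (nat_lit 3) (nat_lit 11) L37306 (by decide +kernel)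
theorem L37308 : W_3 (nat_lit 2) (nat_lit 0x260001001380086000000000000000000000000000000) (nat_lit 0x0) (nat_lit 0x9800000000000000000000000000000) := D_3 (nat_lit 120) (nat_lit 123) (nat_lit 119) (nat_lit 3) (nat_lit 1) (nat_lit 7) (nat_lit 3) (nat_lit 0) (nat_lit 7) (by decide +kernel)
theorem L37309 : W_3 (nat_lit 3) (nat_lit 0x260001001380084000000000000000000000000000000) (nat_lit 0x0) (nat_lit 0xb800100000000000000000000000000) := T_3 (nat_lit 121) (nat_lit 104) (nat_lit 4) (nat_lit 3) (nat_lit 10) L37308 (by decide +kernel)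
theorem L37310 : W_3 (nat_lit 4) (nat_lit 0x220001001380084000000000000000000000000000000) (nat_lit 0x0) (nat_lit 0x80004000000000000b800100000000000000000000000000) := T_3 (nat_lit 174) (nat_lit 191) (nat_lit 7) (nat_lit 3) (nat_lit 7) L37309 (by decide +kernel)
theorem L37312 : W_3 (nat_lit 2) (nat_lit 0x8000400220001001380080000000000000000000000000000000) (nat_lit 0x0) (nat_lit 0x200010000800000000000000000000000000000000000000000000000) := D_3 (nat_lit 208) (nat_lit 191) (nat_lit 225) (nat_lit 7) (nat_lit 3) (nat_lit 8) (nat_lit 7) (nat_lit 3) (nat_lit 9) (by decide +kernel)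
theorem L37313 : W_3 (nat_lit 3) (nat_lit 0x400220001001380080000000000000000000000000000000) (nat_lit 0x0) (nat_lit 0x200018000800000002000000000000000000000000000000000000000) := T_3 (nat_lit 207) (nat_lit 157) (nat_lit 6) (nat_lit 3) (nat_lit 12) L37312 (by decide +kernel)
theorem L37314 : W_3 (nat_lit 4) (nat_lit 0x220001001380080000000000000000000000000000000) (nat_lit 0x0) (nat_lit 0x200018000c00000002000000008000000000000000000000000000000) := T_3 (nat_lit 190) (nat_lit 123) (nat_lit 6) (nat_lit 3) (nat_lit 11) L37313 (by decide +kernel)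
theorem L37320 : W_3 (nat_lit 2) (nat_lit 0x200003001380084000000000000000000000000000000) (nat_lit 0x0) (nat_lit 0x800040000000000000000200000000000000000000000000) := D_3 (nat_lit 174) (nat_lit 191) (nat_lit 105) (nat_lit 4) (nat_lit 4) (nat_lit 11) (nat_lit 7) (nat_lit 3) (nat_lit 6) (by decide +kernel)
theorem L37321 : W_3 (nat_lit 2) (nat_lit 0x20000700138008c002e00000000000000000000000000) (nat_lit 0x0) (nat_lit 0x100018000000000000000000000000000000000000000) := D_3 (nat_lit 159) (nat_lit 176) (nat_lit 160) (nat_lit 3) (nat_lit 3) (nat_lit 9) (nat_lit 0) (nat_lit 7) (nat_lit 9) (by decide +kernel)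
theorem L37322 : W_3 (nat_lit 3) (nat_lit 0x20000300138008c002e00000000000000000000000000) (nat_lit 0x0) (nat_lit 0x18001c000000000000000000000000000000000000000) := T_3 (nat_lit 158) (nat_lit 175) (nat_lit 7) (nat_lit 4) (nat_lit 6) L37321 (by decide +kernel)
theorem L37323 : W_3 (nat_lit 4) (nat_lit 0x20000300138008c000e00000000000000000000000000) (nat_lit 0x0) (nat_lit 0x18001c000000000003000000000000000000000000000) := T_3 (nat_lit 109) (nat_lit 108) (nat_lit 1) (nat_lit 7) (nat_lit 6) L37322 (by decide +kernel)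
theorem L37324 : W_3 (nat_lit 5) (nat_lit 0x20000300138008c000600000000000000000000000000) (nat_lit 0x0) (nat_lit 0x18001c000000000003800040000000000000000000000) := T_3 (nat_lit 107) (nat_lit 90) (nat_lit 6) (nat_lit 4) (nat_lit 9) L37323 (by decide +kernel)
theorem L37325 : W_3 (nat_lit 6) (nat_lit 0x200003001380084000600000000000000000000000000) (nat_lit 0x0) (nat_lit 0x1a001c000000008003800040000000000000000000000) := T_3 (nat_lit 123) (nat_lit 173) (nat_lit 6) (nat_lit 3) (nat_lit 10) L37324 (by decide +kernel)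
theorem L37326 : W_3 (nat_lit 7) (nat_lit 0x200003001380084000200000000000000000000000000) (nat_lit 0x0) (nat_lit 0x1a001c000000008003c00060000000000000000000000) := T_3 (nat_lit 106) (nat_lit 89) (nat_lit 6) (nat_lit 3) (nat_lit 9) L37325 (by decide +kernel)
theorem L37327 : W_3 (nat_lit 8) (nat_lit 0x200003001380084000000000000000000000000000000) (nat_lit 0x0) (nat_lit 0x1a001c000000008003e00070000000000000000000000) := T_3 (nat_lit 105) (nat_lit 88) (nat_lit 7) (nat_lit 3) (nat_lit 5) L37326 (by decide +kernel)
theorem L37328 : W_3 (nat_lit 2) (nat_lit 0xa000200034000b001780084000000000000000000000000000000) (nat_lit 0x0) (nat_lit 0x1400040000000000000000000000000000000000000000000000000000) := D_3 (nat_lit 210) (nat_lit 226) (nat_lit 228) (nat_lit 5) (nat_lit 6) (nat_lit 9) (nat_lit 7) (nat_lit 6) (nat_lit 9) (by decide +kernel)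
theorem L37329 : W_3 (nat_lit 3) (nat_lit 0x2000200034000b001780084000000000000000000000000000000) (nat_lit 0x0) (nat_lit 0x14000c0004000000000000000000000000000000000000000000000000) := T_3 (nat_lit 211) (nat_lit 194) (nat_lit 7) (nat_lit 6) (nat_lit 8) L37328 (by decide +kernel)
theorem L37330 : W_3 (nat_lit 4) (nat_lit 0x200034000b001780084000000000000000000000000000000) (nat_lit 0x0) (nat_lit 0x14000e0005000000000000000000000000000000000000000000000000) := T_3 (nat_lit 209) (nat_lit 192) (nat_lit 5) (nat_lit 6) (nat_lit 8) L37329 (by decide +kernel)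
theorem L37331 : W_3 (nat_lit 5) (nat_lit 0x34000b001780084000000000000000000000000000000) (nat_lit 0x0) (nat_lit 0x14000e0007000000000000000010000000000000000000000000000000) := T_3 (nat_lit 193) (nat_lit 124) (nat_lit 4) (nat_lit 6) (nat_lit 11) L37330 (by decide +kernel)
theorem L37332 : W_3 (nat_lit 6) (nat_lit 0x34000b001380084000000000000000000000000000000) (nat_lit 0x0) (nat_lit 0x14000e0007000000010000400010000000000000000000000000000000) := T_3 (nat_lit 142) (nat_lit 160) (nat_lit 3) (nat_lit 3) (nat_lit 8) L37331 (by decide +kernel)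
theorem L37333 : W_3 (nat_lit 7) (nat_lit 0x340003001380084000000000000000000000000000000) (nat_lit 0x0) (nat_lit 0x14000e000700000001c000400010000000000000000000000000000000) := T_3 (nat_lit 159) (nat_lit 158) (nat_lit 3) (nat_lit 3) (nat_lit 9) L37332 (by decide +kernel)
theorem L37334 : W_3 (nat_lit 8) (nat_lit 0x240003001380084000000000000000000000000000000) (nat_lit 0x0) (nat_lit 0x14000e000700018001c000400010000000000000000000000000000000) := T_3 (nat_lit 176) (nat_lit 175) (nat_lit 0) (nat_lit 7) (nat_lit 10) L37333 (by decide +kernel)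
theorem L37335 : W_3 (nat_lit 9) (nat_lit 0x200003001380084000000000000000000000000000000) (nat_lit 0x0) (nat_lit 0x14000e00078001c001c000400010000000000000000000000000000000) := T_3 (nat_lit 174) (nat_lit 191) (nat_lit 4) (nat_lit 4) (nat_lit 11) L37334 (by decide +kernel)
theorem L37339 : W_3 (nat_lit 4) (nat_lit 0x200004001380080000000000000000000000000000000) (nat_lit 0x0) (nat_lit 0xae00060000000000000000000000000000000000) := T_3 (nat_lit 138) (nat_lit 159) (nat_lit 3) (nat_lit 2) (nat_lit 8) L37110 (by decide +kernel)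
theorem L37340 : W_3 (nat_lit 2) (nat_lit 0x280004001380088000000000000000000000000000000) (nat_lit 0x0) (nat_lit 0x10000400020000000000000000000000) := D_3 (nat_lit 106) (nat_lit 89) (nat_lit 124) (nat_lit 7) (nat_lit 4) (nat_lit 5) (nat_lit 4) (nat_lit 5) (nat_lit 10) (by decide +kernel)
theorem L37341 : W_3 (nat_lit 3) (nat_lit 0x200004001380088000000000000000000000000000000) (nat_lit 0x0) (nat_lit 0x1000080000000000010000400020000000000000000000000) := T_3 (nat_lit 175) (nat_lit 192) (nat_lit 4) (nat_lit 5) (nat_lit 11) L37340 (by decide +kernel)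
theorem L37352 : W_3 (nat_lit 2) (nat_lit 0x10002000058013e008c000000000000000000000000000000) (nat_lit 0x0) (nat_lit 0x10000000000000000200010000000000000000000000) := D_3 (nat_lit 105) (nat_lit 88) (nat_lit 172) (nat_lit 5) (nat_lit 3) (nat_lit 5) (nat_lit 5) (nat_lit 3) (nat_lit 6) (by decide +kernel)
theorem L37353 : W_3 (nat_lit 3) (nat_lit 0x10002000058013e0088000000000000000000000000000000) (nat_lit 0x0) (nat_lit 0x10000000010004000200010000000000000000000000) := T_3 (nat_lit 122) (nat_lit 136) (nat_lit 2) (nat_lit 0) (nat_lit 8) L37352 (by decide +kernel)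
theorem L37358 : W_3 (nat_lit 5) (nat_lit 0x2800058013c0088000000000000000000000000000000) (nat_lit 0x0) (nat_lit 0x600138002000000004000200000000000000000000000000) := T_3 (nat_lit 190) (nat_lit 173) (nat_lit 6) (nat_lit 3) (nat_lit 11) L33757 (by decide +kernel)
theorem L37359 : W_3 (nat_lit 6) (nat_lit 0x2800048013c0088000000000000000000000000000000) (nat_lit 0x0) (nat_lit 0x600138003000400004000200000000000000000000000000) := T_3 (nat_lit 156) (nat_lit 142) (nat_lit 1) (nat_lit 6) (nat_lit 8) L37358 (by decide +kernel)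
theorem L37363 : W_3 (nat_lit 2) (nat_lit 0x200005001380088000400000000000000000000000000) (nat_lit 0x0) (nat_lit 0x400020000000000004000000000000000000000000000000) := D_3 (nat_lit 173) (nat_lit 190) (nat_lit 122) (nat_lit 6) (nat_lit 3) (nat_lit 11) (nat_lit 6) (nat_lit 3) (nat_lit 10) (by decide +kernel)
theorem L37364 : W_3 (nat_lit 3) (nat_lit 0x200005001380088000000000000000000000000000000) (nat_lit 0x0) (nat_lit 0x400020000000000004000400020000000000000000000000) := T_3 (nat_lit 106) (nat_lit 89) (nat_lit 7) (nat_lit 4) (nat_lit 5) L37363 (by decide +kernel)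
theorem L37365 : W_3 (nat_lit 2) (nat_lit 0x400200005801380088000000000000000000000000000000) (nat_lit 0x0) (nat_lit 0x600040000000000000000000000000000000000) := D_3 (nat_lit 154) (nat_lit 138) (nat_lit 153) (nat_lit 1) (nat_lit 5) (nat_lit 8) (nat_lit 2) (nat_lit 0) (nat_lit 9) (by decide +kernel)
theorem L37366 : W_3 (nat_lit 3) (nat_lit 0x400200005001380088000000000000000000000000000000) (nat_lit 0x0) (nat_lit 0xe00440000000000000000000000000000000000) := T_3 (nat_lit 155) (nat_lit 142) (nat_lit 1) (nat_lit 6) (nat_lit 8) L37365 (by decide +kernel)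
theorem L37367 : W_3 (nat_lit 4) (nat_lit 0x200005001380088000000000000000000000000000000) (nat_lit 0x0) (nat_lit 0x400020000e00440000000000000000000000000000000000) := T_3 (nat_lit 190) (nat_lit 173) (nat_lit 6) (nat_lit 3) (nat_lit 11) L37366 (by decide +kernel)
theorem L37368 : W_3 (nat_lit 2) (nat_lit 0x200005801380088000000000000000000000000000000) (nat_lit 0x0) (nat_lit 0x600040000000000000000000000000000000000) := D_3 (nat_lit 154) (nat_lit 138) (nat_lit 153) (nat_lit 1) (nat_lit 5) (nat_lit 8) (nat_lit 2) (nat_lit 0) (nat_lit 9) (by decide +kernel)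
theorem L37369 : W_3 (nat_lit 3) (nat_lit 0x200005001380088000000000000000000000000000000) (nat_lit 0x0) (nat_lit 0xe00440000000000000000000000000000000000) := T_3 (nat_lit 155) (nat_lit 142) (nat_lit 1) (nat_lit 6) (nat_lit 8) L37368 (by decide +kernel)
theorem L37374 : W_3 (nat_lit 2) (nat_lit 0x20001000280004001380080000000000000000000000000000000) (nat_lit 0x0) (nat_lit 0x800040002000000000000000000000000000000000000000000000000) := D_3 (nat_lit 210) (nat_lit 193) (nat_lit 227) (nat_lit 7) (nat_lit 5) (nat_lit 8) (nat_lit 7) (nat_lit 5) (nat_lit 9) (by decide +kernel)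
theorem L37375 : W_3 (nat_lit 3) (nat_lit 0x1000280004001380080000000000000000000000000000000) (nat_lit 0x0) (nat_lit 0x800060002000000002000000000000000000000000000000000000000) := T_3 (nat_lit 209) (nat_lit 157) (nat_lit 4) (nat_lit 5) (nat_lit 12) L37374 (by decide +kernel)
theorem L37376 : W_3 (nat_lit 4) (nat_lit 0x280004001380080000000000000000000000000000000) (nat_lit 0x0) (nat_lit 0x800060003000000002000000008000000000000000000000000000000) := T_3 (nat_lit 192) (nat_lit 123) (nat_lit 4) (nat_lit 5) (nat_lit 11) L37375 (by decide +kernel)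
theorem L37377 : W_3 (nat_lit 2) (nat_lit 0x1800280004001380090000000000000000000000000000000) (nat_lit 0x0) (nat_lit 0x40002000100000000000000000000000000000000000000000000) := D_3 (nat_lit 193) (nat_lit 210) (nat_lit 176) (nat_lit 7) (nat_lit 5) (nat_lit 8) (nat_lit 7) (nat_lit 5) (nat_lit 7) (by decide +kernel)
theorem L37378 : W_3 (nat_lit 3) (nat_lit 0x1800280004001380080000000000000000000000000000000) (nat_lit 0x0) (nat_lit 0x40002000140000000000010000000000000000000000000000000) := T_3 (nat_lit 124) (nat_lit 174) (nat_lit 5) (nat_lit 5) (nat_lit 7) L37377 (by decide +kernel)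
theorem L37379 : W_3 (nat_lit 4) (nat_lit 0x1000280004001380080000000000000000000000000000000) (nat_lit 0x0) (nat_lit 0x50002800140000000000010000000000000000000000000000000) := T_3 (nat_lit 191) (nat_lit 208) (nat_lit 5) (nat_lit 5) (nat_lit 8) L37378 (by decide +kernel)
theorem L37380 : W_3 (nat_lit 5) (nat_lit 0x280004001380080000000000000000000000000000000) (nat_lit 0x0) (nat_lit 0x50003800140000000000018000000000000000000000000000000) := T_3 (nat_lit 192) (nat_lit 123) (nat_lit 4) (nat_lit 5) (nat_lit 11) L37379 (by decide +kernel)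
theorem L37385 : W_3 (nat_lit 2) (nat_lit 0x1800280006001380080000000000000000000000000000000) (nat_lit 0x0) (nat_lit 0x40000000000014000000000000000000000000000000) := D_3 (nat_lit 174) (nat_lit 124) (nat_lit 122) (nat_lit 6) (nat_lit 4) (nat_lit 11) (nat_lit 4) (nat_lit 4) (nat_lit 11) (by decide +kernel)
theorem L37386 : W_3 (nat_lit 3) (nat_lit 0x1000280006001380080000000000000000000000000000000) (nat_lit 0x0) (nat_lit 0x10000800040000000000014000000000000000000000000000000) := T_3 (nat_lit 191) (nat_lit 208) (nat_lit 5) (nat_lit 5) (nat_lit 8) L37385 (by decide +kernel)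
theorem L37387 : W_3 (nat_lit 4) (nat_lit 0x280006001380080000000000000000000000000000000) (nat_lit 0x0) (nat_lit 0x30001800040000000000014000000000000000000000000000000) := T_3 (nat_lit 192) (nat_lit 209) (nat_lit 4) (nat_lit 5) (nat_lit 12) L37386 (by decide +kernel)
theorem L37388 : W_3 (nat_lit 2) (nat_lit 0x2000000028000f001380080000000000000000000000000000000) (nat_lit 0x0) (nat_lit 0xc00400000000000000000000000000000000000) := D_3 (nat_lit 155) (nat_lit 154) (nat_lit 142) (nat_lit 2) (nat_lit 1) (nat_lit 9) (nat_lit 2) (nat_lit 2) (nat_lit 9) (by decide +kernel)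
theorem L37389 : W_3 (nat_lit 3) (nat_lit 0x2000000028000e001380080000000000000000000000000000000) (nat_lit 0x0) (nat_lit 0x100001c00400000000000000000000000000000000000) := T_3 (nat_lit 156) (nat_lit 176) (nat_lit 3) (nat_lit 3) (nat_lit 9) L37388 (by decide +kernel)
theorem L37390 : W_3 (nat_lit 4) (nat_lit 0x20000000280006001380080000000000000000000000000000000) (nat_lit 0x0) (nat_lit 0x100019c00400000000000000000000000000000000000) := T_3 (nat_lit 159) (nat_lit 160) (nat_lit 0) (nat_lit 7) (nat_lit 9) L37389 (by decide +kernel)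
theorem L37391 : W_3 (nat_lit 5) (nat_lit 0x280006001380080000000000000000000000000000000) (nat_lit 0x0) (nat_lit 0x20001000100019c00400000000000000000000000000000000000) := T_3 (nat_lit 209) (nat_lit 192) (nat_lit 4) (nat_lit 5) (nat_lit 12) L37390 (by decide +kernel)
theorem L37392 : W_3 (nat_lit 2) (nat_lit 0x28000f001380080000000000000000000000000000000) (nat_lit 0x0) (nat_lit 0xc00400000000000000000000000000000000000) := D_3 (nat_lit 155) (nat_lit 154) (nat_lit 142) (nat_lit 2) (nat_lit 1) (nat_lit 9) (nat_lit 2) (nat_lit 2) (nat_lit 9) (by decide +kernel)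
theorem L37393 : W_3 (nat_lit 3) (nat_lit 0x28000e001380080000000000000000000000000000000) (nat_lit 0x0) (nat_lit 0x100001c00400000000000000000000000000000000000) := T_3 (nat_lit 156) (nat_lit 176) (nat_lit 3) (nat_lit 3) (nat_lit 9) L37392 (by decide +kernel)
theorem L37394 : W_3 (nat_lit 4) (nat_lit 0x280006001380080000000000000000000000000000000) (nat_lit 0x0) (nat_lit 0x100019c00400000000000000000000000000000000000) := T_3 (nat_lit 159) (nat_lit 160) (nat_lit 0) (nat_lit 7) (nat_lit 9) L37393 (by decide +kernel)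
theorem L37400 : W_3 (nat_lit 2) (nat_lit 0x2c0004001380090000800000000000000000000000000) (nat_lit 0x0) (nat_lit 0x8000400020000000000000000000000) := D_3 (nat_lit 106) (nat_lit 123) (nat_lit 89) (nat_lit 4) (nat_lit 5) (nat_lit 10) (nat_lit 4) (nat_lit 5) (nat_lit 9) (by decide +kernel)
theorem L37401 : W_3 (nat_lit 3) (nat_lit 0x2c0004001380090000000000000000000000000000000) (nat_lit 0x0) (nat_lit 0x2000000008000c00020000000000000000000000) := T_3 (nat_lit 107) (nat_lit 157) (nat_lit 5) (nat_lit 5) (nat_lit 6) L37400 (by decide +kernel)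
theorem L37402 : W_3 (nat_lit 4) (nat_lit 0x280004001380090000000000000000000000000000000) (nat_lit 0x0) (nat_lit 0x800040002000000008000c00020000000000000000000000) := T_3 (nat_lit 174) (nat_lit 191) (nat_lit 5) (nat_lit 5) (nat_lit 7) L37401 (by decide +kernel)
theorem L37407 : W_3 (nat_lit 2) (nat_lit 0x380004001380090000800000000000000000000000000) (nat_lit 0x0) (nat_lit 0x8000400020000000000000000000000) := D_3 (nat_lit 106) (nat_lit 123) (nat_lit 89) (nat_lit 4) (nat_lit 5) (nat_lit 10) (nat_lit 4) (nat_lit 5) (nat_lit 9) (by decide +kernel)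
theorem L37408 : W_3 (nat_lit 3) (nat_lit 0x380004001380090000000000000000000000000000000) (nat_lit 0x0) (nat_lit 0x8000000008000c00020000000000000000000000) := T_3 (nat_lit 107) (nat_lit 159) (nat_lit 7) (nat_lit 5) (nat_lit 6) L37407 (by decide +kernel)
theorem L37409 : W_3 (nat_lit 4) (nat_lit 0x280004001380090000000000000000000000000000000) (nat_lit 0x0) (nat_lit 0x2000100008000000008000c00020000000000000000000000) := T_3 (nat_lit 176) (nat_lit 193) (nat_lit 7) (nat_lit 5) (nat_lit 7) L37408 (by decide +kernel)
theorem L37410 : W_3 (nat_lit 2) (nat_lit 0x2c0004001380090000800000000000000000000000000) (nat_lit 0x0) (nat_lit 0x2000100008000000000000000000000000000000000000000) := D_3 (nat_lit 176) (nat_lit 159) (nat_lit 193) (nat_lit 7) (nat_lit 5) (nat_lit 6) (nat_lit 7) (nat_lit 5) (nat_lit 7) (by decide +kernel)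
theorem L37411 : W_3 (nat_lit 3) (nat_lit 0x2c0004001380090000000000000000000000000000000) (nat_lit 0x0) (nat_lit 0x200010000a000000000000800000000000000000000000000) := T_3 (nat_lit 107) (nat_lit 157) (nat_lit 5) (nat_lit 5) (nat_lit 6) L37410 (by decide +kernel)
theorem L37412 : W_3 (nat_lit 4) (nat_lit 0x280004001380090000000000000000000000000000000) (nat_lit 0x0) (nat_lit 0x280014000a000000000000800000000000000000000000000) := T_3 (nat_lit 174) (nat_lit 191) (nat_lit 5) (nat_lit 5) (nat_lit 7) L37411 (by decide +kernel)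
theorem L37437 : W_3 (nat_lit 2) (nat_lit 0x2100078013a0084000000000000000000000000000000) (nat_lit 0x0) (nat_lit 0x4000200020000000000000000000000000000000000000000000) := D_3 (nat_lit 189) (nat_lit 206) (nat_lit 173) (nat_lit 6) (nat_lit 2) (nat_lit 12) (nat_lit 5) (nat_lit 3) (nat_lit 7) (by decide +kernel)
theorem L37438 : W_3 (nat_lit 3) (nat_lit 0x2100078013a0080000000000000000000000000000000) (nat_lit 0x0) (nat_lit 0x4000200020000000000004000200000000000000000000000000) := T_3 (nat_lit 122) (nat_lit 105) (nat_lit 5) (nat_lit 3) (nat_lit 6) L37437 (by decide +kernel)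
theorem L37439 : W_3 (nat_lit 4) (nat_lit 0x2000078013a0080000000000000000000000000000000) (nat_lit 0x0) (nat_lit 0x4000200038000000000004000200000000000000000000000000) := T_3 (nat_lit 172) (nat_lit 171) (nat_lit 1) (nat_lit 5) (nat_lit 9) L37438 (by decide +kernel)
theorem L37440 : W_3 (nat_lit 5) (nat_lit 0x200007801380080000000000000000000000000000000) (nat_lit 0x0) (nat_lit 0x4000200038000000060004000200000000000000000000000000) := T_3 (nat_lit 137) (nat_lit 138) (nat_lit 3) (nat_lit 1) (nat_lit 8) L37439 (by decide +kernel)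
theorem L37441 : W_3 (nat_lit 6) (nat_lit 0x200007001380080000000000000000000000000000000) (nat_lit 0x0) (nat_lit 0x4000200038000c00060004000200000000000000000000000000) := T_3 (nat_lit 155) (nat_lit 154) (nat_lit 2) (nat_lit 1) (nat_lit 9) L37440 (by decide +kernel)
theorem L37442 : W_3 (nat_lit 2) (nat_lit 0x210017801380084000000000000000000000000000000) (nat_lit 0x0) (nat_lit 0x4000200020000000000000000000000000000000000000000000) := D_3 (nat_lit 189) (nat_lit 206) (nat_lit 173) (nat_lit 6) (nat_lit 2) (nat_lit 12) (nat_lit 5) (nat_lit 3) (nat_lit 7) (by decide +kernel)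
theorem L37443 : W_3 (nat_lit 3) (nat_lit 0x210017801380080000000000000000000000000000000) (nat_lit 0x0) (nat_lit 0x4000200020000000000004000200000000000000000000000000) := T_3 (nat_lit 122) (nat_lit 105) (nat_lit 5) (nat_lit 3) (nat_lit 6) L37442 (by decide +kernel)
theorem L37444 : W_3 (nat_lit 4) (nat_lit 0x200017801380080000000000000000000000000000000) (nat_lit 0x0) (nat_lit 0x4000200038000000000004000200000000000000000000000000) := T_3 (nat_lit 172) (nat_lit 171) (nat_lit 1) (nat_lit 5) (nat_lit 9) L37443 (by decide +kernel)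
theorem L37445 : W_3 (nat_lit 5) (nat_lit 0x200017001380080000000000000000000000000000000) (nat_lit 0x0) (nat_lit 0x4000200038000c00000004000200000000000000000000000000) := T_3 (nat_lit 155) (nat_lit 154) (nat_lit 2) (nat_lit 1) (nat_lit 9) L37444 (by decide +kernel)
theorem L37446 : W_3 (nat_lit 6) (nat_lit 0x200007001380080000000000000000000000000000000) (nat_lit 0x0) (nat_lit 0x4000200038018c00000004000200000000000000000000000000) := T_3 (nat_lit 160) (nat_lit 159) (nat_lit 0) (nat_lit 7) (nat_lit 9) L37445 (by decide +kernel)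
theorem L37448 : W_3 (nat_lit 2) (nat_lit 0x2800078013a0080000000000000000000000000000000) (nat_lit 0x0) (nat_lit 0x1000000000000000008000400000000000000000000000000) := D_3 (nat_lit 123) (nat_lit 106) (nat_lit 192) (nat_lit 7) (nat_lit 4) (nat_lit 6) (nat_lit 4) (nat_lit 5) (nat_lit 11) (by decide +kernel)
theorem L37449 : W_3 (nat_lit 3) (nat_lit 0x2000078013a0080000000000000000000000000000000) (nat_lit 0x0) (nat_lit 0x1000180000000000008000400000000000000000000000000) := T_3 (nat_lit 175) (nat_lit 176) (nat_lit 3) (nat_lit 2) (nat_lit 9) L37448 (by decide +kernel)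
theorem L37450 : W_3 (nat_lit 4) (nat_lit 0x200007801380080000000000000000000000000000000) (nat_lit 0x0) (nat_lit 0x1000180000000060008000400000000000000000000000000) := T_3 (nat_lit 137) (nat_lit 138) (nat_lit 3) (nat_lit 1) (nat_lit 8) L37449 (by decide +kernel)
theorem L37451 : W_3 (nat_lit 5) (nat_lit 0x200007001380080000000000000000000000000000000) (nat_lit 0x0) (nat_lit 0x1000180000c00060008000400000000000000000000000000) := T_3 (nat_lit 155) (nat_lit 154) (nat_lit 2) (nat_lit 1) (nat_lit 9) L37450 (by decide +kernel)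
theorem L37478 : W_3 (nat_lit 2) (nat_lit 0x20000b00178008c002f00000000000000000000000000) (nat_lit 0x0) (nat_lit 0x100000c0000000000000000000000000) := D_3 (nat_lit 103) (nat_lit 124) (nat_lit 102) (nat_lit 3) (nat_lit 1) (nat_lit 6) (nat_lit 3) (nat_lit 0) (nat_lit 6) (by decide +kernel)
theorem L37479 : W_3 (nat_lit 3) (nat_lit 0x20000b00178008c002e00000000000000000000000000) (nat_lit 0x0) (nat_lit 0x100001c0008000000000000000000000) := T_3 (nat_lit 104) (nat_lit 87) (nat_lit 4) (nat_lit 3) (nat_lit 9) L37478 (by decide +kernel)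
theorem L37480 : W_3 (nat_lit 4) (nat_lit 0x20000b00178008c000e00000000000000000000000000) (nat_lit 0x0) (nat_lit 0x100031c0008000000000000000000000) := T_3 (nat_lit 109) (nat_lit 108) (nat_lit 1) (nat_lit 7) (nat_lit 6) L37479 (by decide +kernel)
theorem L37481 : W_3 (nat_lit 5) (nat_lit 0x20000b00178008c000600000000000000000000000000) (nat_lit 0x0) (nat_lit 0x100039c0048000000000000000000000) := T_3 (nat_lit 107) (nat_lit 90) (nat_lit 6) (nat_lit 4) (nat_lit 9) L37480 (by decide +kernel)
theorem L37482 : W_3 (nat_lit 6) (nat_lit 0x20000b001780084000600000000000000000000000000) (nat_lit 0x0) (nat_lit 0x200000000000180039c0048000000000000000000000) := T_3 (nat_lit 123) (nat_lit 173) (nat_lit 6) (nat_lit 3) (nat_lit 10) L37481 (by decide +kernel)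
theorem L37483 : W_3 (nat_lit 7) (nat_lit 0x20000b001780084000200000000000000000000000000) (nat_lit 0x0) (nat_lit 0x20000000000018003dc0068000000000000000000000) := T_3 (nat_lit 106) (nat_lit 89) (nat_lit 6) (nat_lit 3) (nat_lit 9) L37482 (by decide +kernel)
theorem L37488 : W_3 (nat_lit 2) (nat_lit 0xa000200034000b001780080000000000000000000000000000000) (nat_lit 0x0) (nat_lit 0x1400040000000000000000000000000000000000000000000000000000) := D_3 (nat_lit 210) (nat_lit 226) (nat_lit 228) (nat_lit 5) (nat_lit 6) (nat_lit 9) (nat_lit 7) (nat_lit 6) (nat_lit 9) (by decide +kernel)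
theorem L37489 : W_3 (nat_lit 3) (nat_lit 0x2000200034000b001780080000000000000000000000000000000) (nat_lit 0x0) (nat_lit 0x14000c0004000000000000000000000000000000000000000000000000) := T_3 (nat_lit 211) (nat_lit 194) (nat_lit 7) (nat_lit 6) (nat_lit 8) L37488 (by decide +kernel)
theorem L37490 : W_3 (nat_lit 4) (nat_lit 0x200034000b001780080000000000000000000000000000000) (nat_lit 0x0) (nat_lit 0x14000e0005000000000000000000000000000000000000000000000000) := T_3 (nat_lit 209) (nat_lit 192) (nat_lit 5) (nat_lit 6) (nat_lit 8) L37489 (by decide +kernel)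
theorem L37491 : W_3 (nat_lit 5) (nat_lit 0x34000b001780080000000000000000000000000000000) (nat_lit 0x0) (nat_lit 0x14000e0007000000000000000010000000000000000000000000000000) := T_3 (nat_lit 193) (nat_lit 124) (nat_lit 4) (nat_lit 6) (nat_lit 11) L37490 (by decide +kernel)
theorem L37568 : W_3 (nat_lit 2) (nat_lit 0x240002001780084000000000000000000000000000000) (nat_lit 0x0) (nat_lit 0x8000200010000000000000000000000) := D_3 (nat_lit 105) (nat_lit 88) (nat_lit 123) (nat_lit 7) (nat_lit 3) (nat_lit 5) (nat_lit 4) (nat_lit 4) (nat_lit 10) (by decide +kernel)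
theorem L37569 : W_3 (nat_lit 3) (nat_lit 0x200002001780084000000000000000000000000000000) (nat_lit 0x0) (nat_lit 0x800040000000000008000200010000000000000000000000) := T_3 (nat_lit 174) (nat_lit 191) (nat_lit 4) (nat_lit 4) (nat_lit 11) L37568 (by decide +kernel)
theorem L37570 : W_3 (nat_lit 4) (nat_lit 0x200002001780080000000000000000000000000000000) (nat_lit 0x0) (nat_lit 0x80004000000000000e000200010000000000000000000000) := T_3 (nat_lit 122) (nat_lit 121) (nat_lit 0) (nat_lit 6) (nat_lit 8) L37569 (by decide +kernel)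
theorem L37580 : W_3 (nat_lit 2) (nat_lit 0x200003001780084000000000000000000000000000000) (nat_lit 0x0) (nat_lit 0x40000000000000000200010000000000000000000000) := D_3 (nat_lit 105) (nat_lit 88) (nat_lit 174) (nat_lit 7) (nat_lit 3) (nat_lit 5) (nat_lit 7) (nat_lit 3) (nat_lit 6) (by decide +kernel)
theorem L37581 : W_3 (nat_lit 3) (nat_lit 0x200002001780084000000000000000000000000000000) (nat_lit 0x0) (nat_lit 0x40001800000000000200010000000000000000000000) := T_3 (nat_lit 156) (nat_lit 155) (nat_lit 1) (nat_lit 6) (nat_lit 8) L37580 (by decide +kernel)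
theorem L37582 : W_3 (nat_lit 4) (nat_lit 0x200002001780080000000000000000000000000000000) (nat_lit 0x0) (nat_lit 0x40001800000006000200010000000000000000000000) := T_3 (nat_lit 122) (nat_lit 121) (nat_lit 0) (nat_lit 6) (nat_lit 8) L37581 (by decide +kernel)
theorem L37805 : W_3 (nat_lit 2) (nat_lit 0x48003c0012001300080000000000000000000000000000000) (nat_lit 0x0) (nat_lit 0x20001000000000000000008000000000000000000000000000000) := D_3 (nat_lit 192) (nat_lit 123) (nat_lit 209) (nat_lit 7) (nat_lit 4) (nat_lit 7) (nat_lit 7) (nat_lit 4) (nat_lit 8) (by decide +kernel)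
theorem L38051 : W_3 (nat_lit 2) (nat_lit 0x40002e0002001b00098000000000000000000000000000000) (nat_lit 0x0) (nat_lit 0xa000100000000000000000000000000000000000000000000) := D_3 (nat_lit 176) (nat_lit 195) (nat_lit 193) (nat_lit 3) (nat_lit 4) (nat_lit 10) (nat_lit 3) (nat_lit 3) (nat_lit 10) (by decide +kernel)
theorem L38105 : W_3 (nat_lit 2) (nat_lit 0x4000200000001f00080000000000000000000000000000000) (nat_lit 0x0) (nat_lit 0x1c000000000000000000000000000000) := D_3 (nat_lit 123) (nat_lit 122) (nat_lit 124) (nat_lit 0) (nat_lit 7) (nat_lit 8) (nat_lit 0) (nat_lit 8) (nat_lit 8) (by decide +kernel)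
theorem L38119 : W_3 (nat_lit 2) (nat_lit 0x200000001780084000200010000800000000000000000) (nat_lit 0x0) (nat_lit 0x20001000080000000000000) := D_3 (nat_lit 72) (nat_lit 55) (nat_lit 89) (nat_lit 6) (nat_lit 3) (nat_lit 7) (nat_lit 6) (nat_lit 3) (nat_lit 8) (by decide +kernel)
theorem L38120 : W_3 (nat_lit 3) (nat_lit 0x200000001780084000200010000000000000000000000) (nat_lit 0x0) (nat_lit 0x8000000020001800080000000000000) := T_3 (nat_lit 71) (nat_lit 123) (nat_lit 7) (nat_lit 3) (nat_lit 4) L38119 (by decide +kernel)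
theorem L38121 : W_3 (nat_lit 4) (nat_lit 0x200000001780084000200000000000000000000000000) (nat_lit 0x0) (nat_lit 0x2000000008000000030001800080000000000000) := T_3 (nat_lit 88) (nat_lit 157) (nat_lit 7) (nat_lit 3) (nat_lit 5) L38120 (by decide +kernel)
theorem L38130 : W_3 (nat_lit 2) (nat_lit 0x200001001780084000200000000000000000000000000) (nat_lit 0x0) (nat_lit 0x40002000000000000000010000000000000000000000) := D_3 (nat_lit 157) (nat_lit 88) (nat_lit 174) (nat_lit 7) (nat_lit 3) (nat_lit 5) (nat_lit 7) (nat_lit 3) (nat_lit 6) (by decide +kernel)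
theorem L38131 : W_3 (nat_lit 3) (nat_lit 0x200000001780084000200000000000000000000000000) (nat_lit 0x0) (nat_lit 0x40003800000000000000010000000000000000000000) := T_3 (nat_lit 156) (nat_lit 155) (nat_lit 1) (nat_lit 6) (nat_lit 8) L38130 (by decide +kernel)
theorem L38175 : W_3 (nat_lit 2) (nat_lit 0x20002f0009001780084000000000000000000000000000000) (nat_lit 0x0) (nat_lit 0x4000100000000000010000000000000000000000000000000) := D_3 (nat_lit 176) (nat_lit 194) (nat_lit 124) (nat_lit 3) (nat_lit 3) (nat_lit 10) (nat_lit 4) (nat_lit 6) (nat_lit 11) (by decide +kernel)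
theorem L38176 : W_3 (nat_lit 3) (nat_lit 0x2f0009001780084000000000000000000000000000000) (nat_lit 0x0) (nat_lit 0x7000100000000000010000000000000000000000000000000) := T_3 (nat_lit 193) (nat_lit 192) (nat_lit 3) (nat_lit 2) (nat_lit 10) L38175 (by decide +kernel)
theorem L38177 : W_3 (nat_lit 4) (nat_lit 0x270009001780084000000000000000000000000000000) (nat_lit 0x0) (nat_lit 0x7000180004000000010000000000000000000000000000000) := T_3 (nat_lit 175) (nat_lit 158) (nat_lit 2) (nat_lit 2) (nat_lit 10) L38176 (by decide +kernel)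
theorem L38187 : W_3 (nat_lit 2) (nat_lit 0x8d002c003a0009001780080000000000000000000000000000000) (nat_lit 0x0) (nat_lit 0x1000040000000000004000000000000000000000000000000000000000) := D_3 (nat_lit 210) (nat_lit 158) (nat_lit 228) (nat_lit 4) (nat_lit 6) (nat_lit 12) (nat_lit 7) (nat_lit 6) (nat_lit 9) (by decide +kernel)
theorem L38188 : W_3 (nat_lit 3) (nat_lit 0xd002c003a0009001780080000000000000000000000000000000) (nat_lit 0x0) (nat_lit 0x10000c0004000000004000000000000000000000000000000000000000) := T_3 (nat_lit 211) (nat_lit 194) (nat_lit 7) (nat_lit 6) (nat_lit 8) L38187 (by decide +kernel)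
theorem L38189 : W_3 (nat_lit 4) (nat_lit 0xd002c00320009001780080000000000000000000000000000000) (nat_lit 0x0) (nat_lit 0x10000c00040000c0004000000000000000000000000000000000000000) := T_3 (nat_lit 175) (nat_lit 174) (nat_lit 1) (nat_lit 7) (nat_lit 10) L38188 (by decide +kernel)
theorem L38190 : W_3 (nat_lit 5) (nat_lit 0xd002c00220009001780080000000000000000000000000000000) (nat_lit 0x0) (nat_lit 0x10000c00040001c0004000000010000000000000000000000000000000) := T_3 (nat_lit 176) (nat_lit 124) (nat_lit 4) (nat_lit 6) (nat_lit 11) L38189 (by decide +kernel)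
theorem L38202 : W_3 (nat_lit 2) (nat_lit 0x240001001780084000000000000000000000000000000) (nat_lit 0x0) (nat_lit 0x800020002000000000000000000000000000000000000000) := D_3 (nat_lit 191) (nat_lit 157) (nat_lit 173) (nat_lit 4) (nat_lit 4) (nat_lit 11) (nat_lit 7) (nat_lit 3) (nat_lit 7) (by decide +kernel)
theorem L38210 : W_3 (nat_lit 2) (nat_lit 0x8003c0004001780084000000000000000000000000000000) (nat_lit 0x0) (nat_lit 0x200010001000000000000000000000000000000000000000000000000) := D_3 (nat_lit 208) (nat_lit 192) (nat_lit 225) (nat_lit 5) (nat_lit 5) (nat_lit 8) (nat_lit 6) (nat_lit 4) (nat_lit 13) (by decide +kernel)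
theorem L38211 : W_3 (nat_lit 3) (nat_lit 0x8003c0000001780084000000000000000000000000000000) (nat_lit 0x0) (nat_lit 0x200010001000000004000000010000000000000000000000000000000) := T_3 (nat_lit 158) (nat_lit 124) (nat_lit 5) (nat_lit 5) (nat_lit 7) L38210 (by decide +kernel)
theorem L38212 : W_3 (nat_lit 4) (nat_lit 0x8002c0000001780084000000000000000000000000000000) (nat_lit 0x0) (nat_lit 0x200010001400100004000000010000000000000000000000000000000) := T_3 (nat_lit 176) (nat_lit 190) (nat_lit 1) (nat_lit 7) (nat_lit 10) L38211 (by decide +kernel)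
theorem L38213 : W_3 (nat_lit 5) (nat_lit 0x2c0000001780084000000000000000000000000000000) (nat_lit 0x0) (nat_lit 0x200010001c00100006000000010000000000000000000000000000000) := T_3 (nat_lit 191) (nat_lit 157) (nat_lit 4) (nat_lit 4) (nat_lit 11) L38212 (by decide +kernel)
theorem L38214 : W_3 (nat_lit 6) (nat_lit 0x2c0000001780080000000000000000000000000000000) (nat_lit 0x0) (nat_lit 0x200010001c00100006000000016000000000000000000000000000000) := T_3 (nat_lit 122) (nat_lit 121) (nat_lit 0) (nat_lit 6) (nat_lit 8) L38213 (by decide +kernel)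
theorem L38215 : W_3 (nat_lit 2) (nat_lit 0x48003c0008001780084000000000000000000000000000000) (nat_lit 0x0) (nat_lit 0x2000020000000000010000000000000000000000000000000) := D_3 (nat_lit 193) (nat_lit 173) (nat_lit 124) (nat_lit 3) (nat_lit 3) (nat_lit 10) (nat_lit 4) (nat_lit 6) (nat_lit 11) (by decide +kernel)
theorem L38216 : W_3 (nat_lit 3) (nat_lit 0x8003c0008001780084000000000000000000000000000000) (nat_lit 0x0) (nat_lit 0xe000020000000000010000000000000000000000000000000) := T_3 (nat_lit 194) (nat_lit 195) (nat_lit 3) (nat_lit 4) (nat_lit 10) L38215 (by decide +kernel)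
theorem L38217 : W_3 (nat_lit 4) (nat_lit 0x8002c0008001780084000000000000000000000000000000) (nat_lit 0x0) (nat_lit 0xe400120000000000010000000000000000000000000000000) := T_3 (nat_lit 176) (nat_lit 190) (nat_lit 1) (nat_lit 7) (nat_lit 10) L38216 (by decide +kernel)
theorem L38218 : W_3 (nat_lit 5) (nat_lit 0x2c0008001780084000000000000000000000000000000) (nat_lit 0x0) (nat_lit 0xec00120002000000010000000000000000000000000000000) := T_3 (nat_lit 191) (nat_lit 157) (nat_lit 4) (nat_lit 4) (nat_lit 11) L38217 (by decide +kernel)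
theorem L38219 : W_3 (nat_lit 6) (nat_lit 0x2c0000001780084000000000000000000000000000000) (nat_lit 0x0) (nat_lit 0xec0012001a000000010000000000000000000000000000000) := T_3 (nat_lit 159) (nat_lit 160) (nat_lit 3) (nat_lit 3) (nat_lit 8) L38218 (by decide +kernel)
theorem L38220 : W_3 (nat_lit 7) (nat_lit 0x2c0000001780080000000000000000000000000000000) (nat_lit 0x0) (nat_lit 0xec0012001a000000016000000000000000000000000000000) := T_3 (nat_lit 122) (nat_lit 121) (nat_lit 0) (nat_lit 6) (nat_lit 8) L38219 (by decide +kernel)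
theorem L38221 : W_3 (nat_lit 2) (nat_lit 0x8002c000c001780084000000000000000000000000000000) (nat_lit 0x0) (nat_lit 0x30001000000000000000000000000000000000000000000000000) := D_3 (nat_lit 192) (nat_lit 208) (nat_lit 209) (nat_lit 5) (nat_lit 5) (nat_lit 8) (nat_lit 6) (nat_lit 5) (nat_lit 12) (by decide +kernel)
theorem L38222 : W_3 (nat_lit 3) (nat_lit 0x8002c0008001780084000000000000000000000000000000) (nat_lit 0x0) (nat_lit 0x30001000000004000000010000000000000000000000000000000) := T_3 (nat_lit 158) (nat_lit 124) (nat_lit 5) (nat_lit 5) (nat_lit 7) L38221 (by decide +kernel)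
theorem L38223 : W_3 (nat_lit 4) (nat_lit 0x2c0008001780084000000000000000000000000000000) (nat_lit 0x0) (nat_lit 0x30001800000006000000010000000000000000000000000000000) := T_3 (nat_lit 191) (nat_lit 157) (nat_lit 4) (nat_lit 4) (nat_lit 11) L38222 (by decide +kernel)
theorem L38224 : W_3 (nat_lit 5) (nat_lit 0x2c0000001780084000000000000000000000000000000) (nat_lit 0x0) (nat_lit 0x3000180000001e000000010000000000000000000000000000000) := T_3 (nat_lit 159) (nat_lit 160) (nat_lit 3) (nat_lit 3) (nat_lit 8) L38223 (by decide +kernel)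
theorem L38225 : W_3 (nat_lit 6) (nat_lit 0x2c0000001780080000000000000000000000000000000) (nat_lit 0x0) (nat_lit 0x3000180000001e000000016000000000000000000000000000000) := T_3 (nat_lit 122) (nat_lit 121) (nat_lit 0) (nat_lit 6) (nat_lit 8) L38224 (by decide +kernel)
theorem L38226 : W_3 (nat_lit 2) (nat_lit 0x48003c0008001780084000000000000000000000000000000) (nat_lit 0x0) (nat_lit 0x80002000020000000000000000000000000000000000000000000) := D_3 (nat_lit 193) (nat_lit 173) (nat_lit 211) (nat_lit 3) (nat_lit 3) (nat_lit 10) (nat_lit 7) (nat_lit 6) (nat_lit 8) (by decide +kernel)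
theorem L38227 : W_3 (nat_lit 3) (nat_lit 0x8003c0008001780084000000000000000000000000000000) (nat_lit 0x0) (nat_lit 0x8000e000020000000000000000000000000000000000000000000) := T_3 (nat_lit 194) (nat_lit 195) (nat_lit 3) (nat_lit 4) (nat_lit 10) L38226 (by decide +kernel)
theorem L38228 : W_3 (nat_lit 4) (nat_lit 0x8002c0008001780084000000000000000000000000000000) (nat_lit 0x0) (nat_lit 0x8000e400120000000000000000000000000000000000000000000) := T_3 (nat_lit 176) (nat_lit 190) (nat_lit 1) (nat_lit 7) (nat_lit 10) L38227 (by decide +kernel)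
theorem L38229 : W_3 (nat_lit 5) (nat_lit 0x2c0008001780084000000000000000000000000000000) (nat_lit 0x0) (nat_lit 0x8000ec00120002000000000000000000000000000000000000000) := T_3 (nat_lit 191) (nat_lit 157) (nat_lit 4) (nat_lit 4) (nat_lit 11) L38228 (by decide +kernel)
theorem L38230 : W_3 (nat_lit 6) (nat_lit 0x2c0000001780084000000000000000000000000000000) (nat_lit 0x0) (nat_lit 0x8000ec0012001a000000000000000000000000000000000000000) := T_3 (nat_lit 159) (nat_lit 160) (nat_lit 3) (nat_lit 3) (nat_lit 8) L38229 (by decide +kernel)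
theorem L38231 : W_3 (nat_lit 7) (nat_lit 0x2c0000001780080000000000000000000000000000000) (nat_lit 0x0) (nat_lit 0x8000ec0012001a000000006000000000000000000000000000000) := T_3 (nat_lit 122) (nat_lit 121) (nat_lit 0) (nat_lit 6) (nat_lit 8) L38230 (by decide +kernel)
theorem L38240 : W_3 (nat_lit 2) (nat_lit 0x400060003c0010001780084000000000000000000000000000000) (nat_lit 0x0) (nat_lit 0x1000000004000000010000000000000000000000000000000) := D_3 (nat_lit 158) (nat_lit 124) (nat_lit 192) (nat_lit 7) (nat_lit 5) (nat_lit 7) (nat_lit 7) (nat_lit 5) (nat_lit 8) (by decide +kernel)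
theorem L38241 : W_3 (nat_lit 3) (nat_lit 0x60003c0010001780084000000000000000000000000000000) (nat_lit 0x0) (nat_lit 0x800040001000000004000000010000000000000000000000000000000) := T_3 (nat_lit 210) (nat_lit 227) (nat_lit 6) (nat_lit 6) (nat_lit 13) L38240 (by decide +kernel)
theorem L38242 : W_3 (nat_lit 4) (nat_lit 0x40003c0010001780084000000000000000000000000000000) (nat_lit 0x0) (nat_lit 0x800040003000020004000000010000000000000000000000000000000) := T_3 (nat_lit 193) (nat_lit 173) (nat_lit 3) (nat_lit 3) (nat_lit 10) L38241 (by decide +kernel)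
theorem L38243 : W_3 (nat_lit 5) (nat_lit 0x3c0010001780084000000000000000000000000000000) (nat_lit 0x0) (nat_lit 0x80004000f000020004000000010000000000000000000000000000000) := T_3 (nat_lit 194) (nat_lit 195) (nat_lit 3) (nat_lit 4) (nat_lit 10) L38242 (by decide +kernel)
theorem L38244 : W_3 (nat_lit 6) (nat_lit 0x2c0010001780084000000000000000000000000000000) (nat_lit 0x0) (nat_lit 0x80004000f000120024000000010000000000000000000000000000000) := T_3 (nat_lit 176) (nat_lit 161) (nat_lit 2) (nat_lit 4) (nat_lit 10) L38243 (by decide +kernel)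
theorem L38251 : W_3 (nat_lit 2) (nat_lit 0x8003c0010001780080000000000000000000000000000000) (nat_lit 0x0) (nat_lit 0x6000000010000000000000000000000000000000) := D_3 (nat_lit 124) (nat_lit 158) (nat_lit 157) (nat_lit 5) (nat_lit 5) (nat_lit 7) (nat_lit 6) (nat_lit 4) (nat_lit 11) (by decide +kernel)
theorem L38252 : W_3 (nat_lit 3) (nat_lit 0x3c0010001780080000000000000000000000000000000) (nat_lit 0x0) (nat_lit 0xc00000006000000010000000000000000000000000000000) := T_3 (nat_lit 191) (nat_lit 190) (nat_lit 1) (nat_lit 7) (nat_lit 10) L38251 (by decide +kernel)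
theorem L38253 : W_3 (nat_lit 4) (nat_lit 0x2c0010001780080000000000000000000000000000000) (nat_lit 0x0) (nat_lit 0xc00100026000000010000000000000000000000000000000) := T_3 (nat_lit 176) (nat_lit 161) (nat_lit 2) (nat_lit 4) (nat_lit 10) L38252 (by decide +kernel)
theorem L38254 : W_3 (nat_lit 5) (nat_lit 0x2c0000001780080000000000000000000000000000000) (nat_lit 0x0) (nat_lit 0xc0010003e000000010000000000000000000000000000000) := T_3 (nat_lit 160) (nat_lit 159) (nat_lit 3) (nat_lit 3) (nat_lit 8) L38253 (by decide +kernel)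
theorem L38256 : W_3 (nat_lit 5) (nat_lit 0x260009001780084000000000000000000000000000000) (nat_lit 0x0) (nat_lit 0x7200190004000000010000000000000000000000000000000) := T_3 (nat_lit 172) (nat_lit 189) (nat_lit 5) (nat_lit 3) (nat_lit 7) L38177 (by decide +kernel)
theorem L38257 : W_3 (nat_lit 6) (nat_lit 0x240009001780084000000000000000000000000000000) (nat_lit 0x0) (nat_lit 0x7a001b0004000000010000000000000000000000000000000) := T_3 (nat_lit 173) (nat_lit 191) (nat_lit 7) (nat_lit 3) (nat_lit 7) L38256 (by decide +kernel)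
theorem L38261 : W_3 (nat_lit 2) (nat_lit 0x240009001780094000e0001a000000000000000000000) (nat_lit 0x0) (nat_lit 0x2000100004000000000000000000000000000000000000000) := D_3 (nat_lit 176) (nat_lit 193) (nat_lit 158) (nat_lit 4) (nat_lit 6) (nat_lit 11) (nat_lit 7) (nat_lit 5) (nat_lit 6) (by decide +kernel)
theorem L38262 : W_3 (nat_lit 3) (nat_lit 0x240009001780084000e0001a000000000000000000000) (nat_lit 0x0) (nat_lit 0x2000100004000000010000000040000000000000000000000) := T_3 (nat_lit 124) (nat_lit 90) (nat_lit 7) (nat_lit 5) (nat_lit 5) L38261 (by decide +kernel)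
theorem L38263 : W_3 (nat_lit 4) (nat_lit 0x24000900178008400060001a000000000000000000000) (nat_lit 0x0) (nat_lit 0x2000100004000000010001800040000000000000000000000) := T_3 (nat_lit 107) (nat_lit 108) (nat_lit 0) (nat_lit 6) (nat_lit 6) L38262 (by decide +kernel)
theorem L38264 : W_3 (nat_lit 5) (nat_lit 0x240009001780084000600018000000000000000000000) (nat_lit 0x0) (nat_lit 0x2000100004000000010001800046000000000000000000000) := T_3 (nat_lit 85) (nat_lit 86) (nat_lit 3) (nat_lit 0) (nat_lit 5) L38263 (by decide +kernel)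
theorem L38265 : W_3 (nat_lit 6) (nat_lit 0x240009001780084000600008000000000000000000000) (nat_lit 0x0) (nat_lit 0x2000100004000000010001800056000400000000000000000) := T_3 (nat_lit 88) (nat_lit 70) (nat_lit 4) (nat_lit 3) (nat_lit 8) L38264 (by decide +kernel)
theorem L38266 : W_3 (nat_lit 7) (nat_lit 0x240009001780084000600000000000000000000000000) (nat_lit 0x0) (nat_lit 0x200010000400000001000190005e000400000000000000000) := T_3 (nat_lit 87) (nat_lit 104) (nat_lit 4) (nat_lit 3) (nat_lit 9) L38265 (by decide +kernel)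
theorem L38267 : W_3 (nat_lit 8) (nat_lit 0x240009001780084000200000000000000000000000000) (nat_lit 0x0) (nat_lit 0x2000100004000000010001d0007e000400000000000000000) := T_3 (nat_lit 106) (nat_lit 89) (nat_lit 6) (nat_lit 3) (nat_lit 9) L38266 (by decide +kernel)
theorem L38268 : W_3 (nat_lit 9) (nat_lit 0x240009001780084000000000000000000000000000000) (nat_lit 0x0) (nat_lit 0x2000100006000000010001f0007e000400000000000000000) := T_3 (nat_lit 105) (nat_lit 157) (nat_lit 7) (nat_lit 3) (nat_lit 6) L38267 (by decide +kernel)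
theorem L38630 : W_3 (nat_lit 2) (nat_lit 0x20001c001300080000000000000000000000000000000) (nat_lit 0x0) (nat_lit 0x2000880000000000000000000000000000000000) := D_3 (nat_lit 157) (nat_lit 139) (nat_lit 143) (nat_lit 0) (nat_lit 7) (nat_lit 9) (nat_lit 2) (nat_lit 4) (nat_lit 9) (by decide +kernel)
theorem L38631 : W_3 (nat_lit 3) (nat_lit 0x200014001300080000000000000000000000000000000) (nat_lit 0x0) (nat_lit 0x2a000880000000000000000000000000000000000) := T_3 (nat_lit 159) (nat_lit 161) (nat_lit 0) (nat_lit 8) (nat_lit 9) L38630 (by decide +kernel)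
theorem L38638 : W_3 (nat_lit 2) (nat_lit 0x380014001300090000000000000000000000000000000) (nat_lit 0x0) (nat_lit 0x800040020000000000000000000000000000000000000000) := D_3 (nat_lit 174) (nat_lit 161) (nat_lit 191) (nat_lit 2) (nat_lit 4) (nat_lit 10) (nat_lit 5) (nat_lit 5) (nat_lit 7) (by decide +kernel)
theorem L38639 : W_3 (nat_lit 3) (nat_lit 0x280014001300090000000000000000000000000000000) (nat_lit 0x0) (nat_lit 0x2800140020000000000000000000000000000000000000000) := T_3 (nat_lit 176) (nat_lit 193) (nat_lit 7) (nat_lit 5) (nat_lit 7) L38638 (by decide +kernel)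
theorem L38643 : W_3 (nat_lit 2) (nat_lit 0x380014001300090000c00040000000000000000000000) (nat_lit 0x0) (nat_lit 0x1000080004000000000000000000) := D_3 (nat_lit 91) (nat_lit 108) (nat_lit 74) (nat_lit 6) (nat_lit 5) (nat_lit 9) (nat_lit 6) (nat_lit 5) (nat_lit 8) (by decide +kernel)
theorem L38644 : W_3 (nat_lit 3) (nat_lit 0x380014001300090000c00000000000000000000000000) (nat_lit 0x0) (nat_lit 0x20000000000010000c0004000000000000000000) := T_3 (nat_lit 90) (nat_lit 157) (nat_lit 5) (nat_lit 5) (nat_lit 5) L38643 (by decide +kernel)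
theorem L38754 : W_3 (nat_lit 3) (nat_lit 0x48003c0012001200080000000000000000000000000000000) (nat_lit 0x0) (nat_lit 0x20001000000000000100018000000000000000000000000000000) := T_3 (nat_lit 140) (nat_lit 124) (nat_lit 6) (nat_lit 4) (nat_lit 11) L37805 (by decide +kernel)
theorem L38769 : W_3 (nat_lit 2) (nat_lit 0x8003e0015001200080000000000000000000000000000000) (nat_lit 0x0) (nat_lit 0x200010001000000000000000000000000000000000000000000000000) := D_3 (nat_lit 208) (nat_lit 225) (nat_lit 192) (nat_lit 6) (nat_lit 4) (nat_lit 13) (nat_lit 5) (nat_lit 5) (nat_lit 8) (by decide +kernel)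
theorem L38770 : W_3 (nat_lit 3) (nat_lit 0x8003e0011001200080000000000000000000000000000000) (nat_lit 0x0) (nat_lit 0x200010001000000004000000010000000000000000000000000000000) := T_3 (nat_lit 158) (nat_lit 124) (nat_lit 5) (nat_lit 5) (nat_lit 7) L38769 (by decide +kernel)
theorem L38771 : W_3 (nat_lit 4) (nat_lit 0x8003e0010001200080000000000000000000000000000000) (nat_lit 0x0) (nat_lit 0x200010001000000005800000010000000000000000000000000000000) := T_3 (nat_lit 156) (nat_lit 155) (nat_lit 0) (nat_lit 6) (nat_lit 10) L38770 (by decide +kernel)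
theorem L38772 : W_3 (nat_lit 5) (nat_lit 0x8003c0010001200080000000000000000000000000000000) (nat_lit 0x0) (nat_lit 0x20001000100002000d800000010000000000000000000000000000000) := T_3 (nat_lit 173) (nat_lit 159) (nat_lit 2) (nat_lit 3) (nat_lit 10) L38771 (by decide +kernel)
theorem L38951 : W_3 (nat_lit 2) (nat_lit 0x48003c00020017000a0000000000000000000000000000000) (nat_lit 0x0) (nat_lit 0x20001000000000000000008000000000000000000000000000000) := D_3 (nat_lit 192) (nat_lit 123) (nat_lit 209) (nat_lit 7) (nat_lit 4) (nat_lit 7) (nat_lit 7) (nat_lit 4) (nat_lit 8) (by decide +kernel)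
theorem L38952 : W_3 (nat_lit 3) (nat_lit 0x48003c00020016000a0000000000000000000000000000000) (nat_lit 0x0) (nat_lit 0x20001000000000000100018000000000000000000000000000000) := T_3 (nat_lit 140) (nat_lit 124) (nat_lit 6) (nat_lit 4) (nat_lit 11) L38951 (by decide +kernel)
theorem L39066 : W_3 (nat_lit 2) (nat_lit 0x38000400130009a001800000000000000000000000000) (nat_lit 0x0) (nat_lit 0x2000000000000000040002000000000000000000) := D_3 (nat_lit 90) (nat_lit 73) (nat_lit 157) (nat_lit 5) (nat_lit 5) (nat_lit 4) (nat_lit 5) (nat_lit 5) (nat_lit 5) (by decide +kernel)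
theorem L39067 : W_3 (nat_lit 3) (nat_lit 0x38000400120009a001800000000000000000000000000) (nat_lit 0x0) (nat_lit 0x1000000002000100000000000040002000000000000000000) := T_3 (nat_lit 140) (nat_lit 192) (nat_lit 4) (nat_lit 5) (nat_lit 11) L39066 (by decide +kernel)
theorem L39068 : W_3 (nat_lit 4) (nat_lit 0x380004001200098001800000000000000000000000000) (nat_lit 0x0) (nat_lit 0x1000000002000100006000000040002000000000000000000) := T_3 (nat_lit 121) (nat_lit 122) (nat_lit 2) (nat_lit 2) (nat_lit 7) L39067 (by decide +kernel)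
theorem L39128 : W_3 (nat_lit 2) (nat_lit 0x30000c001e000a0000000000000000000000000000000) (nat_lit 0x0) (nat_lit 0x1000080000000000000001000000000000000000000000000) := D_3 (nat_lit 175) (nat_lit 192) (nat_lit 108) (nat_lit 6) (nat_lit 5) (nat_lit 11) (nat_lit 5) (nat_lit 6) (nat_lit 6) (by decide +kernel)
theorem L39129 : W_3 (nat_lit 3) (nat_lit 0x30000c001e00080000000000000000000000000000000) (nat_lit 0x0) (nat_lit 0x5000080000000000020001000000000000000000000000000) := T_3 (nat_lit 125) (nat_lit 194) (nat_lit 7) (nat_lit 6) (nat_lit 7) L39128 (by decide +kernel)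
theorem L39562 : W_3 (nat_lit 2) (nat_lit 0x2000000012000900008000e0000000000000000000000) (nat_lit 0x0) (nat_lit 0x4000000000001400000000000000000000000000) := D_3 (nat_lit 158) (nat_lit 106) (nat_lit 108) (nat_lit 4) (nat_lit 5) (nat_lit 9) (nat_lit 6) (nat_lit 5) (nat_lit 9) (by decide +kernel)
theorem L39563 : W_3 (nat_lit 3) (nat_lit 0x200000001200090000800060000000000000000000000) (nat_lit 0x0) (nat_lit 0x4000000000001400080004000000000000000000) := T_3 (nat_lit 91) (nat_lit 74) (nat_lit 6) (nat_lit 5) (nat_lit 8) L39562 (by decide +kernel)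
theorem L39564 : W_3 (nat_lit 4) (nat_lit 0x200000001200090000800040000000000000000000000) (nat_lit 0x0) (nat_lit 0x40000000000014000a0005000000000000000000) := T_3 (nat_lit 89) (nat_lit 72) (nat_lit 4) (nat_lit 5) (nat_lit 8) L39563 (by decide +kernel)
theorem L39644 : W_3 (nat_lit 2) (nat_lit 0x2000000017000d0001c000c0000000000000000000000) (nat_lit 0x0) (nat_lit 0x300100000000000000000000000) := D_3 (nat_lit 105) (nat_lit 92) (nat_lit 104) (nat_lit 2) (nat_lit 3) (nat_lit 6) (nat_lit 2) (nat_lit 2) (nat_lit 6) (by decide +kernel)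
theorem L39645 : W_3 (nat_lit 3) (nat_lit 0x2000000017000d00018000c0000000000000000000000) (nat_lit 0x0) (nat_lit 0x2700100000000000000000000000) := T_3 (nat_lit 106) (nat_lit 109) (nat_lit 3) (nat_lit 4) (nat_lit 6) L39644 (by decide +kernel)
theorem L39646 : W_3 (nat_lit 4) (nat_lit 0x2000000017000d00008000c0000000000000000000000) (nat_lit 0x0) (nat_lit 0x4000000000003700100000000000000000000000) := T_3 (nat_lit 108) (nat_lit 158) (nat_lit 6) (nat_lit 5) (nat_lit 9) L39645 (by decide +kernel)
theorem L39647 : W_3 (nat_lit 5) (nat_lit 0x2000000017000d0000800040000000000000000000000) (nat_lit 0x0) (nat_lit 0x4000000000003700180004000000000000000000) := T_3 (nat_lit 91) (nat_lit 74) (nat_lit 6) (nat_lit 5) (nat_lit 8) L39646 (by decide +kernel)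
theorem L39711 : W_3 (nat_lit 3) (nat_lit 0x2000000012000d0000c00000000000000000000000000) (nat_lit 0x0) (nat_lit 0x40000000000030000a0000000000000000000000) := T_3 (nat_lit 158) (nat_lit 89) (nat_lit 4) (nat_lit 5) (nat_lit 9) L39574 (by decide +kernel)
theorem L39712 : W_3 (nat_lit 4) (nat_lit 0x200000001200090000c00000000000000000000000000) (nat_lit 0x0) (nat_lit 0x40000000600030000a0000000000000000000000) := T_3 (nat_lit 126) (nat_lit 125) (nat_lit 0) (nat_lit 8) (nat_lit 7) L39711 (by decide +kernel)
theorem L39713 : W_3 (nat_lit 2) (nat_lit 0x280004001200090000c00000000000000000000000000) (nat_lit 0x0) (nat_lit 0x20001000080000000000000000000000) := D_3 (nat_lit 108) (nat_lit 91) (nat_lit 125) (nat_lit 6) (nat_lit 5) (nat_lit 9) (nat_lit 6) (nat_lit 5) (nat_lit 10) (by decide +kernel)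
theorem L39714 : W_3 (nat_lit 3) (nat_lit 0x200004001200090000c00000000000000000000000000) (nat_lit 0x0) (nat_lit 0x80000000000028001000080000000000000000000000) := T_3 (nat_lit 175) (nat_lit 123) (nat_lit 4) (nat_lit 5) (nat_lit 10) L39713 (by decide +kernel)
theorem L39715 : W_3 (nat_lit 4) (nat_lit 0x200000001200090000c00000000000000000000000000) (nat_lit 0x0) (nat_lit 0x800040000000280010000a0000000000000000000000) := T_3 (nat_lit 158) (nat_lit 89) (nat_lit 4) (nat_lit 5) (nat_lit 9) L39714 (by decide +kernel)
theorem L39716 : W_3 (nat_lit 2) (nat_lit 0x200000001a000d0002c00100000000000000000000000) (nat_lit 0x0) (nat_lit 0x500008000000000000000000000000000000) := D_3 (nat_lit 142) (nat_lit 123) (nat_lit 140) (nat_lit 0) (nat_lit 8) (nat_lit 8) (nat_lit 2) (nat_lit 4) (nat_lit 8) (by decide +kernel)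
theorem L39717 : W_3 (nat_lit 3) (nat_lit 0x2000000012000d0002c00100000000000000000000000) (nat_lit 0x0) (nat_lit 0x20000d00008000000000000000000000000000000) := T_3 (nat_lit 143) (nat_lit 161) (nat_lit 7) (nat_lit 7) (nat_lit 5) L39716 (by decide +kernel)
theorem L39718 : W_3 (nat_lit 4) (nat_lit 0x2000000012000d0002c00000000000000000000000000) (nat_lit 0x0) (nat_lit 0x20000d00008000000100008000000000000000000) := T_3 (nat_lit 92) (nat_lit 75) (nat_lit 7) (nat_lit 7) (nat_lit 4) L39717 (by decide +kernel)
theorem L39719 : W_3 (nat_lit 5) (nat_lit 0x2000000012000d0000c00000000000000000000000000) (nat_lit 0x0) (nat_lit 0x20000d00008003000100008000000000000000000) := T_3 (nat_lit 109) (nat_lit 108) (nat_lit 3) (nat_lit 4) (nat_lit 6) L39718 (by decide +kernel)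
theorem L39720 : W_3 (nat_lit 6) (nat_lit 0x200000001200090000c00000000000000000000000000) (nat_lit 0x0) (nat_lit 0x20000d00068003000100008000000000000000000) := T_3 (nat_lit 126) (nat_lit 125) (nat_lit 0) (nat_lit 8) (nat_lit 7) L39719 (by decide +kernel)
theorem L39721 : W_3 (nat_lit 2) (nat_lit 0x40003c0004001200090003c00100000000000000000000000) (nat_lit 0x0) (nat_lit 0x30000800000000000000000000000000000000000) := D_3 (nat_lit 160) (nat_lit 161) (nat_lit 143) (nat_lit 2) (nat_lit 4) (nat_lit 10) (nat_lit 6) (nat_lit 7) (nat_lit 11) (by decide +kernel)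
theorem L39722 : W_3 (nat_lit 3) (nat_lit 0x3c0004001200090003c00100000000000000000000000) (nat_lit 0x0) (nat_lit 0xc000000030000800000000000000000000000000000000000) := T_3 (nat_lit 194) (nat_lit 195) (nat_lit 3) (nat_lit 4) (nat_lit 10) L39721 (by decide +kernel)
theorem L39735 : W_3 (nat_lit 2) (nat_lit 0x200000001200098000800060006000000000000000000) (nat_lit 0x0) (nat_lit 0xc00020000000000000000000000000000000) := D_3 (nat_lit 142) (nat_lit 125) (nat_lit 143) (nat_lit 7) (nat_lit 5) (nat_lit 4) (nat_lit 0) (nat_lit 8) (nat_lit 8) (by decide +kernel)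
theorem L39736 : W_3 (nat_lit 3) (nat_lit 0x200000001200090000800060006000000000000000000) (nat_lit 0x0) (nat_lit 0xd00028000000000000000000000000000000) := T_3 (nat_lit 123) (nat_lit 140) (nat_lit 5) (nat_lit 5) (nat_lit 4) L39735 (by decide +kernel)
theorem L39737 : W_3 (nat_lit 4) (nat_lit 0x200000001200090000800060004000000000000000000) (nat_lit 0x0) (nat_lit 0xd00028000000000002000200000000000000) := T_3 (nat_lit 73) (nat_lit 57) (nat_lit 6) (nat_lit 5) (nat_lit 7) L39736 (by decide +kernel)
theorem L39738 : W_3 (nat_lit 5) (nat_lit 0x200000001200090000800060000000000000000000000) (nat_lit 0x0) (nat_lit 0xd00028000000080006000200000000000000) := T_3 (nat_lit 74) (nat_lit 91) (nat_lit 6) (nat_lit 5) (nat_lit 8) L39737 (by decide +kernel)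
theorem L39739 : W_3 (nat_lit 6) (nat_lit 0x200000001200090000800040000000000000000000000) (nat_lit 0x0) (nat_lit 0xd000280000000a0007000200000000000000) := T_3 (nat_lit 89) (nat_lit 72) (nat_lit 4) (nat_lit 5) (nat_lit 8) L39738 (by decide +kernel)
theorem L39740 : W_3 (nat_lit 2) (nat_lit 0x2000000012000b00008000c0003400100000000000000) (nat_lit 0x0) (nat_lit 0x48000400000000000000000000000000) := D_3 (nat_lit 106) (nat_lit 126) (nat_lit 123) (nat_lit 0) (nat_lit 8) (nat_lit 7) (nat_lit 5) (nat_lit 5) (nat_lit 3) (by decide +kernel)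
theorem L39741 : W_3 (nat_lit 3) (nat_lit 0x2000000012000b00008000c0003400000000000000000) (nat_lit 0x0) (nat_lit 0x48001400000000000100000000000000) := T_3 (nat_lit 56) (nat_lit 108) (nat_lit 7) (nat_lit 5) (nat_lit 3) L39740 (by decide +kernel)
theorem L39742 : W_3 (nat_lit 4) (nat_lit 0x2000000012000900008000c0003400000000000000000) (nat_lit 0x0) (nat_lit 0x400068001400000000000100000000000000) := T_3 (nat_lit 125) (nat_lit 142) (nat_lit 7) (nat_lit 5) (nat_lit 4) L39741 (by decide +kernel)
theorem L39743 : W_3 (nat_lit 5) (nat_lit 0x2000000012000900008000c0003000000000000000000) (nat_lit 0x0) (nat_lit 0x400068001400000000c00100000000000000) := T_3 (nat_lit 70) (nat_lit 71) (nat_lit 3) (nat_lit 2) (nat_lit 4) L39742 (by decide +kernel)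
theorem L39744 : W_3 (nat_lit 6) (nat_lit 0x2000000012000900008000c0001000000000000000000) (nat_lit 0x0) (nat_lit 0x400068001400000002c00180000000000000) := T_3 (nat_lit 73) (nat_lit 55) (nat_lit 4) (nat_lit 5) (nat_lit 7) L39743 (by decide +kernel)
theorem L39745 : W_3 (nat_lit 7) (nat_lit 0x2000000012000900008000c0000000000000000000000) (nat_lit 0x0) (nat_lit 0x400068001400020003c00180000000000000) := T_3 (nat_lit 72) (nat_lit 89) (nat_lit 4) (nat_lit 5) (nat_lit 8) L39744 (by decide +kernel)
theorem L39746 : W_3 (nat_lit 8) (nat_lit 0x200000001200090000800040000000000000000000000) (nat_lit 0x0) (nat_lit 0x4000680014000a0007c00180000000000000) := T_3 (nat_lit 91) (nat_lit 74) (nat_lit 6) (nat_lit 5) (nat_lit 8) L39745 (by decide +kernel)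
theorem L39747 : W_3 (nat_lit 2) (nat_lit 0x300010001b000d00028000e0000000000000000000000) (nat_lit 0x0) (nat_lit 0x20000000000000000100008000000000000000000) := D_3 (nat_lit 92) (nat_lit 75) (nat_lit 161) (nat_lit 7) (nat_lit 7) (nat_lit 4) (nat_lit 7) (nat_lit 7) (nat_lit 5) (by decide +kernel)
theorem L39748 : W_3 (nat_lit 3) (nat_lit 0x300010001b000d00008000e0000000000000000000000) (nat_lit 0x0) (nat_lit 0x20000000000003000100008000000000000000000) := T_3 (nat_lit 109) (nat_lit 108) (nat_lit 4) (nat_lit 7) (nat_lit 9) L39747 (by decide +kernel)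
theorem L39749 : W_3 (nat_lit 4) (nat_lit 0x200010001b000d00008000e0000000000000000000000) (nat_lit 0x0) (nat_lit 0x2000100020000000000003000100008000000000000000000) := T_3 (nat_lit 176) (nat_lit 193) (nat_lit 5) (nat_lit 7) (nat_lit 7) L39748 (by decide +kernel)
theorem L39750 : W_3 (nat_lit 5) (nat_lit 0x200000001b000d00008000e0000000000000000000000) (nat_lit 0x0) (nat_lit 0x6000100030000000000003000100008000000000000000000) := T_3 (nat_lit 160) (nat_lit 194) (nat_lit 6) (nat_lit 7) (nat_lit 11) L39749 (by decide +kernel)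
theorem L39769 : W_3 (nat_lit 2) (nat_lit 0x2000000017000d0000c000e0000000000000000000000) (nat_lit 0x0) (nat_lit 0x300100000000000000000000000) := D_3 (nat_lit 105) (nat_lit 104) (nat_lit 92) (nat_lit 2) (nat_lit 2) (nat_lit 6) (nat_lit 1) (nat_lit 7) (nat_lit 5) (by decide +kernel)
theorem L39770 : W_3 (nat_lit 3) (nat_lit 0x2000000017000d00008000e0000000000000000000000) (nat_lit 0x0) (nat_lit 0x4000000000000700100000000000000000000000) := T_3 (nat_lit 106) (nat_lit 158) (nat_lit 4) (nat_lit 5) (nat_lit 9) L39769 (by decide +kernel)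
theorem L39779 : W_3 (nat_lit 2) (nat_lit 0x280004001200090000c00000000000000000000000000) (nat_lit 0x0) (nat_lit 0x800040002000000000000000000000000000000000000000) := D_3 (nat_lit 174) (nat_lit 157) (nat_lit 191) (nat_lit 5) (nat_lit 5) (nat_lit 6) (nat_lit 5) (nat_lit 5) (nat_lit 7) (by decide +kernel)
theorem L39780 : W_3 (nat_lit 3) (nat_lit 0x200004001200090000c00000000000000000000000000) (nat_lit 0x0) (nat_lit 0x8000c0002000000008000000000000000000000000000000) := T_3 (nat_lit 175) (nat_lit 123) (nat_lit 4) (nat_lit 5) (nat_lit 10) L39779 (by decide +kernel)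
theorem L39781 : W_3 (nat_lit 4) (nat_lit 0x200000001200090000c00000000000000000000000000) (nat_lit 0x0) (nat_lit 0x8000c0006000000008000000020000000000000000000000) := T_3 (nat_lit 158) (nat_lit 89) (nat_lit 4) (nat_lit 5) (nat_lit 9) L39780 (by decide +kernel)
theorem L39799 : W_3 (nat_lit 2) (nat_lit 0x40003c0004001200090001800000000000000000000000000) (nat_lit 0x0) (nat_lit 0x30000800000000000000000000000000000000000) := D_3 (nat_lit 160) (nat_lit 161) (nat_lit 143) (nat_lit 2) (nat_lit 4) (nat_lit 10) (nat_lit 6) (nat_lit 7) (nat_lit 11) (by decide +kernel)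
theorem L39800 : W_3 (nat_lit 3) (nat_lit 0x3c0004001200090001800000000000000000000000000) (nat_lit 0x0) (nat_lit 0xc000000030000800000000000000000000000000000000000) := T_3 (nat_lit 194) (nat_lit 195) (nat_lit 3) (nat_lit 4) (nat_lit 10) L39799 (by decide +kernel)
theorem L39801 : W_3 (nat_lit 4) (nat_lit 0x2c0004001200090001800000000000000000000000000) (nat_lit 0x0) (nat_lit 0xe000100030000800000000000000000000000000000000000) := T_3 (nat_lit 176) (nat_lit 193) (nat_lit 7) (nat_lit 5) (nat_lit 7) L39800 (by decide +kernel)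
theorem L39802 : W_3 (nat_lit 5) (nat_lit 0x280004001200090001800000000000000000000000000) (nat_lit 0x0) (nat_lit 0xe800140030000800000000000000000000000000000000000) := T_3 (nat_lit 174) (nat_lit 191) (nat_lit 5) (nat_lit 5) (nat_lit 7) L39801 (by decide +kernel)
theorem L39803 : W_3 (nat_lit 6) (nat_lit 0x200004001200090001800000000000000000000000000) (nat_lit 0x0) (nat_lit 0xe8001c0030000800020000000000000000000000000000000) := T_3 (nat_lit 175) (nat_lit 125) (nat_lit 6) (nat_lit 5) (nat_lit 10) L39802 (by decide +kernel)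
theorem L39804 : W_3 (nat_lit 7) (nat_lit 0x200004001200090000800000000000000000000000000) (nat_lit 0x0) (nat_lit 0xe8001c0030000800020001000080000000000000000000000) := T_3 (nat_lit 108) (nat_lit 91) (nat_lit 6) (nat_lit 5) (nat_lit 9) L39803 (by decide +kernel)
theorem L39811 : W_3 (nat_lit 2) (nat_lit 0x200006001600090000800040002000280000000000000) (nat_lit 0x0) (nat_lit 0x100014000000000) := D_3 (nat_lit 56) (nat_lit 40) (nat_lit 38) (nat_lit 6) (nat_lit 5) (nat_lit 6) (nat_lit 4) (nat_lit 5) (nat_lit 6) (by decide +kernel)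
theorem L39812 : W_3 (nat_lit 3) (nat_lit 0x200006001600090000800040002000200000000000000) (nat_lit 0x0) (nat_lit 0x1000180014000000000) := T_3 (nat_lit 55) (nat_lit 72) (nat_lit 4) (nat_lit 5) (nat_lit 7) L39811 (by decide +kernel)
theorem L39813 : W_3 (nat_lit 4) (nat_lit 0x200006001600090000800040002000000000000000000) (nat_lit 0x0) (nat_lit 0x5000380014000000000) := T_3 (nat_lit 57) (nat_lit 74) (nat_lit 6) (nat_lit 5) (nat_lit 7) L39812 (by decide +kernel)
theorem L39814 : W_3 (nat_lit 5) (nat_lit 0x200006001600090000800040000000000000000000000) (nat_lit 0x0) (nat_lit 0x20000000000007000380014000000000) := T_3 (nat_lit 73) (nat_lit 125) (nat_lit 7) (nat_lit 5) (nat_lit 4) L39813 (by decide +kernel)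
theorem L39815 : W_3 (nat_lit 6) (nat_lit 0x200006001200090000800040000000000000000000000) (nat_lit 0x0) (nat_lit 0xc00020000000000007000380014000000000) := T_3 (nat_lit 142) (nat_lit 143) (nat_lit 1) (nat_lit 8) (nat_lit 8) L39814 (by decide +kernel)
theorem L39816 : W_3 (nat_lit 7) (nat_lit 0x200006001200090000800000000000000000000000000) (nat_lit 0x0) (nat_lit 0xd00020000000040007000380014000000000) := T_3 (nat_lit 90) (nat_lit 140) (nat_lit 5) (nat_lit 5) (nat_lit 5) L39815 (by decide +kernel)
theorem L39817 : W_3 (nat_lit 8) (nat_lit 0x200004001200090000800000000000000000000000000) (nat_lit 0x0) (nat_lit 0x40002000d00020000000040007000380014000000000) := T_3 (nat_lit 157) (nat_lit 174) (nat_lit 5) (nat_lit 5) (nat_lit 6) L39816 (by decide +kernel)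
theorem L39857 : W_3 (nat_lit 2) (nat_lit 0x200000001600090000800040002000000000000000000) (nat_lit 0x0) (nat_lit 0x2000100008000000000000000000000000000000) := D_3 (nat_lit 140) (nat_lit 157) (nat_lit 123) (nat_lit 5) (nat_lit 5) (nat_lit 5) (nat_lit 5) (nat_lit 5) (nat_lit 4) (by decide +kernel)
theorem L39858 : W_3 (nat_lit 3) (nat_lit 0x200000001600090000800040000000000000000000000) (nat_lit 0x0) (nat_lit 0x2000100028000000000002000000000000000000) := T_3 (nat_lit 73) (nat_lit 125) (nat_lit 7) (nat_lit 5) (nat_lit 4) L39857 (by decide +kernel)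
theorem L39907 : W_3 (nat_lit 2) (nat_lit 0x200006001200090000800040000000000000000000000) (nat_lit 0x0) (nat_lit 0x400020001000000000000000000) := D_3 (nat_lit 89) (nat_lit 72) (nat_lit 106) (nat_lit 4) (nat_lit 5) (nat_lit 8) (nat_lit 4) (nat_lit 5) (nat_lit 9) (by decide +kernel)
theorem L39908 : W_3 (nat_lit 3) (nat_lit 0x200006001200090000800000000000000000000000000) (nat_lit 0x0) (nat_lit 0x100000000400060001000000000000000000) := T_3 (nat_lit 90) (nat_lit 140) (nat_lit 5) (nat_lit 5) (nat_lit 5) L39907 (by decide +kernel)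
theorem L39909 : W_3 (nat_lit 4) (nat_lit 0x200004001200090000800000000000000000000000000) (nat_lit 0x0) (nat_lit 0x40002000100000000400060001000000000000000000) := T_3 (nat_lit 157) (nat_lit 174) (nat_lit 5) (nat_lit 5) (nat_lit 6) L39908 (by decide +kernel)
theorem L39951 : W_3 (nat_lit 2) (nat_lit 0x200010001a000d0000000000000000000000000000000) (nat_lit 0x0) (nat_lit 0x28001000000000000000000000000000) := D_3 (nat_lit 125) (nat_lit 123) (nat_lit 108) (nat_lit 3) (nat_lit 4) (nat_lit 7) (nat_lit 4) (nat_lit 7) (nat_lit 10) (by decide +kernel)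
theorem L39952 : W_3 (nat_lit 3) (nat_lit 0x200000001a000d0000000000000000000000000000000) (nat_lit 0x0) (nat_lit 0x4000000010000000028001000000000000000000000000000) := T_3 (nat_lit 160) (nat_lit 194) (nat_lit 6) (nat_lit 7) (nat_lit 11) L39951 (by decide +kernel)
theorem L39997 : W_3 (nat_lit 2) (nat_lit 0x2c0004001300098000800080000000000000000000000) (nat_lit 0x0) (nat_lit 0x40006000000000000000000) := D_3 (nat_lit 90) (nat_lit 73) (nat_lit 74) (nat_lit 5) (nat_lit 5) (nat_lit 4) (nat_lit 6) (nat_lit 5) (nat_lit 8) (by decide +kernel)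
theorem L39998 : W_3 (nat_lit 3) (nat_lit 0x2c0004001300098000800000000000000000000000000) (nat_lit 0x0) (nat_lit 0x10000c0006000000000000000000) := T_3 (nat_lit 91) (nat_lit 108) (nat_lit 6) (nat_lit 5) (nat_lit 9) L39997 (by decide +kernel)
theorem L39999 : W_3 (nat_lit 4) (nat_lit 0x2c0004001200098000800000000000000000000000000) (nat_lit 0x0) (nat_lit 0x10000000000001000000010000c0006000000000000000000) := T_3 (nat_lit 140) (nat_lit 192) (nat_lit 4) (nat_lit 5) (nat_lit 11) L39998 (by decide +kernel)
theorem L40000 : W_3 (nat_lit 5) (nat_lit 0x2c0004001200098000000000000000000000000000000) (nat_lit 0x0) (nat_lit 0x10000000020001000000018000c0006000000000000000000) := T_3 (nat_lit 107) (nat_lit 157) (nat_lit 5) (nat_lit 5) (nat_lit 6) L39999 (by decide +kernel)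
theorem L40001 : W_3 (nat_lit 6) (nat_lit 0x280004001200098000000000000000000000000000000) (nat_lit 0x0) (nat_lit 0x18000400020001000000018000c0006000000000000000000) := T_3 (nat_lit 174) (nat_lit 191) (nat_lit 5) (nat_lit 5) (nat_lit 7) L40000 (by decide +kernel)
theorem L40002 : W_3 (nat_lit 7) (nat_lit 0x280004001200090000000000000000000000000000000) (nat_lit 0x0) (nat_lit 0x1800040002000100008001c000c0006000000000000000000) := T_3 (nat_lit 123) (nat_lit 106) (nat_lit 4) (nat_lit 5) (nat_lit 10) L40001 (by decide +kernel)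
theorem L40012 : W_3 (nat_lit 2) (nat_lit 0x2000000013000b0000800068006000100008000000000) (nat_lit 0x0) (nat_lit 0x80004000200000) := D_3 (nat_lit 38) (nat_lit 21) (nat_lit 55) (nat_lit 4) (nat_lit 5) (nat_lit 5) (nat_lit 4) (nat_lit 5) (nat_lit 6) (by decide +kernel)
theorem L40013 : W_3 (nat_lit 3) (nat_lit 0x2000000013000b0000800068006000100000000000000) (nat_lit 0x0) (nat_lit 0x40000000000008000c000200000) := T_3 (nat_lit 39) (nat_lit 106) (nat_lit 5) (nat_lit 5) (nat_lit 2) L40012 (by decide +kernel)
theorem L40014 : W_3 (nat_lit 4) (nat_lit 0x2000000013000b0000800068006000000000000000000) (nat_lit 0x0) (nat_lit 0x140000000000018000c000200000) := T_3 (nat_lit 56) (nat_lit 108) (nat_lit 7) (nat_lit 5) (nat_lit 3) L40013 (by decide +kernel)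
theorem L40061 : W_3 (nat_lit 2) (nat_lit 0x30000c001e00080000000000000000000000000000000) (nat_lit 0x0) (nat_lit 0x40002000000000000000040000000000000000000000000000000) := D_3 (nat_lit 193) (nat_lit 126) (nat_lit 210) (nat_lit 6) (nat_lit 6) (nat_lit 11) (nat_lit 4) (nat_lit 6) (nat_lit 12) (by decide +kernel)
theorem L40062 : W_3 (nat_lit 3) (nat_lit 0x300008001e00080000000000000000000000000000000) (nat_lit 0x0) (nat_lit 0x40002000000006000000040000000000000000000000000000000) := T_3 (nat_lit 158) (nat_lit 157) (nat_lit 1) (nat_lit 8) (nat_lit 8) L40061 (by decide +kernel)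
theorem L40067 : W_3 (nat_lit 3) (nat_lit 0x20000c001e00080000000000000000000000000000000) (nat_lit 0x0) (nat_lit 0x2000100000000000018000800000000000000000000000000) := T_3 (nat_lit 124) (nat_lit 123) (nat_lit 0) (nat_lit 8) (nat_lit 8) L33150 (by decide +kernel)
theorem L40068 : W_3 (nat_lit 4) (nat_lit 0x200008001e00080000000000000000000000000000000) (nat_lit 0x0) (nat_lit 0x2000100006000000018000800000000000000000000000000) := T_3 (nat_lit 158) (nat_lit 157) (nat_lit 1) (nat_lit 8) (nat_lit 8) L40067 (by decide +kernel)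
theorem L40069 : W_3 (nat_lit 2) (nat_lit 0x20002c001e000b0001800000000000000000000000000) (nat_lit 0x0) (nat_lit 0x40000400020000000000000000000000) := D_3 (nat_lit 106) (nat_lit 126) (nat_lit 89) (nat_lit 0) (nat_lit 8) (nat_lit 7) (nat_lit 4) (nat_lit 5) (nat_lit 9) (by decide +kernel)
theorem L40070 : W_3 (nat_lit 3) (nat_lit 0x20002c001e00090001800000000000000000000000000) (nat_lit 0x0) (nat_lit 0x80000000000060000400020000000000000000000000) := T_3 (nat_lit 125) (nat_lit 175) (nat_lit 6) (nat_lit 5) (nat_lit 10) L40069 (by decide +kernel)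
theorem L40071 : W_3 (nat_lit 4) (nat_lit 0x20002c001e00090000800000000000000000000000000) (nat_lit 0x0) (nat_lit 0x800000000000600014000a0000000000000000000000) := T_3 (nat_lit 108) (nat_lit 91) (nat_lit 6) (nat_lit 5) (nat_lit 9) L40070 (by decide +kernel)
theorem L40072 : W_3 (nat_lit 5) (nat_lit 0x20002c001e00090000000000000000000000000000000) (nat_lit 0x0) (nat_lit 0x80000000000060001c000e0000000000000000000000) := T_3 (nat_lit 107) (nat_lit 90) (nat_lit 7) (nat_lit 5) (nat_lit 5) L40071 (by decide +kernel)
theorem L40148 : W_3 (nat_lit 2) (nat_lit 0x10007000280004001a00098000000000000000000000000000000) (nat_lit 0x0) (nat_lit 0x200020008000000000000000000000000000000000000000000000000) := D_3 (nat_lit 209) (nat_lit 195) (nat_lit 225) (nat_lit 1) (nat_lit 8) (nat_lit 11) (nat_lit 5) (nat_lit 5) (nat_lit 9) (by decide +kernel)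
theorem L40149 : W_3 (nat_lit 3) (nat_lit 0x7000280004001a00098000000000000000000000000000000) (nat_lit 0x0) (nat_lit 0x200030008800000000000000000000000000000000000000000000000) := T_3 (nat_lit 208) (nat_lit 191) (nat_lit 5) (nat_lit 5) (nat_lit 8) L40148 (by decide +kernel)
theorem L40150 : W_3 (nat_lit 4) (nat_lit 0x6000280004001a00098000000000000000000000000000000) (nat_lit 0x0) (nat_lit 0x200070009800000000000000000000000000000000000000000000000) := T_3 (nat_lit 192) (nat_lit 210) (nat_lit 7) (nat_lit 5) (nat_lit 8) L40149 (by decide +kernel)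
theorem L40151 : W_3 (nat_lit 5) (nat_lit 0x2000280004001a00098000000000000000000000000000000) (nat_lit 0x0) (nat_lit 0x20007000d800000010000000000000000000000000000000000000000) := T_3 (nat_lit 194) (nat_lit 160) (nat_lit 6) (nat_lit 7) (nat_lit 11) L40150 (by decide +kernel)
theorem L40188 : W_3 (nat_lit 2) (nat_lit 0x4000200004001a00090003c00000000000000000000000000) (nat_lit 0x0) (nat_lit 0x8000000000000c000000000000000000000000000000) := D_3 (nat_lit 123) (nat_lit 175) (nat_lit 122) (nat_lit 4) (nat_lit 5) (nat_lit 10) (nat_lit 1) (nat_lit 7) (nat_lit 6) (by decide +kernel)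
theorem L40189 : W_3 (nat_lit 3) (nat_lit 0x4000200004001a00090001c00000000000000000000000000) (nat_lit 0x0) (nat_lit 0x8000000000004c002000000000000000000000000000) := T_3 (nat_lit 109) (nat_lit 126) (nat_lit 3) (nat_lit 4) (nat_lit 6) L40188 (by decide +kernel)
theorem L40408 : W_3 (nat_lit 2) (nat_lit 0x300010001a000d0002000080000000000000000000000) (nat_lit 0x0) (nat_lit 0x10000c000000000000000000) := D_3 (nat_lit 92) (nat_lit 75) (nat_lit 74) (nat_lit 7) (nat_lit 7) (nat_lit 4) (nat_lit 4) (nat_lit 7) (nat_lit 8) (by decide +kernel)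
theorem L40409 : W_3 (nat_lit 3) (nat_lit 0x300010001a000d0002000000000000000000000000000) (nat_lit 0x0) (nat_lit 0x100018000c000000000000000000) := T_3 (nat_lit 91) (nat_lit 108) (nat_lit 4) (nat_lit 7) (nat_lit 9) L40408 (by decide +kernel)
theorem L40410 : W_3 (nat_lit 4) (nat_lit 0x300010001a000d0000000000000000000000000000000) (nat_lit 0x0) (nat_lit 0x800000000000300018000c000000000000000000) := T_3 (nat_lit 109) (nat_lit 159) (nat_lit 5) (nat_lit 7) (nat_lit 6) L40409 (by decide +kernel)
theorem L40411 : W_3 (nat_lit 5) (nat_lit 0x200010001a000d0000000000000000000000000000000) (nat_lit 0x0) (nat_lit 0x200010000800000000000300018000c000000000000000000) := T_3 (nat_lit 176) (nat_lit 193) (nat_lit 5) (nat_lit 7) (nat_lit 7) L40410 (by decide +kernel)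
theorem L40412 : W_3 (nat_lit 6) (nat_lit 0x200000001a000d0000000000000000000000000000000) (nat_lit 0x0) (nat_lit 0x600010001800000000000300018000c000000000000000000) := T_3 (nat_lit 160) (nat_lit 194) (nat_lit 6) (nat_lit 7) (nat_lit 11) L40411 (by decide +kernel)
theorem L40413 : W_3 (nat_lit 2) (nat_lit 0x300018001a000d8000000000000000000000000000000) (nat_lit 0x0) (nat_lit 0x6000000000000800000000000000000000000000) := D_3 (nat_lit 158) (nat_lit 157) (nat_lit 107) (nat_lit 2) (nat_lit 4) (nat_lit 9) (nat_lit 7) (nat_lit 5) (nat_lit 6) (by decide +kernel)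
theorem L40414 : W_3 (nat_lit 3) (nat_lit 0x300010001a000d8000000000000000000000000000000) (nat_lit 0x0) (nat_lit 0xe000000000002800000000000000000000000000) := T_3 (nat_lit 159) (nat_lit 109) (nat_lit 5) (nat_lit 7) (nat_lit 6) L40413 (by decide +kernel)
theorem L40415 : W_3 (nat_lit 4) (nat_lit 0x200010001a000d8000000000000000000000000000000) (nat_lit 0x0) (nat_lit 0x200010000e000000000002800000000000000000000000000) := T_3 (nat_lit 176) (nat_lit 193) (nat_lit 5) (nat_lit 7) (nat_lit 7) L40414 (by decide +kernel)
theorem L51318 : W_3 (nat_lit 2) (nat_lit 0x300010001a000c0002000080000000000000000000000) (nat_lit 0x0) (nat_lit 0x10000c000000000000000000) := D_3 (nat_lit 92) (nat_lit 75) (nat_lit 74) (nat_lit 7) (nat_lit 7) (nat_lit 4) (nat_lit 4) (nat_lit 7) (nat_lit 8) (by decide +kernel)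
theorem L51319 : W_3 (nat_lit 3) (nat_lit 0x300010001a000c0002000000000000000000000000000) (nat_lit 0x0) (nat_lit 0x100018000c000000000000000000) := T_3 (nat_lit 91) (nat_lit 108) (nat_lit 4) (nat_lit 7) (nat_lit 9) L51318 (by decide +kernel)
theorem L51320 : W_3 (nat_lit 4) (nat_lit 0x300010001a000c0000000000000000000000000000000) (nat_lit 0x0) (nat_lit 0x800000000000300018000c000000000000000000) := T_3 (nat_lit 109) (nat_lit 159) (nat_lit 5) (nat_lit 7) (nat_lit 6) L51319 (by decide +kernel)
theorem L51321 : W_3 (nat_lit 5) (nat_lit 0x200010001a000c0000000000000000000000000000000) (nat_lit 0x0) (nat_lit 0x200010000800000000000300018000c000000000000000000) := T_3 (nat_lit 176) (nat_lit 193) (nat_lit 5) (nat_lit 7) (nat_lit 7) L51320 (by decide +kernel)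
theorem L51322 : W_3 (nat_lit 2) (nat_lit 0x30001c001a000d0000000000000000000000000000000) (nat_lit 0x0) (nat_lit 0x100028000000000000000000000000000000) := D_3 (nat_lit 125) (nat_lit 123) (nat_lit 140) (nat_lit 3) (nat_lit 4) (nat_lit 7) (nat_lit 1) (nat_lit 8) (nat_lit 7) (by decide +kernel)
theorem L51323 : W_3 (nat_lit 3) (nat_lit 0x30001c001a000c0000000000000000000000000000000) (nat_lit 0x0) (nat_lit 0x100038000800000000000000000000000000) := T_3 (nat_lit 124) (nat_lit 107) (nat_lit 7) (nat_lit 5) (nat_lit 6) L51322 (by decide +kernel)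
theorem L51324 : W_3 (nat_lit 4) (nat_lit 0x300018001a000c0000000000000000000000000000000) (nat_lit 0x0) (nat_lit 0x6000100038000800000000000000000000000000) := T_3 (nat_lit 158) (nat_lit 157) (nat_lit 2) (nat_lit 4) (nat_lit 9) L51323 (by decide +kernel)
theorem L51325 : W_3 (nat_lit 5) (nat_lit 0x300010001a000c0000000000000000000000000000000) (nat_lit 0x0) (nat_lit 0xe000100038002800000000000000000000000000) := T_3 (nat_lit 159) (nat_lit 109) (nat_lit 5) (nat_lit 7) (nat_lit 6) L51324 (by decide +kernel)
theorem L51326 : W_3 (nat_lit 6) (nat_lit 0x200010001a000c0000000000000000000000000000000) (nat_lit 0x0) (nat_lit 0x200010000e000100038002800000000000000000000000000) := T_3 (nat_lit 176) (nat_lit 193) (nat_lit 5) (nat_lit 7) (nat_lit 7) L51325 (by decide +kernel)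
theorem L54601 : W_3 (nat_lit 2) (nat_lit 0x30000b00070002800140012000f0000800000000000000000000000000) (nat_lit 0x0) (nat_lit 0x10000c00000000000000000000000000000000000000000000000000000000) := D_3 (nat_lit 227) (nat_lit 244) (nat_lit 226) (nat_lit 5) (nat_lit 7) (nat_lit 10) (nat_lit 0) (nat_lit 8) (nat_lit 13) (by decide +kernel)
theorem L54602 : W_3 (nat_lit 3) (nat_lit 0x20000b00070002800140012000f0000800000000000000000000000000) (nat_lit 0x0) (nat_lit 0x50001c00000000000000000000000000000000000000000000000000000000) := T_3 (nat_lit 228) (nat_lit 246) (nat_lit 7) (nat_lit 7) (nat_lit 10) L54601 (by decide +kernel)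
theorem L54603 : W_3 (nat_lit 4) (nat_lit 0xb00070002800140012000f0000800000000000000000000000000) (nat_lit 0x0) (nat_lit 0x50003c00100000000000000000000000000000000000000000000000000000) := T_3 (nat_lit 229) (nat_lit 212) (nat_lit 7) (nat_lit 7) (nat_lit 9) L54602 (by decide +kernel)
theorem L54604 : W_3 (nat_lit 5) (nat_lit 0x300070002800140012000f0000800000000000000000000000000) (nat_lit 0x0) (nat_lit 0x50003c00180000000000020000000000000000000000000000000000000000) := T_3 (nat_lit 211) (nat_lit 161) (nat_lit 6) (nat_lit 7) (nat_lit 12) L54603 (by decide +kernel)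
theorem L55393 : W_3 (nat_lit 2) (nat_lit 0x2000018013c0098000400000000000000000000000000) (nat_lit 0x0) (nat_lit 0x400020002000000000000000000000000000000000000000) := D_3 (nat_lit 173) (nat_lit 190) (nat_lit 157) (nat_lit 6) (nat_lit 3) (nat_lit 11) (nat_lit 5) (nat_lit 4) (nat_lit 6) (by decide +kernel)
theorem L55394 : W_3 (nat_lit 3) (nat_lit 0x2000018013c0098000000000000000000000000000000) (nat_lit 0x0) (nat_lit 0x400020002000000000000400020000000000000000000000) := T_3 (nat_lit 106) (nat_lit 89) (nat_lit 5) (nat_lit 4) (nat_lit 5) L55393 (by decide +kernel)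
theorem L55395 : W_3 (nat_lit 4) (nat_lit 0x2000008013c0098000000000000000000000000000000) (nat_lit 0x0) (nat_lit 0x400020003000400000000400020000000000000000000000) := T_3 (nat_lit 156) (nat_lit 142) (nat_lit 1) (nat_lit 6) (nat_lit 8) L55394 (by decide +kernel)
theorem L56281 : W_3 (nat_lit 2) (nat_lit 0x2000000017000900018000c0002000080000000000000) (nat_lit 0x0) (nat_lit 0x10000c000000000) := D_3 (nat_lit 56) (nat_lit 38) (nat_lit 39) (nat_lit 4) (nat_lit 5) (nat_lit 6) (nat_lit 7) (nat_lit 5) (nat_lit 2) (by decide +kernel)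
theorem L56282 : W_3 (nat_lit 3) (nat_lit 0x2000000017000900008000c0002000080000000000000) (nat_lit 0x0) (nat_lit 0x400000000000100000000000010000c000000000) := T_3 (nat_lit 108) (nat_lit 158) (nat_lit 6) (nat_lit 5) (nat_lit 9) L56281 (by decide +kernel)
theorem L56283 : W_3 (nat_lit 4) (nat_lit 0x2000000017000900008000c0002000000000000000000) (nat_lit 0x0) (nat_lit 0x400000000000100000000100018000c000000000) := T_3 (nat_lit 55) (nat_lit 72) (nat_lit 4) (nat_lit 5) (nat_lit 7) L56282 (by decide +kernel)
theorem L56284 : W_3 (nat_lit 5) (nat_lit 0x2000000017000900008000c0000000000000000000000) (nat_lit 0x0) (nat_lit 0x400000000800100000000300018000c000000000) := T_3 (nat_lit 73) (nat_lit 123) (nat_lit 5) (nat_lit 5) (nat_lit 4) L56283 (by decide +kernel)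
theorem L56672 : W_3 (nat_lit 2) (nat_lit 0x240002001300090000000000000000000000000000000) (nat_lit 0x0) (nat_lit 0x8000800040000000000000000000000) := D_3 (nat_lit 107) (nat_lit 90) (nat_lit 123) (nat_lit 5) (nat_lit 5) (nat_lit 5) (nat_lit 6) (nat_lit 4) (nat_lit 10) (by decide +kernel)
theorem L56673 : W_3 (nat_lit 3) (nat_lit 0x200002001300090000000000000000000000000000000) (nat_lit 0x0) (nat_lit 0x800040000000000008000800040000000000000000000000) := T_3 (nat_lit 174) (nat_lit 191) (nat_lit 6) (nat_lit 4) (nat_lit 11) L56672 (by decide +kernel)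
theorem L57034 : W_3 (nat_lit 2) (nat_lit 0x2600020013000d8000400010000000000000000000000) (nat_lit 0x0) (nat_lit 0x20001800000000000000000) := D_3 (nat_lit 89) (nat_lit 72) (nat_lit 71) (nat_lit 7) (nat_lit 4) (nat_lit 4) (nat_lit 4) (nat_lit 4) (nat_lit 8) (by decide +kernel)
theorem L57035 : W_3 (nat_lit 3) (nat_lit 0x2600020013000d8000400000000000000000000000000) (nat_lit 0x0) (nat_lit 0x200030001800000000000000000) := T_3 (nat_lit 88) (nat_lit 105) (nat_lit 4) (nat_lit 4) (nat_lit 9) L57034 (by decide +kernel)
theorem L57036 : W_3 (nat_lit 4) (nat_lit 0x2600020013000d8000000000000000000000000000000) (nat_lit 0x0) (nat_lit 0x1000000000000600030001800000000000000000) := T_3 (nat_lit 106) (nat_lit 156) (nat_lit 5) (nat_lit 4) (nat_lit 6) L57035 (by decide +kernel)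
theorem L57037 : W_3 (nat_lit 5) (nat_lit 0x2400020013000d8000000000000000000000000000000) (nat_lit 0x0) (nat_lit 0x400020001000000000000600030001800000000000000000) := T_3 (nat_lit 173) (nat_lit 190) (nat_lit 5) (nat_lit 4) (nat_lit 7) L57036 (by decide +kernel)
theorem L57106 : W_3 (nat_lit 2) (nat_lit 0x2000020013000d0000800000000000000000000000000) (nat_lit 0x0) (nat_lit 0x40004000000008000000000000000000000000000000) := D_3 (nat_lit 174) (nat_lit 158) (nat_lit 123) (nat_lit 5) (nat_lit 5) (nat_lit 6) (nat_lit 6) (nat_lit 4) (nat_lit 10) (by decide +kernel)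
theorem L57107 : W_3 (nat_lit 3) (nat_lit 0x2000020013000d0000000000000000000000000000000) (nat_lit 0x0) (nat_lit 0x40004000000008000800040000000000000000000000) := T_3 (nat_lit 107) (nat_lit 90) (nat_lit 5) (nat_lit 5) (nat_lit 5) L57106 (by decide +kernel)
theorem L57108 : W_3 (nat_lit 4) (nat_lit 0x200002001300090000000000000000000000000000000) (nat_lit 0x0) (nat_lit 0x40004000000068000800040000000000000000000000) := T_3 (nat_lit 126) (nat_lit 125) (nat_lit 1) (nat_lit 8) (nat_lit 7) L57107 (by decide +kernel)
theorem L57227 : W_3 (nat_lit 6) (nat_lit 0x2000020013000d8000000000000000000000000000000) (nat_lit 0x0) (nat_lit 0xc00060001000000000000600030001800000000000000000) := T_3 (nat_lit 174) (nat_lit 191) (nat_lit 6) (nat_lit 4) (nat_lit 11) L57037 (by decide +kernel)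
theorem L57228 : W_3 (nat_lit 7) (nat_lit 0x200002001300098000000000000000000000000000000) (nat_lit 0x0) (nat_lit 0xc00060001000000060000600030001800000000000000000) := T_3 (nat_lit 126) (nat_lit 125) (nat_lit 1) (nat_lit 8) (nat_lit 7) L57227 (by decide +kernel)
theorem L57279 : W_3 (nat_lit 2) (nat_lit 0x260002001300098000400000000000000000000000000) (nat_lit 0x0) (nat_lit 0x4000200010000000000000000000000) := D_3 (nat_lit 105) (nat_lit 88) (nat_lit 122) (nat_lit 4) (nat_lit 4) (nat_lit 9) (nat_lit 4) (nat_lit 4) (nat_lit 10) (by decide +kernel)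
theorem L57280 : W_3 (nat_lit 3) (nat_lit 0x260002001300098000000000000000000000000000000) (nat_lit 0x0) (nat_lit 0x1000000004000600010000000000000000000000) := T_3 (nat_lit 106) (nat_lit 156) (nat_lit 5) (nat_lit 4) (nat_lit 6) L57279 (by decide +kernel)
theorem L57281 : W_3 (nat_lit 4) (nat_lit 0x240002001300098000000000000000000000000000000) (nat_lit 0x0) (nat_lit 0x400020001000000004000600010000000000000000000000) := T_3 (nat_lit 173) (nat_lit 190) (nat_lit 5) (nat_lit 4) (nat_lit 7) L57280 (by decide +kernel)
theorem L57282 : W_3 (nat_lit 5) (nat_lit 0x200002001300098000000000000000000000000000000) (nat_lit 0x0) (nat_lit 0xc00060001000000004000600010000000000000000000000) := T_3 (nat_lit 174) (nat_lit 191) (nat_lit 6) (nat_lit 4) (nat_lit 11) L57281 (by decide +kernel)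
theorem L57367 : W_3 (nat_lit 2) (nat_lit 0x240002001300090000000000000000000000000000000) (nat_lit 0x0) (nat_lit 0x4000000000000800040000000000000000000000) := D_3 (nat_lit 107) (nat_lit 90) (nat_lit 158) (nat_lit 5) (nat_lit 5) (nat_lit 5) (nat_lit 5) (nat_lit 5) (nat_lit 6) (by decide +kernel)
theorem L58044 : W_3 (nat_lit 2) (nat_lit 0x200000001300098000800000000000000000000000000) (nat_lit 0x0) (nat_lit 0x40002000000000000000040000000000000000000000) := D_3 (nat_lit 157) (nat_lit 174) (nat_lit 90) (nat_lit 6) (nat_lit 4) (nat_lit 10) (nat_lit 5) (nat_lit 5) (nat_lit 5) (by decide +kernel)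
theorem L58204 : W_3 (nat_lit 2) (nat_lit 0x200002001300098000000000000000000000000000000) (nat_lit 0x0) (nat_lit 0x800040000000000000000800000000000000000000000000) := D_3 (nat_lit 174) (nat_lit 191) (nat_lit 107) (nat_lit 6) (nat_lit 4) (nat_lit 11) (nat_lit 6) (nat_lit 4) (nat_lit 10) (by decide +kernel)
theorem L58224 : W_3 (nat_lit 2) (nat_lit 0x2000020013000b8000c00000000000000000000000000) (nat_lit 0x0) (nat_lit 0x300010000000000000000000000) := D_3 (nat_lit 105) (nat_lit 104) (nat_lit 88) (nat_lit 3) (nat_lit 2) (nat_lit 6) (nat_lit 4) (nat_lit 4) (nat_lit 9) (by decide +kernel)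
theorem L58538 : W_3 (nat_lit 2) (nat_lit 0x2000000013000900018000c0002000080000000000000) (nat_lit 0x0) (nat_lit 0x10000c000000000) := D_3 (nat_lit 56) (nat_lit 38) (nat_lit 39) (nat_lit 4) (nat_lit 5) (nat_lit 6) (nat_lit 7) (nat_lit 5) (nat_lit 2) (by decide +kernel)
theorem L58539 : W_3 (nat_lit 3) (nat_lit 0x2000000013000900008000c0002000080000000000000) (nat_lit 0x0) (nat_lit 0x400000000000100000000000010000c000000000) := T_3 (nat_lit 108) (nat_lit 158) (nat_lit 6) (nat_lit 5) (nat_lit 9) L58538 (by decide +kernel)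
theorem L58540 : W_3 (nat_lit 4) (nat_lit 0x2000000013000900008000c0002000000000000000000) (nat_lit 0x0) (nat_lit 0x400000000000100000000100018000c000000000) := T_3 (nat_lit 55) (nat_lit 72) (nat_lit 4) (nat_lit 5) (nat_lit 7) L58539 (by decide +kernel)
theorem L58541 : W_3 (nat_lit 5) (nat_lit 0x2000000013000900008000c0000000000000000000000) (nat_lit 0x0) (nat_lit 0x400000000800100000000300018000c000000000) := T_3 (nat_lit 73) (nat_lit 123) (nat_lit 5) (nat_lit 5) (nat_lit 4) L58540 (by decide +kernel)
theorem L58543 : W_3 (nat_lit 2) (nat_lit 0x2000040013000980008000c0000000000000000000000) (nat_lit 0x0) (nat_lit 0x1000080000000000000000400000000000000000000000000) := D_3 (nat_lit 175) (nat_lit 192) (nat_lit 106) (nat_lit 4) (nat_lit 5) (nat_lit 11) (nat_lit 4) (nat_lit 5) (nat_lit 10) (by decide +kernel)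
theorem L58544 : W_3 (nat_lit 3) (nat_lit 0x2000000013000980008000c0000000000000000000000) (nat_lit 0x0) (nat_lit 0x1000080004000000000001400000000000000000000000000) := T_3 (nat_lit 158) (nat_lit 108) (nat_lit 6) (nat_lit 5) (nat_lit 9) L58543 (by decide +kernel)
theorem L58545 : W_3 (nat_lit 4) (nat_lit 0x2000000013000900008000c0000000000000000000000) (nat_lit 0x0) (nat_lit 0x1000080004000000008001400000002000000000000000000) := T_3 (nat_lit 123) (nat_lit 73) (nat_lit 5) (nat_lit 5) (nat_lit 4) L58544 (by decide +kernel)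
theorem L58593 : W_3 (nat_lit 2) (nat_lit 0x2000000013000d0001c000c0000000000000000000000) (nat_lit 0x0) (nat_lit 0x300100000000000000000000000) := D_3 (nat_lit 105) (nat_lit 92) (nat_lit 104) (nat_lit 2) (nat_lit 3) (nat_lit 6) (nat_lit 2) (nat_lit 2) (nat_lit 6) (by decide +kernel)
theorem L58594 : W_3 (nat_lit 3) (nat_lit 0x2000000013000d00018000c0000000000000000000000) (nat_lit 0x0) (nat_lit 0x2700100000000000000000000000) := T_3 (nat_lit 106) (nat_lit 109) (nat_lit 3) (nat_lit 4) (nat_lit 6) L58593 (by decide +kernel)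
theorem L58595 : W_3 (nat_lit 4) (nat_lit 0x2000000013000d00008000c0000000000000000000000) (nat_lit 0x0) (nat_lit 0x4000000000003700100000000000000000000000) := T_3 (nat_lit 108) (nat_lit 158) (nat_lit 6) (nat_lit 5) (nat_lit 9) L58594 (by decide +kernel)
theorem L58596 : W_3 (nat_lit 5) (nat_lit 0x2000000013000900008000c0000000000000000000000) (nat_lit 0x0) (nat_lit 0x4000000060003700100000000000000000000000) := T_3 (nat_lit 126) (nat_lit 125) (nat_lit 1) (nat_lit 8) (nat_lit 7) L58595 (by decide +kernel)
theorem L58652 : W_3 (nat_lit 2) (nat_lit 0x200000001300098000c00070000000000000000000000) (nat_lit 0x0) (nat_lit 0x100000c000000000000000000000) := D_3 (nat_lit 87) (nat_lit 108) (nat_lit 86) (nat_lit 3) (nat_lit 2) (nat_lit 5) (nat_lit 3) (nat_lit 1) (nat_lit 5) (by decide +kernel)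
theorem L58653 : W_3 (nat_lit 3) (nat_lit 0x200000001300098000c00060000000000000000000000) (nat_lit 0x0) (nat_lit 0x100001c000800000000000000000) := T_3 (nat_lit 88) (nat_lit 71) (nat_lit 4) (nat_lit 4) (nat_lit 8) L58652 (by decide +kernel)
theorem L58654 : W_3 (nat_lit 4) (nat_lit 0x200000001300098000800060000000000000000000000) (nat_lit 0x0) (nat_lit 0x400000000000140001c000800000000000000000) := T_3 (nat_lit 106) (nat_lit 158) (nat_lit 7) (nat_lit 4) (nat_lit 5) L58653 (by decide +kernel)
theorem L58674 : W_3 (nat_lit 2) (nat_lit 0x2000000013800bc000200030000000000000000000000) (nat_lit 0x0) (nat_lit 0x5000000000000400000000000000000000000000) := D_3 (nat_lit 106) (nat_lit 156) (nat_lit 158) (nat_lit 6) (nat_lit 3) (nat_lit 9) (nat_lit 7) (nat_lit 4) (nat_lit 5) (by decide +kernel)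
theorem L58675 : W_3 (nat_lit 3) (nat_lit 0x2000000013800bc000200010000000000000000000000) (nat_lit 0x0) (nat_lit 0x5000000000000400020001000000000000000000) := T_3 (nat_lit 89) (nat_lit 72) (nat_lit 6) (nat_lit 3) (nat_lit 8) L58674 (by decide +kernel)
theorem L58676 : W_3 (nat_lit 4) (nat_lit 0x2000000013800bc000200000000000000000000000000) (nat_lit 0x0) (nat_lit 0x5000000000000400030001800000000000000000) := T_3 (nat_lit 88) (nat_lit 71) (nat_lit 7) (nat_lit 3) (nat_lit 4) L58675 (by decide +kernel)
theorem L58677 : W_3 (nat_lit 5) (nat_lit 0x2000000013800bc000000000000000000000000000000) (nat_lit 0x0) (nat_lit 0x5000000000000700030001800000000000000000) := T_3 (nat_lit 105) (nat_lit 104) (nat_lit 0) (nat_lit 6) (nat_lit 7) L58676 (by decide +kernel)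
theorem L59796 : W_3 (nat_lit 3) (nat_lit 0x4000200000001e00080000000000000000000000000000000) (nat_lit 0x0) (nat_lit 0x10005c000000000000000000000000000000) := T_3 (nat_lit 140) (nat_lit 126) (nat_lit 2) (nat_lit 4) (nat_lit 8) L38105 (by decide +kernel)
theorem L59797 : W_3 (nat_lit 4) (nat_lit 0x4000200000001a00080000000000000000000000000000000) (nat_lit 0x0) (nat_lit 0x50015c000000000000000000000000000000) := T_3 (nat_lit 142) (nat_lit 128) (nat_lit 2) (nat_lit 5) (nat_lit 8) L59796 (by decide +kernel)
theorem L59798 : W_3 (nat_lit 5) (nat_lit 0x200000001a00080000000000000000000000000000000) (nat_lit 0x0) (nat_lit 0x400000001000050015c000000000000000000000000000000) := T_3 (nat_lit 194) (nat_lit 160) (nat_lit 6) (nat_lit 7) (nat_lit 11) L59797 (by decide +kernel)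
theorem L59799 : W_3 (nat_lit 2) (nat_lit 0x4000200000001a003e0010800000000000000000000000000) (nat_lit 0x0) (nat_lit 0x18000400000000000000000000000000) := D_3 (nat_lit 124) (nat_lit 123) (nat_lit 106) (nat_lit 3) (nat_lit 4) (nat_lit 7) (nat_lit 0) (nat_lit 8) (nat_lit 7) (by decide +kernel)
theorem L59800 : W_3 (nat_lit 3) (nat_lit 0x4000200000001a003e0010000000000000000000000000000) (nat_lit 0x0) (nat_lit 0x18001c00000000000000000000000000) := T_3 (nat_lit 107) (nat_lit 108) (nat_lit 0) (nat_lit 9) (nat_lit 7) L59799 (by decide +kernel)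
theorem L59801 : W_3 (nat_lit 4) (nat_lit 0x4000200000001a003c0010000000000000000000000000000) (nat_lit 0x0) (nat_lit 0x38009c00000000000000000000000000) := T_3 (nat_lit 125) (nat_lit 111) (nat_lit 2) (nat_lit 6) (nat_lit 7) L59800 (by decide +kernel)
theorem L59802 : W_3 (nat_lit 5) (nat_lit 0x4000200000001a003c0000000000000000000000000000000) (nat_lit 0x0) (nat_lit 0x38039c00000000000000000000000000) := T_3 (nat_lit 112) (nat_lit 113) (nat_lit 2) (nat_lit 7) (nat_lit 7) L59801 (by decide +kernel)
theorem L59803 : W_3 (nat_lit 6) (nat_lit 0x4000200000001a001c0000000000000000000000000000000) (nat_lit 0x0) (nat_lit 0x638039c00000000000000000000000000) := T_3 (nat_lit 129) (nat_lit 130) (nat_lit 1) (nat_lit 11) (nat_lit 7) L59802 (by decide +kernel)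
theorem L59804 : W_3 (nat_lit 7) (nat_lit 0x4000200000001a000c0000000000000000000000000000000) (nat_lit 0x0) (nat_lit 0x400738039c00000000000000000000000000) := T_3 (nat_lit 128) (nat_lit 142) (nat_lit 2) (nat_lit 5) (nat_lit 8) L59803 (by decide +kernel)
theorem L59805 : W_3 (nat_lit 8) (nat_lit 0x200000001a000c0000000000000000000000000000000) (nat_lit 0x0) (nat_lit 0x4000000010000400738039c00000000000000000000000000) := T_3 (nat_lit 194) (nat_lit 160) (nat_lit 6) (nat_lit 7) (nat_lit 11) L59804 (by decide +kernel)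
theorem L59806 : W_3 (nat_lit 9) (nat_lit 0x200000001a00080000000000000000000000000000000) (nat_lit 0x0) (nat_lit 0x600010003800040077803bc00100008000000000000000000) := Q_3 (nat_lit 126) (C_3 L31890 (C_3 L31891 (C_3 L59805 N_3))) (by decide +kernel)
theorem L59811 : W_3 (nat_lit 5) (nat_lit 0x200000001a00080000000000000000000000000000000) (nat_lit 0x0) (nat_lit 0x4000000070000500118000000000000000000000000000000) := T_3 (nat_lit 142) (nat_lit 128) (nat_lit 2) (nat_lit 5) (nat_lit 8) L59810 (by decide +kernel)
theorem L60835 : W_3 (nat_lit 2) (nat_lit 0x200000001200090000c00020000000000000000000000) (nat_lit 0x0) (nat_lit 0x40001000080000000000000) := D_3 (nat_lit 72) (nat_lit 90) (nat_lit 55) (nat_lit 4) (nat_lit 5) (nat_lit 8) (nat_lit 7) (nat_lit 4) (nat_lit 3) (by decide +kernel)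
theorem L60836 : W_3 (nat_lit 3) (nat_lit 0x200000001200090000c00000000000000000000000000) (nat_lit 0x0) (nat_lit 0x4000000000000000060001000080000000000000) := T_3 (nat_lit 89) (nat_lit 158) (nat_lit 4) (nat_lit 5) (nat_lit 9) L60835 (by decide +kernel)
theorem L60859 : W_3 (nat_lit 2) (nat_lit 0x2000040012000900008000e0000000000000000000000) (nat_lit 0x0) (nat_lit 0x40002000100000000000000000000000000000000000) := D_3 (nat_lit 157) (nat_lit 140) (nat_lit 174) (nat_lit 5) (nat_lit 5) (nat_lit 5) (nat_lit 5) (nat_lit 5) (nat_lit 6) (by decide +kernel)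
theorem L60860 : W_3 (nat_lit 3) (nat_lit 0x2000000012000900008000e0000000000000000000000) (nat_lit 0x0) (nat_lit 0x40006000100000000400000000000000000000000000) := T_3 (nat_lit 158) (nat_lit 106) (nat_lit 4) (nat_lit 5) (nat_lit 9) L60859 (by decide +kernel)
theorem L60861 : W_3 (nat_lit 4) (nat_lit 0x200000001200090000800060000000000000000000000) (nat_lit 0x0) (nat_lit 0x40006000100000000400080004000000000000000000) := T_3 (nat_lit 91) (nat_lit 74) (nat_lit 6) (nat_lit 5) (nat_lit 8) L60860 (by decide +kernel)
theorem L60862 : W_3 (nat_lit 5) (nat_lit 0x200000001200090000800040000000000000000000000) (nat_lit 0x0) (nat_lit 0x400060001000000004000a0005000000000000000000) := T_3 (nat_lit 89) (nat_lit 72) (nat_lit 4) (nat_lit 5) (nat_lit 8) L60861 (by decide +kernel)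
theorem L61577 : W_3 (nat_lit 2) (nat_lit 0x2000000016000e00010000d000c000200010000000000) (nat_lit 0x0) (nat_lit 0x100008000400000) := D_3 (nat_lit 39) (nat_lit 22) (nat_lit 56) (nat_lit 4) (nat_lit 6) (nat_lit 5) (nat_lit 4) (nat_lit 6) (nat_lit 6) (by decide +kernel)
theorem L61578 : W_3 (nat_lit 3) (nat_lit 0x2000000016000e00010000d000c000200000000000000) (nat_lit 0x0) (nat_lit 0x800000000000100018000400000) := T_3 (nat_lit 40) (nat_lit 107) (nat_lit 5) (nat_lit 6) (nat_lit 2) L61577 (by decide +kernel)
theorem L61579 : W_3 (nat_lit 4) (nat_lit 0x2000000016000e00010000d000c000000000000000000) (nat_lit 0x0) (nat_lit 0x2800000000000300018000400000) := T_3 (nat_lit 57) (nat_lit 109) (nat_lit 7) (nat_lit 6) (nat_lit 3) L61578 (by decide +kernel)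
theorem L61580 : W_3 (nat_lit 5) (nat_lit 0x2000000016000e00010000c000c000000000000000000) (nat_lit 0x0) (nat_lit 0x2800030000000300018000400000) := T_3 (nat_lit 88) (nat_lit 89) (nat_lit 2) (nat_lit 3) (nat_lit 5) L61579 (by decide +kernel)
theorem L61581 : W_3 (nat_lit 6) (nat_lit 0x2000000016000e00010000c0008000000000000000000) (nat_lit 0x0) (nat_lit 0x2800030004000700018000400000) := T_3 (nat_lit 74) (nat_lit 58) (nat_lit 6) (nat_lit 6) (nat_lit 7) L61580 (by decide +kernel)
theorem L61582 : W_3 (nat_lit 7) (nat_lit 0x2000000016000a00010000c0008000000000000000000) (nat_lit 0x0) (nat_lit 0x140002800030004000700018000400000) := T_3 (nat_lit 126) (nat_lit 128) (nat_lit 1) (nat_lit 9) (nat_lit 7) L61581 (by decide +kernel)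
theorem L61583 : W_3 (nat_lit 8) (nat_lit 0x2000000016000a00010000c0000000000000000000000) (nat_lit 0x0) (nat_lit 0x14000280013000c000700018000400000) := T_3 (nat_lit 75) (nat_lit 92) (nat_lit 6) (nat_lit 6) (nat_lit 8) L61582 (by decide +kernel)
theorem L61584 : W_3 (nat_lit 9) (nat_lit 0x2000000016000a0001000080000000000000000000000) (nat_lit 0x0) (nat_lit 0x14000280017000e000700018000400000) := T_3 (nat_lit 90) (nat_lit 73) (nat_lit 4) (nat_lit 6) (nat_lit 8) L61583 (by decide +kernel)
theorem L61585 : W_3 (nat_lit 10) (nat_lit 0x2000000016000a0001000000000000000000000000000) (nat_lit 0x0) (nat_lit 0x40000001400028001f000e000700018000400000) := T_3 (nat_lit 91) (nat_lit 158) (nat_lit 5) (nat_lit 6) (nat_lit 5) L61584 (by decide +kernel)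
theorem L61605 : W_3 (nat_lit 2) (nat_lit 0x2000080016000a0003000000000000000000000000000) (nat_lit 0x0) (nat_lit 0x100000000000140000000000000000000000000000000) := D_3 (nat_lit 126) (nat_lit 128) (nat_lit 176) (nat_lit 1) (nat_lit 9) (nat_lit 7) (nat_lit 6) (nat_lit 6) (nat_lit 10) (by decide +kernel)
theorem L61606 : W_3 (nat_lit 3) (nat_lit 0x2000080016000a0001000000000000000000000000000) (nat_lit 0x0) (nat_lit 0x100000000000140002000100000000000000000000000) := T_3 (nat_lit 109) (nat_lit 92) (nat_lit 6) (nat_lit 6) (nat_lit 9) L61605 (by decide +kernel)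
theorem L61616 : W_3 (nat_lit 2) (nat_lit 0x2000000016000900008000e0000000000000000000000) (nat_lit 0x0) (nat_lit 0x4000000000001400000000000000000000000000) := D_3 (nat_lit 158) (nat_lit 108) (nat_lit 106) (nat_lit 6) (nat_lit 5) (nat_lit 9) (nat_lit 4) (nat_lit 5) (nat_lit 9) (by decide +kernel)
theorem L61617 : W_3 (nat_lit 3) (nat_lit 0x2000000016000900008000c0000000000000000000000) (nat_lit 0x0) (nat_lit 0x4000000000001400020001000000000000000000) := T_3 (nat_lit 89) (nat_lit 72) (nat_lit 4) (nat_lit 5) (nat_lit 8) L61616 (by decide +kernel)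
theorem L61618 : W_3 (nat_lit 4) (nat_lit 0x200000001600090000800040000000000000000000000) (nat_lit 0x0) (nat_lit 0x40000000000014000a0005000000000000000000) := T_3 (nat_lit 91) (nat_lit 74) (nat_lit 6) (nat_lit 5) (nat_lit 8) L61617 (by decide +kernel)
theorem L61619 : W_3 (nat_lit 5) (nat_lit 0x200000001600090000800000000000000000000000000) (nat_lit 0x0) (nat_lit 0xc0000000000014000e0005000000000000000000) := T_3 (nat_lit 90) (nat_lit 159) (nat_lit 7) (nat_lit 5) (nat_lit 5) L61618 (by decide +kernel)
theorem L61650 : W_3 (nat_lit 2) (nat_lit 0x200000001600090000800040002000000000000000000) (nat_lit 0x0) (nat_lit 0x20001000080000000000000) := D_3 (nat_lit 72) (nat_lit 89) (nat_lit 55) (nat_lit 4) (nat_lit 5) (nat_lit 8) (nat_lit 4) (nat_lit 5) (nat_lit 7) (by decide +kernel)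
theorem L61651 : W_3 (nat_lit 3) (nat_lit 0x200000001600090000800040000000000000000000000) (nat_lit 0x0) (nat_lit 0x20000000020003000080000000000000) := T_3 (nat_lit 73) (nat_lit 125) (nat_lit 7) (nat_lit 5) (nat_lit 4) L61650 (by decide +kernel)
theorem L61652 : W_3 (nat_lit 4) (nat_lit 0x200000001600090000800000000000000000000000000) (nat_lit 0x0) (nat_lit 0x8000000020000000060003000080000000000000) := T_3 (nat_lit 90) (nat_lit 159) (nat_lit 7) (nat_lit 5) (nat_lit 5) L61651 (by decide +kernel)
theorem L62608 : W_3 (nat_lit 2) (nat_lit 0x2000080016000a0001000000000000000000000000000) (nat_lit 0x0) (nat_lit 0x80004000000000000000080000000000000000000000) := D_3 (nat_lit 158) (nat_lit 91) (nat_lit 175) (nat_lit 5) (nat_lit 6) (nat_lit 5) (nat_lit 5) (nat_lit 6) (nat_lit 6) (by decide +kernel)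
theorem L62618 : W_3 (nat_lit 3) (nat_lit 0x2000000016000a0001000000000000000000000000000) (nat_lit 0x0) (nat_lit 0x8001c000000000000000080000000000000000000000) := T_3 (nat_lit 159) (nat_lit 160) (nat_lit 7) (nat_lit 6) (nat_lit 6) L62608 (by decide +kernel)
end Crest.Agent.Helper32.Snaky.R1_0
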