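import Crest.Agent.Helper32.Snaky.Gen.R1_0_p29
set_option autoImplicit false
set_option maxRecDepth 100000
set_option linter.all false
set_option Elab.async false
namespace Crest.Agent.Helper32.Snaky.R1_0
@[reducible] def W_30 (d M Bz Z : Nat) : Prop := Crest.Agent.Helper32.Snaky.Wins (nat_lit 17) d M Bz Z
theorem D_30 {d M Bz Z : Nat} (m t1 t2 o1 x1 y1 o2 x2 y2 : Nat) (h : Crest.Agent.Helper32.Snaky.chkDoubleC (nat_lit 17) d M Bz Z m t1 t2 o1 x1 y1 o2 x2 y2 = true) : W_30 d M Bz Z := Crest.Agent.Helper32.Snaky.doubleC m t1 t2 o1 x1 y1 o2 x2 y2 h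
theorem T_30 {d M Bz Z cd cM cBz cZ : Nat} (m t o x y : Nat) (child : W_30 cd cM cBz cZ) (h : Crest.Agent.Helper32.Snaky.chkThreatC (nat_lit 17) d M Bz Z cd cM cBz cZ m t o x y = true) : W_30 d M Bz Z := Crest.Agent.Helper32.Snaky.threatC m t o x y child h
theorem Q_30 {d M Bz Z : Nat} (m : Nat) {l : List Crest.Agent.Helper32.Snaky.Spec} (kids : Crest.Agent.Helper32.Snaky.AllWins (nat_lit 17) l) (h : Crest.Agent.Helper32.Snaky.chkQuiet d M Bz Z m l = true) : W_30 d M Bz Z := Crest.Agent.Helper32.Snaky.quiet m kids h
theorem C_30 {cd cM cBz cZ : Nat} {l : List Crest.Agent.Helper32.Snaky.Spec} (h : W_30 cd cM cBz cZ) (hl : Crest.Agent.Helper32.Snaky.AllWins (nat_lit 17) l) : Crest.Agent.Helper32.Snaky.AllWins (nat_lit 17) ((cd, cM, cBz, cZ) :: l) := Crest.Agent.Helper32.Snaky.AllWins.cons h hl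
theorem N_30 : Crest.Agent.Helper32.Snaky.AllWins (nat_lit 17) [] := Crest.Agent.Helper32.Snaky.AllWins.nil
theorem L89952 : W_30 (nat_lit 5) (nat_lit 0x90000c0004000380000001000080000000000000000000000000000000) (nat_lit 0x0) (nat_lit 0x9c00440007000000000000000000000000000000000000000) := T_30 (nat_lit 174) (nat_lit 195) (nat_lit 3) (nat_lit 4) (nat_lit 10) L89951 (by decide +kernel)
theorem L89953 : W_30 (nat_lit 5) (nat_lit 0x98000c0004000380000001000080000000000000000000000000000000) (nat_lit 0x0) (nat_lit 0x8000700100002000060004000000000000000000000000000000000000000) := T_30 (nat_lit 193) (nat_lit 158) (nat_lit 4) (nat_lit 6) (nat_lit 13) L89945 (by decide +kernel)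
theorem L89954 : W_30 (nat_lit 6) (nat_lit 0x90000c0004000380000001000080000000000000000000000000000000) (nat_lit 0x0) (nat_lit 0x18000f00100002000060004000000000000000000000000000000000000000) := T_30 (nat_lit 227) (nat_lit 244) (nat_lit 5) (nat_lit 7) (nat_lit 10) L89953 (by decide +kernel)
theorem L89955 : W_30 (nat_lit 2) (nat_lit 0x9c000c0016000380000001000080000000000000000000000000000000) (nat_lit 0x0) (nat_lit 0x300100000000000000000000000000000000000000000000000000000) := D_30 (nat_lit 225) (nat_lit 212) (nat_lit 224) (nat_lit 2) (nat_lit 4) (nat_lit 13) (nat_lit 2) (nat_lit 3) (nat_lit 13) (by decide +kernel)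
theorem L89956 : W_30 (nat_lit 3) (nat_lit 0x98000c0016000380000001000080000000000000000000000000000000) (nat_lit 0x0) (nat_lit 0x8000700100000000000000000000000000000000000000000000000000000) := T_30 (nat_lit 226) (nat_lit 243) (nat_lit 5) (nat_lit 6) (nat_lit 10) L89955 (by decide +kernel)
theorem L89957 : W_30 (nat_lit 4) (nat_lit 0x98000c0006000380000001000080000000000000000000000000000000) (nat_lit 0x0) (nat_lit 0x8000700100018000000000000000000000000000000000000000000000000) := T_30 (nat_lit 196) (nat_lit 195) (nat_lit 0) (nat_lit 9) (nat_lit 11) L89956 (by decide +kernel)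
theorem L89958 : W_30 (nat_lit 5) (nat_lit 0x98000c0004000380000001000080000000000000000000000000000000) (nat_lit 0x0) (nat_lit 0x800070010001a000000004000000000000000000000000000000000000000) := T_30 (nat_lit 193) (nat_lit 158) (nat_lit 4) (nat_lit 6) (nat_lit 13) L89957 (by decide +kernel)
theorem L89959 : W_30 (nat_lit 6) (nat_lit 0x90000c0004000380000001000080000000000000000000000000000000) (nat_lit 0x0) (nat_lit 0x18000f0010001a000000004000000000000000000000000000000000000000) := T_30 (nat_lit 227) (nat_lit 244) (nat_lit 5) (nat_lit 7) (nat_lit 10) L89958 (by decide +kernel)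
theorem L89960 : W_30 (nat_lit 7) (nat_lit 0x90000c0004000300000001000080000000000000000000000000000000) (nat_lit 0x0) (nat_lit 0x18000f0010001be004e0007000000000000000000000000000000000000000) := Q_30 (nat_lit 175) (C_30 L89952 (C_30 L89959 (C_30 L89954 (C_30 L89948 N_30)))) (by decide +kernel)
theorem L89961 : W_30 (nat_lit 8) (nat_lit 0x90000c0004000200000001000080000000000000000000000000000000) (nat_lit 0x0) (nat_lit 0x18000f0010001be005e000f000000000000000000000000000000000000000) := T_30 (nat_lit 176) (nat_lit 159) (nat_lit 4) (nat_lit 7) (nat_lit 13) L89960 (by decide +kernel)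
theorem L89962 : W_30 (nat_lit 10) (nat_lit 0x10000c0004000200000001000080000000000000000000000000000000) (nat_lit 0x0) (nat_lit 0x5800ef0010001be005e000f000000000000000000000000000000000000000) := Q_30 (nat_lit 231) (C_30 L89928 (C_30 L89942 (C_30 L89961 N_30))) (by decide +kernel)
theorem L89963 : W_30 (nat_lit 11) (nat_lit 0x1000080004000200000001000080000000000000000000000000000000) (nat_lit 0x0) (nat_lit 0x5800ef0017803be005e000f000000000000000000000000000000000000000) := Q_30 (nat_lit 210) (C_30 L89820 (C_30 L6039 (C_30 L89927 (C_30 L89962 N_30)))) (by decide +kernel)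
theorem L89964 : W_30 (nat_lit 12) (nat_lit 0x80004000200000001000080000000000000000000000000000000) (nat_lit 0x0) (nat_lit 0x18000e0007800ff0017803be005e000f000000000000000000000000000000000000000) := Q_30 (nat_lit 228) (C_30 L80582 (C_30 L6805 (C_30 L6067 (C_30 L6682 (C_30 L89963 N_30))))) (by decide +kernel)
theorem L90037 : W_30 (nat_lit 2) (nat_lit 0x1c000c000200000001000080000000000000000000000000000000) (nat_lit 0x0) (nat_lit 0x40002000000000000000010000000000000000000000000000000000000000) := D_30 (nat_lit 229) (nat_lit 160) (nat_lit 246) (nat_lit 7) (nat_lit 7) (nat_lit 9) (nat_lit 4) (nat_lit 8) (nat_lit 14) (by decide +kernel)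
theorem L90055 : W_30 (nat_lit 2) (nat_lit 0x1c001e800300002001e00090000000000000000000000000000000) (nat_lit 0x0) (nat_lit 0x40001000100000000000000000000000000000000000) := D_30 (nat_lit 140) (nat_lit 156) (nat_lit 174) (nat_lit 1) (nat_lit 7) (nat_lit 8) (nat_lit 6) (nat_lit 4) (nat_lit 11) (by decide +kernel)
theorem L90056 : W_30 (nat_lit 3) (nat_lit 0x1c001e800300002001e00080000000000000000000000000000000) (nat_lit 0x0) (nat_lit 0x40001000100018000000000000000000000000000000) := T_30 (nat_lit 124) (nat_lit 123) (nat_lit 0) (nat_lit 8) (nat_lit 8) L90055 (by decide +kernel)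
theorem L90057 : W_30 (nat_lit 4) (nat_lit 0x1c001e800300000001e00080000000000000000000000000000000) (nat_lit 0x0) (nat_lit 0x40007000100018000000000000000000000000000000) := T_30 (nat_lit 157) (nat_lit 158) (nat_lit 1) (nat_lit 8) (nat_lit 8) L90056 (by decide +kernel)
theorem L90058 : W_30 (nat_lit 5) (nat_lit 0x1c001e800300000001c00080000000000000000000000000000000) (nat_lit 0x0) (nat_lit 0x40007000300118000000000000000000000000000000) := T_30 (nat_lit 141) (nat_lit 128) (nat_lit 2) (nat_lit 5) (nat_lit 8) L90057 (by decide +kernel)
theorem L90059 : W_30 (nat_lit 6) (nat_lit 0x1c001e800300000001800080000000000000000000000000000000) (nat_lit 0x0) (nat_lit 0x4000f000700118000000000000000000000000000000) := T_30 (nat_lit 142) (nat_lit 159) (nat_lit 7) (nat_lit 6) (nat_lit 8) L90058 (by decide +kernel)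
theorem L90060 : W_30 (nat_lit 7) (nat_lit 0x1c001e800200000001800080000000000000000000000000000000) (nat_lit 0x0) (nat_lit 0x1c000f000700118000000000000000000000000000000) := T_30 (nat_lit 176) (nat_lit 175) (nat_lit 0) (nat_lit 9) (nat_lit 11) L90059 (by decide +kernel)
theorem L90061 : W_30 (nat_lit 8) (nat_lit 0x1c001e800200000001000080000000000000000000000000000000) (nat_lit 0x0) (nat_lit 0x1c001f000f00118000000000000000000000000000000) := T_30 (nat_lit 143) (nat_lit 160) (nat_lit 7) (nat_lit 7) (nat_lit 8) L90060 (by decide +kernel)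
theorem L90062 : W_30 (nat_lit 9) (nat_lit 0x1c000e800200000001000080000000000000000000000000000000) (nat_lit 0x0) (nat_lit 0x300001c001f000f00118000000000000000000000000000000) := T_30 (nat_lit 196) (nat_lit 197) (nat_lit 1) (nat_lit 10) (nat_lit 11) L90061 (by decide +kernel)
theorem L90063 : W_30 (nat_lit 10) (nat_lit 0x1c000e000200000001000080000000000000000000000000000000) (nat_lit 0x0) (nat_lit 0x318001c001f000f00118000000000000000000000000000000) := T_30 (nat_lit 191) (nat_lit 192) (nat_lit 3) (nat_lit 4) (nat_lit 11) L90062 (by decide +kernel)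
theorem L90064 : W_30 (nat_lit 2) (nat_lit 0x1c001e800b00008001000080000000000000000000000000000000) (nat_lit 0x0) (nat_lit 0x400004000200000000000000000000000000000000000) := D_30 (nat_lit 158) (nat_lit 141) (nat_lit 178) (nat_lit 4) (nat_lit 6) (nat_lit 12) (nat_lit 0) (nat_lit 9) (nat_lit 10) (by decide +kernel)
theorem L90065 : W_30 (nat_lit 3) (nat_lit 0x1c001e800b00000001000080000000000000000000000000000000) (nat_lit 0x0) (nat_lit 0x40000c000600000000000000000000000000000000000) := T_30 (nat_lit 159) (nat_lit 142) (nat_lit 7) (nat_lit 6) (nat_lit 8) L90064 (by decide +kernel)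
theorem L90066 : W_30 (nat_lit 4) (nat_lit 0x1c001e800300000001000080000000000000000000000000000000) (nat_lit 0x0) (nat_lit 0x1c0000c000600000000000000000000000000000000000) := T_30 (nat_lit 179) (nat_lit 180) (nat_lit 2) (nat_lit 6) (nat_lit 11) L90065 (by decide +kernel)
theorem L90067 : W_30 (nat_lit 5) (nat_lit 0x1c001e800200000001000080000000000000000000000000000000) (nat_lit 0x0) (nat_lit 0x1d8000c000600000000000000000000000000000000000) := T_30 (nat_lit 176) (nat_lit 175) (nat_lit 0) (nat_lit 9) (nat_lit 11) L90066 (by decide +kernel)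
theorem L90068 : W_30 (nat_lit 6) (nat_lit 0x1c001e000200000001000080000000000000000000000000000000) (nat_lit 0x0) (nat_lit 0x1801d8000c000600000000000000000000000000000000000) := T_30 (nat_lit 191) (nat_lit 192) (nat_lit 3) (nat_lit 4) (nat_lit 11) L90067 (by decide +kernel)
theorem L90069 : W_30 (nat_lit 7) (nat_lit 0x1c000e000200000001000080000000000000000000000000000000) (nat_lit 0x0) (nat_lit 0x31801d8000c000600000000000000000000000000000000000) := T_30 (nat_lit 196) (nat_lit 197) (nat_lit 1) (nat_lit 10) (nat_lit 11) L90068 (by decide +kernel)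
theorem L90070 : W_30 (nat_lit 2) (nat_lit 0x1c001f000200000001800080000000000000000000000000000000) (nat_lit 0x0) (nat_lit 0x1c00000000000000000000000000000000000000000000) := D_30 (nat_lit 179) (nat_lit 180) (nat_lit 178) (nat_lit 2) (nat_lit 6) (nat_lit 11) (nat_lit 2) (nat_lit 5) (nat_lit 11) (by decide +kernel)
theorem L90071 : W_30 (nat_lit 3) (nat_lit 0x1c001e000200000001800080000000000000000000000000000000) (nat_lit 0x0) (nat_lit 0x1801c00000000000000000000000000000000000000000000) := T_30 (nat_lit 192) (nat_lit 191) (nat_lit 3) (nat_lit 4) (nat_lit 11) L90070 (by decide +kernel)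
theorem L90072 : W_30 (nat_lit 4) (nat_lit 0x1c001e000200000001000080000000000000000000000000000000) (nat_lit 0x0) (nat_lit 0x1801c00010000800000000000000000000000000000000000) := T_30 (nat_lit 143) (nat_lit 160) (nat_lit 7) (nat_lit 7) (nat_lit 8) L90071 (by decide +kernel)
theorem L90073 : W_30 (nat_lit 5) (nat_lit 0x1c000e000200000001000080000000000000000000000000000000) (nat_lit 0x0) (nat_lit 0x31801c00010000800000000000000000000000000000000000) := T_30 (nat_lit 196) (nat_lit 197) (nat_lit 1) (nat_lit 10) (nat_lit 11) L90072 (by decide +kernel)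
theorem L90074 : W_30 (nat_lit 2) (nat_lit 0x1c000f000680018001000080000000000000000000000000000000) (nat_lit 0x0) (nat_lit 0x6000200000000000000000000000000000000000) := D_30 (nat_lit 158) (nat_lit 157) (nat_lit 141) (nat_lit 3) (nat_lit 4) (nat_lit 9) (nat_lit 7) (nat_lit 5) (nat_lit 8) (by decide +kernel)
theorem L90075 : W_30 (nat_lit 3) (nat_lit 0x1c000f000280018001000080000000000000000000000000000000) (nat_lit 0x0) (nat_lit 0xc00006000200000000000000000000000000000000000) := T_30 (nat_lit 178) (nat_lit 179) (nat_lit 2) (nat_lit 5) (nat_lit 11) L90074 (by decide +kernel)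
theorem L90076 : W_30 (nat_lit 4) (nat_lit 0x1c000f000200018001000080000000000000000000000000000000) (nat_lit 0x0) (nat_lit 0xcc0006000200000000000000000000000000000000000) := T_30 (nat_lit 175) (nat_lit 174) (nat_lit 0) (nat_lit 8) (nat_lit 11) L90075 (by decide +kernel)
theorem L90077 : W_30 (nat_lit 5) (nat_lit 0x1c000f000200010001000080000000000000000000000000000000) (nat_lit 0x0) (nat_lit 0xcc000e000600000000000000000000000000000000000) := T_30 (nat_lit 159) (nat_lit 142) (nat_lit 4) (nat_lit 7) (nat_lit 12) L90076 (by decide +kernel)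
theorem L90078 : W_30 (nat_lit 6) (nat_lit 0x1c000e000200010001000080000000000000000000000000000000) (nat_lit 0x0) (nat_lit 0x1800cc000e000600000000000000000000000000000000000) := T_30 (nat_lit 192) (nat_lit 191) (nat_lit 3) (nat_lit 4) (nat_lit 11) L90077 (by decide +kernel)
theorem L90079 : W_30 (nat_lit 7) (nat_lit 0x1c000e000200000001000080000000000000000000000000000000) (nat_lit 0x0) (nat_lit 0x1800cc001e000e00000000000000000000000000000000000) := T_30 (nat_lit 160) (nat_lit 143) (nat_lit 7) (nat_lit 7) (nat_lit 8) L90078 (by decide +kernel)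
theorem L90080 : W_30 (nat_lit 2) (nat_lit 0x1c001e000b00002001e00088000000000000000000000000000000) (nat_lit 0x0) (nat_lit 0x1000100004000000000000000000000000000000) := D_30 (nat_lit 140) (nat_lit 156) (nat_lit 122) (nat_lit 1) (nat_lit 7) (nat_lit 8) (nat_lit 0) (nat_lit 7) (nat_lit 8) (by decide +kernel)
theorem L90081 : W_30 (nat_lit 3) (nat_lit 0x1c001e000b00002001e00080000000000000000000000000000000) (nat_lit 0x0) (nat_lit 0x100010001c000000000000000000000000000000) := T_30 (nat_lit 123) (nat_lit 124) (nat_lit 0) (nat_lit 8) (nat_lit 8) L90080 (by decide +kernel)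
theorem L90082 : W_30 (nat_lit 4) (nat_lit 0x1c001e000b00000001e00080000000000000000000000000000000) (nat_lit 0x0) (nat_lit 0x700010001c000000000000000000000000000000) := T_30 (nat_lit 157) (nat_lit 158) (nat_lit 1) (nat_lit 8) (nat_lit 8) L90081 (by decide +kernel)
theorem L90083 : W_30 (nat_lit 5) (nat_lit 0x1c001e000b00000001c00080000000000000000000000000000000) (nat_lit 0x0) (nat_lit 0x700030011c000000000000000000000000000000) := T_30 (nat_lit 141) (nat_lit 128) (nat_lit 2) (nat_lit 5) (nat_lit 8) L90082 (by decide +kernel)
theorem L90084 : W_30 (nat_lit 6) (nat_lit 0x1c001e000b00000001800080000000000000000000000000000000) (nat_lit 0x0) (nat_lit 0xf00070011c000000000000000000000000000000) := T_30 (nat_lit 142) (nat_lit 159) (nat_lit 7) (nat_lit 6) (nat_lit 8) L90083 (by decide +kernel)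
theorem L90085 : W_30 (nat_lit 7) (nat_lit 0x1c001e000300000001800080000000000000000000000000000000) (nat_lit 0x0) (nat_lit 0x180000f00070011c000000000000000000000000000000) := T_30 (nat_lit 179) (nat_lit 180) (nat_lit 2) (nat_lit 6) (nat_lit 11) L90084 (by decide +kernel)
theorem L90086 : W_30 (nat_lit 8) (nat_lit 0x1c001e000200000001800080000000000000000000000000000000) (nat_lit 0x0) (nat_lit 0x198000f00070011c000000000000000000000000000000) := T_30 (nat_lit 176) (nat_lit 175) (nat_lit 0) (nat_lit 9) (nat_lit 11) L90085 (by decide +kernel)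
theorem L90087 : W_30 (nat_lit 9) (nat_lit 0x1c001e000200000001000080000000000000000000000000000000) (nat_lit 0x0) (nat_lit 0x198001f000f0011c000000000000000000000000000000) := T_30 (nat_lit 143) (nat_lit 160) (nat_lit 7) (nat_lit 7) (nat_lit 8) L90086 (by decide +kernel)
theorem L90088 : W_30 (nat_lit 10) (nat_lit 0x1c000e000200000001000080000000000000000000000000000000) (nat_lit 0x0) (nat_lit 0x3000198001f000f0011c000000000000000000000000000000) := T_30 (nat_lit 196) (nat_lit 197) (nat_lit 1) (nat_lit 10) (nat_lit 11) L90087 (by decide +kernel)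
theorem L90115 : W_30 (nat_lit 5) (nat_lit 0x3000180006800200000001000080000000000000000000000000000000) (nat_lit 0x0) (nat_lit 0x1c000e00040000000100008000000000000000000000000000000000000000) := T_30 (nat_lit 176) (nat_lit 159) (nat_lit 4) (nat_lit 7) (nat_lit 13) L6602 (by decide +kernel)
theorem L90116 : W_30 (nat_lit 6) (nat_lit 0x3000180006000200000001000080000000000000000000000000000000) (nat_lit 0x0) (nat_lit 0x1c000e00040001800100008000000000000000000000000000000000000000) := T_30 (nat_lit 191) (nat_lit 192) (nat_lit 3) (nat_lit 4) (nat_lit 11) L90115 (by decide +kernel)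
theorem L90117 : W_30 (nat_lit 7) (nat_lit 0x1000180006000200000001000080000000000000000000000000000000) (nat_lit 0x0) (nat_lit 0x5c002e00040001800100008000000000000000000000000000000000000000) := T_30 (nat_lit 229) (nat_lit 246) (nat_lit 7) (nat_lit 7) (nat_lit 10) L90116 (by decide +kernel)
theorem L90118 : W_30 (nat_lit 8) (nat_lit 0x1000080006000200000001000080000000000000000000000000000000) (nat_lit 0x0) (nat_lit 0x5c002e00740001800100008000000000000000000000000000000000000000) := Q_30 (nat_lit 212) (C_30 L17679 (C_30 L6307 (C_30 L90117 (C_30 L17408 N_30)))) (by decide +kernel)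
theorem L90126 : W_30 (nat_lit 2) (nat_lit 0x7a0018000f000680000001000080000000000000000000000000000000) (nat_lit 0x0) (nat_lit 0x18000040000000000000000000000000000000000000000000000000000) := D_30 (nat_lit 231) (nat_lit 232) (nat_lit 210) (nat_lit 0) (nat_lit 11) (nat_lit 13) (nat_lit 0) (nat_lit 10) (nat_lit 13) (by decide +kernel)
theorem L90127 : W_30 (nat_lit 3) (nat_lit 0x3a0018000f000680000001000080000000000000000000000000000000) (nat_lit 0x0) (nat_lit 0x8001c000040000000000000000000000000000000000000000000000000000) := T_30 (nat_lit 230) (nat_lit 247) (nat_lit 7) (nat_lit 8) (nat_lit 10) L90126 (by decide +kernel)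
theorem L90128 : W_30 (nat_lit 4) (nat_lit 0x380018000f000680000001000080000000000000000000000000000000) (nat_lit 0x0) (nat_lit 0x8001c600040000000000000000000000000000000000000000000000000000) := T_30 (nat_lit 225) (nat_lit 226) (nat_lit 2) (nat_lit 4) (nat_lit 13) L90127 (by decide +kernel)
theorem L90129 : W_30 (nat_lit 5) (nat_lit 0x380008000f000680000001000080000000000000000000000000000000) (nat_lit 0x0) (nat_lit 0x8001c600340000000000000000000000000000000000000000000000000000) := T_30 (nat_lit 212) (nat_lit 213) (nat_lit 3) (nat_lit 5) (nat_lit 11) L90128 (by decide +kernel)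
theorem L90130 : W_30 (nat_lit 6) (nat_lit 0x180008000f000680000001000080000000000000000000000000000000) (nat_lit 0x0) (nat_lit 0xc001e600340000000000000000000000000000000000000000000000000000) := T_30 (nat_lit 229) (nat_lit 246) (nat_lit 7) (nat_lit 7) (nat_lit 10) L90129 (by decide +kernel)
theorem L90131 : W_30 (nat_lit 7) (nat_lit 0x100008000f000680000001000080000000000000000000000000000000) (nat_lit 0x0) (nat_lit 0xd001ee00340000000000000000000000000000000000000000000000000000) := T_30 (nat_lit 227) (nat_lit 244) (nat_lit 5) (nat_lit 7) (nat_lit 10) L90130 (by decide +kernel)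
theorem L90132 : W_30 (nat_lit 8) (nat_lit 0x100008000f000280000001000080000000000000000000000000000000) (nat_lit 0x0) (nat_lit 0xd001ee00340000000c00000000000000000000000000000000000000000000) := T_30 (nat_lit 178) (nat_lit 179) (nat_lit 2) (nat_lit 5) (nat_lit 11) L90131 (by decide +kernel)
theorem L90133 : W_30 (nat_lit 9) (nat_lit 0x100008000f000200000001000080000000000000000000000000000000) (nat_lit 0x0) (nat_lit 0xd001ee00340000000cc0000000000000000000000000000000000000000000) := T_30 (nat_lit 175) (nat_lit 174) (nat_lit 0) (nat_lit 8) (nat_lit 11) L90132 (by decide +kernel)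
theorem L90153 : W_30 (nat_lit 2) (nat_lit 0x180008001f000280000001000080000000000000000000000000000000) (nat_lit 0x0) (nat_lit 0x700000000000000000000000000000000000000000000000000000) := D_30 (nat_lit 213) (nat_lit 212) (nat_lit 214) (nat_lit 3) (nat_lit 5) (nat_lit 11) (nat_lit 3) (nat_lit 6) (nat_lit 11) (by decide +kernel)
theorem L90154 : W_30 (nat_lit 3) (nat_lit 0x180008000f000280000001000080000000000000000000000000000000) (nat_lit 0x0) (nat_lit 0x700010000100000000000000000000000000000000000000000000) := T_30 (nat_lit 196) (nat_lit 176) (nat_lit 0) (nat_lit 9) (nat_lit 11) L90153 (by decide +kernel)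
theorem L90155 : W_30 (nat_lit 4) (nat_lit 0x100008000f000280000001000080000000000000000000000000000000) (nat_lit 0x0) (nat_lit 0x10000800700010000100000000000000000000000000000000000000000000) := T_30 (nat_lit 227) (nat_lit 244) (nat_lit 5) (nat_lit 7) (nat_lit 10) L90154 (by decide +kernel)
theorem L90156 : W_30 (nat_lit 5) (nat_lit 0x100008000f000200000001000080000000000000000000000000000000) (nat_lit 0x0) (nat_lit 0x100008007000100001c0000000000000000000000000000000000000000000) := T_30 (nat_lit 175) (nat_lit 174) (nat_lit 0) (nat_lit 8) (nat_lit 11) L90155 (by decide +kernel)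
theorem L90159 : W_30 (nat_lit 2) (nat_lit 0x3000080007c00200000001000080000000000000000000000000000000) (nat_lit 0x0) (nat_lit 0x1c000000000000000000000000000000000000000000000000000) := D_30 (nat_lit 207) (nat_lit 206) (nat_lit 208) (nat_lit 1) (nat_lit 6) (nat_lit 11) (nat_lit 1) (nat_lit 7) (nat_lit 11) (by decide +kernel)
theorem L90160 : W_30 (nat_lit 3) (nat_lit 0x3000080007800200000001000080000000000000000000000000000000) (nat_lit 0x0) (nat_lit 0x5c000400000000000000000000000000000000000000000000000) := T_30 (nat_lit 190) (nat_lit 210) (nat_lit 3) (nat_lit 3) (nat_lit 11) L90159 (by decide +kernel)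
theorem L90161 : W_30 (nat_lit 4) (nat_lit 0x3000080007000200000001000080000000000000000000000000000000) (nat_lit 0x0) (nat_lit 0x15c000c00000000000000000000000000000000000000000000000) := T_30 (nat_lit 191) (nat_lit 212) (nat_lit 3) (nat_lit 4) (nat_lit 11) L90160 (by decide +kernel)
theorem L90162 : W_30 (nat_lit 5) (nat_lit 0x1000080007000200000001000080000000000000000000000000000000) (nat_lit 0x0) (nat_lit 0x4000200015c000c00000000000000000000000000000000000000000000000) := T_30 (nat_lit 229) (nat_lit 246) (nat_lit 7) (nat_lit 7) (nat_lit 10) L90161 (by decide +kernel)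
theorem L90163 : W_30 (nat_lit 2) (nat_lit 0x380088003f000a80000001000080000000000000000000000000000000) (nat_lit 0x0) (nat_lit 0x1100040000000000000000000000000000000000000000000000000) := D_30 (nat_lit 198) (nat_lit 212) (nat_lit 216) (nat_lit 1) (nat_lit 11) (nat_lit 11) (nat_lit 3) (nat_lit 8) (nat_lit 11) (by decide +kernel)
theorem L90164 : W_30 (nat_lit 3) (nat_lit 0x380008003f000a80000001000080000000000000000000000000000000) (nat_lit 0x0) (nat_lit 0x1d00040000000000000000000000000000000000000000000000000) := T_30 (nat_lit 215) (nat_lit 214) (nat_lit 3) (nat_lit 7) (nat_lit 11) L90163 (by decide +kernel)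
theorem L90165 : W_30 (nat_lit 4) (nat_lit 0x180008003f000a80000001000080000000000000000000000000000000) (nat_lit 0x0) (nat_lit 0x40002001d00040000000000000000000000000000000000000000000000000) := T_30 (nat_lit 229) (nat_lit 246) (nat_lit 7) (nat_lit 7) (nat_lit 10) L90164 (by decide +kernel)
theorem L90166 : W_30 (nat_lit 5) (nat_lit 0x180008001f000a80000001000080000000000000000000000000000000) (nat_lit 0x0) (nat_lit 0x40002001d40060000000000000000000000000000000000000000000000000) := T_30 (nat_lit 197) (nat_lit 210) (nat_lit 1) (nat_lit 10) (nat_lit 11) L90165 (by decide +kernel)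
theorem L90167 : W_30 (nat_lit 6) (nat_lit 0x180008000f000a80000001000080000000000000000000000000000000) (nat_lit 0x0) (nat_lit 0x40002001d40070001000000000000000000000000000000000000000000000) := T_30 (nat_lit 196) (nat_lit 180) (nat_lit 2) (nat_lit 6) (nat_lit 11) L90166 (by decide +kernel)
theorem L90168 : W_30 (nat_lit 7) (nat_lit 0x180008000f000a00000001000080000000000000000000000000000000) (nat_lit 0x0) (nat_lit 0x40002001d400700010c0000000000000000000000000000000000000000000) := T_30 (nat_lit 175) (nat_lit 174) (nat_lit 0) (nat_lit 8) (nat_lit 11) L90167 (by decide +kernel)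
theorem L90169 : W_30 (nat_lit 8) (nat_lit 0x180008000f000200000001000080000000000000000000000000000000) (nat_lit 0x0) (nat_lit 0x40002001d40070001cc0000000000000000000000000000000000000000000) := T_30 (nat_lit 179) (nat_lit 178) (nat_lit 2) (nat_lit 5) (nat_lit 11) L90168 (by decide +kernel)
theorem L90170 : W_30 (nat_lit 9) (nat_lit 0x100008000f000200000001000080000000000000000000000000000000) (nat_lit 0x0) (nat_lit 0x50002801d40070001cc0000000000000000000000000000000000000000000) := T_30 (nat_lit 227) (nat_lit 244) (nat_lit 5) (nat_lit 7) (nat_lit 10) L90169 (by decide +kernel)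
theorem L90171 : W_30 (nat_lit 2) (nat_lit 0x380028000f000280000001000080000000000000000000000000000000) (nat_lit 0x0) (nat_lit 0x4000400010000000000000000000000000000000000000000000000000) := D_30 (nat_lit 214) (nat_lit 230) (nat_lit 196) (nat_lit 2) (nat_lit 6) (nat_lit 13) (nat_lit 3) (nat_lit 6) (nat_lit 11) (by decide +kernel)
theorem L90172 : W_30 (nat_lit 3) (nat_lit 0x380008000f000280000001000080000000000000000000000000000000) (nat_lit 0x0) (nat_lit 0x4000700010000000000000000000000000000000000000000000000000) := T_30 (nat_lit 213) (nat_lit 212) (nat_lit 3) (nat_lit 5) (nat_lit 11) L90171 (by decide +kernel)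
theorem L90173 : W_30 (nat_lit 4) (nat_lit 0x380008000f000200000001000080000000000000000000000000000000) (nat_lit 0x0) (nat_lit 0x40007000100000c0000000000000000000000000000000000000000000) := T_30 (nat_lit 175) (nat_lit 174) (nat_lit 0) (nat_lit 8) (nat_lit 11) L90172 (by decide +kernel)
theorem L90174 : W_30 (nat_lit 5) (nat_lit 0x300008000f000200000001000080000000000000000000000000000000) (nat_lit 0x0) (nat_lit 0x100048007000100000c0000000000000000000000000000000000000000000) := T_30 (nat_lit 227) (nat_lit 244) (nat_lit 5) (nat_lit 7) (nat_lit 10) L90173 (by decide +kernel)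
theorem L90175 : W_30 (nat_lit 6) (nat_lit 0x100008000f000200000001000080000000000000000000000000000000) (nat_lit 0x0) (nat_lit 0x500068007000100000c0000000000000000000000000000000000000000000) := T_30 (nat_lit 229) (nat_lit 246) (nat_lit 7) (nat_lit 7) (nat_lit 10) L90174 (by decide +kernel)
theorem L90176 : W_30 (nat_lit 2) (nat_lit 0x40001a0018001f000a00000001000080000000000000000000000000000000) (nat_lit 0x0) (nat_lit 0x40060000000000000000000000000000000000000000000000000) := D_30 (nat_lit 197) (nat_lit 198) (nat_lit 210) (nat_lit 1) (nat_lit 11) (nat_lit 11) (nat_lit 1) (nat_lit 10) (nat_lit 11) (by decide +kernel)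
theorem L90177 : W_30 (nat_lit 3) (nat_lit 0x40001a0018000f000a00000001000080000000000000000000000000000000) (nat_lit 0x0) (nat_lit 0x40070001000000000000000000000000000000000000000000000) := T_30 (nat_lit 196) (nat_lit 180) (nat_lit 2) (nat_lit 6) (nat_lit 11) L90176 (by decide +kernel)
theorem L90178 : W_30 (nat_lit 4) (nat_lit 0x40001a0018000f000200000001000080000000000000000000000000000000) (nat_lit 0x0) (nat_lit 0x40070001c00000000000000000000000000000000000000000000) := T_30 (nat_lit 179) (nat_lit 178) (nat_lit 2) (nat_lit 5) (nat_lit 11) L90177 (by decide +kernel)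
theorem L90179 : W_30 (nat_lit 5) (nat_lit 0x4000180018000f000200000001000080000000000000000000000000000000) (nat_lit 0x0) (nat_lit 0x600040070001c00000000000000000000000000000000000000000000) := T_30 (nat_lit 225) (nat_lit 226) (nat_lit 2) (nat_lit 4) (nat_lit 13) L90178 (by decide +kernel)
theorem L90180 : W_30 (nat_lit 6) (nat_lit 0x4000100018000f000200000001000080000000000000000000000000000000) (nat_lit 0x0) (nat_lit 0x10000e00040070001c00000000000000000000000000000000000000000000) := T_30 (nat_lit 227) (nat_lit 244) (nat_lit 5) (nat_lit 7) (nat_lit 10) L90179 (by decide +kernel)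
theorem L90181 : W_30 (nat_lit 7) (nat_lit 0x100018000f000200000001000080000000000000000000000000000000) (nat_lit 0x0) (nat_lit 0x50002e00040070001c00000000000000000000000000000000000000000000) := T_30 (nat_lit 246) (nat_lit 229) (nat_lit 7) (nat_lit 7) (nat_lit 10) L90180 (by decide +kernel)
theorem L90182 : W_30 (nat_lit 8) (nat_lit 0x100008000f000200000001000080000000000000000000000000000000) (nat_lit 0x0) (nat_lit 0x50002e00340070001c00000000000000000000000000000000000000000000) := T_30 (nat_lit 212) (nat_lit 213) (nat_lit 3) (nat_lit 5) (nat_lit 11) L90181 (by decide +kernel)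
theorem L90183 : W_30 (nat_lit 2) (nat_lit 0x700018000f000680000001000080000000000000000000000000000000) (nat_lit 0x0) (nat_lit 0x18000040000000000000000000000000000000000000000000000000000) := D_30 (nat_lit 231) (nat_lit 232) (nat_lit 210) (nat_lit 0) (nat_lit 11) (nat_lit 13) (nat_lit 0) (nat_lit 10) (nat_lit 13) (by decide +kernel)
theorem L90184 : W_30 (nat_lit 3) (nat_lit 0x300018000f000680000001000080000000000000000000000000000000) (nat_lit 0x0) (nat_lit 0x8001c000040000000000000000000000000000000000000000000000000000) := T_30 (nat_lit 230) (nat_lit 247) (nat_lit 7) (nat_lit 8) (nat_lit 10) L90183 (by decide +kernel)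
theorem L90185 : W_30 (nat_lit 4) (nat_lit 0x300008000f000680000001000080000000000000000000000000000000) (nat_lit 0x0) (nat_lit 0x8001c000340000000000000000000000000000000000000000000000000000) := T_30 (nat_lit 212) (nat_lit 213) (nat_lit 3) (nat_lit 5) (nat_lit 11) L90184 (by decide +kernel)
theorem L90186 : W_30 (nat_lit 5) (nat_lit 0x300008000f000600000001000080000000000000000000000000000000) (nat_lit 0x0) (nat_lit 0x8001c0003400000000c0000000000000000000000000000000000000000000) := T_30 (nat_lit 175) (nat_lit 174) (nat_lit 0) (nat_lit 8) (nat_lit 11) L90185 (by decide +kernel)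
theorem L90187 : W_30 (nat_lit 6) (nat_lit 0x100008000f000600000001000080000000000000000000000000000000) (nat_lit 0x0) (nat_lit 0xc001e0003400000000c0000000000000000000000000000000000000000000) := T_30 (nat_lit 229) (nat_lit 246) (nat_lit 7) (nat_lit 7) (nat_lit 10) L90186 (by decide +kernel)
theorem L90188 : W_30 (nat_lit 7) (nat_lit 0x100008000f000200000001000080000000000000000000000000000000) (nat_lit 0x0) (nat_lit 0xc001e000340000000cc0000000000000000000000000000000000000000000) := T_30 (nat_lit 178) (nat_lit 179) (nat_lit 2) (nat_lit 5) (nat_lit 11) L90187 (by decide +kernel)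
theorem L90189 : W_30 (nat_lit 2) (nat_lit 0x1a0018001f000a00000001000080000000000000000000000000000000) (nat_lit 0x0) (nat_lit 0x40060000000000000000000000000000000000000000000000000) := D_30 (nat_lit 197) (nat_lit 198) (nat_lit 210) (nat_lit 1) (nat_lit 11) (nat_lit 11) (nat_lit 1) (nat_lit 10) (nat_lit 11) (by decide +kernel)
theorem L90190 : W_30 (nat_lit 3) (nat_lit 0x1a0018000f000a00000001000080000000000000000000000000000000) (nat_lit 0x0) (nat_lit 0x40070001000000000000000000000000000000000000000000000) := T_30 (nat_lit 196) (nat_lit 180) (nat_lit 2) (nat_lit 6) (nat_lit 11) L90189 (by decide +kernel)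
theorem L90191 : W_30 (nat_lit 4) (nat_lit 0x180018000f000a00000001000080000000000000000000000000000000) (nat_lit 0x0) (nat_lit 0x600040070001000000000000000000000000000000000000000000000) := T_30 (nat_lit 225) (nat_lit 226) (nat_lit 2) (nat_lit 4) (nat_lit 13) L90190 (by decide +kernel)
theorem L90192 : W_30 (nat_lit 5) (nat_lit 0x100018000f000a00000001000080000000000000000000000000000000) (nat_lit 0x0) (nat_lit 0x10000e00040070001000000000000000000000000000000000000000000000) := T_30 (nat_lit 227) (nat_lit 244) (nat_lit 5) (nat_lit 7) (nat_lit 10) L90191 (by decide +kernel)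
theorem L90193 : W_30 (nat_lit 6) (nat_lit 0x100018000f000200000001000080000000000000000000000000000000) (nat_lit 0x0) (nat_lit 0x10000e00040070001c00000000000000000000000000000000000000000000) := T_30 (nat_lit 179) (nat_lit 178) (nat_lit 2) (nat_lit 5) (nat_lit 11) L90192 (by decide +kernel)
theorem L90194 : W_30 (nat_lit 7) (nat_lit 0x100008000f000200000001000080000000000000000000000000000000) (nat_lit 0x0) (nat_lit 0x10000e00340070001c00000000000000000000000000000000000000000000) := T_30 (nat_lit 212) (nat_lit 213) (nat_lit 3) (nat_lit 5) (nat_lit 11) L90193 (by decide +kernel)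
theorem L90195 : W_30 (nat_lit 10) (nat_lit 0x1000080007000200000001000080000000000000000000000000000000) (nat_lit 0x0) (nat_lit 0xd001ee01f40078001cc0000000000000000000000000000000000000000000) := Q_30 (nat_lit 195) (C_30 L90170 (C_30 L90175 (C_30 L90133 (C_30 L90182 (C_30 L80811 (C_30 L90188 (C_30 L90194 N_30))))))) (by decide +kernel)
theorem L90197 : W_30 (nat_lit 2) (nat_lit 0x1000080007000a00000001000080000000000000000000000000000000) (nat_lit 0x0) (nat_lit 0x8001400000000000000000000000000000000000000000000) := D_30 (nat_lit 178) (nat_lit 180) (nat_lit 195) (nat_lit 1) (nat_lit 10) (nat_lit 10) (nat_lit 2) (nat_lit 5) (nat_lit 11) (by decide +kernel)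
theorem L90198 : W_30 (nat_lit 2) (nat_lit 0x1000280007000a00000001000080000000000000000000000000000000) (nat_lit 0x0) (nat_lit 0x500008000000000000000000000000000000000000000000000000) := D_30 (nat_lit 212) (nat_lit 195) (nat_lit 214) (nat_lit 3) (nat_lit 5) (nat_lit 11) (nat_lit 0) (nat_lit 10) (nat_lit 12) (by decide +kernel)
theorem L90199 : W_30 (nat_lit 2) (nat_lit 0x100007800280007000b00000001000080000000000000000000000000000000) (nat_lit 0x0) (nat_lit 0x200008000000010000000000000000000000000000000000000000000000000) := D_30 (nat_lit 231) (nat_lit 249) (nat_lit 196) (nat_lit 3) (nat_lit 7) (nat_lit 13) (nat_lit 7) (nat_lit 9) (nat_lit 10) (by decide +kernel)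
theorem L90200 : W_30 (nat_lit 3) (nat_lit 0x7800280007000b00000001000080000000000000000000000000000000) (nat_lit 0x0) (nat_lit 0x380008000000010000000000000000000000000000000000000000000000000) := T_30 (nat_lit 248) (nat_lit 247) (nat_lit 3) (nat_lit 6) (nat_lit 13) L90199 (by decide +kernel)
theorem L90201 : W_30 (nat_lit 4) (nat_lit 0x3800280007000b00000001000080000000000000000000000000000000) (nat_lit 0x0) (nat_lit 0x38000c000400010000000000000000000000000000000000000000000000000) := T_30 (nat_lit 230) (nat_lit 214) (nat_lit 2) (nat_lit 6) (nat_lit 13) L90200 (by decide +kernel)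
theorem L90202 : W_30 (nat_lit 5) (nat_lit 0x1800280007000b00000001000080000000000000000000000000000000) (nat_lit 0x0) (nat_lit 0x3c000e000400010000000000000000000000000000000000000000000000000) := T_30 (nat_lit 229) (nat_lit 246) (nat_lit 7) (nat_lit 7) (nat_lit 10) L90201 (by decide +kernel)
theorem L90203 : W_30 (nat_lit 6) (nat_lit 0x1800280007000a00000001000080000000000000000000000000000000) (nat_lit 0x0) (nat_lit 0x3c000e000400010000100008000000000000000000000000000000000000000) := T_30 (nat_lit 176) (nat_lit 159) (nat_lit 4) (nat_lit 7) (nat_lit 13) L90202 (by decide +kernel)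
theorem L90204 : W_30 (nat_lit 7) (nat_lit 0x1000280007000a00000001000080000000000000000000000000000000) (nat_lit 0x0) (nat_lit 0x3d000e800400010000100008000000000000000000000000000000000000000) := T_30 (nat_lit 227) (nat_lit 244) (nat_lit 5) (nat_lit 7) (nat_lit 10) L90203 (by decide +kernel)
theorem L90205 : W_30 (nat_lit 2) (nat_lit 0x300028001f000a00000001000080000000000000000000000000000000) (nat_lit 0x0) (nat_lit 0x20000100008000000000000000000000000000000000000000) := D_30 (nat_lit 176) (nat_lit 197) (nat_lit 159) (nat_lit 0) (nat_lit 10) (nat_lit 11) (nat_lit 4) (nat_lit 7) (nat_lit 13) (by decide +kernel)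
theorem L90206 : W_30 (nat_lit 3) (nat_lit 0x300028000f000a00000001000080000000000000000000000000000000) (nat_lit 0x0) (nat_lit 0x30001100008000000000000000000000000000000000000000) := T_30 (nat_lit 196) (nat_lit 180) (nat_lit 2) (nat_lit 6) (nat_lit 11) L90205 (by decide +kernel)
theorem L90207 : W_30 (nat_lit 4) (nat_lit 0x3000280007000a00000001000080000000000000000000000000000000) (nat_lit 0x0) (nat_lit 0x100038001100008000000000000000000000000000000000000000) := T_30 (nat_lit 195) (nat_lit 212) (nat_lit 3) (nat_lit 5) (nat_lit 11) L90206 (by decide +kernel)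
theorem L90208 : W_30 (nat_lit 5) (nat_lit 0x1000280007000a00000001000080000000000000000000000000000000) (nat_lit 0x0) (nat_lit 0x40002000100038001100008000000000000000000000000000000000000000) := T_30 (nat_lit 229) (nat_lit 246) (nat_lit 7) (nat_lit 7) (nat_lit 10) L90207 (by decide +kernel)
theorem L90209 : W_30 (nat_lit 8) (nat_lit 0x1000080007000a00000001000080000000000000000000000000000000) (nat_lit 0x0) (nat_lit 0x3d000e800700038001100008000000000000000000000000000000000000000) := Q_30 (nat_lit 213) (C_30 L90198 (C_30 L78635 (C_30 L90204 (C_30 L90208 N_30)))) (by decide +kernel)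
theorem L90210 : W_30 (nat_lit 9) (nat_lit 0x1000080007000200000001000080000000000000000000000000000000) (nat_lit 0x0) (nat_lit 0x3d000e800700038001d00008000000000000000000000000000000000000000) := Q_30 (nat_lit 179) (C_30 L78555 (C_30 L90197 (C_30 L90209 N_30))) (by decide +kernel)
theorem L90211 : W_30 (nat_lit 10) (nat_lit 0x1000080006000200000001000080000000000000000000000000000000) (nat_lit 0x0) (nat_lit 0x3d000e800700039c01d00008000000000000000000000000000000000000000) := Q_30 (nat_lit 192) (C_30 L78632 (C_30 L78550 (C_30 L78630 (C_30 L90210 N_30)))) (by decide +kernel)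
theorem L90212 : W_30 (nat_lit 2) (nat_lit 0x10000c001f000200000001000080000000000000000000000000000000) (nat_lit 0x0) (nat_lit 0x1c00000000000000000000000000000000000000000000) := D_30 (nat_lit 179) (nat_lit 178) (nat_lit 180) (nat_lit 2) (nat_lit 5) (nat_lit 11) (nat_lit 2) (nat_lit 6) (nat_lit 11) (by decide +kernel)
theorem L90213 : W_30 (nat_lit 3) (nat_lit 0x10000c000f000200000001000080000000000000000000000000000000) (nat_lit 0x0) (nat_lit 0x30001c00000000000000000000000000000000000000000000) := T_30 (nat_lit 196) (nat_lit 197) (nat_lit 1) (nat_lit 10) (nat_lit 11) L90212 (by decide +kernel)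
theorem L90214 : W_30 (nat_lit 2) (nat_lit 0x30000900078003c0000001000080000000000000000000000000000000) (nat_lit 0x0) (nat_lit 0x4000200000000000000004000000000000000000000000000000000000000) := D_30 (nat_lit 225) (nat_lit 242) (nat_lit 158) (nat_lit 6) (nat_lit 4) (nat_lit 14) (nat_lit 6) (nat_lit 4) (nat_lit 13) (by decide +kernel)
theorem L90215 : W_30 (nat_lit 3) (nat_lit 0x3000090007800340000001000080000000000000000000000000000000) (nat_lit 0x0) (nat_lit 0x4000200000008000080004000000000000000000000000000000000000000) := T_30 (nat_lit 175) (nat_lit 195) (nat_lit 3) (nat_lit 4) (nat_lit 10) L90214 (by decide +kernel)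
theorem L90216 : W_30 (nat_lit 4) (nat_lit 0x3000080007800340000001000080000000000000000000000000000000) (nat_lit 0x0) (nat_lit 0x4000200018008000080004000000000000000000000000000000000000000) := T_30 (nat_lit 208) (nat_lit 207) (nat_lit 1) (nat_lit 7) (nat_lit 11) L90215 (by decide +kernel)
theorem L90217 : W_30 (nat_lit 5) (nat_lit 0x3000080007800300000001000080000000000000000000000000000000) (nat_lit 0x0) (nat_lit 0x40002000180080000e0004000000000000000000000000000000000000000) := T_30 (nat_lit 174) (nat_lit 173) (nat_lit 0) (nat_lit 7) (nat_lit 11) L90216 (by decide +kernel)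
theorem L90218 : W_30 (nat_lit 6) (nat_lit 0x1000080007800300000001000080000000000000000000000000000000) (nat_lit 0x0) (nat_lit 0x440022000180080000e0004000000000000000000000000000000000000000) := T_30 (nat_lit 229) (nat_lit 246) (nat_lit 7) (nat_lit 7) (nat_lit 10) L90217 (by decide +kernel)
theorem L90219 : W_30 (nat_lit 7) (nat_lit 0x1000080007000300000001000080000000000000000000000000000000) (nat_lit 0x0) (nat_lit 0x44002200018008c000e0004000000000000000000000000000000000000000) := T_30 (nat_lit 191) (nat_lit 190) (nat_lit 2) (nat_lit 3) (nat_lit 11) L90218 (by decide +kernel)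
theorem L90220 : W_30 (nat_lit 8) (nat_lit 0x1000080007000200000001000080000000000000000000000000000000) (nat_lit 0x0) (nat_lit 0x44002200018008c001e000c000000000000000000000000000000000000000) := T_30 (nat_lit 176) (nat_lit 159) (nat_lit 4) (nat_lit 7) (nat_lit 13) L90219 (by decide +kernel)
theorem L90240 : W_30 (nat_lit 2) (nat_lit 0x3000580016000300000001000080000000000000000000000000000000) (nat_lit 0x0) (nat_lit 0x28000080000000000000000000000000000000000000000000) := D_30 (nat_lit 195) (nat_lit 197) (nat_lit 175) (nat_lit 0) (nat_lit 10) (nat_lit 11) (nat_lit 0) (nat_lit 9) (nat_lit 11) (by decide +kernel)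
theorem L90241 : W_30 (nat_lit 3) (nat_lit 0x3000580016000200000001000080000000000000000000000000000000) (nat_lit 0x0) (nat_lit 0x28000180008000000000000000000000000000000000000000) := T_30 (nat_lit 176) (nat_lit 159) (nat_lit 4) (nat_lit 7) (nat_lit 13) L90240 (by decide +kernel)
theorem L90242 : W_30 (nat_lit 4) (nat_lit 0x1000580016000200000001000080000000000000000000000000000000) (nat_lit 0x0) (nat_lit 0x40002000000028000180008000000000000000000000000000000000000000) := T_30 (nat_lit 229) (nat_lit 246) (nat_lit 7) (nat_lit 7) (nat_lit 10) L90241 (by decide +kernel)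
theorem L90243 : W_30 (nat_lit 5) (nat_lit 0x1000180016000200000001000080000000000000000000000000000000) (nat_lit 0x0) (nat_lit 0x40002000600028000180008000000000000000000000000000000000000000) := T_30 (nat_lit 214) (nat_lit 213) (nat_lit 0) (nat_lit 10) (nat_lit 12) L90242 (by decide +kernel)
theorem L90244 : W_30 (nat_lit 2) (nat_lit 0x1000180016000300000001000080000000000000000000000000000000) (nat_lit 0x0) (nat_lit 0x28000080000000000000000000000000000000000000000000) := D_30 (nat_lit 195) (nat_lit 197) (nat_lit 175) (nat_lit 0) (nat_lit 10) (nat_lit 11) (nat_lit 0) (nat_lit 9) (nat_lit 11) (by decide +kernel)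
theorem L90245 : W_30 (nat_lit 3) (nat_lit 0x1000180016000200000001000080000000000000000000000000000000) (nat_lit 0x0) (nat_lit 0x28000180008000000000000000000000000000000000000000) := T_30 (nat_lit 176) (nat_lit 159) (nat_lit 4) (nat_lit 7) (nat_lit 13) L90244 (by decide +kernel)
theorem L90246 : W_30 (nat_lit 2) (nat_lit 0x3000380016000b00000001000080000000000000000000000000000000) (nat_lit 0x0) (nat_lit 0x40020000400000000000000000000000000000000000000000000) := D_30 (nat_lit 197) (nat_lit 210) (nat_lit 178) (nat_lit 2) (nat_lit 6) (nat_lit 12) (nat_lit 3) (nat_lit 6) (nat_lit 10) (by decide +kernel)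
theorem L90247 : W_30 (nat_lit 3) (nat_lit 0x3000380016000300000001000080000000000000000000000000000000) (nat_lit 0x0) (nat_lit 0x40020000c00040000000000000000000000000000000000000000) := T_30 (nat_lit 179) (nat_lit 162) (nat_lit 5) (nat_lit 9) (nat_lit 9) L90246 (by decide +kernel)
theorem L90248 : W_30 (nat_lit 4) (nat_lit 0x3000180016000300000001000080000000000000000000000000000000) (nat_lit 0x0) (nat_lit 0x640020000c00040000000000000000000000000000000000000000) := T_30 (nat_lit 213) (nat_lit 214) (nat_lit 0) (nat_lit 10) (nat_lit 12) L90247 (by decide +kernel)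
theorem L90249 : W_30 (nat_lit 5) (nat_lit 0x1000180016000300000001000080000000000000000000000000000000) (nat_lit 0x0) (nat_lit 0x40002000640020000c00040000000000000000000000000000000000000000) := T_30 (nat_lit 229) (nat_lit 246) (nat_lit 7) (nat_lit 7) (nat_lit 10) L90248 (by decide +kernel)
theorem L90250 : W_30 (nat_lit 6) (nat_lit 0x1000180016000200000001000080000000000000000000000000000000) (nat_lit 0x0) (nat_lit 0x40002000640020000d00048000000000000000000000000000000000000000) := T_30 (nat_lit 176) (nat_lit 159) (nat_lit 4) (nat_lit 7) (nat_lit 13) L90249 (by decide +kernel)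
theorem L90251 : W_30 (nat_lit 2) (nat_lit 0x3000380036000200040001000080000000000000000000000000000000) (nat_lit 0x0) (nat_lit 0xc8000000000000000000000000000000000000000000000000) := D_30 (nat_lit 198) (nat_lit 199) (nat_lit 195) (nat_lit 1) (nat_lit 12) (nat_lit 11) (nat_lit 1) (nat_lit 11) (nat_lit 11) (by decide +kernel)
theorem L90252 : W_30 (nat_lit 3) (nat_lit 0x3000380016000200040001000080000000000000000000000000000000) (nat_lit 0x0) (nat_lit 0x400e8000000000000000000000000000000000000000000000000) := T_30 (nat_lit 197) (nat_lit 210) (nat_lit 2) (nat_lit 6) (nat_lit 12) L90251 (by decide +kernel)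
theorem L90253 : W_30 (nat_lit 4) (nat_lit 0x3000380016000200000001000080000000000000000000000000000000) (nat_lit 0x0) (nat_lit 0x400e8000800040000000000000000000000000000000000000000) := T_30 (nat_lit 162) (nat_lit 179) (nat_lit 5) (nat_lit 9) (nat_lit 9) L90252 (by decide +kernel)
theorem L90254 : W_30 (nat_lit 5) (nat_lit 0x1000380016000200000001000080000000000000000000000000000000) (nat_lit 0x0) (nat_lit 0x400020000400e8000800040000000000000000000000000000000000000000) := T_30 (nat_lit 229) (nat_lit 246) (nat_lit 7) (nat_lit 7) (nat_lit 10) L90253 (by decide +kernel)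
theorem L90255 : W_30 (nat_lit 6) (nat_lit 0x1000180016000200000001000080000000000000000000000000000000) (nat_lit 0x0) (nat_lit 0x400020006400e8000800040000000000000000000000000000000000000000) := T_30 (nat_lit 213) (nat_lit 214) (nat_lit 0) (nat_lit 10) (nat_lit 12) L90254 (by decide +kernel)
theorem L90256 : W_30 (nat_lit 2) (nat_lit 0x700058001e000f00000001000080000000000000000000000000000000) (nat_lit 0x0) (nat_lit 0x8000840000000000000000000000000000000000000000000000000000) := D_30 (nat_lit 231) (nat_lit 215) (nat_lit 210) (nat_lit 2) (nat_lit 7) (nat_lit 13) (nat_lit 0) (nat_lit 10) (nat_lit 13) (by decide +kernel)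
theorem L90257 : W_30 (nat_lit 3) (nat_lit 0x300058001e000f00000001000080000000000000000000000000000000) (nat_lit 0x0) (nat_lit 0x8000c000840000000000000000000000000000000000000000000000000000) := T_30 (nat_lit 230) (nat_lit 247) (nat_lit 7) (nat_lit 8) (nat_lit 10) L90256 (by decide +kernel)
theorem L90258 : W_30 (nat_lit 4) (nat_lit 0x300058001e000b00000001000080000000000000000000000000000000) (nat_lit 0x0) (nat_lit 0x8000c000840000000400040000000000000000000000000000000000000000) := T_30 (nat_lit 178) (nat_lit 162) (nat_lit 6) (nat_lit 8) (nat_lit 13) L90257 (by decide +kernel)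
theorem L90259 : W_30 (nat_lit 5) (nat_lit 0x300058001e000300000001000080000000000000000000000000000000) (nat_lit 0x0) (nat_lit 0x8000c000840000001c00040000000000000000000000000000000000000000) := T_30 (nat_lit 179) (nat_lit 180) (nat_lit 2) (nat_lit 6) (nat_lit 11) L90258 (by decide +kernel)
theorem L90260 : W_30 (nat_lit 6) (nat_lit 0x100058001e000300000001000080000000000000000000000000000000) (nat_lit 0x0) (nat_lit 0xc000e000840000001c00040000000000000000000000000000000000000000) := T_30 (nat_lit 229) (nat_lit 246) (nat_lit 7) (nat_lit 7) (nat_lit 10) L90259 (by decide +kernel)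
theorem L90261 : W_30 (nat_lit 7) (nat_lit 0x1000580016000300000001000080000000000000000000000000000000) (nat_lit 0x0) (nat_lit 0xc000e000840008001c80040000000000000000000000000000000000000000) := T_30 (nat_lit 195) (nat_lit 175) (nat_lit 0) (nat_lit 9) (nat_lit 11) L90260 (by decide +kernel)
theorem L90262 : W_30 (nat_lit 8) (nat_lit 0x1000580016000200000001000080000000000000000000000000000000) (nat_lit 0x0) (nat_lit 0xc000e000840008001d80048000000000000000000000000000000000000000) := T_30 (nat_lit 176) (nat_lit 159) (nat_lit 4) (nat_lit 7) (nat_lit 13) L90261 (by decide +kernel)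
theorem L90263 : W_30 (nat_lit 9) (nat_lit 0x1000180016000200000001000080000000000000000000000000000000) (nat_lit 0x0) (nat_lit 0xc000e000e40008001d80048000000000000000000000000000000000000000) := T_30 (nat_lit 214) (nat_lit 213) (nat_lit 0) (nat_lit 10) (nat_lit 12) L90262 (by decide +kernel)
theorem L90264 : W_30 (nat_lit 10) (nat_lit 0x1000180006000200000001000080000000000000000000000000000000) (nat_lit 0x0) (nat_lit 0xc000e000e400f8001d80048000000000000000000000000000000000000000) := Q_30 (nat_lit 196) (C_30 L90243 (C_30 L90245 (C_30 L90250 (C_30 L90255 (C_30 L90263 N_30))))) (by decide +kernel)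
theorem L90265 : W_30 (nat_lit 2) (nat_lit 0x3c00180006000300000001000080000000000000000000000000000000) (nat_lit 0x0) (nat_lit 0xc000000040000000000000000000000000000000000000000000000000000) := D_30 (nat_lit 243) (nat_lit 242) (nat_lit 210) (nat_lit 1) (nat_lit 8) (nat_lit 13) (nat_lit 5) (nat_lit 6) (nat_lit 10) (by decide +kernel)
theorem L90266 : W_30 (nat_lit 3) (nat_lit 0x1c00180006000300000001000080000000000000000000000000000000) (nat_lit 0x0) (nat_lit 0x4c002000040000000000000000000000000000000000000000000000000000) := T_30 (nat_lit 229) (nat_lit 246) (nat_lit 7) (nat_lit 7) (nat_lit 10) L90265 (by decide +kernel)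
theorem L90267 : W_30 (nat_lit 4) (nat_lit 0x1c00180006000200000001000080000000000000000000000000000000) (nat_lit 0x0) (nat_lit 0x4c002000040000000100008000000000000000000000000000000000000000) := T_30 (nat_lit 176) (nat_lit 159) (nat_lit 4) (nat_lit 7) (nat_lit 13) L90266 (by decide +kernel)
theorem L90268 : W_30 (nat_lit 5) (nat_lit 0x1800180006000200000001000080000000000000000000000000000000) (nat_lit 0x0) (nat_lit 0x4c002600040000000100008000000000000000000000000000000000000000) := T_30 (nat_lit 226) (nat_lit 225) (nat_lit 2) (nat_lit 4) (nat_lit 13) L90267 (by decide +kernel)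
theorem L90269 : W_30 (nat_lit 6) (nat_lit 0x1000180006000200000001000080000000000000000000000000000000) (nat_lit 0x0) (nat_lit 0x5c002e00040000000100008000000000000000000000000000000000000000) := T_30 (nat_lit 227) (nat_lit 244) (nat_lit 5) (nat_lit 7) (nat_lit 10) L90268 (by decide +kernel)
theorem L90270 : W_30 (nat_lit 2) (nat_lit 0x1c00180006000300000001000080000000000000000000000000000000) (nat_lit 0x0) (nat_lit 0x640000000000000000000000000000000000000000000000000000) := D_30 (nat_lit 213) (nat_lit 214) (nat_lit 210) (nat_lit 1) (nat_lit 10) (nat_lit 12) (nat_lit 1) (nat_lit 9) (nat_lit 12) (by decide +kernel)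
theorem L90271 : W_30 (nat_lit 3) (nat_lit 0x1800180006000300000001000080000000000000000000000000000000) (nat_lit 0x0) (nat_lit 0x600640000000000000000000000000000000000000000000000000000) := T_30 (nat_lit 226) (nat_lit 225) (nat_lit 2) (nat_lit 4) (nat_lit 13) L90270 (by decide +kernel)
theorem L90272 : W_30 (nat_lit 4) (nat_lit 0x1000180006000300000001000080000000000000000000000000000000) (nat_lit 0x0) (nat_lit 0x10000e00640000000000000000000000000000000000000000000000000000) := T_30 (nat_lit 227) (nat_lit 244) (nat_lit 5) (nat_lit 7) (nat_lit 10) L90271 (by decide +kernel)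
theorem L90273 : W_30 (nat_lit 5) (nat_lit 0x1000180006000200000001000080000000000000000000000000000000) (nat_lit 0x0) (nat_lit 0x10000e00640000000100008000000000000000000000000000000000000000) := T_30 (nat_lit 176) (nat_lit 159) (nat_lit 4) (nat_lit 7) (nat_lit 13) L90272 (by decide +kernel)
theorem L90274 : W_30 (nat_lit 11) (nat_lit 0x1000080006000200000001000080000000000000000000000000000000) (nat_lit 0x0) (nat_lit 0xdc00ee00f400f8001d80048000000000000000000000000000000000000000) := Q_30 (nat_lit 212) (C_30 L90264 (C_30 L6307 (C_30 L90269 (C_30 L90273 N_30)))) (by decide +kernel)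
theorem L90275 : W_30 (nat_lit 2) (nat_lit 0x100008000f000300000001000080000000000000000000000000000000) (nat_lit 0x0) (nat_lit 0x100000c0000000000000000000000000000000000000000000) := D_30 (nat_lit 175) (nat_lit 174) (nat_lit 196) (nat_lit 3) (nat_lit 4) (nat_lit 10) (nat_lit 0) (nat_lit 9) (nat_lit 11) (by decide +kernel)
theorem L90276 : W_30 (nat_lit 3) (nat_lit 0x100008000f000200000001000080000000000000000000000000000000) (nat_lit 0x0) (nat_lit 0x100001c0008000000000000000000000000000000000000000) := T_30 (nat_lit 176) (nat_lit 159) (nat_lit 4) (nat_lit 7) (nat_lit 13) L90275 (by decide +kernel)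
theorem L90277 : W_30 (nat_lit 2) (nat_lit 0x180008000f000780000001000080000000000000000000000000000000) (nat_lit 0x0) (nat_lit 0x40000000000006000000000000000000000000000000000000000) := D_30 (nat_lit 158) (nat_lit 210) (nat_lit 157) (nat_lit 4) (nat_lit 6) (nat_lit 13) (nat_lit 0) (nat_lit 8) (nat_lit 10) (by decide +kernel)
theorem L90278 : W_30 (nat_lit 3) (nat_lit 0x100008000f000780000001000080000000000000000000000000000000) (nat_lit 0x0) (nat_lit 0x10000800040000000000006000000000000000000000000000000000000000) := T_30 (nat_lit 227) (nat_lit 244) (nat_lit 5) (nat_lit 7) (nat_lit 10) L90277 (by decide +kernel)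
theorem L90279 : W_30 (nat_lit 4) (nat_lit 0x100008000f000700000001000080000000000000000000000000000000) (nat_lit 0x0) (nat_lit 0x100008000400000000c0006000000000000000000000000000000000000000) := T_30 (nat_lit 175) (nat_lit 174) (nat_lit 3) (nat_lit 4) (nat_lit 10) L90278 (by decide +kernel)
theorem L90280 : W_30 (nat_lit 5) (nat_lit 0x100008000f000600000001000080000000000000000000000000000000) (nat_lit 0x0) (nat_lit 0x100008000400000001c000e000000000000000000000000000000000000000) := T_30 (nat_lit 176) (nat_lit 159) (nat_lit 4) (nat_lit 7) (nat_lit 13) L90279 (by decide +kernel)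
theorem L90281 : W_30 (nat_lit 6) (nat_lit 0x100008000f000200000001000080000000000000000000000000000000) (nat_lit 0x0) (nat_lit 0x10000800040000000dc000e000000000000000000000000000000000000000) := T_30 (nat_lit 178) (nat_lit 179) (nat_lit 2) (nat_lit 5) (nat_lit 11) L90280 (by decide +kernel)
theorem L90282 : W_30 (nat_lit 2) (nat_lit 0x180008000f000b00000001000080000000000000000000000000000000) (nat_lit 0x0) (nat_lit 0x30001000000000000000000000000000000000000000000000) := D_30 (nat_lit 196) (nat_lit 197) (nat_lit 180) (nat_lit 0) (nat_lit 10) (nat_lit 11) (nat_lit 2) (nat_lit 6) (nat_lit 11) (by decide +kernel)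
theorem L90283 : W_30 (nat_lit 3) (nat_lit 0x180008000f000300000001000080000000000000000000000000000000) (nat_lit 0x0) (nat_lit 0x30001c00000000000000000000000000000000000000000000) := T_30 (nat_lit 179) (nat_lit 178) (nat_lit 2) (nat_lit 5) (nat_lit 11) L90282 (by decide +kernel)
theorem L90284 : W_30 (nat_lit 4) (nat_lit 0x180008000f000200000001000080000000000000000000000000000000) (nat_lit 0x0) (nat_lit 0x30001d00008000000000000000000000000000000000000000) := T_30 (nat_lit 176) (nat_lit 159) (nat_lit 4) (nat_lit 7) (nat_lit 13) L90283 (by decide +kernel)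
theorem L90285 : W_30 (nat_lit 5) (nat_lit 0x100008000f000200000001000080000000000000000000000000000000) (nat_lit 0x0) (nat_lit 0x10000800000030001d00008000000000000000000000000000000000000000) := T_30 (nat_lit 227) (nat_lit 244) (nat_lit 5) (nat_lit 7) (nat_lit 10) L90284 (by decide +kernel)
theorem L90286 : W_30 (nat_lit 10) (nat_lit 0x1000080007000200000001000080000000000000000000000000000000) (nat_lit 0x0) (nat_lit 0x50002801d40078001dc000e000000000000000000000000000000000000000) := Q_30 (nat_lit 195) (C_30 L90276 (C_30 L90170 (C_30 L90281 (C_30 L90285 N_30)))) (by decide +kernel)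
theorem L90287 : W_30 (nat_lit 11) (nat_lit 0x1000080006000200000001000080000000000000000000000000000000) (nat_lit 0x0) (nat_lit 0x54002a01d5c079c01de000e000000000000000000000000000000000000000) := Q_30 (nat_lit 192) (C_30 L90220 (C_30 L90162 (C_30 L90286 (C_30 L78632 N_30)))) (by decide +kernel)
theorem L90288 : W_30 (nat_lit 8) (nat_lit 0x1000080007000200000001000080000000000000000000000000000000) (nat_lit 0x0) (nat_lit 0x10000e00340078001dc000e000000000000000000000000000000000000000) := Q_30 (nat_lit 195) (C_30 L90276 (C_30 L90285 (C_30 L90194 (C_30 L90281 N_30)))) (by decide +kernel)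
theorem L90289 : W_30 (nat_lit 9) (nat_lit 0x1000080006000200000001000080000000000000000000000000000000) (nat_lit 0x0) (nat_lit 0x10000e00340079c01dc000e000000000000000000000000000000000000000) := Q_30 (nat_lit 192) (C_30 L78632 (C_30 L78550 (C_30 L78630 (C_30 L90288 N_30)))) (by decide +kernel)
theorem L90292 : W_30 (nat_lit 4) (nat_lit 0x3c000e000200000001000080000000000000000000000000000000) (nat_lit 0x0) (nat_lit 0x10000c000e000000000000400000000000000000000000000000000000000000000) := T_30 (nat_lit 229) (nat_lit 246) (nat_lit 4) (nat_lit 8) (nat_lit 14) L89779 (by decide +kernel)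
theorem L90293 : W_30 (nat_lit 5) (nat_lit 0x3c000c000200000001000080000000000000000000000000000000) (nat_lit 0x0) (nat_lit 0x10000c000e000000003000400000000000000000000000000000000000000000000) := T_30 (nat_lit 193) (nat_lit 192) (nat_lit 3) (nat_lit 5) (nat_lit 11) L90292 (by decide +kernel)
theorem L90294 : W_30 (nat_lit 2) (nat_lit 0x400000003c001e000b00008001000080000000000000000000000000000000) (nat_lit 0x0) (nat_lit 0x400004000200000000000000000000000000000000000) := D_30 (nat_lit 158) (nat_lit 141) (nat_lit 178) (nat_lit 4) (nat_lit 6) (nat_lit 12) (nat_lit 0) (nat_lit 9) (nat_lit 10) (by decide +kernel)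
theorem L90295 : W_30 (nat_lit 3) (nat_lit 0x400000003c001e000b00000001000080000000000000000000000000000000) (nat_lit 0x0) (nat_lit 0x40000c000600000000000000000000000000000000000) := T_30 (nat_lit 159) (nat_lit 142) (nat_lit 7) (nat_lit 6) (nat_lit 8) L90294 (by decide +kernel)
theorem L90296 : W_30 (nat_lit 4) (nat_lit 0x400000003c001e000a00000001000080000000000000000000000000000000) (nat_lit 0x0) (nat_lit 0x58000c000600000000000000000000000000000000000) := T_30 (nat_lit 176) (nat_lit 175) (nat_lit 0) (nat_lit 9) (nat_lit 11) L90295 (by decide +kernel)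
theorem L90297 : W_30 (nat_lit 5) (nat_lit 0x400000003c001e000200000001000080000000000000000000000000000000) (nat_lit 0x0) (nat_lit 0x1d8000c000600000000000000000000000000000000000) := T_30 (nat_lit 179) (nat_lit 180) (nat_lit 2) (nat_lit 6) (nat_lit 11) L90296 (by decide +kernel)
theorem L90298 : W_30 (nat_lit 6) (nat_lit 0x3c001e000200000001000080000000000000000000000000000000) (nat_lit 0x0) (nat_lit 0x40002000000000001d8000c000600000000000000000000000000000000000) := T_30 (nat_lit 246) (nat_lit 229) (nat_lit 4) (nat_lit 8) (nat_lit 14) L90297 (by decide +kernel)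
theorem L90299 : W_30 (nat_lit 7) (nat_lit 0x3c001c000200000001000080000000000000000000000000000000) (nat_lit 0x0) (nat_lit 0x40002000000003001d8000c000600000000000000000000000000000000000) := T_30 (nat_lit 193) (nat_lit 192) (nat_lit 3) (nat_lit 5) (nat_lit 11) L90298 (by decide +kernel)
theorem L90300 : W_30 (nat_lit 8) (nat_lit 0x3c000c000200000001000080000000000000000000000000000000) (nat_lit 0x0) (nat_lit 0x40002000000033001d8000c000600000000000000000000000000000000000) := T_30 (nat_lit 196) (nat_lit 197) (nat_lit 2) (nat_lit 6) (nat_lit 12) L90299 (by decide +kernel)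
theorem L90301 : W_30 (nat_lit 9) (nat_lit 0x3c0004000200000001000080000000000000000000000000000000) (nat_lit 0x0) (nat_lit 0x18000c000e00000003b001d8000c000600000000000000000000000000000000000) := Q_30 (nat_lit 195) (C_30 L81937 (C_30 L81791 (C_30 L90293 (C_30 L90300 N_30)))) (by decide +kernel)
theorem L90302 : W_30 (nat_lit 10) (nat_lit 0x380004000200000001000080000000000000000000000000000000) (nat_lit 0x0) (nat_lit 0x40003a001f000ec0004003b001d8000c000600000000000000000000000000000000000) := Q_30 (nat_lit 210) (C_30 L90301 (C_30 L82070 (C_30 L80629 N_30))) (by decide +kernel)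
theorem L90303 : W_30 (nat_lit 11) (nat_lit 0x180004000200000001000080000000000000000000000000000000) (nat_lit 0x0) (nat_lit 0x40003a001f003ec00e400fb001d8000c000600000000000000000000000000000000000) := Q_30 (nat_lit 213) (C_30 L82174 (C_30 L82090 (C_30 L80613 (C_30 L90302 (C_30 L80633 N_30))))) (by decide +kernel)
theorem L90304 : W_30 (nat_lit 2) (nat_lit 0x1c0006000200010001000080000000000000000000000000000000) (nat_lit 0x0) (nat_lit 0x600001000000000000000000000000000000000000000000000000) := D_30 (nat_lit 213) (nat_lit 192) (nat_lit 214) (nat_lit 0) (nat_lit 9) (nat_lit 12) (nat_lit 0) (nat_lit 10) (nat_lit 12) (by decide +kernel)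
theorem L90305 : W_30 (nat_lit 3) (nat_lit 0x180006000200010001000080000000000000000000000000000000) (nat_lit 0x0) (nat_lit 0x800640001000000000000000000000000000000000000000000000000) := T_30 (nat_lit 210) (nat_lit 227) (nat_lit 5) (nat_lit 7) (nat_lit 9) L90304 (by decide +kernel)
theorem L90306 : W_30 (nat_lit 4) (nat_lit 0x180006000200000001000080000000000000000000000000000000) (nat_lit 0x0) (nat_lit 0x800640001000000010000800000000000000000000000000000000000) := T_30 (nat_lit 160) (nat_lit 143) (nat_lit 6) (nat_lit 7) (nat_lit 11) L90305 (by decide +kernel)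
theorem L90307 : W_30 (nat_lit 10) (nat_lit 0x1c0016000200000001000080000000000000000000000000000000) (nat_lit 0x0) (nat_lit 0x2800198001f000f0011c000000000000000000000000000000) := T_30 (nat_lit 195) (nat_lit 197) (nat_lit 1) (nat_lit 10) (nat_lit 11) L90087 (by decide +kernel)
theorem L90308 : W_30 (nat_lit 2) (nat_lit 0x40003c001e000200010001000080000000000000000000000000000000) (nat_lit 0x0) (nat_lit 0x1000080000000000000000400000000000000000000000000000000000000000000) := D_30 (nat_lit 247) (nat_lit 178) (nat_lit 264) (nat_lit 4) (nat_lit 9) (nat_lit 14) (nat_lit 4) (nat_lit 9) (nat_lit 15) (by decide +kernel)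
theorem L90309 : W_30 (nat_lit 3) (nat_lit 0x3c001e000200010001000080000000000000000000000000000000) (nat_lit 0x0) (nat_lit 0x100008000c000000000000400000000000000000000000000000000000000000000) := T_30 (nat_lit 230) (nat_lit 231) (nat_lit 3) (nat_lit 6) (nat_lit 12) L90308 (by decide +kernel)
theorem L90310 : W_30 (nat_lit 4) (nat_lit 0x1c001e000200010001000080000000000000000000000000000000) (nat_lit 0x0) (nat_lit 0x100008000c000600000000400000000000000000000000000000000000000000000) := T_30 (nat_lit 213) (nat_lit 214) (nat_lit 3) (nat_lit 6) (nat_lit 11) L90309 (by decide +kernel)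
theorem L90311 : W_30 (nat_lit 5) (nat_lit 0x1c001e000200000001000080000000000000000000000000000000) (nat_lit 0x0) (nat_lit 0x100008000c000600000000400010000800000000000000000000000000000000000) := T_30 (nat_lit 160) (nat_lit 143) (nat_lit 7) (nat_lit 7) (nat_lit 8) L90310 (by decide +kernel)
theorem L90312 : W_30 (nat_lit 2) (nat_lit 0x40003c001e000300000001000080000000000000000000000000000000) (nat_lit 0x0) (nat_lit 0x1000080000000000000000400000000000000000000000000000000000000000000) := D_30 (nat_lit 247) (nat_lit 178) (nat_lit 264) (nat_lit 4) (nat_lit 9) (nat_lit 14) (nat_lit 4) (nat_lit 9) (nat_lit 15) (by decide +kernel)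
theorem L90313 : W_30 (nat_lit 3) (nat_lit 0x3c001e000300000001000080000000000000000000000000000000) (nat_lit 0x0) (nat_lit 0x100008000c000000000000400000000000000000000000000000000000000000000) := T_30 (nat_lit 230) (nat_lit 231) (nat_lit 3) (nat_lit 6) (nat_lit 12) L90312 (by decide +kernel)
theorem L90314 : W_30 (nat_lit 4) (nat_lit 0x1c001e000300000001000080000000000000000000000000000000) (nat_lit 0x0) (nat_lit 0x100008000c000600000000400000000000000000000000000000000000000000000) := T_30 (nat_lit 213) (nat_lit 214) (nat_lit 3) (nat_lit 6) (nat_lit 11) L90313 (by decide +kernel)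
theorem L90315 : W_30 (nat_lit 5) (nat_lit 0x1c001e000200000001000080000000000000000000000000000000) (nat_lit 0x0) (nat_lit 0x100008000c000600000000580000000000000000000000000000000000000000000) := T_30 (nat_lit 176) (nat_lit 175) (nat_lit 0) (nat_lit 9) (nat_lit 11) L90314 (by decide +kernel)
theorem L90316 : W_30 (nat_lit 10) (nat_lit 0x1c0016000200000001000080000000000000000000000000000000) (nat_lit 0x0) (nat_lit 0x100008000c000600008001d8001f000f0011c000000000000000000000000000000) := Q_30 (nat_lit 195) (C_30 L90087 (C_30 L90311 (C_30 L90315 N_30))) (by decide +kernel)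
theorem L90317 : W_30 (nat_lit 11) (nat_lit 0x1c0006000200000001000080000000000000000000000000000000) (nat_lit 0x0) (nat_lit 0x100008000c000600038001d8001f000f0011c000000000000000000000000000000) := Q_30 (nat_lit 196) (C_30 L81782 (C_30 L90307 (C_30 L90316 N_30))) (by decide +kernel)
theorem L90318 : W_30 (nat_lit 12) (nat_lit 0x180006000200000001000080000000000000000000000000000000) (nat_lit 0x0) (nat_lit 0x100009000cc00640038001d8001f000f0011c000000000000000000000000000000) := Q_30 (nat_lit 210) (C_30 L90317 (C_30 L82180 (C_30 L78921 N_30))) (by decide +kernel)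
theorem L90319 : W_30 (nat_lit 11) (nat_lit 0x1c0006000200000001000080000000000000000000000000000000) (nat_lit 0x0) (nat_lit 0x39801dc001f000f0011c000000000000000000000000000000) := Q_30 (nat_lit 195) (C_30 L90088 (C_30 L90079 (C_30 L90069 (C_30 L90063 (C_30 L90073 N_30))))) (by decide +kernel)
theorem L90320 : W_30 (nat_lit 2) (nat_lit 0x1c0006000200000001000080000000000000000000000000000000) (nat_lit 0x0) (nat_lit 0x10000800000000000000010000000000000000000000000000000000000000) := D_30 (nat_lit 227) (nat_lit 160) (nat_lit 244) (nat_lit 5) (nat_lit 7) (nat_lit 9) (nat_lit 6) (nat_lit 6) (nat_lit 14) (by decide +kernel)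
theorem L90321 : W_30 (nat_lit 2) (nat_lit 0x100000001c001f000200000001000080000000000000000000000000000000) (nat_lit 0x0) (nat_lit 0x1c0000000000000000000000000000000000000000000) := D_30 (nat_lit 175) (nat_lit 176) (nat_lit 174) (nat_lit 0) (nat_lit 9) (nat_lit 11) (nat_lit 0) (nat_lit 8) (nat_lit 11) (by decide +kernel)
theorem L90322 : W_30 (nat_lit 3) (nat_lit 0x100000001c001e000200000001000080000000000000000000000000000000) (nat_lit 0x0) (nat_lit 0x18001c0000000000000000000000000000000000000000000) := T_30 (nat_lit 192) (nat_lit 191) (nat_lit 3) (nat_lit 4) (nat_lit 11) L90321 (by decide +kernel)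
theorem L90323 : W_30 (nat_lit 4) (nat_lit 0x100000001c000e000200000001000080000000000000000000000000000000) (nat_lit 0x0) (nat_lit 0x318001c0000000000000000000000000000000000000000000) := T_30 (nat_lit 196) (nat_lit 197) (nat_lit 1) (nat_lit 10) (nat_lit 11) L90322 (by decide +kernel)
theorem L90324 : W_30 (nat_lit 5) (nat_lit 0x1c000e000200000001000080000000000000000000000000000000) (nat_lit 0x0) (nat_lit 0x100008000000318001c0000000000000000000000000000000000000000000) := T_30 (nat_lit 244) (nat_lit 227) (nat_lit 6) (nat_lit 6) (nat_lit 14) L90323 (by decide +kernel)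
theorem L90325 : W_30 (nat_lit 2) (nat_lit 0x8001c000f000680000001000080000000000000000000000000000000) (nat_lit 0x0) (nat_lit 0x100004000200000000000000000000000000000000000) := D_30 (nat_lit 158) (nat_lit 141) (nat_lit 176) (nat_lit 7) (nat_lit 5) (nat_lit 8) (nat_lit 4) (nat_lit 6) (nat_lit 13) (by decide +kernel)
theorem L90326 : W_30 (nat_lit 3) (nat_lit 0x8001c000f000600000001000080000000000000000000000000000000) (nat_lit 0x0) (nat_lit 0x1c0004000200000000000000000000000000000000000) := T_30 (nat_lit 175) (nat_lit 174) (nat_lit 0) (nat_lit 8) (nat_lit 11) L90325 (by decide +kernel)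
theorem L90327 : W_30 (nat_lit 4) (nat_lit 0x8001c000f000200000001000080000000000000000000000000000000) (nat_lit 0x0) (nat_lit 0xdc0004000200000000000000000000000000000000000) := T_30 (nat_lit 178) (nat_lit 179) (nat_lit 2) (nat_lit 5) (nat_lit 11) L90326 (by decide +kernel)
theorem L90328 : W_30 (nat_lit 5) (nat_lit 0x8001c000e000200000001000080000000000000000000000000000000) (nat_lit 0x0) (nat_lit 0x1800dc0004000200000000000000000000000000000000000) := T_30 (nat_lit 192) (nat_lit 191) (nat_lit 3) (nat_lit 4) (nat_lit 11) L90327 (by decide +kernel)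
theorem L90329 : W_30 (nat_lit 6) (nat_lit 0x1c000e000200000001000080000000000000000000000000000000) (nat_lit 0x0) (nat_lit 0x10000800000001800dc0004000200000000000000000000000000000000000) := T_30 (nat_lit 227) (nat_lit 244) (nat_lit 6) (nat_lit 6) (nat_lit 14) L90328 (by decide +kernel)
theorem L90330 : W_30 (nat_lit 2) (nat_lit 0x1c001f000200000001000080000000000000000000000000000000) (nat_lit 0x0) (nat_lit 0x1c00000000000000000000000000000000000000000000) := D_30 (nat_lit 179) (nat_lit 178) (nat_lit 180) (nat_lit 2) (nat_lit 5) (nat_lit 11) (nat_lit 2) (nat_lit 6) (nat_lit 11) (by decide +kernel)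
theorem L90331 : W_30 (nat_lit 3) (nat_lit 0x1c000f000200000001000080000000000000000000000000000000) (nat_lit 0x0) (nat_lit 0x30001c00000000000000000000000000000000000000000000) := T_30 (nat_lit 196) (nat_lit 197) (nat_lit 1) (nat_lit 10) (nat_lit 11) L90330 (by decide +kernel)
theorem L90332 : W_30 (nat_lit 4) (nat_lit 0x1c000e000200000001000080000000000000000000000000000000) (nat_lit 0x0) (nat_lit 0x31801c00000000000000000000000000000000000000000000) := T_30 (nat_lit 192) (nat_lit 191) (nat_lit 3) (nat_lit 4) (nat_lit 11) L90331 (by decide +kernel)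
theorem L90333 : W_30 (nat_lit 2) (nat_lit 0x100000001c001e000b00008001000080000000000000000000000000000000) (nat_lit 0x0) (nat_lit 0x400004000200000000000000000000000000000000000) := D_30 (nat_lit 158) (nat_lit 141) (nat_lit 178) (nat_lit 4) (nat_lit 6) (nat_lit 12) (nat_lit 0) (nat_lit 9) (nat_lit 10) (by decide +kernel)
theorem L90334 : W_30 (nat_lit 3) (nat_lit 0x100000001c001e000b00000001000080000000000000000000000000000000) (nat_lit 0x0) (nat_lit 0x40000c000600000000000000000000000000000000000) := T_30 (nat_lit 159) (nat_lit 142) (nat_lit 7) (nat_lit 6) (nat_lit 8) L90333 (by decide +kernel)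
theorem L90335 : W_30 (nat_lit 4) (nat_lit 0x100000001c001e000a00000001000080000000000000000000000000000000) (nat_lit 0x0) (nat_lit 0x58000c000600000000000000000000000000000000000) := T_30 (nat_lit 176) (nat_lit 175) (nat_lit 0) (nat_lit 9) (nat_lit 11) L90334 (by decide +kernel)
theorem L90336 : W_30 (nat_lit 5) (nat_lit 0x100000001c001e000200000001000080000000000000000000000000000000) (nat_lit 0x0) (nat_lit 0x1d8000c000600000000000000000000000000000000000) := T_30 (nat_lit 179) (nat_lit 180) (nat_lit 2) (nat_lit 6) (nat_lit 11) L90335 (by decide +kernel)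
theorem L90337 : W_30 (nat_lit 6) (nat_lit 0x100000001c000e000200000001000080000000000000000000000000000000) (nat_lit 0x0) (nat_lit 0x30001d8000c000600000000000000000000000000000000000) := T_30 (nat_lit 196) (nat_lit 197) (nat_lit 1) (nat_lit 10) (nat_lit 11) L90336 (by decide +kernel)
theorem L90338 : W_30 (nat_lit 7) (nat_lit 0x1c000e000200000001000080000000000000000000000000000000) (nat_lit 0x0) (nat_lit 0x10000800000030001d8000c000600000000000000000000000000000000000) := T_30 (nat_lit 244) (nat_lit 227) (nat_lit 6) (nat_lit 6) (nat_lit 14) L90337 (by decide +kernel)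
theorem L90339 : W_30 (nat_lit 8) (nat_lit 0x1c0006000200000001000080000000000000000000000000000000) (nat_lit 0x0) (nat_lit 0x10000800000039801dc000c000600000000000000000000000000000000000) := Q_30 (nat_lit 195) (C_30 L90324 (C_30 L90329 (C_30 L90332 (C_30 L90338 N_30)))) (by decide +kernel)
theorem L90340 : W_30 (nat_lit 12) (nat_lit 0x180006000200000001000080000000000000000000000000000000) (nat_lit 0x0) (nat_lit 0x10000800040039801dc001f000f0011c000000000000000000000000000000) := Q_30 (nat_lit 210) (C_30 L90319 (C_30 L82180 (C_30 L90320 (C_30 L90339 N_30)))) (by decide +kernel)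
theorem L90341 : W_30 (nat_lit 13) (nat_lit 0x180004000200000001000080000000000000000000000000000000) (nat_lit 0x0) (nat_lit 0x100009000cc0064003b801dc001f000f0011c000000000000000000000000000000) := Q_30 (nat_lit 193) (C_30 L90306 (C_30 L80590 (C_30 L90318 (C_30 L90340 N_30)))) (by decide +kernel)
theorem L90342 : W_30 (nat_lit 14) (nat_lit 0x80004000200000001000080000000000000000000000000000000) (nat_lit 0x0) (nat_lit 0x40003a001f003ec00f400fb801dc001f000f0011c000000000000000000000000000000) := Q_30 (nat_lit 212) (C_30 L80586 (C_30 L80584 (C_30 L90303 (C_30 L90341 N_30)))) (by decide +kernel)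
theorem L90345 : W_30 (nat_lit 2) (nat_lit 0x4000000010003c000200000001000080000000000000000000000000000000) (nat_lit 0x0) (nat_lit 0xc0040000000000000000000000000000000000000000000000000) := D_30 (nat_lit 211) (nat_lit 210) (nat_lit 198) (nat_lit 1) (nat_lit 10) (nat_lit 11) (nat_lit 1) (nat_lit 11) (nat_lit 11) (by decide +kernel)
theorem L90346 : W_30 (nat_lit 3) (nat_lit 0x4000000010001c000200000001000080000000000000000000000000000000) (nat_lit 0x0) (nat_lit 0xc0060000100000000000000000000000000000000000000000000) := T_30 (nat_lit 197) (nat_lit 176) (nat_lit 0) (nat_lit 10) (nat_lit 11) L90345 (by decide +kernel)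
theorem L90347 : W_30 (nat_lit 4) (nat_lit 0x10001c000200000001000080000000000000000000000000000000) (nat_lit 0x0) (nat_lit 0x400020000c0060000100000000000000000000000000000000000000000000) := T_30 (nat_lit 246) (nat_lit 229) (nat_lit 4) (nat_lit 8) (nat_lit 14) L90346 (by decide +kernel)
theorem L90348 : W_30 (nat_lit 2) (nat_lit 0x4000000012001f000b00000001000080000000000000000000000000000000) (nat_lit 0x0) (nat_lit 0x80000c00000000000000000000000000000000000000000000000) := D_30 (nat_lit 191) (nat_lit 190) (nat_lit 211) (nat_lit 2) (nat_lit 3) (nat_lit 11) (nat_lit 3) (nat_lit 4) (nat_lit 11) (by decide +kernel)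
theorem L90349 : W_30 (nat_lit 3) (nat_lit 0x4000000012001e000b00000001000080000000000000000000000000000000) (nat_lit 0x0) (nat_lit 0x90001c00000000000000000000000000000000000000000000000) := T_30 (nat_lit 192) (nat_lit 208) (nat_lit 1) (nat_lit 8) (nat_lit 11) L90348 (by decide +kernel)
theorem L90350 : W_30 (nat_lit 4) (nat_lit 0x4000000012001e000a00000001000080000000000000000000000000000000) (nat_lit 0x0) (nat_lit 0x90001c00180000000000000000000000000000000000000000000) := T_30 (nat_lit 176) (nat_lit 175) (nat_lit 0) (nat_lit 9) (nat_lit 11) L90349 (by decide +kernel)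
theorem L90351 : W_30 (nat_lit 5) (nat_lit 0x4000000010001e000a00000001000080000000000000000000000000000000) (nat_lit 0x0) (nat_lit 0xf0001c00180000000000000000000000000000000000000000000) := T_30 (nat_lit 209) (nat_lit 210) (nat_lit 1) (nat_lit 9) (nat_lit 11) L90350 (by decide +kernel)
theorem L90352 : W_30 (nat_lit 6) (nat_lit 0x4000000010001e000200000001000080000000000000000000000000000000) (nat_lit 0x0) (nat_lit 0xf0001c01980000000000000000000000000000000000000000000) := T_30 (nat_lit 179) (nat_lit 180) (nat_lit 2) (nat_lit 6) (nat_lit 11) L90351 (by decide +kernel)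
theorem L90353 : W_30 (nat_lit 7) (nat_lit 0x10001e000200000001000080000000000000000000000000000000) (nat_lit 0x0) (nat_lit 0x400020000f0001c01980000000000000000000000000000000000000000000) := T_30 (nat_lit 246) (nat_lit 229) (nat_lit 4) (nat_lit 8) (nat_lit 14) L90352 (by decide +kernel)
theorem L90354 : W_30 (nat_lit 8) (nat_lit 0x10001c000200000001000080000000000000000000000000000000) (nat_lit 0x0) (nat_lit 0x400020006f0003c01980040000000000000000000000000000000000000000) := Q_30 (nat_lit 193) (C_30 L85645 (C_30 L80283 (C_30 L90353 N_30))) (by decide +kernel)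
theorem L90355 : W_30 (nat_lit 6) (nat_lit 0x10001c000200000001000080000000000000000000000000000000) (nat_lit 0x0) (nat_lit 0x4000e00022003100080004000000000000000000000000000000000000) := T_30 (nat_lit 197) (nat_lit 176) (nat_lit 0) (nat_lit 10) (nat_lit 11) L85659 (by decide +kernel)
theorem L90356 : W_30 (nat_lit 9) (nat_lit 0x10000c000200000001000080000000000000000000000000000000) (nat_lit 0x0) (nat_lit 0xc0006001ef00f3c079800c0004000000000000000000000000000000000000) := Q_30 (nat_lit 196) (C_30 L86999 (C_30 L85631 (C_30 L90347 (C_30 L90354 (C_30 L90355 N_30))))) (by decide +kernel)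
theorem L90357 : W_30 (nat_lit 2) (nat_lit 0x18000c000380018001000080000000000000000000000000000000) (nat_lit 0x0) (nat_lit 0x32000000000000000000000000000000000000000000000000) := D_30 (nat_lit 196) (nat_lit 197) (nat_lit 193) (nat_lit 0) (nat_lit 10) (nat_lit 11) (nat_lit 0) (nat_lit 9) (nat_lit 11) (by decide +kernel)
theorem L90358 : W_30 (nat_lit 3) (nat_lit 0x18000c000300018001000080000000000000000000000000000000) (nat_lit 0x0) (nat_lit 0x320000c0000000000000000000000000000000000000000000) := T_30 (nat_lit 175) (nat_lit 174) (nat_lit 3) (nat_lit 4) (nat_lit 10) L90357 (by decide +kernel)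
theorem L90359 : W_30 (nat_lit 4) (nat_lit 0x18000c000200018001000080000000000000000000000000000000) (nat_lit 0x0) (nat_lit 0x10000000320001c0000000000000000000000000000000000000000000) := T_30 (nat_lit 176) (nat_lit 228) (nat_lit 4) (nat_lit 7) (nat_lit 13) L90358 (by decide +kernel)
theorem L90360 : W_30 (nat_lit 5) (nat_lit 0x18000c000200010001000080000000000000000000000000000000) (nat_lit 0x0) (nat_lit 0x10000000320001c0008000400000000000000000000000000000000000) := T_30 (nat_lit 159) (nat_lit 142) (nat_lit 4) (nat_lit 7) (nat_lit 12) L90359 (by decide +kernel)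
theorem L90361 : W_30 (nat_lit 6) (nat_lit 0x10000c000200010001000080000000000000000000000000000000) (nat_lit 0x0) (nat_lit 0x30000800320001c0008000400000000000000000000000000000000000) := T_30 (nat_lit 211) (nat_lit 229) (nat_lit 7) (nat_lit 7) (nat_lit 9) L90360 (by decide +kernel)
theorem L90362 : W_30 (nat_lit 7) (nat_lit 0x10000c000200000001000080000000000000000000000000000000) (nat_lit 0x0) (nat_lit 0x30000800320001c0018000c00000000000000000000000000000000000) := T_30 (nat_lit 160) (nat_lit 143) (nat_lit 7) (nat_lit 7) (nat_lit 8) L90361 (by decide +kernel)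
theorem L90363 : W_30 (nat_lit 4) (nat_lit 0x10000e000200000001000080000000000000000000000000000000) (nat_lit 0x0) (nat_lit 0x2b8001800000000000000000000000000000000000000000000000) := T_30 (nat_lit 192) (nat_lit 213) (nat_lit 3) (nat_lit 5) (nat_lit 11) L87410 (by decide +kernel)
theorem L90364 : W_30 (nat_lit 9) (nat_lit 0x10001e000200000001000080000000000000000000000000000000) (nat_lit 0x0) (nat_lit 0x68000000198001f000f0013c000000000000000000000000000000) := Q_30 (nat_lit 142) (C_30 L88882 (C_30 L88040 N_30)) (by decide +kernel)
theorem L90365 : W_30 (nat_lit 10) (nat_lit 0x10000e000200000001000080000000000000000000000000000000) (nat_lit 0x0) (nat_lit 0xe8003000398001f000f0013c000000000000000000000000000000) := Q_30 (nat_lit 196) (C_30 L88031 (C_30 L87012 (C_30 L90364 N_30))) (by decide +kernel)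
theorem L90366 : W_30 (nat_lit 6) (nat_lit 0x10001e000200000001000080000000000000000000000000000000) (nat_lit 0x0) (nat_lit 0x1c80060003800010000800000000000000000000000000000000000) := T_30 (nat_lit 160) (nat_lit 143) (nat_lit 7) (nat_lit 7) (nat_lit 8) L88094 (by decide +kernel)
theorem L90367 : W_30 (nat_lit 2) (nat_lit 0x12001f000b00010001000080000000000000000000000000000000) (nat_lit 0x0) (nat_lit 0x80000c00000000000000000000000000000000000000000000000) := D_30 (nat_lit 191) (nat_lit 190) (nat_lit 211) (nat_lit 2) (nat_lit 3) (nat_lit 11) (nat_lit 3) (nat_lit 4) (nat_lit 11) (by decide +kernel)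
theorem L90368 : W_30 (nat_lit 3) (nat_lit 0x12001e000b00010001000080000000000000000000000000000000) (nat_lit 0x0) (nat_lit 0x90001c00000000000000000000000000000000000000000000000) := T_30 (nat_lit 192) (nat_lit 208) (nat_lit 1) (nat_lit 8) (nat_lit 11) L90367 (by decide +kernel)
theorem L90369 : W_30 (nat_lit 4) (nat_lit 0x10001e000b00010001000080000000000000000000000000000000) (nat_lit 0x0) (nat_lit 0xf0001c00000000000000000000000000000000000000000000000) := T_30 (nat_lit 209) (nat_lit 210) (nat_lit 1) (nat_lit 9) (nat_lit 11) L90368 (by decide +kernel)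
theorem L90370 : W_30 (nat_lit 5) (nat_lit 0x10001e000a00010001000080000000000000000000000000000000) (nat_lit 0x0) (nat_lit 0xf0001c00180000000000000000000000000000000000000000000) := T_30 (nat_lit 176) (nat_lit 175) (nat_lit 0) (nat_lit 9) (nat_lit 11) L90369 (by decide +kernel)
theorem L90371 : W_30 (nat_lit 6) (nat_lit 0x10001e000a00000001000080000000000000000000000000000000) (nat_lit 0x0) (nat_lit 0xf0001c00180010000800000000000000000000000000000000000) := T_30 (nat_lit 160) (nat_lit 143) (nat_lit 7) (nat_lit 7) (nat_lit 8) L90370 (by decide +kernel)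
theorem L90372 : W_30 (nat_lit 7) (nat_lit 0x10001e000200000001000080000000000000000000000000000000) (nat_lit 0x0) (nat_lit 0xf0001c01980010000800000000000000000000000000000000000) := T_30 (nat_lit 179) (nat_lit 180) (nat_lit 2) (nat_lit 6) (nat_lit 11) L90371 (by decide +kernel)
theorem L90373 : W_30 (nat_lit 8) (nat_lit 0x10000e000200000001000080000000000000000000000000000000) (nat_lit 0x0) (nat_lit 0x1cf0071c03980010000800000000000000000000000000000000000) := Q_30 (nat_lit 196) (C_30 L90366 (C_30 L87012 (C_30 L90372 N_30))) (by decide +kernel)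
theorem L90374 : W_30 (nat_lit 11) (nat_lit 0x10000c000200000001000080000000000000000000000000000000) (nat_lit 0x0) (nat_lit 0x1ef8073c039e001f000f0013c000000000000000000000000000000) := Q_30 (nat_lit 193) (C_30 L87010 (C_30 L87669 (C_30 L90363 (C_30 L90365 (C_30 L90373 N_30))))) (by decide +kernel)
theorem L90376 : W_30 (nat_lit 9) (nat_lit 0x1c000200000001000080000000000000000000000000000000) (nat_lit 0x0) (nat_lit 0x1e70063807ce0000000000000000000000000000000000000000000) := Q_30 (nat_lit 197) (C_30 L7819 (C_30 L85853 (C_30 L5046 (C_30 L7816 N_30)))) (by decide +kernel)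
theorem L90418 : W_30 (nat_lit 6) (nat_lit 0x10001c000200000001000080000000000000000000000000000000) (nat_lit 0x0) (nat_lit 0x40006001e80062007400080004000000000000000000000000000000000000) := Q_30 (nat_lit 197) (C_30 L87000 (C_30 L85682 (C_30 L85659 N_30))) (by decide +kernel)
theorem L90419 : W_30 (nat_lit 2) (nat_lit 0x400000001a001e000300000001000080000000000000000000000000000000) (nat_lit 0x0) (nat_lit 0x1000000000000000008000400000000000000000000000000000000000) := D_30 (nat_lit 159) (nat_lit 142) (nat_lit 228) (nat_lit 7) (nat_lit 6) (nat_lit 8) (nat_lit 4) (nat_lit 7) (nat_lit 13) (by decide +kernel)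
theorem L90420 : W_30 (nat_lit 3) (nat_lit 0x400000001a001e000200000001000080000000000000000000000000000000) (nat_lit 0x0) (nat_lit 0x1000000000000180008000400000000000000000000000000000000000) := T_30 (nat_lit 176) (nat_lit 175) (nat_lit 0) (nat_lit 9) (nat_lit 11) L90419 (by decide +kernel)
theorem L90421 : W_30 (nat_lit 4) (nat_lit 0x4000000018001e000200000001000080000000000000000000000000000000) (nat_lit 0x0) (nat_lit 0x1000060000000180008000400000000000000000000000000000000000) := T_30 (nat_lit 209) (nat_lit 210) (nat_lit 2) (nat_lit 5) (nat_lit 12) L90420 (by decide +kernel)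
theorem L90422 : W_30 (nat_lit 5) (nat_lit 0x18001e000200000001000080000000000000000000000000000000) (nat_lit 0x0) (nat_lit 0x40003000060000000180008000400000000000000000000000000000000000) := T_30 (nat_lit 246) (nat_lit 229) (nat_lit 4) (nat_lit 8) (nat_lit 14) L90421 (by decide +kernel)
theorem L90423 : W_30 (nat_lit 4) (nat_lit 0x3c001e000200000001000080000000000000000000000000000000) (nat_lit 0x0) (nat_lit 0x100008000c000000000000580000000000000000000000000000000000000000000) := T_30 (nat_lit 176) (nat_lit 175) (nat_lit 0) (nat_lit 9) (nat_lit 11) L90313 (by decide +kernel)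
theorem L90424 : W_30 (nat_lit 5) (nat_lit 0x38001e000200000001000080000000000000000000000000000000) (nat_lit 0x0) (nat_lit 0x100008000c000060000000580000000000000000000000000000000000000000000) := T_30 (nat_lit 210) (nat_lit 209) (nat_lit 2) (nat_lit 5) (nat_lit 12) L90423 (by decide +kernel)
theorem L90425 : W_30 (nat_lit 6) (nat_lit 0x18001e000200000001000080000000000000000000000000000000) (nat_lit 0x0) (nat_lit 0x100008000c000660000000580000000000000000000000000000000000000000000) := T_30 (nat_lit 213) (nat_lit 214) (nat_lit 3) (nat_lit 6) (nat_lit 11) L90424 (by decide +kernel)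
theorem L90426 : W_30 (nat_lit 2) (nat_lit 0x400040003c001e000200000001000080000000000000000000000000000000) (nat_lit 0x0) (nat_lit 0x1000080000000000000000400000000000000000000000000000000000000000000) := D_30 (nat_lit 247) (nat_lit 178) (nat_lit 264) (nat_lit 4) (nat_lit 9) (nat_lit 14) (nat_lit 4) (nat_lit 9) (nat_lit 15) (by decide +kernel)
theorem L90427 : W_30 (nat_lit 3) (nat_lit 0x400000003c001e000200000001000080000000000000000000000000000000) (nat_lit 0x0) (nat_lit 0x100008000c000000000000400000000000000000000000000000000000000000000) := T_30 (nat_lit 230) (nat_lit 231) (nat_lit 3) (nat_lit 6) (nat_lit 12) L90426 (by decide +kernel)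
theorem L90428 : W_30 (nat_lit 4) (nat_lit 0x3c001e000200000001000080000000000000000000000000000000) (nat_lit 0x0) (nat_lit 0x10000c000e000000000000400000000000000000000000000000000000000000000) := T_30 (nat_lit 246) (nat_lit 229) (nat_lit 4) (nat_lit 8) (nat_lit 14) L90427 (by decide +kernel)
theorem L90429 : W_30 (nat_lit 5) (nat_lit 0x1c001e000200000001000080000000000000000000000000000000) (nat_lit 0x0) (nat_lit 0x10000c000e000600000000400000000000000000000000000000000000000000000) := T_30 (nat_lit 213) (nat_lit 214) (nat_lit 3) (nat_lit 6) (nat_lit 11) L90428 (by decide +kernel)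
theorem L90430 : W_30 (nat_lit 6) (nat_lit 0x18001e000200000001000080000000000000000000000000000000) (nat_lit 0x0) (nat_lit 0x10000c000e000660000000400000000000000000000000000000000000000000000) := T_30 (nat_lit 210) (nat_lit 209) (nat_lit 2) (nat_lit 5) (nat_lit 12) L90429 (by decide +kernel)
theorem L90431 : W_30 (nat_lit 2) (nat_lit 0x38001e000300000001000080000000000000000000000000000000) (nat_lit 0x0) (nat_lit 0x1000000000000000008000400000000000000000000000000000000000) := D_30 (nat_lit 159) (nat_lit 142) (nat_lit 228) (nat_lit 7) (nat_lit 6) (nat_lit 8) (nat_lit 4) (nat_lit 7) (nat_lit 13) (by decide +kernel)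
theorem L90432 : W_30 (nat_lit 3) (nat_lit 0x38001e000200000001000080000000000000000000000000000000) (nat_lit 0x0) (nat_lit 0x1000000000000180008000400000000000000000000000000000000000) := T_30 (nat_lit 176) (nat_lit 175) (nat_lit 0) (nat_lit 9) (nat_lit 11) L90431 (by decide +kernel)
theorem L90433 : W_30 (nat_lit 4) (nat_lit 0x18001e000200000001000080000000000000000000000000000000) (nat_lit 0x0) (nat_lit 0x1000600000000180008000400000000000000000000000000000000000) := T_30 (nat_lit 213) (nat_lit 214) (nat_lit 3) (nat_lit 6) (nat_lit 11) L90432 (by decide +kernel)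
theorem L90434 : W_30 (nat_lit 7) (nat_lit 0x10001e000200000001000080000000000000000000000000000000) (nat_lit 0x0) (nat_lit 0x10000c000f0006e0000000580008000400000000000000000000000000000000000) := Q_30 (nat_lit 211) (C_30 L90422 (C_30 L90425 (C_30 L90430 (C_30 L90433 N_30)))) (by decide +kernel)
theorem L90435 : W_30 (nat_lit 2) (nat_lit 0x4000000014001f000280000001000080000000000000000000000000000000) (nat_lit 0x0) (nat_lit 0x80000800400000000000000000000000000000000000000000000) := D_30 (nat_lit 191) (nat_lit 178) (nat_lit 211) (nat_lit 2) (nat_lit 4) (nat_lit 11) (nat_lit 3) (nat_lit 4) (nat_lit 11) (by decide +kernel)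
theorem L90436 : W_30 (nat_lit 3) (nat_lit 0x4000000014001e000280000001000080000000000000000000000000000000) (nat_lit 0x0) (nat_lit 0x80001800440000000000000000000000000000000000000000000) := T_30 (nat_lit 192) (nat_lit 174) (nat_lit 0) (nat_lit 8) (nat_lit 11) L90435 (by decide +kernel)
theorem L90437 : W_30 (nat_lit 4) (nat_lit 0x4000000014001e000200000001000080000000000000000000000000000000) (nat_lit 0x0) (nat_lit 0x800018005c0000000000000000000000000000000000000000000) := T_30 (nat_lit 175) (nat_lit 176) (nat_lit 0) (nat_lit 9) (nat_lit 11) L90436 (by decide +kernel)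
theorem L90438 : W_30 (nat_lit 5) (nat_lit 0x4000000010001e000200000001000080000000000000000000000000000000) (nat_lit 0x0) (nat_lit 0xe00018005c0000000000000000000000000000000000000000000) := T_30 (nat_lit 210) (nat_lit 209) (nat_lit 1) (nat_lit 9) (nat_lit 11) L90437 (by decide +kernel)
theorem L90439 : W_30 (nat_lit 6) (nat_lit 0x10001e000200000001000080000000000000000000000000000000) (nat_lit 0x0) (nat_lit 0x400020000e00018005c0000000000000000000000000000000000000000000) := T_30 (nat_lit 246) (nat_lit 229) (nat_lit 4) (nat_lit 8) (nat_lit 14) L90438 (by decide +kernel)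
theorem L90440 : W_30 (nat_lit 8) (nat_lit 0x10001c000200000001000080000000000000000000000000000000) (nat_lit 0x0) (nat_lit 0x10000c000f0006e00038005c0008000400000000000000000000000000000000000) := Q_30 (nat_lit 193) (C_30 L85645 (C_30 L90434 (C_30 L90439 N_30))) (by decide +kernel)
theorem L90441 : W_30 (nat_lit 9) (nat_lit 0x10000c000200000001000080000000000000000000000000000000) (nat_lit 0x0) (nat_lit 0x10000c000f001ee00738075c0088004400000000000000000000000000000000000) := Q_30 (nat_lit 196) (C_30 L90355 (C_30 L90347 (C_30 L90418 (C_30 L90440 N_30)))) (by decide +kernel)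
theorem L90442 : W_30 (nat_lit 4) (nat_lit 0x3c001e000200000001000080000000000000000000000000000000) (nat_lit 0x0) (nat_lit 0x100008000c000000000000400010000800000000000000000000000000000000000) := T_30 (nat_lit 160) (nat_lit 143) (nat_lit 7) (nat_lit 7) (nat_lit 8) L90309 (by decide +kernel)
theorem L90443 : W_30 (nat_lit 5) (nat_lit 0x38001e000200000001000080000000000000000000000000000000) (nat_lit 0x0) (nat_lit 0x100008000c000060000000400010000800000000000000000000000000000000000) := T_30 (nat_lit 210) (nat_lit 209) (nat_lit 2) (nat_lit 5) (nat_lit 12) L90442 (by decide +kernel)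
theorem L90444 : W_30 (nat_lit 6) (nat_lit 0x18001e000200000001000080000000000000000000000000000000) (nat_lit 0x0) (nat_lit 0x100008000c000660000000400010000800000000000000000000000000000000000) := T_30 (nat_lit 213) (nat_lit 214) (nat_lit 3) (nat_lit 6) (nat_lit 11) L90443 (by decide +kernel)
theorem L90445 : W_30 (nat_lit 7) (nat_lit 0x10001e000200000001000080000000000000000000000000000000) (nat_lit 0x0) (nat_lit 0x100008000d0006e0000000580018000c00000000000000000000000000000000000) := Q_30 (nat_lit 211) (C_30 L90433 (C_30 L90425 (C_30 L90444 (C_30 L87015 N_30)))) (by decide +kernel)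
theorem L90446 : W_30 (nat_lit 2) (nat_lit 0x12001f000300000001800080000000000000000000000000000000) (nat_lit 0x0) (nat_lit 0xc00400000000000000000000000000000000000000000000) := D_30 (nat_lit 191) (nat_lit 190) (nat_lit 178) (nat_lit 2) (nat_lit 3) (nat_lit 11) (nat_lit 2) (nat_lit 4) (nat_lit 11) (by decide +kernel)
theorem L90447 : W_30 (nat_lit 3) (nat_lit 0x12001e000300000001800080000000000000000000000000000000) (nat_lit 0x0) (nat_lit 0x10001c00400000000000000000000000000000000000000000000) := T_30 (nat_lit 192) (nat_lit 208) (nat_lit 1) (nat_lit 8) (nat_lit 11) L90446 (by decide +kernel)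
theorem L90448 : W_30 (nat_lit 4) (nat_lit 0x10001e000300000001800080000000000000000000000000000000) (nat_lit 0x0) (nat_lit 0x70001c00400000000000000000000000000000000000000000000) := T_30 (nat_lit 209) (nat_lit 210) (nat_lit 1) (nat_lit 9) (nat_lit 11) L90447 (by decide +kernel)
theorem L90449 : W_30 (nat_lit 5) (nat_lit 0x10001e000300000001000080000000000000000000000000000000) (nat_lit 0x0) (nat_lit 0x70001c00400010000800000000000000000000000000000000000) := T_30 (nat_lit 143) (nat_lit 160) (nat_lit 7) (nat_lit 7) (nat_lit 8) L90448 (by decide +kernel)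
theorem L90450 : W_30 (nat_lit 6) (nat_lit 0x10001e000200000001000080000000000000000000000000000000) (nat_lit 0x0) (nat_lit 0x70001c00580010000800000000000000000000000000000000000) := T_30 (nat_lit 176) (nat_lit 175) (nat_lit 0) (nat_lit 9) (nat_lit 11) L90449 (by decide +kernel)
theorem L90451 : W_30 (nat_lit 8) (nat_lit 0x10001c000200000001000080000000000000000000000000000000) (nat_lit 0x0) (nat_lit 0x100008000d0006f0003c00580018000c00000000000000000000000000000000000) := Q_30 (nat_lit 193) (C_30 L85645 (C_30 L90445 (C_30 L90450 N_30))) (by decide +kernel)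
theorem L90452 : W_30 (nat_lit 9) (nat_lit 0x10000c000200000001000080000000000000000000000000000000) (nat_lit 0x0) (nat_lit 0x100008000d007ef01f3c1f580098004c00000000000000000000000000000000000) := Q_30 (nat_lit 196) (C_30 L90355 (C_30 L87062 (C_30 L88079 (C_30 L87001 (C_30 L90451 N_30))))) (by decide +kernel)
theorem L90453 : W_30 (nat_lit 10) (nat_lit 0xc000200000001000080000000000000000000000000000000) (nat_lit 0x0) (nat_lit 0x10000c000f007ff01f3c1f5c0098004c00000000000000000000000000000000000) := Q_30 (nat_lit 212) (C_30 L90362 (C_30 L87289 (C_30 L90441 (C_30 L85604 (C_30 L90452 N_30))))) (by decide +kernel)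
theorem L90454 : W_30 (nat_lit 5) (nat_lit 0x38003c000200000001000080000000000000000000000000000000) (nat_lit 0x0) (nat_lit 0x80004000c00000003800080004000000000000000000000000000000000000) := T_30 (nat_lit 215) (nat_lit 214) (nat_lit 3) (nat_lit 7) (nat_lit 11) L88804 (by decide +kernel)
theorem L90455 : W_30 (nat_lit 6) (nat_lit 0x30003c000200000001000080000000000000000000000000000000) (nat_lit 0x0) (nat_lit 0x80004000cc0000003800080004000000000000000000000000000000000000) := T_30 (nat_lit 211) (nat_lit 210) (nat_lit 2) (nat_lit 6) (nat_lit 12) L90454 (by decide +kernel)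
theorem L90456 : W_30 (nat_lit 4) (nat_lit 0x4000000038003c000200000001000080000000000000000000000000000000) (nat_lit 0x0) (nat_lit 0x2000100018000c00000000800000000000000000000000000000000000000000000) := T_30 (nat_lit 214) (nat_lit 215) (nat_lit 3) (nat_lit 7) (nat_lit 11) L19460 (by decide +kernel)
theorem L90457 : W_30 (nat_lit 5) (nat_lit 0x4000000030003c000200000001000080000000000000000000000000000000) (nat_lit 0x0) (nat_lit 0x2000100018000cc0000000800000000000000000000000000000000000000000000) := T_30 (nat_lit 211) (nat_lit 210) (nat_lit 2) (nat_lit 6) (nat_lit 12) L90456 (by decide +kernel)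
theorem L90458 : W_30 (nat_lit 6) (nat_lit 0x30003c000200000001000080000000000000000000000000000000) (nat_lit 0x0) (nat_lit 0x200014001a000cc0000000800000000000000000000000000000000000000000000) := T_30 (nat_lit 246) (nat_lit 229) (nat_lit 4) (nat_lit 8) (nat_lit 14) L90457 (by decide +kernel)
theorem L90459 : W_30 (nat_lit 2) (nat_lit 0x4000000034003c001200080001000080000000000000000000000000000000) (nat_lit 0x0) (nat_lit 0x80004000000000000800000000000000000000000000000000000000000000) := D_30 (nat_lit 230) (nat_lit 247) (nat_lit 179) (nat_lit 6) (nat_lit 9) (nat_lit 14) (nat_lit 6) (nat_lit 9) (nat_lit 13) (by decide +kernel)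
theorem L90460 : W_30 (nat_lit 3) (nat_lit 0x4000000034003c001200000001000080000000000000000000000000000000) (nat_lit 0x0) (nat_lit 0x80004000000000000800080004000000000000000000000000000000000000) := T_30 (nat_lit 163) (nat_lit 146) (nat_lit 5) (nat_lit 10) (nat_lit 8) L90459 (by decide +kernel)
theorem L90461 : W_30 (nat_lit 4) (nat_lit 0x4000000034003c000200000001000080000000000000000000000000000000) (nat_lit 0x0) (nat_lit 0x80004000000000003800080004000000000000000000000000000000000000) := T_30 (nat_lit 180) (nat_lit 181) (nat_lit 2) (nat_lit 7) (nat_lit 11) L90460 (by decide +kernel)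
theorem L90462 : W_30 (nat_lit 5) (nat_lit 0x4000000030003c000200000001000080000000000000000000000000000000) (nat_lit 0x0) (nat_lit 0x800040000c0000003800080004000000000000000000000000000000000000) := T_30 (nat_lit 210) (nat_lit 211) (nat_lit 2) (nat_lit 6) (nat_lit 12) L90461 (by decide +kernel)
theorem L90463 : W_30 (nat_lit 6) (nat_lit 0x30003c000200000001000080000000000000000000000000000000) (nat_lit 0x0) (nat_lit 0xc00060000c0000003800080004000000000000000000000000000000000000) := T_30 (nat_lit 246) (nat_lit 229) (nat_lit 4) (nat_lit 8) (nat_lit 14) L90462 (by decide +kernel)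
theorem L90464 : W_30 (nat_lit 7) (nat_lit 0x10003c000200000001000080000000000000000000000000000000) (nat_lit 0x0) (nat_lit 0x20001c001e000ec0000003800080004000000000000000000000000000000000000) := Q_30 (nat_lit 213) (C_30 L85612 (C_30 L90455 (C_30 L90458 (C_30 L90463 N_30)))) (by decide +kernel)
theorem L90465 : W_30 (nat_lit 8) (nat_lit 0x10001c000200000001000080000000000000000000000000000000) (nat_lit 0x0) (nat_lit 0x20001c001e001ec0060007c00080004000000000000000000000000000000000000) := Q_30 (nat_lit 197) (C_30 L87000 (C_30 L85682 (C_30 L90464 N_30))) (by decide +kernel)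
theorem L90466 : W_30 (nat_lit 2) (nat_lit 0x200010001c000a00000001000080000000000000000000000000000000) (nat_lit 0x0) (nat_lit 0x200000000400040000000000000000000000000000000000000000) := D_30 (nat_lit 162) (nat_lit 178) (nat_lit 213) (nat_lit 6) (nat_lit 8) (nat_lit 13) (nat_lit 5) (nat_lit 9) (nat_lit 9) (by decide +kernel)
theorem L90467 : W_30 (nat_lit 3) (nat_lit 0x10001c000a00000001000080000000000000000000000000000000) (nat_lit 0x0) (nat_lit 0x40002000200000000400040000000000000000000000000000000000000000) := T_30 (nat_lit 229) (nat_lit 246) (nat_lit 6) (nat_lit 8) (nat_lit 14) L90466 (by decide +kernel)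
theorem L90468 : W_30 (nat_lit 5) (nat_lit 0x30001c000a00000001000080000000000000000000000000000000) (nat_lit 0x0) (nat_lit 0x18001c003e000c80000000000000000000000000000000000000000000000000000) := Q_30 (nat_lit 230) (C_30 L19062 (C_30 L87151 N_30)) (by decide +kernel)
theorem L90469 : W_30 (nat_lit 6) (nat_lit 0x10001c000a00000001000080000000000000000000000000000000) (nat_lit 0x0) (nat_lit 0x38001c003e000e80000000000040000000000000000000000000000000000000000) := Q_30 (nat_lit 213) (C_30 L87135 (C_30 L85795 (C_30 L90468 N_30))) (by decide +kernel)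
theorem L90470 : W_30 (nat_lit 2) (nat_lit 0x700010001c000f00000001000080000000000000000000000000000000) (nat_lit 0x0) (nat_lit 0x8000000000000c000000000000000000000000000000000000000) := D_30 (nat_lit 159) (nat_lit 211) (nat_lit 158) (nat_lit 4) (nat_lit 7) (nat_lit 13) (nat_lit 0) (nat_lit 9) (nat_lit 10) (by decide +kernel)
theorem L90471 : W_30 (nat_lit 3) (nat_lit 0x700010001c000e00000001000080000000000000000000000000000000) (nat_lit 0x0) (nat_lit 0x8000000018000c000000000000000000000000000000000000000) := T_30 (nat_lit 176) (nat_lit 175) (nat_lit 3) (nat_lit 5) (nat_lit 10) L90470 (by decide +kernel)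
theorem L90472 : W_30 (nat_lit 4) (nat_lit 0x300010001c000e00000001000080000000000000000000000000000000) (nat_lit 0x0) (nat_lit 0x8000400008000000018000c000000000000000000000000000000000000000) := T_30 (nat_lit 230) (nat_lit 247) (nat_lit 7) (nat_lit 8) (nat_lit 10) L90471 (by decide +kernel)
theorem L90473 : W_30 (nat_lit 5) (nat_lit 0x200010001c000e00000001000080000000000000000000000000000000) (nat_lit 0x0) (nat_lit 0xa000500008000000018000c000000000000000000000000000000000000000) := T_30 (nat_lit 228) (nat_lit 245) (nat_lit 5) (nat_lit 8) (nat_lit 10) L90472 (by decide +kernel)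
theorem L90474 : W_30 (nat_lit 6) (nat_lit 0x200010001c000a00000001000080000000000000000000000000000000) (nat_lit 0x0) (nat_lit 0xa000500008000000058004c000000000000000000000000000000000000000) := T_30 (nat_lit 178) (nat_lit 162) (nat_lit 6) (nat_lit 8) (nat_lit 13) L90473 (by decide +kernel)
theorem L90475 : W_30 (nat_lit 7) (nat_lit 0x10001c000a00000001000080000000000000000000000000000000) (nat_lit 0x0) (nat_lit 0xe000700008000000058004c000000000000000000000000000000000000000) := T_30 (nat_lit 229) (nat_lit 246) (nat_lit 6) (nat_lit 8) (nat_lit 14) L90474 (by decide +kernel)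
theorem L90476 : W_30 (nat_lit 2) (nat_lit 0x8000400030001c000b000c0001000080000000000000000000000000000000) (nat_lit 0x0) (nat_lit 0x2000100008000000000000000000000000000000000000000000000000000000000) := D_30 (nat_lit 248) (nat_lit 231) (nat_lit 265) (nat_lit 7) (nat_lit 9) (nat_lit 10) (nat_lit 7) (nat_lit 9) (nat_lit 11) (by decide +kernel)
theorem L90477 : W_30 (nat_lit 3) (nat_lit 0x400030001c000b000c0001000080000000000000000000000000000000) (nat_lit 0x0) (nat_lit 0x3000180008000000000000000000000000000000000000000000000000000000000) := T_30 (nat_lit 247) (nat_lit 264) (nat_lit 4) (nat_lit 9) (nat_lit 15) L90476 (by decide +kernel)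
theorem L90478 : W_30 (nat_lit 4) (nat_lit 0x30001c000b000c0001000080000000000000000000000000000000) (nat_lit 0x0) (nat_lit 0x300018000c000000000001000000000000000000000000000000000000000000000) := T_30 (nat_lit 230) (nat_lit 180) (nat_lit 6) (nat_lit 9) (nat_lit 13) L90477 (by decide +kernel)
theorem L90479 : W_30 (nat_lit 5) (nat_lit 0x30001c000a000c0001000080000000000000000000000000000000) (nat_lit 0x0) (nat_lit 0x300018000c000000000001500000000000000000000000000000000000000000000) := T_30 (nat_lit 176) (nat_lit 178) (nat_lit 2) (nat_lit 6) (nat_lit 10) L90478 (by decide +kernel)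
theorem L90480 : W_30 (nat_lit 6) (nat_lit 0x30001c000a00040001000080000000000000000000000000000000) (nat_lit 0x0) (nat_lit 0x300018000c000000000001500080004000000000000000000000000000000000000) := T_30 (nat_lit 163) (nat_lit 146) (nat_lit 6) (nat_lit 9) (nat_lit 12) L90479 (by decide +kernel)
theorem L90481 : W_30 (nat_lit 7) (nat_lit 0x30001c000a00000001000080000000000000000000000000000000) (nat_lit 0x0) (nat_lit 0x300018000e0000000000015000c0004000000000000000000000000000000000000) := T_30 (nat_lit 162) (nat_lit 229) (nat_lit 5) (nat_lit 9) (nat_lit 9) L90480 (by decide +kernel)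
theorem L90482 : W_30 (nat_lit 2) (nat_lit 0xb0001c000e000c0001000080000000000000000000000000000000) (nat_lit 0x0) (nat_lit 0x80004000000000001000000000000000000000000000000000000000000000) := D_30 (nat_lit 230) (nat_lit 180) (nat_lit 247) (nat_lit 6) (nat_lit 9) (nat_lit 13) (nat_lit 4) (nat_lit 9) (nat_lit 14) (by decide +kernel)
theorem L90483 : W_30 (nat_lit 3) (nat_lit 0xb0001c000a000c0001000080000000000000000000000000000000) (nat_lit 0x0) (nat_lit 0x80004000000000001500000000000000000000000000000000000000000000) := T_30 (nat_lit 178) (nat_lit 176) (nat_lit 2) (nat_lit 6) (nat_lit 10) L90482 (by decide +kernel)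
theorem L90484 : W_30 (nat_lit 4) (nat_lit 0xb0001c000a00040001000080000000000000000000000000000000) (nat_lit 0x0) (nat_lit 0x80004000000000001500080004000000000000000000000000000000000000) := T_30 (nat_lit 163) (nat_lit 146) (nat_lit 6) (nat_lit 9) (nat_lit 12) L90483 (by decide +kernel)
theorem L90485 : W_30 (nat_lit 5) (nat_lit 0x30001c000a00040001000080000000000000000000000000000000) (nat_lit 0x0) (nat_lit 0x80004000c00000001500080004000000000000000000000000000000000000) := T_30 (nat_lit 215) (nat_lit 214) (nat_lit 0) (nat_lit 11) (nat_lit 12) L90484 (by decide +kernel)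
theorem L90486 : W_30 (nat_lit 6) (nat_lit 0x30001c000a00000001000080000000000000000000000000000000) (nat_lit 0x0) (nat_lit 0x80006000c000000015000c0004000000000000000000000000000000000000) := T_30 (nat_lit 162) (nat_lit 229) (nat_lit 5) (nat_lit 9) (nat_lit 9) L90485 (by decide +kernel)
theorem L90487 : W_30 (nat_lit 5) (nat_lit 0x30001c000a00000001000080000000000000000000000000000000) (nat_lit 0x0) (nat_lit 0x100018003c000c80000000400000000000000000000000000000000000000000000) := Q_30 (nat_lit 230) (C_30 L87151 (C_30 L87082 N_30)) (by decide +kernel)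
theorem L90488 : W_30 (nat_lit 8) (nat_lit 0x10001c000a00000001000080000000000000000000000000000000) (nat_lit 0x0) (nat_lit 0x300018003e000e800000015000c0004000000000000000000000000000000000000) := Q_30 (nat_lit 213) (C_30 L87135 (C_30 L90481 (C_30 L90486 (C_30 L87132 (C_30 L90487 N_30))))) (by decide +kernel)
theorem L90489 : W_30 (nat_lit 3) (nat_lit 0x400030001c000a00000001000080000000000000000000000000000000) (nat_lit 0x0) (nat_lit 0x3000180008000000000000000000000000000000000000000000000000000000000) := T_30 (nat_lit 248) (nat_lit 231) (nat_lit 7) (nat_lit 9) (nat_lit 10) L85796 (by decide +kernel)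
theorem L90490 : W_30 (nat_lit 2) (nat_lit 0x400030001c001a00000001000080000000000000000000000000000000) (nat_lit 0x0) (nat_lit 0x6400000000000000000000000000000000000000000000) := D_30 (nat_lit 181) (nat_lit 182) (nat_lit 178) (nat_lit 1) (nat_lit 12) (nat_lit 10) (nat_lit 1) (nat_lit 11) (nat_lit 10) (by decide +kernel)
theorem L90491 : W_30 (nat_lit 3) (nat_lit 0x400030001c000a00000001000080000000000000000000000000000000) (nat_lit 0x0) (nat_lit 0x7400080000000000000000000000000000000000000000) := T_30 (nat_lit 180) (nat_lit 163) (nat_lit 6) (nat_lit 9) (nat_lit 13) L90490 (by decide +kernel)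
theorem L90492 : W_30 (nat_lit 4) (nat_lit 0x30001c000a00000001000080000000000000000000000000000000) (nat_lit 0x0) (nat_lit 0x300018000c000000000007400080000000000000000000000000000000000000000) := Q_30 (nat_lit 230) (C_30 L87082 (C_30 L90489 (C_30 L90491 N_30))) (by decide +kernel)
theorem L90493 : W_30 (nat_lit 2) (nat_lit 0xb0001c005a00080001000080000000000000000000000000000000) (nat_lit 0x0) (nat_lit 0x40004000200000000000000000000000000000000) := D_30 (nat_lit 146) (nat_lit 162) (nat_lit 129) (nat_lit 6) (nat_lit 9) (nat_lit 12) (nat_lit 5) (nat_lit 10) (nat_lit 7) (by decide +kernel)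
theorem L90494 : W_30 (nat_lit 3) (nat_lit 0xb0001c005a00000001000080000000000000000000000000000000) (nat_lit 0x0) (nat_lit 0x40000000000000000c0004000200000000000000000000000000000000) := T_30 (nat_lit 163) (nat_lit 230) (nat_lit 6) (nat_lit 9) (nat_lit 13) L90493 (by decide +kernel)
theorem L90495 : W_30 (nat_lit 4) (nat_lit 0xb0001c001a00000001000080000000000000000000000000000000) (nat_lit 0x0) (nat_lit 0x40000000000060000c0004000200000000000000000000000000000000) := T_30 (nat_lit 182) (nat_lit 181) (nat_lit 1) (nat_lit 12) (nat_lit 10) L90494 (by decide +kernel)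
theorem L90496 : W_30 (nat_lit 5) (nat_lit 0x30001c001a00000001000080000000000000000000000000000000) (nat_lit 0x0) (nat_lit 0x4000c000000060000c0004000200000000000000000000000000000000) := T_30 (nat_lit 215) (nat_lit 214) (nat_lit 0) (nat_lit 11) (nat_lit 12) L90495 (by decide +kernel)
theorem L90497 : W_30 (nat_lit 2) (nat_lit 0x400030001c001a00000001000080000000000000000000000000000000) (nat_lit 0x0) (nat_lit 0x1000080000000000000000400000000000000000000000000000000000000000000) := D_30 (nat_lit 247) (nat_lit 264) (nat_lit 178) (nat_lit 4) (nat_lit 9) (nat_lit 15) (nat_lit 4) (nat_lit 9) (nat_lit 14) (by decide +kernel)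
theorem L90498 : W_30 (nat_lit 3) (nat_lit 0x30001c001a00000001000080000000000000000000000000000000) (nat_lit 0x0) (nat_lit 0x1000080004000000000000400080000000000000000000000000000000000000000) := T_30 (nat_lit 230) (nat_lit 163) (nat_lit 6) (nat_lit 9) (nat_lit 13) L90497 (by decide +kernel)
theorem L90499 : W_30 (nat_lit 6) (nat_lit 0x30001c000a00000001000080000000000000000000000000000000) (nat_lit 0x0) (nat_lit 0x1000080004000c000000074000c0004000200000000000000000000000000000000) := Q_30 (nat_lit 180) (C_30 L87401 (C_30 L90496 (C_30 L90498 N_30))) (by decide +kernel)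
theorem L90500 : W_30 (nat_lit 2) (nat_lit 0x70001c000e000c0001000080000000000000000000000000000000) (nat_lit 0x0) (nat_lit 0x3000100000000000000000000000000000000000000000) := D_30 (nat_lit 180) (nat_lit 181) (nat_lit 164) (nat_lit 1) (nat_lit 11) (nat_lit 10) (nat_lit 2) (nat_lit 7) (nat_lit 10) (by decide +kernel)
theorem L90501 : W_30 (nat_lit 3) (nat_lit 0x70001c000a000c0001000080000000000000000000000000000000) (nat_lit 0x0) (nat_lit 0x3500100000000000000000000000000000000000000000) := T_30 (nat_lit 178) (nat_lit 176) (nat_lit 2) (nat_lit 6) (nat_lit 10) L90500 (by decide +kernel)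
theorem L90502 : W_30 (nat_lit 4) (nat_lit 0x70001c000a00040001000080000000000000000000000000000000) (nat_lit 0x0) (nat_lit 0x3500180004000000000000000000000000000000000000) := T_30 (nat_lit 163) (nat_lit 146) (nat_lit 6) (nat_lit 9) (nat_lit 12) L90501 (by decide +kernel)
theorem L90503 : W_30 (nat_lit 5) (nat_lit 0x70001c000a00000001000080000000000000000000000000000000) (nat_lit 0x0) (nat_lit 0x80000000000035001c0004000000000000000000000000000000000000) := T_30 (nat_lit 162) (nat_lit 231) (nat_lit 7) (nat_lit 9) (nat_lit 9) L90502 (by decide +kernel)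
theorem L90504 : W_30 (nat_lit 6) (nat_lit 0x30001c000a00000001000080000000000000000000000000000000) (nat_lit 0x0) (nat_lit 0x8000c000000035001c0004000000000000000000000000000000000000) := T_30 (nat_lit 214) (nat_lit 215) (nat_lit 0) (nat_lit 11) (nat_lit 12) L90503 (by decide +kernel)
theorem L90505 : W_30 (nat_lit 7) (nat_lit 0x10001c000a00000001000080000000000000000000000000000000) (nat_lit 0x0) (nat_lit 0x300018003c000e800000075001c0004000200000000000000000000000000000000) := Q_30 (nat_lit 213) (C_30 L87135 (C_30 L90487 (C_30 L90492 (C_30 L90499 (C_30 L90504 N_30))))) (by decide +kernel)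
theorem L90506 : W_30 (nat_lit 5) (nat_lit 0x400010001c000a00000001000080000000000000000000000000000000) (nat_lit 0x0) (nat_lit 0x38001c003a000e80000000000000000000000000000000000000000000000000000) := Q_30 (nat_lit 213) (C_30 L90489 (C_30 L19062 (C_30 L87151 N_30))) (by decide +kernel)
theorem L90507 : W_30 (nat_lit 4) (nat_lit 0x400010001c000a00000001000080000000000000000000000000000000) (nat_lit 0x0) (nat_lit 0x3000180008000200000007400080000000000000000000000000000000000000000) := Q_30 (nat_lit 213) (C_30 L90489 (C_30 L90491 N_30)) (by decide +kernel)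
theorem L90508 : W_30 (nat_lit 4) (nat_lit 0x600010001c000e00000001000080000000000000000000000000000000) (nat_lit 0x0) (nat_lit 0x2000100008000000018000c000000000000000000000000000000000000000) := T_30 (nat_lit 228) (nat_lit 245) (nat_lit 5) (nat_lit 8) (nat_lit 10) L90471 (by decide +kernel)
theorem L90509 : W_30 (nat_lit 5) (nat_lit 0x600010001c000a00000001000080000000000000000000000000000000) (nat_lit 0x0) (nat_lit 0xa000100008000000058000c000000000000000000000000000000000000000) := T_30 (nat_lit 178) (nat_lit 247) (nat_lit 7) (nat_lit 8) (nat_lit 10) L90508 (by decide +kernel)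
theorem L90510 : W_30 (nat_lit 6) (nat_lit 0x400010001c000a00000001000080000000000000000000000000000000) (nat_lit 0x0) (nat_lit 0xe000300008000000058000c000000000000000000000000000000000000000) := T_30 (nat_lit 229) (nat_lit 246) (nat_lit 6) (nat_lit 8) (nat_lit 14) L90509 (by decide +kernel)
theorem L90511 : W_30 (nat_lit 5) (nat_lit 0x400010001c000a00000001000080000000000000000000000000000000) (nat_lit 0x0) (nat_lit 0x100038000e80000007400080000000000000000000000000000000000000000) := Q_30 (nat_lit 213) (C_30 L87151 (C_30 L90491 N_30)) (by decide +kernel)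
theorem L90512 : W_30 (nat_lit 7) (nat_lit 0x10001c000a00000001000080000000000000000000000000000000) (nat_lit 0x0) (nat_lit 0x38001e003f000e8000000758008c000000000000000000000000000000000000000) := Q_30 (nat_lit 230) (C_30 L90506 (C_30 L90507 (C_30 L90510 (C_30 L90511 N_30)))) (by decide +kernel)
theorem L90513 : W_30 (nat_lit 9) (nat_lit 0x10001c000200000001000080000000000000000000000000000000) (nat_lit 0x0) (nat_lit 0x38001e003f000e80000007d801cc004000200000000000000000000000000000000) := Q_30 (nat_lit 179) (C_30 L90467 (C_30 L90469 (C_30 L90475 (C_30 L90488 (C_30 L90505 (C_30 L90512 N_30)))))) (by decide +kernel)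
theorem L90514 : W_30 (nat_lit 10) (nat_lit 0x10000c000200000001000080000000000000000000000000000000) (nat_lit 0x0) (nat_lit 0x38001e003f001ec0070007d801cc004000200000000000000000000000000000000) := Q_30 (nat_lit 196) (C_30 L90347 (C_30 L90465 (C_30 L87001 (C_30 L86999 (C_30 L90513 N_30))))) (by decide +kernel)
theorem L90515 : W_30 (nat_lit 2) (nat_lit 0x10001c000340002001e00090000000000000000000000000000000) (nat_lit 0x0) (nat_lit 0x800000001000100000000000000000000000000000000000) := D_30 (nat_lit 140) (nat_lit 156) (nat_lit 191) (nat_lit 1) (nat_lit 7) (nat_lit 8) (nat_lit 6) (nat_lit 4) (nat_lit 11) (by decide +kernel)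
theorem L90516 : W_30 (nat_lit 3) (nat_lit 0x10001c000340002001e00080000000000000000000000000000000) (nat_lit 0x0) (nat_lit 0x800000001000100018000000000000000000000000000000) := T_30 (nat_lit 124) (nat_lit 123) (nat_lit 0) (nat_lit 8) (nat_lit 8) L90515 (by decide +kernel)
theorem L90517 : W_30 (nat_lit 4) (nat_lit 0x10001c000340000001e00080000000000000000000000000000000) (nat_lit 0x0) (nat_lit 0x800000007000100018000000000000000000000000000000) := T_30 (nat_lit 157) (nat_lit 158) (nat_lit 1) (nat_lit 8) (nat_lit 8) L90516 (by decide +kernel)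
theorem L90518 : W_30 (nat_lit 5) (nat_lit 0x10001c000340000001c00080000000000000000000000000000000) (nat_lit 0x0) (nat_lit 0x800000007000300118000000000000000000000000000000) := T_30 (nat_lit 141) (nat_lit 128) (nat_lit 2) (nat_lit 5) (nat_lit 8) L90517 (by decide +kernel)
theorem L90519 : W_30 (nat_lit 6) (nat_lit 0x10001c000300000001c00080000000000000000000000000000000) (nat_lit 0x0) (nat_lit 0x8000c0007000300118000000000000000000000000000000) := T_30 (nat_lit 174) (nat_lit 175) (nat_lit 3) (nat_lit 4) (nat_lit 10) L90518 (by decide +kernel)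
theorem L90520 : W_30 (nat_lit 2) (nat_lit 0x40003c001c000300010001000080000000000000000000000000000000) (nat_lit 0x0) (nat_lit 0x1000080000000000000000400000000000000000000000000000000000000000000) := D_30 (nat_lit 247) (nat_lit 178) (nat_lit 264) (nat_lit 4) (nat_lit 9) (nat_lit 14) (nat_lit 4) (nat_lit 9) (nat_lit 15) (by decide +kernel)
theorem L90521 : W_30 (nat_lit 3) (nat_lit 0x3c001c000300010001000080000000000000000000000000000000) (nat_lit 0x0) (nat_lit 0x100008000c000000000000400000000000000000000000000000000000000000000) := T_30 (nat_lit 230) (nat_lit 231) (nat_lit 3) (nat_lit 6) (nat_lit 12) L90520 (by decide +kernel)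
theorem L90522 : W_30 (nat_lit 4) (nat_lit 0x3c001c000300000001000080000000000000000000000000000000) (nat_lit 0x0) (nat_lit 0x100008000c000000000000400010000800000000000000000000000000000000000) := T_30 (nat_lit 160) (nat_lit 143) (nat_lit 7) (nat_lit 7) (nat_lit 8) L90521 (by decide +kernel)
theorem L90523 : W_30 (nat_lit 5) (nat_lit 0x38001c000300000001000080000000000000000000000000000000) (nat_lit 0x0) (nat_lit 0x100008000c000060000000400010000800000000000000000000000000000000000) := T_30 (nat_lit 210) (nat_lit 209) (nat_lit 2) (nat_lit 5) (nat_lit 12) L90522 (by decide +kernel)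
theorem L90524 : W_30 (nat_lit 2) (nat_lit 0x1a001c000380008001c00080000000000000000000000000000000) (nat_lit 0x0) (nat_lit 0x400000001000000004000000000000000000000000000000000000000) := D_30 (nat_lit 192) (nat_lit 226) (nat_lit 158) (nat_lit 6) (nat_lit 5) (nat_lit 13) (nat_lit 6) (nat_lit 5) (nat_lit 12) (by decide +kernel)
theorem L90525 : W_30 (nat_lit 3) (nat_lit 0x18001c000380008001c00080000000000000000000000000000000) (nat_lit 0x0) (nat_lit 0x400060001000000004000000000000000000000000000000000000000) := T_30 (nat_lit 209) (nat_lit 210) (nat_lit 2) (nat_lit 5) (nat_lit 12) L90524 (by decide +kernel)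
theorem L90526 : W_30 (nat_lit 4) (nat_lit 0x10001c000380008001c00080000000000000000000000000000000) (nat_lit 0x0) (nat_lit 0x14000e0001000000004000000000000000000000000000000000000000) := T_30 (nat_lit 211) (nat_lit 228) (nat_lit 4) (nat_lit 7) (nat_lit 13) L90525 (by decide +kernel)
theorem L90527 : W_30 (nat_lit 5) (nat_lit 0x10001c000380000001c00080000000000000000000000000000000) (nat_lit 0x0) (nat_lit 0x14000e000100000000c000000020000000000000000000000000000000) := T_30 (nat_lit 159) (nat_lit 125) (nat_lit 7) (nat_lit 6) (nat_lit 7) L90526 (by decide +kernel)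
theorem L90528 : W_30 (nat_lit 6) (nat_lit 0x10001c000300000001c00080000000000000000000000000000000) (nat_lit 0x0) (nat_lit 0x14000e00010000c000c000000020000000000000000000000000000000) := T_30 (nat_lit 175) (nat_lit 174) (nat_lit 3) (nat_lit 4) (nat_lit 10) L90527 (by decide +kernel)
theorem L90529 : W_30 (nat_lit 2) (nat_lit 0x1a001c40034000a001f00088000000000000000000000000000000) (nat_lit 0x0) (nat_lit 0x8001800000000000000000000000000000000000000000000000) := D_30 (nat_lit 191) (nat_lit 192) (nat_lit 207) (nat_lit 7) (nat_lit 4) (nat_lit 8) (nat_lit 5) (nat_lit 4) (nat_lit 8) (by decide +kernel)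
theorem L90530 : W_30 (nat_lit 3) (nat_lit 0x1a001c00034000a001f00088000000000000000000000000000000) (nat_lit 0x0) (nat_lit 0x8001c00020000000000000000000000000000000000000000000) := T_30 (nat_lit 190) (nat_lit 173) (nat_lit 5) (nat_lit 4) (nat_lit 7) L90529 (by decide +kernel)
theorem L90531 : W_30 (nat_lit 4) (nat_lit 0x1a001c00030000a001f00088000000000000000000000000000000) (nat_lit 0x0) (nat_lit 0x8001c000e0000000000000000000000000000000000000000000) := T_30 (nat_lit 174) (nat_lit 175) (nat_lit 3) (nat_lit 4) (nat_lit 10) L90530 (by decide +kernel)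
theorem L90532 : W_30 (nat_lit 5) (nat_lit 0x1a001c000300008001f00088000000000000000000000000000000) (nat_lit 0x0) (nat_lit 0x8001c000e0003000000000000000000000000000000000000000) := T_30 (nat_lit 157) (nat_lit 156) (nat_lit 1) (nat_lit 7) (nat_lit 8) L90531 (by decide +kernel)
theorem L90533 : W_30 (nat_lit 6) (nat_lit 0x18001c000300008001f00088000000000000000000000000000000) (nat_lit 0x0) (nat_lit 0x68001c000e0003000000000000000000000000000000000000000) := T_30 (nat_lit 209) (nat_lit 210) (nat_lit 2) (nat_lit 5) (nat_lit 12) L90532 (by decide +kernel)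
theorem L90534 : W_30 (nat_lit 7) (nat_lit 0x18001c000300008001e00088000000000000000000000000000000) (nat_lit 0x0) (nat_lit 0x68001c000e0003000100004000000000000000000000000000000) := T_30 (nat_lit 140) (nat_lit 122) (nat_lit 0) (nat_lit 7) (nat_lit 8) L90533 (by decide +kernel)
theorem L90535 : W_30 (nat_lit 8) (nat_lit 0x10001c000300008001e00088000000000000000000000000000000) (nat_lit 0x0) (nat_lit 0x10000e8001c000e0003000100004000000000000000000000000000000) := T_30 (nat_lit 211) (nat_lit 228) (nat_lit 4) (nat_lit 7) (nat_lit 13) L90534 (by decide +kernel)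
theorem L90536 : W_30 (nat_lit 9) (nat_lit 0x10001c000300008001e00080000000000000000000000000000000) (nat_lit 0x0) (nat_lit 0x10000e8001c000e000300010001c000000000000000000000000000000) := T_30 (nat_lit 123) (nat_lit 124) (nat_lit 0) (nat_lit 8) (nat_lit 8) L90535 (by decide +kernel)
theorem L90537 : W_30 (nat_lit 10) (nat_lit 0x10001c000300008001c00080000000000000000000000000000000) (nat_lit 0x0) (nat_lit 0x10000e8001c000e000300030011c000000000000000000000000000000) := T_30 (nat_lit 141) (nat_lit 128) (nat_lit 2) (nat_lit 5) (nat_lit 8) L90536 (by decide +kernel)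
theorem L90538 : W_30 (nat_lit 11) (nat_lit 0x10001c000300000001c00080000000000000000000000000000000) (nat_lit 0x0) (nat_lit 0x10000e8001c000e000b00030013c000000000000000000000000000000) := T_30 (nat_lit 159) (nat_lit 125) (nat_lit 7) (nat_lit 6) (nat_lit 7) L90537 (by decide +kernel)
theorem L90539 : W_30 (nat_lit 12) (nat_lit 0x10001c000300000001800080000000000000000000000000000000) (nat_lit 0x0) (nat_lit 0x14000e8001c000e000f00070013c000000000000000000000000000000) := Q_30 (nat_lit 142) (C_30 L90519 (C_30 L90528 (C_30 L90538 (C_30 L86078 N_30)))) (by decide +kernel)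
theorem L90540 : W_30 (nat_lit 13) (nat_lit 0x10000c000300000001800080000000000000000000000000000000) (nat_lit 0x0) (nat_lit 0x14000e8031c000e000f00070013c000000000000000000000000000000) := T_30 (nat_lit 196) (nat_lit 197) (nat_lit 0) (nat_lit 10) (nat_lit 11) L90539 (by decide +kernel)
theorem L90541 : W_30 (nat_lit 14) (nat_lit 0x10000c000300000001000080000000000000000000000000000000) (nat_lit 0x0) (nat_lit 0x14000e8031c000e001f000f0013c000000000000000000000000000000) := T_30 (nat_lit 143) (nat_lit 160) (nat_lit 7) (nat_lit 7) (nat_lit 8) L90540 (by decide +kernel)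
theorem L90542 : W_30 (nat_lit 2) (nat_lit 0xc00078002c000300010001000080000000000000000000000000000000) (nat_lit 0x0) (nat_lit 0x1000080000000000000001000000000000000000000000000000000000000000000) := D_30 (nat_lit 247) (nat_lit 264) (nat_lit 180) (nat_lit 6) (nat_lit 9) (nat_lit 15) (nat_lit 5) (nat_lit 10) (nat_lit 10) (by decide +kernel)
theorem L90543 : W_30 (nat_lit 3) (nat_lit 0xc00078000c000300010001000080000000000000000000000000000000) (nat_lit 0x0) (nat_lit 0x1000080000000000060001000000000000000000000000000000000000000000000) := T_30 (nat_lit 197) (nat_lit 198) (nat_lit 2) (nat_lit 7) (nat_lit 12) L90542 (by decide +kernel)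
theorem L90544 : W_30 (nat_lit 4) (nat_lit 0x800078000c000300010001000080000000000000000000000000000000) (nat_lit 0x0) (nat_lit 0x1000080004000040060001000000000000000000000000000000000000000000000) := T_30 (nat_lit 230) (nat_lit 210) (nat_lit 3) (nat_lit 6) (nat_lit 12) L90543 (by decide +kernel)
theorem L90545 : W_30 (nat_lit 5) (nat_lit 0x78000c000300010001000080000000000000000000000000000000) (nat_lit 0x0) (nat_lit 0x100008001c000040060001000000000000000000000000000000000000000000000) := T_30 (nat_lit 231) (nat_lit 232) (nat_lit 3) (nat_lit 7) (nat_lit 12) L90544 (by decide +kernel)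
theorem L90546 : W_30 (nat_lit 6) (nat_lit 0x78000c000300000001000080000000000000000000000000000000) (nat_lit 0x0) (nat_lit 0x100008001c000040060001000010000800000000000000000000000000000000000) := T_30 (nat_lit 160) (nat_lit 143) (nat_lit 7) (nat_lit 7) (nat_lit 8) L90545 (by decide +kernel)
theorem L90547 : W_30 (nat_lit 7) (nat_lit 0x38000c000300000001000080000000000000000000000000000000) (nat_lit 0x0) (nat_lit 0x100008001c000c40060001000010000800000000000000000000000000000000000) := T_30 (nat_lit 214) (nat_lit 215) (nat_lit 0) (nat_lit 11) (nat_lit 12) L90546 (by decide +kernel)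
theorem L90548 : W_30 (nat_lit 2) (nat_lit 0x80007c000c000300010001000080000000000000000000000000000000) (nat_lit 0x0) (nat_lit 0x30010000000000000000000000000000000000000000000000000) := D_30 (nat_lit 209) (nat_lit 196) (nat_lit 208) (nat_lit 2) (nat_lit 5) (nat_lit 12) (nat_lit 2) (nat_lit 4) (nat_lit 12) (by decide +kernel)
theorem L90549 : W_30 (nat_lit 3) (nat_lit 0x800078000c000300010001000080000000000000000000000000000000) (nat_lit 0x0) (nat_lit 0x4000070010000000000000000000000000000000000000000000000000) := T_30 (nat_lit 210) (nat_lit 230) (nat_lit 3) (nat_lit 6) (nat_lit 12) L90548 (by decide +kernel)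
theorem L90550 : W_30 (nat_lit 4) (nat_lit 0x78000c000300010001000080000000000000000000000000000000) (nat_lit 0x0) (nat_lit 0x1c000070010000000000000000000000000000000000000000000000000) := T_30 (nat_lit 231) (nat_lit 232) (nat_lit 3) (nat_lit 7) (nat_lit 12) L90549 (by decide +kernel)
theorem L90551 : W_30 (nat_lit 5) (nat_lit 0x78000c000300000001000080000000000000000000000000000000) (nat_lit 0x0) (nat_lit 0x1c000070010000000010000800000000000000000000000000000000000) := T_30 (nat_lit 160) (nat_lit 143) (nat_lit 7) (nat_lit 7) (nat_lit 8) L90550 (by decide +kernel)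
theorem L90552 : W_30 (nat_lit 6) (nat_lit 0x38000c000300000001000080000000000000000000000000000000) (nat_lit 0x0) (nat_lit 0x1c000c70010000000010000800000000000000000000000000000000000) := T_30 (nat_lit 214) (nat_lit 215) (nat_lit 0) (nat_lit 11) (nat_lit 12) L90551 (by decide +kernel)
theorem L90553 : W_30 (nat_lit 6) (nat_lit 0x38000c000300000001000080000000000000000000000000000000) (nat_lit 0x0) (nat_lit 0x100008000c000060030000400010000800000000000000000000000000000000000) := T_30 (nat_lit 196) (nat_lit 197) (nat_lit 0) (nat_lit 10) (nat_lit 11) L90523 (by decide +kernel)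
theorem L90554 : W_30 (nat_lit 8) (nat_lit 0x18000c000300000001000080000000000000000000000000000000) (nat_lit 0x0) (nat_lit 0x100008001c000e70070001400010000800000000000000000000000000000000000) := Q_30 (nat_lit 213) (C_30 L88801 (C_30 L90547 (C_30 L90552 (C_30 L90553 N_30)))) (by decide +kernel)
theorem L90555 : W_30 (nat_lit 9) (nat_lit 0x10000c000300000001000080000000000000000000000000000000) (nat_lit 0x0) (nat_lit 0x14000a001d000ef0070001400018000c00000000000000000000000000000000000) := Q_30 (nat_lit 211) (C_30 L11971 (C_30 L87359 (C_30 L90554 N_30))) (by decide +kernel)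
theorem L90556 : W_30 (nat_lit 15) (nat_lit 0x10000c000200000001000080000000000000000000000000000000) (nat_lit 0x0) (nat_lit 0x14000a001d400ef8071c03de01df000f8013e001000080000000000000000000000) := Q_30 (nat_lit 176) (C_30 L87694 (C_30 L87371 (C_30 L90541 (C_30 L90555 N_30)))) (by decide +kernel)
theorem L90557 : W_30 (nat_lit 16) (nat_lit 0xc000200000001000080000000000000000000000000000000) (nat_lit 0x0) (nat_lit 0x3c001e003f401ff8071c07de01df004f8033e001000080000000000000000000000) := Q_30 (nat_lit 212) (C_30 L87289 (C_30 L86996 (C_30 L90514 (C_30 L85604 (C_30 L87009 (C_30 L90556 N_30)))))) (by decide +kernel)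
theorem L90558 : W_30 (nat_lit 6) (nat_lit 0x18000e000200000001000080000000000000000000000000000000) (nat_lit 0x0) (nat_lit 0xc000e000660000001c00040000000000000000000000000000000000000000) := T_30 (nat_lit 229) (nat_lit 246) (nat_lit 4) (nat_lit 8) (nat_lit 14) L80391 (by decide +kernel)
theorem L90559 : W_30 (nat_lit 2) (nat_lit 0x3000d0000e000600000001000080000000000000000000000000000000) (nat_lit 0x0) (nat_lit 0x8000c000000000000000000000000000000000000000000000000000000000) := D_30 (nat_lit 230) (nat_lit 231) (nat_lit 247) (nat_lit 2) (nat_lit 7) (nat_lit 13) (nat_lit 7) (nat_lit 8) (nat_lit 10) (by decide +kernel)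
theorem L90560 : W_30 (nat_lit 3) (nat_lit 0x2000d0000e000600000001000080000000000000000000000000000000) (nat_lit 0x0) (nat_lit 0xa000d000000000000000000000000000000000000000000000000000000000) := T_30 (nat_lit 228) (nat_lit 245) (nat_lit 5) (nat_lit 8) (nat_lit 10) L90559 (by decide +kernel)
theorem L90561 : W_30 (nat_lit 4) (nat_lit 0x200050000e000600000001000080000000000000000000000000000000) (nat_lit 0x0) (nat_lit 0xa000d000a00000000000000000000000000000000000000000000000000000) := T_30 (nat_lit 215) (nat_lit 213) (nat_lit 0) (nat_lit 11) (nat_lit 12) L90560 (by decide +kernel)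
theorem L90562 : W_30 (nat_lit 2) (nat_lit 0x200050000e000600000001000080000000000000000000000000000000) (nat_lit 0x0) (nat_lit 0x1800040000000000000000000000000000000000000000) := D_30 (nat_lit 179) (nat_lit 162) (nat_lit 180) (nat_lit 6) (nat_lit 8) (nat_lit 13) (nat_lit 1) (nat_lit 10) (nat_lit 10) (by decide +kernel)
theorem L90563 : W_30 (nat_lit 5) (nat_lit 0x200050000e000200000001000080000000000000000000000000000000) (nat_lit 0x0) (nat_lit 0xa000d000a00000001c00040000000000000000000000000000000000000000) := Q_30 (nat_lit 178) (C_30 L90561 (C_30 L90562 N_30)) (by decide +kernel)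
theorem L90564 : W_30 (nat_lit 6) (nat_lit 0x50000e000200000001000080000000000000000000000000000000) (nat_lit 0x0) (nat_lit 0xe000f000a00000001c00040000000000000000000000000000000000000000) := T_30 (nat_lit 229) (nat_lit 246) (nat_lit 4) (nat_lit 8) (nat_lit 14) L90563 (by decide +kernel)
theorem L90565 : W_30 (nat_lit 2) (nat_lit 0xf00050000e000600000001000080000000000000000000000000000000) (nat_lit 0x0) (nat_lit 0x100000c0000000000000000000000000000000000000000000000000000) := D_30 (nat_lit 211) (nat_lit 232) (nat_lit 210) (nat_lit 0) (nat_lit 11) (nat_lit 13) (nat_lit 0) (nat_lit 10) (nat_lit 13) (by decide +kernel)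
theorem L90566 : W_30 (nat_lit 3) (nat_lit 0x700050000e000600000001000080000000000000000000000000000000) (nat_lit 0x0) (nat_lit 0x180008c0000000000000000000000000000000000000000000000000000) := T_30 (nat_lit 231) (nat_lit 215) (nat_lit 2) (nat_lit 7) (nat_lit 13) L90565 (by decide +kernel)
theorem L90567 : W_30 (nat_lit 4) (nat_lit 0x600050000e000600000001000080000000000000000000000000000000) (nat_lit 0x0) (nat_lit 0x200190008c0000000000000000000000000000000000000000000000000000) := T_30 (nat_lit 228) (nat_lit 245) (nat_lit 5) (nat_lit 8) (nat_lit 10) L90566 (by decide +kernel)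
theorem L90568 : W_30 (nat_lit 5) (nat_lit 0x200050000e000600000001000080000000000000000000000000000000) (nat_lit 0x0) (nat_lit 0xa001d0008c0000000000000000000000000000000000000000000000000000) := T_30 (nat_lit 230) (nat_lit 247) (nat_lit 7) (nat_lit 8) (nat_lit 10) L90567 (by decide +kernel)
theorem L90569 : W_30 (nat_lit 6) (nat_lit 0x200050000e000200000001000080000000000000000000000000000000) (nat_lit 0x0) (nat_lit 0xa001d0008c0000001c00040000000000000000000000000000000000000000) := Q_30 (nat_lit 178) (C_30 L90568 (C_30 L90562 N_30)) (by decide +kernel)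
theorem L90570 : W_30 (nat_lit 7) (nat_lit 0x50000e000200000001000080000000000000000000000000000000) (nat_lit 0x0) (nat_lit 0xe001f0008c0000001c00040000000000000000000000000000000000000000) := T_30 (nat_lit 229) (nat_lit 246) (nat_lit 4) (nat_lit 8) (nat_lit 14) L90569 (by decide +kernel)
theorem L90571 : W_30 (nat_lit 4) (nat_lit 0x200058000e000600000001000080000000000000000000000000000000) (nat_lit 0x0) (nat_lit 0xa000d000060000000000000000000000000000000000000000000000000000) := T_30 (nat_lit 228) (nat_lit 245) (nat_lit 6) (nat_lit 7) (nat_lit 14) L80386 (by decide +kernel)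
theorem L90572 : W_30 (nat_lit 5) (nat_lit 0x200050000e000600000001000080000000000000000000000000000000) (nat_lit 0x0) (nat_lit 0xa000d0002e0000000000000000000000000000000000000000000000000000) := T_30 (nat_lit 211) (nat_lit 213) (nat_lit 0) (nat_lit 10) (nat_lit 12) L90571 (by decide +kernel)
theorem L90573 : W_30 (nat_lit 6) (nat_lit 0x200050000e000200000001000080000000000000000000000000000000) (nat_lit 0x0) (nat_lit 0xa000d0002e0000001c00040000000000000000000000000000000000000000) := Q_30 (nat_lit 178) (C_30 L90572 (C_30 L90562 N_30)) (by decide +kernel)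
theorem L90574 : W_30 (nat_lit 7) (nat_lit 0x50000e000200000001000080000000000000000000000000000000) (nat_lit 0x0) (nat_lit 0xe000f0002e0000001c00040000000000000000000000000000000000000000) := T_30 (nat_lit 229) (nat_lit 246) (nat_lit 4) (nat_lit 8) (nat_lit 14) L90573 (by decide +kernel)
theorem L90575 : W_30 (nat_lit 8) (nat_lit 0x10000e000200000001000080000000000000000000000000000000) (nat_lit 0x0) (nat_lit 0xe001f000ee0000001c00040000000000000000000000000000000000000000) := Q_30 (nat_lit 214) (C_30 L90564 (C_30 L87020 (C_30 L90570 (C_30 L90574 N_30)))) (by decide +kernel)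
theorem L90576 : W_30 (nat_lit 5) (nat_lit 0x700012000f000600000001000080000000000000000000000000000000) (nat_lit 0x0) (nat_lit 0xc00000001c0006000300000000000000000000000000000000000) := T_30 (nat_lit 175) (nat_lit 174) (nat_lit 0) (nat_lit 8) (nat_lit 11) L78222 (by decide +kernel)
theorem L90577 : W_30 (nat_lit 6) (nat_lit 0x700010000f000600000001000080000000000000000000000000000000) (nat_lit 0x0) (nat_lit 0xf00000001c0006000300000000000000000000000000000000000) := T_30 (nat_lit 209) (nat_lit 208) (nat_lit 1) (nat_lit 8) (nat_lit 11) L90576 (by decide +kernel)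
theorem L90578 : W_30 (nat_lit 7) (nat_lit 0x300010000f000600000001000080000000000000000000000000000000) (nat_lit 0x0) (nat_lit 0x800040000f00000001c0006000300000000000000000000000000000000000) := T_30 (nat_lit 230) (nat_lit 247) (nat_lit 7) (nat_lit 8) (nat_lit 10) L90577 (by decide +kernel)
theorem L90579 : W_30 (nat_lit 8) (nat_lit 0x200010000f000600000001000080000000000000000000000000000000) (nat_lit 0x0) (nat_lit 0xa00050000f00000001c0006000300000000000000000000000000000000000) := T_30 (nat_lit 228) (nat_lit 245) (nat_lit 5) (nat_lit 8) (nat_lit 10) L90578 (by decide +kernel)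
theorem L90580 : W_30 (nat_lit 9) (nat_lit 0x200010000f000200000001000080000000000000000000000000000000) (nat_lit 0x0) (nat_lit 0xa00050000f0000000dc0006000300000000000000000000000000000000000) := T_30 (nat_lit 178) (nat_lit 179) (nat_lit 2) (nat_lit 5) (nat_lit 11) L90579 (by decide +kernel)
theorem L90581 : W_30 (nat_lit 10) (nat_lit 0x10000f000200000001000080000000000000000000000000000000) (nat_lit 0x0) (nat_lit 0xe00070000f0000000dc0006000300000000000000000000000000000000000) := T_30 (nat_lit 229) (nat_lit 246) (nat_lit 4) (nat_lit 8) (nat_lit 14) L90580 (by decide +kernel)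
theorem L90582 : W_30 (nat_lit 11) (nat_lit 0x10000e000200000001000080000000000000000000000000000000) (nat_lit 0x0) (nat_lit 0xe00070000f8001800dc0006000300000000000000000000000000000000000) := Q_30 (nat_lit 192) (C_30 L88008 (C_30 L87410 (C_30 L90581 N_30))) (by decide +kernel)
theorem L90583 : W_30 (nat_lit 12) (nat_lit 0x10000c000200000001000080000000000000000000000000000000) (nat_lit 0x0) (nat_lit 0xe001f000ef8003801de0046000300000000000000000000000000000000000) := Q_30 (nat_lit 193) (C_30 L90363 (C_30 L66536 (C_30 L85619 (C_30 L90575 (C_30 L90582 N_30))))) (by decide +kernel)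
theorem L90584 : W_30 (nat_lit 3) (nat_lit 0x10000e000200010001000080000000000000000000000000000000) (nat_lit 0x0) (nat_lit 0xe80001000000000000000000000000000000000000000000000000) := T_30 (nat_lit 213) (nat_lit 192) (nat_lit 3) (nat_lit 5) (nat_lit 11) L80375 (by decide +kernel)
theorem L90585 : W_30 (nat_lit 4) (nat_lit 0x10000e000200000001000080000000000000000000000000000000) (nat_lit 0x0) (nat_lit 0xe80001000000010000800000000000000000000000000000000000) := T_30 (nat_lit 160) (nat_lit 143) (nat_lit 7) (nat_lit 7) (nat_lit 8) L90584 (by decide +kernel)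
theorem L90586 : W_30 (nat_lit 3) (nat_lit 0x10000e000200000001000080000000000000000000000000000000) (nat_lit 0x0) (nat_lit 0x200001800c00000000000000000000000000000000000000000000) := T_30 (nat_lit 192) (nat_lit 213) (nat_lit 3) (nat_lit 5) (nat_lit 11) L88008 (by decide +kernel)
theorem L90587 : W_30 (nat_lit 4) (nat_lit 0x12000d000280004001000080000000000000000000000000000000) (nat_lit 0x0) (nat_lit 0x200010000800000008000600020000000000000000000000000000000) := T_30 (nat_lit 142) (nat_lit 159) (nat_lit 6) (nat_lit 5) (nat_lit 12) L87930 (by decide +kernel)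
theorem L90588 : W_30 (nat_lit 6) (nat_lit 0x10000d000280004001000080000000000000000000000000000000) (nat_lit 0x0) (nat_lit 0x40006000b000000046001a000d80008000000000000000000000000000000) := Q_30 (nat_lit 157) (C_30 L87800 (C_30 L87796 (C_30 L87791 N_30))) (by decide +kernel)
theorem L90589 : W_30 (nat_lit 13) (nat_lit 0x10000d000280000001000080000000000000000000000000000000) (nat_lit 0x0) (nat_lit 0x40006000b8000c0046001fc00fe013f001c000e0000000000000000000000) := Q_30 (nat_lit 158) (C_30 L87831 (C_30 L87932 (C_30 L87767 (C_30 L87784 (C_30 L87815 (C_30 L90588 (C_30 L87812 (C_30 L87813 N_30)))))))) (by decide +kernel)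
theorem L90590 : W_30 (nat_lit 2) (nat_lit 0x12000da00380008001400080000000000000000000000000000000) (nat_lit 0x0) (nat_lit 0x10000c0000000000000000000000000000000000000000000000000000) := D_30 (nat_lit 211) (nat_lit 228) (nat_lit 210) (nat_lit 4) (nat_lit 7) (nat_lit 13) (nat_lit 0) (nat_lit 8) (nat_lit 12) (by decide +kernel)
theorem L90591 : W_30 (nat_lit 3) (nat_lit 0x10000da00380008001400080000000000000000000000000000000) (nat_lit 0x0) (nat_lit 0x14000e0000000000000000000000000000000000000000000000000000) := T_30 (nat_lit 209) (nat_lit 226) (nat_lit 6) (nat_lit 5) (nat_lit 13) L90590 (by decide +kernel)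
theorem L90592 : W_30 (nat_lit 4) (nat_lit 0x10000d800380008001400080000000000000000000000000000000) (nat_lit 0x0) (nat_lit 0x14000e0000600000000000000000000000000000000000000000000000) := T_30 (nat_lit 189) (nat_lit 190) (nat_lit 2) (nat_lit 2) (nat_lit 11) L90591 (by decide +kernel)
theorem L90593 : W_30 (nat_lit 5) (nat_lit 0x10000d800380000001400080000000000000000000000000000000) (nat_lit 0x0) (nat_lit 0x14000e0000600000008000000020000000000000000000000000000000) := T_30 (nat_lit 159) (nat_lit 125) (nat_lit 7) (nat_lit 6) (nat_lit 7) L90592 (by decide +kernel)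
theorem L90594 : W_30 (nat_lit 6) (nat_lit 0x10000d000380000001400080000000000000000000000000000000) (nat_lit 0x0) (nat_lit 0x14000e0000e00400008000000020000000000000000000000000000000) := T_30 (nat_lit 191) (nat_lit 178) (nat_lit 1) (nat_lit 8) (nat_lit 10) L90593 (by decide +kernel)
theorem L90595 : W_30 (nat_lit 7) (nat_lit 0x10000d000280000001400080000000000000000000000000000000) (nat_lit 0x0) (nat_lit 0x14000e0000e00540008000000020000000000000000000000000000000) := T_30 (nat_lit 176) (nat_lit 174) (nat_lit 3) (nat_lit 4) (nat_lit 10) L90594 (by decide +kernel)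
theorem L90596 : W_30 (nat_lit 8) (nat_lit 0x10000d000280000001000080000000000000000000000000000000) (nat_lit 0x0) (nat_lit 0x14000e0000e0054001b000f0013c001000000000000000000000000000) := Q_30 (nat_lit 142) (C_30 L87758 (C_30 L87757 (C_30 L90595 (C_30 L87753 N_30)))) (by decide +kernel)
theorem L90597 : W_30 (nat_lit 5) (nat_lit 0x10000d000280004001000080000000000000000000000000000000) (nat_lit 0x0) (nat_lit 0x60003000080010000b000700028000000000000000000000000000000) := Q_30 (nat_lit 209) (C_30 L90587 (C_30 L87944 (C_30 L87462 N_30))) (by decide +kernel)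
theorem L90598 : W_30 (nat_lit 4) (nat_lit 0x10000d00028000c001000080000000000000000000000000000000) (nat_lit 0x0) (nat_lit 0x400020000000100003000500000000000000000000000000000000000) := T_30 (nat_lit 209) (nat_lit 142) (nat_lit 6) (nat_lit 5) (nat_lit 12) L87943 (by decide +kernel)
theorem L90599 : W_30 (nat_lit 6) (nat_lit 0x10000d000280004001000080000000000000000000000000000000) (nat_lit 0x0) (nat_lit 0x14000a000000050001b000d80000000000000000000000000000000000) := Q_30 (nat_lit 159) (C_30 L87900 (C_30 L87916 (C_30 L90598 (C_30 L87912 N_30)))) (by decide +kernel)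
theorem L90600 : W_30 (nat_lit 11) (nat_lit 0x10000d000280000001000080000000000000000000000000000000) (nat_lit 0x0) (nat_lit 0x16000b0000e0050001f000f80138001c00080000000000000000000000) := Q_30 (nat_lit 158) (C_30 L87886 (C_30 L87932 (C_30 L90597 (C_30 L87437 (C_30 L87877 (C_30 L90599 (C_30 L87924 N_30))))))) (by decide +kernel)
theorem L90601 : W_30 (nat_lit 7) (nat_lit 0x10000d000280000001000080000000000000000000000000000000) (nat_lit 0x0) (nat_lit 0x4000a000000014001e000f00138000000000000000000000000000000) := T_30 (nat_lit 176) (nat_lit 174) (nat_lit 3) (nat_lit 4) (nat_lit 10) L87830 (by decide +kernel)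
theorem L90602 : W_30 (nat_lit 14) (nat_lit 0x10000d000200000001000080000000000000000000000000000000) (nat_lit 0x0) (nat_lit 0x40016000f8000e03de01dfc00fe013f001c000e0000000000000000000000) := Q_30 (nat_lit 175) (C_30 L87748 (C_30 L90589 (C_30 L87483 (C_30 L90596 (C_30 L90600 (C_30 L90601 (C_30 L87992 N_30))))))) (by decide +kernel)
theorem L90622 : W_30 (nat_lit 7) (nat_lit 0x30001c000200000001000080000000000000000000000000000000) (nat_lit 0x0) (nat_lit 0x200014001a000cc00e0000c00000000000000000000000000000000000000000000) := Q_30 (nat_lit 197) (C_30 L90458 (C_30 L88082 N_30)) (by decide +kernel)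
theorem L90623 : W_30 (nat_lit 2) (nat_lit 0xe000b0001c000a00000001000080000000000000000000000000000000) (nat_lit 0x0) (nat_lit 0x100000c0000000000000000000000000000000000000000000000000000) := D_30 (nat_lit 211) (nat_lit 210) (nat_lit 232) (nat_lit 3) (nat_lit 6) (nat_lit 12) (nat_lit 0) (nat_lit 11) (nat_lit 13) (by decide +kernel)
theorem L90624 : W_30 (nat_lit 3) (nat_lit 0x6000b0001c000a00000001000080000000000000000000000000000000) (nat_lit 0x0) (nat_lit 0x1000180000c0000000000000000000000000000000000000000000000000000) := T_30 (nat_lit 231) (nat_lit 248) (nat_lit 7) (nat_lit 9) (nat_lit 10) L90623 (by decide +kernel)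
theorem L90625 : W_30 (nat_lit 4) (nat_lit 0x6000b0001c000200000001000080000000000000000000000000000000) (nat_lit 0x0) (nat_lit 0x1000180000c0000000800040000000000000000000000000000000000000000) := T_30 (nat_lit 179) (nat_lit 162) (nat_lit 5) (nat_lit 9) (nat_lit 9) L90624 (by decide +kernel)
theorem L90626 : W_30 (nat_lit 5) (nat_lit 0x600030001c000200000001000080000000000000000000000000000000) (nat_lit 0x0) (nat_lit 0x100018000cc0000000800040000000000000000000000000000000000000000) := T_30 (nat_lit 215) (nat_lit 214) (nat_lit 0) (nat_lit 11) (nat_lit 12) L90625 (by decide +kernel)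
theorem L90627 : W_30 (nat_lit 6) (nat_lit 0x400030001c000200000001000080000000000000000000000000000000) (nat_lit 0x0) (nat_lit 0x14001a000cc0000000800040000000000000000000000000000000000000000) := T_30 (nat_lit 229) (nat_lit 246) (nat_lit 4) (nat_lit 8) (nat_lit 14) L90626 (by decide +kernel)
theorem L90629 : W_30 (nat_lit 2) (nat_lit 0x80004000b0003c000200000001000080000000000000000000000000000000) (nat_lit 0x0) (nat_lit 0x1080040000000000000000000000000000000000000000000000000) := D_30 (nat_lit 198) (nat_lit 216) (nat_lit 211) (nat_lit 3) (nat_lit 8) (nat_lit 11) (nat_lit 1) (nat_lit 11) (nat_lit 11) (by decide +kernel)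
theorem L90630 : W_30 (nat_lit 3) (nat_lit 0x80004000b0001c000200000001000080000000000000000000000000000000) (nat_lit 0x0) (nat_lit 0x1080060001000000000000000000000000000000000000000000000) := T_30 (nat_lit 197) (nat_lit 180) (nat_lit 6) (nat_lit 9) (nat_lit 14) L90629 (by decide +kernel)
theorem L90631 : W_30 (nat_lit 4) (nat_lit 0x4000b0001c000200000001000080000000000000000000000000000000) (nat_lit 0x0) (nat_lit 0x1000080000001080060001000000000000000000000000000000000000000000000) := T_30 (nat_lit 247) (nat_lit 264) (nat_lit 4) (nat_lit 9) (nat_lit 15) L90630 (by decide +kernel)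
theorem L90632 : W_30 (nat_lit 5) (nat_lit 0x400030001c000200000001000080000000000000000000000000000000) (nat_lit 0x0) (nat_lit 0x1000080000001c80060001000000000000000000000000000000000000000000000) := T_30 (nat_lit 215) (nat_lit 214) (nat_lit 0) (nat_lit 11) (nat_lit 12) L90631 (by decide +kernel)
theorem L90633 : W_30 (nat_lit 7) (nat_lit 0x30001c000200000001000080000000000000000000000000000000) (nat_lit 0x0) (nat_lit 0x100018003c001c80060007c00080000000000000000000000000000000000000000) := Q_30 (nat_lit 230) (C_30 L88025 (C_30 L87064 (C_30 L90632 N_30))) (by decide +kernel)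
theorem L90634 : W_30 (nat_lit 7) (nat_lit 0x30001c000200000001000080000000000000000000000000000000) (nat_lit 0x0) (nat_lit 0xc00060000c00e0003c00080004000000000000000000000000000000000000) := Q_30 (nat_lit 197) (C_30 L90463 (C_30 L88082 N_30)) (by decide +kernel)
theorem L90636 : W_30 (nat_lit 2) (nat_lit 0x4000000034003e000200000001000080000000000000000000000000000000) (nat_lit 0x0) (nat_lit 0xc0000400000000000000000000000000000000000000000000) := D_30 (nat_lit 198) (nat_lit 178) (nat_lit 199) (nat_lit 0) (nat_lit 11) (nat_lit 11) (nat_lit 1) (nat_lit 12) (nat_lit 11) (by decide +kernel)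
theorem L90637 : W_30 (nat_lit 3) (nat_lit 0x4000000034001e000200000001000080000000000000000000000000000000) (nat_lit 0x0) (nat_lit 0x800e0000400000000000000000000000000000000000000000000) := T_30 (nat_lit 197) (nat_lit 211) (nat_lit 2) (nat_lit 6) (nat_lit 12) L90636 (by decide +kernel)
theorem L90638 : W_30 (nat_lit 4) (nat_lit 0x4000000030001e000200000001000080000000000000000000000000000000) (nat_lit 0x0) (nat_lit 0xe00e0000400000000000000000000000000000000000000000000) := T_30 (nat_lit 210) (nat_lit 209) (nat_lit 1) (nat_lit 9) (nat_lit 11) L90637 (by decide +kernel)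
theorem L90639 : W_30 (nat_lit 5) (nat_lit 0x4000000030001c000200000001000080000000000000000000000000000000) (nat_lit 0x0) (nat_lit 0xe00e3000400000000000000000000000000000000000000000000) := T_30 (nat_lit 193) (nat_lit 192) (nat_lit 3) (nat_lit 5) (nat_lit 11) L90638 (by decide +kernel)
theorem L90640 : W_30 (nat_lit 6) (nat_lit 0x30001c000200000001000080000000000000000000000000000000) (nat_lit 0x0) (nat_lit 0x400020000e00e3000400000000000000000000000000000000000000000000) := T_30 (nat_lit 246) (nat_lit 229) (nat_lit 4) (nat_lit 8) (nat_lit 14) L90639 (by decide +kernel)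
theorem L90641 : W_30 (nat_lit 5) (nat_lit 0x30001c000200000001000080000000000000000000000000000000) (nat_lit 0x0) (nat_lit 0xe3003c00000000000000000000000000000000000000000000) := T_30 (nat_lit 193) (nat_lit 192) (nat_lit 3) (nat_lit 5) (nat_lit 11) L88032 (by decide +kernel)
theorem L90642 : W_30 (nat_lit 8) (nat_lit 0x30000c000200000001000080000000000000000000000000000000) (nat_lit 0x0) (nat_lit 0xc00060000e00f3003c000c0004000000000000000000000000000000000000) := Q_30 (nat_lit 196) (C_30 L90634 (C_30 L85630 (C_30 L90640 (C_30 L90641 N_30)))) (by decide +kernel)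
theorem L90647 : W_30 (nat_lit 2) (nat_lit 0x16000f000680014001000080000000000000000000000000000000) (nat_lit 0x0) (nat_lit 0xa000400000000000000000000000000000000000) := D_30 (nat_lit 159) (nat_lit 142) (nat_lit 157) (nat_lit 6) (nat_lit 5) (nat_lit 12) (nat_lit 3) (nat_lit 4) (nat_lit 9) (by decide +kernel)
theorem L90648 : W_30 (nat_lit 3) (nat_lit 0x16000f000680010001000080000000000000000000000000000000) (nat_lit 0x0) (nat_lit 0xe000600000000000000000000000000000000000) := T_30 (nat_lit 158) (nat_lit 141) (nat_lit 7) (nat_lit 5) (nat_lit 8) L90647 (by decide +kernel)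
theorem L90649 : W_30 (nat_lit 4) (nat_lit 0x12000f000680010001000080000000000000000000000000000000) (nat_lit 0x0) (nat_lit 0x4001000000000e000600000000000000000000000000000000000) := T_30 (nat_lit 210) (nat_lit 196) (nat_lit 1) (nat_lit 9) (nat_lit 11) L90648 (by decide +kernel)
theorem L90650 : W_30 (nat_lit 5) (nat_lit 0x12000f000600010001000080000000000000000000000000000000) (nat_lit 0x0) (nat_lit 0x400100000c000e000600000000000000000000000000000000000) := T_30 (nat_lit 175) (nat_lit 174) (nat_lit 0) (nat_lit 8) (nat_lit 11) L90649 (by decide +kernel)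
theorem L90651 : W_30 (nat_lit 6) (nat_lit 0x10000f000600010001000080000000000000000000000000000000) (nat_lit 0x0) (nat_lit 0x700100000c000e000600000000000000000000000000000000000) := T_30 (nat_lit 209) (nat_lit 208) (nat_lit 1) (nat_lit 8) (nat_lit 11) L90650 (by decide +kernel)
theorem L90652 : W_30 (nat_lit 7) (nat_lit 0x10000f000600000001000080000000000000000000000000000000) (nat_lit 0x0) (nat_lit 0x700100000c001e000e00000000000000000000000000000000000) := T_30 (nat_lit 160) (nat_lit 143) (nat_lit 7) (nat_lit 7) (nat_lit 8) L90651 (by decide +kernel)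
theorem L90653 : W_30 (nat_lit 8) (nat_lit 0x10000f000200000001000080000000000000000000000000000000) (nat_lit 0x0) (nat_lit 0x70010000cc001e000e00000000000000000000000000000000000) := T_30 (nat_lit 178) (nat_lit 179) (nat_lit 2) (nat_lit 5) (nat_lit 11) L90652 (by decide +kernel)
theorem L90654 : W_30 (nat_lit 9) (nat_lit 0x10000e000200000001000080000000000000000000000000000000) (nat_lit 0x0) (nat_lit 0xf8011800cc001e000e00000000000000000000000000000000000) := Q_30 (nat_lit 192) (C_30 L88008 (C_30 L87410 (C_30 L90653 N_30))) (by decide +kernel)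
theorem L90657 : W_30 (nat_lit 2) (nat_lit 0x300010001e000f00000001000080000000000000000000000000000000) (nat_lit 0x0) (nat_lit 0x8000000000000c000000000000000000000000000000000000000) := D_30 (nat_lit 159) (nat_lit 211) (nat_lit 158) (nat_lit 4) (nat_lit 7) (nat_lit 13) (nat_lit 0) (nat_lit 9) (nat_lit 10) (by decide +kernel)
theorem L90658 : W_30 (nat_lit 3) (nat_lit 0x200010001e000f00000001000080000000000000000000000000000000) (nat_lit 0x0) (nat_lit 0x2000100008000000000000c000000000000000000000000000000000000000) := T_30 (nat_lit 228) (nat_lit 245) (nat_lit 5) (nat_lit 8) (nat_lit 10) L90657 (by decide +kernel)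
theorem L90659 : W_30 (nat_lit 4) (nat_lit 0x200010001e000b00000001000080000000000000000000000000000000) (nat_lit 0x0) (nat_lit 0x2000100008000000040004c000000000000000000000000000000000000000) := T_30 (nat_lit 178) (nat_lit 162) (nat_lit 6) (nat_lit 8) (nat_lit 13) L90658 (by decide +kernel)
theorem L90660 : W_30 (nat_lit 5) (nat_lit 0x200010001e000a00000001000080000000000000000000000000000000) (nat_lit 0x0) (nat_lit 0x2000100008000000058004c000000000000000000000000000000000000000) := T_30 (nat_lit 176) (nat_lit 175) (nat_lit 0) (nat_lit 9) (nat_lit 11) L90659 (by decide +kernel)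
theorem L90661 : W_30 (nat_lit 6) (nat_lit 0x10001e000a00000001000080000000000000000000000000000000) (nat_lit 0x0) (nat_lit 0x6000300008000000058004c000000000000000000000000000000000000000) := T_30 (nat_lit 229) (nat_lit 246) (nat_lit 6) (nat_lit 8) (nat_lit 14) L90660 (by decide +kernel)
theorem L90662 : W_30 (nat_lit 7) (nat_lit 0x10001e000200000001000080000000000000000000000000000000) (nat_lit 0x0) (nat_lit 0x60003000080000001d8004c000000000000000000000000000000000000000) := T_30 (nat_lit 179) (nat_lit 180) (nat_lit 2) (nat_lit 6) (nat_lit 11) L90661 (by decide +kernel)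
theorem L90663 : W_30 (nat_lit 2) (nat_lit 0x30001e000b00040001000080000000000000000000000000000000) (nat_lit 0x0) (nat_lit 0x400080004000000000000000000000000000000000000) := D_30 (nat_lit 163) (nat_lit 146) (nat_lit 178) (nat_lit 6) (nat_lit 9) (nat_lit 12) (nat_lit 2) (nat_lit 6) (nat_lit 10) (by decide +kernel)
theorem L90664 : W_30 (nat_lit 3) (nat_lit 0x30001e000a00040001000080000000000000000000000000000000) (nat_lit 0x0) (nat_lit 0x580080004000000000000000000000000000000000000) := T_30 (nat_lit 176) (nat_lit 175) (nat_lit 0) (nat_lit 9) (nat_lit 11) L90663 (by decide +kernel)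
theorem L90665 : W_30 (nat_lit 4) (nat_lit 0x30001e000a00000001000080000000000000000000000000000000) (nat_lit 0x0) (nat_lit 0x20000000000005800c0004000000000000000000000000000000000000) := T_30 (nat_lit 162) (nat_lit 229) (nat_lit 5) (nat_lit 9) (nat_lit 9) L90664 (by decide +kernel)
theorem L90666 : W_30 (nat_lit 5) (nat_lit 0x30001e000200000001000080000000000000000000000000000000) (nat_lit 0x0) (nat_lit 0x2000000000001d800c0004000000000000000000000000000000000000) := T_30 (nat_lit 179) (nat_lit 180) (nat_lit 2) (nat_lit 6) (nat_lit 11) L90665 (by decide +kernel)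
theorem L90667 : W_30 (nat_lit 6) (nat_lit 0x10001e000200000001000080000000000000000000000000000000) (nat_lit 0x0) (nat_lit 0x2000600000001d800c0004000000000000000000000000000000000000) := T_30 (nat_lit 213) (nat_lit 214) (nat_lit 3) (nat_lit 6) (nat_lit 11) L90666 (by decide +kernel)
theorem L90668 : W_30 (nat_lit 2) (nat_lit 0x40003c001e000a00000001000080000000000000000000000000000000) (nat_lit 0x0) (nat_lit 0x1000080000000000000000400000000000000000000000000000000000000000000) := D_30 (nat_lit 247) (nat_lit 178) (nat_lit 264) (nat_lit 4) (nat_lit 9) (nat_lit 14) (nat_lit 4) (nat_lit 9) (nat_lit 15) (by decide +kernel)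
theorem L90669 : W_30 (nat_lit 3) (nat_lit 0x3c001e000a00000001000080000000000000000000000000000000) (nat_lit 0x0) (nat_lit 0x100008000c000000000000400000000000000000000000000000000000000000000) := T_30 (nat_lit 230) (nat_lit 231) (nat_lit 3) (nat_lit 6) (nat_lit 12) L90668 (by decide +kernel)
theorem L90670 : W_30 (nat_lit 4) (nat_lit 0x38001e000a00000001000080000000000000000000000000000000) (nat_lit 0x0) (nat_lit 0x100008000c000060000000400000000000000000000000000000000000000000000) := T_30 (nat_lit 210) (nat_lit 209) (nat_lit 2) (nat_lit 5) (nat_lit 12) L90669 (by decide +kernel)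
theorem L90671 : W_30 (nat_lit 5) (nat_lit 0x18001e000a00000001000080000000000000000000000000000000) (nat_lit 0x0) (nat_lit 0x100008000c000660000000400000000000000000000000000000000000000000000) := T_30 (nat_lit 213) (nat_lit 214) (nat_lit 3) (nat_lit 6) (nat_lit 11) L90670 (by decide +kernel)
theorem L90672 : W_30 (nat_lit 6) (nat_lit 0x18001e000200000001000080000000000000000000000000000000) (nat_lit 0x0) (nat_lit 0x100008000c000660000001c00000000000000000000000000000000000000000000) := T_30 (nat_lit 179) (nat_lit 180) (nat_lit 2) (nat_lit 6) (nat_lit 11) L90671 (by decide +kernel)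
theorem L90673 : W_30 (nat_lit 7) (nat_lit 0x10001e000200000001000080000000000000000000000000000000) (nat_lit 0x0) (nat_lit 0x100008000d0006e0000001d80008000400000000000000000000000000000000000) := Q_30 (nat_lit 211) (C_30 L87018 (C_30 L90433 (C_30 L90425 (C_30 L90672 N_30)))) (by decide +kernel)
theorem L90674 : W_30 (nat_lit 8) (nat_lit 0x1e000200000001000080000000000000000000000000000000) (nat_lit 0x0) (nat_lit 0x10000e000f0007e0000001d800cc004400000000000000000000000000000000000) := Q_30 (nat_lit 212) (C_30 L90434 (C_30 L80283 (C_30 L90662 (C_30 L90667 (C_30 L90673 N_30))))) (by decide +kernel)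
theorem L90675 : W_30 (nat_lit 9) (nat_lit 0x1c000200000001000080000000000000000000000000000000) (nat_lit 0x0) (nat_lit 0x10000e000f0007e0003801dc00cc004400000000000000000000000000000000000) := Q_30 (nat_lit 193) (C_30 L90674 (C_30 L9287 (C_30 L8050 (C_30 L87546 N_30)))) (by decide +kernel)
theorem L90676 : W_30 (nat_lit 10) (nat_lit 0xc000200000001000080000000000000000000000000000000) (nat_lit 0x0) (nat_lit 0x10000e000f001ff0073807de00cc004400000000000000000000000000000000000) := Q_30 (nat_lit 196) (C_30 L90376 (C_30 L85590 (C_30 L7817 (C_30 L90675 N_30)))) (by decide +kernel)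
theorem L90677 : W_30 (nat_lit 5) (nat_lit 0x24001e000200000001c00080000000000000000000000000000000) (nat_lit 0x0) (nat_lit 0x700030011c000000000000000000000000000000) := T_30 (nat_lit 141) (nat_lit 128) (nat_lit 2) (nat_lit 5) (nat_lit 8) L85478 (by decide +kernel)
theorem L90678 : W_30 (nat_lit 6) (nat_lit 0x24001e000200000001400080000000000000000000000000000000) (nat_lit 0x0) (nat_lit 0x17000b0011c000000000000000000000000000000) := T_30 (nat_lit 143) (nat_lit 160) (nat_lit 6) (nat_lit 7) (nat_lit 11) L90677 (by decide +kernel)
theorem L90679 : W_30 (nat_lit 7) (nat_lit 0x4001e000200000001400080000000000000000000000000000000) (nat_lit 0x0) (nat_lit 0x600000000000017000b0011c000000000000000000000000000000) := T_30 (nat_lit 213) (nat_lit 214) (nat_lit 3) (nat_lit 6) (nat_lit 11) L90678 (by decide +kernel)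
theorem L90680 : W_30 (nat_lit 8) (nat_lit 0x1e000200000001400080000000000000000000000000000000) (nat_lit 0x0) (nat_lit 0x660000000000017000b0011c000000000000000000000000000000) := T_30 (nat_lit 210) (nat_lit 209) (nat_lit 1) (nat_lit 9) (nat_lit 11) L90679 (by decide +kernel)
theorem L90681 : W_30 (nat_lit 2) (nat_lit 0x1e000300000001400080000000000000000000000000000000) (nat_lit 0x0) (nat_lit 0x80000000000008000000020000000000000000000000000000000) := D_30 (nat_lit 159) (nat_lit 211) (nat_lit 125) (nat_lit 7) (nat_lit 6) (nat_lit 8) (nat_lit 7) (nat_lit 6) (nat_lit 7) (by decide +kernel)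
theorem L90682 : W_30 (nat_lit 3) (nat_lit 0x1e000200000001400080000000000000000000000000000000) (nat_lit 0x0) (nat_lit 0x80000000180008000000020000000000000000000000000000000) := T_30 (nat_lit 176) (nat_lit 175) (nat_lit 0) (nat_lit 9) (nat_lit 11) L90681 (by decide +kernel)
theorem L90683 : W_30 (nat_lit 9) (nat_lit 0x1e000200000001000080000000000000000000000000000000) (nat_lit 0x0) (nat_lit 0x6e000000018001f000f0013c000000000000000000000000000000) := Q_30 (nat_lit 142) (C_30 L90680 (C_30 L90682 N_30)) (by decide +kernel)
theorem L90684 : W_30 (nat_lit 2) (nat_lit 0x10001e000a00010001000080000000000000000000000000000000) (nat_lit 0x0) (nat_lit 0x40002000080000000000000000000000000000000000000000000000000000) := D_30 (nat_lit 229) (nat_lit 246) (nat_lit 211) (nat_lit 6) (nat_lit 8) (nat_lit 14) (nat_lit 7) (nat_lit 7) (nat_lit 9) (by decide +kernel)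
theorem L90685 : W_30 (nat_lit 3) (nat_lit 0x10001e000a00000001000080000000000000000000000000000000) (nat_lit 0x0) (nat_lit 0x40002000080000000000010000800000000000000000000000000000000000) := T_30 (nat_lit 160) (nat_lit 143) (nat_lit 7) (nat_lit 7) (nat_lit 8) L90684 (by decide +kernel)
theorem L90686 : W_30 (nat_lit 4) (nat_lit 0x10001e000200000001000080000000000000000000000000000000) (nat_lit 0x0) (nat_lit 0x40002000080000001800010000800000000000000000000000000000000000) := T_30 (nat_lit 179) (nat_lit 180) (nat_lit 2) (nat_lit 6) (nat_lit 11) L90685 (by decide +kernel)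
theorem L90687 : W_30 (nat_lit 4) (nat_lit 0x14001e000200000001400080000000000000000000000000000000) (nat_lit 0x0) (nat_lit 0x18000c000200030000000000000000000000000000000) := T_30 (nat_lit 176) (nat_lit 175) (nat_lit 0) (nat_lit 9) (nat_lit 11) L86080 (by decide +kernel)
theorem L90688 : W_30 (nat_lit 5) (nat_lit 0x10001e000200000001400080000000000000000000000000000000) (nat_lit 0x0) (nat_lit 0x6000000018000c000200030000000000000000000000000000000) := T_30 (nat_lit 210) (nat_lit 209) (nat_lit 1) (nat_lit 9) (nat_lit 11) L90687 (by decide +kernel)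
theorem L90689 : W_30 (nat_lit 2) (nat_lit 0x14001e000300002001e00088000000000000000000000000000000) (nat_lit 0x0) (nat_lit 0x1000100004000000000000000000000000000000) := D_30 (nat_lit 140) (nat_lit 156) (nat_lit 122) (nat_lit 1) (nat_lit 7) (nat_lit 8) (nat_lit 0) (nat_lit 7) (nat_lit 8) (by decide +kernel)
theorem L90690 : W_30 (nat_lit 3) (nat_lit 0x14001e000300002001e00080000000000000000000000000000000) (nat_lit 0x0) (nat_lit 0x100010001c000000000000000000000000000000) := T_30 (nat_lit 123) (nat_lit 124) (nat_lit 0) (nat_lit 8) (nat_lit 8) L90689 (by decide +kernel)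
theorem L90691 : W_30 (nat_lit 4) (nat_lit 0x14001e000300000001e00080000000000000000000000000000000) (nat_lit 0x0) (nat_lit 0x700010001c000000000000000000000000000000) := T_30 (nat_lit 157) (nat_lit 158) (nat_lit 1) (nat_lit 8) (nat_lit 8) L90690 (by decide +kernel)
theorem L90692 : W_30 (nat_lit 5) (nat_lit 0x14001e000300000001c00080000000000000000000000000000000) (nat_lit 0x0) (nat_lit 0x700030011c000000000000000000000000000000) := T_30 (nat_lit 141) (nat_lit 128) (nat_lit 2) (nat_lit 5) (nat_lit 8) L90691 (by decide +kernel)
theorem L90693 : W_30 (nat_lit 6) (nat_lit 0x14001e000300000001400080000000000000000000000000000000) (nat_lit 0x0) (nat_lit 0x17000b0011c000000000000000000000000000000) := T_30 (nat_lit 143) (nat_lit 160) (nat_lit 7) (nat_lit 7) (nat_lit 8) L90692 (by decide +kernel)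
theorem L90694 : W_30 (nat_lit 7) (nat_lit 0x14001e000200000001400080000000000000000000000000000000) (nat_lit 0x0) (nat_lit 0x180017000b0011c000000000000000000000000000000) := T_30 (nat_lit 176) (nat_lit 175) (nat_lit 0) (nat_lit 9) (nat_lit 11) L90693 (by decide +kernel)
theorem L90695 : W_30 (nat_lit 8) (nat_lit 0x10001e000200000001400080000000000000000000000000000000) (nat_lit 0x0) (nat_lit 0x60000000180017000b0011c000000000000000000000000000000) := T_30 (nat_lit 210) (nat_lit 209) (nat_lit 1) (nat_lit 9) (nat_lit 11) L90694 (by decide +kernel)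
theorem L90696 : W_30 (nat_lit 5) (nat_lit 0x10001e000a00000001c00080000000000000000000000000000000) (nat_lit 0x0) (nat_lit 0x700030011c000000000000000000000000000000) := T_30 (nat_lit 141) (nat_lit 128) (nat_lit 2) (nat_lit 5) (nat_lit 8) L85465 (by decide +kernel)
theorem L90697 : W_30 (nat_lit 6) (nat_lit 0x10001e000a00000001400080000000000000000000000000000000) (nat_lit 0x0) (nat_lit 0x17000b0011c000000000000000000000000000000) := T_30 (nat_lit 143) (nat_lit 160) (nat_lit 7) (nat_lit 7) (nat_lit 8) L90696 (by decide +kernel)
theorem L90698 : W_30 (nat_lit 7) (nat_lit 0x10001e000200000001400080000000000000000000000000000000) (nat_lit 0x0) (nat_lit 0x1800017000b0011c000000000000000000000000000000) := T_30 (nat_lit 179) (nat_lit 180) (nat_lit 2) (nat_lit 6) (nat_lit 11) L90697 (by decide +kernel)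
theorem L90699 : W_30 (nat_lit 9) (nat_lit 0x10001e000200000001000080000000000000000000000000000000) (nat_lit 0x0) (nat_lit 0xe000000198001f000f0013c000000000000000000000000000000) := Q_30 (nat_lit 142) (C_30 L90688 (C_30 L90695 (C_30 L88882 (C_30 L90698 N_30)))) (by decide +kernel)
theorem L90700 : W_30 (nat_lit 10) (nat_lit 0x1e000200000001000080000000000000000000000000000000) (nat_lit 0x0) (nat_lit 0x600030001e0000001d8005f000f0013c000000000000000000000000000000) := Q_30 (nat_lit 212) (C_30 L80312 (C_30 L90662 (C_30 L90686 (C_30 L80315 (C_30 L90699 N_30))))) (by decide +kernel)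
theorem L90701 : W_30 (nat_lit 11) (nat_lit 0x1c000200000001000080000000000000000000000000000000) (nat_lit 0x0) (nat_lit 0x30001e000f0007e0002001d800df004f0013c000000000000000000000000000000) := Q_30 (nat_lit 193) (C_30 L90674 (C_30 L90683 (C_30 L85516 (C_30 L90700 N_30)))) (by decide +kernel)
theorem L90702 : W_30 (nat_lit 12) (nat_lit 0xc000200000001000080000000000000000000000000000000) (nat_lit 0x0) (nat_lit 0x30001e000f003fe01f200fdc01df00cf0033c000000000000000000000000000000) := Q_30 (nat_lit 196) (C_30 L87542 (C_30 L85590 (C_30 L85928 (C_30 L90701 N_30)))) (by decide +kernel)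
theorem L90711 : W_30 (nat_lit 4) (nat_lit 0x10000e000300000001000080000000000000000000000000000000) (nat_lit 0x0) (nat_lit 0x280031c00000000000000000000000000000000000000000000000) := T_30 (nat_lit 197) (nat_lit 196) (nat_lit 0) (nat_lit 10) (nat_lit 11) L87058 (by decide +kernel)
theorem L90712 : W_30 (nat_lit 2) (nat_lit 0x200030001e000300000001000080000000000000000000000000000000) (nat_lit 0x0) (nat_lit 0x1800040000000000000000000000000000000000000000) := D_30 (nat_lit 179) (nat_lit 162) (nat_lit 180) (nat_lit 5) (nat_lit 9) (nat_lit 9) (nat_lit 2) (nat_lit 6) (nat_lit 11) (by decide +kernel)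
theorem L90713 : W_30 (nat_lit 3) (nat_lit 0x200010001e000300000001000080000000000000000000000000000000) (nat_lit 0x0) (nat_lit 0x600000001800040000000000000000000000000000000000000000) := T_30 (nat_lit 213) (nat_lit 214) (nat_lit 3) (nat_lit 6) (nat_lit 11) L90712 (by decide +kernel)
theorem L90714 : W_30 (nat_lit 4) (nat_lit 0x10001e000300000001000080000000000000000000000000000000) (nat_lit 0x0) (nat_lit 0x40002000600000001800040000000000000000000000000000000000000000) := T_30 (nat_lit 229) (nat_lit 246) (nat_lit 4) (nat_lit 8) (nat_lit 14) L90713 (by decide +kernel)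
theorem L90715 : W_30 (nat_lit 5) (nat_lit 0x10000e000300000001000080000000000000000000000000000000) (nat_lit 0x0) (nat_lit 0x40002000600030001800040000000000000000000000000000000000000000) := T_30 (nat_lit 196) (nat_lit 197) (nat_lit 0) (nat_lit 10) (nat_lit 11) L90714 (by decide +kernel)
theorem L90716 : W_30 (nat_lit 2) (nat_lit 0x4000000010001f000b00000001000080000000000000000000000000000000) (nat_lit 0x0) (nat_lit 0x80000c00000000000000000000000000000000000000000000000) := D_30 (nat_lit 191) (nat_lit 211) (nat_lit 190) (nat_lit 3) (nat_lit 4) (nat_lit 11) (nat_lit 2) (nat_lit 3) (nat_lit 11) (by decide +kernel)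
theorem L90717 : W_30 (nat_lit 3) (nat_lit 0x4000000010001e000b00000001000080000000000000000000000000000000) (nat_lit 0x0) (nat_lit 0x80001c00400000000000000000000000000000000000000000000) := T_30 (nat_lit 192) (nat_lit 178) (nat_lit 2) (nat_lit 5) (nat_lit 11) L90716 (by decide +kernel)
theorem L90718 : W_30 (nat_lit 4) (nat_lit 0x4000000010001e000300000001000080000000000000000000000000000000) (nat_lit 0x0) (nat_lit 0x80001c01c00000000000000000000000000000000000000000000) := T_30 (nat_lit 179) (nat_lit 180) (nat_lit 2) (nat_lit 6) (nat_lit 11) L90717 (by decide +kernel)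
theorem L90719 : W_30 (nat_lit 5) (nat_lit 0x4000000010000e000300000001000080000000000000000000000000000000) (nat_lit 0x0) (nat_lit 0x80031c01c00000000000000000000000000000000000000000000) := T_30 (nat_lit 196) (nat_lit 197) (nat_lit 0) (nat_lit 10) (nat_lit 11) L90718 (by decide +kernel)
theorem L90720 : W_30 (nat_lit 6) (nat_lit 0x10000e000300000001000080000000000000000000000000000000) (nat_lit 0x0) (nat_lit 0x40002000080031c01c00000000000000000000000000000000000000000000) := T_30 (nat_lit 246) (nat_lit 229) (nat_lit 4) (nat_lit 8) (nat_lit 14) L90719 (by decide +kernel)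
theorem L90721 : W_30 (nat_lit 7) (nat_lit 0x10000c000300000001000080000000000000000000000000000000) (nat_lit 0x0) (nat_lit 0x40002000680033c01c00040000000000000000000000000000000000000000) := Q_30 (nat_lit 193) (C_30 L85602 (C_30 L90711 (C_30 L90715 (C_30 L90720 N_30)))) (by decide +kernel)
theorem L90722 : W_30 (nat_lit 8) (nat_lit 0x10000c000300000001000080000000000000000000000000000000) (nat_lit 0x0) (nat_lit 0x280033c0040001f000f0013c000000000000000000000000000000) := Q_30 (nat_lit 193) (C_30 L90711 (C_30 L87356 (C_30 L85602 N_30))) (by decide +kernel)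
theorem L90723 : W_30 (nat_lit 11) (nat_lit 0xc000300000001000080000000000000000000000000000000) (nat_lit 0x0) (nat_lit 0x60003000780033c03c001df000f0013c000000000000000000000000000000) := Q_30 (nat_lit 212) (C_30 L88863 (C_30 L87550 (C_30 L90721 (C_30 L86068 (C_30 L90722 N_30))))) (by decide +kernel)
theorem L90724 : W_30 (nat_lit 12) (nat_lit 0xc000200000001000080000000000000000000000000000000) (nat_lit 0x0) (nat_lit 0x60003000780033c03dc01df000f8013e001c000a0000000000000000000000) := Q_30 (nat_lit 176) (C_30 L87665 (C_30 L82190 (C_30 L86055 (C_30 L90723 N_30)))) (by decide +kernel)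
theorem L90725 : W_30 (nat_lit 12) (nat_lit 0xc000200000001000080000000000000000000000000000000) (nat_lit 0x0) (nat_lit 0x30001e000f003ff01f380fd801df00cf0033c000000000000000000000000000000) := Q_30 (nat_lit 196) (C_30 L87542 (C_30 L90701 (C_30 L5062 (C_30 L85928 (C_30 L85941 (C_30 L10819 (C_30 L7821 N_30))))))) (by decide +kernel)
theorem L90730 : W_30 (nat_lit 16) (nat_lit 0x6000200000001000080000000000000000000000000000000) (nat_lit 0x0) (nat_lit 0x10001a003f003f800fc019e001e001f800f8013c000400020000000000000000000000) := Q_30 (nat_lit 210) (C_30 L89640 (C_30 L85341 (C_30 L80043 (C_30 L10108 (C_30 L89104 N_30))))) (by decide +kernel)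
theorem L90733 : W_30 (nat_lit 4) (nat_lit 0x40006000200010001000080000000000000000000000000000000) (nat_lit 0x0) (nat_lit 0x2800380001800000000000000000000000000000000000000000000000) := T_30 (nat_lit 211) (nat_lit 227) (nat_lit 5) (nat_lit 7) (nat_lit 9) L89844 (by decide +kernel)
theorem L90734 : W_30 (nat_lit 5) (nat_lit 0x40006000200000001000080000000000000000000000000000000) (nat_lit 0x0) (nat_lit 0x2800380001800000010000800000000000000000000000000000000000) := T_30 (nat_lit 160) (nat_lit 143) (nat_lit 6) (nat_lit 7) (nat_lit 11) L90733 (by decide +kernel)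
theorem L90736 : W_30 (nat_lit 5) (nat_lit 0xc0006000200000001000080000000000000000000000000000000) (nat_lit 0x0) (nat_lit 0xc0006000f000130000000100000000000000000000000000000000000000000000) := Q_30 (nat_lit 228) (C_30 L80968 (C_30 L10211 (C_30 L10198 N_30))) (by decide +kernel)
theorem L90737 : W_30 (nat_lit 6) (nat_lit 0xc0006000200018001000080000000000000000000000000000000) (nat_lit 0x0) (nat_lit 0x600030001000030018000500000000000000000000000000000000000000000000) := T_30 (nat_lit 228) (nat_lit 176) (nat_lit 7) (nat_lit 6) (nat_lit 9) L89437 (by decide +kernel)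
theorem L90738 : W_30 (nat_lit 7) (nat_lit 0xc0006000200010001000080000000000000000000000000000000) (nat_lit 0x0) (nat_lit 0x600030001000030018000500008000400000000000000000000000000000000000) := T_30 (nat_lit 159) (nat_lit 142) (nat_lit 4) (nat_lit 7) (nat_lit 12) L90737 (by decide +kernel)
theorem L90739 : W_30 (nat_lit 8) (nat_lit 0xc0006000200000001000080000000000000000000000000000000) (nat_lit 0x0) (nat_lit 0x600030001000030018000500018000c00000000000000000000000000000000000) := T_30 (nat_lit 160) (nat_lit 143) (nat_lit 6) (nat_lit 7) (nat_lit 11) L90738 (by decide +kernel)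
theorem L90740 : W_30 (nat_lit 9) (nat_lit 0x40006000200000001000080000000000000000000000000000000) (nat_lit 0x0) (nat_lit 0xe0007000f0003b0019800500018000c00000000000000000000000000000000000) := Q_30 (nat_lit 211) (C_30 L89433 (C_30 L89845 (C_30 L90736 (C_30 L90739 N_30)))) (by decide +kernel)
theorem L90741 : W_30 (nat_lit 11) (nat_lit 0x6000200000001000080000000000000000000000000000000) (nat_lit 0x0) (nat_lit 0xf000fc00fc003f8019e00570018000c00000000000000000000000000000000000) := Q_30 (nat_lit 210) (C_30 L90734 (C_30 L85391 (C_30 L85341 (C_30 L90740 (C_30 L80043 N_30))))) (by decide +kernel)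
theorem L90746 : W_30 (nat_lit 8) (nat_lit 0x6000200000001000080000000000000000000000000000000) (nat_lit 0x0) (nat_lit 0x4000200073c019c01df0010000800000000000000000000000000000000000) := Q_30 (nat_lit 192) (C_30 L89348 (C_30 L85298 (C_30 L86991 (C_30 L80497 N_30)))) (by decide +kernel)
theorem L90757 : W_30 (nat_lit 7) (nat_lit 0x1000200014000f000600000001000080000000000000000000000000000000) (nat_lit 0x0) (nat_lit 0x7a001d001c80000000000000000000000000000000000000000000000000000) := T_30 (nat_lit 228) (nat_lit 245) (nat_lit 5) (nat_lit 8) (nat_lit 10) L78202 (by decide +kernel)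
theorem L90758 : W_30 (nat_lit 8) (nat_lit 0x1000200014000f000200000001000080000000000000000000000000000000) (nat_lit 0x0) (nat_lit 0x7a001d001c80000000c00000000000000000000000000000000000000000000) := T_30 (nat_lit 178) (nat_lit 179) (nat_lit 2) (nat_lit 5) (nat_lit 11) L90757 (by decide +kernel)
theorem L90759 : W_30 (nat_lit 9) (nat_lit 0x1000000014000f000200000001000080000000000000000000000000000000) (nat_lit 0x0) (nat_lit 0x7e001f001c80000000c00000000000000000000000000000000000000000000) := T_30 (nat_lit 229) (nat_lit 246) (nat_lit 4) (nat_lit 8) (nat_lit 14) L90758 (by decide +kernel)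
theorem L90760 : W_30 (nat_lit 10) (nat_lit 0x1000000004000f000200000001000080000000000000000000000000000000) (nat_lit 0x0) (nat_lit 0x7e001f001f80000000c00000000000000000000000000000000000000000000) := T_30 (nat_lit 212) (nat_lit 213) (nat_lit 3) (nat_lit 5) (nat_lit 11) L90759 (by decide +kernel)
theorem L90761 : W_30 (nat_lit 11) (nat_lit 0x4000f000200000001000080000000000000000000000000000000) (nat_lit 0x0) (nat_lit 0x7f001f801f80000000c00000000000000000000000000000000000000000000) := T_30 (nat_lit 244) (nat_lit 227) (nat_lit 6) (nat_lit 6) (nat_lit 14) L90760 (by decide +kernel)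
theorem L90762 : W_30 (nat_lit 12) (nat_lit 0x40007000200000001000080000000000000000000000000000000) (nat_lit 0x0) (nat_lit 0x7f001f801fb0018000c00000000000000000000000000000000000000000000) := Q_30 (nat_lit 195) (C_30 L84450 (C_30 L10152 (C_30 L90761 N_30))) (by decide +kernel)
theorem L90773 : W_30 (nat_lit 3) (nat_lit 0x4000e000200000001800080000000000000000000000000000000) (nat_lit 0x0) (nat_lit 0xb8010000000000000000000000000000000000000000000000000) := T_30 (nat_lit 209) (nat_lit 196) (nat_lit 1) (nat_lit 9) (nat_lit 11) L80239 (by decide +kernel)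
theorem L90774 : W_30 (nat_lit 4) (nat_lit 0x4000e000200000001000080000000000000000000000000000000) (nat_lit 0x0) (nat_lit 0xb8010000000010000800000000000000000000000000000000000) := T_30 (nat_lit 143) (nat_lit 160) (nat_lit 6) (nat_lit 7) (nat_lit 11) L90773 (by decide +kernel)
theorem L90790 : W_30 (nat_lit 8) (nat_lit 0x7000200000001000080000000000000000000000000000000) (nat_lit 0x0) (nat_lit 0x100008007f0018001dc001e000a00000000000000000000000000000000000) := Q_30 (nat_lit 195) (C_30 L23858 (C_30 L89921 (C_30 L84922 N_30))) (by decide +kernel)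
theorem L90791 : W_30 (nat_lit 9) (nat_lit 0x6000200000001000080000000000000000000000000000000) (nat_lit 0x0) (nat_lit 0x100008007fc019c01df001e000a00000000000000000000000000000000000) := Q_30 (nat_lit 192) (C_30 L89348 (C_30 L85298 (C_30 L86991 (C_30 L90790 N_30)))) (by decide +kernel)
theorem L90806 : W_30 (nat_lit 5) (nat_lit 0x1c000c000200018001000080000000000000000000000000000000) (nat_lit 0x0) (nat_lit 0x6000300030001c0000000000000000000000000000000000000000000) := T_30 (nat_lit 209) (nat_lit 208) (nat_lit 2) (nat_lit 4) (nat_lit 12) L66587 (by decide +kernel)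
theorem L90807 : W_30 (nat_lit 6) (nat_lit 0x1c000c000200010001000080000000000000000000000000000000) (nat_lit 0x0) (nat_lit 0x6000300030001c0008000400000000000000000000000000000000000) := T_30 (nat_lit 159) (nat_lit 142) (nat_lit 4) (nat_lit 7) (nat_lit 12) L90806 (by decide +kernel)
theorem L90808 : W_30 (nat_lit 7) (nat_lit 0xc000c000200010001000080000000000000000000000000000000) (nat_lit 0x0) (nat_lit 0x26001300030001c0008000400000000000000000000000000000000000) := T_30 (nat_lit 212) (nat_lit 229) (nat_lit 7) (nat_lit 7) (nat_lit 9) L90807 (by decide +kernel)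
theorem L90809 : W_30 (nat_lit 8) (nat_lit 0xc000c000200000001000080000000000000000000000000000000) (nat_lit 0x0) (nat_lit 0x26001300030001c0018000c00000000000000000000000000000000000) := T_30 (nat_lit 160) (nat_lit 143) (nat_lit 6) (nat_lit 7) (nat_lit 11) L90808 (by decide +kernel)
theorem L90810 : W_30 (nat_lit 6) (nat_lit 0xc000c000200000001000080000000000000000000000000000000) (nat_lit 0x0) (nat_lit 0x10000c001e000f00070000400010000000000000000000000000000000000000000) := Q_30 (nat_lit 212) (C_30 L90037 (C_30 L82105 N_30)) (by decide +kernel)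
theorem L90811 : W_30 (nat_lit 9) (nat_lit 0xc0004000200000001000080000000000000000000000000000000) (nat_lit 0x0) (nat_lit 0x10000c001e600f3007b0005c0018000c00000000000000000000000000000000000) := Q_30 (nat_lit 195) (C_30 L19598 (C_30 L90809 (C_30 L9036 (C_30 L90810 N_30)))) (by decide +kernel)
theorem L90812 : W_30 (nat_lit 12) (nat_lit 0x80004000200000001000080000000000000000000000000000000) (nat_lit 0x0) (nat_lit 0x1a000d001ee00f7007b003dc01df000e00000000000000000000000000000000000) := Q_30 (nat_lit 210) (C_30 L6744 (C_30 L89776 (C_30 L78776 (C_30 L90811 N_30)))) (by decide +kernel)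
theorem L90814 : W_30 (nat_lit 2) (nat_lit 0x1f0016000f000b40000001000080000000000000000000000000000000) (nat_lit 0x0) (nat_lit 0x7000000000000000000000000000000000000000000000000000000000000) := D_30 (nat_lit 241) (nat_lit 242) (nat_lit 240) (nat_lit 1) (nat_lit 7) (nat_lit 13) (nat_lit 1) (nat_lit 6) (nat_lit 13) (by decide +kernel)
theorem L90815 : W_30 (nat_lit 3) (nat_lit 0x1e0016000f000b40000001000080000000000000000000000000000000) (nat_lit 0x0) (nat_lit 0x7000180000000000000000000000000000000000000000000000000000000) := T_30 (nat_lit 224) (nat_lit 223) (nat_lit 2) (nat_lit 2) (nat_lit 13) L90814 (by decide +kernel)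
theorem L90816 : W_30 (nat_lit 4) (nat_lit 0x1c0016000f000b40000001000080000000000000000000000000000000) (nat_lit 0x0) (nat_lit 0x7000380080000000000000000000000000000000000000000000000000000) := T_30 (nat_lit 225) (nat_lit 211) (nat_lit 2) (nat_lit 4) (nat_lit 13) L90815 (by decide +kernel)
theorem L90817 : W_30 (nat_lit 5) (nat_lit 0xc0016000f000b40000001000080000000000000000000000000000000) (nat_lit 0x0) (nat_lit 0x27001380080000000000000000000000000000000000000000000000000000) := T_30 (nat_lit 228) (nat_lit 245) (nat_lit 7) (nat_lit 6) (nat_lit 10) L90816 (by decide +kernel)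
theorem L90818 : W_30 (nat_lit 6) (nat_lit 0x80016000f000b40000001000080000000000000000000000000000000) (nat_lit 0x0) (nat_lit 0x2f001780080000000000000000000000000000000000000000000000000000) := T_30 (nat_lit 226) (nat_lit 243) (nat_lit 6) (nat_lit 5) (nat_lit 14) L90817 (by decide +kernel)
theorem L90819 : W_30 (nat_lit 7) (nat_lit 0x16000f000b40000001000080000000000000000000000000000000) (nat_lit 0x0) (nat_lit 0x3f001f80080000000000000000000000000000000000000000000000000000) := T_30 (nat_lit 227) (nat_lit 244) (nat_lit 6) (nat_lit 6) (nat_lit 14) L90818 (by decide +kernel)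
theorem L90820 : W_30 (nat_lit 8) (nat_lit 0x6000f000b40000001000080000000000000000000000000000000) (nat_lit 0x0) (nat_lit 0x3f001f80380000000000000000000000000000000000000000000000000000) := T_30 (nat_lit 212) (nat_lit 213) (nat_lit 3) (nat_lit 5) (nat_lit 11) L90819 (by decide +kernel)
theorem L90821 : W_30 (nat_lit 9) (nat_lit 0x6000f000340000001000080000000000000000000000000000000) (nat_lit 0x0) (nat_lit 0x3f001f80380000000c00000000000000000000000000000000000000000000) := T_30 (nat_lit 179) (nat_lit 178) (nat_lit 2) (nat_lit 5) (nat_lit 11) L90820 (by decide +kernel)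
theorem L90822 : W_30 (nat_lit 10) (nat_lit 0x6000f000300000001000080000000000000000000000000000000) (nat_lit 0x0) (nat_lit 0x3f001f80380000000cc0000000000000000000000000000000000000000000) := T_30 (nat_lit 174) (nat_lit 175) (nat_lit 3) (nat_lit 4) (nat_lit 10) L90821 (by decide +kernel)
theorem L90823 : W_30 (nat_lit 11) (nat_lit 0x4000f000300000001000080000000000000000000000000000000) (nat_lit 0x0) (nat_lit 0x3f001f803b0000000cc0000000000000000000000000000000000000000000) := T_30 (nat_lit 209) (nat_lit 208) (nat_lit 1) (nat_lit 8) (nat_lit 11) L90822 (by decide +kernel)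
theorem L90824 : W_30 (nat_lit 3) (nat_lit 0x4000f000300000001000080000000000000000000000000000000) (nat_lit 0x0) (nat_lit 0x400030000000000008000400000000000000000000000000000000000) := T_30 (nat_lit 209) (nat_lit 208) (nat_lit 1) (nat_lit 8) (nat_lit 11) L89604 (by decide +kernel)
theorem L90825 : W_30 (nat_lit 2) (nat_lit 0x1c0014000f000740000001000080000000000000000000000000000000) (nat_lit 0x0) (nat_lit 0x200080000000000008000000000000000000000000000000000000000) := D_30 (nat_lit 211) (nat_lit 159) (nat_lit 225) (nat_lit 7) (nat_lit 6) (nat_lit 9) (nat_lit 2) (nat_lit 4) (nat_lit 13) (by decide +kernel)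
theorem L90826 : W_30 (nat_lit 3) (nat_lit 0xc0014000f000740000001000080000000000000000000000000000000) (nat_lit 0x0) (nat_lit 0x20001200080000000000008000000000000000000000000000000000000000) := T_30 (nat_lit 228) (nat_lit 245) (nat_lit 7) (nat_lit 6) (nat_lit 10) L90825 (by decide +kernel)
theorem L90827 : W_30 (nat_lit 4) (nat_lit 0x80014000f000740000001000080000000000000000000000000000000) (nat_lit 0x0) (nat_lit 0x28001600080000000000008000000000000000000000000000000000000000) := T_30 (nat_lit 226) (nat_lit 243) (nat_lit 5) (nat_lit 6) (nat_lit 10) L90826 (by decide +kernel)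
theorem L90828 : W_30 (nat_lit 5) (nat_lit 0x14000f000740000001000080000000000000000000000000000000) (nat_lit 0x0) (nat_lit 0x38001e00080000000000008000000000000000000000000000000000000000) := T_30 (nat_lit 227) (nat_lit 244) (nat_lit 6) (nat_lit 6) (nat_lit 14) L90827 (by decide +kernel)
theorem L90829 : W_30 (nat_lit 6) (nat_lit 0x4000f000740000001000080000000000000000000000000000000) (nat_lit 0x0) (nat_lit 0x38001e00380000000000008000000000000000000000000000000000000000) := T_30 (nat_lit 212) (nat_lit 213) (nat_lit 3) (nat_lit 5) (nat_lit 11) L90828 (by decide +kernel)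
theorem L90830 : W_30 (nat_lit 7) (nat_lit 0x4000f000700000001000080000000000000000000000000000000) (nat_lit 0x0) (nat_lit 0x38001e003800000000c0008000000000000000000000000000000000000000) := T_30 (nat_lit 174) (nat_lit 175) (nat_lit 3) (nat_lit 4) (nat_lit 10) L90829 (by decide +kernel)
theorem L90831 : W_30 (nat_lit 8) (nat_lit 0x4000f000300000001000080000000000000000000000000000000) (nat_lit 0x0) (nat_lit 0x38001e00380000000cc0008000000000000000000000000000000000000000) := T_30 (nat_lit 178) (nat_lit 179) (nat_lit 2) (nat_lit 5) (nat_lit 11) L90830 (by decide +kernel)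
theorem L90832 : W_30 (nat_lit 2) (nat_lit 0x180006000f000300000001000080000000000000000000000000000000) (nat_lit 0x0) (nat_lit 0x80000000000008000400000000000000000000000000000000000) := D_30 (nat_lit 159) (nat_lit 211) (nat_lit 142) (nat_lit 7) (nat_lit 6) (nat_lit 9) (nat_lit 5) (nat_lit 6) (nat_lit 8) (by decide +kernel)
theorem L90833 : W_30 (nat_lit 3) (nat_lit 0x80006000f000300000001000080000000000000000000000000000000) (nat_lit 0x0) (nat_lit 0x20001000080000000000008000400000000000000000000000000000000000) := T_30 (nat_lit 228) (nat_lit 245) (nat_lit 7) (nat_lit 6) (nat_lit 10) L90832 (by decide +kernel)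
theorem L90834 : W_30 (nat_lit 4) (nat_lit 0x80004000f000300000001000080000000000000000000000000000000) (nat_lit 0x0) (nat_lit 0x200010000b0000000000008000400000000000000000000000000000000000) := T_30 (nat_lit 209) (nat_lit 208) (nat_lit 1) (nat_lit 8) (nat_lit 11) L90833 (by decide +kernel)
theorem L90835 : W_30 (nat_lit 5) (nat_lit 0x4000f000300000001000080000000000000000000000000000000) (nat_lit 0x0) (nat_lit 0x300018000b0000000000008000400000000000000000000000000000000000) := T_30 (nat_lit 227) (nat_lit 244) (nat_lit 6) (nat_lit 6) (nat_lit 14) L90834 (by decide +kernel)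
theorem L90836 : W_30 (nat_lit 12) (nat_lit 0x4000f000200000001000080000000000000000000000000000000) (nat_lit 0x0) (nat_lit 0x3f001f803b0000000dc0008000400000000000000000000000000000000000) := Q_30 (nat_lit 176) (C_30 L90823 (C_30 L89646 (C_30 L90824 (C_30 L90831 (C_30 L90835 N_30))))) (by decide +kernel)
theorem L90837 : W_30 (nat_lit 13) (nat_lit 0x40007000200000001000080000000000000000000000000000000) (nat_lit 0x0) (nat_lit 0x3f001f807b0078000dc0008000400000000000000000000000000000000000) := Q_30 (nat_lit 195) (C_30 L84441 (C_30 L80509 (C_30 L90836 N_30))) (by decide +kernel)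
theorem L90838 : W_30 (nat_lit 14) (nat_lit 0x40006000200000001000080000000000000000000000000000000) (nat_lit 0x0) (nat_lit 0x3f001f807bc079f00df000a000500000000000000000000000000000000000) := Q_30 (nat_lit 192) (C_30 L89724 (C_30 L84924 (C_30 L80146 (C_30 L80212 (C_30 L90837 N_30))))) (by decide +kernel)
theorem L90840 : W_30 (nat_lit 13) (nat_lit 0x6000200000001000080000000000000000000000000000000) (nat_lit 0x0) (nat_lit 0x38001c002f80ffc039f03cfc017000f0011c000000000000000000000000000000) := Q_30 (nat_lit 210) (C_30 L90734 (C_30 L89186 (C_30 L80118 (C_30 L10108 (C_30 L80125 N_30))))) (by decide +kernel)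
theorem L90859 : W_30 (nat_lit 11) (nat_lit 0x6000200000001000080000000000000000000000000000000) (nat_lit 0x0) (nat_lit 0x38003f007f8038000de001f000f0013c0038001c0002000000000000000000) := Q_30 (nat_lit 210) (C_30 L89640 (C_30 L85341 (C_30 L80043 (C_30 L10108 (C_30 L84542 N_30))))) (by decide +kernel)
theorem L90866 : W_30 (nat_lit 2) (nat_lit 0x60006000f000280008001000080000000000000000000000000000000) (nat_lit 0x0) (nat_lit 0x380000000000000000000000000000000000000000000000000000) := D_30 (nat_lit 212) (nat_lit 213) (nat_lit 211) (nat_lit 3) (nat_lit 5) (nat_lit 11) (nat_lit 1) (nat_lit 8) (nat_lit 12) (by decide +kernel)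
theorem L90867 : W_30 (nat_lit 3) (nat_lit 0x40006000f000280008001000080000000000000000000000000000000) (nat_lit 0x0) (nat_lit 0x4000200380000000000000000000000000000000000000000000000000000) := T_30 (nat_lit 225) (nat_lit 242) (nat_lit 5) (nat_lit 5) (nat_lit 10) L90866 (by decide +kernel)
theorem L90868 : W_30 (nat_lit 4) (nat_lit 0x40006000f000280000001000080000000000000000000000000000000) (nat_lit 0x0) (nat_lit 0x4000200380000000100008000000000000000000000000000000000000000) := T_30 (nat_lit 159) (nat_lit 176) (nat_lit 6) (nat_lit 5) (nat_lit 13) L90867 (by decide +kernel)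
theorem L90869 : W_30 (nat_lit 5) (nat_lit 0x40006000f000200000001000080000000000000000000000000000000) (nat_lit 0x0) (nat_lit 0x40002003800000001c0008000000000000000000000000000000000000000) := T_30 (nat_lit 175) (nat_lit 174) (nat_lit 0) (nat_lit 8) (nat_lit 11) L90868 (by decide +kernel)
theorem L90870 : W_30 (nat_lit 8) (nat_lit 0x6000f000200000001000080000000000000000000000000000000) (nat_lit 0x0) (nat_lit 0x38003c0007803800000001c0018000800000000000000000000000000000000000) := Q_30 (nat_lit 226) (C_30 L89611 (C_30 L89612 (C_30 L90869 N_30))) (by decide +kernel)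
theorem L90871 : W_30 (nat_lit 9) (nat_lit 0x4000f000200000001000080000000000000000000000000000000) (nat_lit 0x0) (nat_lit 0x38003c0007803b00000001c0018000800000000000000000000000000000000000) := T_30 (nat_lit 209) (nat_lit 208) (nat_lit 1) (nat_lit 8) (nat_lit 11) L90870 (by decide +kernel)
theorem L90872 : W_30 (nat_lit 10) (nat_lit 0x4000e000200000001000080000000000000000000000000000000) (nat_lit 0x0) (nat_lit 0x38003c0007803b8001e00df0018000800000000000000000000000000000000000) := Q_30 (nat_lit 192) (C_30 L85284 (C_30 L89645 (C_30 L85397 (C_30 L10064 (C_30 L90871 N_30))))) (by decide +kernel)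
theorem L90873 : W_30 (nat_lit 11) (nat_lit 0x40006000200000001000080000000000000000000000000000000) (nat_lit 0x0) (nat_lit 0x38003c0007807b8039e03df0018000800000000000000000000000000000000000) := Q_30 (nat_lit 195) (C_30 L90774 (C_30 L85401 (C_30 L84575 (C_30 L90872 (C_30 L80153 N_30))))) (by decide +kernel)
theorem L90874 : W_30 (nat_lit 15) (nat_lit 0x6000200000001000080000000000000000000000000000000) (nat_lit 0x0) (nat_lit 0x38003f001f807fc079f03df001a000d00000000000000000000000000000000000) := Q_30 (nat_lit 210) (C_30 L90838 (C_30 L80043 (C_30 L10108 (C_30 L79564 (C_30 L90873 N_30))))) (by decide +kernel)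
theorem L90875 : W_30 (nat_lit 10) (nat_lit 0x4000e000200000001000080000000000000000000000000000000) (nat_lit 0x0) (nat_lit 0x38003c0007803b8001e001f0018000800000000000000000000000000000000000) := Q_30 (nat_lit 192) (C_30 L84580 (C_30 L90871 (C_30 L79544 (C_30 L85397 (C_30 L89645 (C_30 L10243 N_30)))))) (by decide +kernel)
theorem L90876 : W_30 (nat_lit 2) (nat_lit 0x24001e000280000001800080000000000000000000000000000000) (nat_lit 0x0) (nat_lit 0x100001000040000000000000000000000000000000000000000000) := D_30 (nat_lit 192) (nat_lit 212) (nat_lit 174) (nat_lit 3) (nat_lit 5) (nat_lit 11) (nat_lit 0) (nat_lit 8) (nat_lit 11) (by decide +kernel)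
theorem L90877 : W_30 (nat_lit 3) (nat_lit 0x4001e000280000001800080000000000000000000000000000000) (nat_lit 0x0) (nat_lit 0x700001000040000000000000000000000000000000000000000000) := T_30 (nat_lit 213) (nat_lit 214) (nat_lit 3) (nat_lit 6) (nat_lit 11) L90876 (by decide +kernel)
theorem L90878 : W_30 (nat_lit 4) (nat_lit 0x4001e000200000001800080000000000000000000000000000000) (nat_lit 0x0) (nat_lit 0x7000010001c0000000000000000000000000000000000000000000) := T_30 (nat_lit 175) (nat_lit 176) (nat_lit 0) (nat_lit 9) (nat_lit 11) L90877 (by decide +kernel)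
theorem L90879 : W_30 (nat_lit 5) (nat_lit 0x4001e000200000001000080000000000000000000000000000000) (nat_lit 0x0) (nat_lit 0x7000010001c0010000800000000000000000000000000000000000) := T_30 (nat_lit 143) (nat_lit 160) (nat_lit 6) (nat_lit 7) (nat_lit 11) L90878 (by decide +kernel)
theorem L90880 : W_30 (nat_lit 6) (nat_lit 0x4000e000200000001000080000000000000000000000000000000) (nat_lit 0x0) (nat_lit 0x7800310039c0010000800000000000000000000000000000000000) := Q_30 (nat_lit 196) (C_30 L10062 (C_30 L84803 (C_30 L10248 (C_30 L90879 N_30)))) (by decide +kernel)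
theorem L90881 : W_30 (nat_lit 11) (nat_lit 0x40006000200000001000080000000000000000000000000000000) (nat_lit 0x0) (nat_lit 0x38003c0007807b8039e039f0018000800000000000000000000000000000000000) := Q_30 (nat_lit 195) (C_30 L90774 (C_30 L85401 (C_30 L84575 (C_30 L90875 (C_30 L90880 N_30))))) (by decide +kernel)
theorem L90882 : W_30 (nat_lit 12) (nat_lit 0x6000200000001000080000000000000000000000000000000) (nat_lit 0x0) (nat_lit 0x38003c001f807f8039e039f001c000a00000000000000000000000000000000000) := Q_30 (nat_lit 210) (C_30 L89640 (C_30 L84557 (C_30 L80043 (C_30 L10108 (C_30 L90881 N_30))))) (by decide +kernel)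
theorem L90883 : W_30 (nat_lit 2) (nat_lit 0x40012000f000340000001000080000000000000000000000000000000) (nat_lit 0x0) (nat_lit 0x40000000000008000400000000000000000000000000000000000) := D_30 (nat_lit 159) (nat_lit 142) (nat_lit 210) (nat_lit 5) (nat_lit 6) (nat_lit 8) (nat_lit 5) (nat_lit 6) (nat_lit 9) (by decide +kernel)
theorem L90884 : W_30 (nat_lit 3) (nat_lit 0x12000f000340000001000080000000000000000000000000000000) (nat_lit 0x0) (nat_lit 0x8000400040000000000008000400000000000000000000000000000000000) := T_30 (nat_lit 226) (nat_lit 243) (nat_lit 6) (nat_lit 5) (nat_lit 14) L90883 (by decide +kernel)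
theorem L90885 : W_30 (nat_lit 4) (nat_lit 0x2000f000340000001000080000000000000000000000000000000) (nat_lit 0x0) (nat_lit 0x8000400340000000000008000400000000000000000000000000000000000) := T_30 (nat_lit 212) (nat_lit 213) (nat_lit 3) (nat_lit 5) (nat_lit 11) L90884 (by decide +kernel)
theorem L90886 : W_30 (nat_lit 5) (nat_lit 0xf000340000001000080000000000000000000000000000000) (nat_lit 0x0) (nat_lit 0x8000400370000000000008000400000000000000000000000000000000000) := T_30 (nat_lit 209) (nat_lit 208) (nat_lit 1) (nat_lit 8) (nat_lit 11) L90885 (by decide +kernel)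
theorem L90887 : W_30 (nat_lit 6) (nat_lit 0xf000300000001000080000000000000000000000000000000) (nat_lit 0x0) (nat_lit 0x80004003700000000c0008000400000000000000000000000000000000000) := T_30 (nat_lit 174) (nat_lit 175) (nat_lit 3) (nat_lit 4) (nat_lit 10) L90886 (by decide +kernel)
theorem L90888 : W_30 (nat_lit 2) (nat_lit 0x40002000f000b00000001000080000000000000000000000000000000) (nat_lit 0x0) (nat_lit 0x40000000000008000400000000000000000000000000000000000) := D_30 (nat_lit 159) (nat_lit 142) (nat_lit 210) (nat_lit 5) (nat_lit 6) (nat_lit 8) (nat_lit 5) (nat_lit 6) (nat_lit 9) (by decide +kernel)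
theorem L90889 : W_30 (nat_lit 3) (nat_lit 0x2000f000b00000001000080000000000000000000000000000000) (nat_lit 0x0) (nat_lit 0x8000400040000000000008000400000000000000000000000000000000000) := T_30 (nat_lit 226) (nat_lit 243) (nat_lit 6) (nat_lit 5) (nat_lit 14) L90888 (by decide +kernel)
theorem L90890 : W_30 (nat_lit 4) (nat_lit 0x2000f000300000001000080000000000000000000000000000000) (nat_lit 0x0) (nat_lit 0x8000400040000000c00008000400000000000000000000000000000000000) := T_30 (nat_lit 179) (nat_lit 178) (nat_lit 2) (nat_lit 5) (nat_lit 11) L90889 (by decide +kernel)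
theorem L90891 : W_30 (nat_lit 5) (nat_lit 0xf000300000001000080000000000000000000000000000000) (nat_lit 0x0) (nat_lit 0x8000400070000000c00008000400000000000000000000000000000000000) := T_30 (nat_lit 209) (nat_lit 208) (nat_lit 1) (nat_lit 8) (nat_lit 11) L90890 (by decide +kernel)
theorem L90892 : W_30 (nat_lit 7) (nat_lit 0xf000200000001000080000000000000000000000000000000) (nat_lit 0x0) (nat_lit 0x8000c00370000000dc000e000600000000000000000000000000000000000) := Q_30 (nat_lit 176) (C_30 L84231 (C_30 L90887 (C_30 L90891 (C_30 L82194 N_30)))) (by decide +kernel)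
theorem L90893 : W_30 (nat_lit 2) (nat_lit 0x2001f000280000001000080000000000000000000000000000000) (nat_lit 0x0) (nat_lit 0x1c00000000000000000000000000000000000000000000) := D_30 (nat_lit 179) (nat_lit 178) (nat_lit 180) (nat_lit 2) (nat_lit 5) (nat_lit 11) (nat_lit 2) (nat_lit 6) (nat_lit 11) (by decide +kernel)
theorem L90894 : W_30 (nat_lit 3) (nat_lit 0x2000f000280000001000080000000000000000000000000000000) (nat_lit 0x0) (nat_lit 0x40010001c00000000000000000000000000000000000000000000) := T_30 (nat_lit 196) (nat_lit 210) (nat_lit 1) (nat_lit 9) (nat_lit 11) L90893 (by decide +kernel)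
theorem L90895 : W_30 (nat_lit 4) (nat_lit 0x2000f000200000001000080000000000000000000000000000000) (nat_lit 0x0) (nat_lit 0x40010001cc0000000000000000000000000000000000000000000) := T_30 (nat_lit 175) (nat_lit 174) (nat_lit 0) (nat_lit 8) (nat_lit 11) L90894 (by decide +kernel)
theorem L90896 : W_30 (nat_lit 5) (nat_lit 0xf000200000001000080000000000000000000000000000000) (nat_lit 0x0) (nat_lit 0x70010001cc0000000000000000000000000000000000000000000) := T_30 (nat_lit 209) (nat_lit 208) (nat_lit 1) (nat_lit 8) (nat_lit 11) L90895 (by decide +kernel)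
theorem L90897 : W_30 (nat_lit 8) (nat_lit 0x7000200000001000080000000000000000000000000000000) (nat_lit 0x0) (nat_lit 0x8000c00770078001dc000e000600000000000000000000000000000000000) := Q_30 (nat_lit 195) (C_30 L84922 (C_30 L89356 (C_30 L90892 (C_30 L90896 (C_30 L10057 N_30))))) (by decide +kernel)
theorem L90898 : W_30 (nat_lit 9) (nat_lit 0x6000200000001000080000000000000000000000000000000) (nat_lit 0x0) (nat_lit 0x8000c007fc079c01df000e000600000000000000000000000000000000000) := Q_30 (nat_lit 192) (C_30 L85298 (C_30 L80189 (C_30 L10037 (C_30 L90897 N_30)))) (by decide +kernel)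
theorem L90912 : W_30 (nat_lit 2) (nat_lit 0x6800700022001e001500080001000000000000000000000000000) (nat_lit 0x0) (nat_lit 0x400010001000000000000000000000000000000000000000) := D_30 (nat_lit 156) (nat_lit 172) (nat_lit 190) (nat_lit 1) (nat_lit 6) (nat_lit 9) (nat_lit 6) (nat_lit 3) (nat_lit 12) (by decide +kernel)
theorem L90913 : W_30 (nat_lit 3) (nat_lit 0x6800700022001e001400080001000000000000000000000000000) (nat_lit 0x0) (nat_lit 0x400010001000180000000000000000000000000000000000) := T_30 (nat_lit 140) (nat_lit 139) (nat_lit 0) (nat_lit 7) (nat_lit 9) L90912 (by decide +kernel)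
theorem L90914 : W_30 (nat_lit 4) (nat_lit 0x6800700020001e001400080001000000000000000000000000000) (nat_lit 0x0) (nat_lit 0x400070001000180000000000000000000000000000000000) := T_30 (nat_lit 173) (nat_lit 174) (nat_lit 1) (nat_lit 7) (nat_lit 9) L90913 (by decide +kernel)
theorem L90915 : W_30 (nat_lit 5) (nat_lit 0x6800700020001c001400080001000000000000000000000000000) (nat_lit 0x0) (nat_lit 0x400470003000180000000000000000000000000000000000) := T_30 (nat_lit 157) (nat_lit 178) (nat_lit 3) (nat_lit 4) (nat_lit 9) L90914 (by decide +kernel)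
theorem L90916 : W_30 (nat_lit 6) (nat_lit 0x6800700020001c001400080000000000000000000000000000000) (nat_lit 0x0) (nat_lit 0x400470003000180020001000000000000000000000000000) := T_30 (nat_lit 108) (nat_lit 125) (nat_lit 7) (nat_lit 6) (nat_lit 6) L90915 (by decide +kernel)
theorem L90917 : W_30 (nat_lit 7) (nat_lit 0x68007000200018001400080000000000000000000000000000000) (nat_lit 0x0) (nat_lit 0x4004f0007000180020001000000000000000000000000000) := T_30 (nat_lit 158) (nat_lit 175) (nat_lit 6) (nat_lit 5) (nat_lit 12) L90916 (by decide +kernel)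
theorem L90918 : W_30 (nat_lit 8) (nat_lit 0x68007000200018001000080000000000000000000000000000000) (nat_lit 0x0) (nat_lit 0x800004004f0007000580020001000000000000000000000000000) := T_30 (nat_lit 142) (nat_lit 211) (nat_lit 4) (nat_lit 7) (nat_lit 12) L90917 (by decide +kernel)
theorem L90919 : W_30 (nat_lit 9) (nat_lit 0x68007000200008001000080000000000000000000000000000000) (nat_lit 0x0) (nat_lit 0x800004004f0017000d80020001000000000000000000000000000) := T_30 (nat_lit 160) (nat_lit 143) (nat_lit 6) (nat_lit 7) (nat_lit 11) L90918 (by decide +kernel)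
theorem L90920 : W_30 (nat_lit 10) (nat_lit 0x60007000200008001000080000000000000000000000000000000) (nat_lit 0x0) (nat_lit 0x980004004f0017000d80020001000000000000000000000000000) := T_30 (nat_lit 207) (nat_lit 208) (nat_lit 2) (nat_lit 3) (nat_lit 12) L90919 (by decide +kernel)
theorem L90921 : W_30 (nat_lit 11) (nat_lit 0x60007000200000001000080000000000000000000000000000000) (nat_lit 0x0) (nat_lit 0x98000400df001f000f80020001000000000000000000000000000) := Q_30 (nat_lit 159) (C_30 L84396 (C_30 L84427 (C_30 L84414 (C_30 L90920 N_30)))) (by decide +kernel)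
theorem L90925 : W_30 (nat_lit 10) (nat_lit 0x40007000200000001000080000000000000000000000000000000) (nat_lit 0x0) (nat_lit 0x38003c000780fb00380001c001c000a00000000000000000000000000000000000) := Q_30 (nat_lit 195) (C_30 L89562 (C_30 L84619 (C_30 L90871 (C_30 L80509 N_30)))) (by decide +kernel)
theorem L90926 : W_30 (nat_lit 11) (nat_lit 0x40006000200000001000080000000000000000000000000000000) (nat_lit 0x0) (nat_lit 0x38003c001780fbc039f005fc01f000f80138000000000000000000000000000000) := Q_30 (nat_lit 192) (C_30 L89724 (C_30 L89535 (C_30 L89719 (C_30 L84933 (C_30 L80212 (C_30 L90925 N_30)))))) (by decide +kernel)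
theorem L90927 : W_30 (nat_lit 12) (nat_lit 0x6000200000001000080000000000000000000000000000000) (nat_lit 0x0) (nat_lit 0x38003c001f80ffc039f005fc01f000f80138000000000000000000000000000000) := Q_30 (nat_lit 210) (C_30 L89640 (C_30 L84557 (C_30 L89186 (C_30 L80043 (C_30 L90926 N_30))))) (by decide +kernel)
theorem L90928 : W_30 (nat_lit 2) (nat_lit 0x1000000024001f000200000001000080000000000000000000000000000000) (nat_lit 0x0) (nat_lit 0x1c00000000000000000000000000000000000000000000) := D_30 (nat_lit 179) (nat_lit 180) (nat_lit 178) (nat_lit 2) (nat_lit 6) (nat_lit 11) (nat_lit 2) (nat_lit 5) (nat_lit 11) (by decide +kernel)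
theorem L90929 : W_30 (nat_lit 3) (nat_lit 0x1000000024000f000200000001000080000000000000000000000000000000) (nat_lit 0x0) (nat_lit 0x400010001c00000000000000000000000000000000000000000000) := T_30 (nat_lit 196) (nat_lit 214) (nat_lit 3) (nat_lit 6) (nat_lit 11) L90928 (by decide +kernel)
theorem L90930 : W_30 (nat_lit 4) (nat_lit 0x24000f000200000001000080000000000000000000000000000000) (nat_lit 0x0) (nat_lit 0x10000800400010001c00000000000000000000000000000000000000000000) := T_30 (nat_lit 244) (nat_lit 227) (nat_lit 6) (nat_lit 6) (nat_lit 14) L90929 (by decide +kernel)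
theorem L90931 : W_30 (nat_lit 5) (nat_lit 0x4000f000200000001000080000000000000000000000000000000) (nat_lit 0x0) (nat_lit 0x10000800700010001c00000000000000000000000000000000000000000000) := T_30 (nat_lit 213) (nat_lit 212) (nat_lit 3) (nat_lit 5) (nat_lit 11) L90930 (by decide +kernel)
theorem L90932 : W_30 (nat_lit 6) (nat_lit 0x40007000200000001000080000000000000000000000000000000) (nat_lit 0x0) (nat_lit 0x10000800730018001cc0014000800000000000000000000000000000000000) := Q_30 (nat_lit 195) (C_30 L84619 (C_30 L80195 (C_30 L90931 N_30))) (by decide +kernel)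
theorem L90933 : W_30 (nat_lit 12) (nat_lit 0x40006000200000001000080000000000000000000000000000000) (nat_lit 0x0) (nat_lit 0x300018000e0073e019f01cfc01f000f0011c000000000000000000000000000000) := Q_30 (nat_lit 192) (C_30 L89535 (C_30 L89124 (C_30 L89189 (C_30 L89190 (C_30 L84928 (C_30 L90932 (C_30 L89188 N_30))))))) (by decide +kernel)
theorem L90934 : W_30 (nat_lit 7) (nat_lit 0x40007000200000001000080000000000000000000000000000000) (nat_lit 0x0) (nat_lit 0x2000bc008f000e0014000a00000000000000000000000000000000000) := Q_30 (nat_lit 191) (C_30 L89723 (C_30 L89528 (C_30 L89533 N_30))) (by decide +kernel)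
theorem L90935 : W_30 (nat_lit 4) (nat_lit 0x14000f000680010001000080000000000000000000000000000000) (nat_lit 0x0) (nat_lit 0x3000000000000e000600000000000000000000000000000000000) := T_30 (nat_lit 209) (nat_lit 208) (nat_lit 1) (nat_lit 8) (nat_lit 11) L90648 (by decide +kernel)
theorem L90936 : W_30 (nat_lit 5) (nat_lit 0x14000f000600010001000080000000000000000000000000000000) (nat_lit 0x0) (nat_lit 0x300000000c000e000600000000000000000000000000000000000) := T_30 (nat_lit 175) (nat_lit 174) (nat_lit 0) (nat_lit 8) (nat_lit 11) L90935 (by decide +kernel)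
theorem L90937 : W_30 (nat_lit 6) (nat_lit 0x14000f000200010001000080000000000000000000000000000000) (nat_lit 0x0) (nat_lit 0x30000000cc000e000600000000000000000000000000000000000) := T_30 (nat_lit 178) (nat_lit 179) (nat_lit 2) (nat_lit 5) (nat_lit 11) L90936 (by decide +kernel)
theorem L90938 : W_30 (nat_lit 7) (nat_lit 0x14000f000200000001000080000000000000000000000000000000) (nat_lit 0x0) (nat_lit 0x30000000cc001e000e00000000000000000000000000000000000) := T_30 (nat_lit 160) (nat_lit 143) (nat_lit 7) (nat_lit 7) (nat_lit 8) L90937 (by decide +kernel)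
theorem L90939 : W_30 (nat_lit 8) (nat_lit 0x4000f000200000001000080000000000000000000000000000000) (nat_lit 0x0) (nat_lit 0x330000000cc001e000e00000000000000000000000000000000000) := T_30 (nat_lit 212) (nat_lit 213) (nat_lit 3) (nat_lit 5) (nat_lit 11) L90938 (by decide +kernel)
theorem L90940 : W_30 (nat_lit 2) (nat_lit 0x24001f000680010001200080000000000000000000000000000000) (nat_lit 0x0) (nat_lit 0x80060000000000000000000000000000000000000000000000000) := D_30 (nat_lit 197) (nat_lit 211) (nat_lit 198) (nat_lit 1) (nat_lit 10) (nat_lit 11) (nat_lit 0) (nat_lit 11) (nat_lit 11) (by decide +kernel)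
theorem L90941 : W_30 (nat_lit 3) (nat_lit 0x24000f000680010001200080000000000000000000000000000000) (nat_lit 0x0) (nat_lit 0x480070000000000000000000000000000000000000000000000000) := T_30 (nat_lit 196) (nat_lit 214) (nat_lit 3) (nat_lit 6) (nat_lit 11) L90940 (by decide +kernel)
theorem L90942 : W_30 (nat_lit 4) (nat_lit 0x4000f000680010001200080000000000000000000000000000000) (nat_lit 0x0) (nat_lit 0x780070000000000000000000000000000000000000000000000000) := T_30 (nat_lit 213) (nat_lit 212) (nat_lit 3) (nat_lit 5) (nat_lit 11) L90941 (by decide +kernel)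
theorem L90943 : W_30 (nat_lit 5) (nat_lit 0x4000f000280010001200080000000000000000000000000000000) (nat_lit 0x0) (nat_lit 0x780070000c00000000000000000000000000000000000000000000) := T_30 (nat_lit 178) (nat_lit 179) (nat_lit 2) (nat_lit 5) (nat_lit 11) L90942 (by decide +kernel)
theorem L90944 : W_30 (nat_lit 6) (nat_lit 0x4000f000280010001000080000000000000000000000000000000) (nat_lit 0x0) (nat_lit 0x780070000c00004000200000000000000000000000000000000000) := T_30 (nat_lit 141) (nat_lit 158) (nat_lit 7) (nat_lit 5) (nat_lit 8) L90943 (by decide +kernel)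
theorem L90945 : W_30 (nat_lit 7) (nat_lit 0x4000f000280000001000080000000000000000000000000000000) (nat_lit 0x0) (nat_lit 0x780070000c00014000a00000000000000000000000000000000000) := T_30 (nat_lit 160) (nat_lit 143) (nat_lit 6) (nat_lit 7) (nat_lit 11) L90944 (by decide +kernel)
theorem L90946 : W_30 (nat_lit 8) (nat_lit 0x4000f000200000001000080000000000000000000000000000000) (nat_lit 0x0) (nat_lit 0x780070000cc0014000a00000000000000000000000000000000000) := T_30 (nat_lit 175) (nat_lit 174) (nat_lit 0) (nat_lit 8) (nat_lit 11) L90945 (by decide +kernel)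
theorem L90947 : W_30 (nat_lit 9) (nat_lit 0x40007000200000001000080000000000000000000000000000000) (nat_lit 0x0) (nat_lit 0x7b0078000cc001e000e00000000000000000000000000000000000) := Q_30 (nat_lit 195) (C_30 L84619 (C_30 L10152 (C_30 L90939 (C_30 L90946 N_30)))) (by decide +kernel)
theorem L90948 : W_30 (nat_lit 10) (nat_lit 0x40006000200000001000080000000000000000000000000000000) (nat_lit 0x0) (nat_lit 0x2007bc079f00cfc01e000e00000000000000000000000000000000000) := Q_30 (nat_lit 192) (C_30 L89724 (C_30 L89535 (C_30 L90934 (C_30 L84933 (C_30 L79642 (C_30 L90947 N_30)))))) (by decide +kernel)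
theorem L90949 : W_30 (nat_lit 13) (nat_lit 0x6000200000001000080000000000000000000000000000000) (nat_lit 0x0) (nat_lit 0x38001c000f807fe079f01cfc01f000f0011c000000000000000000000000000000) := Q_30 (nat_lit 210) (C_30 L10108 (C_30 L89186 (C_30 L90933 (C_30 L90948 N_30)))) (by decide +kernel)
theorem L90950 : W_30 (nat_lit 2) (nat_lit 0x1f0016000f000700000001000080000000000000000000000000000000) (nat_lit 0x0) (nat_lit 0x7000000000000000000000000000000000000000000000000000000000000) := D_30 (nat_lit 241) (nat_lit 242) (nat_lit 240) (nat_lit 1) (nat_lit 7) (nat_lit 13) (nat_lit 1) (nat_lit 6) (nat_lit 13) (by decide +kernel)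
theorem L90951 : W_30 (nat_lit 3) (nat_lit 0x1e0016000f000700000001000080000000000000000000000000000000) (nat_lit 0x0) (nat_lit 0x7000180000000000000000000000000000000000000000000000000000000) := T_30 (nat_lit 224) (nat_lit 223) (nat_lit 2) (nat_lit 2) (nat_lit 13) L90950 (by decide +kernel)
theorem L90952 : W_30 (nat_lit 4) (nat_lit 0x1c0016000f000700000001000080000000000000000000000000000000) (nat_lit 0x0) (nat_lit 0x7000380080000000000000000000000000000000000000000000000000000) := T_30 (nat_lit 225) (nat_lit 211) (nat_lit 2) (nat_lit 4) (nat_lit 13) L90951 (by decide +kernel)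
theorem L90953 : W_30 (nat_lit 5) (nat_lit 0xc0016000f000700000001000080000000000000000000000000000000) (nat_lit 0x0) (nat_lit 0x27001380080000000000000000000000000000000000000000000000000000) := T_30 (nat_lit 228) (nat_lit 245) (nat_lit 7) (nat_lit 6) (nat_lit 10) L90952 (by decide +kernel)
theorem L90954 : W_30 (nat_lit 6) (nat_lit 0x80016000f000700000001000080000000000000000000000000000000) (nat_lit 0x0) (nat_lit 0x2f001780080000000000000000000000000000000000000000000000000000) := T_30 (nat_lit 226) (nat_lit 243) (nat_lit 6) (nat_lit 5) (nat_lit 14) L90953 (by decide +kernel)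
theorem L90955 : W_30 (nat_lit 7) (nat_lit 0x16000f000700000001000080000000000000000000000000000000) (nat_lit 0x0) (nat_lit 0x3f001f80080000000000000000000000000000000000000000000000000000) := T_30 (nat_lit 227) (nat_lit 244) (nat_lit 6) (nat_lit 6) (nat_lit 14) L90954 (by decide +kernel)
theorem L90956 : W_30 (nat_lit 8) (nat_lit 0x14000f000700000001000080000000000000000000000000000000) (nat_lit 0x0) (nat_lit 0x3f001f800b0000000000000000000000000000000000000000000000000000) := T_30 (nat_lit 209) (nat_lit 208) (nat_lit 1) (nat_lit 8) (nat_lit 11) L90955 (by decide +kernel)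
theorem L90957 : W_30 (nat_lit 9) (nat_lit 0x4000f000700000001000080000000000000000000000000000000) (nat_lit 0x0) (nat_lit 0x3f001f803b0000000000000000000000000000000000000000000000000000) := T_30 (nat_lit 212) (nat_lit 213) (nat_lit 3) (nat_lit 5) (nat_lit 11) L90956 (by decide +kernel)
theorem L90958 : W_30 (nat_lit 10) (nat_lit 0x4000f000300000001000080000000000000000000000000000000) (nat_lit 0x0) (nat_lit 0x3f001f803b0000000c00000000000000000000000000000000000000000000) := T_30 (nat_lit 178) (nat_lit 179) (nat_lit 2) (nat_lit 5) (nat_lit 11) L90957 (by decide +kernel)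
theorem L90959 : W_30 (nat_lit 2) (nat_lit 0xc0014000f000700008001000080000000000000000000000000000000) (nat_lit 0x0) (nat_lit 0x1000080000000000000000400000000000000000000000000000000000) := D_30 (nat_lit 211) (nat_lit 228) (nat_lit 142) (nat_lit 7) (nat_lit 6) (nat_lit 9) (nat_lit 7) (nat_lit 6) (nat_lit 8) (by decide +kernel)
theorem L90960 : W_30 (nat_lit 3) (nat_lit 0xc0014000f000700000001000080000000000000000000000000000000) (nat_lit 0x0) (nat_lit 0x10000a0000000000008000400000000000000000000000000000000000) := T_30 (nat_lit 159) (nat_lit 209) (nat_lit 5) (nat_lit 6) (nat_lit 9) L90959 (by decide +kernel)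
theorem L90961 : W_30 (nat_lit 4) (nat_lit 0x80014000f000700000001000080000000000000000000000000000000) (nat_lit 0x0) (nat_lit 0x80014000a0000000000008000400000000000000000000000000000000000) := T_30 (nat_lit 226) (nat_lit 243) (nat_lit 5) (nat_lit 6) (nat_lit 10) L90960 (by decide +kernel)
theorem L90962 : W_30 (nat_lit 5) (nat_lit 0x14000f000700000001000080000000000000000000000000000000) (nat_lit 0x0) (nat_lit 0x18001c000a0000000000008000400000000000000000000000000000000000) := T_30 (nat_lit 227) (nat_lit 244) (nat_lit 6) (nat_lit 6) (nat_lit 14) L90961 (by decide +kernel)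
theorem L90963 : W_30 (nat_lit 6) (nat_lit 0x4000f000700000001000080000000000000000000000000000000) (nat_lit 0x0) (nat_lit 0x18001c003a0000000000008000400000000000000000000000000000000000) := T_30 (nat_lit 212) (nat_lit 213) (nat_lit 3) (nat_lit 5) (nat_lit 11) L90962 (by decide +kernel)
theorem L90964 : W_30 (nat_lit 7) (nat_lit 0x4000f000300000001000080000000000000000000000000000000) (nat_lit 0x0) (nat_lit 0x18001c003a0000000c00008000400000000000000000000000000000000000) := T_30 (nat_lit 178) (nat_lit 179) (nat_lit 2) (nat_lit 5) (nat_lit 11) L90963 (by decide +kernel)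
theorem L90965 : W_30 (nat_lit 2) (nat_lit 0x180004000f000b00008001400080000000000000000000000000000000) (nat_lit 0x0) (nat_lit 0x4000200010000000000000000000000000000000) := D_30 (nat_lit 141) (nat_lit 158) (nat_lit 124) (nat_lit 4) (nat_lit 6) (nat_lit 12) (nat_lit 4) (nat_lit 6) (nat_lit 11) (by decide +kernel)
theorem L90966 : W_30 (nat_lit 3) (nat_lit 0x180004000f000b00008001000080000000000000000000000000000000) (nat_lit 0x0) (nat_lit 0x4000600030000000000000000000000000000000) := T_30 (nat_lit 142) (nat_lit 125) (nat_lit 7) (nat_lit 6) (nat_lit 7) L90965 (by decide +kernel)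
theorem L90967 : W_30 (nat_lit 4) (nat_lit 0x180004000f000b00000001000080000000000000000000000000000000) (nat_lit 0x0) (nat_lit 0x8000000000000c000600030000000000000000000000000000000) := T_30 (nat_lit 159) (nat_lit 211) (nat_lit 7) (nat_lit 6) (nat_lit 9) L90966 (by decide +kernel)
theorem L90968 : W_30 (nat_lit 5) (nat_lit 0x80004000f000b00000001000080000000000000000000000000000000) (nat_lit 0x0) (nat_lit 0x2000100008000000000000c000600030000000000000000000000000000000) := T_30 (nat_lit 228) (nat_lit 245) (nat_lit 7) (nat_lit 6) (nat_lit 10) L90967 (by decide +kernel)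
theorem L90969 : W_30 (nat_lit 6) (nat_lit 0x80004000f000300000001000080000000000000000000000000000000) (nat_lit 0x0) (nat_lit 0x20001000080000000c0000c000600030000000000000000000000000000000) := T_30 (nat_lit 179) (nat_lit 178) (nat_lit 2) (nat_lit 5) (nat_lit 11) L90968 (by decide +kernel)
theorem L90970 : W_30 (nat_lit 7) (nat_lit 0x4000f000300000001000080000000000000000000000000000000) (nat_lit 0x0) (nat_lit 0x30001800080000000c0000c000600030000000000000000000000000000000) := T_30 (nat_lit 227) (nat_lit 244) (nat_lit 6) (nat_lit 6) (nat_lit 14) L90969 (by decide +kernel)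
theorem L90971 : W_30 (nat_lit 11) (nat_lit 0x4000f000200000001000080000000000000000000000000000000) (nat_lit 0x0) (nat_lit 0x3f001f803b0000000d0000c000600030000000000000000000000000000000) := Q_30 (nat_lit 176) (C_30 L90958 (C_30 L90964 (C_30 L90835 (C_30 L90824 (C_30 L90970 N_30))))) (by decide +kernel)
theorem L90972 : W_30 (nat_lit 12) (nat_lit 0x40007000200000001000080000000000000000000000000000000) (nat_lit 0x0) (nat_lit 0x3f001f807b0018001d0000c000600030000000000000000000000000000000) := Q_30 (nat_lit 195) (C_30 L90931 (C_30 L10152 (C_30 L90971 N_30))) (by decide +kernel)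
theorem L90973 : W_30 (nat_lit 13) (nat_lit 0x40006000200000001000080000000000000000000000000000000) (nat_lit 0x0) (nat_lit 0x3f001f807bc019c01d7000e000700030000000000000000000000000000000) := Q_30 (nat_lit 192) (C_30 L84924 (C_30 L80146 (C_30 L80212 (C_30 L90972 N_30)))) (by decide +kernel)
theorem L90974 : W_30 (nat_lit 7) (nat_lit 0x40007000200000001000080000000000000000000000000000000) (nat_lit 0x0) (nat_lit 0x80004001bc008c00060012000800000000000000000000000000000000000) := Q_30 (nat_lit 191) (C_30 L89528 (C_30 L84633 (C_30 L79618 N_30))) (by decide +kernel)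
theorem L90975 : W_30 (nat_lit 2) (nat_lit 0x1c00060016000f000600000001800080000000000000000000000000000000) (nat_lit 0x0) (nat_lit 0x60000100000000000000000000000000000000000000000000000000000000) := D_30 (nat_lit 245) (nat_lit 224) (nat_lit 246) (nat_lit 0) (nat_lit 7) (nat_lit 14) (nat_lit 0) (nat_lit 8) (nat_lit 14) (by decide +kernel)
theorem L90976 : W_30 (nat_lit 3) (nat_lit 0x1800060016000f000600000001800080000000000000000000000000000000) (nat_lit 0x0) (nat_lit 0x80064000100000000000000000000000000000000000000000000000000000000) := T_30 (nat_lit 242) (nat_lit 259) (nat_lit 5) (nat_lit 5) (nat_lit 11) L90975 (by decide +kernel)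
theorem L90977 : W_30 (nat_lit 4) (nat_lit 0x1800040016000f000600000001800080000000000000000000000000000000) (nat_lit 0x0) (nat_lit 0x80064000300080000000000000000000000000000000000000000000000000000) := T_30 (nat_lit 225) (nat_lit 211) (nat_lit 1) (nat_lit 8) (nat_lit 12) L90976 (by decide +kernel)
theorem L90978 : W_30 (nat_lit 5) (nat_lit 0x1800040006000f000600000001800080000000000000000000000000000000) (nat_lit 0x0) (nat_lit 0x80064000300380000000000000000000000000000000000000000000000000000) := T_30 (nat_lit 212) (nat_lit 213) (nat_lit 3) (nat_lit 5) (nat_lit 11) L90977 (by decide +kernel)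
theorem L90979 : W_30 (nat_lit 6) (nat_lit 0x800040006000f000600000001800080000000000000000000000000000000) (nat_lit 0x0) (nat_lit 0x280074000300380000000000000000000000000000000000000000000000000000) := T_30 (nat_lit 244) (nat_lit 261) (nat_lit 7) (nat_lit 5) (nat_lit 11) L90978 (by decide +kernel)
theorem L90980 : W_30 (nat_lit 7) (nat_lit 0x800040006000f000600000001000080000000000000000000000000000000) (nat_lit 0x0) (nat_lit 0x280074000300380000000000010000800000000000000000000000000000000000) := T_30 (nat_lit 143) (nat_lit 160) (nat_lit 6) (nat_lit 7) (nat_lit 11) L90979 (by decide +kernel)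
theorem L90981 : W_30 (nat_lit 8) (nat_lit 0x40006000f000600000001000080000000000000000000000000000000) (nat_lit 0x0) (nat_lit 0x38007c000300380000000000010000800000000000000000000000000000000000) := T_30 (nat_lit 243) (nat_lit 260) (nat_lit 6) (nat_lit 5) (nat_lit 15) L90980 (by decide +kernel)
theorem L90982 : W_30 (nat_lit 9) (nat_lit 0x40006000f000200000001000080000000000000000000000000000000) (nat_lit 0x0) (nat_lit 0x38007c000300380000000c00010000800000000000000000000000000000000000) := T_30 (nat_lit 178) (nat_lit 179) (nat_lit 2) (nat_lit 5) (nat_lit 11) L90981 (by decide +kernel)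
theorem L90983 : W_30 (nat_lit 2) (nat_lit 0x4000e000f000600018001000080000000000000000000000000000000) (nat_lit 0x0) (nat_lit 0x200300000000000000000000000000000000000000000000000000000) := D_30 (nat_lit 212) (nat_lit 225) (nat_lit 213) (nat_lit 1) (nat_lit 8) (nat_lit 12) (nat_lit 3) (nat_lit 5) (nat_lit 11) (by decide +kernel)
theorem L90984 : W_30 (nat_lit 3) (nat_lit 0x40006000f000600018001000080000000000000000000000000000000) (nat_lit 0x0) (nat_lit 0x200380000000000000000400000000000000000000000000000000000) := T_30 (nat_lit 211) (nat_lit 142) (nat_lit 4) (nat_lit 7) (nat_lit 12) L90983 (by decide +kernel)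
theorem L90985 : W_30 (nat_lit 4) (nat_lit 0x40006000f000600010001000080000000000000000000000000000000) (nat_lit 0x0) (nat_lit 0x200380000000100008000400000000000000000000000000000000000) := T_30 (nat_lit 159) (nat_lit 176) (nat_lit 5) (nat_lit 6) (nat_lit 9) L90984 (by decide +kernel)
theorem L90986 : W_30 (nat_lit 5) (nat_lit 0x40006000f000200010001000080000000000000000000000000000000) (nat_lit 0x0) (nat_lit 0x200380000000d00008000400000000000000000000000000000000000) := T_30 (nat_lit 178) (nat_lit 179) (nat_lit 2) (nat_lit 5) (nat_lit 11) L90985 (by decide +kernel)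
theorem L90987 : W_30 (nat_lit 6) (nat_lit 0x40006000f000200000001000080000000000000000000000000000000) (nat_lit 0x0) (nat_lit 0x200380000000d00018000c00000000000000000000000000000000000) := T_30 (nat_lit 160) (nat_lit 143) (nat_lit 6) (nat_lit 7) (nat_lit 11) L90986 (by decide +kernel)
theorem L90988 : W_30 (nat_lit 10) (nat_lit 0x6000f000200000001000080000000000000000000000000000000) (nat_lit 0x0) (nat_lit 0x38007c000700380000000d00018000c00000000000000000000000000000000000) := Q_30 (nat_lit 226) (C_30 L89612 (C_30 L90982 (C_30 L90987 N_30))) (by decide +kernel)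
theorem L90989 : W_30 (nat_lit 11) (nat_lit 0x4000f000200000001000080000000000000000000000000000000) (nat_lit 0x0) (nat_lit 0x38007c0007003b0000000d00018000c00000000000000000000000000000000000) := T_30 (nat_lit 209) (nat_lit 208) (nat_lit 1) (nat_lit 8) (nat_lit 11) L90988 (by decide +kernel)
theorem L90990 : W_30 (nat_lit 12) (nat_lit 0x40007000200000001000080000000000000000000000000000000) (nat_lit 0x0) (nat_lit 0x38007c0007007b0038001d00018000c00000000000000000000000000000000000) := Q_30 (nat_lit 195) (C_30 L89582 (C_30 L84619 (C_30 L10152 (C_30 L90989 N_30)))) (by decide +kernel)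
theorem L90991 : W_30 (nat_lit 13) (nat_lit 0x40006000200000001000080000000000000000000000000000000) (nat_lit 0x0) (nat_lit 0x38007c0007007bc039c01d6001a000c00000000000000000000000000000000000) := Q_30 (nat_lit 192) (C_30 L84431 (C_30 L90974 (C_30 L80212 (C_30 L90990 N_30)))) (by decide +kernel)
theorem L90992 : W_30 (nat_lit 14) (nat_lit 0x6000200000001000080000000000000000000000000000000) (nat_lit 0x0) (nat_lit 0x38007f001f807fc039c01d7001e000f00030000000000000000000000000000000) := Q_30 (nat_lit 210) (C_30 L80043 (C_30 L79529 (C_30 L10108 (C_30 L90973 (C_30 L79564 (C_30 L90991 N_30)))))) (by decide +kernel)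
theorem L91031 : W_30 (nat_lit 2) (nat_lit 0x80004000f000200000001000080000000000000000000000000000000) (nat_lit 0x0) (nat_lit 0x80000000100010000000000000000000000000000000000000000) := D_30 (nat_lit 160) (nat_lit 176) (nat_lit 211) (nat_lit 6) (nat_lit 6) (nat_lit 13) (nat_lit 5) (nat_lit 7) (nat_lit 9) (by decide +kernel)
theorem L91032 : W_30 (nat_lit 3) (nat_lit 0x4000f000200000001000080000000000000000000000000000000) (nat_lit 0x0) (nat_lit 0x10000800080000000100010000000000000000000000000000000000000000) := T_30 (nat_lit 227) (nat_lit 244) (nat_lit 6) (nat_lit 6) (nat_lit 14) L91031 (by decide +kernel)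
theorem L91033 : W_30 (nat_lit 2) (nat_lit 0x4000f000600010001000080000000000000000000000000000000) (nat_lit 0x0) (nat_lit 0x10000800080000000000000000000000000000000000000000000000000000) := D_30 (nat_lit 227) (nat_lit 211) (nat_lit 244) (nat_lit 5) (nat_lit 7) (nat_lit 9) (nat_lit 6) (nat_lit 6) (nat_lit 14) (by decide +kernel)
theorem L91034 : W_30 (nat_lit 3) (nat_lit 0x4000f000600000001000080000000000000000000000000000000) (nat_lit 0x0) (nat_lit 0x10000800080000000000010000800000000000000000000000000000000000) := T_30 (nat_lit 160) (nat_lit 143) (nat_lit 6) (nat_lit 7) (nat_lit 11) L91033 (by decide +kernel)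
theorem L91035 : W_30 (nat_lit 4) (nat_lit 0x4000f000200000001000080000000000000000000000000000000) (nat_lit 0x0) (nat_lit 0x10000800080000000c00010000800000000000000000000000000000000000) := T_30 (nat_lit 178) (nat_lit 179) (nat_lit 2) (nat_lit 5) (nat_lit 11) L91034 (by decide +kernel)
theorem L91036 : W_30 (nat_lit 2) (nat_lit 0x80014000f000680000001000080000000000000000000000000000000) (nat_lit 0x0) (nat_lit 0x100004000200000000000000000000000000000000000) := D_30 (nat_lit 158) (nat_lit 141) (nat_lit 176) (nat_lit 7) (nat_lit 5) (nat_lit 8) (nat_lit 4) (nat_lit 6) (nat_lit 13) (by decide +kernel)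
theorem L91037 : W_30 (nat_lit 3) (nat_lit 0x80014000f000600000001000080000000000000000000000000000000) (nat_lit 0x0) (nat_lit 0x1c0004000200000000000000000000000000000000000) := T_30 (nat_lit 175) (nat_lit 174) (nat_lit 0) (nat_lit 8) (nat_lit 11) L91036 (by decide +kernel)
theorem L91038 : W_30 (nat_lit 4) (nat_lit 0x80004000f000600000001000080000000000000000000000000000000) (nat_lit 0x0) (nat_lit 0x3000000001c0004000200000000000000000000000000000000000) := T_30 (nat_lit 212) (nat_lit 213) (nat_lit 3) (nat_lit 5) (nat_lit 11) L91037 (by decide +kernel)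
theorem L91039 : W_30 (nat_lit 5) (nat_lit 0x4000f000600000001000080000000000000000000000000000000) (nat_lit 0x0) (nat_lit 0x100008003000000001c0004000200000000000000000000000000000000000) := T_30 (nat_lit 227) (nat_lit 244) (nat_lit 6) (nat_lit 6) (nat_lit 14) L91038 (by decide +kernel)
theorem L91040 : W_30 (nat_lit 6) (nat_lit 0x4000f000200000001000080000000000000000000000000000000) (nat_lit 0x0) (nat_lit 0x10000800300000000dc0004000200000000000000000000000000000000000) := T_30 (nat_lit 178) (nat_lit 179) (nat_lit 2) (nat_lit 5) (nat_lit 11) L91039 (by decide +kernel)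
theorem L91041 : W_30 (nat_lit 7) (nat_lit 0xf000200000001000080000000000000000000000000000000) (nat_lit 0x0) (nat_lit 0x100008003c0000000dc001e000a00000000000000000000000000000000000) := Q_30 (nat_lit 210) (C_30 L84814 (C_30 L89567 (C_30 L91032 (C_30 L91035 (C_30 L91040 N_30))))) (by decide +kernel)
theorem L91042 : W_30 (nat_lit 2) (nat_lit 0x1f000a80010001000080000000000000000000000000000000) (nat_lit 0x0) (nat_lit 0x700000000000000000000000000000000000000000000000000000) := D_30 (nat_lit 213) (nat_lit 212) (nat_lit 214) (nat_lit 3) (nat_lit 5) (nat_lit 11) (nat_lit 3) (nat_lit 6) (nat_lit 11) (by decide +kernel)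
theorem L91043 : W_30 (nat_lit 3) (nat_lit 0xf000a80010001000080000000000000000000000000000000) (nat_lit 0x0) (nat_lit 0x700010001000000000000000000000000000000000000000000000) := T_30 (nat_lit 196) (nat_lit 180) (nat_lit 2) (nat_lit 6) (nat_lit 11) L91042 (by decide +kernel)
theorem L91044 : W_30 (nat_lit 4) (nat_lit 0xf000a80000001000080000000000000000000000000000000) (nat_lit 0x0) (nat_lit 0x700010001000010000800000000000000000000000000000000000) := T_30 (nat_lit 160) (nat_lit 143) (nat_lit 6) (nat_lit 7) (nat_lit 11) L91043 (by decide +kernel)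
theorem L91045 : W_30 (nat_lit 5) (nat_lit 0xf000280000001000080000000000000000000000000000000) (nat_lit 0x0) (nat_lit 0x700010001c00010000800000000000000000000000000000000000) := T_30 (nat_lit 179) (nat_lit 178) (nat_lit 2) (nat_lit 5) (nat_lit 11) L91044 (by decide +kernel)
theorem L91046 : W_30 (nat_lit 6) (nat_lit 0xf000200000001000080000000000000000000000000000000) (nat_lit 0x0) (nat_lit 0x700010001cc0010000800000000000000000000000000000000000) := T_30 (nat_lit 175) (nat_lit 174) (nat_lit 0) (nat_lit 8) (nat_lit 11) L91045 (by decide +kernel)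
theorem L91047 : W_30 (nat_lit 2) (nat_lit 0x10003f000a00010001000080000000000000000000000000000000) (nat_lit 0x0) (nat_lit 0xc0040000000000000000000000000000000000000000000000000) := D_30 (nat_lit 211) (nat_lit 210) (nat_lit 198) (nat_lit 1) (nat_lit 10) (nat_lit 11) (nat_lit 1) (nat_lit 11) (nat_lit 11) (by decide +kernel)
theorem L91048 : W_30 (nat_lit 3) (nat_lit 0x10001f000a00010001000080000000000000000000000000000000) (nat_lit 0x0) (nat_lit 0xc0060000100000000000000000000000000000000000000000000) := T_30 (nat_lit 197) (nat_lit 176) (nat_lit 0) (nat_lit 10) (nat_lit 11) L91047 (by decide +kernel)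
theorem L91049 : W_30 (nat_lit 4) (nat_lit 0x10000f000a00010001000080000000000000000000000000000000) (nat_lit 0x0) (nat_lit 0xc0070001100000000000000000000000000000000000000000000) := T_30 (nat_lit 196) (nat_lit 180) (nat_lit 2) (nat_lit 6) (nat_lit 11) L91048 (by decide +kernel)
theorem L91050 : W_30 (nat_lit 5) (nat_lit 0x10000f000200010001000080000000000000000000000000000000) (nat_lit 0x0) (nat_lit 0xc0070001d00000000000000000000000000000000000000000000) := T_30 (nat_lit 179) (nat_lit 178) (nat_lit 2) (nat_lit 5) (nat_lit 11) L91049 (by decide +kernel)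
theorem L91051 : W_30 (nat_lit 6) (nat_lit 0x10000f000200000001000080000000000000000000000000000000) (nat_lit 0x0) (nat_lit 0xc0070001d00010000800000000000000000000000000000000000) := T_30 (nat_lit 160) (nat_lit 143) (nat_lit 7) (nat_lit 7) (nat_lit 8) L91050 (by decide +kernel)
theorem L91052 : W_30 (nat_lit 7) (nat_lit 0xf000200000001000080000000000000000000000000000000) (nat_lit 0x0) (nat_lit 0x3c0070001d00010000800000000000000000000000000000000000) := T_30 (nat_lit 212) (nat_lit 213) (nat_lit 3) (nat_lit 5) (nat_lit 11) L91051 (by decide +kernel)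
theorem L91053 : W_30 (nat_lit 8) (nat_lit 0x7000200000001000080000000000000000000000000000000) (nat_lit 0x0) (nat_lit 0x10000800fc0078003dc001e000a00000000000000000000000000000000000) := Q_30 (nat_lit 195) (C_30 L86504 (C_30 L84922 (C_30 L91041 (C_30 L91046 (C_30 L91052 (C_30 L10446 N_30)))))) (by decide +kernel)
theorem L91054 : W_30 (nat_lit 11) (nat_lit 0x6000200000001000080000000000000000000000000000000) (nat_lit 0x0) (nat_lit 0x10000800fdc079c03df001e000a00000000000000000000000000000000000) := Q_30 (nat_lit 192) (C_30 L86991 (C_30 L86486 (C_30 L85298 (C_30 L23864 (C_30 L91053 N_30))))) (by decide +kernel)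
theorem L91055 : W_30 (nat_lit 13) (nat_lit 0x40006000200000001000080000000000000000000000000000000) (nat_lit 0x0) (nat_lit 0x3f001f807bc019e01d8000c000600030000000000000000000000000000000) := Q_30 (nat_lit 192) (C_30 L84547 (C_30 L90972 (C_30 L80212 (C_30 L79642 (C_30 L79641 N_30))))) (by decide +kernel)
theorem L91056 : W_30 (nat_lit 4) (nat_lit 0x2c000700030001d001000080000000000000000000000000000000) (nat_lit 0x0) (nat_lit 0x700038000000080000000000000000000000000000000000000000000) := T_30 (nat_lit 209) (nat_lit 226) (nat_lit 5) (nat_lit 6) (nat_lit 9) L89878 (by decide +kernel)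
theorem L91057 : W_30 (nat_lit 5) (nat_lit 0x2c000700030001c001000080000000000000000000000000000000) (nat_lit 0x0) (nat_lit 0x700038000000080003000000000000000000000000000000000000000) := T_30 (nat_lit 156) (nat_lit 157) (nat_lit 3) (nat_lit 3) (nat_lit 9) L91056 (by decide +kernel)
theorem L91058 : W_30 (nat_lit 6) (nat_lit 0x2c0007000300018001000080000000000000000000000000000000) (nat_lit 0x0) (nat_lit 0x700038000000080007000200000000000000000000000000000000000) := T_30 (nat_lit 158) (nat_lit 141) (nat_lit 4) (nat_lit 6) (nat_lit 12) L91057 (by decide +kernel)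
theorem L91059 : W_30 (nat_lit 7) (nat_lit 0x2c0007000200018001000080000000000000000000000000000000) (nat_lit 0x0) (nat_lit 0x1700038000000180007000200000000000000000000000000000000000) := T_30 (nat_lit 176) (nat_lit 228) (nat_lit 7) (nat_lit 6) (nat_lit 9) L91058 (by decide +kernel)
theorem L91060 : W_30 (nat_lit 8) (nat_lit 0x2c0007000200010001000080000000000000000000000000000000) (nat_lit 0x0) (nat_lit 0x170003800000018000f000600000000000000000000000000000000000) := T_30 (nat_lit 159) (nat_lit 142) (nat_lit 4) (nat_lit 7) (nat_lit 12) L91059 (by decide +kernel)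
theorem L91061 : W_30 (nat_lit 9) (nat_lit 0xc0007000200010001000080000000000000000000000000000000) (nat_lit 0x0) (nat_lit 0x170033800000018000f000600000000000000000000000000000000000) := T_30 (nat_lit 213) (nat_lit 212) (nat_lit 0) (nat_lit 9) (nat_lit 12) L91060 (by decide +kernel)
theorem L91062 : W_30 (nat_lit 10) (nat_lit 0xc0007000200000001000080000000000000000000000000000000) (nat_lit 0x0) (nat_lit 0x170033800000018001f000e00000000000000000000000000000000000) := T_30 (nat_lit 160) (nat_lit 143) (nat_lit 6) (nat_lit 7) (nat_lit 11) L91061 (by decide +kernel)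
theorem L91063 : W_30 (nat_lit 11) (nat_lit 0x40007000200000001000080000000000000000000000000000000) (nat_lit 0x0) (nat_lit 0x40017003b8008c0018001f000e00000000000000000000000000000000000) := Q_30 (nat_lit 211) (C_30 L78777 (C_30 L81010 (C_30 L91062 N_30))) (by decide +kernel)
theorem L91064 : W_30 (nat_lit 13) (nat_lit 0x40006000200000001000080000000000000000000000000000000) (nat_lit 0x0) (nat_lit 0x38007c0017007b8039c01d8001f000e00000000000000000000000000000000000) := Q_30 (nat_lit 192) (C_30 L91063 (C_30 L80212 (C_30 L79642 (C_30 L84431 (C_30 L90990 N_30))))) (by decide +kernel)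
theorem L91065 : W_30 (nat_lit 14) (nat_lit 0x6000200000001000080000000000000000000000000000000) (nat_lit 0x0) (nat_lit 0x38007f001f807fc039e01d8001f000e00030000000000000000000000000000000) := Q_30 (nat_lit 210) (C_30 L80043 (C_30 L84557 (C_30 L10108 (C_30 L91055 (C_30 L91064 N_30))))) (by decide +kernel)
theorem L91066 : W_30 (nat_lit 9) (nat_lit 0x40007000200000001000080000000000000000000000000000000) (nat_lit 0x0) (nat_lit 0xf80078001dc001e000a00000000000000000000000000000000000) := Q_30 (nat_lit 195) (C_30 L89582 (C_30 L90946 (C_30 L89562 (C_30 L89556 (C_30 L89567 N_30))))) (by decide +kernel)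
theorem L91067 : W_30 (nat_lit 11) (nat_lit 0x40006000200000001000080000000000000000000000000000000) (nat_lit 0x0) (nat_lit 0x1400fa0079f01de001f000f80138000000000000000000000000000000) := Q_30 (nat_lit 192) (C_30 L89724 (C_30 L89719 (C_30 L84431 (C_30 L91066 N_30)))) (by decide +kernel)
theorem L91068 : W_30 (nat_lit 12) (nat_lit 0x6000200000001000080000000000000000000000000000000) (nat_lit 0x0) (nat_lit 0x38001c00fe0079f01de001f000f80138000000000000000000000000000000) := Q_30 (nat_lit 210) (C_30 L89640 (C_30 L89733 (C_30 L84557 (C_30 L80043 (C_30 L10108 (C_30 L91067 N_30)))))) (by decide +kernel)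
theorem L91070 : W_30 (nat_lit 12) (nat_lit 0x40007000200000001000080000000000000000000000000000000) (nat_lit 0x0) (nat_lit 0x3f001f0027803b8000400df001f000f80020001000000000000000000000000000) := Q_30 (nat_lit 209) (C_30 L79774 (C_30 L90921 (C_30 L79768 (C_30 L84393 (C_30 L84394 N_30))))) (by decide +kernel)
theorem L91071 : W_30 (nat_lit 13) (nat_lit 0x40006000200000001000080000000000000000000000000000000) (nat_lit 0x0) (nat_lit 0x3f001f0027803bc001f01dfc01f000f80020001000000000000000000000000000) := Q_30 (nat_lit 192) (C_30 L84933 (C_30 L79746 (C_30 L80212 (C_30 L91070 (C_30 L84431 N_30))))) (by decide +kernel)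
theorem L91072 : W_30 (nat_lit 14) (nat_lit 0x6000200000001000080000000000000000000000000000000) (nat_lit 0x0) (nat_lit 0x3f001f002f803fc001f01dfc01f000f80020001000000000000000000000000000) := Q_30 (nat_lit 210) (C_30 L90734 (C_30 L84557 (C_30 L84360 (C_30 L91071 N_30)))) (by decide +kernel)
theorem L91075 : W_30 (nat_lit 2) (nat_lit 0x1800080007c00200000001000080000000000000000000000000000000) (nat_lit 0x0) (nat_lit 0x70000000000000000000000000000000000000000000) := D_30 (nat_lit 173) (nat_lit 174) (nat_lit 172) (nat_lit 0) (nat_lit 7) (nat_lit 11) (nat_lit 0) (nat_lit 6) (nat_lit 11) (by decide +kernel)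
theorem L91076 : W_30 (nat_lit 3) (nat_lit 0x1800080007800200000001000080000000000000000000000000000000) (nat_lit 0x0) (nat_lit 0x40000400070000000000000000000000000000000000000000000) := T_30 (nat_lit 190) (nat_lit 210) (nat_lit 3) (nat_lit 3) (nat_lit 11) L91075 (by decide +kernel)
theorem L91077 : W_30 (nat_lit 4) (nat_lit 0x1800080007000200000001000080000000000000000000000000000000) (nat_lit 0x0) (nat_lit 0x140000c00070000000000000000000000000000000000000000000) := T_30 (nat_lit 191) (nat_lit 212) (nat_lit 3) (nat_lit 4) (nat_lit 11) L91076 (by decide +kernel)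
theorem L91078 : W_30 (nat_lit 5) (nat_lit 0x1000080007000200000001000080000000000000000000000000000000) (nat_lit 0x0) (nat_lit 0x10000800140000c00070000000000000000000000000000000000000000000) := T_30 (nat_lit 227) (nat_lit 244) (nat_lit 5) (nat_lit 7) (nat_lit 10) L91077 (by decide +kernel)
theorem L91080 : W_30 (nat_lit 2) (nat_lit 0x38000c0006000200000001000080000000000000000000000000000000) (nat_lit 0x0) (nat_lit 0xc000020000000000000000000000000000000000000000000000000000) := D_30 (nat_lit 230) (nat_lit 231) (nat_lit 209) (nat_lit 0) (nat_lit 10) (nat_lit 13) (nat_lit 0) (nat_lit 9) (nat_lit 13) (by decide +kernel)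
theorem L91081 : W_30 (nat_lit 3) (nat_lit 0x18000c0006000200000001000080000000000000000000000000000000) (nat_lit 0x0) (nat_lit 0x4000e000020000000000000000000000000000000000000000000000000000) := T_30 (nat_lit 229) (nat_lit 246) (nat_lit 7) (nat_lit 7) (nat_lit 10) L91080 (by decide +kernel)
theorem L91082 : W_30 (nat_lit 4) (nat_lit 0x10000c0006000200000001000080000000000000000000000000000000) (nat_lit 0x0) (nat_lit 0x5000e800020000000000000000000000000000000000000000000000000000) := T_30 (nat_lit 227) (nat_lit 244) (nat_lit 6) (nat_lit 6) (nat_lit 14) L91081 (by decide +kernel)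
theorem L91083 : W_30 (nat_lit 2) (nat_lit 0xb0000c000f800340000001000080000000000000000000000000000000) (nat_lit 0x0) (nat_lit 0x20030000000000000000000000000000000000000000000000000) := D_30 (nat_lit 196) (nat_lit 197) (nat_lit 209) (nat_lit 1) (nat_lit 10) (nat_lit 11) (nat_lit 1) (nat_lit 9) (nat_lit 11) (by decide +kernel)
theorem L91084 : W_30 (nat_lit 3) (nat_lit 0xb0000c0007800340000001000080000000000000000000000000000000) (nat_lit 0x0) (nat_lit 0x20038000080000000000000000000000000000000000000000000) := T_30 (nat_lit 195) (nat_lit 175) (nat_lit 3) (nat_lit 4) (nat_lit 10) L91083 (by decide +kernel)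
theorem L91085 : W_30 (nat_lit 4) (nat_lit 0xb0000c0007800300000001000080000000000000000000000000000000) (nat_lit 0x0) (nat_lit 0x200380000e0000000000000000000000000000000000000000000) := T_30 (nat_lit 174) (nat_lit 173) (nat_lit 0) (nat_lit 7) (nat_lit 11) L91084 (by decide +kernel)
theorem L91086 : W_30 (nat_lit 5) (nat_lit 0xb0000c0007800200000001000080000000000000000000000000000000) (nat_lit 0x0) (nat_lit 0x200380001e0008000000000000000000000000000000000000000) := T_30 (nat_lit 176) (nat_lit 159) (nat_lit 7) (nat_lit 6) (nat_lit 9) L91085 (by decide +kernel)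
theorem L91087 : W_30 (nat_lit 6) (nat_lit 0xb0000c0007000200000001000080000000000000000000000000000000) (nat_lit 0x0) (nat_lit 0x20038c001e0008000000000000000000000000000000000000000) := T_30 (nat_lit 191) (nat_lit 190) (nat_lit 3) (nat_lit 3) (nat_lit 11) L91086 (by decide +kernel)
theorem L91088 : W_30 (nat_lit 7) (nat_lit 0x30000c0007000200000001000080000000000000000000000000000000) (nat_lit 0x0) (nat_lit 0xc000020038c001e0008000000000000000000000000000000000000000) := T_30 (nat_lit 231) (nat_lit 230) (nat_lit 0) (nat_lit 10) (nat_lit 13) L91087 (by decide +kernel)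
theorem L91089 : W_30 (nat_lit 8) (nat_lit 0x10000c0007000200000001000080000000000000000000000000000000) (nat_lit 0x0) (nat_lit 0x4000e000020038c001e0008000000000000000000000000000000000000000) := T_30 (nat_lit 229) (nat_lit 246) (nat_lit 7) (nat_lit 7) (nat_lit 10) L91088 (by decide +kernel)
theorem L91090 : W_30 (nat_lit 2) (nat_lit 0x10000c000f000200000001000080000000000000000000000000000000) (nat_lit 0x0) (nat_lit 0x20030000000000000000000000000000000000000000000000000) := D_30 (nat_lit 196) (nat_lit 209) (nat_lit 197) (nat_lit 1) (nat_lit 9) (nat_lit 11) (nat_lit 1) (nat_lit 10) (nat_lit 11) (by decide +kernel)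
theorem L91091 : W_30 (nat_lit 2) (nat_lit 0x10000c000f000780000001000080000000000000000000000000000000) (nat_lit 0x0) (nat_lit 0x6000200000000000000000000000000000000000) := D_30 (nat_lit 158) (nat_lit 141) (nat_lit 157) (nat_lit 7) (nat_lit 5) (nat_lit 8) (nat_lit 0) (nat_lit 8) (nat_lit 10) (by decide +kernel)
theorem L91092 : W_30 (nat_lit 3) (nat_lit 0x10000c000f000380000001000080000000000000000000000000000000) (nat_lit 0x0) (nat_lit 0xc00006000200000000000000000000000000000000000) := T_30 (nat_lit 178) (nat_lit 179) (nat_lit 2) (nat_lit 5) (nat_lit 11) L91091 (by decide +kernel)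
theorem L91093 : W_30 (nat_lit 4) (nat_lit 0x10000c000f000300000001000080000000000000000000000000000000) (nat_lit 0x0) (nat_lit 0xcc0006000200000000000000000000000000000000000) := T_30 (nat_lit 175) (nat_lit 174) (nat_lit 3) (nat_lit 4) (nat_lit 10) L91092 (by decide +kernel)
theorem L91094 : W_30 (nat_lit 5) (nat_lit 0x10000c000f000200000001000080000000000000000000000000000000) (nat_lit 0x0) (nat_lit 0xdc000e000200000000000000000000000000000000000) := T_30 (nat_lit 176) (nat_lit 159) (nat_lit 7) (nat_lit 6) (nat_lit 9) L91093 (by decide +kernel)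
theorem L91095 : W_30 (nat_lit 6) (nat_lit 0x10000c0007000200000001000080000000000000000000000000000000) (nat_lit 0x0) (nat_lit 0x20038001dc000e000200000000000000000000000000000000000) := Q_30 (nat_lit 195) (C_30 L90213 (C_30 L91090 (C_30 L91094 N_30))) (by decide +kernel)
theorem L91096 : W_30 (nat_lit 9) (nat_lit 0x10000c0006000200000001000080000000000000000000000000000000) (nat_lit 0x0) (nat_lit 0x4000e000020039c01de000e000200000000000000000000000000000000000) := Q_30 (nat_lit 192) (C_30 L78654 (C_30 L91089 (C_30 L91095 N_30))) (by decide +kernel)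
theorem L91097 : W_30 (nat_lit 10) (nat_lit 0x1000080006000200000001000080000000000000000000000000000000) (nat_lit 0x0) (nat_lit 0x5000e800060039c01de000e000200000000000000000000000000000000000) := Q_30 (nat_lit 210) (C_30 L79371 (C_30 L91082 (C_30 L91096 N_30))) (by decide +kernel)
theorem L91101 : W_30 (nat_lit 2) (nat_lit 0x18001e000200000001000080000000000000000000000000000000) (nat_lit 0x0) (nat_lit 0x60020000000000000000000000000000000000000000000000000) := D_30 (nat_lit 210) (nat_lit 209) (nat_lit 197) (nat_lit 2) (nat_lit 5) (nat_lit 12) (nat_lit 1) (nat_lit 10) (nat_lit 11) (by decide +kernel)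
theorem L91102 : W_30 (nat_lit 5) (nat_lit 0x4000000018001e000300000001000080000000000000000000000000000000) (nat_lit 0x0) (nat_lit 0x60000001c0000c000600000000000000000000000000000000000) := T_30 (nat_lit 210) (nat_lit 209) (nat_lit 2) (nat_lit 5) (nat_lit 12) L83645 (by decide +kernel)
theorem L91103 : W_30 (nat_lit 6) (nat_lit 0x4000000018001e000200000001000080000000000000000000000000000000) (nat_lit 0x0) (nat_lit 0x60000001d8000c000600000000000000000000000000000000000) := T_30 (nat_lit 176) (nat_lit 175) (nat_lit 0) (nat_lit 9) (nat_lit 11) L91102 (by decide +kernel)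
theorem L91104 : W_30 (nat_lit 7) (nat_lit 0x18001e000200000001000080000000000000000000000000000000) (nat_lit 0x0) (nat_lit 0x40002000060000001d8000c000600000000000000000000000000000000000) := T_30 (nat_lit 246) (nat_lit 229) (nat_lit 4) (nat_lit 8) (nat_lit 14) L91103 (by decide +kernel)
theorem L91105 : W_30 (nat_lit 8) (nat_lit 0x18000e000200000001000080000000000000000000000000000000) (nat_lit 0x0) (nat_lit 0x40002000060030001d8000c000600000000000000000000000000000000000) := Q_30 (nat_lit 196) (C_30 L87028 (C_30 L91101 (C_30 L91104 N_30))) (by decide +kernel)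
theorem L91106 : W_30 (nat_lit 2) (nat_lit 0x400040003c001e000a00000001000080000000000000000000000000000000) (nat_lit 0x0) (nat_lit 0x1800080000000000000000000000000000000000000000000000000000000000000) := D_30 (nat_lit 247) (nat_lit 264) (nat_lit 263) (nat_lit 4) (nat_lit 9) (nat_lit 15) (nat_lit 5) (nat_lit 9) (nat_lit 11) (by decide +kernel)
theorem L91107 : W_30 (nat_lit 3) (nat_lit 0x400000003c001e000a00000001000080000000000000000000000000000000) (nat_lit 0x0) (nat_lit 0x180008000c000000000000000000000000000000000000000000000000000000000) := T_30 (nat_lit 230) (nat_lit 231) (nat_lit 3) (nat_lit 6) (nat_lit 12) L91106 (by decide +kernel)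
theorem L91108 : W_30 (nat_lit 4) (nat_lit 0x400000001c001e000a00000001000080000000000000000000000000000000) (nat_lit 0x0) (nat_lit 0x180008000c000600000000000000000000000000000000000000000000000000000) := T_30 (nat_lit 213) (nat_lit 214) (nat_lit 3) (nat_lit 6) (nat_lit 11) L91107 (by decide +kernel)
theorem L91109 : W_30 (nat_lit 5) (nat_lit 0x400000001c001e000200000001000080000000000000000000000000000000) (nat_lit 0x0) (nat_lit 0x180008000c000600000001800000000000000000000000000000000000000000000) := T_30 (nat_lit 179) (nat_lit 180) (nat_lit 2) (nat_lit 6) (nat_lit 11) L91108 (by decide +kernel)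
theorem L91110 : W_30 (nat_lit 6) (nat_lit 0x4000000018001e000200000001000080000000000000000000000000000000) (nat_lit 0x0) (nat_lit 0x180008000c000660000001800000000000000000000000000000000000000000000) := T_30 (nat_lit 210) (nat_lit 209) (nat_lit 2) (nat_lit 5) (nat_lit 12) L91109 (by decide +kernel)
theorem L91111 : W_30 (nat_lit 7) (nat_lit 0x18001e000200000001000080000000000000000000000000000000) (nat_lit 0x0) (nat_lit 0x18000c000e000660000001800000000000000000000000000000000000000000000) := T_30 (nat_lit 246) (nat_lit 229) (nat_lit 4) (nat_lit 8) (nat_lit 14) L91110 (by decide +kernel)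
theorem L91112 : W_30 (nat_lit 8) (nat_lit 0x18000e000200000001000080000000000000000000000000000000) (nat_lit 0x0) (nat_lit 0x18000c000e000e60070001800000000000000000000000000000000000000000000) := Q_30 (nat_lit 196) (C_30 L91101 (C_30 L87029 (C_30 L91111 N_30))) (by decide +kernel)
theorem L91113 : W_30 (nat_lit 7) (nat_lit 0x18000e000200000001000080000000000000000000000000000000) (nat_lit 0x0) (nat_lit 0x10000c000e000e60070000400000000000000000000000000000000000000000000) := Q_30 (nat_lit 196) (C_30 L91101 (C_30 L87029 (C_30 L90430 N_30))) (by decide +kernel)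
theorem L91114 : W_30 (nat_lit 2) (nat_lit 0x200038001e000200000001000080000000000000000000000000000000) (nat_lit 0x0) (nat_lit 0x1800040000000000000000000000000000000000000000) := D_30 (nat_lit 179) (nat_lit 162) (nat_lit 180) (nat_lit 5) (nat_lit 9) (nat_lit 9) (nat_lit 2) (nat_lit 6) (nat_lit 11) (by decide +kernel)
theorem L91115 : W_30 (nat_lit 3) (nat_lit 0x200018001e000200000001000080000000000000000000000000000000) (nat_lit 0x0) (nat_lit 0x600000001800040000000000000000000000000000000000000000) := T_30 (nat_lit 213) (nat_lit 214) (nat_lit 3) (nat_lit 6) (nat_lit 11) L91114 (by decide +kernel)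
theorem L91116 : W_30 (nat_lit 4) (nat_lit 0x18001e000200000001000080000000000000000000000000000000) (nat_lit 0x0) (nat_lit 0x40002000600000001800040000000000000000000000000000000000000000) := T_30 (nat_lit 229) (nat_lit 246) (nat_lit 4) (nat_lit 8) (nat_lit 14) L91115 (by decide +kernel)
theorem L91117 : W_30 (nat_lit 5) (nat_lit 0x18000e000200000001000080000000000000000000000000000000) (nat_lit 0x0) (nat_lit 0x40002000e00070001980040000000000000000000000000000000000000000) := Q_30 (nat_lit 196) (C_30 L87029 (C_30 L87028 (C_30 L91116 N_30))) (by decide +kernel)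
theorem L91118 : W_30 (nat_lit 7) (nat_lit 0x18000e000200000001000080000000000000000000000000000000) (nat_lit 0x0) (nat_lit 0x100008000c000e60070001c00000000000000000000000000000000000000000000) := Q_30 (nat_lit 196) (C_30 L91101 (C_30 L87029 (C_30 L90672 N_30))) (by decide +kernel)
theorem L91119 : W_30 (nat_lit 9) (nat_lit 0x180006000200000001000080000000000000000000000000000000) (nat_lit 0x0) (nat_lit 0x18000c000e000e60078001d8004c000600000000000000000000000000000000000) := Q_30 (nat_lit 195) (C_30 L91105 (C_30 L90558 (C_30 L91112 (C_30 L91113 (C_30 L91117 (C_30 L91118 N_30)))))) (by decide +kernel)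
theorem L91120 : W_30 (nat_lit 9) (nat_lit 0x180006000200000001000080000000000000000000000000000000) (nat_lit 0x0) (nat_lit 0xc0006800070079803dc000c000600000000000000000000000000000000000) := Q_30 (nat_lit 195) (C_30 L87123 (C_30 L91105 (C_30 L80604 (C_30 L80609 (C_30 L80598 N_30))))) (by decide +kernel)
theorem L91121 : W_30 (nat_lit 10) (nat_lit 0x180004000200000001000080000000000000000000000000000000) (nat_lit 0x0) (nat_lit 0x18000c000e800e7007b803dc004c000600000000000000000000000000000000000) := Q_30 (nat_lit 193) (C_30 L80590 (C_30 L80588 (C_30 L91119 (C_30 L91120 N_30)))) (by decide +kernel)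
theorem L91122 : W_30 (nat_lit 2) (nat_lit 0x3c001e000b00018001000080000000000000000000000000000000) (nat_lit 0x0) (nat_lit 0x400004000200000000000000000000000000000000000) := D_30 (nat_lit 158) (nat_lit 178) (nat_lit 141) (nat_lit 0) (nat_lit 9) (nat_lit 10) (nat_lit 4) (nat_lit 6) (nat_lit 12) (by decide +kernel)
theorem L91123 : W_30 (nat_lit 3) (nat_lit 0x3c001e000300018001000080000000000000000000000000000000) (nat_lit 0x0) (nat_lit 0x1c00004000200000000000000000000000000000000000) := T_30 (nat_lit 179) (nat_lit 180) (nat_lit 2) (nat_lit 6) (nat_lit 11) L91122 (by decide +kernel)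
theorem L91124 : W_30 (nat_lit 4) (nat_lit 0x3c001e000200018001000080000000000000000000000000000000) (nat_lit 0x0) (nat_lit 0x1d80004000200000000000000000000000000000000000) := T_30 (nat_lit 176) (nat_lit 175) (nat_lit 0) (nat_lit 9) (nat_lit 11) L91123 (by decide +kernel)
theorem L91125 : W_30 (nat_lit 5) (nat_lit 0x3c0016000200018001000080000000000000000000000000000000) (nat_lit 0x0) (nat_lit 0x20008001d80004000200000000000000000000000000000000000) := T_30 (nat_lit 195) (nat_lit 209) (nat_lit 2) (nat_lit 5) (nat_lit 12) L91124 (by decide +kernel)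
theorem L91126 : W_30 (nat_lit 6) (nat_lit 0x3c0006000200018001000080000000000000000000000000000000) (nat_lit 0x0) (nat_lit 0x20038001d80004000200000000000000000000000000000000000) := T_30 (nat_lit 196) (nat_lit 197) (nat_lit 2) (nat_lit 6) (nat_lit 12) L91125 (by decide +kernel)
theorem L91127 : W_30 (nat_lit 7) (nat_lit 0x1c0006000200018001000080000000000000000000000000000000) (nat_lit 0x0) (nat_lit 0x620038001d80004000200000000000000000000000000000000000) := T_30 (nat_lit 213) (nat_lit 214) (nat_lit 0) (nat_lit 10) (nat_lit 12) L91126 (by decide +kernel)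
theorem L91128 : W_30 (nat_lit 8) (nat_lit 0x1c0006000200010001000080000000000000000000000000000000) (nat_lit 0x0) (nat_lit 0x620038001d8000c000600000000000000000000000000000000000) := T_30 (nat_lit 159) (nat_lit 142) (nat_lit 4) (nat_lit 7) (nat_lit 12) L91127 (by decide +kernel)
theorem L91129 : W_30 (nat_lit 9) (nat_lit 0x180006000200010001000080000000000000000000000000000000) (nat_lit 0x0) (nat_lit 0x800660038001d8000c000600000000000000000000000000000000000) := T_30 (nat_lit 210) (nat_lit 227) (nat_lit 5) (nat_lit 7) (nat_lit 9) L91128 (by decide +kernel)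
theorem L91130 : W_30 (nat_lit 10) (nat_lit 0x180006000200000001000080000000000000000000000000000000) (nat_lit 0x0) (nat_lit 0x800660038001d8001c000e00000000000000000000000000000000000) := T_30 (nat_lit 160) (nat_lit 143) (nat_lit 6) (nat_lit 7) (nat_lit 11) L91129 (by decide +kernel)
theorem L91131 : W_30 (nat_lit 13) (nat_lit 0x180004000200000001000080000000000000000000000000000000) (nat_lit 0x0) (nat_lit 0x1000080066003b801dc001f000f0011c000000000000000000000000000000) := Q_30 (nat_lit 193) (C_30 L90306 (C_30 L90340 (C_30 L80590 (C_30 L91130 N_30)))) (by decide +kernel)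
theorem L91132 : W_30 (nat_lit 14) (nat_lit 0x80004000200000001000080000000000000000000000000000000) (nat_lit 0x0) (nat_lit 0x18000d000e800f7007b803dc005f000f0011c000000000000000000000000000000) := Q_30 (nat_lit 212) (C_30 L80586 (C_30 L80584 (C_30 L91121 (C_30 L91131 N_30)))) (by decide +kernel)
end Crest.Agent.Helper32.Snaky.R1_0
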